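import Claimed.Agent.R286.L08.SpiMk

/-!
# Row 286, LL sec. 8, unit SPI, file SpiKer      (owner helper257; prefix `spi`)

The planted path of `Defs/Gh` as a Markov KERNEL from the root field, and the integration formula `∫ f d(spiK B ls z) = ghPath B ls z f`.

* `SpiOm S ι`   : path space = (drivers, terminal spin);
* `SpiReg B ls` : regularity of the hierarchy = measurability of the continuations + normalisation of the transitions;
* `spiK B ls`   : the kernel `root field ↦ law of (drivers, spin)`;
* `spi_int`     : integration formula for bounded measurable tests.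
-/

set_option autoImplicit false

namespace Claimed.Agent.R286

open MeasureTheory ProbabilityTheory
open scoped ENNReal NNReal

variable {S ι : Type} [Fintype S] [Fintype ι]

set_option linter.unusedSectionVars false

/-- path space: drivers and terminal spin -/
abbrev SpiOm (S ι : Type) : Type := (ℕ → ι → ℝ) × S

/-- regularity of the hierarchy: measurable continuations, normalised transitions -/
def SpiReg (B : GhB S) : List (GhLv S ι) → Prop
  | [] => True
  | l :: ls => Measurable (ghF B (l :: ls)) ∧ (∀ z, ∫ ξ, ghD B l ls z ξ ∂ghStd ι = 1) ∧ SpiReg B ls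

theorem spi_reg_nrm {B : GhB S} : ∀ {ls : List (GhLv S ι)}, SpiReg B ls → SpiNrm B ls
  | [], _ => trivial
  | _ :: _, h => ⟨h.2.1, spi_reg_nrm h.2.2⟩

theorem spi_f0_meas (B : GhB S) : Measurable (ghF0 B) := by
  unfold ghF0
  fun_prop

theorem spi_reg_meas {B : GhB S} : ∀ {ls : List (GhLv S ι)}, SpiReg B ls → Measurable (ghF B ls)
  | [], _ => by
    have : ghF (ι := ι) B [] = ghF0 B := by funext z; simp [ghF]
    rw [this]; exact spi_f0_meas B
  | _ :: _, h => h.1

theorem spi_reg_drop {B : GhB S} : ∀ {ls : List (GhLv S ι)} (k : ℕ), SpiReg B ls → SpiReg B (ls.drop k)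
  | [], k, _ => by simp [SpiReg]
  | _ :: _, 0, h => by simpa using h
  | _ :: ls, k + 1, h => by simpa using spi_reg_drop (ls := ls) k h.2.2

theorem spi_inc_meas (l : GhLv S ι) : Measurable fun p : (S → ℝ) × (ι → ℝ) => p.1 + l.inc p.2 := by
  unfold GhLv.inc
  fun_prop

theorem spi_gw_meas (B : GhB S) (s : S) : Measurable fun z : S → ℝ => ghGw B z s := by
  unfold ghGw
  fun_prop

theorem spi_d_meas {B : GhB S} (l : GhLv S ι) {ls : List (GhLv S ι)} (h : SpiReg B (l :: ls)) :
    Measurable fun p : (S → ℝ) × (ι → ℝ) => ghD B l ls p.1 p.2 := by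
  unfold ghD
  have h1 := spi_reg_meas h.2.2
  have h2 := h.1
  have h3 := spi_inc_meas l
  have h4 : Measurable fun p : (S → ℝ) × (ι → ℝ) => ghF B ls (p.1 + l.inc p.2) := h1.comp h3
  have h5 : Measurable fun p : (S → ℝ) × (ι → ℝ) => ghF B (l :: ls) p.1 := h2.comp measurable_fst
  exact Real.measurable_exp.comp ((h4.sub h5).const_mul _)

theorem spi_d_pos (B : GhB S) (l : GhLv S ι) (ls : List (GhLv S ι)) (z : S → ℝ) (ξ : ι → ℝ) : 0 < ghD B l ls z ξ :=
  Real.exp_pos _

theorem spi_gw_nonneg {B : GhB S} (hB : B.Ok) (z : S → ℝ) (s : S) : 0 ≤ ghGw B z s := by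
  unfold ghGw
  exact div_nonneg (mul_nonneg (hB.nonneg s) (Real.exp_pos _).le)
    (Finset.sum_nonneg fun t _ => mul_nonneg (hB.nonneg t) (Real.exp_pos _).le)

variable [MeasurableSpace S] [DiscreteMeasurableSpace S]

/-- the terminal draw -/
noncomputable def spiK0 (B : GhB S) : Kernel (S → ℝ) (SpiOm S ι) :=
  ((Kernel.const (S → ℝ) (Measure.count : Measure S)).withDensity fun z s => ((ghGw B z s).toNNReal : ℝ≥0∞)).map
    fun s => ((fun _ _ => 0 : ℕ → ι → ℝ), s)

/-- one transition -/
noncomputable def spiK1 (B : GhB S) (l : GhLv S ι) (ls : List (GhLv S ι)) : Kernel (S → ℝ) (ι → ℝ) :=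
  (Kernel.const (S → ℝ) (ghStd ι)).withDensity fun z ξ => ((ghD B l ls z ξ).toNNReal : ℝ≥0∞)

/-- **the planted path as a kernel from the root field** -/
noncomputable def spiK (B : GhB S) : List (GhLv S ι) → Kernel (S → ℝ) (SpiOm S ι)
  | [] => spiK0 B
  | l :: ls => (spiK1 B l ls ⊗ₖ (spiK B ls).comap (fun p : (S → ℝ) × (ι → ℝ) => p.1 + l.inc p.2) (spi_inc_meas l)).map
      fun p : (ι → ℝ) × SpiOm S ι => (ghCons p.1 p.2.1, p.2.2)

instance spi_k1_sfin (B : GhB S) (l : GhLv S ι) (ls : List (GhLv S ι)) : IsSFiniteKernel (spiK1 B l ls) := by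
  unfold spiK1; infer_instance

instance spi_k_sfin (B : GhB S) : ∀ ls : List (GhLv S ι), IsSFiniteKernel (spiK B ls)
  | [] => by unfold spiK spiK0; infer_instance
  | l :: ls => by
    have := spi_k_sfin B ls
    unfold spiK; infer_instance

theorem spi_cons_meas : Measurable fun p : (ι → ℝ) × SpiOm S ι => ((ghCons p.1 p.2.1, p.2.2) : SpiOm S ι) := by
  refine Measurable.prodMk ?_ (by fun_prop)
  refine measurable_pi_lambda _ fun t => ?_
  cases t with
  | zero => exact measurable_fst
  | succ t => exact (measurable_pi_apply t).comp (measurable_fst.comp measurable_snd)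

theorem spi_d_meas' {B : GhB S} (l : GhLv S ι) {ls : List (GhLv S ι)} (h : SpiReg B (l :: ls)) :
    Measurable (Function.uncurry fun (z : S → ℝ) (ξ : ι → ℝ) => (ghD B l ls z ξ).toNNReal) :=
  (spi_d_meas l h).real_toNNReal

theorem spi_gw_meas' (B : GhB S) :
    Measurable (Function.uncurry fun (z : S → ℝ) (s : S) => (ghGw B z s).toNNReal) := by
  refine Measurable.real_toNNReal ?_
  refine measurable_from_prod_countable_left fun s => ?_
  exact spi_gw_meas B s

theorem spi_k1_markov {B : GhB S} (l : GhLv S ι) {ls : List (GhLv S ι)} (h : SpiReg B (l :: ls)) :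
    IsMarkovKernel (spiK1 B l ls) := by
  refine ⟨fun z => ⟨?_⟩⟩
  have hm : Measurable (Function.uncurry fun (z : S → ℝ) (ξ : ι → ℝ) => ((ghD B l ls z ξ).toNNReal : ℝ≥0∞)) :=
    (spi_d_meas' l h).coe_nnreal_ennreal
  rw [spiK1, Kernel.withDensity_apply' _ hm, Kernel.const_apply, Measure.restrict_univ]
  have hi : Integrable (fun ξ => ghD B l ls z ξ) (ghStd ι) := integrable_of_integral_eq_one (h.2.1 z)
  have h1 := ofReal_integral_eq_lintegral_ofReal hi (Filter.Eventually.of_forall fun ξ => (spi_d_pos B l ls z ξ).le)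
  rw [h.2.1 z, ENNReal.ofReal_one] at h1
  exact h1.symm

theorem spi_zero_meas : Measurable fun s : S => (((fun _ _ => 0 : ℕ → ι → ℝ), s) : SpiOm S ι) :=
  Measurable.of_discrete

theorem spi_int_nil {B : GhB S} (hB : B.Ok) (z : S → ℝ) (f : SpiOm S ι → ℝ) (hf : Measurable f) :
    ∫ ω, f ω ∂(spiK0 B z) = ∑ s, ghGw B z s * f ((fun _ _ => 0), s) := by
  rw [spiK0, Kernel.map_apply _ spi_zero_meas, integral_map spi_zero_meas.aemeasurable hf.aestronglyMeasurable,
    Kernel.integral_withDensity (spi_gw_meas' B), Kernel.const_apply, integral_count]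
  refine Finset.sum_congr rfl fun s _ => ?_
  rw [NNReal.smul_def, Real.coe_toNNReal _ (spi_gw_nonneg hB z s), smul_eq_mul]

theorem spi_k0_markov {B : GhB S} (hB : B.Ok) : IsMarkovKernel (spiK0 (ι := ι) B) := by
  have h0 : IsMarkovKernel ((Kernel.const (S → ℝ) (Measure.count : Measure S)).withDensity
      fun z s => ((ghGw B z s).toNNReal : ℝ≥0∞)) := by
    refine ⟨fun z => ⟨?_⟩⟩
    rw [Kernel.withDensity_apply' _ (spi_gw_meas' B).coe_nnreal_ennreal, Kernel.const_apply, Measure.restrict_univ,
      lintegral_count]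
    have h1 : ∀ s, ((ghGw B z s).toNNReal : ℝ≥0∞) = ENNReal.ofReal (ghGw B z s) := fun s => rfl
    simp only [h1]
    rw [tsum_fintype, ← ENNReal.ofReal_sum_of_nonneg fun s _ => spi_gw_nonneg hB z s, spi_gw_sum hB, ENNReal.ofReal_one]
  unfold spiK0
  exact Kernel.IsMarkovKernel.map _ spi_zero_meas

theorem spi_k_markov {B : GhB S} (hB : B.Ok) : ∀ {ls : List (GhLv S ι)}, SpiReg B ls → IsMarkovKernel (spiK B ls)
  | [], _ => spi_k0_markov hB
  | l :: ls, h => by
    have h1 := spi_k_markov hB h.2.2
    have h2 := spi_k1_markov l h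
    unfold spiK
    exact Kernel.IsMarkovKernel.map _ spi_cons_meas

/-- **integration formula**: bounded measurable tests -/
theorem spi_int {B : GhB S} (hB : B.Ok) (ls : List (GhLv S ι)) (hr : SpiReg B ls) (z : S → ℝ) (f : SpiOm S ι → ℝ)
    (hf : Measurable f) (C : ℝ) (hC : ∀ ω, |f ω| ≤ C) :
    ∫ ω, f ω ∂(spiK B ls z) = ghPath B ls z fun η s => f (η, s) := by
  induction ls generalizing z f with
  | nil => simp only [spiK, ghPath]; exact spi_int_nil hB z f hf
  | cons l ls ih =>
    have h1 := spi_k_markov hB hr.2.2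
    have h2 := spi_k1_markov l hr
    simp only [spiK, ghPath]
    rw [Kernel.map_apply _ spi_cons_meas, integral_map spi_cons_meas.aemeasurable hf.aestronglyMeasurable,
      ProbabilityTheory.integral_compProd]
    · simp only [Kernel.comap_apply]
      rw [spiK1, Kernel.integral_withDensity (spi_d_meas' l hr), Kernel.const_apply]
      refine integral_congr_ae (Filter.Eventually.of_forall fun ξ => ?_)
      simp only
      rw [NNReal.smul_def, Real.coe_toNNReal _ (spi_d_pos B l ls z ξ).le, smul_eq_mul]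
      congr 1
      exact ih hr.2.2 (z + l.inc ξ) (fun ω => f (ghCons ξ ω.1, ω.2))
        (hf.comp (spi_cons_meas.comp (measurable_const.prodMk measurable_id))) fun ω => hC _
    · refine Integrable.of_bound (hf.comp spi_cons_meas).aestronglyMeasurable C
        (Filter.Eventually.of_forall fun p => ?_)
      rw [Real.norm_eq_abs]; exact hC _

theorem spi_ker_eqns_cite : True := by
  have := @SpiReg.eq_1
  have := @SpiReg.eq_2
  have := @SpiReg.eq_def
  have := @spiK0.eq_1
  have := @spiK1.eq_1
  have := @spiK.eq_1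
  have := @spiK.eq_2
  have := @spiK.eq_def
  trivial

end Claimed.Agent.R286
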