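import Claimed.Agent.R286.L08.SP
import Claimed.Agent.R286.L08.SpiKer

/-!
# Row 286, LL sec. 8, unit SPI, file SpiOk      (owner helper257; prefix `spi`)

The planted chain of `Defs/Gh` is an abstract single path: `spiP B ls z Y dh : L8P (SpiOm S ι) m` and `spi_ok : (spiP ..).Ok`.

* `spiKap B ls z k` : conditional law of the whole path given the first `k` drivers (prefix glued to the planted continuation);
* `spi_kint`        : `∫ f d(κ k ω) = ghPath B (ls.drop k) (z + ghPre ls ω.1 k) (f ∘ splice)`, bounded measurable tests;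
* `spiFil n`        : the filtration of the drivers (everything is known after the terminal draw).
-/

set_option autoImplicit false

namespace Claimed.Agent.R286

open MeasureTheory ProbabilityTheory
open scoped ENNReal NNReal

variable {S ι : Type} [Fintype S] [Fintype ι]

set_option linter.unusedSectionVars false

/-! ### splices and prefix fields -/

theorem spi_pre_succ (l : GhLv S ι) (ls : List (GhLv S ι)) (ζ : ℕ → ι → ℝ) (t : ℕ) :
    ghPre (l :: ls) ζ (t + 1) = l.inc (ζ 0) + ghPre ls (fun j => ζ (j + 1)) t := by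
  simp only [ghPre, List.take_succ_cons, ghSum]

theorem spiSpl_tail {α : Type} (k : ℕ) (ξ η : ℕ → α) :
    (fun j => spiSpl (k + 1) ξ η (j + 1)) = spiSpl k (fun j => ξ (j + 1)) η := by
  funext j; simp [spiSpl]

theorem spi_pre_add (ls : List (GhLv S ι)) (k j : ℕ) (ξ η : ℕ → ι → ℝ) :
    ghPre ls (spiSpl k ξ η) (k + j) = ghPre ls ξ k + ghPre (ls.drop k) η j := by
  induction k generalizing ls ξ with
  | zero => simp [spiSpl_zero, spi_pre_zero]
  | succ k ih =>
    cases ls with
    | nil => simp [spi_pre_nil]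
    | cons l ls =>
      have e : k + 1 + j = (k + j) + 1 := by ring
      rw [e, spi_pre_succ, spi_pre_succ, spiSpl_tail, ih, List.drop_succ_cons, add_assoc]
      congr 2

theorem spi_pre_spl (ls : List (GhLv S ι)) (k : ℕ) (ξ η : ℕ → ι → ℝ) :
    ghPre ls (spiSpl k ξ η) k = ghPre ls ξ k := by
  have h := spi_pre_add ls k 0 ξ η
  rwa [add_zero, spi_pre_zero, add_zero] at h

theorem spiSpl_assoc {α : Type} (k j : ℕ) (ξ η ζ : ℕ → α) :
    spiSpl (k + j) (spiSpl k ξ η) ζ = spiSpl k ξ (spiSpl j η ζ) := by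
  funext t
  simp only [spiSpl]
  by_cases h1 : t < k
  · have h2 : t < k + j := by omega
    simp [h1, h2]
  · by_cases h2 : t < k + j
    · have h3 : t - k < j := by omega
      simp [h1, h2, h3]
    · have h3 : ¬ t - k < j := by omega
      have h4 : t - (k + j) = t - k - j := by omega
      simp [h1, h2, h3, h4]

theorem spiSpl_spl {α : Type} (k : ℕ) (ξ η ζ : ℕ → α) : spiSpl k (spiSpl k ξ η) ζ = spiSpl k ξ ζ := by
  funext t
  simp only [spiSpl]
  by_cases h1 : t < k <;> simp [h1]

/-- the first `k` drivers, then zeros -/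
def spiCut (k : ℕ) (ξ : ℕ → ι → ℝ) : ℕ → ι → ℝ := spiSpl k ξ fun _ _ => 0

theorem spi_spl_meas (k : ℕ) : Measurable fun p : (ℕ → ι → ℝ) × (ℕ → ι → ℝ) => spiSpl k p.1 p.2 := by
  refine measurable_pi_lambda _ fun t => ?_
  simp only [spiSpl]
  by_cases h : t < k
  · simp only [h, if_true]; exact (measurable_pi_apply t).comp measurable_fst
  · simp only [h, if_false]; exact (measurable_pi_apply (t - k)).comp measurable_snd

theorem spi_cut_meas (k : ℕ) : Measurable (spiCut (ι := ι) k) :=
  (spi_spl_meas k).comp (measurable_id.prodMk measurable_const)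

theorem spi_cut_cut {i j : ℕ} (h : i ≤ j) (ξ : ℕ → ι → ℝ) : spiCut i (spiCut j ξ) = spiCut i ξ := by
  funext t
  simp only [spiCut, spiSpl]
  by_cases h1 : t < i
  · have h2 : t < j := by omega
    simp [h1, h2]
  · simp [h1]

theorem spi_sum_meas (ls : List (GhLv S ι)) : Measurable fun ξ : ℕ → ι → ℝ => ghSum ls ξ := by
  induction ls with
  | nil => simp only [ghSum]; exact measurable_const
  | cons l ls ih =>
    simp only [ghSum]
    have h1 : Measurable fun ξ : ℕ → ι → ℝ => l.inc (ξ 0) := by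
      unfold GhLv.inc; fun_prop
    have h2 : Measurable fun ξ : ℕ → ι → ℝ => ghSum ls fun j => ξ (j + 1) :=
      ih.comp (measurable_pi_lambda _ fun j => measurable_pi_apply (j + 1))
    exact h1.add h2

theorem spi_pre_meas (ls : List (GhLv S ι)) (z : S → ℝ) (k : ℕ) : Measurable fun ξ : ℕ → ι → ℝ => z + ghPre ls ξ k :=
  measurable_const.add (spi_sum_meas _)

variable [MeasurableSpace S] [DiscreteMeasurableSpace S]

/-! ### the conditional laws -/

theorem spi_glue_meas (k : ℕ) :
    Measurable fun p : (ℕ → ι → ℝ) × SpiOm S ι => ((spiSpl k p.1 p.2.1, p.2.2) : SpiOm S ι) :=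
  ((spi_spl_meas k).comp (measurable_fst.prodMk (measurable_fst.comp measurable_snd))).prodMk
    (measurable_snd.comp measurable_snd)

/-- conditional law of the whole path given the first `k` drivers, as a kernel from the drivers -/
noncomputable def spiKd (B : GhB S) (ls : List (GhLv S ι)) (z : S → ℝ) (k : ℕ) : Kernel (ℕ → ι → ℝ) (SpiOm S ι) :=
  (Kernel.id ×ₖ (spiK B (ls.drop k)).comap (fun ξ => z + ghPre ls ξ k) (spi_pre_meas ls z k)).map
    fun p : (ℕ → ι → ℝ) × SpiOm S ι => (spiSpl k p.1 p.2.1, p.2.2)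

/-- **conditional law of the whole path given the prefix at the cut `k`** -/
noncomputable def spiKap (B : GhB S) (ls : List (GhLv S ι)) (z : S → ℝ) (k : ℕ) : Kernel (SpiOm S ι) (SpiOm S ι) :=
  if k ≤ ls.length then (spiKd B ls z k).comap Prod.fst measurable_fst else Kernel.id

theorem spi_kd_apply (B : GhB S) (ls : List (GhLv S ι)) (z : S → ℝ) (k : ℕ) (ξ : ℕ → ι → ℝ) :
    spiKd B ls z k ξ = (spiK B (ls.drop k) (z + ghPre ls ξ k)).map fun ω => (spiSpl k ξ ω.1, ω.2) := by
  rw [spiKd, Kernel.map_apply _ (spi_glue_meas k), Kernel.prod_apply, Kernel.id_apply, Kernel.comap_apply,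
    Measure.dirac_prod, Measure.map_map (spi_glue_meas k) measurable_prodMk_left]
  rfl

theorem spi_glue_meas' (k : ℕ) (ξ : ℕ → ι → ℝ) : Measurable fun ω : SpiOm S ι => ((spiSpl k ξ ω.1, ω.2) : SpiOm S ι) :=
  (spi_glue_meas k).comp measurable_prodMk_left

theorem spi_kd_cut (B : GhB S) (ls : List (GhLv S ι)) (z : S → ℝ) (k : ℕ) (ξ : ℕ → ι → ℝ) :
    spiKd B ls z k (spiCut k ξ) = spiKd B ls z k ξ := by
  rw [spi_kd_apply, spi_kd_apply]
  simp only [spiCut, spi_pre_spl, spiSpl_spl]

theorem spi_kd_markov {B : GhB S} (hB : B.Ok) {ls : List (GhLv S ι)} (hr : SpiReg B ls) (z : S → ℝ) (k : ℕ) :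
    IsMarkovKernel (spiKd B ls z k) := by
  have := spi_k_markov hB (spi_reg_drop k hr)
  unfold spiKd
  exact Kernel.IsMarkovKernel.map _ (spi_glue_meas k)

theorem spi_kap_markov {B : GhB S} (hB : B.Ok) {ls : List (GhLv S ι)} (hr : SpiReg B ls) (z : S → ℝ) (k : ℕ) :
    IsMarkovKernel (spiKap B ls z k) := by
  have := spi_kd_markov hB hr z k
  unfold spiKap
  split_ifs <;> infer_instance

theorem spi_kap_le (B : GhB S) {ls : List (GhLv S ι)} (z : S → ℝ) {k : ℕ} (hk : k ≤ ls.length) (ω : SpiOm S ι) :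
    spiKap B ls z k ω = spiKd B ls z k ω.1 := by
  rw [spiKap, if_pos hk, Kernel.comap_apply]

theorem spi_kap_gt (B : GhB S) {ls : List (GhLv S ι)} (z : S → ℝ) {k : ℕ} (hk : ls.length < k) (ω : SpiOm S ι) :
    spiKap B ls z k ω = Measure.dirac ω := by
  rw [spiKap, if_neg (by omega), Kernel.id_apply]

/-- **integration formula for the conditional laws** -/
theorem spi_kint {B : GhB S} (hB : B.Ok) {ls : List (GhLv S ι)} (hr : SpiReg B ls) (z : S → ℝ) {k : ℕ}
    (hk : k ≤ ls.length) (ω : SpiOm S ι) (f : SpiOm S ι → ℝ) (hf : Measurable f) (C : ℝ) (hC : ∀ ω, |f ω| ≤ C) :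
    ∫ ω', f ω' ∂(spiKap B ls z k ω) =
      ghPath B (ls.drop k) (z + ghPre ls ω.1 k) fun η s => f (spiSpl k ω.1 η, s) := by
  rw [spi_kap_le B z hk, spi_kd_apply, integral_map (spi_glue_meas' k ω.1).aemeasurable hf.aestronglyMeasurable]
  exact spi_int hB _ (spi_reg_drop k hr) _ (fun ω' => f (spiSpl k ω.1 ω'.1, ω'.2)) (hf.comp (spi_glue_meas' k ω.1)) C
    fun _ => hC _

/-! ### the filtration -/

/-- the prefix map at the cut `k` -/
def spiPf (k : ℕ) (ω : SpiOm S ι) : ℕ → ι → ℝ := spiCut k ω.1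

theorem spi_pf_meas (k : ℕ) : Measurable (spiPf (S := S) (ι := ι) k) := (spi_cut_meas k).comp measurable_fst

/-- the filtration of the drivers; after the cut `n` everything is known -/
def spiFil (S ι : Type) [Fintype S] [Fintype ι] [MeasurableSpace S] [DiscreteMeasurableSpace S] (n : ℕ) :
    Filtration ℕ (inferInstance : MeasurableSpace (SpiOm S ι)) where
  seq k := if k ≤ n then MeasurableSpace.comap (spiPf k) inferInstance else inferInstance
  mono' := by
    intro i j hij
    beta_reduce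
    by_cases hj : j ≤ n
    · have hi : i ≤ n := hij.trans hj
      rw [if_pos hi, if_pos hj]
      have e : spiPf (S := S) (ι := ι) i = spiCut i ∘ spiPf j := by
        funext ω; simp only [spiPf, Function.comp, spi_cut_cut hij]
      rw [e, ← MeasurableSpace.comap_comp]
      exact MeasurableSpace.comap_mono (spi_cut_meas i).comap_le
    · rw [if_neg hj]
      split_ifs
      · exact (spi_pf_meas i).comap_le
      · exact le_rfl
  le' := by
    intro i
    split_ifs
    · exact (spi_pf_meas i).comap_le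
    · exact le_rfl

theorem spi_fil_le (n : ℕ) {k : ℕ} (hk : k ≤ n) :
    spiFil S ι n k = MeasurableSpace.comap (spiPf k) inferInstance := by
  show (if k ≤ n then MeasurableSpace.comap (spiPf k) inferInstance else inferInstance) = _
  rw [if_pos hk]

theorem spi_fil_gt (n : ℕ) {k : ℕ} (hk : n < k) :
    spiFil S ι n k = (inferInstance : MeasurableSpace (SpiOm S ι)) := by
  show (if k ≤ n then MeasurableSpace.comap (spiPf k) inferInstance else inferInstance) = _
  rw [if_neg (by omega)]

/-! ### the instance -/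

/-- **the planted chain as an abstract single path**; `Y` = the normalised spin vector, `dh` = field clock increments -/
noncomputable def spiP (B : GhB S) (ls : List (GhLv S ι)) (z : S → ℝ) {m : ℕ} (Y : Fin m → S → ℝ) (dh : ℕ → ℝ) :
    L8P (SpiOm S ι) m where
  μ := spiK B ls z
  ℱ := spiFil S ι ls.length
  κ := spiKap B ls z
  n := ls.length
  a := B.a
  v := fun k => (ls.map GhLv.m).getD k B.a
  dh := dh
  y := fun i ω => Y i ω.2

theorem spi_root (B : GhB S) (ls : List (GhLv S ι)) (z : S → ℝ) (ω : SpiOm S ι) : spiKap B ls z 0 ω = spiK B ls z := by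
  rw [spi_kap_le B z (Nat.zero_le _), spi_kd_apply]
  simp only [spiSpl_zero, spi_pre_zero, add_zero, List.drop_zero]
  exact Measure.map_id

theorem spi_adapted (B : GhB S) (ls : List (GhLv S ι)) (z : S → ℝ) (k : ℕ) (s : Set (SpiOm S ι)) (hs : MeasurableSet s) :
    Measurable[spiFil S ι ls.length k] fun ω => spiKap B ls z k ω s := by
  by_cases hk : k ≤ ls.length
  · rw [spi_fil_le _ hk]
    have e : (fun ω => spiKap B ls z k ω s) = (fun ξ => spiKd B ls z k ξ s) ∘ spiPf k := by
      funext ω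
      simp only [Function.comp, spiPf, spi_kd_cut, spi_kap_le B z hk]
    rw [e]
    exact (Kernel.measurable_coe _ hs).comp (comap_measurable _)
  · rw [spi_fil_gt _ (by omega)]
    exact Kernel.measurable_coe _ hs

theorem spi_proper {B : GhB S} (hB : B.Ok) {ls : List (GhLv S ι)} (hr : SpiReg B ls) (z : S → ℝ) (k : ℕ) (ω : SpiOm S ι)
    (A : Set (SpiOm S ι)) (hA : MeasurableSet[spiFil S ι ls.length k] A) :
    spiKap B ls z k ω A = A.indicator 1 ω := by
  by_cases hk : k ≤ ls.length
  · rw [spi_fil_le _ hk] at hA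
    obtain ⟨A', hA', rfl⟩ := hA
    have hm : MeasurableSet (spiPf (S := S) k ⁻¹' A') := spi_pf_meas k hA'
    have := spi_k_markov hB (spi_reg_drop k hr)
    rw [spi_kap_le B z hk, spi_kd_apply, Measure.map_apply (spi_glue_meas' k ω.1) hm]
    by_cases hω : spiPf k ω ∈ A'
    · have e : (fun ω' : SpiOm S ι => ((spiSpl k ω.1 ω'.1, ω'.2) : SpiOm S ι)) ⁻¹' (spiPf k ⁻¹' A') = Set.univ := by
        ext ω'
        simp only [Set.mem_preimage, Set.mem_univ, iff_true, spiPf, spiCut, spiSpl_spl]
        exact hω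
      rw [e, measure_univ, Set.indicator_of_mem (show ω ∈ spiPf k ⁻¹' A' from hω)]
      rfl
    · have e : (fun ω' : SpiOm S ι => ((spiSpl k ω.1 ω'.1, ω'.2) : SpiOm S ι)) ⁻¹' (spiPf k ⁻¹' A') = ∅ := by
        ext ω'
        simp only [Set.mem_preimage, Set.mem_empty_iff_false, iff_false, spiPf, spiCut, spiSpl_spl]
        exact hω
      rw [e, measure_empty, Set.indicator_of_notMem (show ω ∉ spiPf k ⁻¹' A' from hω)]
  · rw [spi_fil_gt _ (by omega)] at hA
    rw [spi_kap_gt B z (by omega), Measure.dirac_apply' _ hA]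

/-- tower property, bounded measurable tests -/
theorem spi_tower_real {B : GhB S} (hB : B.Ok) {ls : List (GhLv S ι)} (hr : SpiReg B ls) (z : S → ℝ) {k l : ℕ}
    (hkl : k ≤ l) (hl : l ≤ ls.length) (ω : SpiOm S ι) (f : SpiOm S ι → ℝ) (hf : Measurable f) (C : ℝ)
    (hC : ∀ ω, |f ω| ≤ C) :
    ∫ ω', (∫ ω'', f ω'' ∂(spiKap B ls z l ω')) ∂(spiKap B ls z k ω) = ∫ ω', f ω' ∂(spiKap B ls z k ω) := by
  obtain ⟨j, rfl⟩ := Nat.exists_eq_add_of_le hkl
  have hk : k ≤ ls.length := by omega
  have hg : Measurable fun ω' => ∫ ω'', f ω'' ∂(spiKap B ls z (k + j) ω') :=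
    (hf.stronglyMeasurable.integral_kernel (κ := spiKap B ls z (k + j))).measurable
  have hgC : ∀ ω', |∫ ω'', f ω'' ∂(spiKap B ls z (k + j) ω')| ≤ C := by
    intro ω'
    have := spi_kap_markov hB hr z (k + j)
    have h1 := norm_integral_le_of_norm_le_const (μ := spiKap B ls z (k + j) ω') (f := f) (C := C)
      (Filter.Eventually.of_forall fun x => by rw [Real.norm_eq_abs]; exact hC x)
    simpa using h1
  have e3 := spi_markov hB (ls.drop k) (spi_reg_nrm (spi_reg_drop k hr)) j (z + ghPre ls ω.1 k)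
    (fun η s => f (spiSpl k ω.1 η, s))
  rw [spi_kint hB hr z hk ω _ hg C hgC, spi_kint hB hr z hk ω f hf C hC, e3]
  congr 1
  funext η s
  rw [spi_kint hB hr z hl _ f hf C hC]
  simp only [spi_pre_add, spiSpl_assoc, List.drop_drop, add_assoc]

theorem spi_tower {B : GhB S} (hB : B.Ok) {ls : List (GhLv S ι)} (hr : SpiReg B ls) (z : S → ℝ) {k l : ℕ}
    (hkl : k ≤ l) (ω : SpiOm S ι) (s : Set (SpiOm S ι)) (hs : MeasurableSet s) :
    ∫⁻ ω', spiKap B ls z l ω' s ∂(spiKap B ls z k ω) = spiKap B ls z k ω s := by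
  by_cases hl : l ≤ ls.length
  · have hmk := spi_kap_markov hB hr z k
    have hml := spi_kap_markov hB hr z l
    have h1 := spi_tower_real hB hr z hkl hl ω (s.indicator 1) (measurable_one.indicator hs) 1 (fun x => by
      by_cases hx : x ∈ s <;> simp [hx])
    simp only [integral_indicator_one hs] at h1
    have h2 : ∫ ω', (spiKap B ls z l ω').real s ∂(spiKap B ls z k ω) =
        (∫⁻ ω', spiKap B ls z l ω' s ∂(spiKap B ls z k ω)).toReal :=
      integral_toReal (Kernel.measurable_coe _ hs).aemeasurable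
        (Filter.Eventually.of_forall fun x => measure_lt_top _ _)
    rw [h2] at h1
    have h3 : ∫⁻ ω', spiKap B ls z l ω' s ∂(spiKap B ls z k ω) ≠ ∞ := by
      refine ne_of_lt (lt_of_le_of_lt (lintegral_mono fun x => prob_le_one) ?_)
      simp
    exact (ENNReal.toReal_eq_toReal_iff' h3 (measure_ne_top _ _)).1 h1
  · have e : ∀ ω', spiKap B ls z l ω' s = s.indicator 1 ω' := fun ω' => by
      rw [spi_kap_gt B z (by omega), Measure.dirac_apply' _ hs]
    simp only [e]
    exact lintegral_indicator_one hs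

theorem spi_v_lt (B : GhB S) (ls : List (GhLv S ι)) {k : ℕ} (hk : k < ls.length) :
    (ls.map GhLv.m).getD k B.a = (ls[k]).m := by
  rw [List.getD_eq_getElem _ _ (by simpa using hk)]
  simp

theorem spi_v_ge (B : GhB S) (ls : List (GhLv S ι)) {k : ℕ} (hk : ls.length ≤ k) :
    (ls.map GhLv.m).getD k B.a = B.a := by
  rw [List.getD_eq_default _ _ (by simpa using hk)]

/-- **the planted chain is an abstract single path** -/
theorem spi_ok {B : GhB S} (hB : B.Ok) {ls : List (GhLv S ι)} (hr : SpiReg B ls) (ha : GhAdm B 0 ls) (z : S → ℝ) {m : ℕ}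
    (Y : Fin m → S → ℝ) (hY : ∀ s, ∑ i, Y i s ^ 2 = 1) (dh : ℕ → ℝ) (hdh : ∀ k, 0 ≤ dh k) :
    (spiP B ls z Y dh).Ok where
  prob := (spi_k_markov hB hr).isProbabilityMeasure z
  markov := spi_kap_markov hB hr z
  root := spi_root B ls z
  term := fun k hk ω => spi_kap_gt B z hk ω
  adapted := spi_adapted B ls z
  proper := spi_proper hB hr z
  tower := fun k l hkl ω s hs => spi_tower hB hr z hkl ω s hs
  a_pos := hB.pos
  v_nonneg := by
    intro k
    show 0 ≤ (ls.map GhLv.m).getD k B.a
    by_cases hk : k < ls.length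
    · rw [spi_v_lt B ls hk]; exact (ha.2 _ (List.getElem_mem hk)).1
    · rw [spi_v_ge B ls (by omega)]; exact hB.pos.le
  v_mono := by
    intro i j hij
    show (ls.map GhLv.m).getD i B.a ≤ (ls.map GhLv.m).getD j B.a
    by_cases hj : j < ls.length
    · have hi : i < ls.length := by omega
      rw [spi_v_lt B ls hi, spi_v_lt B ls hj]
      rcases Nat.eq_or_lt_of_le hij with h | h
      · subst h; exact le_rfl
      · exact List.pairwise_iff_getElem.1 ha.1 i j hi hj h
    · rw [spi_v_ge B ls (k := j) (by omega)]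
      by_cases hi : i < ls.length
      · rw [spi_v_lt B ls hi]; exact (ha.2 _ (List.getElem_mem hi)).2
      · rw [spi_v_ge B ls (by omega)]
  v_term := fun k hk => spi_v_ge B ls hk
  dh_nonneg := hdh
  y_meas := fun i => (Measurable.of_discrete (f := Y i)).comp measurable_snd
  y_sq := fun ω => hY ω.2

theorem spi_ok_eqns_cite : True := by
  have := @spiCut.eq_1
  have := @spiKd.eq_1
  have := @spiKap.eq_1
  have := @spiPf.eq_1
  have := @spiFil.eq_1
  have := @spiP.eq_1
  have := @spiP.congr_simp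
  have := @spiKap.congr_simp
  have := @spiKd.congr_simp
  trivial

end Claimed.Agent.R286
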