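import Claimed.Agent.R286.L08.SP

/-!
# Row 286 (S0533), folder L08, file SPKitA : KERNEL CALCULUS OF THE ABSTRACT SINGLE PATH   (owner helper22; prefix `l8k_`)

Consequences of `L8P.Ok` only (no analytic input).  Test class = `L8Bd` (bounded measurable).
Every statement is POINTWISE in `ω` (the conditional expectations `P.E k` are explicit kernel integrals).

* closure of `L8Bd`;
* `P.E k`: linear, monotone, bounded, `ℱ k`-measurable, tower, pull-out, Jensen, Cauchy-Schwarz;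
* link with Mathlib: `P.E k f =ᵐ μ[f | ℱ k]`.
-/

set_option autoImplicit false

namespace Claimed.Agent.R286

open MeasureTheory ProbabilityTheory Finset
open scoped ENNReal

/-- bounded measurable test functions -/
def L8Bd {α : Type} [MeasurableSpace α] (f : α → ℝ) : Prop := Measurable f ∧ ∃ C, ∀ x, |f x| ≤ C

section Bd

variable {α : Type} [MeasurableSpace α] {f g : α → ℝ}

theorem l8k_bd_const (c : ℝ) : L8Bd (fun _ : α => c) := ⟨measurable_const, |c|, fun _ => le_rfl⟩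

theorem l8k_bd_add (hf : L8Bd f) (hg : L8Bd g) : L8Bd (fun x => f x + g x) := by
  obtain ⟨hf, C, hC⟩ := hf
  obtain ⟨hg, D, hD⟩ := hg
  exact ⟨hf.add hg, C + D, fun x => (abs_add_le _ _).trans (add_le_add (hC x) (hD x))⟩

theorem l8k_bd_neg (hf : L8Bd f) : L8Bd (fun x => - f x) := by
  obtain ⟨hf, C, hC⟩ := hf
  exact ⟨hf.neg, C, fun x => by rw [abs_neg]; exact hC x⟩

theorem l8k_bd_sub (hf : L8Bd f) (hg : L8Bd g) : L8Bd (fun x => f x - g x) := by
  simpa [sub_eq_add_neg] using l8k_bd_add hf (l8k_bd_neg hg)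

theorem l8k_bd_mul (hf : L8Bd f) (hg : L8Bd g) : L8Bd (fun x => f x * g x) := by
  obtain ⟨hf, C, hC⟩ := hf
  obtain ⟨hg, D, hD⟩ := hg
  refine ⟨hf.mul hg, C * D, fun x => ?_⟩
  rw [abs_mul]
  exact mul_le_mul (hC x) (hD x) (abs_nonneg _) ((abs_nonneg _).trans (hC x))

theorem l8k_bd_const_mul (c : ℝ) (hf : L8Bd f) : L8Bd (fun x => c * f x) := l8k_bd_mul (l8k_bd_const c) hf

theorem l8k_bd_mul_const (c : ℝ) (hf : L8Bd f) : L8Bd (fun x => f x * c) := l8k_bd_mul hf (l8k_bd_const c)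

theorem l8k_bd_div_const (c : ℝ) (hf : L8Bd f) : L8Bd (fun x => f x / c) := by
  simpa [div_eq_mul_inv] using l8k_bd_mul_const c⁻¹ hf

theorem l8k_bd_pow (hf : L8Bd f) (r : ℕ) : L8Bd (fun x => f x ^ r) := by
  induction r with
  | zero => simpa using l8k_bd_const (α := α) 1
  | succ r ih => simpa [pow_succ] using l8k_bd_mul ih hf

theorem l8k_bd_abs (hf : L8Bd f) : L8Bd (fun x => |f x|) := by
  obtain ⟨hf, C, hC⟩ := hf
  exact ⟨hf.abs, C, fun x => by rw [abs_abs]; exact hC x⟩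

theorem l8k_bd_sum {ι : Type} (s : Finset ι) {F : ι → α → ℝ} (hF : ∀ i ∈ s, L8Bd (F i)) :
    L8Bd (fun x => ∑ i ∈ s, F i x) := by
  classical
  induction s using Finset.induction_on with
  | empty => simpa using l8k_bd_const (α := α) 0
  | insert a s ha ih =>
    simp only [Finset.sum_insert ha]
    exact l8k_bd_add (hF a (Finset.mem_insert_self a s)) (ih fun i hi => hF i (Finset.mem_insert_of_mem hi))

theorem l8k_bd_indicator {A : Set α} (hA : MeasurableSet A) (hf : L8Bd f) : L8Bd (A.indicator f) := by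
  obtain ⟨hf, C, hC⟩ := hf
  refine ⟨hf.indicator hA, C, fun x => ?_⟩
  by_cases hx : x ∈ A
  · rw [Set.indicator_of_mem hx]; exact hC x
  · rw [Set.indicator_of_notMem hx, abs_zero]; exact (abs_nonneg _).trans (hC x)

theorem l8k_bd_rpow (hf : L8Bd f) {p : ℝ} (hp : 0 ≤ p) : L8Bd (fun x => |f x| ^ p) := by
  obtain ⟨hf, C, hC⟩ := hf
  refine ⟨hf.abs.pow_const p, C ^ p, fun x => ?_⟩
  rw [abs_of_nonneg (Real.rpow_nonneg (abs_nonneg _) _)]
  exact Real.rpow_le_rpow (abs_nonneg _) (hC x) hp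

theorem l8k_bd_comp {β : Type} [MeasurableSpace β] {φ : β → α} (hφ : Measurable φ) (hf : L8Bd f) :
    L8Bd (fun x => f (φ x)) := by
  obtain ⟨hf, C, hC⟩ := hf
  exact ⟨hf.comp hφ, C, fun x => hC _⟩

theorem l8k_bd_integrable (hf : L8Bd f) (ν : Measure α) [IsFiniteMeasure ν] : Integrable f ν := by
  obtain ⟨hf, C, hC⟩ := hf
  exact Integrable.of_bound hf.aestronglyMeasurable C (Filter.Eventually.of_forall fun x => by
    rw [Real.norm_eq_abs]; exact hC x)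

theorem l8k_bd_memLp (hf : L8Bd f) (ν : Measure α) [IsFiniteMeasure ν] (p : ℝ≥0∞) : MemLp f p ν := by
  obtain ⟨hf, C, hC⟩ := hf
  exact MemLp.of_bound hf.aestronglyMeasurable C (Filter.Eventually.of_forall fun x => by
    rw [Real.norm_eq_abs]; exact hC x)

end Bd

variable {Ω : Type} [mΩ : MeasurableSpace Ω] {m : ℕ} {P : L8P Ω m}

/-! ### the operator `P.E k` -/

theorem l8k_prob_ker (h : P.Ok) (k : ℕ) (ω : Ω) : IsProbabilityMeasure (P.κ k ω) :=
  have := h.markov k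
  inferInstance

theorem l8k_int_ker (h : P.Ok) {f : Ω → ℝ} (hf : L8Bd f) (k : ℕ) (ω : Ω) : Integrable f (P.κ k ω) :=
  have := l8k_prob_ker h k ω
  l8k_bd_integrable hf _

theorem l8k_int (h : P.Ok) {f : Ω → ℝ} (hf : L8Bd f) : Integrable f P.μ :=
  have := h.prob
  l8k_bd_integrable hf _

theorem l8k_E_const (h : P.Ok) (k : ℕ) (c : ℝ) (ω : Ω) : P.E k (fun _ => c) ω = c := by
  have := l8k_prob_ker h k ω
  simp [L8P.E]

theorem l8k_E_add (h : P.Ok) {f g : Ω → ℝ} (hf : L8Bd f) (hg : L8Bd g) (k : ℕ) (ω : Ω) :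
    P.E k (fun x => f x + g x) ω = P.E k f ω + P.E k g ω :=
  integral_add (l8k_int_ker h hf k ω) (l8k_int_ker h hg k ω)

theorem l8k_E_sub (h : P.Ok) {f g : Ω → ℝ} (hf : L8Bd f) (hg : L8Bd g) (k : ℕ) (ω : Ω) :
    P.E k (fun x => f x - g x) ω = P.E k f ω - P.E k g ω :=
  integral_sub (l8k_int_ker h hf k ω) (l8k_int_ker h hg k ω)

theorem l8k_E_neg (f : Ω → ℝ) (k : ℕ) (ω : Ω) : P.E k (fun x => - f x) ω = - P.E k f ω :=
  integral_neg _

theorem l8k_E_const_mul (c : ℝ) (f : Ω → ℝ) (k : ℕ) (ω : Ω) : P.E k (fun x => c * f x) ω = c * P.E k f ω :=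
  integral_const_mul _ _

theorem l8k_E_mul_const (c : ℝ) (f : Ω → ℝ) (k : ℕ) (ω : Ω) : P.E k (fun x => f x * c) ω = P.E k f ω * c :=
  integral_mul_const _ _

theorem l8k_E_div_const (c : ℝ) (f : Ω → ℝ) (k : ℕ) (ω : Ω) : P.E k (fun x => f x / c) ω = P.E k f ω / c :=
  integral_div _ _

theorem l8k_E_sum (h : P.Ok) {ι : Type} (s : Finset ι) {F : ι → Ω → ℝ} (hF : ∀ i ∈ s, L8Bd (F i)) (k : ℕ) (ω : Ω) :
    P.E k (fun x => ∑ i ∈ s, F i x) ω = ∑ i ∈ s, P.E k (F i) ω :=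
  integral_finsetSum _ fun i hi => l8k_int_ker h (hF i hi) k ω

theorem l8k_E_mono (h : P.Ok) {f g : Ω → ℝ} (hf : L8Bd f) (hg : L8Bd g) (hfg : ∀ x, f x ≤ g x) (k : ℕ) (ω : Ω) :
    P.E k f ω ≤ P.E k g ω :=
  integral_mono (l8k_int_ker h hf k ω) (l8k_int_ker h hg k ω) hfg

theorem l8k_E_nonneg {f : Ω → ℝ} (hf : ∀ x, 0 ≤ f x) (k : ℕ) (ω : Ω) : 0 ≤ P.E k f ω :=
  integral_nonneg hf

theorem l8k_E_congr {f g : Ω → ℝ} (hfg : ∀ x, f x = g x) (k : ℕ) (ω : Ω) : P.E k f ω = P.E k g ω := by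
  have : f = g := funext hfg
  rw [this]

theorem l8k_E_abs_le (h : P.Ok) {f : Ω → ℝ} {C : ℝ} (hC : ∀ x, |f x| ≤ C) (k : ℕ) (ω : Ω) : |P.E k f ω| ≤ C := by
  have := l8k_prob_ker h k ω
  have := norm_integral_le_of_norm_le_const (μ := P.κ k ω) (f := f) (C := C)
    (Filter.Eventually.of_forall fun x => by rw [Real.norm_eq_abs]; exact hC x)
  simpa [L8P.E, Real.norm_eq_abs] using this

/-- the kernel `κ k` seen from the sub-σ-field `ℱ k` -/
theorem l8k_E_meas (h : P.Ok) {f : Ω → ℝ} (hf : L8Bd f) (k : ℕ) : Measurable[P.ℱ k] (P.E k f) := by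
  have hm : @Measurable Ω (Measure Ω) (P.ℱ k) _ (fun ω => P.κ k ω) :=
    @Measure.measurable_of_measurable_coe Ω Ω _ (P.ℱ k) _ (fun s hs => h.adapted k s hs)
  let κ' : @Kernel Ω Ω (P.ℱ k) mΩ := @Kernel.mk Ω Ω (P.ℱ k) mΩ (fun ω => P.κ k ω) hm
  have := @StronglyMeasurable.integral_kernel Ω Ω (P.ℱ k) mΩ κ' ℝ _ _ f hf.1.stronglyMeasurable
  exact this.measurable

theorem l8k_E_bd (h : P.Ok) {f : Ω → ℝ} (hf : L8Bd f) (k : ℕ) : L8Bd (P.E k f) := by
  obtain ⟨C, hC⟩ := hf.2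
  exact ⟨(l8k_E_meas h hf k).mono (P.ℱ.le k) le_rfl, C, fun ω => l8k_E_abs_le h hC k ω⟩

/-- **tower property** -/
theorem l8k_E_tower (h : P.Ok) {f : Ω → ℝ} (hf : L8Bd f) {k l : ℕ} (hkl : k ≤ l) (ω : Ω) :
    P.E k (P.E l f) ω = P.E k f ω := by
  have := h.markov k
  have := h.markov l
  have hc : (P.κ l ∘ₖ P.κ k) ω = P.κ k ω := by
    ext s hs
    rw [Kernel.comp_apply' _ _ _ hs]
    exact h.tower k l hkl ω s hs
  have hi : Integrable f ((P.κ l ∘ₖ P.κ k) ω) := l8k_bd_integrable hf _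
  have := Kernel.integral_comp (κ := P.κ k) (η := P.κ l) (a := ω) hi
  rw [hc] at this
  exact this.symm

/-- a `ℱ k`-measurable function is `κ k ω`-a.s. equal to its value at `ω` -/
theorem l8k_ae_eq (h : P.Ok) {g : Ω → ℝ} {k : ℕ} (hg : Measurable[P.ℱ k] g) (ω : Ω) :
    ∀ᵐ ω' ∂(P.κ k ω), g ω' = g ω := by
  have := l8k_prob_ker h k ω
  have hA : MeasurableSet[P.ℱ k] (g ⁻¹' {g ω}) := hg (measurableSet_singleton _)
  have h1 : P.κ k ω (g ⁻¹' {g ω}) = 1 := by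
    rw [h.proper k ω _ hA]
    simp
  have := (prob_compl_eq_zero_iff (P.ℱ.le k _ hA)).2 h1
  exact this

/-- **pull-out** -/
theorem l8k_E_pull (h : P.Ok) {g : Ω → ℝ} {k : ℕ} (hg : Measurable[P.ℱ k] g) (f : Ω → ℝ) (ω : Ω) :
    P.E k (fun x => g x * f x) ω = g ω * P.E k f ω := by
  unfold L8P.E
  rw [← integral_const_mul]
  refine integral_congr_ae ?_
  filter_upwards [l8k_ae_eq h hg ω] with x hx
  rw [hx]

theorem l8k_E_pull' (h : P.Ok) {g : Ω → ℝ} {k : ℕ} (hg : Measurable[P.ℱ k] g) (f : Ω → ℝ) (ω : Ω) :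
    P.E k (fun x => f x * g x) ω = P.E k f ω * g ω := by
  simpa [mul_comm] using l8k_E_pull h hg f ω

theorem l8k_E_self (h : P.Ok) {g : Ω → ℝ} {k : ℕ} (hg : Measurable[P.ℱ k] g) (ω : Ω) : P.E k g ω = g ω := by
  have := l8k_E_pull h hg (fun _ => 1) ω
  rw [l8k_E_const h] at this
  simpa using this

/-- freezing: a test of (prefix data, path) may be evaluated at the frozen prefix data -/
theorem l8k_E_freeze (h : P.Ok) {ι : Type} [Fintype ι] {g : ι → Ω → ℝ} {k : ℕ} (hg : ∀ i, Measurable[P.ℱ k] (g i))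
    (F : (ι → ℝ) → Ω → ℝ) (ω : Ω) :
    P.E k (fun x => F (fun i => g i x) x) ω = P.E k (fun x => F (fun i => g i ω) x) ω := by
  unfold L8P.E
  refine integral_congr_ae ?_
  have : ∀ᵐ x ∂(P.κ k ω), ∀ i, g i x = g i ω := ae_all_iff.2 fun i => l8k_ae_eq h (hg i) ω
  filter_upwards [this] with x hx
  have : (fun i => g i x) = fun i => g i ω := funext hx
  rw [this]

theorem l8k_E_zero (h : P.Ok) (f : Ω → ℝ) (ω : Ω) : P.E 0 f ω = ∫ x, f x ∂P.μ := by
  unfold L8P.E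
  rw [h.root]

theorem l8k_E_term (h : P.Ok) {f : Ω → ℝ} (hf : Measurable f) {k : ℕ} (hk : P.n < k) (ω : Ω) : P.E k f ω = f ω := by
  unfold L8P.E
  rw [h.term k hk, integral_dirac' _ _ hf.stronglyMeasurable]

theorem l8k_integral_E (h : P.Ok) {f : Ω → ℝ} (hf : L8Bd f) (k : ℕ) : ∫ ω, P.E k f ω ∂P.μ = ∫ ω, f ω ∂P.μ := by
  have := h.prob
  obtain ⟨ω⟩ : Nonempty Ω := by
    by_contra hne
    rw [not_nonempty_iff] at hne
    have := measure_univ (μ := P.μ)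
    rw [Set.univ_eq_empty_iff.2 hne] at this
    simp at this
  rw [← l8k_E_zero h _ ω, ← l8k_E_zero h f ω]
  exact l8k_E_tower h hf (Nat.zero_le k) ω

/-- self-adjointness -/
theorem l8k_integral_E_mul (h : P.Ok) {f g : Ω → ℝ} (hf : L8Bd f) (hg : L8Bd g) (k : ℕ) :
    ∫ ω, P.E k f ω * g ω ∂P.μ = ∫ ω, P.E k f ω * P.E k g ω ∂P.μ := by
  rw [← l8k_integral_E h (l8k_bd_mul (l8k_E_bd h hf k) hg) k]
  refine integral_congr_ae (Filter.Eventually.of_forall fun ω => ?_)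
  exact l8k_E_pull h (l8k_E_meas h hf k) g ω

/-- **link with Mathlib's conditional expectation** -/
theorem l8k_E_condExp (h : P.Ok) {f : Ω → ℝ} (hf : L8Bd f) (k : ℕ) : P.E k f =ᵐ[P.μ] P.μ[f | P.ℱ k] := by
  have := h.prob
  refine ae_eq_condExp_of_forall_setIntegral_eq (P.ℱ.le k) (l8k_int h hf)
    (fun s _ _ => (l8k_int h (l8k_E_bd h hf k)).integrableOn) ?_ (l8k_E_meas h hf k).stronglyMeasurable.aestronglyMeasurable
  intro s hs _
  have hs' : MeasurableSet s := P.ℱ.le k s hs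
  have h1 : Measurable[P.ℱ k] (s.indicator (fun _ => (1 : ℝ))) := measurable_const.indicator hs
  rw [← integral_indicator hs', ← integral_indicator hs']
  have e1 : ∀ F : Ω → ℝ, s.indicator F = fun x => s.indicator (fun _ => (1 : ℝ)) x * F x := by
    intro F; ext x
    by_cases hx : x ∈ s <;> simp [hx]
  rw [e1 f, e1 (P.E k f), ← l8k_integral_E h (l8k_bd_mul (l8k_bd_indicator hs' (l8k_bd_const 1)) hf) k]
  refine integral_congr_ae (Filter.Eventually.of_forall fun ω => ?_)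
  exact (l8k_E_pull h h1 f ω).symm

/-- conditional Cauchy-Schwarz -/
theorem l8k_E_cs (h : P.Ok) {f g : Ω → ℝ} (hf : L8Bd f) (hg : L8Bd g) (k : ℕ) (ω : Ω) :
    P.E k (fun x => f x * g x) ω ^ 2 ≤ P.E k (fun x => f x ^ 2) ω * P.E k (fun x => g x ^ 2) ω := by
  have key : ∀ t : ℝ, 0 ≤ P.E k (fun x => f x ^ 2) ω * (t * t) + 2 * P.E k (fun x => f x * g x) ω * t
      + P.E k (fun x => g x ^ 2) ω := by
    intro t
    have h0 : 0 ≤ P.E k (fun x => (f x ^ 2 * (t * t) + 2 * (f x * g x) * t) + g x ^ 2) ω :=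
      l8k_E_nonneg (fun x => by nlinarith [sq_nonneg (f x * t + g x)]) k ω
    rw [l8k_E_add h (l8k_bd_add (l8k_bd_mul_const _ (l8k_bd_pow hf 2))
      (l8k_bd_mul_const _ (l8k_bd_const_mul 2 (l8k_bd_mul hf hg)))) (l8k_bd_pow hg 2),
      l8k_E_add h (l8k_bd_mul_const _ (l8k_bd_pow hf 2)) (l8k_bd_mul_const _ (l8k_bd_const_mul 2 (l8k_bd_mul hf hg))),
      l8k_E_mul_const, l8k_E_mul_const, l8k_E_const_mul] at h0
    exact h0
  have := discrim_le_zero key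
  unfold discrim at this
  nlinarith [this]

/-- conditional Jensen, square -/
theorem l8k_E_sq_le (h : P.Ok) {f : Ω → ℝ} (hf : L8Bd f) (k : ℕ) (ω : Ω) :
    P.E k f ω ^ 2 ≤ P.E k (fun x => f x ^ 2) ω := by
  have := l8k_E_cs h hf (l8k_bd_const 1) k ω
  simpa [l8k_E_const h] using this

/-- conditional Jensen, real powers -/
theorem l8k_E_rpow_le (h : P.Ok) {f : Ω → ℝ} (hf : L8Bd f) {p : ℝ} (hp : 1 ≤ p) (k : ℕ) (ω : Ω) :
    |P.E k f ω| ^ p ≤ P.E k (fun x => |f x| ^ p) ω := by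
  have := l8k_prob_ker h k ω
  have h1 : |P.E k f ω| ≤ P.E k (fun x => |f x|) ω := by
    have := norm_integral_le_integral_norm (μ := P.κ k ω) f
    simpa [L8P.E, Real.norm_eq_abs] using this
  have h2 : (P.E k (fun x => |f x|) ω) ^ p ≤ P.E k (fun x => |f x| ^ p) ω :=
    (convexOn_rpow hp).map_integral_le (μ := P.κ k ω) (f := fun x => |f x|)
      (Real.continuous_rpow_const (by linarith)).continuousOn isClosed_Ici
      (Filter.Eventually.of_forall fun x => Set.mem_Ici.2 (abs_nonneg _)) (l8k_int_ker h (l8k_bd_abs hf) k ω)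
      (l8k_int_ker h (l8k_bd_rpow hf (by linarith)) k ω)
  exact (Real.rpow_le_rpow (abs_nonneg _) h1 (by linarith)).trans h2

/-- conditional Jensen, natural powers -/
theorem l8k_E_pow_le (h : P.Ok) {f : Ω → ℝ} (hf : L8Bd f) (r : ℕ) (k : ℕ) (ω : Ω) :
    |P.E k f ω| ^ r ≤ P.E k (fun x => |f x| ^ r) ω := by
  rcases Nat.eq_zero_or_pos r with rfl | hr
  · simp [l8k_E_const h]
  · have := l8k_E_rpow_le h hf (p := (r : ℝ)) (by exact_mod_cast hr) k ω
    simpa [Real.rpow_natCast] using this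

/-- contraction in `L^p` -/
theorem l8k_integral_E_rpow_le (h : P.Ok) {f : Ω → ℝ} (hf : L8Bd f) {p : ℝ} (hp : 1 ≤ p) (k : ℕ) :
    ∫ ω, |P.E k f ω| ^ p ∂P.μ ≤ ∫ ω, |f ω| ^ p ∂P.μ := by
  rw [← l8k_integral_E h (l8k_bd_rpow hf (by linarith)) k]
  exact integral_mono (l8k_int h (l8k_bd_rpow (l8k_E_bd h hf k) (by linarith)))
    (l8k_int h (l8k_E_bd h (l8k_bd_rpow hf (by linarith)) k)) fun ω => l8k_E_rpow_le h hf hp k ω

theorem l8k_integral_E_pow_le (h : P.Ok) {f : Ω → ℝ} (hf : L8Bd f) (r : ℕ) (k : ℕ) :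
    ∫ ω, |P.E k f ω| ^ r ∂P.μ ≤ ∫ ω, |f ω| ^ r ∂P.μ := by
  rw [← l8k_integral_E h (l8k_bd_pow (l8k_bd_abs hf) r) k]
  exact integral_mono (l8k_int h (l8k_bd_pow (l8k_bd_abs (l8k_E_bd h hf k)) r))
    (l8k_int h (l8k_E_bd h (l8k_bd_pow (l8k_bd_abs hf) r) k)) fun ω => l8k_E_pow_le h hf r k ω

end Claimed.Agent.R286
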