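-- KEEP
import Claimed.Agent.R286.L08.SPKitA

/-!
# Row 286 (S0533), folder L08, file SPA : API of the abstract single path `L8P` (L08/SP.lean), part A (kernel calculus)
STATEMENTS by helper75 (section head LL08); OWNER of the unit (glue, changes of statements, provers): helper22 (deputy).   Prefix `l8s_`.
ALL PROOFS of this file: helper188 (15 Oct 03:00Z), 0 open leaves.
A statement found false or awkward: one line to 22 + 75.   All facts are POINTWISE in `ω` (explicit kernels); constants are explicit and do not depend on `P`.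
-/

set_option autoImplicit false

namespace Claimed.Agent.R286

open MeasureTheory ProbabilityTheory Finset
open scoped ENNReal

variable {Ω : Type} [mΩ : MeasurableSpace Ω] {m : ℕ}

-- `L8Bd` (bounded measurable test function) is DECLARED in `L08/SPKitA.lean` (helper22): `L8Bd f := Measurable f ∧ ∃ C, ∀ x, |f x| ≤ C`

/-! ### closure properties of `L8Bd` (helpers, helper188) -/

theorem l8Bd_const (c : ℝ) : L8Bd (fun _ : Ω => c) := ⟨measurable_const, |c|, fun _ => le_rfl⟩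

theorem L8Bd.add {f g : Ω → ℝ} (hf : L8Bd f) (hg : L8Bd g) : L8Bd (fun ω => f ω + g ω) := by
  obtain ⟨hfm, a, ha⟩ := hf
  obtain ⟨hgm, b, hb⟩ := hg
  exact ⟨hfm.add hgm, a + b, fun ω => (abs_add_le _ _).trans (add_le_add (ha ω) (hb ω))⟩

theorem L8Bd.neg {f : Ω → ℝ} (hf : L8Bd f) : L8Bd (fun ω => - f ω) := by
  obtain ⟨hfm, a, ha⟩ := hf
  exact ⟨hfm.neg, a, fun ω => by rw [abs_neg]; exact ha ω⟩

theorem L8Bd.sub {f g : Ω → ℝ} (hf : L8Bd f) (hg : L8Bd g) : L8Bd (fun ω => f ω - g ω) := by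
  obtain ⟨hfm, a, ha⟩ := hf
  obtain ⟨hgm, b, hb⟩ := hg
  exact ⟨hfm.sub hgm, a + b, fun ω => (abs_sub _ _).trans (add_le_add (ha ω) (hb ω))⟩

theorem L8Bd.mul {f g : Ω → ℝ} (hf : L8Bd f) (hg : L8Bd g) : L8Bd (fun ω => f ω * g ω) := by
  obtain ⟨hfm, a, ha⟩ := hf
  obtain ⟨hgm, b, hb⟩ := hg
  refine ⟨hfm.mul hgm, a * b, fun ω => ?_⟩
  rw [abs_mul]
  exact mul_le_mul (ha ω) (hb ω) (abs_nonneg _) ((abs_nonneg _).trans (ha ω))

theorem L8Bd.const_mul {f : Ω → ℝ} (hf : L8Bd f) (c : ℝ) : L8Bd (fun ω => c * f ω) :=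
  (l8Bd_const c).mul hf

theorem L8Bd.mul_const {f : Ω → ℝ} (hf : L8Bd f) (c : ℝ) : L8Bd (fun ω => f ω * c) :=
  hf.mul (l8Bd_const c)

theorem L8Bd.div_const {f : Ω → ℝ} (hf : L8Bd f) (c : ℝ) : L8Bd (fun ω => f ω / c) := by
  simpa only [div_eq_mul_inv] using hf.mul_const c⁻¹

theorem L8Bd.pow {f : Ω → ℝ} (hf : L8Bd f) (p : ℕ) : L8Bd (fun ω => f ω ^ p) := by
  obtain ⟨hfm, a, ha⟩ := hf
  refine ⟨hfm.pow_const p, a ^ p, fun ω => ?_⟩
  rw [abs_pow]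
  exact pow_le_pow_left₀ (abs_nonneg _) (ha ω) p

theorem L8Bd.abs {f : Ω → ℝ} (hf : L8Bd f) : L8Bd (fun ω => |f ω|) := by
  obtain ⟨hfm, a, ha⟩ := hf
  exact ⟨hfm.abs, a, fun ω => by rw [abs_abs]; exact ha ω⟩

theorem L8Bd.sum {ι : Type} (s : Finset ι) {f : ι → Ω → ℝ} (hf : ∀ i ∈ s, L8Bd (f i)) :
    L8Bd (fun ω => ∑ i ∈ s, f i ω) := by
  classical
  induction s using Finset.induction_on with
  | empty => simpa using l8Bd_const (Ω := Ω) 0
  | insert a s ha ih =>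
    have h1 := (hf a (Finset.mem_insert_self a s)).add (ih fun i hi => hf i (Finset.mem_insert_of_mem hi))
    simpa [Finset.sum_insert ha] using h1

theorem L8Bd.indicator {f : Ω → ℝ} (hf : L8Bd f) {s : Set Ω} (hs : MeasurableSet s) : L8Bd (s.indicator f) := by
  obtain ⟨hfm, a, ha⟩ := hf
  refine ⟨hfm.indicator hs, a, fun ω => ?_⟩
  by_cases hω : ω ∈ s
  · rw [Set.indicator_of_mem hω]; exact ha ω
  · rw [Set.indicator_of_notMem hω, abs_zero]; exact (abs_nonneg _).trans (ha ω)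

theorem L8Bd.integrable {f : Ω → ℝ} (hf : L8Bd f) (ν : Measure Ω) [IsFiniteMeasure ν] : Integrable f ν := by
  obtain ⟨hm, c, hc⟩ := hf
  exact Integrable.of_bound hm.aestronglyMeasurable c (ae_of_all _ fun x => by simpa [Real.norm_eq_abs] using hc x)

namespace L8P

variable (P : L8P Ω m)

/-! ## A. kernel calculus -/
section A

theorem l8s_E_integrable (h : P.Ok) (k : ℕ) {f : Ω → ℝ} (hf : L8Bd f) (ω : Ω) : Integrable f (P.κ k ω) := by
  have := h.markov k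
  exact hf.integrable _

theorem l8s_E_abs_le (h : P.Ok) (k : ℕ) {f : Ω → ℝ} {c : ℝ} (hf : Measurable f) (hc : ∀ ω, |f ω| ≤ c) (ω : Ω) : |P.E k f ω| ≤ c := by
  have := h.markov k
  have h1 := norm_integral_le_of_norm_le_const (μ := P.κ k ω) (f := f) (C := c)
    (ae_of_all _ fun x => by simpa [Real.norm_eq_abs] using hc x)
  simpa [L8P.E, Real.norm_eq_abs] using h1

theorem l8s_E_bd (h : P.Ok) (k : ℕ) {f : Ω → ℝ} (hf : L8Bd f) : L8Bd (P.E k f) := by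
  obtain ⟨hm, c, hc⟩ := hf
  refine ⟨?_, c, fun ω => P.l8s_E_abs_le h k hm hc ω⟩
  exact (StronglyMeasurable.integral_kernel (κ := P.κ k) hm.stronglyMeasurable).measurable

theorem l8s_E_sm (h : P.Ok) (k : ℕ) {f : Ω → ℝ} (hf : L8Bd f) : StronglyMeasurable[P.ℱ k] (P.E k f) := by
  let κ' : @Kernel Ω Ω (P.ℱ k) mΩ :=
    @Kernel.mk Ω Ω (P.ℱ k) mΩ (fun ω => P.κ k ω)
      (@Measure.measurable_of_measurable_coe Ω Ω mΩ (P.ℱ k) _ (h.adapted k))
  exact @StronglyMeasurable.integral_kernel Ω Ω (P.ℱ k) mΩ κ' ℝ _ _ f hf.1.stronglyMeasurable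

theorem l8s_E_add (h : P.Ok) (k : ℕ) {f g : Ω → ℝ} (hf : L8Bd f) (hg : L8Bd g) (ω : Ω) :
    P.E k (fun ω' => f ω' + g ω') ω = P.E k f ω + P.E k g ω :=
  integral_add (P.l8s_E_integrable h k hf ω) (P.l8s_E_integrable h k hg ω)

theorem l8s_E_sub (h : P.Ok) (k : ℕ) {f g : Ω → ℝ} (hf : L8Bd f) (hg : L8Bd g) (ω : Ω) :
    P.E k (fun ω' => f ω' - g ω') ω = P.E k f ω - P.E k g ω :=
  integral_sub (P.l8s_E_integrable h k hf ω) (P.l8s_E_integrable h k hg ω)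

theorem l8s_E_sum (h : P.Ok) (k : ℕ) {ι : Type} (s : Finset ι) {f : ι → Ω → ℝ} (hf : ∀ i ∈ s, L8Bd (f i)) (ω : Ω) :
    P.E k (fun ω' => ∑ i ∈ s, f i ω') ω = ∑ i ∈ s, P.E k (f i) ω :=
  integral_finsetSum s fun i hi => P.l8s_E_integrable h k (hf i hi) ω

theorem l8s_E_const_mul (k : ℕ) (c : ℝ) (f : Ω → ℝ) (ω : Ω) : P.E k (fun ω' => c * f ω') ω = c * P.E k f ω :=
  integral_const_mul c f

theorem l8s_E_mul_const (k : ℕ) (c : ℝ) (f : Ω → ℝ) (ω : Ω) : P.E k (fun ω' => f ω' * c) ω = P.E k f ω * c :=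
  integral_mul_const c f

theorem l8s_E_neg (k : ℕ) (f : Ω → ℝ) (ω : Ω) : P.E k (fun ω' => - f ω') ω = - P.E k f ω :=
  integral_neg f

theorem l8s_E_const (h : P.Ok) (k : ℕ) (c : ℝ) (ω : Ω) : P.E k (fun _ => c) ω = c := by
  have := h.markov k
  simp [L8P.E]

theorem l8s_E_mono (h : P.Ok) (k : ℕ) {f g : Ω → ℝ} (hf : L8Bd f) (hg : L8Bd g) (hfg : ∀ ω, f ω ≤ g ω) (ω : Ω) :
    P.E k f ω ≤ P.E k g ω :=
  integral_mono (P.l8s_E_integrable h k hf ω) (P.l8s_E_integrable h k hg ω) hfg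

theorem l8s_E_nonneg (k : ℕ) {f : Ω → ℝ} (hf : ∀ ω, 0 ≤ f ω) (ω : Ω) : 0 ≤ P.E k f ω :=
  integral_nonneg hf

theorem l8s_E_congr (k : ℕ) {f g : Ω → ℝ} (hfg : ∀ ω, f ω = g ω) (ω : Ω) : P.E k f ω = P.E k g ω := by
  rw [funext hfg]

/-- a prefix-measurable function is constant under `κ k ω` -/
theorem l8s_proper_ae (h : P.Ok) (k : ℕ) {g : Ω → ℝ} (hg : Measurable[P.ℱ k] g) (ω : Ω) : ∀ᵐ ω' ∂(P.κ k ω), g ω' = g ω := by
  have hA : MeasurableSet[P.ℱ k] (g ⁻¹' {g ω})ᶜ := (hg (measurableSet_singleton (g ω))).compl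
  have h1 := h.proper k ω _ hA
  have h2 : ω ∉ (g ⁻¹' {g ω})ᶜ := by simp
  rw [Set.indicator_of_notMem h2] at h1
  rw [ae_iff]
  exact h1

/-- pull-out, POINTWISE -/
theorem l8s_E_pull (h : P.Ok) (k : ℕ) {g f : Ω → ℝ} (hg : Measurable[P.ℱ k] g) (ω : Ω) :
    P.E k (fun ω' => g ω' * f ω') ω = g ω * P.E k f ω := by
  have h1 : (fun ω' => g ω' * f ω') =ᵐ[P.κ k ω] fun ω' => g ω * f ω' := by
    filter_upwards [P.l8s_proper_ae h k hg ω] with ω' hω'
    rw [hω']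
  unfold L8P.E
  rw [integral_congr_ae h1, integral_const_mul]

/-- a prefix-measurable function is its own conditional expectation -/
theorem l8s_E_self (h : P.Ok) (k : ℕ) {g : Ω → ℝ} (hg : Measurable[P.ℱ k] g) (ω : Ω) : P.E k g ω = g ω := by
  have h1 := P.l8s_E_pull h k (f := fun _ => 1) hg ω
  rw [P.l8s_E_const h k 1 ω] at h1
  simpa using h1

theorem l8s_comp_eq (h : P.Ok) {k l : ℕ} (hkl : k ≤ l) (ω : Ω) : (P.κ l ∘ₖ P.κ k) ω = P.κ k ω := by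
  ext s hs
  rw [Kernel.comp_apply' _ _ _ hs]
  exact h.tower k l hkl ω s hs

/-- tower, POINTWISE -/
theorem l8s_E_tower (h : P.Ok) {k l : ℕ} (hkl : k ≤ l) {f : Ω → ℝ} (hf : L8Bd f) (ω : Ω) : P.E k (P.E l f) ω = P.E k f ω := by
  have h1 : Integrable f ((P.κ l ∘ₖ P.κ k) ω) := by
    rw [P.l8s_comp_eq h hkl ω]; exact P.l8s_E_integrable h k hf ω
  have h2 := Kernel.integral_comp (η := P.κ l) (κ := P.κ k) (a := ω) h1
  rw [P.l8s_comp_eq h hkl ω] at h2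
  exact h2.symm

theorem l8s_E_root (h : P.Ok) (f : Ω → ℝ) (ω : Ω) : P.E 0 f ω = ∫ ω', f ω' ∂P.μ := by
  unfold L8P.E
  rw [h.root ω]

theorem l8s_E_term (h : P.Ok) {k : ℕ} (hk : P.n < k) {f : Ω → ℝ} (hf : Measurable f) (ω : Ω) : P.E k f ω = f ω := by
  unfold L8P.E
  rw [h.term k hk ω]
  exact integral_dirac' f ω hf.stronglyMeasurable

theorem l8s_integral_E (h : P.Ok) (k : ℕ) {f : Ω → ℝ} (hf : L8Bd f) : ∫ ω, P.E k f ω ∂P.μ = ∫ ω, f ω ∂P.μ := by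
  have := h.prob
  obtain ⟨ω⟩ := nonempty_of_isProbabilityMeasure P.μ
  rw [← P.l8s_E_root h (P.E k f) ω, ← P.l8s_E_root h f ω]
  exact P.l8s_E_tower h (Nat.zero_le k) hf ω

/-- duality against prefix-measurable multipliers -/
theorem l8s_integral_mul_E (h : P.Ok) (k : ℕ) {g f : Ω → ℝ} (hg : Measurable[P.ℱ k] g) (hgb : L8Bd g) (hf : L8Bd f) :
    ∫ ω, g ω * P.E k f ω ∂P.μ = ∫ ω, g ω * f ω ∂P.μ := by
  rw [← P.l8s_integral_E h k (hgb.mul hf)]
  exact integral_congr_ae (ae_of_all _ fun ω => (P.l8s_E_pull h k hg ω).symm)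

/-- bridge to Mathlib -/
theorem l8s_E_condExp (h : P.Ok) (k : ℕ) {f : Ω → ℝ} (hf : L8Bd f) : P.E k f =ᵐ[P.μ] P.μ[f | P.ℱ k] := by
  have := h.prob
  refine ae_eq_condExp_of_forall_setIntegral_eq (P.ℱ.le k) (hf.integrable _)
    (fun s _ _ => ((P.l8s_E_bd h k hf).integrable _).integrableOn) (fun s hs _ => ?_)
    (P.l8s_E_sm h k hf).aestronglyMeasurable
  have hs' : MeasurableSet s := P.ℱ.le k s hs
  have hg : Measurable[P.ℱ k] (s.indicator fun _ => (1 : ℝ)) := measurable_const.indicator hs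
  have hgb : L8Bd (s.indicator fun _ => (1 : ℝ)) := (l8Bd_const 1).indicator hs'
  have h1 := P.l8s_integral_mul_E h k hg hgb hf
  have e : ∀ u : Ω → ℝ, (fun ω => s.indicator (fun _ => (1 : ℝ)) ω * u ω) = s.indicator u := by
    intro u
    funext ω
    by_cases hω : ω ∈ s
    · simp [Set.indicator_of_mem hω]
    · simp [Set.indicator_of_notMem hω]
  rw [e, e, integral_indicator hs', integral_indicator hs'] at h1
  exact h1

/-- conditional Jensen for natural powers of `|·|` -/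
theorem l8s_E_pow_le (h : P.Ok) (k : ℕ) {f : Ω → ℝ} (hf : L8Bd f) (p : ℕ) (ω : Ω) : |P.E k f ω| ^ p ≤ P.E k (fun ω' => |f ω'| ^ p) ω := by
  have := h.markov k
  have h1 : |P.E k f ω| ≤ ∫ ω', |f ω'| ∂(P.κ k ω) := by
    simpa [L8P.E, Real.norm_eq_abs] using norm_integral_le_integral_norm (μ := P.κ k ω) f
  have h2 : (∫ ω', |f ω'| ∂(P.κ k ω)) ^ p ≤ ∫ ω', |f ω'| ^ p ∂(P.κ k ω) :=
    (convexOn_pow (𝕜 := ℝ) p).map_integral_le (μ := P.κ k ω) (f := fun ω' => |f ω'|)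
      (continuous_pow p).continuousOn isClosed_Ici (ae_of_all _ fun x => abs_nonneg (f x))
      (P.l8s_E_integrable h k hf.abs ω) (P.l8s_E_integrable h k (hf.abs.pow p) ω)
  exact (pow_le_pow_left₀ (abs_nonneg _) h1 p).trans h2

/-- conditional Cauchy-Schwarz -/
theorem l8s_E_cs (h : P.Ok) (k : ℕ) {f g : Ω → ℝ} (hf : L8Bd f) (hg : L8Bd g) (ω : Ω) :
    P.E k (fun ω' => f ω' * g ω') ω ^ 2 ≤ P.E k (fun ω' => f ω' ^ 2) ω * P.E k (fun ω' => g ω' ^ 2) ω := by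
  have key : ∀ t : ℝ, 0 ≤ P.E k (fun ω' => f ω' ^ 2) ω * (t * t) + 2 * P.E k (fun ω' => f ω' * g ω') ω * t
      + P.E k (fun ω' => g ω' ^ 2) ω := by
    intro t
    have h0 : 0 ≤ P.E k (fun ω' => (t * f ω' + g ω') ^ 2) ω := P.l8s_E_nonneg k (fun _ => sq_nonneg _) ω
    have e : (fun ω' => (t * f ω' + g ω') ^ 2)
        = fun ω' => ((t * t) * f ω' ^ 2 + (2 * t) * (f ω' * g ω')) + g ω' ^ 2 := by
      funext ω'; ring
    rw [e, P.l8s_E_add h k (((hf.pow 2).const_mul _).add ((hf.mul hg).const_mul _)) (hg.pow 2),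
      P.l8s_E_add h k ((hf.pow 2).const_mul _) ((hf.mul hg).const_mul _),
      P.l8s_E_const_mul, P.l8s_E_const_mul] at h0
    linarith
  have h1 := discrim_le_zero key
  unfold discrim at h1
  nlinarith [h1]

/-- `L^p(μ)` contraction -/
theorem l8s_integral_E_pow_le (h : P.Ok) (k : ℕ) {f : Ω → ℝ} (hf : L8Bd f) (p : ℕ) :
    ∫ ω, |P.E k f ω| ^ p ∂P.μ ≤ ∫ ω, |f ω| ^ p ∂P.μ := by
  have := h.prob
  rw [← P.l8s_integral_E h k (hf.abs.pow p)]
  exact integral_mono (((P.l8s_E_bd h k hf).abs.pow p).integrable _)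
    ((P.l8s_E_bd h k (hf.abs.pow p)).integrable _) fun ω => P.l8s_E_pow_le h k hf p ω

end A


end L8P

end Claimed.Agent.R286
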