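-- KEEP
import Claimed.Agent.R286.L08.SPA

/-!
# Row 286 (S0533), folder L08, file SPB : API of the abstract single path `L8P` (L08/SP.lean), part B (path objects: X, C, H, L, W, S, D)
STATEMENTS by helper75 (section head LL08); OWNER of the unit (glue, changes of statements, provers): helper22 (deputy).   Prefix `l8s_`.
TOP PART (`l8s_y_bd` .. `l8s_H_le_blocks`, helpers `l8sb_*`): PROVED by helper86.   BOTTOM PART (`l8s_W_nonneg` .. `l8s_sum_W_le`): PROVED by helper188.   0 open leaves.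
A statement found false or awkward: one line to 22 + 75.   All facts are POINTWISE in `ω` (explicit kernels); constants are explicit and do not depend on `P`.
-/

set_option autoImplicit false

namespace Claimed.Agent.R286

open MeasureTheory ProbabilityTheory Finset
open scoped ENNReal

variable {Ω : Type} [mΩ : MeasurableSpace Ω] {m : ℕ}

/-! ### closure of `L8Bd` -/

theorem l8sb_const (c : ℝ) : L8Bd (fun _ : Ω => c) := ⟨measurable_const, |c|, fun _ => le_rfl⟩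

theorem l8sb_add {f g : Ω → ℝ} (hf : L8Bd f) (hg : L8Bd g) : L8Bd (fun ω => f ω + g ω) := by
  obtain ⟨mf, a, ha⟩ := hf
  obtain ⟨mg, b, hb⟩ := hg
  exact ⟨mf.add mg, a + b, fun ω => (abs_add_le _ _).trans (add_le_add (ha ω) (hb ω))⟩

theorem l8sb_mul {f g : Ω → ℝ} (hf : L8Bd f) (hg : L8Bd g) : L8Bd (fun ω => f ω * g ω) := by
  obtain ⟨mf, a, ha⟩ := hf
  obtain ⟨mg, b, hb⟩ := hg
  refine ⟨mf.mul mg, a * b, fun ω => ?_⟩
  rw [abs_mul]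
  exact mul_le_mul (ha ω) (hb ω) (abs_nonneg _) ((abs_nonneg _).trans (ha ω))

theorem l8sb_const_mul (c : ℝ) {f : Ω → ℝ} (hf : L8Bd f) : L8Bd (fun ω => c * f ω) :=
  l8sb_mul (l8sb_const c) hf

theorem l8sb_neg {f : Ω → ℝ} (hf : L8Bd f) : L8Bd (fun ω => - f ω) := by
  simpa using l8sb_const_mul (-1) hf

theorem l8sb_sub {f g : Ω → ℝ} (hf : L8Bd f) (hg : L8Bd g) : L8Bd (fun ω => f ω - g ω) := by
  simpa [sub_eq_add_neg] using l8sb_add hf (l8sb_neg hg)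

theorem l8sb_pow {f : Ω → ℝ} (hf : L8Bd f) (p : ℕ) : L8Bd (fun ω => f ω ^ p) := by
  induction p with
  | zero => simpa using l8sb_const (Ω := Ω) 1
  | succ p ih => simpa [pow_succ] using l8sb_mul ih hf

theorem l8sb_sum {ι : Type} (s : Finset ι) {f : ι → Ω → ℝ} (hf : ∀ i ∈ s, L8Bd (f i)) :
    L8Bd (fun ω => ∑ i ∈ s, f i ω) := by
  classical
  induction s using Finset.induction_on with
  | empty => simpa using l8sb_const (Ω := Ω) 0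
  | insert a s ha ih =>
    simp only [Finset.sum_insert ha]
    exact l8sb_add (hf a (Finset.mem_insert_self a s)) (ih fun i hi => hf i (Finset.mem_insert_of_mem hi))

namespace L8P

variable (P : L8P Ω m)

/-! ## B. path objects -/
section B

theorem l8sb_E_sub (h : P.Ok) (k : ℕ) {f g : Ω → ℝ} (hf : L8Bd f) (hg : L8Bd g) (ω : Ω) :
    P.E k (fun ω' => f ω' - g ω') ω = P.E k f ω - P.E k g ω := by
  have e : (fun ω' => f ω' - g ω') = fun ω' => f ω' + (-1) * g ω' := by funext x; ring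
  rw [e, P.l8s_E_add h k hf (l8sb_const_mul (-1) hg), P.l8s_E_const_mul]
  ring

theorem l8sb_E_nonneg (h : P.Ok) (k : ℕ) {f : Ω → ℝ} (hf : L8Bd f) (h0 : ∀ ω, 0 ≤ f ω) (ω : Ω) : 0 ≤ P.E k f ω := by
  have := P.l8s_E_mono h k (l8sb_const 0) hf h0 ω
  rwa [P.l8s_E_const h] at this

theorem l8sb_E_zero (h : P.Ok) (k : ℕ) (ω : Ω) : P.E k (fun _ => 0) ω = 0 := P.l8s_E_const h k 0 ω

/-- pull-out on the right -/
theorem l8sb_E_pull_right (h : P.Ok) (k : ℕ) {g f : Ω → ℝ} (hg : Measurable[P.ℱ k] g) (ω : Ω) :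
    P.E k (fun ω' => f ω' * g ω') ω = P.E k f ω * g ω := by
  have e : (fun ω' => f ω' * g ω') = fun ω' => g ω' * f ω' := by funext x; ring
  rw [e, P.l8s_E_pull h k hg, mul_comm]

theorem l8s_y_bd (h : P.Ok) (i : Fin m) : L8Bd (P.y i) := by
  refine ⟨h.y_meas i, 1, fun ω => ?_⟩
  have h1 : P.y i ω ^ 2 ≤ ∑ j, P.y j ω ^ 2 :=
    Finset.single_le_sum (f := fun j => P.y j ω ^ 2) (fun j _ => sq_nonneg _) (Finset.mem_univ i)
  rw [h.y_sq] at h1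
  exact abs_le_one_iff_mul_self_le_one.2 (by nlinarith)

theorem l8s_X_bd (h : P.Ok) (k : ℕ) (i : Fin m) : L8Bd (P.X k i) := P.l8s_E_bd h k (P.l8s_y_bd h i)
theorem l8s_X_sm (h : P.Ok) (k : ℕ) (i : Fin m) : StronglyMeasurable[P.ℱ k] (P.X k i) := P.l8s_E_sm h k (P.l8s_y_bd h i)
theorem l8s_X_term (h : P.Ok) {k : ℕ} (hk : P.n < k) (i : Fin m) (ω : Ω) : P.X k i ω = P.y i ω :=
  P.l8s_E_term h hk (h.y_meas i) ω
theorem l8s_nX_le_one (h : P.Ok) (k : ℕ) (ω : Ω) : P.nX k ω ≤ 1 := by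
  have h1 : ∀ i, P.X k i ω ^ 2 ≤ P.E k (fun ω' => P.y i ω' ^ 2) ω := by
    intro i
    have := P.l8s_E_pow_le h k (P.l8s_y_bd h i) 2 ω
    simpa [X, sq_abs] using this
  calc P.nX k ω = ∑ i, P.X k i ω ^ 2 := rfl
    _ ≤ ∑ i, P.E k (fun ω' => P.y i ω' ^ 2) ω := Finset.sum_le_sum fun i _ => h1 i
    _ = P.E k (fun ω' => ∑ i, P.y i ω' ^ 2) ω :=
        (P.l8s_E_sum h k Finset.univ (fun i _ => l8sb_pow (P.l8s_y_bd h i) 2) ω).symm
    _ = 1 := by simp only [h.y_sq]; exact P.l8s_E_const h k 1 ω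
theorem l8s_X_mart (h : P.Ok) {k l : ℕ} (hkl : k ≤ l) (i : Fin m) (ω : Ω) : P.E k (P.X l i) ω = P.X k i ω :=
  P.l8s_E_tower h hkl (P.l8s_y_bd h i) ω
theorem l8s_X_martingale (h : P.Ok) (i : Fin m) : Martingale (fun k => P.X k i) P.ℱ P.μ := by
  refine ⟨fun k => P.l8s_X_sm h k i, fun k l hkl => ?_⟩
  have h1 := P.l8s_E_condExp h k (P.l8s_X_bd h l i)
  exact h1.symm.trans (Filter.Eventually.of_forall fun ω => P.l8s_X_mart h hkl i ω)

theorem l8sb_XX_eq_sum {k l : ℕ} (hkl : k ≤ l) (i : Fin m) (ω : Ω) : P.XX k l i ω = ∑ j ∈ Ico k l, P.dX j i ω := by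
  induction l, hkl using Nat.le_induction with
  | base => simp [XX]
  | succ l hl ih => rw [Finset.sum_Ico_succ_top hl, ← ih]; simp [XX, dX]

/-- telescoping of the residual -/
theorem l8s_R_eq_sum (h : P.Ok) {k : ℕ} (hk : k ≤ P.n + 1) (i : Fin m) (ω : Ω) : P.R k i ω = ∑ l ∈ Ico k (P.n + 1), P.dX l i ω := by
  rw [← P.l8sb_XX_eq_sum hk]
  simp only [R, XX]
  rw [P.l8s_X_term h (Nat.lt_succ_self _)]

theorem l8sb_dX_bd (h : P.Ok) (l : ℕ) (i : Fin m) : L8Bd (P.dX l i) :=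
  l8sb_sub (P.l8s_X_bd h (l + 1) i) (P.l8s_X_bd h l i)

theorem l8sb_XX_bd (h : P.Ok) (k l : ℕ) (i : Fin m) : L8Bd (P.XX k l i) :=
  l8sb_sub (P.l8s_X_bd h l i) (P.l8s_X_bd h k i)

theorem l8sb_R_bd (h : P.Ok) (k : ℕ) (i : Fin m) : L8Bd (P.R k i) :=
  l8sb_sub (P.l8s_y_bd h i) (P.l8s_X_bd h k i)

theorem l8sb_dX_meas (h : P.Ok) {l l' : ℕ} (hl : l < l') (i : Fin m) : Measurable[P.ℱ l'] (P.dX l i) :=
  (((P.l8s_X_sm h (l + 1) i).mono (P.ℱ.mono hl)).sub ((P.l8s_X_sm h l i).mono (P.ℱ.mono hl.le))).measurable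

theorem l8sb_E_dX (h : P.Ok) {k l : ℕ} (hkl : k ≤ l) (j : Fin m) (ω : Ω) : P.E k (P.dX l j) ω = 0 := by
  have h1 : P.E k (fun ω' => P.X (l + 1) j ω' - P.X l j ω') ω = _ :=
    P.l8sb_E_sub h k (P.l8s_X_bd h (l + 1) j) (P.l8s_X_bd h l j) ω
  rw [P.l8s_X_mart h (hkl.trans (Nat.le_succ l)), P.l8s_X_mart h hkl, sub_self] at h1
  exact h1

/-- conditional orthogonality of increments -/
theorem l8s_dX_orth (h : P.Ok) {k l l' : ℕ} (hk : k ≤ l) (hl : l < l') (i j : Fin m) (ω : Ω) :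
    P.E k (fun ω' => P.dX l i ω' * P.dX l' j ω') ω = 0 := by
  have hb : L8Bd (fun ω' => P.dX l i ω' * P.dX l' j ω') := l8sb_mul (P.l8sb_dX_bd h l i) (P.l8sb_dX_bd h l' j)
  rw [← P.l8s_E_tower h (hk.trans hl.le) hb ω]
  have e : P.E l' (fun ω' => P.dX l i ω' * P.dX l' j ω') = fun _ => 0 := by
    funext x
    rw [P.l8s_E_pull h l' (P.l8sb_dX_meas h hl i) x, P.l8sb_E_dX h le_rfl j x, mul_zero]
  rw [e, P.l8sb_E_zero h]

theorem l8sb_orth_sum (h : P.Ok) {k a : ℕ} (hka : k ≤ a) (b : ℕ) (i j : Fin m) (ω : Ω) :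
    P.E k (fun ω' => (∑ l ∈ Ico a b, P.dX l i ω') * (∑ l ∈ Ico a b, P.dX l j ω')) ω
      = P.E k (fun ω' => ∑ l ∈ Ico a b, P.dX l i ω' * P.dX l j ω') ω := by
  have hb : ∀ l l', L8Bd (fun ω' => P.dX l i ω' * P.dX l' j ω') :=
    fun l l' => l8sb_mul (P.l8sb_dX_bd h l i) (P.l8sb_dX_bd h l' j)
  have e : (fun ω' => (∑ l ∈ Ico a b, P.dX l i ω') * (∑ l ∈ Ico a b, P.dX l j ω'))
      = fun ω' => ∑ l ∈ Ico a b, ∑ l' ∈ Ico a b, P.dX l i ω' * P.dX l' j ω' := by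
    funext x; rw [Finset.sum_mul_sum]
  rw [e, P.l8s_E_sum h k _ (fun l _ => l8sb_sum _ fun l' _ => hb l l'), P.l8s_E_sum h k _ (fun l _ => hb l l)]
  refine Finset.sum_congr rfl fun l hl => ?_
  rw [P.l8s_E_sum h k _ (fun l' _ => hb l l'), Finset.sum_eq_single l]
  · intro l' hl' hne
    rcases lt_or_gt_of_ne hne with hlt | hgt
    · have := P.l8s_dX_orth h (hka.trans (Finset.mem_Ico.1 hl').1) hlt j i ω
      simpa [mul_comm] using this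
    · exact P.l8s_dX_orth h (hka.trans (Finset.mem_Ico.1 hl).1) hgt i j ω
  · intro hn; exact absurd hl hn

theorem l8s_C_eq (h : P.Ok) (k : ℕ) (i j : Fin m) (ω : Ω) : P.C k i j ω = P.E k (fun ω' => P.R k i ω' * P.R k j ω') ω := by
  have mX : ∀ i, Measurable[P.ℱ k] (P.X k i) := fun i => (P.l8s_X_sm h k i).measurable
  have by_ := P.l8s_y_bd h
  have bX := P.l8s_X_bd h k
  have e : (fun ω' => P.R k i ω' * P.R k j ω')
      = fun ω' => ((P.y i ω' * P.y j ω' - P.X k j ω' * P.y i ω') - P.X k i ω' * P.y j ω')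
          + P.X k i ω' * P.X k j ω' := by
    funext x; simp only [R]; ring
  rw [e, P.l8s_E_add h k (l8sb_sub (l8sb_sub (l8sb_mul (by_ i) (by_ j)) (l8sb_mul (bX j) (by_ i)))
      (l8sb_mul (bX i) (by_ j))) (l8sb_mul (bX i) (bX j)),
    P.l8sb_E_sub h k (l8sb_sub (l8sb_mul (by_ i) (by_ j)) (l8sb_mul (bX j) (by_ i))) (l8sb_mul (bX i) (by_ j)),
    P.l8sb_E_sub h k (l8sb_mul (by_ i) (by_ j)) (l8sb_mul (bX j) (by_ i)),
    P.l8s_E_pull h k (mX j), P.l8s_E_pull h k (mX i), P.l8s_E_pull h k (mX i), P.l8s_X_mart h le_rfl]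
  simp only [C, X]
  ring

theorem l8s_C_eq_sum (h : P.Ok) {k : ℕ} (hk : k ≤ P.n + 1) (i j : Fin m) (ω : Ω) :
    P.C k i j ω = P.E k (fun ω' => ∑ l ∈ Ico k (P.n + 1), P.dX l i ω' * P.dX l j ω') ω := by
  rw [P.l8s_C_eq h, ← P.l8sb_orth_sum h le_rfl]
  congr 1
  funext x
  rw [P.l8s_R_eq_sum h hk, P.l8s_R_eq_sum h hk]

theorem l8s_C_symm (k : ℕ) (i j : Fin m) (ω : Ω) : P.C k i j ω = P.C k j i ω := by
  simp only [C, mul_comm]
theorem l8s_H_symm (k : ℕ) (i j : Fin m) (ω : Ω) : P.H k i j ω = P.H k j i ω := by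
  simp only [H, mul_comm]

theorem l8s_C_sm (h : P.Ok) (k : ℕ) (i j : Fin m) : StronglyMeasurable[P.ℱ k] (P.C k i j) :=
  (P.l8s_E_sm h k (l8sb_mul (P.l8s_y_bd h i) (P.l8s_y_bd h j))).sub ((P.l8s_X_sm h k i).mul (P.l8s_X_sm h k j))

theorem l8sb_Hint_bd (h : P.Ok) (k : ℕ) (i j : Fin m) :
    L8Bd (fun ω' => ∑ l ∈ Ico k (P.n + 1), P.v l * (P.dX l i ω' * P.dX l j ω')) :=
  l8sb_sum _ fun l _ => l8sb_const_mul _ (l8sb_mul (P.l8sb_dX_bd h l i) (P.l8sb_dX_bd h l j))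

theorem l8s_H_sm (h : P.Ok) (k : ℕ) (i j : Fin m) : StronglyMeasurable[P.ℱ k] (P.H k i j) :=
  P.l8s_E_sm h k (P.l8sb_Hint_bd h k i j)

theorem l8sb_E_quad (h : P.Ok) (k : ℕ) (u : Fin m → ℝ) {f : Fin m → Fin m → Ω → ℝ} (hf : ∀ i j, L8Bd (f i j)) (ω : Ω) :
    ∑ i, ∑ j, u i * P.E k (f i j) ω * u j = P.E k (fun ω' => ∑ i, ∑ j, u i * f i j ω' * u j) ω := by
  have hb : ∀ i j, L8Bd (fun ω' => u i * f i j ω' * u j) :=
    fun i j => l8sb_mul (l8sb_const_mul _ (hf i j)) (l8sb_const _)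
  rw [P.l8s_E_sum h k _ (fun i _ => l8sb_sum _ fun j _ => hb i j)]
  refine Finset.sum_congr rfl fun i _ => ?_
  rw [P.l8s_E_sum h k _ (fun j _ => hb i j)]
  refine Finset.sum_congr rfl fun j _ => ?_
  have e : (fun ω' => u i * f i j ω' * u j) = fun ω' => (u i * u j) * f i j ω' := by funext x; ring
  rw [e, P.l8s_E_const_mul]
  ring

theorem _root_.Claimed.Agent.R286.l8sb_alg_sq (a u : Fin m → ℝ) :
    ∑ i, ∑ j, u i * (a i * a j) * u j = (∑ i, u i * a i) ^ 2 := by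
  rw [sq, Finset.sum_mul_sum]
  refine Finset.sum_congr rfl fun i _ => Finset.sum_congr rfl fun j _ => ?_
  ring

theorem _root_.Claimed.Agent.R286.l8sb_alg_quad {ι : Type} (s : Finset ι) (v : ι → ℝ) (a : ι → Fin m → ℝ) (u : Fin m → ℝ) :
    ∑ i, ∑ j, u i * (∑ l ∈ s, v l * (a l i * a l j)) * u j = ∑ l ∈ s, v l * (∑ i, u i * a l i) ^ 2 := by
  have e1 : ∀ l, v l * (∑ i, u i * a l i) ^ 2 = ∑ i, ∑ j, u i * (v l * (a l i * a l j)) * u j := by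
    intro l
    rw [← l8sb_alg_sq, Finset.mul_sum]
    refine Finset.sum_congr rfl fun i _ => ?_
    rw [Finset.mul_sum]
    refine Finset.sum_congr rfl fun j _ => ?_
    ring
  have e2 : ∑ l ∈ s, ∑ i, ∑ j, u i * (v l * (a l i * a l j)) * u j
      = ∑ i, ∑ j, ∑ l ∈ s, u i * (v l * (a l i * a l j)) * u j := by
    rw [Finset.sum_comm]
    exact Finset.sum_congr rfl fun i _ => Finset.sum_comm
  simp only [e1]
  rw [e2]
  refine Finset.sum_congr rfl fun i _ => Finset.sum_congr rfl fun j _ => ?_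
  rw [Finset.mul_sum, Finset.sum_mul]

/-- quadratic forms -/
theorem l8s_C_quad (h : P.Ok) (k : ℕ) (u : Fin m → ℝ) (ω : Ω) :
    ∑ i, ∑ j, u i * P.C k i j ω * u j = P.E k (fun ω' => (∑ i, u i * P.R k i ω') ^ 2) ω := by
  simp only [P.l8s_C_eq h]
  rw [P.l8sb_E_quad h k u (fun i j => l8sb_mul (P.l8sb_R_bd h k i) (P.l8sb_R_bd h k j))]
  congr 1
  funext x
  exact l8sb_alg_sq _ _

theorem l8s_H_quad (h : P.Ok) (k : ℕ) (u : Fin m → ℝ) (ω : Ω) :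
    ∑ i, ∑ j, u i * P.H k i j ω * u j = P.E k (fun ω' => ∑ l ∈ Ico k (P.n + 1), P.v l * (∑ i, u i * P.dX l i ω') ^ 2) ω := by
  simp only [H]
  rw [P.l8sb_E_quad h k u (fun i j => P.l8sb_Hint_bd h k i j)]
  congr 1
  funext x
  exact l8sb_alg_quad _ _ _ _

theorem l8sb_q_bd (h : P.Ok) (l : ℕ) (u : Fin m → ℝ) : L8Bd (fun ω' => (∑ i, u i * P.dX l i ω') ^ 2) :=
  l8sb_pow (l8sb_sum _ fun i _ => l8sb_const_mul _ (P.l8sb_dX_bd h l i)) 2

/-- orthogonality in quadratic form -/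
theorem l8sb_orth_quad (h : P.Ok) {k a b : ℕ} (hka : k ≤ a) (hab : a ≤ b) (u : Fin m → ℝ) (ω : Ω) :
    P.E k (fun ω' => (∑ i, u i * P.XX a b i ω') ^ 2) ω
      = P.E k (fun ω' => ∑ l ∈ Ico a b, (∑ i, u i * P.dX l i ω') ^ 2) ω := by
  have e1 : (fun ω' => (∑ i, u i * P.XX a b i ω') ^ 2)
      = fun ω' => ∑ i, ∑ j, u i * (P.XX a b i ω' * P.XX a b j ω') * u j := by
    funext x; exact (l8sb_alg_sq _ _).symm
  have e2 : (fun ω' => ∑ l ∈ Ico a b, (∑ i, u i * P.dX l i ω') ^ 2)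
      = fun ω' => ∑ i, ∑ j, u i * (∑ l ∈ Ico a b, P.dX l i ω' * P.dX l j ω') * u j := by
    funext x
    have := l8sb_alg_quad (Ico a b) (fun _ => 1) (fun l i => P.dX l i x) u
    simp only [one_mul] at this
    exact this.symm
  rw [e1, e2, ← P.l8sb_E_quad h k u (fun i j => l8sb_mul (P.l8sb_XX_bd h a b i) (P.l8sb_XX_bd h a b j)),
    ← P.l8sb_E_quad h k u (fun i j => l8sb_sum _ fun l _ => l8sb_mul (P.l8sb_dX_bd h l i) (P.l8sb_dX_bd h l j))]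
  refine Finset.sum_congr rfl fun i _ => Finset.sum_congr rfl fun j _ => ?_
  rw [← P.l8sb_orth_sum h hka]
  congr 3
  funext x
  rw [P.l8sb_XX_eq_sum hab, P.l8sb_XX_eq_sum hab]

theorem l8sb_C_quad_sum (h : P.Ok) {k : ℕ} (hk : k ≤ P.n + 1) (u : Fin m → ℝ) (ω : Ω) :
    ∑ i, ∑ j, u i * P.C k i j ω * u j
      = P.E k (fun ω' => ∑ l ∈ Ico k (P.n + 1), (∑ i, u i * P.dX l i ω') ^ 2) ω := by
  rw [P.l8s_C_quad h, ← P.l8sb_orth_quad h le_rfl hk]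
  congr 1
  funext x
  congr 1
  refine Finset.sum_congr rfl fun i _ => ?_
  rw [P.l8s_R_eq_sum h hk, P.l8sb_XX_eq_sum hk]

theorem l8sb_v_le_a (h : P.Ok) (l : ℕ) : P.v l ≤ P.a := by
  rw [← h.v_term (max l P.n) (le_max_right _ _)]
  exact h.v_mono (le_max_left _ _)

/-- `v_k C_k ⪯ H_k ⪯ a C_k`  (LL (A1) line 2) -/
theorem l8s_vC_le_H (h : P.Ok) {k : ℕ} (hk : k ≤ P.n + 1) (u : Fin m → ℝ) (ω : Ω) :
    P.v k * ∑ i, ∑ j, u i * P.C k i j ω * u j ≤ ∑ i, ∑ j, u i * P.H k i j ω * u j := by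
  rw [P.l8sb_C_quad_sum h hk, P.l8s_H_quad h, ← P.l8s_E_const_mul]
  refine P.l8s_E_mono h k (l8sb_const_mul _ (l8sb_sum _ fun l _ => P.l8sb_q_bd h l u))
    (l8sb_sum _ fun l _ => l8sb_const_mul _ (P.l8sb_q_bd h l u)) (fun x => ?_) ω
  rw [Finset.mul_sum]
  refine Finset.sum_le_sum fun l hl => ?_
  exact mul_le_mul_of_nonneg_right (h.v_mono (Finset.mem_Ico.1 hl).1) (sq_nonneg _)
theorem l8s_H_le_aC (h : P.Ok) {k : ℕ} (hk : k ≤ P.n + 1) (u : Fin m → ℝ) (ω : Ω) :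
    ∑ i, ∑ j, u i * P.H k i j ω * u j ≤ P.a * ∑ i, ∑ j, u i * P.C k i j ω * u j := by
  rw [P.l8sb_C_quad_sum h hk, P.l8s_H_quad h, ← P.l8s_E_const_mul]
  refine P.l8s_E_mono h k (l8sb_sum _ fun l _ => l8sb_const_mul _ (P.l8sb_q_bd h l u))
    (l8sb_const_mul _ (l8sb_sum _ fun l _ => P.l8sb_q_bd h l u)) (fun x => ?_) ω
  rw [Finset.mul_sum]
  refine Finset.sum_le_sum fun l _ => ?_
  exact mul_le_mul_of_nonneg_right (P.l8sb_v_le_a h l) (sq_nonneg _)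
theorem l8s_C_psd (h : P.Ok) (k : ℕ) (u : Fin m → ℝ) (ω : Ω) : 0 ≤ ∑ i, ∑ j, u i * P.C k i j ω * u j := by
  rw [P.l8s_C_quad h]
  exact P.l8sb_E_nonneg h k (l8sb_pow (l8sb_sum _ fun i _ => l8sb_const_mul _ (P.l8sb_R_bd h k i)) 2)
    (fun _ => sq_nonneg _) ω
theorem l8s_trC_eq (h : P.Ok) (k : ℕ) (ω : Ω) : ∑ i, P.C k i i ω = 1 - P.nX k ω := by
  simp only [C, nX]
  rw [Finset.sum_sub_distrib, ← P.l8s_E_sum h k _ (fun i _ => l8sb_mul (P.l8s_y_bd h i) (P.l8s_y_bd h i))]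
  have e : (fun ω' => ∑ i, P.y i ω' * P.y i ω') = fun _ => 1 := by
    funext x
    rw [← h.y_sq x]
    exact Finset.sum_congr rfl fun i _ => (sq _).symm
  rw [e, P.l8s_E_const h]
  congr 1
  exact Finset.sum_congr rfl fun i _ => (sq _).symm
theorem l8s_trC_le_one (h : P.Ok) (k : ℕ) (ω : Ω) : ∑ i, P.C k i i ω ≤ 1 := by
  rw [P.l8s_trC_eq h]
  have : 0 ≤ P.nX k ω := Finset.sum_nonneg fun i _ => sq_nonneg _
  linarith

theorem _root_.Claimed.Agent.R286.l8sb_sum_blocks (t : ℕ → ℕ) (ht : Monotone t) (b : ℕ) (g : ℕ → ℝ) :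
    ∑ l ∈ Ico (t 0) (t b), g l = ∑ c ∈ range b, ∑ l ∈ Ico (t c) (t (c + 1)), g l := by
  induction b with
  | zero => simp
  | succ b ih =>
    rw [Finset.sum_range_succ, ← ih, Finset.sum_Ico_consecutive _ (ht (Nat.zero_le b)) (ht (Nat.le_succ b))]

/-- block form of the Hessian bound (LL Lemma 6.2): cuts `k = t 0 ≤ t 1 ≤ .. ≤ t b = n + 1` -/
theorem l8s_H_le_blocks (h : P.Ok) (b : ℕ) (t : ℕ → ℕ) (ht : Monotone t) (hb : t b = P.n + 1) (u : Fin m → ℝ) (ω : Ω) :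
    ∑ i, ∑ j, u i * P.H (t 0) i j ω * u j
      ≤ P.E (t 0) (fun ω' => ∑ c ∈ range b, P.v (t (c + 1) - 1) * (∑ i, u i * P.XX (t c) (t (c + 1)) i ω') ^ 2) ω := by
  have bXX : ∀ c, L8Bd (fun ω' => (∑ i, u i * P.XX (t c) (t (c + 1)) i ω') ^ 2) := fun c =>
    l8sb_pow (l8sb_sum _ fun i _ => l8sb_const_mul _ (P.l8sb_XX_bd h _ _ i)) 2
  have bq : ∀ c, L8Bd (fun ω' => ∑ l ∈ Ico (t c) (t (c + 1)), (∑ i, u i * P.dX l i ω') ^ 2) := fun c =>
    l8sb_sum _ fun l _ => P.l8sb_q_bd h l u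
  have e1 : P.E (t 0) (fun ω' => ∑ c ∈ range b, P.v (t (c + 1) - 1) * (∑ i, u i * P.XX (t c) (t (c + 1)) i ω') ^ 2) ω
      = P.E (t 0) (fun ω' => ∑ c ∈ range b, P.v (t (c + 1) - 1)
          * ∑ l ∈ Ico (t c) (t (c + 1)), (∑ i, u i * P.dX l i ω') ^ 2) ω := by
    rw [P.l8s_E_sum h _ _ (fun c _ => l8sb_const_mul _ (bXX c)), P.l8s_E_sum h _ _ (fun c _ => l8sb_const_mul _ (bq c))]
    refine Finset.sum_congr rfl fun c _ => ?_
    rw [P.l8s_E_const_mul, P.l8s_E_const_mul, P.l8sb_orth_quad h (ht (Nat.zero_le c)) (ht (Nat.le_succ c))]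
  rw [e1, P.l8s_H_quad h]
  refine P.l8s_E_mono h _ (l8sb_sum _ fun l _ => l8sb_const_mul _ (P.l8sb_q_bd h l u))
    (l8sb_sum _ fun c _ => l8sb_const_mul _ (bq c)) (fun x => ?_) ω
  rw [← hb, l8sb_sum_blocks t ht b]
  refine Finset.sum_le_sum fun c _ => ?_
  rw [Finset.mul_sum]
  refine Finset.sum_le_sum fun l hl => ?_
  refine mul_le_mul_of_nonneg_right (h.v_mono ?_) (sq_nonneg _)
  have := (Finset.mem_Ico.1 hl).2
  omega

/-! ### bottom half: proofs by helper188 (helpers carry the suffix of the leaf they serve) -/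

theorem l8s_W_bd_R (h : P.Ok) (k : ℕ) (i : Fin m) : L8Bd (P.R k i) :=
  (P.l8s_y_bd h i).sub (P.l8s_X_bd h k i)

theorem l8s_W_bd_dX (h : P.Ok) (l : ℕ) (i : Fin m) : L8Bd (P.dX l i) :=
  (P.l8s_X_bd h (l + 1) i).sub (P.l8s_X_bd h l i)

theorem l8s_W_bd_XX (h : P.Ok) (k l : ℕ) (i : Fin m) : L8Bd (P.XX k l i) :=
  (P.l8s_X_bd h l i).sub (P.l8s_X_bd h k i)

theorem l8s_W_bd_nX (h : P.Ok) (k : ℕ) : L8Bd (P.nX k) :=
  L8Bd.sum _ fun i _ => (P.l8s_X_bd h k i).pow 2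

theorem l8s_W_bd_Hint (h : P.Ok) (k : ℕ) (i j : Fin m) :
    L8Bd (fun ω' => ∑ l ∈ Ico k (P.n + 1), P.v l * (P.dX l i ω' * P.dX l j ω')) :=
  L8Bd.sum _ fun l _ => ((P.l8s_W_bd_dX h l i).mul (P.l8s_W_bd_dX h l j)).const_mul _

theorem l8s_W_bd_H (h : P.Ok) (k : ℕ) (i j : Fin m) : L8Bd (P.H k i j) :=
  P.l8s_E_bd h k (P.l8s_W_bd_Hint h k i j)

theorem l8s_W_bd_C (h : P.Ok) (k : ℕ) (i j : Fin m) : L8Bd (P.C k i j) :=
  (P.l8s_E_bd h k ((P.l8s_y_bd h i).mul (P.l8s_y_bd h j))).sub ((P.l8s_X_bd h k i).mul (P.l8s_X_bd h k j))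

theorem l8s_W_nonneg (h : P.Ok) (k : ℕ) (ω : Ω) : 0 ≤ P.W k ω := by
  have h1 := P.l8s_H_quad h k (fun i => P.R k i ω) ω
  unfold L8P.W
  rw [h1]
  exact P.l8s_E_nonneg k (fun ω' => Finset.sum_nonneg fun l _ => mul_nonneg (h.v_nonneg l) (sq_nonneg _)) ω

/-- `uᵀ C u ≤ |u|² tr C` -/
theorem l8s_W_le_quad (h : P.Ok) (k : ℕ) (u : Fin m → ℝ) (ω : Ω) :
    ∑ i, ∑ j, u i * P.C k i j ω * u j ≤ (∑ i, u i ^ 2) * ∑ i, P.C k i i ω := by
  rw [P.l8s_C_quad h k u ω]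
  have e : ∑ i, P.C k i i ω = P.E k (fun ω' => ∑ i, P.R k i ω' ^ 2) ω := by
    rw [P.l8s_E_sum h k _ fun i _ => (P.l8s_W_bd_R h k i).pow 2]
    refine Finset.sum_congr rfl fun i _ => ?_
    rw [P.l8s_C_eq h k i i ω]
    exact P.l8s_E_congr k (fun ω' => by ring) ω
  rw [e, ← P.l8s_E_const_mul]
  refine P.l8s_E_mono h k ((L8Bd.sum _ fun i _ => (P.l8s_W_bd_R h k i).const_mul _).pow 2)
    ((L8Bd.sum _ fun i _ => (P.l8s_W_bd_R h k i).pow 2).const_mul _) (fun ω' => ?_) ω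
  exact Finset.sum_mul_sq_le_sq_mul_sq _ _ _

theorem l8s_W_le_R (h : P.Ok) (k : ℕ) (ω : Ω) : ∑ i, P.R k i ω ^ 2 ≤ 4 := by
  have h1 : ∑ i, P.R k i ω ^ 2 ≤ ∑ i, (2 * P.y i ω ^ 2 + 2 * P.X k i ω ^ 2) := by
    refine Finset.sum_le_sum fun i _ => ?_
    unfold L8P.R
    nlinarith [sq_nonneg (P.y i ω + P.X k i ω)]
  rw [Finset.sum_add_distrib, ← Finset.mul_sum, ← Finset.mul_sum, h.y_sq ω] at h1
  have h2 := P.l8s_nX_le_one h k ω
  unfold L8P.nX at h2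
  linarith

theorem l8s_W_le (h : P.Ok) {k : ℕ} (hk : k ≤ P.n + 1) (ω : Ω) : P.W k ω ≤ 4 * P.a := by
  have h1 := P.l8s_H_le_aC h hk (fun i => P.R k i ω) ω
  have h2 := P.l8s_W_le_quad h k (fun i => P.R k i ω) ω
  have h3 := P.l8s_W_le_R h k ω
  have h4 := P.l8s_trC_le_one h k ω
  have h5 : 0 ≤ ∑ i, P.R k i ω ^ 2 := Finset.sum_nonneg fun i _ => sq_nonneg _
  have h6 : (∑ i, P.R k i ω ^ 2) * ∑ i, P.C k i i ω ≤ 4 * 1 := by
    calc (∑ i, P.R k i ω ^ 2) * ∑ i, P.C k i i ω ≤ (∑ i, P.R k i ω ^ 2) * 1 := mul_le_mul_of_nonneg_left h4 h5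
      _ ≤ 4 * 1 := mul_le_mul_of_nonneg_right h3 zero_le_one
  have ha := h.a_pos
  unfold L8P.W
  calc ∑ i, ∑ j, P.R k i ω * P.H k i j ω * P.R k j ω
      ≤ P.a * ∑ i, ∑ j, P.R k i ω * P.C k i j ω * P.R k j ω := h1
    _ ≤ P.a * (4 * 1) := mul_le_mul_of_nonneg_left (h2.trans h6) ha.le
    _ = 4 * P.a := by ring

theorem l8s_W_bd (h : P.Ok) (k : ℕ) : L8Bd (P.W k) :=
  L8Bd.sum _ fun i _ => L8Bd.sum _ fun j _ =>
    ((P.l8s_W_bd_R h k i).mul (P.l8s_W_bd_H h k i j)).mul (P.l8s_W_bd_R h k j)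

theorem l8s_L_bd (h : P.Ok) (k : ℕ) : L8Bd (P.L k) :=
  (L8Bd.sum _ fun i _ => (P.l8s_y_bd h i).mul (P.l8s_X_bd h k i)).sub ((P.l8s_W_bd_nX h k).div_const 2)

theorem l8s_L_abs_le (h : P.Ok) (k : ℕ) (ω : Ω) : |P.L k ω| ≤ 3 / 2 := by
  have h2 := P.l8s_nX_le_one h k ω
  have h0 : 0 ≤ P.nX k ω := Finset.sum_nonneg fun i _ => sq_nonneg _
  have hy := h.y_sq ω
  have h3 : ∑ i, P.y i ω * P.X k i ω ≤ ∑ i, (P.y i ω ^ 2 + P.X k i ω ^ 2) / 2 :=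
    Finset.sum_le_sum fun i _ => by nlinarith [sq_nonneg (P.y i ω - P.X k i ω)]
  have h4 : - ∑ i, (P.y i ω ^ 2 + P.X k i ω ^ 2) / 2 ≤ ∑ i, P.y i ω * P.X k i ω := by
    rw [← Finset.sum_neg_distrib]
    exact Finset.sum_le_sum fun i _ => by nlinarith [sq_nonneg (P.y i ω + P.X k i ω)]
  have h5 : ∑ i, (P.y i ω ^ 2 + P.X k i ω ^ 2) / 2 = (1 + P.nX k ω) / 2 := by
    rw [← Finset.sum_div, Finset.sum_add_distrib, hy]; rfl
  rw [h5] at h3 h4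
  unfold L8P.L
  rw [abs_le]
  constructor <;> linarith

/-- `E_k` of a quadratic form in the residual with prefix-measurable (here: frozen) coefficients -/
theorem l8s_E_W_quad (h : P.Ok) (k : ℕ) (M : Fin m → Fin m → ℝ) (ω : Ω) :
    P.E k (fun ω' => ∑ i, ∑ j, P.R k i ω' * M i j * P.R k j ω') ω = ∑ i, ∑ j, P.C k i j ω * M i j := by
  rw [P.l8s_E_sum h k _ fun i _ => L8Bd.sum _ fun j _ =>
    ((P.l8s_W_bd_R h k i).mul_const _).mul (P.l8s_W_bd_R h k j)]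
  refine Finset.sum_congr rfl fun i _ => ?_
  rw [P.l8s_E_sum h k _ fun j _ => ((P.l8s_W_bd_R h k i).mul_const _).mul (P.l8s_W_bd_R h k j)]
  refine Finset.sum_congr rfl fun j _ => ?_
  rw [P.l8s_C_eq h k i j ω, ← P.l8s_E_mul_const]
  exact P.l8s_E_congr k (fun ω' => by ring) ω

/-- `E_k W_k = tr C_k H_k` -/
theorem l8s_E_W (h : P.Ok) (k : ℕ) (ω : Ω) : P.E k (P.W k) ω = P.trCH k ω := by
  have h1 : (P.W k) =ᵐ[P.κ k ω] fun ω' => ∑ i, ∑ j, P.R k i ω' * P.H k i j ω * P.R k j ω' := by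
    have h2 : ∀ᵐ ω' ∂(P.κ k ω), ∀ i j, P.H k i j ω' = P.H k i j ω := by
      rw [ae_all_iff]; intro i
      rw [ae_all_iff]; intro j
      exact P.l8s_proper_ae h k (P.l8s_H_sm h k i j).measurable ω
    filter_upwards [h2] with ω' hω'
    unfold L8P.W
    simp only [hω']
  have h3 : P.E k (P.W k) ω = P.E k (fun ω' => ∑ i, ∑ j, P.R k i ω' * P.H k i j ω * P.R k j ω') ω :=
    integral_congr_ae h1
  rw [h3, P.l8s_E_W_quad h k (fun i j => P.H k i j ω) ω]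
  rfl

theorem l8s_integral_W (h : P.Ok) (k : ℕ) : ∫ ω, P.W k ω ∂P.μ = ∫ ω, P.trCH k ω ∂P.μ := by
  rw [← P.l8s_integral_E h k (P.l8s_W_bd h k)]
  exact integral_congr_ae (ae_of_all _ fun ω => P.l8s_E_W h k ω)

/-- `v tr C² ≤ tr C H`,  `v tr C H ≤ tr H²` -/
theorem l8s_trC2_le (h : P.Ok) {k : ℕ} (hk : k ≤ P.n + 1) (ω : Ω) : P.v k * P.trC2 k ω ≤ P.trCH k ω := by
  have h1 := P.l8s_E_W_quad h k (fun i j => P.H k i j ω - P.v k * P.C k i j ω) ω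
  have h2 : 0 ≤ P.E k (fun ω' => ∑ i, ∑ j, P.R k i ω' * (P.H k i j ω - P.v k * P.C k i j ω) * P.R k j ω') ω := by
    refine P.l8s_E_nonneg k (fun ω' => ?_) ω
    have h3 := P.l8s_vC_le_H h hk (fun i => P.R k i ω') ω
    have e : ∑ i, ∑ j, P.R k i ω' * (P.H k i j ω - P.v k * P.C k i j ω) * P.R k j ω'
        = ∑ i, ∑ j, P.R k i ω' * P.H k i j ω * P.R k j ω'
          - P.v k * ∑ i, ∑ j, P.R k i ω' * P.C k i j ω * P.R k j ω' := by
      rw [Finset.mul_sum, ← Finset.sum_sub_distrib]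
      refine Finset.sum_congr rfl fun i _ => ?_
      rw [Finset.mul_sum, ← Finset.sum_sub_distrib]
      exact Finset.sum_congr rfl fun j _ => by ring
    rw [e]; linarith
  rw [h1] at h2
  have e2 : ∑ i, ∑ j, P.C k i j ω * (P.H k i j ω - P.v k * P.C k i j ω) = P.trCH k ω - P.v k * P.trC2 k ω := by
    unfold L8P.trCH L8P.trC2
    rw [Finset.mul_sum, ← Finset.sum_sub_distrib]
    refine Finset.sum_congr rfl fun i _ => ?_
    rw [Finset.mul_sum, ← Finset.sum_sub_distrib]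
    exact Finset.sum_congr rfl fun j _ => by ring
  rw [e2] at h2
  linarith

/-- `E_k` of the mass-weighted quadratic forms of the future increments with frozen coefficients -/
theorem l8s_trCH_le_quad (h : P.Ok) (k : ℕ) (M : Fin m → Fin m → ℝ) (ω : Ω) :
    P.E k (fun ω' => ∑ l ∈ Ico k (P.n + 1), P.v l * ∑ i, ∑ j, P.dX l i ω' * M i j * P.dX l j ω') ω
      = ∑ i, ∑ j, P.H k i j ω * M i j := by
  have e : (fun ω' => ∑ l ∈ Ico k (P.n + 1), P.v l * ∑ i, ∑ j, P.dX l i ω' * M i j * P.dX l j ω')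
      = fun ω' => ∑ i, ∑ j, (∑ l ∈ Ico k (P.n + 1), P.v l * (P.dX l i ω' * P.dX l j ω')) * M i j := by
    funext ω'
    simp only [Finset.mul_sum, Finset.sum_mul]
    rw [Finset.sum_comm]
    refine Finset.sum_congr rfl fun i _ => ?_
    rw [Finset.sum_comm]
    refine Finset.sum_congr rfl fun j _ => ?_
    exact Finset.sum_congr rfl fun l _ => by ring
  rw [e, P.l8s_E_sum h k _ fun i _ => L8Bd.sum _ fun j _ => (P.l8s_W_bd_Hint h k i j).mul_const _]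
  refine Finset.sum_congr rfl fun i _ => ?_
  rw [P.l8s_E_sum h k _ fun j _ => (P.l8s_W_bd_Hint h k i j).mul_const _]
  refine Finset.sum_congr rfl fun j _ => ?_
  rw [P.l8s_E_mul_const]
  rfl

theorem l8s_trCH_le (h : P.Ok) {k : ℕ} (hk : k ≤ P.n + 1) (ω : Ω) : P.v k * P.trCH k ω ≤ P.trH2 k ω := by
  have h1 := P.l8s_trCH_le_quad h k (fun i j => P.H k i j ω - P.v k * P.C k i j ω) ω
  have h2 : 0 ≤ P.E k (fun ω' => ∑ l ∈ Ico k (P.n + 1), P.v l *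
      ∑ i, ∑ j, P.dX l i ω' * (P.H k i j ω - P.v k * P.C k i j ω) * P.dX l j ω') ω := by
    refine P.l8s_E_nonneg k (fun ω' => Finset.sum_nonneg fun l _ => mul_nonneg (h.v_nonneg l) ?_) ω
    have h3 := P.l8s_vC_le_H h hk (fun i => P.dX l i ω') ω
    have e : ∑ i, ∑ j, P.dX l i ω' * (P.H k i j ω - P.v k * P.C k i j ω) * P.dX l j ω'
        = ∑ i, ∑ j, P.dX l i ω' * P.H k i j ω * P.dX l j ω'
          - P.v k * ∑ i, ∑ j, P.dX l i ω' * P.C k i j ω * P.dX l j ω' := by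
      rw [Finset.mul_sum, ← Finset.sum_sub_distrib]
      refine Finset.sum_congr rfl fun i _ => ?_
      rw [Finset.mul_sum, ← Finset.sum_sub_distrib]
      exact Finset.sum_congr rfl fun j _ => by ring
    rw [e]; linarith
  rw [h1] at h2
  have e2 : ∑ i, ∑ j, P.H k i j ω * (P.H k i j ω - P.v k * P.C k i j ω) = P.trH2 k ω - P.v k * P.trCH k ω := by
    unfold L8P.trCH L8P.trH2
    rw [Finset.mul_sum, ← Finset.sum_sub_distrib]
    refine Finset.sum_congr rfl fun i _ => ?_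
    rw [Finset.mul_sum, ← Finset.sum_sub_distrib]
    exact Finset.sum_congr rfl fun j _ => by ring
  rw [e2] at h2
  linarith

/-- `E_k (y · X_l) = X_k · X_l` for `l ≤ k` -/
theorem l8s_E_L_past_aux (h : P.Ok) {l k : ℕ} (hlk : l ≤ k) (ω : Ω) :
    P.E k (P.L l) ω = ∑ i, P.X k i ω * P.X l i ω - P.nX l ω / 2 := by
  have hXm : ∀ i, Measurable[P.ℱ k] (P.X l i) := fun i =>
    ((P.l8s_X_sm h l i).mono (P.ℱ.mono hlk)).measurable
  have hnm : Measurable[P.ℱ k] (fun ω' => P.nX l ω' / 2) := by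
    unfold L8P.nX
    exact (Finset.measurable_fun_sum _ fun i _ => (hXm i).pow_const 2).div_const 2
  have e : P.L l = fun ω' => (∑ i, P.y i ω' * P.X l i ω') - P.nX l ω' / 2 := rfl
  rw [e, P.l8s_E_sub h k (L8Bd.sum _ fun i _ => (P.l8s_y_bd h i).mul (P.l8s_X_bd h l i))
    ((P.l8s_W_bd_nX h l).div_const 2), P.l8s_E_self h k hnm,
    P.l8s_E_sum h k _ fun i _ => (P.l8s_y_bd h i).mul (P.l8s_X_bd h l i)]
  congr 1
  refine Finset.sum_congr rfl fun i _ => ?_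
  have e2 : (fun ω' => P.y i ω' * P.X l i ω') = fun ω' => P.X l i ω' * P.y i ω' := by
    funext ω'; ring
  rw [e2, P.l8s_E_pull h k (hXm i) ω]
  unfold L8P.X
  ring

/-- martingale identities for `L` (LL Lemma 6.3) -/
theorem l8s_E_L_past (h : P.Ok) {l k : ℕ} (hlk : l ≤ k) (ω : Ω) :
    2 * P.E k (P.L l) ω = P.nX k ω - ∑ i, P.XX l k i ω ^ 2 := by
  rw [P.l8s_E_L_past_aux h hlk ω]
  unfold L8P.nX L8P.XX
  rw [← Finset.sum_sub_distrib, mul_sub, Finset.mul_sum, mul_div_cancel₀ _ (two_ne_zero), ← Finset.sum_sub_distrib]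
  exact Finset.sum_congr rfl fun i _ => by ring

theorem l8s_E_L_future (h : P.Ok) {l k : ℕ} (hkl : k ≤ l) (ω : Ω) : 2 * P.E k (P.L l) ω = P.E k (P.nX l) ω := by
  rw [← P.l8s_E_tower h hkl (P.l8s_L_bd h l) ω, ← P.l8s_E_const_mul]
  refine P.l8s_E_congr k (fun ω' => ?_) ω
  rw [P.l8s_E_L_past h le_rfl ω']
  unfold L8P.XX
  simp

theorem l8s_E_nX_sub (h : P.Ok) {l k : ℕ} (hkl : k ≤ l) (ω : Ω) :
    P.E k (P.nX l) ω - P.nX k ω = P.E k (fun ω' => ∑ i, P.XX k l i ω' ^ 2) ω := by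
  have hXm : ∀ i, Measurable[P.ℱ k] (P.X k i) := fun i => (P.l8s_X_sm h k i).measurable
  rw [P.l8s_E_sum h k _ fun i _ => (P.l8s_W_bd_XX h k l i).pow 2]
  have e : P.nX l = fun ω' => ∑ i, P.X l i ω' ^ 2 := rfl
  rw [e, P.l8s_E_sum h k _ fun i _ => (P.l8s_X_bd h l i).pow 2]
  unfold L8P.nX
  rw [← Finset.sum_sub_distrib]
  refine Finset.sum_congr rfl fun i _ => ?_
  have e2 : (fun ω' => P.XX k l i ω' ^ 2)
      = fun ω' => (P.X l i ω' ^ 2 - 2 * (P.X k i ω' * P.X l i ω')) + P.X k i ω' * P.X k i ω' := by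
    funext ω'; unfold L8P.XX; ring
  rw [e2, P.l8s_E_add h k (((P.l8s_X_bd h l i).pow 2).sub (((P.l8s_X_bd h k i).mul (P.l8s_X_bd h l i)).const_mul 2))
      ((P.l8s_X_bd h k i).mul (P.l8s_X_bd h k i)),
    P.l8s_E_sub h k ((P.l8s_X_bd h l i).pow 2) (((P.l8s_X_bd h k i).mul (P.l8s_X_bd h l i)).const_mul 2),
    P.l8s_E_const_mul, P.l8s_E_pull h k (hXm i) ω, P.l8s_E_pull h k (hXm i) ω, P.l8s_X_mart h hkl i ω,
    P.l8s_E_self h k (hXm i) ω]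
  ring

theorem l8s_nX_le_E (h : P.Ok) {l k : ℕ} (hkl : k ≤ l) (ω : Ω) : P.nX k ω ≤ P.E k (P.nX l) ω := by
  have h1 := P.l8s_E_nX_sub h hkl ω
  have h2 : 0 ≤ P.E k (fun ω' => ∑ i, P.XX k l i ω' ^ 2) ω :=
    P.l8s_E_nonneg k (fun ω' => Finset.sum_nonneg fun i _ => sq_nonneg _) ω
  linarith

theorem l8s_two_integral_L (h : P.Ok) (k : ℕ) : 2 * ∫ ω, P.L k ω ∂P.μ = P.S k := by
  have := h.prob
  obtain ⟨ω⟩ := nonempty_of_isProbabilityMeasure P.μ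
  have h1 := P.l8s_E_L_future h (Nat.zero_le k) ω
  rw [P.l8s_E_root h, P.l8s_E_root h] at h1
  exact h1

theorem l8s_S_nonneg (k : ℕ) : 0 ≤ P.S k :=
  integral_nonneg fun ω => Finset.sum_nonneg fun i _ => sq_nonneg _

theorem l8s_S_le_one (h : P.Ok) (k : ℕ) : P.S k ≤ 1 := by
  have := h.prob
  have h1 : P.S k ≤ ∫ _ω, (1 : ℝ) ∂P.μ :=
    integral_mono ((P.l8s_W_bd_nX h k).integrable _) (integrable_const _) fun ω => P.l8s_nX_le_one h k ω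
  simpa using h1

theorem l8s_S_sub (h : P.Ok) {k l : ℕ} (hkl : k ≤ l) : P.S l - P.S k = ∫ ω, ∑ i, P.XX k l i ω ^ 2 ∂P.μ := by
  have := h.prob
  rw [← P.l8s_integral_E h k (L8Bd.sum _ fun i _ => (P.l8s_W_bd_XX h k l i).pow 2)]
  have h1 : ∀ ω, P.E k (fun ω' => ∑ i, P.XX k l i ω' ^ 2) ω = P.E k (P.nX l) ω - P.nX k ω :=
    fun ω => (P.l8s_E_nX_sub h hkl ω).symm
  rw [integral_congr_ae (ae_of_all _ h1),
    integral_sub ((P.l8s_E_bd h k (P.l8s_W_bd_nX h l)).integrable _) ((P.l8s_W_bd_nX h k).integrable _),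
    P.l8s_integral_E h k (P.l8s_W_bd_nX h l)]
  rfl

theorem l8s_S_mono (h : P.Ok) : Monotone P.S := by
  intro k l hkl
  have h1 := P.l8s_S_sub h hkl
  have h2 : 0 ≤ ∫ ω, ∑ i, P.XX k l i ω ^ 2 ∂P.μ :=
    integral_nonneg fun ω => Finset.sum_nonneg fun i _ => sq_nonneg _
  linarith

/-- `D² = Var |X|² + 2 E XᵀCX + E tr C²` -/
theorem l8s_D2_eq (h : P.Ok) (k : ℕ) :
    P.D2 k = (∫ ω, (P.nX k ω - P.S k) ^ 2 ∂P.μ) + 2 * ∫ ω, P.xCx k ω ∂P.μ + ∫ ω, P.trC2 k ω ∂P.μ := by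
  have := h.prob
  have hn := P.l8s_W_bd_nX h k
  have hx : L8Bd (P.xCx k) := L8Bd.sum _ fun i _ => L8Bd.sum _ fun j _ =>
    ((P.l8s_X_bd h k i).mul (P.l8s_W_bd_C h k i j)).mul (P.l8s_X_bd h k j)
  have ht : L8Bd (P.trC2 k) := L8Bd.sum _ fun i _ => L8Bd.sum _ fun j _ => (P.l8s_W_bd_C h k i j).pow 2
  have e1 : ∀ ω, ∑ i, ∑ j, P.E k (fun ω' => P.y i ω' * P.y j ω') ω ^ 2
      = (P.nX k ω ^ 2 + 2 * P.xCx k ω) + P.trC2 k ω := by
    intro ω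
    have e3 : P.nX k ω ^ 2 = ∑ i, ∑ j, P.X k i ω ^ 2 * P.X k j ω ^ 2 := by
      unfold L8P.nX
      rw [sq, Finset.sum_mul_sum]
    rw [e3]
    unfold L8P.xCx L8P.trC2
    rw [Finset.mul_sum, ← Finset.sum_add_distrib, ← Finset.sum_add_distrib]
    refine Finset.sum_congr rfl fun i _ => ?_
    rw [Finset.mul_sum, ← Finset.sum_add_distrib, ← Finset.sum_add_distrib]
    refine Finset.sum_congr rfl fun j _ => ?_
    unfold L8P.C
    ring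
  have e2 : ∀ ω, (P.nX k ω - P.S k) ^ 2 = (P.nX k ω ^ 2 - (2 * P.S k) * P.nX k ω) + P.S k ^ 2 := fun ω => by ring
  unfold L8P.D2 L8P.B
  rw [integral_congr_ae (ae_of_all _ e1), integral_congr_ae (ae_of_all _ e2),
    integral_add ((((hn.pow 2).add (hx.const_mul 2))).integrable _) (ht.integrable _),
    integral_add ((hn.pow 2).integrable _) ((hx.const_mul 2).integrable _),
    integral_add (((hn.pow 2).sub (hn.const_mul _)).integrable _) (integrable_const _),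
    integral_sub ((hn.pow 2).integrable _) ((hn.const_mul _).integrable _),
    integral_const_mul, integral_const_mul]
  have e4 : ∫ ω, P.nX k ω ∂P.μ = P.S k := rfl
  rw [e4]
  simp
  ring

/-- ABS1 of 228: summed susceptibility -/
theorem l8s_sum_W_le (h : P.Ok) {c : ℝ} (hc : 0 < c) (hs : P.Sus c) {k₁ k₂ : ℕ} (hk : k₁ ≤ k₂) (hk₂ : k₂ ≤ P.n) :
    ∑ k ∈ Ico k₁ k₂, c * m * P.v k * P.dh k * ∫ ω, P.W k ω ∂P.μ ≤ P.S k₂ - P.S k₁ := by
  have := h.prob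
  have h1 : ∀ k ∈ Ico k₁ k₂, c * m * P.v k * P.dh k * ∫ ω, P.W k ω ∂P.μ ≤ P.S (k + 1) - P.S k := by
    intro k hkm
    have hkn : k < P.n := lt_of_lt_of_le (Finset.mem_Ico.1 hkm).2 hk₂
    refine le_trans ?_ (hs k hkn)
    have hCH : L8Bd (P.trCH k) := L8Bd.sum _ fun i _ => L8Bd.sum _ fun j _ =>
      (P.l8s_W_bd_C h k i j).mul (P.l8s_W_bd_H h k i j)
    have hH2 : L8Bd (P.trH2 k) := L8Bd.sum _ fun i _ => L8Bd.sum _ fun j _ => (P.l8s_W_bd_H h k i j).pow 2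
    have h2 : P.v k * ∫ ω, P.W k ω ∂P.μ ≤ ∫ ω, P.trH2 k ω ∂P.μ := by
      rw [P.l8s_integral_W h k, ← integral_const_mul]
      exact integral_mono ((hCH.const_mul _).integrable _) (hH2.integrable _)
        fun ω => P.l8s_trCH_le h (by omega) ω
    have h3 : 0 ≤ c * m * P.dh k := mul_nonneg (mul_nonneg hc.le (Nat.cast_nonneg m)) (h.dh_nonneg k)
    calc c * m * P.v k * P.dh k * ∫ ω, P.W k ω ∂P.μ = c * m * P.dh k * (P.v k * ∫ ω, P.W k ω ∂P.μ) := by ring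
      _ ≤ c * m * P.dh k * ∫ ω, P.trH2 k ω ∂P.μ := mul_le_mul_of_nonneg_left h2 h3
  refine (Finset.sum_le_sum h1).trans (le_of_eq ?_)
  exact Finset.sum_Ico_sub P.S hk

end B


end L8P

end Claimed.Agent.R286
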