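import Claimed.Agent.R286.L08.SpiOk
import Claimed.Agent.R286.Defs.GhBasic

/-!
# Row 286, LL sec. 8, unit SPI, file SpiDic      (owner helper257; prefix `spi`)

DICTIONARY between the abstract single path `spiP B ls z Y dh : L8P` and the field functions of `Defs/Gh`:

* `spi_reg_of_nn` : hierarchies with masses `≥ 0` are regular;
* `spi_E`         : `P.E k f ω = ghPath B (ls.drop k) (z + ghPre ls ω.1 k) (f ∘ splice)`;
* `spi_X_le/gt`   : `P.X k i ω = ghE B (ls.drop k) (Y i) (z + ghPre ls ω.1 k)`  (`k ≤ n`),  `= Y i ω.2`  (`k > n`);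
* `spi_C`         : `P.C k i j ω = ghC ..`;      `spi_H` : `P.H k i j ω = ghH ..`   (the step Hessian rule).
-/

set_option autoImplicit false

namespace Claimed.Agent.R286

open MeasureTheory ProbabilityTheory Finset
open scoped ENNReal NNReal

variable {S ι : Type} [Fintype S] [Fintype ι]

set_option linter.unusedSectionVars false

theorem spi_reg_of_nn {B : GhB S} (hB : B.Ok) : ∀ {ls : List (GhLv S ι)}, GhNn ls → SpiReg B ls
  | [], _ => trivial
  | l :: _, h => ⟨(gh_b_continuous hB h).measurable, fun z => gh_b_D_integral hB h.tail l z, spi_reg_of_nn hB h.tail⟩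

variable [MeasurableSpace S] [DiscreteMeasurableSpace S]

section dic

variable {B : GhB S} (hB : B.Ok) {ls : List (GhLv S ι)} (hr : SpiReg B ls) (z : S → ℝ) {m : ℕ} (Y : Fin m → S → ℝ)
  (dh : ℕ → ℝ)

/-- the field revealed at the cut `k` -/
def spiZ (ls : List (GhLv S ι)) (z : S → ℝ) (k : ℕ) (ω : SpiOm S ι) : S → ℝ := z + ghPre ls ω.1 k

include hB hr in
theorem spi_E {k : ℕ} (hk : k ≤ ls.length) (ω : SpiOm S ι) (f : SpiOm S ι → ℝ) (hf : Measurable f) (C : ℝ)
    (hC : ∀ ω, |f ω| ≤ C) :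
    (spiP B ls z Y dh).E k f ω = ghPath B (ls.drop k) (spiZ ls z k ω) fun η s => f (spiSpl k ω.1 η, s) :=
  spi_kint hB hr z hk ω f hf C hC

theorem spi_E_gt {k : ℕ} (hk : ls.length < k) (ω : SpiOm S ι) (f : SpiOm S ι → ℝ) (hf : Measurable f) :
    (spiP B ls z Y dh).E k f ω = f ω := by
  show ∫ ω', f ω' ∂(spiKap B ls z k ω) = f ω
  rw [spi_kap_gt B z hk, integral_dirac' _ _ hf.stronglyMeasurable]

theorem spi_E_meas (k : ℕ) (f : SpiOm S ι → ℝ) (hf : Measurable f) : Measurable ((spiP B ls z Y dh).E k f) :=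
  (hf.stronglyMeasurable.integral_kernel (κ := spiKap B ls z k)).measurable

include hB hr in
theorem spi_E_bdd (k : ℕ) (f : SpiOm S ι → ℝ) (C : ℝ) (hC : ∀ ω, |f ω| ≤ C) (ω : SpiOm S ι) :
    |(spiP B ls z Y dh).E k f ω| ≤ C := by
  have := spi_kap_markov hB hr z k
  have h1 := norm_integral_le_of_norm_le_const (μ := spiKap B ls z k ω) (f := f) (C := C)
    (Filter.Eventually.of_forall fun x => by rw [Real.norm_eq_abs]; exact hC x)
  have h2 : |∫ ω', f ω' ∂(spiKap B ls z k ω)| ≤ C := by simpa using h1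
  exact h2

include hB hr in
theorem spi_E_integrable (k : ℕ) (ω : SpiOm S ι) (f : SpiOm S ι → ℝ) (hf : Measurable f) (C : ℝ)
    (hC : ∀ ω, |f ω| ≤ C) : Integrable f (spiKap B ls z k ω) := by
  have := spi_kap_markov hB hr z k
  exact Integrable.of_bound hf.aestronglyMeasurable C
    (Filter.Eventually.of_forall fun x => by rw [Real.norm_eq_abs]; exact hC x)

include hB hr in
theorem spi_E_add (k : ℕ) (ω : SpiOm S ι) (f g : SpiOm S ι → ℝ) (hf : Measurable f) (hg : Measurable g) (C D : ℝ)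
    (hC : ∀ ω, |f ω| ≤ C) (hD : ∀ ω, |g ω| ≤ D) :
    (spiP B ls z Y dh).E k (fun ω' => f ω' + g ω') ω = (spiP B ls z Y dh).E k f ω + (spiP B ls z Y dh).E k g ω :=
  integral_add (spi_E_integrable hB hr z k ω f hf C hC) (spi_E_integrable hB hr z k ω g hg D hD)

include hB hr in
theorem spi_E_tower {k l : ℕ} (hkl : k ≤ l) (ω : SpiOm S ι) (f : SpiOm S ι → ℝ) (hf : Measurable f) (C : ℝ)
    (hC : ∀ ω, |f ω| ≤ C) :
    (spiP B ls z Y dh).E k ((spiP B ls z Y dh).E l f) ω = (spiP B ls z Y dh).E k f ω := by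
  by_cases hl : l ≤ ls.length
  · exact spi_tower_real hB hr z hkl hl ω f hf C hC
  · have e : (spiP B ls z Y dh).E l f = f := by
      funext ω'; exact spi_E_gt z Y dh (by omega) ω' f hf
    rw [e]

/-- a bound of the coordinate `Y i` -/
def spiBd (Y : Fin m → S → ℝ) (i : Fin m) : ℝ := ∑ s, |Y i s|

theorem spi_bd (i : Fin m) (s : S) : |Y i s| ≤ spiBd Y i :=
  Finset.single_le_sum (f := fun s => |Y i s|) (fun _ _ => abs_nonneg _) (Finset.mem_univ s)

theorem spi_y_meas (i : Fin m) : Measurable fun ω : SpiOm S ι => Y i ω.2 :=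
  (Measurable.of_discrete (f := Y i)).comp measurable_snd

include hB hr in
theorem spi_X_le {k : ℕ} (hk : k ≤ ls.length) (i : Fin m) (ω : SpiOm S ι) :
    (spiP B ls z Y dh).X k i ω = ghE B (ls.drop k) (Y i) (spiZ ls z k ω) := by
  have h := spi_E hB hr z Y dh hk ω (fun ω' => Y i ω'.2) (spi_y_meas Y i) (spiBd Y i) fun ω' => spi_bd Y i ω'.2
  rw [← spi_path_spin]
  exact h

theorem spi_X_gt {k : ℕ} (hk : ls.length < k) (i : Fin m) (ω : SpiOm S ι) :
    (spiP B ls z Y dh).X k i ω = Y i ω.2 :=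
  spi_E_gt z Y dh hk ω (fun ω' => Y i ω'.2) (spi_y_meas Y i)

theorem spi_X_meas (k : ℕ) (i : Fin m) : Measurable ((spiP B ls z Y dh).X k i) :=
  spi_E_meas z Y dh k _ (spi_y_meas Y i)

include hB hr in
theorem spi_X_bdd (k : ℕ) (i : Fin m) (ω : SpiOm S ι) : |(spiP B ls z Y dh).X k i ω| ≤ spiBd Y i :=
  spi_E_bdd hB hr z Y dh k _ _ (fun ω' => spi_bd Y i ω'.2) ω

include hB hr in
theorem spi_C {k : ℕ} (hk : k ≤ ls.length) (i j : Fin m) (ω : SpiOm S ι) :
    (spiP B ls z Y dh).C k i j ω = ghC B (ls.drop k) (Y i) (Y j) (spiZ ls z k ω) := by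
  have h := spi_E hB hr z Y dh hk ω (fun ω' => Y i ω'.2 * Y j ω'.2) ((spi_y_meas Y i).mul (spi_y_meas Y j))
    (spiBd Y i * spiBd Y j) fun ω' => by
      rw [abs_mul]; exact mul_le_mul (spi_bd Y i _) (spi_bd Y j _) (abs_nonneg _) ((abs_nonneg _).trans (spi_bd Y i ω'.2))
  unfold L8P.C ghC
  rw [spi_X_le hB hr z Y dh hk, spi_X_le hB hr z Y dh hk, ← spi_path_spin B (ls.drop k) _ fun s => Y i s * Y j s]
  congr 1

theorem spiZ_spl (k : ℕ) (ξ η : ℕ → ι → ℝ) (s : S) : spiZ ls z k (spiSpl k ξ η, s) = z + ghPre ls ξ k := by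
  simp only [spiZ, spi_pre_spl]

theorem spiZ_spl_succ {k : ℕ} (hk : k < ls.length) (ξ η : ℕ → ι → ℝ) (x : ι → ℝ) (s : S) :
    spiZ ls z (k + 1) (spiSpl k ξ (ghCons x η), s) = z + ghPre ls ξ k + (ls[k]).inc x := by
  simp only [spiZ]
  rw [spi_pre_add, List.drop_eq_getElem_cons hk]
  have e : ghPre (ls[k] :: ls.drop (k + 1)) (ghCons x η) 1 = (ls[k]).inc x := by
    have h := spi_pre_cons (ls[k]) (ls.drop (k + 1)) x η 0
    rw [spi_pre_zero, add_zero] at h
    exact h
  rw [e, add_assoc]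

include hB hr in
/-- **the step Hessian rule**: the abstract `H` is `ghH` -/
theorem spi_H {k : ℕ} (hk : k ≤ ls.length) (i j : Fin m) (ω : SpiOm S ι) :
    (spiP B ls z Y dh).H k i j ω = ghH B (ls.drop k) (Y i) (Y j) (spiZ ls z k ω) := by
  set P := spiP B ls z Y dh with hP
  set T : ℕ → SpiOm S ι → ℝ := fun l ω' => P.v l * (P.dX l i ω' * P.dX l j ω') with hT
  have hXm : ∀ l a, Measurable (P.X l a) := fun l a => spi_X_meas z Y dh l a
  have hXb : ∀ l a ω', |P.X l a ω'| ≤ spiBd Y a := fun l a ω' => spi_X_bdd hB hr z Y dh l a ω'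
  have hdm : ∀ l a, Measurable (P.dX l a) := fun l a => (hXm (l + 1) a).sub (hXm l a)
  have hdb : ∀ l a ω', |P.dX l a ω'| ≤ 2 * spiBd Y a := fun l a ω' => by
    have h1 := abs_sub (P.X (l + 1) a ω') (P.X l a ω')
    have h2 := hXb (l + 1) a ω'
    have h3 := hXb l a ω'
    show |P.X (l + 1) a ω' - P.X l a ω'| ≤ _
    linarith
  have hTm : ∀ l, Measurable (T l) := fun l => ((hdm l i).mul (hdm l j)).const_mul _
  have hTb : ∀ l ω', |T l ω'| ≤ |P.v l| * ((2 * spiBd Y i) * (2 * spiBd Y j)) := fun l ω' => by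
    simp only [hT, abs_mul]
    exact mul_le_mul_of_nonneg_left (mul_le_mul (hdb l i ω') (hdb l j ω') (abs_nonneg _)
      ((abs_nonneg _).trans (hdb l i ω'))) (abs_nonneg _)
  set R : ℕ → SpiOm S ι → ℝ := fun k' ω' => ∑ l ∈ Ico k' (ls.length + 1), T l ω' with hR
  have hRm : ∀ k', Measurable (R k') := fun k' => Finset.measurable_sum _ fun l _ => hTm l
  have hRb : ∀ k' ω', |R k' ω'| ≤ ∑ l ∈ Ico k' (ls.length + 1), |P.v l| * ((2 * spiBd Y i) * (2 * spiBd Y j)) :=
    fun k' ω' => (Finset.abs_sum_le_sum_abs _ _).trans (Finset.sum_le_sum fun l _ => hTb l ω')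
  have key : ∀ d k', k' + d = ls.length → ∀ ω', P.E k' (R k') ω' = ghH B (ls.drop k') (Y i) (Y j) (spiZ ls z k' ω') := by
    intro d
    induction d with
    | zero =>
      intro k' hk' ω'
      have hk'' : k' = ls.length := by omega
      subst hk''
      rw [hP, spi_E hB hr z Y dh le_rfl ω' (R ls.length) (hRm _) _ (hRb _), List.drop_length]
      simp only [ghPath, ghH, ghC, ghE]
      have e : ∀ s, R ls.length (spiSpl ls.length ω'.1 (fun _ _ => 0), s) =
          B.a * ((Y i s - ∑ s', ghGw B (spiZ ls z ls.length ω') s' * Y i s') *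
            (Y j s - ∑ s', ghGw B (spiZ ls z ls.length ω') s' * Y j s')) := by
        intro s
        simp only [hR, hT, Nat.Ico_succ_singleton, Finset.sum_singleton, L8P.dX]
        rw [hP, spi_X_gt z Y dh (Nat.lt_succ_self _), spi_X_gt z Y dh (Nat.lt_succ_self _),
          spi_X_le hB hr z Y dh le_rfl, spi_X_le hB hr z Y dh le_rfl, spiZ_spl, List.drop_length]
        simp only [ghE]
        congr 1
        exact spi_v_ge B ls le_rfl
      simp only [e]
      set g := ghGw B (spiZ ls z ls.length ω') with hg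
      have hs : ∑ s, g s = 1 := spi_gw_sum hB _
      set Ei := ∑ s', g s' * Y i s' with hEi
      set Ej := ∑ s', g s' * Y j s' with hEj
      have e2 : ∀ s, g s * (B.a * ((Y i s - Ei) * (Y j s - Ej))) =
          B.a * (g s * (Y i s * Y j s)) - B.a * Ej * (g s * Y i s) - B.a * Ei * (g s * Y j s) + B.a * Ei * Ej * g s := by
        intro s; ring
      simp only [e2]
      rw [Finset.sum_add_distrib, Finset.sum_sub_distrib, Finset.sum_sub_distrib, ← Finset.mul_sum, ← Finset.mul_sum,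
        ← Finset.mul_sum, ← Finset.mul_sum, hs, ← hEi, ← hEj]
      ring
    | succ d ih =>
      intro k' hk' ω'
      have hlt : k' < ls.length := by omega
      have hle : k' ≤ ls.length := hlt.le
      have hsplit : R k' = fun ω'' => T k' ω'' + R (k' + 1) ω'' := by
        funext ω''
        simp only [hR]
        exact Finset.sum_eq_sum_Ico_succ_bot (by omega) _
      set CT := |P.v k'| * ((2 * spiBd Y i) * (2 * spiBd Y j)) with hCT
      set CR := ∑ l ∈ Ico (k' + 1) (ls.length + 1), |P.v l| * ((2 * spiBd Y i) * (2 * spiBd Y j)) with hCR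
      have hEm : Measurable (P.E (k' + 1) (R (k' + 1))) := spi_E_meas z Y dh _ _ (hRm _)
      have hEb : ∀ ω'', |P.E (k' + 1) (R (k' + 1)) ω''| ≤ CR := spi_E_bdd hB hr z Y dh _ _ _ (hRb _)
      have h1 : P.E k' (R k') ω' = P.E k' (fun ω'' => T k' ω'' + P.E (k' + 1) (R (k' + 1)) ω'') ω' := by
        rw [hsplit, hP, spi_E_add hB hr z Y dh k' ω' _ _ (hTm k') (hRm _) CT CR (hTb k') (hRb _),
          spi_E_add hB hr z Y dh k' ω' _ _ (hTm k') hEm CT CR (hTb k') hEb,
          spi_E_tower hB hr z Y dh (Nat.le_succ k') ω' _ (hRm _) CR (hRb _)]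
      have h2 := spi_E hB hr z Y dh hle ω' (fun ω'' => T k' ω'' + P.E (k' + 1) (R (k' + 1)) ω'')
        ((hTm k').add hEm) (CT + CR) (fun ω'' => (abs_add_le _ _).trans (add_le_add (hTb k' ω'') (hEb ω'')))
      rw [h1]
      refine h2.trans ?_
      rw [List.drop_eq_getElem_cons hlt]
      simp only [ghPath, ghH]
      refine integral_congr_ae (Filter.Eventually.of_forall fun x => ?_)
      simp only
      congr 1
      have e : ∀ (η : ℕ → ι → ℝ) (s : S),
          T k' (spiSpl k' ω'.1 (ghCons x η), s) + P.E (k' + 1) (R (k' + 1)) (spiSpl k' ω'.1 (ghCons x η), s) =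
          ghH B (ls.drop (k' + 1)) (Y i) (Y j) (spiZ ls z k' ω' + (ls[k']).inc x) + (ls[k']).m *
            ((ghE B (ls.drop (k' + 1)) (Y i) (spiZ ls z k' ω' + (ls[k']).inc x) -
                ghE B (ls[k'] :: ls.drop (k' + 1)) (Y i) (spiZ ls z k' ω')) *
              (ghE B (ls.drop (k' + 1)) (Y j) (spiZ ls z k' ω' + (ls[k']).inc x) -
                ghE B (ls[k'] :: ls.drop (k' + 1)) (Y j) (spiZ ls z k' ω'))) := by
        intro η s
        rw [ih (k' + 1) (by omega), spiZ_spl_succ z hlt]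
        simp only [hT, L8P.dX]
        rw [hP, spi_X_le hB hr z Y dh (show k' + 1 ≤ ls.length by omega), spi_X_le hB hr z Y dh hle,
          spi_X_le hB hr z Y dh (show k' + 1 ≤ ls.length by omega), spi_X_le hB hr z Y dh hle,
          spiZ_spl_succ z hlt, spiZ_spl, ← List.drop_eq_getElem_cons hlt]
        have hv : (spiP B ls z Y dh).v k' = (ls[k']).m := spi_v_lt B ls hlt
        rw [hv, add_comm]
        rfl
      simp only [e]
      exact spi_path_const hB _ (spi_reg_nrm (spi_reg_drop (k' + 1) hr)) _ _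
  exact key (ls.length - k) k (by omega) ω

end dic

theorem spi_dic_eqns_cite : True := by
  have := @spiZ.eq_1
  have := @spiBd.eq_1
  trivial

end Claimed.Agent.R286
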