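import Claimed.Agent.R286.L08.SpiDic
import Claimed.Agent.R286.L08.SPB
import Claimed.Agent.R286.Cmp.ProjG

/-!
# Row 286, LL sec. 8, unit SPI, file SpiSus      (owner helper257; prefix `spu`; route of helper29)

**(SP2) with the Hessian at the LEFT cut**, generic on `Defs/Gh`: Cramer-Rao with the score of ONE level.
TEX[LL:found:estimates] (A1), line 2, on the fine level.
* `spuN`        : the score `N = η·ξ - m E_k(inc η)` of the level `l` in the direction `η` of the drivers;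
* `spu_mgf_le`  : `E_k exp (s N) ≤ exp (s² K / 2)`, `K = |η|² + m a b²`, `|inc η| ≤ b`      (`cmj_cm`, `cmj_taylor` of Cmp/ProjG);
* `spu_N_sq`    : `E_k N² ≤ K`;       `spu_N_zero` : `E_k N = 0`;
* `spu_cr`      : `2 t H_k(φ, inc η) ≤ t² K + E_k (X_{k+1} φ - X_k φ)²` for all `t`      (`cmj_ibp`);
* `spu_tr`      : `m Δh tr H_k² ≤ (1 + δ) E_k |X_{k+1} - X_k|²`, if `a² m Δh ≤ δ`;
* `spi_sus`     : `(spiP B ls z Y dh).Sus (1 / (1 + δ))`.
-/

set_option autoImplicit false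
set_option linter.unusedSectionVars false

namespace Claimed.Agent.R286

open MeasureTheory ProbabilityTheory Finset

variable {S ι : Type} [Fintype S] [Fintype ι]

/-- the score of the level `l` in the direction `η` -/
noncomputable def spuN (B : GhB S) (l : GhLv S ι) (ls : List (GhLv S ι)) (η : ι → ℝ) (z : S → ℝ) (ξ : ι → ℝ) : ℝ :=
  (∑ i, η i * ξ i) - l.m * ghE B (l :: ls) (l.inc η) z

theorem spu_sq_le (x : ℝ) : x ^ 2 ≤ Real.exp x + Real.exp (-x) - 2 := by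
  wlog hx : 0 ≤ x with H
  · have := H (-x) (by linarith)
    rw [neg_neg] at this
    nlinarith
  have h1 : x / 2 ≤ Real.sinh (x / 2) := Real.self_le_sinh_iff.2 (by linarith)
  rw [Real.sinh_eq] at h1
  have e1 : Real.exp x = Real.exp (x / 2) * Real.exp (x / 2) := by rw [← Real.exp_add]; ring_nf
  have e2 : Real.exp (-x) = Real.exp (-(x / 2)) * Real.exp (-(x / 2)) := by rw [← Real.exp_add]; ring_nf
  have e3 : Real.exp (x / 2) * Real.exp (-(x / 2)) = 1 := by rw [← Real.exp_add]; simp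
  rw [e1, e2]
  have h2 : x ≤ Real.exp (x / 2) - Real.exp (-(x / 2)) := by linarith
  nlinarith

theorem spu_N_continuous (B : GhB S) (l : GhLv S ι) (ls : List (GhLv S ι)) (η : ι → ℝ) (z : S → ℝ) :
    Continuous (spuN B l ls η z) := by
  unfold spuN
  fun_prop

section one
variable {B : GhB S} (hB : B.Ok) {l : GhLv S ι} {ls : List (GhLv S ι)} (h : GhNn (l :: ls))
include hB h

theorem spu_int_exp (η : ι → ℝ) (s : ℝ) (z : S → ℝ) :
    Integrable (fun ξ => ghD B l ls z ξ * Real.exp (s * spuN B l ls η z ξ)) (ghStd ι) := by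
  have h1 := (cmj_int_exp hB h η s (gh_b_bc_const 1) z).const_mul (Real.exp (-(s * (l.m * ghE B (l :: ls) (l.inc η) z))))
  refine h1.congr (Filter.Eventually.of_forall fun ξ => ?_)
  simp only [spuN, mul_one]
  have e : s * ((∑ i, η i * ξ i) - l.m * ghE B (l :: ls) (l.inc η) z)
      = -(s * (l.m * ghE B (l :: ls) (l.inc η) z)) + s * ∑ i, η i * ξ i := by ring
  rw [e, Real.exp_add]
  ring

/-- closed form of the mgf of the score -/
theorem spu_mgf_eq (η : ι → ℝ) (s : ℝ) (z : S → ℝ) :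
    ∫ ξ, ghD B l ls z ξ * Real.exp (s * spuN B l ls η z ξ) ∂ghStd ι
      = Real.exp (s ^ 2 * (∑ i, η i ^ 2) / 2
          + l.m * (ghF B (l :: ls) (z + s • l.inc η) - ghF B (l :: ls) z - s * ghE B (l :: ls) (l.inc η) z)) := by
  have h1 := cmj_cm hB h η s (fun _ => 1) z
  rw [gh_b_A_const hB h, mul_one] at h1
  have e : ∀ ξ, ghD B l ls z ξ * Real.exp (s * spuN B l ls η z ξ)
      = Real.exp (-(s * (l.m * ghE B (l :: ls) (l.inc η) z)))
        * (ghD B l ls z ξ * (Real.exp (s * ∑ i, η i * ξ i) * 1)) := fun ξ => by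
    simp only [spuN, mul_one]
    have e : s * ((∑ i, η i * ξ i) - l.m * ghE B (l :: ls) (l.inc η) z)
        = -(s * (l.m * ghE B (l :: ls) (l.inc η) z)) + s * ∑ i, η i * ξ i := by ring
    rw [e, Real.exp_add]
    ring
  simp_rw [e]
  rw [integral_const_mul, h1, ← Real.exp_add]
  congr 1
  ring

theorem spu_mgf_le (ha : ∀ l' ∈ l :: ls, l'.m ≤ B.a) (η : ι → ℝ) {b : ℝ} (hb : ∀ σ, |l.inc η σ| ≤ b) (s : ℝ) (z : S → ℝ) :
    ∫ ξ, ghD B l ls z ξ * Real.exp (s * spuN B l ls η z ξ) ∂ghStd ι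
      ≤ Real.exp (s ^ 2 * ((∑ i, η i ^ 2) + l.m * (B.a * b ^ 2)) / 2) := by
  rw [spu_mgf_eq hB h]
  apply Real.exp_le_exp.2
  have h1 := mul_le_mul_of_nonneg_left (cmj_taylor hB h ha hb z s) h.head
  nlinarith

theorem spu_int_sq (η : ι → ℝ) (z : S → ℝ) :
    Integrable (fun ξ => ghD B l ls z ξ * spuN B l ls η z ξ ^ 2) (ghStd ι) := by
  have h1 := (spu_int_exp hB h η 1 z).add (spu_int_exp hB h η (-1) z)
  refine h1.mono' ((gh_b_D_continuous hB h.tail l z).mul ((spu_N_continuous B l ls η z).pow 2)).aestronglyMeasurable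
    (Filter.Eventually.of_forall fun ξ => ?_)
  have hD := (gh_b_D_pos B l ls z ξ).le
  rw [Real.norm_eq_abs, abs_of_nonneg (mul_nonneg hD (sq_nonneg _))]
  simp only [Pi.add_apply, one_mul, neg_one_mul]
  rw [← mul_add]
  refine mul_le_mul_of_nonneg_left ?_ hD
  linarith [spu_sq_le (spuN B l ls η z ξ)]

/-- second moment of the score -/
theorem spu_N_sq (ha : ∀ l' ∈ l :: ls, l'.m ≤ B.a) (η : ι → ℝ) {b : ℝ} (hb : ∀ σ, |l.inc η σ| ≤ b) (z : S → ℝ) :
    ∫ ξ, ghD B l ls z ξ * spuN B l ls η z ξ ^ 2 ∂ghStd ι ≤ (∑ i, η i ^ 2) + l.m * (B.a * b ^ 2) := by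
  set K := (∑ i, η i ^ 2) + l.m * (B.a * b ^ 2) with hK
  set I := ∫ ξ, ghD B l ls z ξ * spuN B l ls η z ξ ^ 2 ∂ghStd ι with hI
  have hK0 : 0 ≤ K := by
    have := h.head
    have := hB.pos
    positivity
  -- for every small `t = s²`
  have key : ∀ s : ℝ, 0 < s → s ^ 2 * K / 2 ≤ 1 → I ≤ K + s ^ 2 * K ^ 2 / 2 := by
    intro s hs hsK
    have h1 : s ^ 2 * I ≤ ∫ ξ, (ghD B l ls z ξ * Real.exp (s * spuN B l ls η z ξ)
        + ghD B l ls z ξ * Real.exp (-s * spuN B l ls η z ξ)) - 2 * ghD B l ls z ξ ∂ghStd ι := by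
      rw [hI, ← integral_const_mul]
      refine integral_mono ((spu_int_sq hB h η z).const_mul _)
        (((spu_int_exp hB h η s z).add (spu_int_exp hB h η (-s) z)).sub ((gh_b_D_integrable hB h.tail l z).const_mul 2))
        fun ξ => ?_
      have hD := (gh_b_D_pos B l ls z ξ).le
      have h2 := mul_le_mul_of_nonneg_left (spu_sq_le (s * spuN B l ls η z ξ)) hD
      simp only
      rw [neg_mul]
      nlinarith
    rw [integral_sub (f := fun ξ => ghD B l ls z ξ * Real.exp (s * spuN B l ls η z ξ)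
          + ghD B l ls z ξ * Real.exp (-s * spuN B l ls η z ξ))
        ((spu_int_exp hB h η s z).add (spu_int_exp hB h η (-s) z)) ((gh_b_D_integrable hB h.tail l z).const_mul 2),
      integral_add (spu_int_exp hB h η s z) (spu_int_exp hB h η (-s) z), integral_const_mul,
      gh_b_D_integral hB h.tail] at h1
    have h3 := spu_mgf_le hB h ha η hb s z
    have h4 := spu_mgf_le hB h ha η hb (-s) z
    rw [← hK] at h3 h4
    rw [neg_sq] at h4
    have hx0 : 0 ≤ s ^ 2 * K / 2 := by positivity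
    have h5 := (abs_le.1 (Real.abs_exp_sub_one_sub_id_le (x := s ^ 2 * K / 2) (by rwa [abs_of_nonneg hx0]))).2
    have h6 : s ^ 2 * I ≤ s ^ 2 * (K + s ^ 2 * K ^ 2 / 2) := by nlinarith
    exact le_of_mul_le_mul_left h6 (by positivity)
  refine le_of_forall_pos_le_add fun ε hε => ?_
  -- choose `s`
  obtain ⟨s, hs, h1, h2⟩ : ∃ s : ℝ, 0 < s ∧ s ^ 2 * K / 2 ≤ 1 ∧ s ^ 2 * K ^ 2 / 2 ≤ ε := by
    have hpos : 0 < min 1 ε / (K + K ^ 2 + 1) := by positivity
    refine ⟨Real.sqrt (min 1 ε / (K + K ^ 2 + 1)), Real.sqrt_pos.2 hpos, ?_, ?_⟩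
    · rw [Real.sq_sqrt hpos.le, div_mul_eq_mul_div, div_div, div_le_one (by positivity)]
      have := min_le_left 1 ε
      nlinarith [sq_nonneg K]
    · rw [Real.sq_sqrt hpos.le, div_mul_eq_mul_div, div_div, div_le_iff₀ (by positivity)]
      have := min_le_right 1 ε
      nlinarith [sq_nonneg K]
  linarith [key s hs h1]

theorem spu_H_const (w z : S → ℝ) : ghH B (l :: ls) (fun _ => 1) w z = 0 := by
  rw [← ghE_fderiv hB]
  have e : ghE B (l :: ls) (fun _ => (1 : ℝ)) = fun _ => 1 := funext fun y => gh_b_E_const hB 1 h y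
  rw [e]
  simp

/-- the score is centred -/
theorem spu_N_zero (η : ι → ℝ) (z : S → ℝ) : ∫ ξ, ghD B l ls z ξ * spuN B l ls η z ξ ∂ghStd ι = 0 := by
  have h1 := cmj_ibp hB h η (fun _ => 1) z
  rw [spu_H_const hB h] at h1
  simp only [gh_b_E_const hB 1 h.tail, mul_one] at h1
  exact h1

theorem spu_int_N (η : ι → ℝ) {f : (S → ℝ) → ℝ} {M : ℝ} (hf : GhBC f M) (z : S → ℝ) :
    Integrable (fun ξ => ghD B l ls z ξ * (spuN B l ls η z ξ * f (z + l.inc ξ))) (ghStd ι) := by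
  have h1 := (cmj_int_lin hB h η hf z).sub
    ((gh_b_A_integrable hB h hf z).const_mul (l.m * ghE B (l :: ls) (l.inc η) z))
  refine h1.congr (Filter.Eventually.of_forall fun ξ => ?_)
  simp only [spuN, Pi.sub_apply]
  ring

theorem spu_int_N1 (η : ι → ℝ) (z : S → ℝ) : Integrable (fun ξ => ghD B l ls z ξ * spuN B l ls η z ξ) (ghStd ι) := by
  have h1 := spu_int_N hB h η (gh_b_bc_const 1) z
  simpa using h1

/-- **Cramer-Rao at one level** (quadratic form): the Hessian at the LEFT cut against the variance of the next posterior mean -/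
theorem spu_cr (ha : ∀ l' ∈ l :: ls, l'.m ≤ B.a) (η : ι → ℝ) {b : ℝ} (hb : ∀ σ, |l.inc η σ| ≤ b) (φ : S → ℝ) (z : S → ℝ)
    (t : ℝ) :
    2 * t * ghH B (l :: ls) φ (l.inc η) z
      ≤ t ^ 2 * ((∑ i, η i ^ 2) + l.m * (B.a * b ^ 2)) + ghA B l ls (ghQ B l ls φ φ z) z := by
  obtain ⟨e, he⟩ : ∃ e : ℝ, e = ghE B (l :: ls) φ z := ⟨_, rfl⟩
  have hφ := gh_b_E_bc' hB φ h.tail
  have hg := hφ.sub (gh_b_bc_const e)
  have i1 := spu_int_sq hB h η z
  have i2 := spu_int_N hB h η hg z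
  have i3 := gh_b_A_integrable hB h (gh_b_Q_bc hB φ φ h z) z
  have h0 : 0 ≤ ∫ ξ, ghD B l ls z ξ * (t * spuN B l ls η z ξ - (ghE B ls φ (z + l.inc ξ) - e)) ^ 2 ∂ghStd ι :=
    integral_nonneg fun ξ => mul_nonneg (gh_b_D_pos B l ls z ξ).le (sq_nonneg _)
  have e1 : ∀ ξ, ghD B l ls z ξ * (t * spuN B l ls η z ξ - (ghE B ls φ (z + l.inc ξ) - e)) ^ 2
      = (t ^ 2 * (ghD B l ls z ξ * spuN B l ls η z ξ ^ 2)
          - 2 * t * (ghD B l ls z ξ * (spuN B l ls η z ξ * (ghE B ls φ (z + l.inc ξ) - e))))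
        + ghD B l ls z ξ * ghQ B l ls φ φ z (z + l.inc ξ) := fun ξ => by
    simp only [ghQ, ← he]
    ring
  simp_rw [e1] at h0
  rw [integral_add (f := fun ξ => t ^ 2 * (ghD B l ls z ξ * spuN B l ls η z ξ ^ 2)
        - 2 * t * (ghD B l ls z ξ * (spuN B l ls η z ξ * (ghE B ls φ (z + l.inc ξ) - e))))
      ((i1.const_mul _).sub (i2.const_mul _)) i3, integral_sub (i1.const_mul _) (i2.const_mul _),
    integral_const_mul, integral_const_mul] at h0
  have e2 : ∫ ξ, ghD B l ls z ξ * (spuN B l ls η z ξ * (ghE B ls φ (z + l.inc ξ) - e)) ∂ghStd ι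
      = ghH B (l :: ls) φ (l.inc η) z := by
    have e3 : ∀ ξ, ghD B l ls z ξ * (spuN B l ls η z ξ * (ghE B ls φ (z + l.inc ξ) - e))
        = ghD B l ls z ξ * (spuN B l ls η z ξ * ghE B ls φ (z + l.inc ξ))
          - e * (ghD B l ls z ξ * spuN B l ls η z ξ) := fun ξ => by ring
    simp_rw [e3]
    rw [integral_sub (spu_int_N hB h η hφ z) ((spu_int_N1 hB h η z).const_mul e), integral_const_mul,
      spu_N_zero hB h, mul_zero, sub_zero]
    exact cmj_ibp hB h η φ z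
  rw [e2] at h0
  have h1 := mul_le_mul_of_nonneg_left (spu_N_sq hB h ha η hb z) (sq_nonneg t)
  have e4 : ∫ ξ, ghD B l ls z ξ * ghQ B l ls φ φ z (z + l.inc ξ) ∂ghStd ι = ghA B l ls (ghQ B l ls φ φ z) z := rfl
  rw [e4] at h0
  linarith

/-- `ghH` is linear in the direction: finite combinations -/
theorem spu_H_comb {m : ℕ} (Y : Fin m → S → ℝ) (φ : S → ℝ) (c : ℝ) (u : Fin m → ℝ) (z : S → ℝ) :
    ghH B (l :: ls) φ (fun s => c * ∑ j, u j * Y j s) z = c * ∑ j, u j * ghH B (l :: ls) φ (Y j) z := by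
  have e : (fun s => c * ∑ j, u j * Y j s) = c • ∑ j, u j • Y j := by
    funext s
    simp [Finset.sum_apply]
  rw [e, ← ghE_fderiv hB, map_smul, map_sum, smul_eq_mul]
  congr 1
  refine Finset.sum_congr rfl fun j _ => ?_
  rw [map_smul, smul_eq_mul, ghE_fderiv hB]

/-- **one level, trace form**: `c² tr H_k² ≤ (1 + δ) E_k |X_{k+1} - X_k|²` -/
theorem spu_tr (ha : ∀ l' ∈ l :: ls, l'.m ≤ B.a) {m : ℕ} (Y : Fin m → S → ℝ) (hY : ∀ s, ∑ i, Y i s ^ 2 = 1) {c δ : ℝ}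
    (hdir : ∀ u : Fin m → ℝ, ∃ η : ι → ℝ, ∑ i, η i ^ 2 ≤ ∑ i, u i ^ 2 ∧ ∀ s, l.inc η s = c * ∑ i, u i * Y i s)
    (hδ : 0 ≤ δ) (hmesh : B.a ^ 2 * c ^ 2 ≤ δ) (z : S → ℝ) :
    c ^ 2 * ∑ i, ∑ j, ghH B (l :: ls) (Y i) (Y j) z ^ 2 ≤ (1 + δ) * ∑ i, ghA B l ls (ghQ B l ls (Y i) (Y i) z) z := by
  rw [Finset.mul_sum, Finset.mul_sum]
  refine Finset.sum_le_sum fun i _ => ?_
  set u : Fin m → ℝ := fun j => ghH B (l :: ls) (Y i) (Y j) z with hu
  set T := ∑ j, u j ^ 2 with hT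
  have hT0 : 0 ≤ T := Finset.sum_nonneg fun j _ => sq_nonneg _
  obtain ⟨η, hη, hinc⟩ := hdir u
  have hb : ∀ σ, |l.inc η σ| ≤ Real.sqrt (c ^ 2 * T) := by
    intro σ
    refine Real.abs_le_sqrt ?_
    rw [hinc σ, mul_pow]
    refine mul_le_mul_of_nonneg_left ?_ (sq_nonneg c)
    have h1 := Finset.sum_mul_sq_le_sq_mul_sq Finset.univ u (fun j => Y j σ)
    rw [hY σ, mul_one] at h1
    exact h1
  have h1 := spu_cr hB h ha η hb (Y i) z (c / (1 + δ))
  rw [Real.sq_sqrt (by positivity), funext hinc, spu_H_comb hB h] at h1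
  have e1 : ∑ j, u j * ghH B (l :: ls) (Y i) (Y j) z = T := by
    simp only [hT, hu, sq]
  rw [e1] at h1
  have hm : l.m * B.a ≤ B.a ^ 2 := by
    rw [sq]; exact mul_le_mul_of_nonneg_right (ha l List.mem_cons_self) hB.pos.le
  have h2 : (∑ i, η i ^ 2) + l.m * (B.a * (c ^ 2 * T)) ≤ (1 + δ) * T := by
    have h3 : l.m * B.a * c ^ 2 ≤ δ := (mul_le_mul_of_nonneg_right hm (sq_nonneg c)).trans hmesh
    have h4 := mul_le_mul_of_nonneg_right h3 hT0
    nlinarith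
  have h5 := mul_le_mul_of_nonneg_left h2 (sq_nonneg (c / (1 + δ)))
  have hpos : 0 < 1 + δ := by linarith
  have e2 : 2 * (c / (1 + δ)) * (c * T) = 2 * (c ^ 2 * T) / (1 + δ) := by field_simp
  have e3 : (c / (1 + δ)) ^ 2 * ((1 + δ) * T) = c ^ 2 * T / (1 + δ) := by field_simp
  rw [e2] at h1
  rw [e3] at h5
  have h6 : c ^ 2 * T / (1 + δ) ≤ ghA B l ls (ghQ B l ls (Y i) (Y i) z) z := by
    have e4 : 2 * (c ^ 2 * T) / (1 + δ) = c ^ 2 * T / (1 + δ) + c ^ 2 * T / (1 + δ) := by ring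
    linarith
  rw [div_le_iff₀ hpos] at h6
  linarith

end one

/-! ### the planted chain -/

variable [MeasurableSpace S] [DiscreteMeasurableSpace S]

section chain

variable {B : GhB S} (hB : B.Ok) {ls : List (GhLv S ι)} (hr : SpiReg B ls) (z : S → ℝ) {m : ℕ} (Y : Fin m → S → ℝ)
  (dh : ℕ → ℝ)

include hB hr in
/-- conditional variance of the next posterior mean -/
theorem spi_E_XX_sq {k : ℕ} (hk : k < ls.length) (i : Fin m) (ω : SpiOm S ι) :
    (spiP B ls z Y dh).E k (fun ω' => (spiP B ls z Y dh).XX k (k + 1) i ω' ^ 2) ω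
      = ghA B (ls[k]) (ls.drop (k + 1)) (ghQ B (ls[k]) (ls.drop (k + 1)) (Y i) (Y i) (spiZ ls z k ω)) (spiZ ls z k ω) := by
  set P := spiP B ls z Y dh with hP
  have hXm : ∀ l a, Measurable (P.X l a) := fun l a => spi_X_meas z Y dh l a
  have hXb : ∀ l a ω', |P.X l a ω'| ≤ spiBd Y a := fun l a ω' => spi_X_bdd hB hr z Y dh l a ω'
  have hm : Measurable fun ω' => P.XX k (k + 1) i ω' ^ 2 := ((hXm (k + 1) i).sub (hXm k i)).pow_const 2
  have hb : ∀ ω', |P.XX k (k + 1) i ω' ^ 2| ≤ (2 * spiBd Y i) ^ 2 := fun ω' => by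
    rw [abs_pow]
    refine pow_le_pow_left₀ (abs_nonneg _) ?_ 2
    have h1 := abs_sub (P.X (k + 1) i ω') (P.X k i ω')
    have h2 := hXb (k + 1) i ω'
    have h3 := hXb k i ω'
    show |P.X (k + 1) i ω' - P.X k i ω'| ≤ _
    linarith
  have h2 := spi_E hB hr z Y dh hk.le ω (fun ω' => P.XX k (k + 1) i ω' ^ 2) hm _ hb
  refine h2.trans ?_
  rw [List.drop_eq_getElem_cons hk]
  simp only [ghPath, ghA]
  refine integral_congr_ae (Filter.Eventually.of_forall fun x => ?_)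
  simp only
  congr 1
  have e : ∀ (η : ℕ → ι → ℝ) (s : S), P.XX k (k + 1) i (spiSpl k ω.1 (ghCons x η), s) ^ 2
      = ghQ B (ls[k]) (ls.drop (k + 1)) (Y i) (Y i) (spiZ ls z k ω) (spiZ ls z k ω + (ls[k]).inc x) := by
    intro η s
    simp only [L8P.XX, ghQ]
    rw [hP, spi_X_le hB hr z Y dh (show k + 1 ≤ ls.length by omega), spi_X_le hB hr z Y dh hk.le,
      spiZ_spl_succ z hk, spiZ_spl, ← List.drop_eq_getElem_cons hk, sq]
    rfl
  simp only [e]
  exact spi_path_const hB _ (spi_reg_nrm (spi_reg_drop (k + 1) hr)) _ _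

include hB hr in
/-- **(SP2) for the planted chain**, Hessian at the LEFT cut; the only mesh condition is `a² m Δh_k ≤ δ` (nothing on the other drivers) -/
theorem spi_sus (ha : GhAdm B 0 ls) (hY : ∀ s, ∑ i, Y i s ^ 2 = 1) (hdh : ∀ k, 0 ≤ dh k)
    (hdir : ∀ k (hk : k < ls.length) (u : Fin m → ℝ), ∃ η : ι → ℝ, ∑ i, η i ^ 2 ≤ ∑ i, u i ^ 2 ∧
      ∀ s, (ls[k]).inc η s = Real.sqrt (m * dh k) * ∑ i, u i * Y i s)
    {δ : ℝ} (hδ : 0 ≤ δ) (hmesh : ∀ k, k < ls.length → B.a ^ 2 * (m * dh k) ≤ δ) :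
    (spiP B ls z Y dh).Sus (1 / (1 + δ)) := by
  have hok := spi_ok hB hr ha z Y hY dh hdh
  set P := spiP B ls z Y dh with hP
  have := hok.prob
  intro k hk
  have hk' : k < ls.length := hk
  have hpos : 0 < 1 + δ := by linarith
  have hnn : GhNn ls := ha.ghNn le_rfl
  have hnn' : GhNn (ls[k] :: ls.drop (k + 1)) := by
    rw [← List.drop_eq_getElem_cons hk']
    exact fun l hl => hnn l (List.mem_of_mem_drop hl)
  have hle' : ∀ l' ∈ ls[k] :: ls.drop (k + 1), l'.m ≤ B.a := by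
    rw [← List.drop_eq_getElem_cons hk']
    exact fun l hl => (ha.2 l (List.mem_of_mem_drop hl)).2
  have hc : Real.sqrt (m * dh k) ^ 2 = m * dh k := Real.sq_sqrt (mul_nonneg (Nat.cast_nonneg m) (hdh k))
  rw [P.l8s_S_sub hok (Nat.le_succ k), ← P.l8s_integral_E hok k (L8Bd.sum _ fun i _ => (P.l8s_W_bd_XX hok k (k + 1) i).pow 2),
    ← integral_const_mul]
  have hbH : L8Bd (P.trH2 k) := L8Bd.sum _ fun i _ => L8Bd.sum _ fun j _ => (P.l8s_W_bd_H hok k i j).pow 2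
  refine integral_mono ((hbH.const_mul _).integrable _)
    ((P.l8s_E_bd hok k (L8Bd.sum _ fun i _ => (P.l8s_W_bd_XX hok k (k + 1) i).pow 2)).integrable _) fun ω => ?_
  simp only
  rw [P.l8s_E_sum hok k _ fun i _ => (P.l8s_W_bd_XX hok k (k + 1) i).pow 2]
  have h1 := spu_tr hB hnn' hle' Y hY (hdir k hk') hδ (by rw [hc]; exact hmesh k hk') (spiZ ls z k ω)
  rw [hc] at h1
  have e1 : P.trH2 k ω = ∑ i, ∑ j, ghH B (ls[k] :: ls.drop (k + 1)) (Y i) (Y j) (spiZ ls z k ω) ^ 2 := by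
    simp only [L8P.trH2]
    refine Finset.sum_congr rfl fun i _ => Finset.sum_congr rfl fun j _ => ?_
    rw [hP, spi_H hB hr z Y dh hk'.le, List.drop_eq_getElem_cons hk']
  have e2 : ∑ i, P.E k (fun ω' => P.XX k (k + 1) i ω' ^ 2) ω
      = ∑ i, ghA B (ls[k]) (ls.drop (k + 1)) (ghQ B (ls[k]) (ls.drop (k + 1)) (Y i) (Y i) (spiZ ls z k ω)) (spiZ ls z k ω) :=
    Finset.sum_congr rfl fun i _ => spi_E_XX_sq hB hr z Y dh hk' i ω
  rw [e1, e2]
  have e3 : P.dh k = dh k := rfl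
  rw [e3, div_mul_eq_mul_div, div_mul_eq_mul_div, div_mul_eq_mul_div, div_le_iff₀ hpos]
  linarith

end chain

theorem spu_eqns_cite : True := by
  have := @spuN.eq_1
  trivial

end Claimed.Agent.R286
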