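-- KEEP
import Claimed.Agent.R286.L08.SpiDic
import Claimed.Agent.R286.L08.SpiSus
import Claimed.Agent.R286.Lib.GhTreeMeas
import Claimed.Agent.R286.L08.SPB
import Claimed.Agent.R286.Fd.ObsC
import Claimed.Agent.R286.Cmp.ProjL8

/-!
# Row 286 (S0533), folder L08, file SPI : THE SK INSTANCE OF THE ABSTRACT SINGLE PATH      (owner helper257; statements helper75; prefix `l8i_`, defs `sk*`)

`skSP n a P : L8P (SkOm n) n` for a step path `P : SkStp` (Defs/Sk), `n` sites, terminal mass `a`, zero root field.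
It is the planted chain `spiP` of L08/SpiOk (kernel `spiK`, conditional laws `spiKap`, filtration `spiFil`) for `skBase n a`, `skLvs n P`: `l8i_eq`.
* `SkOm n` = (drivers of the revelations `0, 1, ..`; terminal spin);   the drivers of the missing revelations are `0`.
EXPORTS: structural validity `l8i_ok`, identification of `X, H, C` with `obXp, obHp, obCp` (Fd/Obs), of `∫ ∂μ` with `ghPath` (`l8i_path`), of the conditional
expectations (`l8i_E`), of the fork law with the two-label tree law `ghNu .. (obT2 k)` (`l8i_fork`), and the three analytic inputs `l8i_sus`, `l8i_pin`, `l8i_proj`.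
TEX[LL:found:estimates] (A1)-(A3) on the fine level.
-/

set_option autoImplicit false

namespace Claimed.Agent.R286

open MeasureTheory ProbabilityTheory Finset
open scoped ENNReal

/-- (drivers, terminal spin) -/
abbrev SkOm (n : ℕ) : Type := (ℕ → SkDr n → ℝ) × SkCfg n

/-- **the SK instance** of the abstract single path -/
noncomputable def skSP (n : ℕ) (a : ℝ) (P : SkStp) : L8P (SkOm n) n where
  μ := spiK (skBase n a) (skLvs n P) 0
  ℱ := spiFil (SkCfg n) (SkDr n) (skLvs n P).length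
  κ := spiKap (skBase n a) (skLvs n P) 0
  n := P.length
  a := a
  v := skMs a P
  dh := fun k => (P.map SkInc.dh).getD k 0
  y := fun i ω => skY ω.2 i

/-- drivers of the two branches as a two-label driver table -/
def skDr2 {n : ℕ} (p : SkOm n × SkOm n) : ℕ → Fin 2 → SkDr n → ℝ := fun j c => if c = 0 then p.1.1 j else p.2.1 j

/-- spins of the two branches -/
def skSp2 {n : ℕ} (p : SkOm n × SkOm n) : Fin 2 → SkCfg n := fun c => if c = 0 then p.1.2 else p.2.2

/-- the SK instance is the planted chain of `Defs/Gh` -/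
theorem l8i_eq (n : ℕ) (a : ℝ) (P : SkStp) :
    skSP n a P = spiP (skBase n a) (skLvs n P) 0 (fun i σ => skY σ i) (fun k => (P.map SkInc.dh).getD k 0) := by
  have h1 : P.length = (skLvs n P).length := by simp [skLvs]
  have h2 : skMs a P = fun k => ((skLvs n P).map GhLv.m).getD k (skBase n a).a := by
    funext k
    have e : (skLvs n P).map GhLv.m = P.map SkInc.m := by
      simp only [skLvs, List.map_map]
      refine List.map_congr_left fun e _ => ?_
      simp [SkInc.lv, ghLvF]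
    rw [e]; rfl
  unfold skSP spiP
  rw [h1, h2]
  rfl

theorem l8i_adm {n : ℕ} {a : ℝ} {P : SkStp} (hP : SkAdm a P) : GhAdm (skBase n a) 0 (skLvs n P) := by
  constructor
  · simp only [skLvs, List.pairwise_map]
    exact hP.1
  · intro l hl
    simp only [skLvs, List.mem_map] at hl
    obtain ⟨e, he, rfl⟩ := hl
    exact ⟨(hP.2 e he).1, (hP.2 e he).2.1⟩

theorem l8i_reg {n : ℕ} {a : ℝ} (ha : 0 < a) {P : SkStp} (hP : SkAdm a P) : SpiReg (skBase n a) (skLvs n P) :=
  spi_reg_of_nn (obt_base_ok n ha) ((l8i_adm hP).ghNn le_rfl)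

theorem l8i_y_sq {n : ℕ} (hn : 1 ≤ n) (σ : SkCfg n) : ∑ i, skY σ i ^ 2 = 1 := by
  have hn' : (0 : ℝ) < n := by exact_mod_cast hn
  have h : ∀ i, skY σ i ^ 2 = 1 / n := by
    intro i
    rw [skY, div_pow, Real.sq_sqrt hn'.le, pow_two, sk_d_sp_mul]
  simp only [h, Finset.sum_const, Finset.card_univ, Fintype.card_fin, nsmul_eq_mul]
  field_simp

theorem l8i_dh_nonneg {a : ℝ} {P : SkStp} (hP : SkAdm a P) (k : ℕ) : 0 ≤ (P.map SkInc.dh).getD k 0 := by
  by_cases hk : k < P.length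
  · rw [List.getD_eq_getElem _ _ (by simpa using hk)]
    simp only [List.getElem_map]
    exact (hP.2 _ (List.getElem_mem hk)).2.2.2
  · rw [List.getD_eq_default _ _ (by simpa using hk)]

/-- structural validity -/
theorem l8i_ok (n : ℕ) (hn : 1 ≤ n) (a : ℝ) (ha : 0 < a) (P : SkStp) (hP : SkAdm a P) : (skSP n a P).Ok := by
  rw [l8i_eq]
  exact spi_ok (obt_base_ok n ha) (l8i_reg ha hP) (l8i_adm hP) 0 _ (l8i_y_sq hn) _ (l8i_dh_nonneg hP)

/-- expectations under `μ` are the numbers `ghPath` (bounded measurable tests) -/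
theorem l8i_path (n : ℕ) (a : ℝ) (ha : 0 < a) (P : SkStp) (hP : SkAdm a P) (T : (ℕ → SkDr n → ℝ) → SkCfg n → ℝ)
    (hT : Measurable fun ω : SkOm n => T ω.1 ω.2) (c : ℝ) (hc : ∀ ξ σ, |T ξ σ| ≤ c) :
    ∫ ω, T ω.1 ω.2 ∂(skSP n a P).μ = obE n a P 0 T :=
  spi_int (obt_base_ok n ha) _ (l8i_reg ha hP) 0 (fun ω : SkOm n => T ω.1 ω.2) hT c fun _ => hc _ _

/-- conditional expectations are the numbers `ghPath` of the remaining path from the revealed field -/
theorem l8i_E (n : ℕ) (a : ℝ) (ha : 0 < a) (P : SkStp) (hP : SkAdm a P) (k : ℕ) (hk : k ≤ P.length) (ω : SkOm n)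
    (f : SkOm n → ℝ) (hf : Measurable f) (c : ℝ) (hc : ∀ ω, |f ω| ≤ c) :
    (skSP n a P).E k f ω = obE n a (P.drop k) (obFld n P 0 ω.1 k) fun η σ => f (spiSpl k ω.1 η, σ) := by
  rw [l8i_eq, spi_E (obt_base_ok n ha) (l8i_reg ha hP) 0 _ _ (by simpa [skLvs] using hk) ω f hf c hc, obt_lvs_drop]
  rfl

theorem l8i_X (n : ℕ) (a : ℝ) (ha : 0 < a) (P : SkStp) (hP : SkAdm a P) (k : ℕ) (hk : k ≤ P.length) (i : Fin n) (ω : SkOm n) :
    (skSP n a P).X k i ω = obXp n a P 0 k ω.1 i := by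
  rw [l8i_eq, spi_X_le (obt_base_ok n ha) (l8i_reg ha hP) 0 _ _ (by simpa [skLvs] using hk), obt_lvs_drop]
  rfl

theorem l8i_X_gt (n : ℕ) (a : ℝ) (P : SkStp) (k : ℕ) (hk : P.length < k) (i : Fin n) (ω : SkOm n) :
    (skSP n a P).X k i ω = skY ω.2 i := by
  rw [l8i_eq, spi_X_gt 0 _ _ (by simpa [skLvs] using hk)]

theorem l8i_C (n : ℕ) (a : ℝ) (ha : 0 < a) (P : SkStp) (hP : SkAdm a P) (k : ℕ) (hk : k ≤ P.length) (i j : Fin n) (ω : SkOm n) :
    (skSP n a P).C k i j ω = obCp n a P 0 k ω.1 i j := by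
  rw [l8i_eq, spi_C (obt_base_ok n ha) (l8i_reg ha hP) 0 _ _ (by simpa [skLvs] using hk), obt_lvs_drop]
  rfl

theorem l8i_H (n : ℕ) (a : ℝ) (ha : 0 < a) (P : SkStp) (hP : SkAdm a P) (k : ℕ) (hk : k ≤ P.length) (i j : Fin n) (ω : SkOm n) :
    (skSP n a P).H k i j ω = obHp n a P 0 k ω.1 i j := by
  rw [l8i_eq, spi_H (obt_base_ok n ha) (l8i_reg ha hP) 0 _ _ (by simpa [skLvs] using hk), obt_lvs_drop]
  rfl

theorem l8i_dv (n : ℕ) (a : ℝ) (P : SkStp) (k : ℕ) : (skSP n a P).dv k = skGap a P k := rfl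

theorem l8i_X_meas (n : ℕ) (a : ℝ) (P : SkStp) (k : ℕ) (i : Fin n) : Measurable ((skSP n a P).X k i) := by
  rw [l8i_eq]; exact spi_X_meas 0 _ _ k i

theorem l8i_E_meas (n : ℕ) (a : ℝ) (P : SkStp) (k : ℕ) (f : SkOm n → ℝ) (hf : Measurable f) :
    Measurable ((skSP n a P).E k f) := by
  rw [l8i_eq]; exact spi_E_meas 0 _ _ k f hf

theorem l8i_E_bdd (n : ℕ) (a : ℝ) (ha : 0 < a) (P : SkStp) (hP : SkAdm a P) (k : ℕ) (f : SkOm n → ℝ) (c : ℝ)
    (hc : ∀ ω, |f ω| ≤ c) (ω : SkOm n) : |(skSP n a P).E k f ω| ≤ c := by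
  rw [l8i_eq]; exact spi_E_bdd (obt_base_ok n ha) (l8i_reg ha hP) 0 _ _ k f c hc ω

theorem l8i_y_le (n : ℕ) (σ : SkCfg n) (i : Fin n) : |skY σ i| ≤ 1 := by
  have hn : 1 ≤ n := Nat.one_le_iff_ne_zero.2 fun h => by subst h; exact i.elim0
  have h1 := l8i_y_sq hn σ
  have h2 : skY σ i ^ 2 ≤ ∑ j, skY σ j ^ 2 :=
    Finset.single_le_sum (f := fun j => skY σ j ^ 2) (fun _ _ => sq_nonneg _) (Finset.mem_univ i)
  rw [h1] at h2
  exact abs_le_one_iff_mul_self_le_one.2 (by nlinarith)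

theorem l8i_X_bdd (n : ℕ) (a : ℝ) (ha : 0 < a) (P : SkStp) (hP : SkAdm a P) (k : ℕ) (i : Fin n) (ω : SkOm n) :
    |(skSP n a P).X k i ω| ≤ 1 :=
  l8i_E_bdd n a ha P hP k _ 1 (fun ω' => l8i_y_le n ω'.2 i) ω

theorem l8i_S (n : ℕ) (a : ℝ) (ha : 0 < a) (P : SkStp) (hP : SkAdm a P) (k : ℕ) (hk : k ≤ P.length) :
    (skSP n a P).S k = obS n a P 0 k := by
  have e : (skSP n a P).nX k = fun ω : SkOm n => ∑ i, obXp n a P 0 k ω.1 i ^ 2 := by
    funext ω; simp only [L8P.nX, l8i_X n a ha P hP k hk]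
  have hm : Measurable ((skSP n a P).nX k) := Finset.measurable_sum _ fun i _ => (l8i_X_meas n a P k i).pow_const 2
  have hb : ∀ ω, |(skSP n a P).nX k ω| ≤ n := fun ω => by
    refine (Finset.abs_sum_le_sum_abs _ _).trans ?_
    have : ∀ i ∈ (Finset.univ : Finset (Fin n)), |(skSP n a P).X k i ω ^ 2| ≤ 1 := fun i _ => by
      rw [abs_pow]; exact pow_le_one₀ (abs_nonneg _) (l8i_X_bdd n a ha P hP k i ω)
    simpa using Finset.sum_le_sum this
  rw [e] at hm hb
  unfold L8P.S obS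
  rw [e]
  exact l8i_path n a ha P hP (fun ξ _ => ∑ i, obXp n a P 0 k ξ i ^ 2) hm n fun ξ σ => hb (ξ, σ)

theorem l8i_M (n : ℕ) (a : ℝ) (ha : 0 < a) (P : SkStp) (hP : SkAdm a P) (k : ℕ) (hk : k ≤ P.length) (i j : Fin n)
    (ω : SkOm n) :
    (skSP n a P).E k (fun ω' => (skSP n a P).y i ω' * (skSP n a P).y j ω') ω = obM n a (P.drop k) (obFld n P 0 ω.1 k) i j := by
  have hy : ∀ i : Fin n, Measurable fun ω : SkOm n => skY ω.2 i := fun i =>
    (Measurable.of_discrete (f := fun σ : SkCfg n => skY σ i)).comp measurable_snd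
  have h := l8i_E n a ha P hP k hk ω (fun ω' => skY ω'.2 i * skY ω'.2 j) ((hy i).mul (hy j)) 1 fun ω' => by
    rw [abs_mul]; exact mul_le_one₀ (l8i_y_le n _ i) (abs_nonneg _) (l8i_y_le n _ j)
  refine h.trans ?_
  exact spi_path_spin _ _ _ fun σ => skY σ i * skY σ j

theorem l8i_B (n : ℕ) (a : ℝ) (ha : 0 < a) (P : SkStp) (hP : SkAdm a P) (k : ℕ) (hk : k ≤ P.length) :
    (skSP n a P).B k = obB n a P 0 k := by
  have hy : ∀ i : Fin n, Measurable fun ω : SkOm n => skY ω.2 i := fun i =>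
    (Measurable.of_discrete (f := fun σ : SkCfg n => skY σ i)).comp measurable_snd
  set g : SkOm n → ℝ := fun ω => ∑ i, ∑ j,
    (skSP n a P).E k (fun ω' => (skSP n a P).y i ω' * (skSP n a P).y j ω') ω ^ 2 with hg
  have e : g = fun ω : SkOm n => ∑ i, ∑ j, obM n a (P.drop k) (obFld n P 0 ω.1 k) i j ^ 2 := by
    funext ω; simp only [hg, l8i_M n a ha P hP k hk]
  have hm : Measurable g := Finset.measurable_sum _ fun i _ => Finset.measurable_sum _ fun j _ =>
    (l8i_E_meas n a P k _ ((hy i).mul (hy j))).pow_const 2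
  have hb : ∀ ω, |g ω| ≤ n * n := fun ω => by
    refine (Finset.abs_sum_le_sum_abs _ _).trans ?_
    have h1 : ∀ i ∈ (Finset.univ : Finset (Fin n)), |∑ j,
        (skSP n a P).E k (fun ω' => (skSP n a P).y i ω' * (skSP n a P).y j ω') ω ^ 2| ≤ n := fun i _ => by
      refine (Finset.abs_sum_le_sum_abs _ _).trans ?_
      have h2 : ∀ j ∈ (Finset.univ : Finset (Fin n)),
          |(skSP n a P).E k (fun ω' => (skSP n a P).y i ω' * (skSP n a P).y j ω') ω ^ 2| ≤ 1 := fun j _ => by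
        rw [abs_pow]
        refine pow_le_one₀ (abs_nonneg _) (l8i_E_bdd n a ha P hP k _ 1 (fun ω' => ?_) ω)
        rw [abs_mul]; exact mul_le_one₀ (l8i_y_le n _ i) (abs_nonneg _) (l8i_y_le n _ j)
      simpa using Finset.sum_le_sum h2
    simpa using Finset.sum_le_sum h1
  rw [e] at hm hb
  have h3 : (skSP n a P).B k = ∫ ω, g ω ∂(skSP n a P).μ := rfl
  rw [h3, e]
  exact l8i_path n a ha P hP (fun ξ _ => ∑ i, ∑ j, obM n a (P.drop k) (obFld n P 0 ξ k) i j ^ 2) hm (n * n)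
    fun ξ σ => hb (ξ, σ)

/-! ### the fork law = the two-label tree law      (helper140; prefix `spf`)
Product tests: `spi_fork` + `spi_markov` (number level, L08/SpiMk);  general tests: two finite measures which agree on the rectangles are equal;
the tree law as a measure is `ghmT` of `Lib/GhTreeMeas` (helper225). -/

section spf

set_option linter.unusedSectionVars false

variable {S ι : Type} [Fintype S] [Fintype ι]

theorem spf_path_mul_const (B : GhB S) (c : ℝ) : ∀ (ls : List (GhLv S ι)) (z : S → ℝ) (P : (ℕ → ι → ℝ) → S → ℝ),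
    ghPath B ls z (fun η s => P η s * c) = ghPath B ls z P * c
  | [], z, P => by
    simp only [ghPath]
    rw [Finset.sum_mul]
    exact Finset.sum_congr rfl fun s _ => by ring
  | l :: ls, z, P => by
    simp only [ghPath]
    simp_rw [spf_path_mul_const B c ls, ← mul_assoc]
    rw [integral_mul_const]

/-- drivers of the two branches as a two-label driver table -/
def spfDr2 (p : SpiOm S ι × SpiOm S ι) : ℕ → Fin 2 → ι → ℝ := fun j c => if c = 0 then p.1.1 j else p.2.1 j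

/-- spins of the two branches -/
def spfSp2 (p : SpiOm S ι × SpiOm S ι) : Fin 2 → S := fun c => if c = 0 then p.1.2 else p.2.2

/-- the two branches of a two-label table -/
def spfJ (x : GhmTΩ S ι 2) : SpiOm S ι × SpiOm S ι := ((fun t => x.1 t 0, x.2 0), (fun t => x.1 t 1, x.2 1))

theorem spf_dr2_J (x : GhmTΩ S ι 2) : spfDr2 (spfJ x) = x.1 := by
  funext t c
  fin_cases c <;> simp [spfDr2, spfJ]

theorem spf_sp2_J (x : GhmTΩ S ι 2) : spfSp2 (spfJ x) = x.2 := by
  funext c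
  fin_cases c <;> simp [spfSp2, spfJ]

variable [MeasurableSpace S] [DiscreteMeasurableSpace S]

theorem spf_J_meas : Measurable (spfJ (S := S) (ι := ι)) := by
  unfold spfJ
  refine Measurable.prodMk (Measurable.prodMk ?_ ?_) (Measurable.prodMk ?_ ?_)
  · exact measurable_pi_lambda _ fun t => (measurable_pi_apply 0).comp ((measurable_pi_apply t).comp measurable_fst)
  · exact (measurable_pi_apply 0).comp measurable_snd
  · exact measurable_pi_lambda _ fun t => (measurable_pi_apply 1).comp ((measurable_pi_apply t).comp measurable_fst)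
  · exact (measurable_pi_apply 1).comp measurable_snd

/-- product tests under the fork law -/
theorem spf_prod {B : GhB S} (hB : B.Ok) {ls : List (GhLv S ι)} (hr : SpiReg B ls) (z : S → ℝ) {k : ℕ} (hk : k ≤ ls.length)
    (f g : SpiOm S ι → ℝ) (hf : Measurable f) (hg : Measurable g) (cf cg : ℝ) (hcf : ∀ ω, |f ω| ≤ cf) (hcg : ∀ ω, |g ω| ≤ cg) :
    ∫ p, f p.1 * g p.2 ∂((spiK B ls z) ⊗ₘ (spiKap B ls z k))
      = ghNu B ls (spiRep k) (fun _ => z) fun η σ => f (fun t => η t 0, σ 0) * g (fun t => η t 1, σ 1) := by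
  have hμ := (spi_k_markov hB hr).isProbabilityMeasure z
  have hκ := spi_kap_markov hB hr z k
  have hcf0 : 0 ≤ cf := (abs_nonneg _).trans (hcf ((fun _ _ => 0), Classical.choice (by
    by_contra hne
    rw [not_nonempty_iff] at hne
    have := hB.sum
    simp at this)))
  have hfg : Measurable fun p : SpiOm S ι × SpiOm S ι => f p.1 * g p.2 := (hf.comp measurable_fst).mul (hg.comp measurable_snd)
  have hint : Integrable (fun p : SpiOm S ι × SpiOm S ι => f p.1 * g p.2) ((spiK B ls z) ⊗ₘ (spiKap B ls z k)) :=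
    Integrable.of_bound hfg.aestronglyMeasurable (cf * cg) (Filter.Eventually.of_forall fun p => by
      rw [Real.norm_eq_abs, abs_mul]
      exact mul_le_mul (hcf _) (hcg _) (abs_nonneg _) hcf0)
  rw [Measure.integral_compProd hint]
  simp_rw [integral_const_mul]
  -- the conditional expectation of `g`
  set Eg : (ℕ → ι → ℝ) → ℝ := fun ξ => ghPath B (ls.drop k) (z + ghPre ls ξ k) fun η s => g (spiSpl k ξ η, s) with hEg
  have e1 : ∀ ω : SpiOm S ι, ∫ ω', g ω' ∂(spiKap B ls z k ω) = Eg ω.1 := fun ω => spi_kint hB hr z hk ω g hg cg hcg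
  have hEm : Measurable fun ω : SpiOm S ι => Eg ω.1 := by
    have := (hg.stronglyMeasurable.integral_kernel (κ := spiKap B ls z k)).measurable
    simpa only [e1] using this
  have hEb : ∀ ω : SpiOm S ι, |Eg ω.1| ≤ cg := fun ω => by
    rw [← e1]
    have h1 := norm_integral_le_of_norm_le_const (μ := spiKap B ls z k ω) (f := g) (C := cg)
      (Filter.Eventually.of_forall fun x => by rw [Real.norm_eq_abs]; exact hcg x)
    simpa using h1
  simp_rw [e1]
  rw [spi_int hB ls hr z (fun ω => f ω * Eg ω.1) (hf.mul hEm) (cf * cg) (fun ω => by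
      rw [abs_mul]
      exact mul_le_mul (hcf _) (hEb _) (abs_nonneg _) hcf0),
    spi_markov hB ls (spi_reg_nrm hr) k z, spi_fork hB ls (spi_reg_nrm hr) k hk z (fun η s => f (η, s)) (fun η s => g (η, s))]
  congr 1
  funext ξ _
  have e2 : ∀ η, Eg (spiSpl k ξ η) = Eg ξ := fun η => by
    simp only [hEg, spi_pre_spl, spiSpl_spl]
  simp only [e2]
  rw [spf_path_mul_const]

/-- **the fork law is the image of the two-label tree law** -/
theorem spf_law {B : GhB S} (hB : B.Ok) {ls : List (GhLv S ι)} (hn : GhNn ls) (z : S → ℝ) {k : ℕ} (hk : k ≤ ls.length) :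
    (spiK B ls z) ⊗ₘ (spiKap B ls z k) = (ghmT B ls (spiRep k) fun _ => z).map spfJ := by
  have hr := spi_reg_of_nn hB hn
  have hμ := (spi_k_markov hB hr).isProbabilityMeasure z
  have hκ := spi_kap_markov hB hr z k
  have hT := (ghmt_markov hB hn (spiRep k)).isProbabilityMeasure fun _ => z
  have hT' : IsProbabilityMeasure ((ghmT B ls (spiRep k) fun _ => z).map spfJ) :=
    Measure.isProbabilityMeasure_map spf_J_meas.aemeasurable
  refine Measure.ext_prod fun {A A'} hA hA' => ?_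
  have hf : Measurable (A.indicator (1 : SpiOm S ι → ℝ)) := measurable_one.indicator hA
  have hg : Measurable (A'.indicator (1 : SpiOm S ι → ℝ)) := measurable_one.indicator hA'
  have hb : ∀ (A : Set (SpiOm S ι)) ω, |A.indicator (1 : SpiOm S ι → ℝ) ω| ≤ 1 := fun A ω => by
    by_cases h : ω ∈ A <;> simp [h]
  have hind : ∀ p : SpiOm S ι × SpiOm S ι,
      (A ×ˢ A').indicator (1 : SpiOm S ι × SpiOm S ι → ℝ) p = A.indicator 1 p.1 * A'.indicator 1 p.2 := by
    intro p
    by_cases h1 : p.1 ∈ A <;> by_cases h2 : p.2 ∈ A' <;> simp [Set.indicator, h1, h2]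
  have h1 := spf_prod hB hr z hk _ _ hf hg 1 1 (hb A) (hb A')
  have h2 : ∫ p, A.indicator (1 : SpiOm S ι → ℝ) p.1 * A'.indicator (1 : SpiOm S ι → ℝ) p.2
        ∂((ghmT B ls (spiRep k) fun _ => z).map spfJ)
      = ghNu B ls (spiRep k) (fun _ => z) fun η σ =>
          A.indicator (1 : SpiOm S ι → ℝ) (fun t => η t 0, σ 0) * A'.indicator (1 : SpiOm S ι → ℝ) (fun t => η t 1, σ 1) := by
    have hm : Measurable fun p : SpiOm S ι × SpiOm S ι =>
        A.indicator (1 : SpiOm S ι → ℝ) p.1 * A'.indicator (1 : SpiOm S ι → ℝ) p.2 :=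
      (hf.comp measurable_fst).mul (hg.comp measurable_snd)
    rw [integral_map spf_J_meas.aemeasurable hm.aestronglyMeasurable]
    exact ghmt_integral_bdd hB hn (spiRep k) _ _ (hm.comp spf_J_meas) 1 fun x => by
      rw [abs_mul]
      exact mul_le_one₀ (hb _ _) (abs_nonneg _) (hb _ _)
  rw [← h2] at h1
  simp_rw [← hind] at h1
  rw [integral_indicator_one (hA.prod hA'), integral_indicator_one (hA.prod hA')] at h1
  exact (ENNReal.toReal_eq_toReal_iff' (measure_ne_top _ _) (measure_ne_top _ _)).1 h1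

/-- **expectations under the fork law are the two-label tree numbers** (bounded measurable tests) -/
theorem spf_fork {B : GhB S} (hB : B.Ok) {ls : List (GhLv S ι)} (hn : GhNn ls) (z : S → ℝ) {k : ℕ} (hk : k ≤ ls.length)
    (T : (ℕ → Fin 2 → ι → ℝ) → (Fin 2 → S) → ℝ)
    (hT : Measurable fun p : SpiOm S ι × SpiOm S ι => T (spfDr2 p) (spfSp2 p)) (c : ℝ) (hc : ∀ ξ σ, |T ξ σ| ≤ c) :
    ∫ p, T (spfDr2 p) (spfSp2 p) ∂((spiK B ls z) ⊗ₘ (spiKap B ls z k)) = ghNu B ls (spiRep k) (fun _ => z) T := by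
  rw [spf_law hB hn z hk, integral_map spf_J_meas.aemeasurable hT.aestronglyMeasurable]
  simp only [spf_dr2_J, spf_sp2_J]
  have hm : Measurable fun x : GhmTΩ S ι 2 => T x.1 x.2 := by
    have := hT.comp (spf_J_meas (S := S) (ι := ι))
    simpa only [Function.comp_def, spf_dr2_J, spf_sp2_J] using this
  exact ghmt_integral_bdd hB hn (spiRep k) _ (fun x => T x.1 x.2) hm c fun x => hc _ _

end spf

/-- expectations under the fork law are the two-label tree numbers -/
theorem l8i_fork (n : ℕ) (a : ℝ) (ha : 0 < a) (P : SkStp) (hP : SkAdm a P) (k : ℕ) (hk : k ≤ P.length)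
    (T : (ℕ → Fin 2 → SkDr n → ℝ) → (Fin 2 → SkCfg n) → ℝ)
    (hT : Measurable fun p : SkOm n × SkOm n => T (skDr2 p) (skSp2 p)) (c : ℝ) (hc : ∀ ξ σ, |T ξ σ| ≤ c) :
    ∫ p, T (skDr2 p) (skSp2 p) ∂(skSP n a P).fork k = (obT2 k).nu (skBase n a) (skLvs n P) 0 T := by
  have h := spf_fork (obt_base_ok n ha) ((l8i_adm hP).ghNn le_rfl) (0 : SkCfg n → ℝ) (k := k) (by simpa [skLvs] using hk) T hT c hc
  have e : (obT2 k).rep = spiRep k := by
    funext t b
    rw [obt_rep]
    rfl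
  unfold GhTree.nu
  rw [e]
  exact h

/-- **(SP2)**, general form: Hessian at the LEFT cut, the only mesh condition is `a² n Δh_k ≤ δ` (nothing on `Δb_k`).
PROOF: `spi_sus` (L08/SpiSus): Cramer-Rao with the score of one level (route of helper29; `cmj_ibp`, `cmj_cm`, `cmj_taylor` of Cmp/ProjG). -/
theorem l8i_sus_h (n : ℕ) (hn : 1 ≤ n) (a : ℝ) (ha : 0 < a) (P : SkStp) (hP : SkAdm a P) {δ : ℝ} (hδ : 0 ≤ δ)
    (hmesh : ∀ e ∈ P, a ^ 2 * (n * e.dh) ≤ δ) :
    (skSP n a P).Sus (1 / (1 + δ)) := by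
  rw [l8i_eq]
  have e2 : ∀ k (hk : k < P.length), (P.map SkInc.dh).getD k 0 = (P[k]).dh := fun k hk => by
    rw [List.getD_eq_getElem _ _ (by simpa using hk)]; simp
  refine spi_sus (obt_base_ok n ha) (l8i_reg ha hP) 0 (fun i σ => skY σ i) _ (l8i_adm hP) (l8i_y_sq hn) (l8i_dh_nonneg hP)
    (fun k hk u => ?_) hδ (fun k hk => ?_)
  · have hk' : k < P.length := by simpa [skLvs] using hk
    have h1 := cmj_sk_dir n (P[k]) u
    refine ⟨Sum.elim (fun _ => 0) u, h1.1.le, fun s => ?_⟩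
    have e1 : (skLvs n P)[k] = (P[k]).lv n := by simp [skLvs]
    rw [e1, e2 k hk']
    exact h1.2 s
  · have hk' : k < P.length := by simpa [skLvs] using hk
    rw [e2 k hk']
    exact hmesh _ (List.getElem_mem hk')

/-- **(SP2)** under the mesh condition `a² n (Δh_k + Δb_k) ≤ 1/8` at the revelations with `Δh_k ≠ 0` (much more than needed: see `l8i_sus_h`) -/
theorem l8i_sus (n : ℕ) (hn : 1 ≤ n) (a : ℝ) (ha : 0 < a) (P : SkStp) (hP : SkAdm a P)
    (hmesh : ∀ e ∈ P, e.dh = 0 ∨ a ^ 2 * n * (e.dh + e.db) ≤ 1 / 8) :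
    (skSP n a P).Sus (1 / 4) := by
  have h := l8i_sus_h n hn a ha P hP (δ := 3) (by norm_num) fun e he => by
    rcases hmesh e he with h0 | h1
    · rw [h0]; norm_num
    · have hdb := (hP.2 e he).2.2.1
      have h2 : 0 ≤ a ^ 2 * n * e.db := by positivity
      nlinarith
  norm_num at h
  norm_num
  exact h

theorem l8i_bd_poly {α : Type} [MeasurableSpace α] {f : α → ℝ} (hf : L8Bd f) (p : Polynomial ℝ) :
    L8Bd (fun x => p.eval (f x)) := by
  simp only [Polynomial.eval_eq_sum_range]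
  exact l8k_bd_sum _ fun i _ => l8k_bd_const_mul _ (l8k_bd_pow hf i)

theorem l8i_L (n : ℕ) (a : ℝ) (ha : 0 < a) (P : SkStp) (hP : SkAdm a P) (k : ℕ) (hk : k ≤ P.length) (ω : SkOm n) :
    (skSP n a P).L k ω = obL n a P 0 k ω.1 ω.2 := by
  simp only [L8P.L, L8P.nX, obL, l8i_X n a ha P hP k hk]
  rfl

theorem l8i_W (n : ℕ) (a : ℝ) (ha : 0 < a) (P : SkStp) (hP : SkAdm a P) (k : ℕ) (hk : k ≤ P.length) (ω : SkOm n) :
    (skSP n a P).W k ω = obW n a P 0 k ω.1 ω.2 := by
  simp only [L8P.W, L8P.R, obW, l8i_X n a ha P hP k hk, l8i_H n a ha P hP k hk]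
  rfl

/-- `∫ ∂μ` of an `L8Bd` function written in the `ob` variables -/
theorem l8i_path_bd (n : ℕ) (a : ℝ) (ha : 0 < a) (P : SkStp) (hP : SkAdm a P) (f : SkOm n → ℝ) (hf : L8Bd f)
    (T : (ℕ → SkDr n → ℝ) → SkCfg n → ℝ) (e : ∀ ω, f ω = T ω.1 ω.2) :
    ∫ ω, f ω ∂(skSP n a P).μ = obE n a P 0 T := by
  obtain ⟨hm, C, hC⟩ := hf
  have e' : f = fun ω : SkOm n => T ω.1 ω.2 := funext e
  rw [e'] at hm hC
  simp only [e]
  exact l8i_path n a ha P hP T hm C fun ξ σ => hC (ξ, σ)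

/-- **(SP3)** from `ob_pinned_moments` (K9 of Fd/ObsC) at `p = 2 r` -/
theorem l8i_pin (n : ℕ) (hn : 1 ≤ n) (a : ℝ) (ha : 0 < a) (P : SkStp) (hP : SkAdm a P) (r : ℕ) (hr : 1 ≤ r) :
    (skSP n a P).Pin r ((1 + (2 * r : ℝ) ^ 2 / 3) ^ r) := by
  intro w p
  have hok := l8i_ok n hn a ha P hP
  have hLb : ∀ k, L8Bd ((skSP n a P).L k) := fun k => (skSP n a P).l8s_L_bd hok k
  have hWb : ∀ k, L8Bd ((skSP n a P).W k) := fun k => (skSP n a P).l8s_W_bd hok k
  have hmean : ∀ k ≤ P.length, ∫ ω', (p k).eval ((skSP n a P).L k ω') ∂(skSP n a P).μ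
      = obE n a P 0 fun ξ σ => (p k).eval (obL n a P 0 k ξ σ) := fun k hk =>
    l8i_path_bd n a ha P hP _ (l8i_bd_poly (hLb k) (p k)) (fun ξ σ => (p k).eval (obL n a P 0 k ξ σ))
      fun ω => by rw [l8i_L n a ha P hP k hk]
  -- the two integrands
  have hAb : L8Bd fun ω => ∑ k ∈ range ((skSP n a P).n + 1), (skSP n a P).dv k * w k *
        ((p k).eval ((skSP n a P).L k ω) - ∫ ω', (p k).eval ((skSP n a P).L k ω') ∂(skSP n a P).μ) :=
    l8k_bd_sum _ fun k _ => l8k_bd_const_mul _ (l8k_bd_sub (l8i_bd_poly (hLb k) (p k)) (l8k_bd_const _))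
  have hJb : L8Bd fun ω => ∑ k ∈ range ((skSP n a P).n + 1), (skSP n a P).dv k * w k ^ 2 *
        ((p k).derivative.eval ((skSP n a P).L k ω)) ^ 2 * (skSP n a P).W k ω :=
    l8k_bd_sum _ fun k _ => l8k_bd_mul (l8k_bd_const_mul _ (l8k_bd_pow (l8i_bd_poly (hLb k) (p k).derivative) 2)) (hWb k)
  have hJ0 : ∀ ω, 0 ≤ ∑ k ∈ range ((skSP n a P).n + 1), (skSP n a P).dv k * w k ^ 2 *
        ((p k).derivative.eval ((skSP n a P).L k ω)) ^ 2 * (skSP n a P).W k ω := fun ω =>
    Finset.sum_nonneg fun k _ => by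
      have h1 : 0 ≤ (skSP n a P).dv k := by
        unfold L8P.dv
        split_ifs with h0
        · simpa using hok.v_nonneg k
        · exact sub_nonneg.2 (hok.v_mono (Nat.sub_le k 1))
      have h2 := (skSP n a P).l8s_W_nonneg hok k ω
      positivity
  have eA : ∀ ω : SkOm n, (∑ k ∈ range ((skSP n a P).n + 1), (skSP n a P).dv k * w k *
        ((p k).eval ((skSP n a P).L k ω) - ∫ ω', (p k).eval ((skSP n a P).L k ω') ∂(skSP n a P).μ))
      = ∑ j ∈ Finset.range (P.length + 1), skGap a P j * w j *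
        ((p j).eval (obL n a P 0 j ω.1 ω.2) - obE n a P 0 fun ξ' σ' => (p j).eval (obL n a P 0 j ξ' σ')) := fun ω =>
    Finset.sum_congr rfl fun k hk => by
      have hk' : k ≤ P.length := Nat.lt_succ_iff.1 (Finset.mem_range.1 hk)
      rw [hmean k hk', l8i_L n a ha P hP k hk', l8i_dv]
  have eJ : ∀ ω : SkOm n, (∑ k ∈ range ((skSP n a P).n + 1), (skSP n a P).dv k * w k ^ 2 *
        ((p k).derivative.eval ((skSP n a P).L k ω)) ^ 2 * (skSP n a P).W k ω)
      = ∑ j ∈ Finset.range (P.length + 1), skGap a P j * w j ^ 2 *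
          ((p j).derivative.eval (obL n a P 0 j ω.1 ω.2)) ^ 2 * obW n a P 0 j ω.1 ω.2 := fun ω =>
    Finset.sum_congr rfl fun k hk => by
      have hk' : k ≤ P.length := Nat.lt_succ_iff.1 (Finset.mem_range.1 hk)
      rw [l8i_W n a ha P hP k hk', l8i_L n a ha P hP k hk', l8i_dv]
  have hr0 : (r : ℝ) ≠ 0 := by positivity
  have hU := l8i_path_bd n a ha P hP _ (l8k_bd_pow hAb (2 * r))
    (fun ξ σ => |∑ j ∈ Finset.range (P.length + 1), skGap a P j * w j *
        ((p j).eval (obL n a P 0 j ξ σ) - obE n a P 0 fun ξ' σ' => (p j).eval (obL n a P 0 j ξ' σ'))| ^ (2 * r : ℝ))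
    fun ω => by
      rw [eA ω, show (2 * r : ℝ) = ((2 * r : ℕ) : ℝ) by push_cast; ring, Real.rpow_natCast, (even_two_mul r).pow_abs]
  have hV := l8i_path_bd n a ha P hP _ (l8k_bd_pow hJb r)
    (fun ξ σ => (∑ j ∈ Finset.range (P.length + 1), skGap a P j * w j ^ 2 *
          ((p j).derivative.eval (obL n a P 0 j ξ σ)) ^ 2 * obW n a P 0 j ξ σ) ^ ((2 * r : ℝ) / 2))
    fun ω => by
      rw [eJ ω, show (2 * r : ℝ) / 2 = (r : ℝ) by ring, Real.rpow_natCast]
  have hmain := ob_pinned_moments (n := n) hn ha P hP w p (p := (2 * r : ℝ))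
    (by have : (1 : ℝ) ≤ r := by exact_mod_cast hr
        linarith)
  rw [← hU, ← hV, show (2 : ℝ) / (2 * r) = (r : ℝ)⁻¹ by field_simp] at hmain
  have hU0 : 0 ≤ ∫ ω, (∑ k ∈ range ((skSP n a P).n + 1), (skSP n a P).dv k * w k *
        ((p k).eval ((skSP n a P).L k ω) - ∫ ω', (p k).eval ((skSP n a P).L k ω') ∂(skSP n a P).μ)) ^ (2 * r)
        ∂(skSP n a P).μ := integral_nonneg fun ω => (even_two_mul r).pow_nonneg _
  have hV0 : 0 ≤ ∫ ω, (∑ k ∈ range ((skSP n a P).n + 1), (skSP n a P).dv k * w k ^ 2 *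
        ((p k).derivative.eval ((skSP n a P).L k ω)) ^ 2 * (skSP n a P).W k ω) ^ r ∂(skSP n a P).μ :=
    integral_nonneg fun ω => pow_nonneg (hJ0 ω) r
  have h3 := pow_le_pow_left₀ (Real.rpow_nonneg hU0 _) hmain r
  rw [mul_pow, Real.rpow_inv_natCast_pow hU0 (by omega), Real.rpow_inv_natCast_pow hV0 (by omega)] at h3
  exact h3

/-- **(SP4)** from PE (13) in the log-free pointwise form (`cmj_spi_proj`, Cmp/ProjL8, helper192) -/
theorem l8i_proj (r : ℕ) (hr : 1 ≤ r) : ∃ c : ℝ, 0 < c ∧ ∀ (n : ℕ) (a : ℝ) (P : SkStp), 1 ≤ n → 0 < a → a ≤ 4 → SkAdm a P →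
    ∀ vmin hmin : ℝ, 0 < vmin → 0 < hmin → (skSP n a P).Proj r c vmin hmin := by
  obtain ⟨c, hc, h⟩ := cmj_spi_proj r hr
  refine ⟨c, hc, fun n a P hn ha _ hP vmin hmin hv hh => ?_⟩
  rw [l8i_eq]
  refine h (SkCfg n) (SkDr n) (skBase n a) (skLvs n P) 0 n (fun i σ => skY σ i) _ (obt_base_ok n ha) (l8i_reg ha hP)
    (l8i_adm hP) (l8i_y_sq hn) (l8i_dh_nonneg hP) (fun k hk u => ?_) vmin hmin hv hh
  have hk' : k < P.length := by simpa [skLvs] using hk
  have h1 := cmj_sk_dir n (P[k]) u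
  refine ⟨Sum.elim (fun _ => 0) u, h1.1.le, fun s => ?_⟩
  have e1 : (skLvs n P)[k] = (P[k]).lv n := by simp [skLvs]
  have e2 : (P.map SkInc.dh).getD k 0 = (P[k]).dh := by
    rw [List.getD_eq_getElem _ _ (by simpa using hk')]; simp
  rw [e1, e2]
  exact h1.2 s

theorem l8i_eqns_cite : True := by
  have := @skSP.eq_1
  have := @skSP.congr_simp
  have := @skDr2.eq_1
  have := @skSp2.eq_1
  have := @spfDr2.eq_1
  have := @spfSp2.eq_1
  have := @spfJ.eq_1
  trivial

end Claimed.Agent.R286
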