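import Claimed.Agent.R286.L08.SPKitB

/-!
# Row 286 (S0533), folder L08, file SPKitC : COVARIANCE, SOURCE HESSIAN, `W`, RESIDUAL BLOCKS   (owner helper22; prefix `l8k_`)

Consequences of `L8P.Ok` only.  Pointwise in `ω`.

* quadratic forms of `C k`, `H k` (`l8k_C_quad`, `l8k_H_quad`), `v_k C ≤ H ≤ a C`, `C ≤ 1`;
* `0 ≤ W k ≤ 4 a`, `E_k W_k = tr C_k H_k`, `v tr C H ≤ tr H²`, `v tr C² ≤ tr C H`;
* **LL Lemma 6.2, first display** (residual blocks): `l8k_H_block`, `l8k_W_block`.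
-/

set_option autoImplicit false

namespace Claimed.Agent.R286

open MeasureTheory ProbabilityTheory Finset
open scoped ENNReal

variable {Ω : Type} [mΩ : MeasurableSpace Ω] {m : ℕ} {P : L8P Ω m}

/-! ### boundedness, measurability -/

theorem l8k_yy_bd (h : P.Ok) (i j : Fin m) : L8Bd (fun x => P.y i x * P.y j x) := l8k_bd_mul (l8k_y_bd h i) (l8k_y_bd h j)

theorem l8k_C_bd (h : P.Ok) (k : ℕ) (i j : Fin m) : L8Bd (P.C k i j) :=
  l8k_bd_sub (l8k_E_bd h (l8k_yy_bd h i j) k) (l8k_bd_mul (l8k_X_bd h k i) (l8k_X_bd h k j))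

theorem l8k_C_meas (h : P.Ok) (k : ℕ) (i j : Fin m) : Measurable[P.ℱ k] (P.C k i j) :=
  (l8k_E_meas h (l8k_yy_bd h i j) k).sub ((l8k_X_meas h k i).mul (l8k_X_meas h k j))

theorem l8k_Hint_bd (h : P.Ok) (k : ℕ) (i j : Fin m) :
    L8Bd (fun x => ∑ l ∈ Ico k (P.n + 1), P.v l * (P.dX l i x * P.dX l j x)) :=
  l8k_bd_sum _ fun l _ => l8k_bd_const_mul _ (l8k_bd_mul (l8k_dX_bd h l i) (l8k_dX_bd h l j))

theorem l8k_H_bd (h : P.Ok) (k : ℕ) (i j : Fin m) : L8Bd (P.H k i j) := l8k_E_bd h (l8k_Hint_bd h k i j) k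

theorem l8k_H_meas (h : P.Ok) (k : ℕ) (i j : Fin m) : Measurable[P.ℱ k] (P.H k i j) := l8k_E_meas h (l8k_Hint_bd h k i j) k

theorem l8k_W_bd (h : P.Ok) (k : ℕ) : L8Bd (P.W k) :=
  l8k_bd_sum _ fun i _ => l8k_bd_sum _ fun j _ => l8k_bd_mul (l8k_bd_mul (l8k_R_bd h k i) (l8k_H_bd h k i j)) (l8k_R_bd h k j)

theorem l8k_H_symm (k : ℕ) (i j : Fin m) (ω : Ω) : P.H k i j ω = P.H k j i ω :=
  l8k_E_congr (fun x => Finset.sum_congr rfl fun l _ => by ring) k ω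

theorem l8k_C_symm (k : ℕ) (i j : Fin m) (ω : Ω) : P.C k i j ω = P.C k j i ω := by
  unfold L8P.C
  rw [l8k_E_congr (fun x => mul_comm (P.y i x) (P.y j x)) k ω, mul_comm (P.X k i ω)]

/-! ### quadratic forms -/

/-- algebra: a double sum of products is a square -/
theorem l8k_quad_sq (u a : Fin m → ℝ) : ∑ i, ∑ j, u i * (a i * a j) * u j = (∑ i, u i * a i) ^ 2 := by
  rw [sq, Finset.sum_mul_sum]
  exact Finset.sum_congr rfl fun i _ => Finset.sum_congr rfl fun j _ => by ring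

/-- `C_k = E_k (y - X_k)(y - X_k)ᵀ` -/
theorem l8k_C_eq_ERR (h : P.Ok) (k : ℕ) (i j : Fin m) (ω : Ω) :
    P.C k i j ω = P.E k (fun x => P.R k i x * P.R k j x) ω := by
  have e : ∀ x, P.R k i x * P.R k j x = (P.y i x * P.y j x - P.X k j x * P.y i x) - P.X k i x * P.R k j x := by
    intro x; unfold L8P.R; ring
  have hR : P.E k (P.R k j) ω = 0 := by
    have : P.E k (P.R k j) ω = P.E k (P.y j) ω - P.E k (P.X k j) ω := l8k_E_sub h (l8k_y_bd h j) (l8k_X_bd h k j) k ω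
    rw [this, l8k_X_tower h le_rfl]; exact sub_self _
  rw [l8k_E_congr e, l8k_E_sub h (l8k_bd_sub (l8k_yy_bd h i j) (l8k_bd_mul (l8k_X_bd h k j) (l8k_y_bd h i)))
    (l8k_bd_mul (l8k_X_bd h k i) (l8k_R_bd h k j)),
    l8k_E_sub h (l8k_yy_bd h i j) (l8k_bd_mul (l8k_X_bd h k j) (l8k_y_bd h i)),
    l8k_E_pull h (l8k_X_meas h k j), l8k_E_pull h (l8k_X_meas h k i), hR]
  unfold L8P.C L8P.X
  ring

/-- `uᵀ C_k u = E_k (u·(y - X_k))²` -/
theorem l8k_C_quad (h : P.Ok) (k : ℕ) (u : Fin m → ℝ) (ω : Ω) :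
    ∑ i, ∑ j, u i * P.C k i j ω * u j = P.E k (fun x => (∑ i, u i * P.R k i x) ^ 2) ω := by
  have e : ∀ x, (∑ i, u i * P.R k i x) ^ 2 = ∑ i, ∑ j, u i * (P.R k i x * P.R k j x) * u j :=
    fun x => (l8k_quad_sq u fun i => P.R k i x).symm
  have hb : ∀ i j, L8Bd (fun x => u i * (P.R k i x * P.R k j x) * u j) := fun i j =>
    l8k_bd_mul_const _ (l8k_bd_const_mul _ (l8k_bd_mul (l8k_R_bd h k i) (l8k_R_bd h k j)))
  rw [l8k_E_congr e, l8k_E_sum h _ fun i _ => l8k_bd_sum _ fun j _ => hb i j]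
  refine Finset.sum_congr rfl fun i _ => ?_
  rw [l8k_E_sum h _ fun j _ => hb i j]
  refine Finset.sum_congr rfl fun j _ => ?_
  rw [l8k_E_mul_const, l8k_E_const_mul, l8k_C_eq_ERR h]

/-- `uᵀ H_k u = ∑_l v_l E_k (u·dX_l)²` -/
theorem l8k_H_quad (h : P.Ok) (k : ℕ) (u : Fin m → ℝ) (ω : Ω) :
    ∑ i, ∑ j, u i * P.H k i j ω * u j
      = ∑ l ∈ Ico k (P.n + 1), P.v l * P.E k (fun x => (∑ i, u i * P.dX l i x) ^ 2) ω := by
  have hb : ∀ l i j, L8Bd (fun x => u i * (P.dX l i x * P.dX l j x) * u j) := fun l i j =>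
    l8k_bd_mul_const _ (l8k_bd_const_mul _ (l8k_bd_mul (l8k_dX_bd h l i) (l8k_dX_bd h l j)))
  have e1 : ∀ l, P.E k (fun x => (∑ i, u i * P.dX l i x) ^ 2) ω
      = ∑ i, ∑ j, u i * P.E k (fun x => P.dX l i x * P.dX l j x) ω * u j := by
    intro l
    rw [l8k_E_congr (fun x => (l8k_quad_sq u fun i => P.dX l i x).symm),
      l8k_E_sum h _ fun i _ => l8k_bd_sum _ fun j _ => hb l i j]
    refine Finset.sum_congr rfl fun i _ => ?_
    rw [l8k_E_sum h _ fun j _ => hb l i j]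
    exact Finset.sum_congr rfl fun j _ => by rw [l8k_E_mul_const, l8k_E_const_mul]
  have e2 : ∀ i j, P.H k i j ω = ∑ l ∈ Ico k (P.n + 1), P.v l * P.E k (fun x => P.dX l i x * P.dX l j x) ω := by
    intro i j
    unfold L8P.H
    rw [l8k_E_sum h _ fun l _ => l8k_bd_const_mul _ (l8k_bd_mul (l8k_dX_bd h l i) (l8k_dX_bd h l j))]
    exact Finset.sum_congr rfl fun l _ => l8k_E_const_mul _ _ _ _
  simp only [e1, e2, Finset.mul_sum, Finset.sum_mul]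
  rw [Finset.sum_comm]
  conv_lhs => enter [2, l]; rw [Finset.sum_comm]
  rw [Finset.sum_comm]
  refine Finset.sum_congr rfl fun l _ => ?_
  rw [Finset.sum_comm]
  exact Finset.sum_congr rfl fun i _ => Finset.sum_congr rfl fun j _ => by ring

/-- `uᵀ C_k u = ∑_l E_k (u·dX_l)²` -/
theorem l8k_C_quad_sum (h : P.Ok) {k : ℕ} (hk : k ≤ P.n + 1) (u : Fin m → ℝ) (ω : Ω) :
    ∑ i, ∑ j, u i * P.C k i j ω * u j = ∑ l ∈ Ico k (P.n + 1), P.E k (fun x => (∑ i, u i * P.dX l i x) ^ 2) ω := by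
  rw [l8k_C_quad h, ← l8k_E_sq_sum h le_rfl hk]
  exact l8k_E_congr (fun x => by simp only [l8k_R_eq_XX h]) k ω

theorem l8k_C_quad_nonneg (h : P.Ok) (k : ℕ) (u : Fin m → ℝ) (ω : Ω) : 0 ≤ ∑ i, ∑ j, u i * P.C k i j ω * u j := by
  rw [l8k_C_quad h]
  exact l8k_E_nonneg (fun x => sq_nonneg _) k ω

theorem l8k_H_quad_nonneg (h : P.Ok) (k : ℕ) (u : Fin m → ℝ) (ω : Ω) : 0 ≤ ∑ i, ∑ j, u i * P.H k i j ω * u j := by
  rw [l8k_H_quad h]
  exact Finset.sum_nonneg fun l _ => mul_nonneg (h.v_nonneg l) (l8k_E_nonneg (fun x => sq_nonneg _) k ω)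

theorem l8k_v_le_a (h : P.Ok) (l : ℕ) : P.v l ≤ P.a := by
  rw [← h.v_term (max l P.n) (le_max_right _ _)]
  exact h.v_mono (le_max_left _ _)

/-- `v_k C_k ≤ H_k` -/
theorem l8k_vC_le_H (h : P.Ok) {k : ℕ} (hk : k ≤ P.n + 1) (u : Fin m → ℝ) (ω : Ω) :
    P.v k * ∑ i, ∑ j, u i * P.C k i j ω * u j ≤ ∑ i, ∑ j, u i * P.H k i j ω * u j := by
  rw [l8k_H_quad h, l8k_C_quad_sum h hk, Finset.mul_sum]
  exact Finset.sum_le_sum fun l hl => mul_le_mul_of_nonneg_right (h.v_mono (Finset.mem_Ico.1 hl).1)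
    (l8k_E_nonneg (fun x => sq_nonneg _) k ω)

/-- `H_k ≤ a C_k` -/
theorem l8k_H_le_aC (h : P.Ok) {k : ℕ} (hk : k ≤ P.n + 1) (u : Fin m → ℝ) (ω : Ω) :
    ∑ i, ∑ j, u i * P.H k i j ω * u j ≤ P.a * ∑ i, ∑ j, u i * P.C k i j ω * u j := by
  rw [l8k_H_quad h, l8k_C_quad_sum h hk, Finset.mul_sum]
  exact Finset.sum_le_sum fun l _ => mul_le_mul_of_nonneg_right (l8k_v_le_a h l)
    (l8k_E_nonneg (fun x => sq_nonneg _) k ω)

/-- `C_k ≤ 1` -/
theorem l8k_C_quad_le (h : P.Ok) (k : ℕ) (u : Fin m → ℝ) (ω : Ω) :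
    ∑ i, ∑ j, u i * P.C k i j ω * u j ≤ ∑ i, u i ^ 2 := by
  have e : ∑ i, ∑ j, u i * P.C k i j ω * u j
      = P.E k (fun x => (∑ i, u i * P.y i x) ^ 2) ω - (∑ i, u i * P.X k i ω) ^ 2 := by
    have hb : ∀ i j, L8Bd (fun x => u i * (P.y i x * P.y j x) * u j) := fun i j =>
      l8k_bd_mul_const _ (l8k_bd_const_mul _ (l8k_yy_bd h i j))
    rw [l8k_E_congr (fun x => (l8k_quad_sq u fun i => P.y i x).symm),
      l8k_E_sum h _ fun i _ => l8k_bd_sum _ fun j _ => hb i j, ← l8k_quad_sq, ← Finset.sum_sub_distrib]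
    refine Finset.sum_congr rfl fun i _ => ?_
    rw [l8k_E_sum h _ fun j _ => hb i j, ← Finset.sum_sub_distrib]
    refine Finset.sum_congr rfl fun j _ => ?_
    rw [l8k_E_mul_const, l8k_E_const_mul]
    unfold L8P.C
    ring
  rw [e]
  have h1 := l8k_E_mono h (l8k_bd_pow (l8k_dot_bd h u (l8k_y_bd h)) 2) (l8k_bd_const (∑ i, u i ^ 2))
    (fun x => l8k_dot_y_sq_le h u x) k ω
  rw [l8k_E_const h] at h1
  nlinarith [sq_nonneg (∑ i, u i * P.X k i ω)]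

/-! ### the observable `W` -/

theorem l8k_W_nonneg (h : P.Ok) (k : ℕ) (ω : Ω) : 0 ≤ P.W k ω := l8k_H_quad_nonneg h k (fun i => P.R k i ω) ω

/-- `|y - X_k|² = 1 - 2 y·X_k + |X_k|² ≤ 4` -/
theorem l8k_R_sq_le (h : P.Ok) (k : ℕ) (ω : Ω) : ∑ i, P.R k i ω ^ 2 ≤ 4 := by
  have e : ∑ i, P.R k i ω ^ 2 = 1 - 2 * (∑ i, P.X k i ω * P.y i ω) + P.nX k ω := by
    rw [← h.y_sq ω]
    unfold L8P.R L8P.nX
    rw [Finset.mul_sum, ← Finset.sum_sub_distrib, ← Finset.sum_add_distrib]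
    exact Finset.sum_congr rfl fun i _ => by ring
  have h1 := l8k_dot_y_sq_le h (fun i => P.X k i ω) ω
  have h2 := l8k_nX_le_one h k ω
  change (∑ i, P.X k i ω * P.y i ω) ^ 2 ≤ P.nX k ω at h1
  rw [e]
  nlinarith [sq_nonneg (∑ i, P.X k i ω * P.y i ω + 1)]

theorem l8k_R_zero (h : P.Ok) {k : ℕ} (hk : P.n < k) (i : Fin m) (ω : Ω) : P.R k i ω = 0 := by
  unfold L8P.R; rw [l8k_X_term h hk, sub_self]

theorem l8k_W_le (h : P.Ok) (k : ℕ) (ω : Ω) : P.W k ω ≤ P.a * ∑ i, P.R k i ω ^ 2 := by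
  rcases Nat.lt_or_ge P.n k with hk | hk
  · have : P.W k ω = 0 := by
      unfold L8P.W
      exact Finset.sum_eq_zero fun i _ => Finset.sum_eq_zero fun j _ => by rw [l8k_R_zero h hk i]; ring
    rw [this]
    exact mul_nonneg h.a_pos.le (Finset.sum_nonneg fun _ _ => sq_nonneg _)
  · exact (l8k_H_le_aC h (hk.trans (Nat.le_succ _)) (fun i => P.R k i ω) ω).trans
      (mul_le_mul_of_nonneg_left (l8k_C_quad_le h k _ ω) h.a_pos.le)

theorem l8k_W_le_four (h : P.Ok) (k : ℕ) (ω : Ω) : P.W k ω ≤ 4 * P.a := by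
  have := l8k_W_le h k ω
  nlinarith [l8k_R_sq_le h k ω, h.a_pos]

/-- `E_k W_k = tr C_k H_k` -/
theorem l8k_E_W (h : P.Ok) (k : ℕ) (ω : Ω) : P.E k (P.W k) ω = P.trCH k ω := by
  have hb : ∀ i j, L8Bd (fun x => P.R k i x * P.H k i j x * P.R k j x) := fun i j =>
    l8k_bd_mul (l8k_bd_mul (l8k_R_bd h k i) (l8k_H_bd h k i j)) (l8k_R_bd h k j)
  unfold L8P.W L8P.trCH
  rw [l8k_E_sum h _ fun i _ => l8k_bd_sum _ fun j _ => hb i j]
  refine Finset.sum_congr rfl fun i _ => ?_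
  rw [l8k_E_sum h _ fun j _ => hb i j]
  refine Finset.sum_congr rfl fun j _ => ?_
  rw [l8k_E_congr (g := fun x => P.H k i j x * (P.R k i x * P.R k j x)) (fun x => by ring),
    l8k_E_pull h (l8k_H_meas h k i j), ← l8k_C_eq_ERR h]
  ring

theorem l8k_trCH_bd (h : P.Ok) (k : ℕ) : L8Bd (P.trCH k) :=
  l8k_bd_sum _ fun i _ => l8k_bd_sum _ fun j _ => l8k_bd_mul (l8k_C_bd h k i j) (l8k_H_bd h k i j)

theorem l8k_trH2_bd (h : P.Ok) (k : ℕ) : L8Bd (P.trH2 k) :=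
  l8k_bd_sum _ fun i _ => l8k_bd_sum _ fun j _ => l8k_bd_pow (l8k_H_bd h k i j) 2

theorem l8k_trC2_bd (h : P.Ok) (k : ℕ) : L8Bd (P.trC2 k) :=
  l8k_bd_sum _ fun i _ => l8k_bd_sum _ fun j _ => l8k_bd_pow (l8k_C_bd h k i j) 2

/-- `E W_k = E tr C_k H_k` -/
theorem l8k_int_W (h : P.Ok) (k : ℕ) : ∫ ω, P.W k ω ∂P.μ = ∫ ω, P.trCH k ω ∂P.μ := by
  rw [← l8k_integral_E h (l8k_W_bd h k) k]
  exact integral_congr_ae (Filter.Eventually.of_forall fun ω => l8k_E_W h k ω)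

/-- trace of a fixed matrix against `H_k` -/
theorem l8k_tr_H (h : P.Ok) (k : ℕ) (A : Fin m → Fin m → ℝ) (ω : Ω) :
    ∑ i, ∑ j, A i j * P.H k i j ω
      = ∑ l ∈ Ico k (P.n + 1), P.v l * P.E k (fun x => ∑ i, ∑ j, P.dX l i x * A i j * P.dX l j x) ω := by
  have hb : ∀ l i j, L8Bd (fun x => P.dX l i x * A i j * P.dX l j x) := fun l i j =>
    l8k_bd_mul (l8k_bd_mul_const _ (l8k_dX_bd h l i)) (l8k_dX_bd h l j)
  have e1 : ∀ l, P.E k (fun x => ∑ i, ∑ j, P.dX l i x * A i j * P.dX l j x) ω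
      = ∑ i, ∑ j, A i j * P.E k (fun x => P.dX l i x * P.dX l j x) ω := by
    intro l
    rw [l8k_E_sum h _ fun i _ => l8k_bd_sum _ fun j _ => hb l i j]
    refine Finset.sum_congr rfl fun i _ => ?_
    rw [l8k_E_sum h _ fun j _ => hb l i j]
    refine Finset.sum_congr rfl fun j _ => ?_
    rw [← l8k_E_const_mul]
    exact l8k_E_congr (fun x => by ring) k ω
  have e2 : ∀ i j, P.H k i j ω = ∑ l ∈ Ico k (P.n + 1), P.v l * P.E k (fun x => P.dX l i x * P.dX l j x) ω := by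
    intro i j
    unfold L8P.H
    rw [l8k_E_sum h _ fun l _ => l8k_bd_const_mul _ (l8k_bd_mul (l8k_dX_bd h l i) (l8k_dX_bd h l j))]
    exact Finset.sum_congr rfl fun l _ => l8k_E_const_mul _ _ _ _
  simp only [e1, e2, Finset.mul_sum]
  rw [Finset.sum_comm]
  conv_lhs => enter [2, l]; rw [Finset.sum_comm]
  rw [Finset.sum_comm]
  refine Finset.sum_congr rfl fun l _ => ?_
  rw [Finset.sum_comm]
  exact Finset.sum_congr rfl fun i _ => Finset.sum_congr rfl fun j _ => by ring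

/-- trace of a fixed matrix against `C_k` -/
theorem l8k_tr_C (h : P.Ok) (k : ℕ) (A : Fin m → Fin m → ℝ) (ω : Ω) :
    ∑ i, ∑ j, A i j * P.C k i j ω = P.E k (fun x => ∑ i, ∑ j, P.R k i x * A i j * P.R k j x) ω := by
  have hb : ∀ i j, L8Bd (fun x => P.R k i x * A i j * P.R k j x) := fun i j =>
    l8k_bd_mul (l8k_bd_mul_const _ (l8k_R_bd h k i)) (l8k_R_bd h k j)
  rw [l8k_E_sum h _ fun i _ => l8k_bd_sum _ fun j _ => hb i j]
  refine Finset.sum_congr rfl fun i _ => ?_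
  rw [l8k_E_sum h _ fun j _ => hb i j]
  refine Finset.sum_congr rfl fun j _ => ?_
  rw [l8k_C_eq_ERR h, ← l8k_E_const_mul]
  exact l8k_E_congr (fun x => by ring) k ω

/-- `v_k tr C_k H_k ≤ tr H_k²` -/
theorem l8k_trCH_le (h : P.Ok) {k : ℕ} (hk : k ≤ P.n + 1) (ω : Ω) : P.v k * P.trCH k ω ≤ P.trH2 k ω := by
  have key : 0 ≤ ∑ i, ∑ j, (P.H k i j ω - P.v k * P.C k i j ω) * P.H k i j ω := by
    rw [l8k_tr_H h]
    refine Finset.sum_nonneg fun l _ => mul_nonneg (h.v_nonneg l) (l8k_E_nonneg (fun x => ?_) k ω)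
    have := l8k_vC_le_H h hk (fun i => P.dX l i x) ω
    rw [Finset.mul_sum] at this
    simp only [Finset.mul_sum] at this
    rw [← sub_nonneg, ← Finset.sum_sub_distrib] at this
    refine this.trans_eq (Finset.sum_congr rfl fun i _ => ?_)
    rw [← Finset.sum_sub_distrib]
    exact Finset.sum_congr rfl fun j _ => by ring
  unfold L8P.trCH L8P.trH2
  rw [Finset.mul_sum, ← sub_nonneg, ← Finset.sum_sub_distrib]
  refine key.trans_eq (Finset.sum_congr rfl fun i _ => ?_)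
  rw [Finset.mul_sum, ← Finset.sum_sub_distrib]
  exact Finset.sum_congr rfl fun j _ => by ring

/-- `v_k tr C_k² ≤ tr C_k H_k` -/
theorem l8k_trC2_le (h : P.Ok) {k : ℕ} (hk : k ≤ P.n + 1) (ω : Ω) : P.v k * P.trC2 k ω ≤ P.trCH k ω := by
  have key : 0 ≤ ∑ i, ∑ j, (P.H k i j ω - P.v k * P.C k i j ω) * P.C k i j ω := by
    rw [l8k_tr_C h]
    refine l8k_E_nonneg (fun x => ?_) k ω
    have := l8k_vC_le_H h hk (fun i => P.R k i x) ω
    rw [Finset.mul_sum] at this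
    simp only [Finset.mul_sum] at this
    rw [← sub_nonneg, ← Finset.sum_sub_distrib] at this
    refine this.trans_eq (Finset.sum_congr rfl fun i _ => ?_)
    rw [← Finset.sum_sub_distrib]
    exact Finset.sum_congr rfl fun j _ => by ring
  unfold L8P.trCH L8P.trC2
  rw [Finset.mul_sum, ← sub_nonneg, ← Finset.sum_sub_distrib]
  refine key.trans_eq (Finset.sum_congr rfl fun i _ => ?_)
  rw [Finset.mul_sum, ← Finset.sum_sub_distrib]
  exact Finset.sum_congr rfl fun j _ => by ring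

/-! ### residual blocks (LL Lemma 6.2, first display) -/

/-- a sum over `[c 0, c K)` is the sum over the blocks -/
theorem l8k_sum_blocks {c : ℕ → ℕ} (hc : Monotone c) (f : ℕ → ℝ) (K : ℕ) :
    ∑ l ∈ Ico (c 0) (c K), f l = ∑ j ∈ range K, ∑ l ∈ Ico (c j) (c (j + 1)), f l := by
  induction K with
  | zero => simp
  | succ K ih =>
    rw [Finset.sum_range_succ, ← ih, Finset.sum_Ico_consecutive _ (hc (Nat.zero_le K)) (hc (Nat.le_succ K))]

/-- `H_k ≤ ∑_j μ'_j E_k Δ_j Δ_jᵀ`: blocks `[c j, c (j+1))`, `j < K`, from the cut `k = c 0` to the terminal spin;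
`μ'_j = v (c (j+1) - 1)` = the largest mass in the block -/
theorem l8k_H_block (h : P.Ok) {k K : ℕ} {c : ℕ → ℕ} (hc : Monotone c) (h0 : c 0 = k) (hK : c K = P.n + 1)
    (u : Fin m → ℝ) (ω : Ω) :
    ∑ i, ∑ j, u i * P.H k i j ω * u j
      ≤ ∑ j ∈ range K, P.v (c (j + 1) - 1) * P.E k (fun x => (∑ s, u s * P.XX (c j) (c (j + 1)) s x) ^ 2) ω := by
  rw [l8k_H_quad h, ← hK, ← h0, l8k_sum_blocks hc]
  refine Finset.sum_le_sum fun j _ => ?_
  rw [l8k_E_sq_sum h (hc (Nat.zero_le j)) (hc (Nat.le_succ j)), Finset.mul_sum]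
  refine Finset.sum_le_sum fun l hl => mul_le_mul_of_nonneg_right (h.v_mono ?_) (l8k_E_nonneg (fun x => sq_nonneg _) _ ω)
  have := (Finset.mem_Ico.1 hl).2
  omega

/-- **residual blocks**: `W_k ≤ K ∑_{i,j} μ'_j E_b[(Δ_i^a · Δ_j^b)² | a]`; the branch `a` is `ω`, the branch `b` is averaged
by the kernel `κ k ω` -/
theorem l8k_W_block (h : P.Ok) {k K : ℕ} {c : ℕ → ℕ} (hc : Monotone c) (h0 : c 0 = k) (hK : c K = P.n + 1) (ω : Ω) :
    P.W k ω ≤ K * ∑ i ∈ range K, ∑ j ∈ range K, P.v (c (j + 1) - 1) *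
      P.E k (fun x => (∑ s, P.XX (c i) (c (i + 1)) s ω * P.XX (c j) (c (j + 1)) s x) ^ 2) ω := by
  have hR : ∀ s, P.R k s ω = ∑ i ∈ range K, P.XX (c i) (c (i + 1)) s ω := by
    intro s
    rw [l8k_R_eq_XX h, ← hK, ← h0, l8k_XX_sum (hc (Nat.zero_le K)), l8k_sum_blocks hc]
    exact Finset.sum_congr rfl fun i _ => (l8k_XX_sum (hc (Nat.le_succ i)) s ω).symm
  refine (l8k_H_block h hc h0 hK (fun i => P.R k i ω) ω).trans ?_
  rw [Finset.sum_comm, Finset.mul_sum]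
  refine Finset.sum_le_sum fun j _ => ?_
  rw [← Finset.mul_sum, ← mul_assoc, mul_comm (K : ℝ), mul_assoc]
  refine mul_le_mul_of_nonneg_left ?_ (h.v_nonneg _)
  have hb : ∀ i, L8Bd (fun x => (∑ s, P.XX (c i) (c (i + 1)) s ω * P.XX (c j) (c (j + 1)) s x) ^ 2) := fun i =>
    l8k_bd_pow (l8k_dot_bd h _ (l8k_XX_bd h _ _)) 2
  rw [← l8k_E_sum h _ fun i _ => hb i, ← l8k_E_const_mul]
  refine l8k_E_mono h (l8k_bd_pow (l8k_dot_bd h _ (l8k_XX_bd h _ _)) 2)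
    (l8k_bd_const_mul _ (l8k_bd_sum _ fun i _ => hb i)) (fun x => ?_) k ω
  have e : ∑ s, P.R k s ω * P.XX (c j) (c (j + 1)) s x
      = ∑ i ∈ range K, ∑ s, P.XX (c i) (c (i + 1)) s ω * P.XX (c j) (c (j + 1)) s x := by
    rw [Finset.sum_comm]
    exact Finset.sum_congr rfl fun s _ => by rw [hR s, Finset.sum_mul]
  rw [e]
  have := sq_sum_le_card_mul_sum_sq (s := range K)
    (f := fun i => ∑ s, P.XX (c i) (c (i + 1)) s ω * P.XX (c j) (c (j + 1)) s x)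
  simpa using this

end Claimed.Agent.R286
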