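-- KEEP
import Claimed.Agent.R286.L08.SPB

/-!
# Row 286 (S0533), folder L08, file SPC : API of the abstract single path `L8P` (L08/SP.lean), part C (fork laws, (A3) with random anchors)
STATEMENTS by helper75 (section head LL08); OWNER of the unit (glue, changes of statements, provers): helper22 (deputy).   Prefix `l8s_`.
ALL PROOFS of this file: helper29 (15 Oct 03:10Z), 0 open leaves (uses the statements of SPA, SPB).
A statement found false or awkward: one line to 22 + 75.   All facts are POINTWISE in `ω` (explicit kernels); constants are explicit and do not depend on `P`.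
-/

set_option autoImplicit false

namespace Claimed.Agent.R286

open MeasureTheory ProbabilityTheory Finset
open scoped ENNReal

variable {Ω : Type} [mΩ : MeasurableSpace Ω] {m : ℕ}

namespace L8P

variable (P : L8P Ω m)

/-! ## C. fork laws -/
section C

theorem l8s_fork_prob (h : P.Ok) (k : ℕ) : IsProbabilityMeasure (P.fork k) := by
  have := h.prob
  have := h.markov k
  unfold L8P.fork
  infer_instance

theorem l8s_fork_fst (h : P.Ok) (k : ℕ) : (P.fork k).map Prod.fst = P.μ := by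
  have := h.prob
  have := h.markov k
  exact Measure.fst_compProd P.μ (P.κ k)

theorem l8s_fork_snd_aux (h : P.Ok) (k : ℕ) : P.κ k ∘ₘ P.μ = P.μ := by
  have := h.prob
  obtain ⟨ω⟩ := nonempty_of_isProbabilityMeasure P.μ
  ext s hs
  rw [Measure.bind_apply hs (P.κ k).aemeasurable]
  have h1 := h.tower 0 k (Nat.zero_le k) ω s hs
  rw [h.root ω] at h1
  exact h1

theorem l8s_fork_snd (h : P.Ok) (k : ℕ) : (P.fork k).map Prod.snd = P.μ := by
  have := h.prob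
  have := h.markov k
  have h1 : (P.μ ⊗ₘ P.κ k).snd = P.κ k ∘ₘ P.μ := Measure.snd_compProd P.μ (P.κ k)
  rw [P.l8s_fork_snd_aux h k] at h1
  exact h1

theorem l8s_fork_integrable_aux (h : P.Ok) (k : ℕ) {F : Ω × Ω → ℝ} (hF : Measurable F) {c : ℝ} (hc : ∀ p, |F p| ≤ c) :
    Integrable F (P.fork k) := by
  have := P.l8s_fork_prob h k
  exact Integrable.of_bound hF.aestronglyMeasurable c (ae_of_all _ fun x => by simpa [Real.norm_eq_abs] using hc x)

/-- integration under the fork law -/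
theorem l8s_fork_integral (h : P.Ok) (k : ℕ) {F : Ω × Ω → ℝ} (hF : Measurable F) {c : ℝ} (hc : ∀ p, |F p| ≤ c) :
    ∫ p, F p ∂(P.fork k) = ∫ ω, ∫ ω', F (ω, ω') ∂(P.κ k ω) ∂P.μ := by
  have := h.prob
  have := h.markov k
  exact Measure.integral_compProd (P.l8s_fork_integrable_aux h k hF hc)

theorem l8s_fork_prod (h : P.Ok) (k : ℕ) {f g : Ω → ℝ} (hf : L8Bd f) (hg : L8Bd g) :
    ∫ p, f p.1 * g p.2 ∂(P.fork k) = ∫ ω, P.E k f ω * P.E k g ω ∂P.μ := by
  obtain ⟨hfm, a, ha⟩ := hf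
  obtain ⟨hgm, b, hb⟩ := hg
  have hF : Measurable (fun p : Ω × Ω => f p.1 * g p.2) := (hfm.comp measurable_fst).mul (hgm.comp measurable_snd)
  have hc : ∀ p : Ω × Ω, |f p.1 * g p.2| ≤ a * b := by
    intro p
    rw [abs_mul]
    exact mul_le_mul (ha _) (hb _) (abs_nonneg _) ((abs_nonneg _).trans (ha p.1))
  rw [P.l8s_fork_integral h k hF hc]
  have e1 : ∀ ω, ∫ ω', f ω * g ω' ∂(P.κ k ω) = P.E k g ω * f ω := by
    intro ω
    rw [integral_const_mul, mul_comm]; rfl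
  simp only [e1]
  have hgE := P.l8s_E_bd h k (f := g) ⟨hgm, b, hb⟩
  have h2 := P.l8s_integral_mul_E h k (g := P.E k g) (f := f) (P.l8s_E_sm h k ⟨hgm, b, hb⟩).measurable hgE ⟨hfm, a, ha⟩
  rw [← h2]
  exact integral_congr_ae (ae_of_all _ fun ω => mul_comm _ _)

theorem l8s_fork_swap (h : P.Ok) (k : ℕ) : (P.fork k).map Prod.swap = P.fork k := by
  have := P.l8s_fork_prob h k
  have hp : IsProbabilityMeasure ((P.fork k).map Prod.swap) :=
    Measure.isProbabilityMeasure_map measurable_swap.aemeasurable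
  refine ext_of_generate_finite _ generateFrom_prod.symm isPiSystem_prod ?_ (by simp)
  rintro _ ⟨A, hA, B, hB, rfl⟩
  simp only [Set.mem_ofPred_eq] at hA hB
  rw [Measure.map_apply measurable_swap (hA.prod hB)]
  have e : Prod.swap ⁻¹' (A ×ˢ B) = B ×ˢ A := by
    ext p; simp [and_comm]
  rw [e]
  have key : ∀ A B : Set Ω, MeasurableSet A → MeasurableSet B →
      (P.fork k).real (A ×ˢ B) = ∫ ω, P.E k (A.indicator fun _ => (1:ℝ)) ω * P.E k (B.indicator fun _ => (1:ℝ)) ω ∂P.μ := by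
    intro A B hA hB
    rw [← P.l8s_fork_prod h k ((l8Bd_const 1).indicator hA) ((l8Bd_const 1).indicator hB)]
    rw [← integral_indicator_one (hA.prod hB)]
    congr 1
    funext p
    by_cases h1 : p.1 ∈ A <;> by_cases h2 : p.2 ∈ B <;> simp [Set.indicator, h1, h2]
  have h3 : (P.fork k).real (B ×ˢ A) = (P.fork k).real (A ×ˢ B) := by
    rw [key B A hB hA, key A B hA hB]
    exact integral_congr_ae (ae_of_all _ fun ω => mul_comm _ _)
  exact (measureReal_eq_measureReal_iff (measure_ne_top _ _) (measure_ne_top _ _)).mp h3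

theorem l8s_fork_prefix (h : P.Ok) (k : ℕ) {g : Ω → ℝ} (hg : Measurable[P.ℱ k] g) : ∀ᵐ p ∂(P.fork k), g p.1 = g p.2 := by
  have := h.prob
  have := h.markov k
  have hgm : Measurable g := hg.mono (P.ℱ.le k) le_rfl
  have hs : MeasurableSet {p : Ω × Ω | g p.1 = g p.2} :=
    measurableSet_eq_fun (hgm.comp measurable_fst) (hgm.comp measurable_snd)
  unfold L8P.fork
  rw [Measure.ae_compProd_iff hs]
  refine ae_of_all _ fun ω => ?_
  filter_upwards [P.l8s_proper_ae h k hg ω] with ω' hω'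
  exact hω'.symm


theorem l8s_fork_Q_bd_aux (h : P.Ok) : Measurable P.Q ∧ ∀ p, |P.Q p| ≤ 1 := by
  constructor
  · unfold L8P.Q
    exact Finset.measurable_sum _ fun i _ => ((h.y_meas i).comp measurable_fst).mul ((h.y_meas i).comp measurable_snd)
  · intro p
    have h1 := h.y_sq p.1
    have h2 := h.y_sq p.2
    unfold L8P.Q
    rw [abs_le]
    have e1 : 0 ≤ ∑ i, (P.y i p.1 - P.y i p.2) ^ 2 := Finset.sum_nonneg fun i _ => sq_nonneg _
    have e2 : 0 ≤ ∑ i, (P.y i p.1 + P.y i p.2) ^ 2 := Finset.sum_nonneg fun i _ => sq_nonneg _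
    have e3 : ∑ i, (P.y i p.1 - P.y i p.2) ^ 2 = 2 - 2 * ∑ i, P.y i p.1 * P.y i p.2 := by
      have : ∀ i, (P.y i p.1 - P.y i p.2) ^ 2 = P.y i p.1 ^ 2 + P.y i p.2 ^ 2 - 2 * (P.y i p.1 * P.y i p.2) := fun i => by ring
      simp only [this, Finset.sum_sub_distrib, Finset.sum_add_distrib, ← Finset.mul_sum, h1, h2]
      ring
    have e4 : ∑ i, (P.y i p.1 + P.y i p.2) ^ 2 = 2 + 2 * ∑ i, P.y i p.1 * P.y i p.2 := by
      have : ∀ i, (P.y i p.1 + P.y i p.2) ^ 2 = P.y i p.1 ^ 2 + P.y i p.2 ^ 2 + 2 * (P.y i p.1 * P.y i p.2) := fun i => by ring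
      simp only [this, Finset.sum_add_distrib, ← Finset.mul_sum, h1, h2]
      ring
    constructor <;> linarith

theorem l8s_fork_int2_aux (h : P.Ok) (k : ℕ) {f g : Ω → ℝ} (hf : L8Bd f) (hg : L8Bd g) :
    Integrable (fun p : Ω × Ω => f p.1 * g p.2) (P.fork k) := by
  obtain ⟨hfm, a, ha⟩ := hf
  obtain ⟨hgm, b, hb⟩ := hg
  refine P.l8s_fork_integrable_aux h k ((hfm.comp measurable_fst).mul (hgm.comp measurable_snd)) (c := a * b) ?_
  intro p
  rw [abs_mul]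
  exact mul_le_mul (ha _) (hb _) (abs_nonneg _) ((abs_nonneg _).trans (ha p.1))

theorem l8s_fork_Q (h : P.Ok) (k : ℕ) : ∫ p, P.Q p ∂(P.fork k) = P.S k := by
  have := h.prob
  unfold L8P.Q L8P.S L8P.nX
  rw [integral_finsetSum _ fun i _ => P.l8s_fork_int2_aux h k (P.l8s_y_bd h i) (P.l8s_y_bd h i),
    integral_finsetSum _ fun i _ => ((P.l8s_X_bd h k i).pow 2).integrable _]
  refine Finset.sum_congr rfl fun i _ => ?_
  rw [P.l8s_fork_prod h k (P.l8s_y_bd h i) (P.l8s_y_bd h i)]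
  exact integral_congr_ae (ae_of_all _ fun ω => by simp only [L8P.X]; ring)

theorem l8s_fork_Q_sq (h : P.Ok) (k : ℕ) : ∫ p, P.Q p ^ 2 ∂(P.fork k) = P.B k := by
  have := h.prob
  have hyy : ∀ i j, L8Bd (fun ω' => P.y i ω' * P.y j ω') := fun i j => (P.l8s_y_bd h i).mul (P.l8s_y_bd h j)
  have e : ∀ p : Ω × Ω, P.Q p ^ 2 = ∑ i, ∑ j, (P.y i p.1 * P.y j p.1) * (P.y i p.2 * P.y j p.2) := by
    intro p
    unfold L8P.Q
    rw [sq, Finset.sum_mul_sum]
    refine Finset.sum_congr rfl fun i _ => Finset.sum_congr rfl fun j _ => by ring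
  simp only [e]
  unfold L8P.B
  rw [integral_finsetSum _ fun i _ => integrable_finsetSum _ fun j _ => P.l8s_fork_int2_aux h k (hyy i j) (hyy i j),
    integral_finsetSum _ fun i _ => integrable_finsetSum _ fun j _ => ((P.l8s_E_bd h k (hyy i j)).pow 2).integrable _]
  refine Finset.sum_congr rfl fun i _ => ?_
  rw [integral_finsetSum _ fun j _ => P.l8s_fork_int2_aux h k (hyy i j) (hyy i j),
    integral_finsetSum _ fun j _ => ((P.l8s_E_bd h k (hyy i j)).pow 2).integrable _]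
  refine Finset.sum_congr rfl fun j _ => ?_
  rw [P.l8s_fork_prod h k (hyy i j) (hyy i j)]
  exact integral_congr_ae (ae_of_all _ fun ω => by ring)

theorem l8s_fork_var_Q (h : P.Ok) (k : ℕ) : ∫ p, (P.Q p - P.S k) ^ 2 ∂(P.fork k) = P.D2 k := by
  have := P.l8s_fork_prob h k
  obtain ⟨hQm, hQb⟩ := P.l8s_fork_Q_bd_aux h
  have i1 : Integrable P.Q (P.fork k) := P.l8s_fork_integrable_aux h k hQm hQb
  have i2 : Integrable (fun p => P.Q p ^ 2) (P.fork k) :=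
    P.l8s_fork_integrable_aux h k (hQm.pow_const 2) (c := 1) (fun p => by
      rw [abs_pow]; exact pow_le_one₀ (abs_nonneg _) (hQb p))
  have e : ∀ p, (P.Q p - P.S k) ^ 2 = P.Q p ^ 2 - (2 * P.S k) * P.Q p + P.S k ^ 2 := fun p => by ring
  simp only [e]
  have i3 : Integrable (fun p => P.Q p ^ 2 - 2 * P.S k * P.Q p) (P.fork k) := i2.sub (i1.const_mul _)
  rw [integral_add i3 (integrable_const _), integral_sub i2 (i1.const_mul _),
    integral_const_mul, P.l8s_fork_Q h k, P.l8s_fork_Q_sq h k]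
  simp only [integral_const, probReal_univ, smul_eq_mul, one_mul]
  unfold L8P.D2
  ring


theorem l8s_nX_bd_aux (h : P.Ok) (k : ℕ) : L8Bd (P.nX k) :=
  L8Bd.sum _ fun i _ => (P.l8s_X_bd h k i).pow 2

theorem l8s_nX_meas_aux (h : P.Ok) (k : ℕ) : Measurable[P.ℱ k] (P.nX k) := by
  unfold L8P.nX
  exact Finset.measurable_sum _ fun i _ => ((P.l8s_X_sm h k i).measurable).pow_const 2

/-- ABS5 of 228: alias identities -/
theorem l8s_fork_alias_Q (h : P.Ok) (k : ℕ) :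
    ∫ p, (P.Q p - P.nX k p.1) ^ 2 ∂(P.fork k) = 2 * ∫ ω, P.xCx k ω ∂P.μ + ∫ ω, P.trC2 k ω ∂P.μ := by
  have := h.prob
  have := P.l8s_fork_prob h k
  obtain ⟨hQm, hQb⟩ := P.l8s_fork_Q_bd_aux h
  have hn := P.l8s_nX_bd_aux h k
  have hnm := P.l8s_nX_meas_aux h k
  have i2 : Integrable (fun p => P.Q p ^ 2) (P.fork k) :=
    P.l8s_fork_integrable_aux h k (hQm.pow_const 2) (c := 1) (fun p => by
      rw [abs_pow]; exact pow_le_one₀ (abs_nonneg _) (hQb p))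
  -- the cross term
  have hyn : ∀ i, L8Bd (fun ω => P.nX k ω * P.y i ω) := fun i => hn.mul (P.l8s_y_bd h i)
  have ecross : ∀ p : Ω × Ω, P.Q p * P.nX k p.1 = ∑ i, (P.nX k p.1 * P.y i p.1) * P.y i p.2 := by
    intro p
    unfold L8P.Q
    rw [Finset.sum_mul]
    exact Finset.sum_congr rfl fun i _ => by ring
  have icross : Integrable (fun p : Ω × Ω => P.Q p * P.nX k p.1) (P.fork k) := by
    simp only [ecross]
    exact integrable_finsetSum _ fun i _ => P.l8s_fork_int2_aux h k (hyn i) (P.l8s_y_bd h i)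
  have hcross : ∫ p, P.Q p * P.nX k p.1 ∂(P.fork k) = ∫ ω, P.nX k ω ^ 2 ∂P.μ := by
    simp only [ecross]
    rw [integral_finsetSum _ fun i _ => P.l8s_fork_int2_aux h k (hyn i) (P.l8s_y_bd h i)]
    have e1 : ∀ i, ∫ p : Ω × Ω, (P.nX k p.1 * P.y i p.1) * P.y i p.2 ∂(P.fork k)
        = ∫ ω, P.nX k ω * P.X k i ω ^ 2 ∂P.μ := by
      intro i
      rw [P.l8s_fork_prod h k (hyn i) (P.l8s_y_bd h i)]
      refine integral_congr_ae (ae_of_all _ fun ω => ?_)
      simp only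
      rw [P.l8s_E_pull h k hnm ω]
      simp only [L8P.X]; ring
    simp only [e1]
    rw [← integral_finsetSum _ fun i _ => (hn.mul ((P.l8s_X_bd h k i).pow 2)).integrable _]
    refine integral_congr_ae (ae_of_all _ fun ω => ?_)
    simp only
    rw [← Finset.mul_sum, sq]
    rfl
  have isq : Integrable (fun p : Ω × Ω => P.nX k p.1 ^ 2) (P.fork k) := by
    have := P.l8s_fork_int2_aux h k (hn.pow 2) (l8Bd_const (Ω := Ω) 1)
    simpa using this
  have hsq : ∫ p : Ω × Ω, P.nX k p.1 ^ 2 ∂(P.fork k) = ∫ ω, P.nX k ω ^ 2 ∂P.μ := by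
    have h1 := P.l8s_fork_prod h k (hn.pow 2) (l8Bd_const (Ω := Ω) 1)
    simp only [mul_one] at h1
    rw [h1]
    refine integral_congr_ae (ae_of_all _ fun ω => ?_)
    simp only
    rw [P.l8s_E_const h k 1 ω, mul_one, P.l8s_E_self h k (hnm.pow_const 2) ω]
  have e : ∀ p : Ω × Ω, (P.Q p - P.nX k p.1) ^ 2 = P.Q p ^ 2 - 2 * (P.Q p * P.nX k p.1) + P.nX k p.1 ^ 2 := fun p => by ring
  simp only [e]
  have i3 : Integrable (fun p : Ω × Ω => P.Q p ^ 2 - 2 * (P.Q p * P.nX k p.1)) (P.fork k) := i2.sub (icross.const_mul _)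
  rw [integral_add i3 isq, integral_sub i2 (icross.const_mul _), integral_const_mul, hcross, hsq, P.l8s_fork_Q_sq h k]
  have hD := P.l8s_D2_eq h k
  have e2 : ∫ ω, (P.nX k ω - P.S k) ^ 2 ∂P.μ = ∫ ω, P.nX k ω ^ 2 ∂P.μ - P.S k ^ 2 := by
    have e3 : ∀ ω, (P.nX k ω - P.S k) ^ 2 = P.nX k ω ^ 2 - (2 * P.S k) * P.nX k ω + P.S k ^ 2 := fun ω => by ring
    simp only [e3]
    have j1 : Integrable (fun ω => P.nX k ω ^ 2) P.μ := (hn.pow 2).integrable _
    have j2 : Integrable (fun ω => P.nX k ω) P.μ := hn.integrable _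
    have j3 : Integrable (fun ω => P.nX k ω ^ 2 - (2 * P.S k) * P.nX k ω) P.μ := j1.sub (j2.const_mul _)
    rw [integral_add j3 (integrable_const _), integral_sub j1 (j2.const_mul _), integral_const_mul]
    simp only [integral_const, probReal_univ, smul_eq_mul, one_mul]
    have : ∫ ω, P.nX k ω ∂P.μ = P.S k := rfl
    rw [this]; ring
  rw [e2] at hD
  unfold L8P.D2 at hD
  linarith

theorem l8s_alias_L (h : P.Ok) (k : ℕ) : ∫ ω, (2 * P.L k ω - P.nX k ω) ^ 2 ∂P.μ = 4 * ∫ ω, P.xCx k ω ∂P.μ := by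
  have := h.prob
  have hR : ∀ i, L8Bd (P.R k i) := fun i => (P.l8s_y_bd h i).sub (P.l8s_X_bd h k i)
  have e1 : ∀ ω, (2 * P.L k ω - P.nX k ω) ^ 2 = 4 * (∑ i, P.X k i ω * P.R k i ω) ^ 2 := by
    intro ω
    have : ∑ i, P.X k i ω * P.R k i ω = ∑ i, P.y i ω * P.X k i ω - P.nX k ω := by
      unfold L8P.R L8P.nX
      rw [← Finset.sum_sub_distrib]
      exact Finset.sum_congr rfl fun i _ => by ring
    rw [this]
    unfold L8P.L
    ring
  simp only [e1]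
  rw [integral_const_mul]
  congr 1
  have hb : L8Bd (fun ω => (∑ i, P.X k i ω * P.R k i ω) ^ 2) :=
    (L8Bd.sum _ fun i _ => (P.l8s_X_bd h k i).mul (hR i)).pow 2
  rw [← P.l8s_integral_E h k hb]
  refine integral_congr_ae (ae_of_all _ fun ω => ?_)
  have h2 : P.E k (fun ω' => (∑ i, P.X k i ω' * P.R k i ω') ^ 2) ω
      = P.E k (fun ω' => (∑ i, P.X k i ω * P.R k i ω') ^ 2) ω := by
    unfold L8P.E
    refine integral_congr_ae ?_
    have hall : ∀ᵐ ω' ∂(P.κ k ω), ∀ i, P.X k i ω' = P.X k i ω := by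
      rw [ae_all_iff]
      exact fun i => P.l8s_proper_ae h k (P.l8s_X_sm h k i).measurable ω
    filter_upwards [hall] with ω' hω'
    simp only [hω']
  rw [h2, ← P.l8s_C_quad h k (fun i => P.X k i ω) ω]
  rfl

/-- `W` as an average over the second branch -/
theorem l8s_W_eq_fork (h : P.Ok) (k : ℕ) (ω : Ω) :
    P.W k ω = ∫ ω', ∑ l ∈ Ico k (P.n + 1), P.v l * (∑ i, P.R k i ω * P.dX l i ω') ^ 2 ∂(P.κ k ω) :=
  P.l8s_H_quad h k (fun i => P.R k i ω) ω


theorem l8s_fork_inner_bd_aux (h : P.Ok) (k : ℕ) {F : Ω × Ω → ℝ} (hF : Measurable F) {c : ℝ} (hc : ∀ p, |F p| ≤ c) :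
    L8Bd (fun ω => ∫ ω', F (ω, ω') ∂(P.κ k ω)) := by
  have := h.markov k
  refine ⟨(StronglyMeasurable.integral_kernel_prod_right' (κ := P.κ k) hF.stronglyMeasurable).measurable, c, fun ω => ?_⟩
  have h1 := norm_integral_le_of_norm_le_const (μ := P.κ k ω) (f := fun ω' => F (ω, ω')) (C := c)
    (ae_of_all _ fun x => by simpa [Real.norm_eq_abs] using hc (ω, x))
  simpa [Real.norm_eq_abs] using h1

/-- **(A3) on the fork**: the projected branch is the SECOND one; the anchor `V` sees the whole first branch and the prefix of the second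
at the cut `k₁ ≥ k`.  (For the first branch: `l8s_fork_swap`.) -/
theorem l8s_fork_proj (h : P.Ok) {r : ℕ} {c vmin hmin : ℝ} (hp : P.Proj r c vmin hmin) {k k₁ k₂ : ℕ} (hk : k ≤ k₁) (h12 : k₁ < k₂)
    (h2 : k₂ ≤ P.n + 1) (hv : vmin ≤ P.v k₁) (hh : hmin ≤ P.hlen k₁ k₂) (V : Fin m → Ω × Ω → ℝ)
    (hV : ∀ i, Measurable[mΩ.prod (P.ℱ k₁)] (V i)) (hVb : ∀ i, ∃ c', ∀ p, |V i p| ≤ c') :
    ∫ p, (∑ i, V i p * P.R k₂ i p.2) ^ (2 * r) ∂(P.fork k)
      ≤ c / (P.v k₁ ^ 2 * m * P.hlen k₁ k₂) ^ r * ∫ p, (∑ i, V i p ^ 2) ^ r ∂(P.fork k) := by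
  have := h.prob
  have := h.markov k
  set D : ℝ := (P.v k₁ ^ 2 * m * P.hlen k₁ k₂) ^ r with hD
  have hR : ∀ i, L8Bd (P.R k₂ i) := fun i => (P.l8s_y_bd h i).sub (P.l8s_X_bd h k₂ i)
  have hVm : ∀ i, Measurable (V i) := fun i =>
    (hV i).mono (sup_le_sup le_rfl (MeasurableSpace.comap_mono (P.ℱ.le k₁))) le_rfl
  have hVs : ∀ i ω, Measurable[P.ℱ k₁] (fun ω' => V i (ω, ω')) := fun i ω =>
    @Measurable.comp Ω (Ω × Ω) ℝ (P.ℱ k₁) (mΩ.prod (P.ℱ k₁)) _ (V i) (fun ω' => (ω, ω')) (hV i)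
      (@measurable_prodMk_left Ω Ω mΩ (P.ℱ k₁) ω)
  -- the two integrands are bounded measurable on the product
  have hVB : ∀ i, @L8Bd (Ω × Ω) _ (V i) := fun i => ⟨hVm i, hVb i⟩
  have hRB : ∀ i, @L8Bd (Ω × Ω) _ (fun p => P.R k₂ i p.2) := fun i =>
    ⟨(hR i).1.comp measurable_snd, (hR i).2.choose, fun p => (hR i).2.choose_spec p.2⟩
  have hG : @L8Bd (Ω × Ω) _ (fun p => (∑ i, V i p * P.R k₂ i p.2) ^ (2 * r)) :=
    (L8Bd.sum _ fun i _ => (hVB i).mul (hRB i)).pow _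
  have hG2 : @L8Bd (Ω × Ω) _ (fun p => (∑ i, V i p ^ 2) ^ r) :=
    (L8Bd.sum _ fun i _ => (hVB i).pow 2).pow _
  obtain ⟨hGm, cG, hGc⟩ := hG
  obtain ⟨hG2m, cG2, hG2c⟩ := hG2
  rw [P.l8s_fork_integral h k hGm hGc, P.l8s_fork_integral h k hG2m hG2c, ← integral_const_mul]
  refine integral_mono ((P.l8s_fork_inner_bd_aux h k hGm hGc).integrable _)
    (((P.l8s_fork_inner_bd_aux h k hG2m hG2c).const_mul _).integrable _) fun ω => ?_
  simp only
  -- fixed first branch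
  have hg : L8Bd (fun ω' => (∑ i, V i (ω, ω') * P.R k₂ i ω') ^ (2 * r)) :=
    ⟨hGm.comp measurable_prodMk_left, cG, fun ω' => hGc (ω, ω')⟩
  have hg2 : L8Bd (fun ω' => (∑ i, V i (ω, ω') ^ 2) ^ r) :=
    ⟨hG2m.comp measurable_prodMk_left, cG2, fun ω' => hG2c (ω, ω')⟩
  have t1 := P.l8s_E_tower h hk hg ω
  have t2 : ∀ ω'', P.E k₁ (fun ω' => (∑ i, V i (ω, ω') * P.R k₂ i ω') ^ (2 * r)) ω''
      ≤ c / D * (∑ i, V i (ω, ω'') ^ 2) ^ r := by
    intro ω''
    have e1 : P.E k₁ (fun ω' => (∑ i, V i (ω, ω') * P.R k₂ i ω') ^ (2 * r)) ω''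
        = ∫ ω', (∑ i, V i (ω, ω'') * P.R k₂ i ω') ^ (2 * r) ∂(P.κ k₁ ω'') := by
      unfold L8P.E
      refine integral_congr_ae ?_
      have hall : ∀ᵐ ω' ∂(P.κ k₁ ω''), ∀ i, V i (ω, ω') = V i (ω, ω'') := by
        rw [ae_all_iff]
        exact fun i => P.l8s_proper_ae h k₁ (hVs i ω) ω''
      filter_upwards [hall] with ω' hω'
      simp only [hω']
    rw [e1]
    have := hp k₁ k₂ h12 h2 hv hh ω'' (fun i => V i (ω, ω''))
    calc _ ≤ c * (∑ i, V i (ω, ω'') ^ 2) ^ r / D := this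
      _ = c / D * (∑ i, V i (ω, ω'') ^ 2) ^ r := by ring
  have t3 : P.E k (P.E k₁ (fun ω' => (∑ i, V i (ω, ω') * P.R k₂ i ω') ^ (2 * r))) ω
      ≤ P.E k (fun ω'' => c / D * (∑ i, V i (ω, ω'') ^ 2) ^ r) ω :=
    P.l8s_E_mono h k (P.l8s_E_bd h k₁ hg) (hg2.const_mul _) t2 ω
  rw [t1, P.l8s_E_const_mul] at t3
  exact t3

/-- conditional form for increments (conditional Jensen): `X_(k₃) - X_(k₂)` instead of `y - X_(k₂)` -/
theorem l8s_proj_incr (h : P.Ok) {r : ℕ} {c vmin hmin : ℝ} (hp : P.Proj r c vmin hmin) {k₁ k₂ k₃ : ℕ} (h12 : k₁ < k₂) (h23 : k₂ ≤ k₃)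
    (h2 : k₂ ≤ P.n + 1) (hv : vmin ≤ P.v k₁) (hh : hmin ≤ P.hlen k₁ k₂) (ω : Ω) (u : Fin m → ℝ) :
    ∫ ω', (∑ i, u i * P.XX k₂ k₃ i ω') ^ (2 * r) ∂(P.κ k₁ ω)
      ≤ c * (∑ i, u i ^ 2) ^ r / (P.v k₁ ^ 2 * m * P.hlen k₁ k₂) ^ r := by
  have hR : ∀ i, L8Bd (P.R k₂ i) := fun i => (P.l8s_y_bd h i).sub (P.l8s_X_bd h k₂ i)
  have hf : L8Bd (fun ω' => ∑ i, u i * P.R k₂ i ω') := L8Bd.sum _ fun i _ => (hR i).const_mul _
  have e1 : ∀ ω', ∑ i, u i * P.XX k₂ k₃ i ω' = P.E k₃ (fun ω'' => ∑ i, u i * P.R k₂ i ω'') ω' := by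
    intro ω'
    rw [P.l8s_E_sum h k₃ _ fun i _ => (hR i).const_mul _]
    refine Finset.sum_congr rfl fun i _ => ?_
    rw [P.l8s_E_const_mul]
    congr 1
    have : P.E k₃ (P.R k₂ i) ω' = P.E k₃ (P.y i) ω' - P.E k₃ (P.X k₂ i) ω' :=
      P.l8s_E_sub h k₃ (P.l8s_y_bd h i) (P.l8s_X_bd h k₂ i) ω'
    rw [this, P.l8s_E_self h k₃ ((P.l8s_X_sm h k₂ i).measurable.mono (P.ℱ.mono h23) le_rfl) ω']
    rfl
  have e2 : ∀ x : ℝ, x ^ (2 * r) = |x| ^ (2 * r) := fun x => by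
    rw [pow_mul, pow_mul, sq_abs]
  have s1 : ∀ ω', (∑ i, u i * P.XX k₂ k₃ i ω') ^ (2 * r)
      ≤ P.E k₃ (fun ω'' => |∑ i, u i * P.R k₂ i ω''| ^ (2 * r)) ω' := by
    intro ω'
    rw [e1 ω', e2]
    exact P.l8s_E_pow_le h k₃ hf (2 * r) ω'
  have hXX : ∀ i, L8Bd (P.XX k₂ k₃ i) := fun i => (P.l8s_X_bd h k₃ i).sub (P.l8s_X_bd h k₂ i)
  have hl : L8Bd (fun ω' => (∑ i, u i * P.XX k₂ k₃ i ω') ^ (2 * r)) :=
    (L8Bd.sum _ fun i _ => (hXX i).const_mul _).pow _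
  have s2 := P.l8s_E_mono h k₁ hl (P.l8s_E_bd h k₃ (hf.abs.pow (2 * r))) s1 ω
  rw [P.l8s_E_tower h (h12.le.trans h23) (hf.abs.pow (2 * r)) ω] at s2
  refine s2.trans ?_
  have := hp k₁ k₂ h12 h2 hv hh ω u
  simp only [← e2]
  exact this

end C


end L8P

end Claimed.Agent.R286
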