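-- KEEP
import Claimed.Agent.R286.L08.SPB
import Claimed.Agent.R286.Lib.MartW

/-!
# Row 286 (S0533), folder L08, file SPD : API of the abstract single path `L8P` (L08/SP.lean), part D (MART wrappers: LL Lemma 6.2 second half, Lemma 6.3; use Box/MartCore, Box/MartSq, Lib/MartKit through l8s_E_condExp)
STATEMENTS by helper75 (section head LL08); OWNER of the unit (glue, changes of statements, provers): helper22 (deputy).   Prefix `l8s_`.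
ALL PROOFS of this file: helper29 (15 Oct 03:40Z), 0 open leaves (uses SPA, the statements of SPB, and Lib/MartW of helper203).
A statement found false or awkward: one line to 22 + 75.   All facts are POINTWISE in `ω` (explicit kernels); constants are explicit and do not depend on `P`.
-/

set_option autoImplicit false

namespace Claimed.Agent.R286

open MeasureTheory ProbabilityTheory Finset
open scoped ENNReal

variable {Ω : Type} [mΩ : MeasurableSpace Ω] {m : ℕ}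

theorem L8Bd.memLp_aux {f : Ω → ℝ} (hf : L8Bd f) (ν : Measure Ω) [IsFiniteMeasure ν] (p : ℝ≥0∞) : MemLp f p ν := by
  obtain ⟨hm, c, hc⟩ := hf
  exact MemLp.of_bound hm.aestronglyMeasurable c (ae_of_all _ fun x => by simpa [Real.norm_eq_abs] using hc x)

theorem l8s_buffer_three_aux {a b c : ℝ} (ha : 0 ≤ a) (hb : 0 ≤ b) (hc : 0 ≤ c) (n : ℕ) :
    (a + b + c) ^ n ≤ 3 ^ n * (a ^ n + b ^ n + c ^ n) := by
  have h0 : 0 ≤ a ^ n := pow_nonneg ha n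
  have h1 : 0 ≤ b ^ n := pow_nonneg hb n
  have h2 : 0 ≤ c ^ n := pow_nonneg hc n
  have key : ∀ M : ℝ, 0 ≤ M → a ≤ M → b ≤ M → c ≤ M → M ^ n ≤ a ^ n + b ^ n + c ^ n →
      (a + b + c) ^ n ≤ 3 ^ n * (a ^ n + b ^ n + c ^ n) := by
    intro M hM h3 h4 h5 h6
    calc (a + b + c) ^ n ≤ (3 * M) ^ n := pow_le_pow_left₀ (by linarith) (by linarith) n
      _ = 3 ^ n * M ^ n := mul_pow _ _ _
      _ ≤ 3 ^ n * (a ^ n + b ^ n + c ^ n) := by gcongr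
  rcases le_total a b with hab | hab
  · rcases le_total b c with hbc | hbc
    · exact key c hc (hab.trans hbc) hbc le_rfl (by linarith)
    · exact key b hb hab le_rfl hbc (by linarith)
  · rcases le_total a c with hac | hac
    · exact key c hc hac (hab.trans hac) le_rfl (by linarith)
    · exact key a ha le_rfl hab hac (by linarith)

theorem l8s_buffer_num_aux {r : ℕ} (hr : 1 ≤ r) {η ε : ℝ} (hη : 0 ≤ η) (hε : 0 ≤ ε) :
    3 ^ (2 * r) * (2 ^ (2 * r) * ε ^ (2 * r) + 2 ^ (2 * r) * ε ^ (2 * r) + (2 * η) ^ (2 * r)) ≤ (16 * (η + ε)) ^ (2 * r) := by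
  have h1 : ε ^ (2 * r) ≤ (η + ε) ^ (2 * r) := pow_le_pow_left₀ hε (by linarith) _
  have h2 : η ^ (2 * r) ≤ (η + ε) ^ (2 * r) := pow_le_pow_left₀ hη (by linarith) _
  have h3 : (0:ℝ) ≤ (η + ε) ^ (2 * r) := by positivity
  have h4 : (3:ℝ) * 6 ^ (2 * r) ≤ 16 ^ (2 * r) := by
    have e1 : (6:ℝ) ^ (2 * r) = 36 ^ r := by rw [pow_mul]; norm_num
    have e2 : (16:ℝ) ^ (2 * r) = 256 ^ r := by rw [pow_mul]; norm_num
    rw [e1, e2]
    have e3 : (3:ℝ) ≤ 3 ^ r := by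
      calc (3:ℝ) = 3 ^ 1 := by norm_num
        _ ≤ 3 ^ r := pow_le_pow_right₀ (by norm_num) hr
    calc (3:ℝ) * 36 ^ r ≤ 3 ^ r * 36 ^ r := by gcongr
      _ = 108 ^ r := by rw [← mul_pow]; norm_num
      _ ≤ 256 ^ r := pow_le_pow_left₀ (by norm_num) (by norm_num) r
  calc 3 ^ (2 * r) * (2 ^ (2 * r) * ε ^ (2 * r) + 2 ^ (2 * r) * ε ^ (2 * r) + (2 * η) ^ (2 * r))
      = 6 ^ (2 * r) * (ε ^ (2 * r) + ε ^ (2 * r) + η ^ (2 * r)) := by
        rw [mul_pow 2 η, show (6:ℝ) = 3 * 2 by norm_num, mul_pow 3 2]; ring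
    _ ≤ 6 ^ (2 * r) * (3 * (η + ε) ^ (2 * r)) := by gcongr; linarith
    _ = (3 * 6 ^ (2 * r)) * (η + ε) ^ (2 * r) := by ring
    _ ≤ 16 ^ (2 * r) * (η + ε) ^ (2 * r) := by gcongr
    _ = (16 * (η + ε)) ^ (2 * r) := by rw [mul_pow]

namespace L8P

variable (P : L8P Ω m)

/-! ## D. MART wrappers (LL Lemma 6.2 second half, Lemma 6.3) -/
section D

theorem l8s_square_norm_aux (k l : ℕ) (ω : Ω) :
    ‖(WithLp.toLp 2 (fun i => P.X l i ω) : EuclideanSpace ℝ (Fin m)) - WithLp.toLp 2 (fun i => P.X k i ω)‖ ^ 2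
      = ∑ i, P.XX k l i ω ^ 2 := by
  rw [EuclideanSpace.norm_sq_eq]
  refine Finset.sum_congr rfl fun i _ => ?_
  simp [L8P.XX]

theorem l8s_square_norm0_aux (k : ℕ) (ω : Ω) :
    ‖(WithLp.toLp 2 (fun i => P.X k i ω) : EuclideanSpace ℝ (Fin m))‖ ^ 2 = P.nX k ω := by
  rw [EuclideanSpace.norm_sq_eq]
  refine Finset.sum_congr rfl fun i _ => ?_
  simp

theorem l8s_square_sm_aux (h : P.Ok) (k : ℕ) :
    StronglyMeasurable[P.ℱ k] (fun ω => (WithLp.toLp 2 (fun i => P.X k i ω) : EuclideanSpace ℝ (Fin m))) := by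
  have h1 : Measurable[P.ℱ k] (fun ω => (fun i => P.X k i ω : Fin m → ℝ)) :=
    @measurable_pi_lambda _ _ _ (P.ℱ k) _ _ fun i => (P.l8s_X_sm h k i).measurable
  have h2 : Measurable[P.ℱ k] (fun ω => (WithLp.toLp 2 (fun i => P.X k i ω) : EuclideanSpace ℝ (Fin m))) :=
    (WithLp.measurable_toLp 2 (Fin m → ℝ)).comp h1
  exact h2.stronglyMeasurable

theorem l8s_square_bound_aux (h : P.Ok) (k : ℕ) (ω : Ω) :
    ‖(WithLp.toLp 2 (fun i => P.X k i ω) : EuclideanSpace ℝ (Fin m))‖ ≤ 1 := by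
  have h1 := P.l8s_square_norm0_aux k ω
  have h2 := P.l8s_nX_le_one h k ω
  rw [← h1] at h2
  exact (sq_le_one_iff₀ (norm_nonneg _)).mp h2

theorem l8s_square_int_aux (h : P.Ok) (k : ℕ) :
    Integrable (fun ω => (WithLp.toLp 2 (fun i => P.X k i ω) : EuclideanSpace ℝ (Fin m))) P.μ := by
  have := h.prob
  exact Integrable.of_bound ((P.l8s_square_sm_aux h k).mono (P.ℱ.le k)).aestronglyMeasurable 1
    (ae_of_all _ fun ω => P.l8s_square_bound_aux h k ω)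

theorem l8s_square_mart_aux (h : P.Ok) (t : ℕ → ℕ) (ht : Monotone t) :
    Martingale (fun c ω => (WithLp.toLp 2 (fun i => P.X (t c) i ω) : EuclideanSpace ℝ (Fin m)))
      (⟨fun c => P.ℱ (t c), fun _ _ hab => P.ℱ.mono (ht hab), fun c => P.ℱ.le (t c)⟩ : Filtration ℕ mΩ) P.μ := by
  have := h.prob
  refine ⟨fun c => P.l8s_square_sm_aux h (t c), fun a b hab => ?_⟩
  symm
  refine ae_eq_condExp_of_forall_setIntegral_eq (P.ℱ.le (t a)) (P.l8s_square_int_aux h (t b))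
    (fun s _ _ => (P.l8s_square_int_aux h (t a)).integrableOn) (fun s hs _ => ?_)
    (P.l8s_square_sm_aux h (t a)).aestronglyMeasurable
  ext i
  have e : ∀ k, (∫ ω in s, (WithLp.toLp 2 (fun i => P.X k i ω) : EuclideanSpace ℝ (Fin m)) ∂P.μ) i
      = ∫ ω in s, P.X k i ω ∂P.μ := by
    intro k
    have := (EuclideanSpace.proj (𝕜 := ℝ) (ι := Fin m) i).integral_comp_comm
      (P.l8s_square_int_aux h k).integrableOn (μ := P.μ.restrict s)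
    simpa using this.symm
  rw [e, e]
  exact (P.l8s_X_martingale h i).setIntegral_eq (ht hab) hs

/-- square function along an increasing chain of cuts `t 0 ≤ .. ≤ t b`; EXPLICIT constant `(16 q)^q` (Garsia-Neveu with `U = 4 max |X - X_(t 0)|²`, Doob `L^(2q)`) -/
theorem l8s_square (h : P.Ok) (q : ℕ) (hq : 1 ≤ q) (b : ℕ) (t : ℕ → ℕ) (ht : Monotone t) :
    ∫ ω, (∑ c ∈ range b, ∑ i, P.XX (t c) (t (c + 1)) i ω ^ 2) ^ q ∂P.μ
      ≤ (16 * (q : ℝ)) ^ q * ∫ ω, (∑ i, P.XX (t 0) (t b) i ω ^ 2) ^ q ∂P.μ := by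
  have := h.prob
  have hq' : (1 : ℝ) ≤ (q : ℝ) := by exact_mod_cast hq
  have hM := P.l8s_square_mart_aux h t ht
  have hmem : MemLp (fun ω => (WithLp.toLp 2 (fun i => P.X (t b) i ω) : EuclideanSpace ℝ (Fin m))
      - WithLp.toLp 2 (fun i => P.X (t 0) i ω)) (ENNReal.ofReal (2 * (q : ℝ))) P.μ := by
    refine MemLp.of_bound (((P.l8s_square_int_aux h (t b)).sub (P.l8s_square_int_aux h (t 0))).aestronglyMeasurable) 2
      (ae_of_all _ fun ω => ?_)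
    calc _ ≤ ‖(WithLp.toLp 2 (fun i => P.X (t b) i ω) : EuclideanSpace ℝ (Fin m))‖
          + ‖(WithLp.toLp 2 (fun i => P.X (t 0) i ω) : EuclideanSpace ℝ (Fin m))‖ := norm_sub_le _ _
      _ ≤ 2 := by linarith [P.l8s_square_bound_aux h (t b) ω, P.l8s_square_bound_aux h (t 0) ω]
  have h1 := MT.mt_square_fn hM hq' b hmem
  simp only [Real.rpow_natCast, P.l8s_square_norm_aux] at h1
  exact h1


theorem l8s_grid_chain_aux (k₀ k₁ ℓ ρ : ℕ) :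
    Monotone (fun c : ℕ => if c = 0 then k₀ else min (k₀ + ρ + c * ℓ) (k₁ + 2 * ℓ)) ∨ k₁ < k₀ := by
  by_cases hk : k₀ ≤ k₁
  · left
    intro a b hab
    simp only
    by_cases ha : a = 0
    · by_cases hb : b = 0
      · simp [ha, hb]
      · simp only [ha, hb, if_true, if_false]
        exact le_min (by omega) (by omega)
    · have hb : b ≠ 0 := by omega
      simp only [ha, hb, if_false]
      have : a * ℓ ≤ b * ℓ := Nat.mul_le_mul_right ℓ hab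
      exact min_le_min (by omega) le_rfl
  · right; omega

/-- pointwise: the sum over one residue class is part of the square function along the chain of that class -/
theorem l8s_grid_class_aux (k₀ k₁ ℓ ρ : ℕ) (hℓ : 1 ≤ ℓ) (ω : Ω) :
    ∑ k ∈ (Ico k₀ k₁).filter (fun k => (k - k₀) % ℓ = ρ), ∑ i, P.XX (k + ℓ) (k + 2 * ℓ) i ω ^ 2
      ≤ ∑ c ∈ range (k₁ - k₀ + 2), ∑ i, P.XX ((fun c : ℕ => if c = 0 then k₀ else min (k₀ + ρ + c * ℓ) (k₁ + 2 * ℓ)) c)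
          ((fun c : ℕ => if c = 0 then k₀ else min (k₀ + ρ + c * ℓ) (k₁ + 2 * ℓ)) (c + 1)) i ω ^ 2 := by
  set t : ℕ → ℕ := fun c : ℕ => if c = 0 then k₀ else min (k₀ + ρ + c * ℓ) (k₁ + 2 * ℓ) with ht
  set F := (Ico k₀ k₁).filter (fun k => (k - k₀) % ℓ = ρ) with hF
  have hdecomp : ∀ k ∈ F, k = k₀ + ρ + ((k - k₀) / ℓ) * ℓ ∧ k < k₁ ∧ k₀ ≤ k := by
    intro k hk
    rw [hF, Finset.mem_filter, Finset.mem_Ico] at hk
    obtain ⟨⟨h1, h2⟩, h3⟩ := hk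
    have := Nat.div_add_mod (k - k₀) ℓ
    rw [h3, mul_comm] at this
    exact ⟨by omega, h2, h1⟩
  have e1 : ∀ k ∈ F, ∑ i, P.XX (k + ℓ) (k + 2 * ℓ) i ω ^ 2
      = (fun c => ∑ i, P.XX (t c) (t (c + 1)) i ω ^ 2) ((k - k₀) / ℓ + 1) := by
    intro k hk
    obtain ⟨h1, h2, h3⟩ := hdecomp k hk
    set j := (k - k₀) / ℓ with hj
    have t1 : t (j + 1) = k + ℓ := by
      simp only [ht, Nat.add_eq_zero_iff, one_ne_zero, and_false, if_false]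
      have : (j + 1) * ℓ = j * ℓ + ℓ := by ring
      rw [this, min_eq_left (by omega)]
      omega
    have t2 : t (j + 1 + 1) = k + 2 * ℓ := by
      simp only [ht, Nat.add_eq_zero_iff, one_ne_zero, and_false, if_false]
      have : (j + 1 + 1) * ℓ = j * ℓ + 2 * ℓ := by ring
      rw [this, min_eq_left (by omega)]
      omega
    simp only [t1, t2]
  rw [Finset.sum_congr rfl e1]
  have hinj : Set.InjOn (fun k => (k - k₀) / ℓ + 1) (F : Set ℕ) := by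
    intro a ha b hb hab
    simp only [add_left_inj] at hab
    have h1 := (hdecomp a ha).1
    have h2 := (hdecomp b hb).1
    rw [hab] at h1
    omega
  rw [← Finset.sum_image (f := fun c => ∑ i, P.XX (t c) (t (c + 1)) i ω ^ 2) hinj]
  refine Finset.sum_le_sum_of_subset_of_nonneg ?_ fun c _ _ => Finset.sum_nonneg fun i _ => sq_nonneg _
  intro c hc
  rw [Finset.mem_image] at hc
  obtain ⟨k, hk, rfl⟩ := hc
  obtain ⟨h1, h2, h3⟩ := hdecomp k hk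
  rw [Finset.mem_range]
  have : (k - k₀) / ℓ ≤ k - k₀ := Nat.div_le_self _ _
  omega

/-- (global-grid) on a uniform index grid: increments of length `ℓ` started at distance `ℓ` after the cuts `k ∈ [k₀, k₁)` -/
theorem l8s_grid (h : P.Ok) (q : ℕ) (hq : 1 ≤ q) (k₀ k₁ ℓ : ℕ) (hℓ : 1 ≤ ℓ) (hk : k₀ ≤ k₁) :
    ∫ ω, (∑ k ∈ Ico k₀ k₁, ∑ i, P.XX (k + ℓ) (k + 2 * ℓ) i ω ^ 2) ^ q ∂P.μ
      ≤ (16 * (q : ℝ)) ^ q * (ℓ : ℝ) ^ q * ∫ ω, (∑ i, P.XX k₀ (k₁ + 2 * ℓ) i ω ^ 2) ^ q ∂P.μ := by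
  have := h.prob
  obtain ⟨n, rfl⟩ : ∃ n, q = n + 1 := ⟨q - 1, by omega⟩
  set t : ℕ → ℕ → ℕ := fun ρ c => if c = 0 then k₀ else min (k₀ + ρ + c * ℓ) (k₁ + 2 * ℓ) with ht
  set b := k₁ - k₀ + 2 with hb
  set A : ℕ → Ω → ℝ := fun ρ ω => ∑ c ∈ range b, ∑ i, P.XX (t ρ c) (t ρ (c + 1)) i ω ^ 2 with hA
  have hXX : ∀ a c i, L8Bd (P.XX a c i) := fun a c i => (P.l8s_X_bd h c i).sub (P.l8s_X_bd h a i)
  have hAb : ∀ ρ, L8Bd (A ρ) := fun ρ => L8Bd.sum _ fun c _ => L8Bd.sum _ fun i _ => (hXX _ _ i).pow 2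
  have hA0 : ∀ ρ ω, 0 ≤ A ρ ω := fun ρ ω => Finset.sum_nonneg fun c _ => Finset.sum_nonneg fun i _ => sq_nonneg _
  have hmono : ∀ ρ, Monotone (t ρ) := fun ρ => (l8s_grid_chain_aux k₀ k₁ ℓ ρ).resolve_right (by omega)
  have ht0 : ∀ ρ, t ρ 0 = k₀ := fun ρ => by simp [ht]
  have htb : ∀ ρ, t ρ b = k₁ + 2 * ℓ := by
    intro ρ
    have hb0 : b ≠ 0 := by omega
    simp only [ht, hb0, if_false]
    refine min_eq_right ?_
    have h1 : b * ℓ = (k₁ - k₀) * ℓ + 2 * ℓ := by rw [hb]; ring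
    have h2 : k₁ - k₀ ≤ (k₁ - k₀) * ℓ := Nat.le_mul_of_pos_right _ hℓ
    omega
  have hsq : ∀ ρ, ∫ ω, A ρ ω ^ (n + 1) ∂P.μ
      ≤ (16 * ((n + 1 : ℕ) : ℝ)) ^ (n + 1) * ∫ ω, (∑ i, P.XX k₀ (k₁ + 2 * ℓ) i ω ^ 2) ^ (n + 1) ∂P.μ := by
    intro ρ
    have := P.l8s_square h (n + 1) hq b (t ρ) (hmono ρ)
    rw [ht0, htb] at this
    exact this
  have hpt : ∀ ω, (∑ k ∈ Ico k₀ k₁, ∑ i, P.XX (k + ℓ) (k + 2 * ℓ) i ω ^ 2) ^ (n + 1)
      ≤ (ℓ : ℝ) ^ n * ∑ ρ ∈ range ℓ, A ρ ω ^ (n + 1) := by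
    intro ω
    have h1 : ∑ k ∈ Ico k₀ k₁, ∑ i, P.XX (k + ℓ) (k + 2 * ℓ) i ω ^ 2 ≤ ∑ ρ ∈ range ℓ, A ρ ω := by
      rw [← Finset.sum_fiberwise_of_maps_to (s := Ico k₀ k₁) (t := range ℓ) (g := fun k => (k - k₀) % ℓ)
        (fun k _ => Finset.mem_range.mpr (Nat.mod_lt _ hℓ))]
      exact Finset.sum_le_sum fun ρ _ => P.l8s_grid_class_aux k₀ k₁ ℓ ρ hℓ ω
    have h2 := pow_sum_le_card_mul_sum_pow (s := range ℓ) (f := fun ρ => A ρ ω) (fun ρ _ => hA0 ρ ω) n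
    rw [Finset.card_range] at h2
    exact (pow_le_pow_left₀ (Finset.sum_nonneg fun k _ => Finset.sum_nonneg fun i _ => sq_nonneg _) h1 _).trans h2
  have hlb : L8Bd (fun ω => (∑ k ∈ Ico k₀ k₁, ∑ i, P.XX (k + ℓ) (k + 2 * ℓ) i ω ^ 2) ^ (n + 1)) :=
    (L8Bd.sum _ fun k _ => L8Bd.sum _ fun i _ => (hXX _ _ i).pow 2).pow _
  have hrb : L8Bd (fun ω => (ℓ : ℝ) ^ n * ∑ ρ ∈ range ℓ, A ρ ω ^ (n + 1)) :=
    (L8Bd.sum _ fun ρ _ => (hAb ρ).pow _).const_mul _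
  set R := ∫ ω, (∑ i, P.XX k₀ (k₁ + 2 * ℓ) i ω ^ 2) ^ (n + 1) ∂P.μ with hR
  calc ∫ ω, (∑ k ∈ Ico k₀ k₁, ∑ i, P.XX (k + ℓ) (k + 2 * ℓ) i ω ^ 2) ^ (n + 1) ∂P.μ
      ≤ ∫ ω, (ℓ : ℝ) ^ n * ∑ ρ ∈ range ℓ, A ρ ω ^ (n + 1) ∂P.μ := integral_mono (hlb.integrable _) (hrb.integrable _) hpt
    _ = (ℓ : ℝ) ^ n * ∑ ρ ∈ range ℓ, ∫ ω, A ρ ω ^ (n + 1) ∂P.μ := by
        rw [integral_const_mul, integral_finsetSum _ fun ρ _ => ((hAb ρ).pow _).integrable _]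
    _ ≤ (ℓ : ℝ) ^ n * ∑ _ρ ∈ range ℓ, (16 * ((n + 1 : ℕ) : ℝ)) ^ (n + 1) * R := by
        gcongr with ρ _
        exact hsq ρ
    _ = (16 * ((n + 1 : ℕ) : ℝ)) ^ (n + 1) * (ℓ : ℝ) ^ (n + 1) * R := by
        rw [Finset.sum_const, Finset.card_range, nsmul_eq_mul]; ring

/-- dual Doob: `V k ≥ 0` bounded, NOT adapted, weights `w k ≥ 0` -/
theorem l8s_dual_doob (h : P.Ok) (q : ℕ) (hq : 1 ≤ q) (N : ℕ) (w : ℕ → ℝ) (hw : ∀ k, 0 ≤ w k) (V : ℕ → Ω → ℝ) (hV : ∀ k, L8Bd (V k))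
    (hV0 : ∀ k ω, 0 ≤ V k ω) :
    ∫ ω, (∑ k ∈ range N, w k * P.E k (V k) ω) ^ q ∂P.μ ≤ (q : ℝ) ^ q * ∫ ω, (∑ k ∈ range N, w k * V k ω) ^ q ∂P.μ := by
  have := h.prob
  have hq' : (1 : ℝ) ≤ (q : ℝ) := by exact_mod_cast hq
  have hb : ∀ k, L8Bd (fun ω => w k * V k ω) := fun k => (hV k).const_mul _
  have h1 := MT.mt_dual_doob (μ := P.μ) P.ℱ hq' N (fun k ω => w k * V k ω)
    (fun k => ae_of_all _ fun ω => mul_nonneg (hw k) (hV0 k ω)) (fun k => (hb k).memLp_aux _ _)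
  simp only [Real.rpow_natCast] at h1
  refine le_trans (le_of_eq ?_) h1
  refine integral_congr_ae ?_
  have hall : ∀ᵐ ω ∂P.μ, ∀ k, P.E k (fun ω => w k * V k ω) ω = (P.μ[fun ω => w k * V k ω | P.ℱ k]) ω := by
    rw [ae_all_iff]
    exact fun k => P.l8s_E_condExp h k (hb k)
  filter_upwards [hall] with ω hω
  congr 1
  refine Finset.sum_congr rfl fun k _ => ?_
  rw [← hω k, P.l8s_E_const_mul]

theorem l8s_buffer_mean_aux (h : P.Ok) (s : Finset ℕ) (ρ : ℕ → ℝ) (Sbar η : ℝ) (h0 : ∀ l, 0 ≤ ρ l) (h1 : ∑ l ∈ s, ρ l = 1)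
    (hS : ∀ l ∈ s, ρ l ≠ 0 → |P.S l - Sbar| ≤ η) :
    |2 * ∫ ω', (∑ l ∈ s, ρ l * P.L l ω') ∂P.μ - Sbar| ≤ η := by
  have := h.prob
  rw [integral_finsetSum _ fun l _ => ((P.l8s_L_bd h l).const_mul _).integrable _]
  have e1 : 2 * ∑ l ∈ s, ∫ ω', ρ l * P.L l ω' ∂P.μ - Sbar = ∑ l ∈ s, ρ l * (P.S l - Sbar) := by
    have : ∀ l, ∫ ω', ρ l * P.L l ω' ∂P.μ = ρ l * (P.S l / 2) := by
      intro l
      rw [integral_const_mul, ← P.l8s_two_integral_L h l]; ring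
    simp only [this, mul_sub, Finset.sum_sub_distrib, ← Finset.sum_mul, h1, Finset.mul_sum]
    rw [one_mul]
    congr 1
    exact Finset.sum_congr rfl fun l _ => by ring
  rw [e1]
  calc |∑ l ∈ s, ρ l * (P.S l - Sbar)| ≤ ∑ l ∈ s, |ρ l * (P.S l - Sbar)| := Finset.abs_sum_le_sum_abs _ _
    _ ≤ ∑ l ∈ s, ρ l * η := by
        refine Finset.sum_le_sum fun l hl => ?_
        rw [abs_mul, abs_of_nonneg (h0 l)]
        by_cases hz : ρ l = 0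
        · simp [hz]
        · exact mul_le_mul_of_nonneg_left (hS l hl hz) (h0 l)
    _ = η := by rw [← Finset.sum_mul, h1, one_mul]

/-- buffer brackets (LL Lemma 6.3), weights `ρm` on cuts `≤ k`, `ρp` on cuts `≥ k`, both of total mass one; EXPLICIT constant 16 -/
theorem l8s_buffer (h : P.Ok) (r : ℕ) (hr : 1 ≤ r) (k : ℕ) (sm sp : Finset ℕ) (ρm ρp : ℕ → ℝ) (Sbar η ε : ℝ)
    (hsm : ∀ l ∈ sm, l ≤ k) (hsp : ∀ l ∈ sp, k ≤ l) (hm0 : ∀ l, 0 ≤ ρm l) (hp0 : ∀ l, 0 ≤ ρp l) (hm1 : ∑ l ∈ sm, ρm l = 1)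
    (hp1 : ∑ l ∈ sp, ρp l = 1) (hη : 0 ≤ η) (hε : 0 ≤ ε)
    (hSm : ∀ l ∈ sm, ρm l ≠ 0 → |P.S l - Sbar| ≤ η) (hSp : ∀ l ∈ sp, ρp l ≠ 0 → |P.S l - Sbar| ≤ η)
    (hAm : ∫ ω, ((∑ l ∈ sm, ρm l * P.L l ω) - ∫ ω', (∑ l ∈ sm, ρm l * P.L l ω') ∂P.μ) ^ (2 * r) ∂P.μ ≤ ε ^ (2 * r))
    (hAp : ∫ ω, ((∑ l ∈ sp, ρp l * P.L l ω) - ∫ ω', (∑ l ∈ sp, ρp l * P.L l ω') ∂P.μ) ^ (2 * r) ∂P.μ ≤ ε ^ (2 * r)) :
    ∫ ω, (P.nX k ω - Sbar) ^ (2 * r) ∂P.μ ≤ (16 * (η + ε)) ^ (2 * r) ∧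
    ∫ ω, (∑ l ∈ sm, ρm l * ∑ i, P.XX l k i ω ^ 2) ^ (2 * r) ∂P.μ ≤ (16 * (η + ε)) ^ (2 * r) := by
  have := h.prob
  set am : ℝ := ∫ ω', (∑ l ∈ sm, ρm l * P.L l ω') ∂P.μ with ham
  set ap : ℝ := ∫ ω', (∑ l ∈ sp, ρp l * P.L l ω') ∂P.μ with hap
  have hbm : L8Bd (fun ω => ∑ l ∈ sm, ρm l * P.L l ω) := L8Bd.sum _ fun l _ => (P.l8s_L_bd h l).const_mul _
  have hbp : L8Bd (fun ω => ∑ l ∈ sp, ρp l * P.L l ω) := L8Bd.sum _ fun l _ => (P.l8s_L_bd h l).const_mul _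
  have hcm : L8Bd (fun ω => (∑ l ∈ sm, ρm l * P.L l ω) - am) := hbm.sub (l8Bd_const am)
  have hcp : L8Bd (fun ω => (∑ l ∈ sp, ρp l * P.L l ω) - ap) := hbp.sub (l8Bd_const ap)
  set Cm : Ω → ℝ := P.E k (fun ω => (∑ l ∈ sm, ρm l * P.L l ω) - am) with hCm
  set Cp : Ω → ℝ := P.E k (fun ω => (∑ l ∈ sp, ρp l * P.L l ω) - ap) with hCp
  have hCmb : L8Bd Cm := P.l8s_E_bd h k hcm
  have hCpb : L8Bd Cp := P.l8s_E_bd h k hcp
  have hmm := P.l8s_buffer_mean_aux h sm ρm Sbar η hm0 hm1 hSm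
  have hmp := P.l8s_buffer_mean_aux h sp ρp Sbar η hp0 hp1 hSp
  rw [← ham] at hmm
  rw [← hap] at hmp
  -- pointwise identities
  have e1 : ∀ ω, 2 * Cm ω = P.nX k ω - (∑ l ∈ sm, ρm l * ∑ i, P.XX l k i ω ^ 2) - 2 * am := by
    intro ω
    rw [hCm, P.l8s_E_sub h k hbm (l8Bd_const am), P.l8s_E_const h k am ω,
      P.l8s_E_sum h k _ fun l _ => (P.l8s_L_bd h l).const_mul _]
    have : ∀ l ∈ sm, P.E k (fun ω' => ρm l * P.L l ω') ω = ρm l * ((P.nX k ω - ∑ i, P.XX l k i ω ^ 2) / 2) := by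
      intro l hl
      rw [P.l8s_E_const_mul, ← P.l8s_E_L_past h (hsm l hl) ω]; ring
    rw [Finset.sum_congr rfl this]
    have e : ∑ l ∈ sm, ρm l * ((P.nX k ω - ∑ i, P.XX l k i ω ^ 2) / 2)
        = ((∑ l ∈ sm, ρm l) * P.nX k ω - ∑ l ∈ sm, ρm l * ∑ i, P.XX l k i ω ^ 2) / 2 := by
      rw [Finset.sum_mul, ← Finset.sum_sub_distrib, Finset.sum_div]
      exact Finset.sum_congr rfl fun l _ => by ring
    rw [e, hm1]; ring
  have e2 : ∀ ω, P.nX k ω - 2 * ap ≤ 2 * Cp ω := by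
    intro ω
    rw [hCp, P.l8s_E_sub h k hbp (l8Bd_const ap), P.l8s_E_const h k ap ω,
      P.l8s_E_sum h k _ fun l _ => (P.l8s_L_bd h l).const_mul _]
    have : ∀ l ∈ sp, ρp l * (P.nX k ω / 2) ≤ P.E k (fun ω' => ρp l * P.L l ω') ω := by
      intro l hl
      rw [P.l8s_E_const_mul]
      refine mul_le_mul_of_nonneg_left ?_ (hp0 l)
      have h1 := P.l8s_E_L_future h (hsp l hl) ω
      have h2 := P.l8s_nX_le_E h (hsp l hl) ω
      linarith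
    have h3 := Finset.sum_le_sum this
    rw [← Finset.sum_mul, hp1] at h3
    linarith
  have hG0 : ∀ ω, 0 ≤ ∑ l ∈ sm, ρm l * ∑ i, P.XX l k i ω ^ 2 := fun ω =>
    Finset.sum_nonneg fun l _ => mul_nonneg (hm0 l) (Finset.sum_nonneg fun i _ => sq_nonneg _)
  -- the common majorant
  have hT : ∫ ω, (2 * |Cp ω| + 2 * |Cm ω| + 2 * η) ^ (2 * r) ∂P.μ ≤ (16 * (η + ε)) ^ (2 * r) := by
    have i1 : ∫ ω, |Cp ω| ^ (2 * r) ∂P.μ ≤ ε ^ (2 * r) := by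
      refine (P.l8s_integral_E_pow_le h k hcp (2 * r)).trans (le_trans (le_of_eq ?_) hAp)
      refine integral_congr_ae (ae_of_all _ fun ω => ?_)
      simp only
      rw [pow_mul, pow_mul, sq_abs]
    have i2 : ∫ ω, |Cm ω| ^ (2 * r) ∂P.μ ≤ ε ^ (2 * r) := by
      refine (P.l8s_integral_E_pow_le h k hcm (2 * r)).trans (le_trans (le_of_eq ?_) hAm)
      refine integral_congr_ae (ae_of_all _ fun ω => ?_)
      simp only
      rw [pow_mul, pow_mul, sq_abs]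
    have j1 : Integrable (fun ω => 2 ^ (2 * r) * |Cp ω| ^ (2 * r)) P.μ := ((hCpb.abs.pow _).const_mul _).integrable _
    have j2 : Integrable (fun ω => 2 ^ (2 * r) * |Cm ω| ^ (2 * r)) P.μ := ((hCmb.abs.pow _).const_mul _).integrable _
    have j12 : Integrable (fun ω => 2 ^ (2 * r) * |Cp ω| ^ (2 * r) + 2 ^ (2 * r) * |Cm ω| ^ (2 * r)) P.μ := j1.add j2
    have j3 : Integrable (fun ω => 2 ^ (2 * r) * |Cp ω| ^ (2 * r) + 2 ^ (2 * r) * |Cm ω| ^ (2 * r) + (2 * η) ^ (2 * r)) P.μ :=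
      j12.add (integrable_const _)
    calc ∫ ω, (2 * |Cp ω| + 2 * |Cm ω| + 2 * η) ^ (2 * r) ∂P.μ
        ≤ ∫ ω, 3 ^ (2 * r) * (2 ^ (2 * r) * |Cp ω| ^ (2 * r) + 2 ^ (2 * r) * |Cm ω| ^ (2 * r) + (2 * η) ^ (2 * r)) ∂P.μ := by
          refine integral_mono
            (((((hCpb.abs.const_mul 2).add (hCmb.abs.const_mul 2)).add (l8Bd_const (2 * η))).pow _).integrable _)
            (j3.const_mul _) fun ω => ?_
          have := l8s_buffer_three_aux (a := 2 * |Cp ω|) (b := 2 * |Cm ω|) (c := 2 * η) (by positivity) (by positivity)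
            (by positivity) (2 * r)
          simpa only [mul_pow] using this
      _ = 3 ^ (2 * r) * (2 ^ (2 * r) * ∫ ω, |Cp ω| ^ (2 * r) ∂P.μ + 2 ^ (2 * r) * ∫ ω, |Cm ω| ^ (2 * r) ∂P.μ + (2 * η) ^ (2 * r)) := by
          rw [integral_const_mul, integral_add j12 (integrable_const _), integral_add j1 j2, integral_const_mul,
            integral_const_mul]
          simp
      _ ≤ 3 ^ (2 * r) * (2 ^ (2 * r) * ε ^ (2 * r) + 2 ^ (2 * r) * ε ^ (2 * r) + (2 * η) ^ (2 * r)) := by gcongr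
      _ ≤ (16 * (η + ε)) ^ (2 * r) := l8s_buffer_num_aux hr hη hε
  have hTi : Integrable (fun ω => (2 * |Cp ω| + 2 * |Cm ω| + 2 * η) ^ (2 * r)) P.μ :=
    ((((hCpb.abs.const_mul 2).add (hCmb.abs.const_mul 2)).add (l8Bd_const (2 * η))).pow _).integrable _
  have hnXb : L8Bd (P.nX k) := L8Bd.sum _ fun i _ => (P.l8s_X_bd h k i).pow 2
  have hGb : L8Bd (fun ω => ∑ l ∈ sm, ρm l * ∑ i, P.XX l k i ω ^ 2) :=
    L8Bd.sum _ fun l _ => (L8Bd.sum _ fun i _ => ((P.l8s_X_bd h k i).sub (P.l8s_X_bd h l i)).pow 2).const_mul _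
  have hpow : ∀ x T : ℝ, |x| ≤ T → x ^ (2 * r) ≤ T ^ (2 * r) := by
    intro x T hxT
    calc x ^ (2 * r) = |x| ^ (2 * r) := by rw [pow_mul, pow_mul, sq_abs]
      _ ≤ T ^ (2 * r) := pow_le_pow_left₀ (abs_nonneg _) hxT _
  constructor
  · refine le_trans (integral_mono (((hnXb.sub (l8Bd_const Sbar)).pow _).integrable _) hTi fun ω => ?_) hT
    refine hpow _ _ ?_
    have a1 := e1 ω
    have a2 := e2 ω
    have a3 := hG0 ω
    have b1 := abs_le.mp hmm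
    have b2 := abs_le.mp hmp
    have c1 := le_abs_self (Cp ω)
    have c2 := neg_abs_le (Cm ω)
    have c3 := abs_nonneg (Cp ω)
    have c4 := abs_nonneg (Cm ω)
    rw [abs_le]
    constructor <;> linarith [b1.1, b1.2, b2.1, b2.2]
  · refine le_trans (integral_mono ((hGb.pow _).integrable _) hTi fun ω => ?_) hT
    refine hpow _ _ ?_
    have a1 := e1 ω
    have a2 := e2 ω
    have a3 := hG0 ω
    have b1 := abs_le.mp hmm
    have b2 := abs_le.mp hmp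
    have c1 := le_abs_self (Cp ω)
    have c2 := neg_abs_le (Cm ω)
    rw [abs_of_nonneg a3]
    linarith [b1.1, b1.2, b2.1, b2.2]

end D


end L8P

end Claimed.Agent.R286
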