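-- KEEP
import Claimed.Agent.R286.L08.SPI
import Claimed.Agent.R286.L09.Contract
import Claimed.Agent.R286.LL.Chain
import Claimed.Agent.R286.Defs.LLPar

/-!
# Row 286 (S0533), folder L08, file Defs : THE CONCRETE INSTANCE OF LL SECTION 8 AND THE STATEMENTS (D1)-(D15)      (owner helper75; names `L8In`, `l8*`, `L8x*`)

## PART 1. VOCABULARY of the exits of LL 08 (`Exit/D*.lean`) and of their consumers (LL 09 + 10).      FINE level = ONE CHAIN, the SAME objects as `L09/Contract.lean` (216) and `L02/Defs.lean` (93):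
an instance `I : L8In` = (`F`, `𝔹`, path point `p : LlPt`, sites `m`, tilt mass `s`, positions `Fs`);   `I.i9 : L9I`;   `I.LP = I.i9.P p : LlStp` the fine path;   `I.js` the tilt stage;   `I.X tl = I.i9.X tl p` the jet context.
* `I.P tl = llMv (none / some js) LP`   the matrix path of the ensemble `tl` (`false` = untilted);
* `I.sp tl : L8P (SkOm m) m`  **the single path** (`L08/SPI.lean`, 257) of the ensemble: random variables `X k, nX k, L k, W k, Q, QX k₁ k₂`, laws `μ`, `fork k`;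
* CUT `k` = after `k` revelations = a pair which SHARES `k` STAGES, `0 ≤ k ≤ I.n`;  `I.v k` = mass of the stage `k` (`a` for `k ≥ n`) = RIGHT end of the mass cell of the cut `k`;  `I.dv k` = length of that cell:
  `∫ g(v) dv := ∑ k ∈ range (I.n + 1), I.dv k * g k`;   ACTIVE cuts of the tilted ensemble: `I.js < k` (`= llMk`);
* `I.q k = llQs a LP k = X.qC k` reference overlap ON THE CHAIN,  `I.d k = X.dC k = h - K + b q`,  `I.dd k` its derivative in the path parameter (`log λ` direct, `θ` size) at fixed stage;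
* `I.S k`, `I.B k`, `I.D2 k` = UNTILTED statistics,  `I.f k = S - q`,  `I.A k = B - 2 q S + q²`;
* scales `x, lam, lam1, U`;  majorants ON THE CHAIN (finite sums: measurability in `(γ, parameter)` is elementary; (D1) holds by definition): `I.Z = 1 + (bud/U⁴)^(1/4)`, `I.Y = U Z`, capped `I.Zc δ`, `I.Zg c`;
  **`l8Mj c : L9Mj`** = THE concrete majorants of `L09/Contract.lean`.
SHAPE of an exit: `L8Ev` (constants, then `N ≥ N0` and `s`, then all sufficiently fine chains, then ALL points/sizes: uniform in `γ, λ, θ, m`; the consumers integrate in `γ` and in the path parameter on ONE chain).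

## PART 2. THE STATEMENTS, non-asymptotic form.      ONE envelope `e : ℕ → ℝ` (value at the cut `k`), ONE loss factor `A` (`= C x^(-ε)`: this is `≲_⋄`; the geometric slack is chosen by the PROVER after `ε`, the moment order `pm`
and the degree `jm`: `∃ e` stands AFTER them).   Parameters which unify the direct path and the LOW-REGION variant of a size path: `Y` (`I.Y`, resp. capped `I.Yc δ_*`), `Zh` (`I.Z`, resp. `1`), `vt` (top of the refined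
region: `I.a`, resp. a small fixed mass), `vp` (top of Cor. 8.7).
* `I.Env` deterministic part of Prop. 8.1 / Lemma 8.2;   `I.Num` (D1), last lines of (D7), (D9): UNTILTED numbers;   `I.D8`;
* `I.Rnd tl` everything random in the ensemble `tl` (tilted: ACTIVE cuts; `S`, `q`, `e` and the centring constants stay UNTILTED): (D2) raw + refined for `|X|²`, `2L`, terminal and projected `Q`; (D7) lines 1, 2; (D9); (D10) + low linear; Cor. 8.7.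
* norms: `‖g‖_{2r} ≤ B` is written `I.mo tl r g ≤ B^(2r)`  (integrability: bounded measurable, L08/SPA).

## PART 3. EXIT FORMS (`def L8x.. : Prop`; theorems `exit_..` in `R286/Exit/D*.lean`): `L8xZ` (= `L9Mom`), `L8xDir` (D1)-(D10) direct, `L8xLow` low-region variant + cap, `L8xD11`, `L8xD15`, `L8xCS` (= `L9Coarse`, `L9Switch`).
(D16) + Remark 8.13: `Exit/D16` (234, 57).      LEGAL PREFIX (ruling M2 of 224; `pB.cG` is only a number): every exit which rests on (C1), (C2) starts with `∀ pB : LLParB, LlcStB 𝔹 F0 pB →`.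
-/

set_option autoImplicit false

namespace Claimed.Agent.R286

open MeasureTheory Set Filter Finset

noncomputable section

/-! ## PART 1 -/

/-- one instance of LL Section 8 on one chain -/
structure L8In where
  F : LlFix
  𝔹 : LlBase
  p : LlPt
  m : ℕ
  s : ℝ
  Fs : Finset GhPos

namespace L8In

variable (I : L8In)

/-- the instance of LL 09 -/
def i9 : L9I := ⟨I.F, I.𝔹, I.s, I.Fs, I.m⟩
/-- terminal mass -/
def a : ℝ := I.p.a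
/-- the fine path -/
def LP : LlStp := I.i9.P I.p
/-- the tilt stage -/
def js : ℕ := I.i9.js I.p
/-- the jet context of the ensemble -/
def X (tl : Bool) : JtCtx (SkCfg I.m) := I.i9.X tl I.p
/-- untilted matrix path -/
def P0 : SkStp := llMat I.LP
/-- the matrix path of the ensemble -/
def P (tl : Bool) : SkStp := llMv (if tl then some I.js else none) I.LP
/-- **the single path of the ensemble `tl`** -/
def sp (tl : Bool) : L8P (SkOm I.m) I.m := skSP I.m I.a (I.P tl)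
/-- number of revelations -/
def n : ℕ := I.LP.length
/-- mass of the stage `k` (`a` for `k ≥ n`) -/
def v (k : ℕ) : ℝ := skMs I.a I.P0 k
/-- length in mass of the cell of the cut `k` -/
def dv (k : ℕ) : ℝ := skGap I.a I.P0 k
/-- cumulative clocks at the cut `k` -/
def bC (k : ℕ) : ℝ := skCumB I.P0 k
def hC (k : ℕ) : ℝ := skCumH I.P0 k
def KC (k : ℕ) : ℝ := llCumK I.LP k
/-- reference overlap at the cut `k`, on the chain (`= X.qC k`) -/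
def q (k : ℕ) : ℝ := llQs I.a I.LP k
/-- untilted statistics -/
def S (k : ℕ) : ℝ := obS I.m I.a I.P0 0 k
def B (k : ℕ) : ℝ := obB I.m I.a I.P0 0 k
def D2 (k : ℕ) : ℝ := obD2 I.m I.a I.P0 0 k
def f (k : ℕ) : ℝ := I.S k - I.q k
/-- `A = B - 2 q S + q² = D² + f²` -/
def A (k : ℕ) : ℝ := I.B k - 2 * I.q k * I.S k + I.q k ^ 2
/-- field defect `d = h - K + b q` at the cut `k` (`= X.dC k`) -/
def d (k : ℕ) : ℝ := I.hC k - I.KC k + I.bC k * I.q k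
/-- dotted defect: `∂_(log λ)` on a direct path, `∂_θ` on a size path, at a fixed stage of the chain -/
def dd (k : ℕ) : ℝ :=
  if I.p.sm then deriv (fun θ => L8In.d { I with p := I.p.wTh θ } k) (6 * Real.log I.p.ell)
  else deriv (fun L => L8In.d { I with p := I.p.wLam L } k) (Real.log I.p.lam)

/-- mass integral over the cuts with mass in `[lo, hi]` -/
def int (lo hi : ℝ) (g : ℕ → ℝ) : ℝ := ∑ k ∈ (range (I.n + 1)).filter (fun k => lo ≤ I.v k ∧ I.v k ≤ hi), I.dv k * g k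
/-- the band `v ≍ r` : `[r, 2 r]` -/
def band (r : ℝ) (g : ℕ → ℝ) : ℝ := I.int r (2 * r) g

/-! ### scales -/
def x : ℝ := I.p.x
def lam : ℝ := I.p.lam
def lam1 : ℝ := I.p.lam1 I.F
def U : ℝ := I.p.U I.F
/-- dyadic masses `4 · 2^-j` -/
def dy (j : ℕ) : ℝ := 4 * (2 : ℝ)⁻¹ ^ j
/-- sum of the dyadic budgets of (C1), on the chain: `∑_{U ≤ u ≤ 4} u ∫_{u/4}^{4u} A_v dv` -/
def bud : ℝ := ∑ j ∈ range (I.p.N + 3), if I.U ≤ dy j then dy j * I.int (dy j / 4) (4 * dy j) I.A else 0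
/-- **the majorant** `Z = 1 + (bud / U⁴)^(1/4)` -/
def Z : ℝ := 1 + (I.bud / I.U ^ 4) ^ (1 / 4 : ℝ)
def Y : ℝ := I.U * I.Z
/-- capped majorant of Cor. statistics-cap (size paths), `δ = δ_*` -/
def Zc (δ : ℝ) : ℝ := min I.Z (I.x ^ (δ / 3) / I.U)
def Yc (δ : ℝ) : ℝ := I.U * I.Zc δ
/-- `Z_g = max(1, x^(-2-c/2) (∫ v² A_v dv)^(1/2))`, `c` = exponent of (C2) -/
def Zg (c : ℝ) : ℝ := max 1 (I.x ^ (-2 - c / 2) * Real.sqrt (I.int 0 I.a fun k => I.v k ^ 2 * I.A k))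
/-- `z_r^0 = x³ / (√λ₁ r³)` -/
def z0 (r : ℝ) : ℝ := I.x ^ 3 / (Real.sqrt I.lam1 * r ^ 3)
/-- `g_0 = λ^((3 s_* - 1 - η)/2)` -/
def g0 : ℝ := I.lam ^ ((3 * I.F.sS - 1 - I.F.eta) / 2)

/-- sizes of the dyad, tilt in the window -/
structure Ok : Prop where
  pt : I.p.Ok I.F
  m_lo : I.p.N ≤ 2 * I.m
  m_hi : I.m ≤ 3 * I.p.N
  s_pos : 0 < I.s
  s_lt : I.s < I.x

/-- the stop `K_m(s) ≤ 4 L` on the chain (the stop of `L09/Contract.lean`) -/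
def Stop (L : ℝ) : Prop := I.s * (I.m : ℝ) * I.i9.psi I.p I.m ≤ 4 * L

end L8In

/-- clamp of the strength and of the size coordinate to their ranges (P1): the identity at every `p.Ok F` (`l8_cl_eq`).   It makes the majorants measurable functions of ALL real values of the path parameter -/
def l8Cl (F : LlFix) (p : LlPt) : LlPt :=
  { p with lam := max (p.x ^ (12 : ℝ)) (min (p.x ^ F.pS) p.lam), ell := max 1 (min ((2 : ℝ) ^ (1 / 6 : ℝ)) p.ell) }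

/-- **THE concrete majorants of LL 09** (`L9Mj`, 216); `c` = the exponent of (C2) -/
def l8Mj (c : ℝ) : L9Mj where
  Z := fun F 𝔹 Fs p m => (L8In.mk F 𝔹 (l8Cl F p) m 0 Fs).Z
  Zg := fun F 𝔹 Fs p m => (L8In.mk F 𝔹 (l8Cl F p) m 0 Fs).Zg c

/-- **SHAPE of the exits of LL 08**: for `N ≥ N0` and every tilt mass `s`: for all sufficiently fine chains, UNIFORMLY in the physical point `p = ll04Pt N ℓ λ χ_lin χ_e sm γ` (clamped `γ`: the points of (C1), (C2) and of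
all the segments) of the class `R` and in the size `m` of the dyad -/
def L8Ev (F : LlFix) (𝔹 : LlBase) (N0 : ℕ) (R : LlPt → Prop) (Φ : L8In → Prop) : Prop :=
  ∀ (N : ℕ) (s : ℝ), N0 ≤ N → ∀ᶠ Fs : Finset GhPos in atTop, ∀ (ell lam chiL chiE : ℝ) (sm : Bool) (γ : Fin (N + 1) → ℝ) (m : ℕ),
    R (ll04Pt N ell lam chiL chiE sm γ) → (L8In.mk F 𝔹 (ll04Pt N ell lam chiL chiE sm γ) m s Fs).Ok → Φ ⟨F, 𝔹, ll04Pt N ell lam chiL chiE sm γ, m, s, Fs⟩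

/-- the records of cut-offs allowed in the exits (protocol of 224: ONE `F0` from LL Sec. 3) -/
def L8Fix (𝔹 : LlBase) (T : ℝ) (F0 : LlFix) : Prop := F0.T = T ∧ LlBaseProfile 𝔹 T ∧ LlcP 𝔹 F0

/-- direct strength sweep `(χ_lin, χ_e) = (0,1)` -/
def l8Dir (p : LlPt) : Prop := p.sm = false ∧ p.chiL = 0 ∧ p.chiE = 1
/-- smoothed size path -/
def l8Siz (p : LlPt) : Prop := p.sm = true ∧ p.chiL = 1

/-! ## PART 2 -/

namespace L8In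

variable (I : L8In)

/-- moment of order `2 r` on the single path -/
def mo (tl : Bool) (r : ℕ) (g : SkOm I.m → ℝ) : ℝ := ∫ ω, g ω ^ (2 * r) ∂(I.sp tl).μ
/-- moment of order `2 r` under the fork law at the cut `k` -/
def moF (tl : Bool) (k r : ℕ) (g : SkOm I.m × SkOm I.m → ℝ) : ℝ := ∫ ω, g ω ^ (2 * r) ∂(I.sp tl).fork k
/-- expectation on the single path -/
def ex (tl : Bool) (g : SkOm I.m → ℝ) : ℝ := ∫ ω, g ω ∂(I.sp tl).μ
/-- cuts in use: all cuts (untilted), the unmasked cuts (tilted) -/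
def act (tl : Bool) (k : ℕ) : Prop := k ≤ I.n ∧ (tl = true → I.js < k)
/-- `ε_w = x³ √Y / (√λ₁ max(w,U)^(3/2))` -/
def epsw (Y w : ℝ) : ℝ := I.x ^ 3 * Real.sqrt Y / (Real.sqrt I.lam1 * max w I.U ^ (3 / 2 : ℝ))
/-- `E_0 = x³ √Y / (√λ₁ U^(3/2))` -/
def E0 (Y : ℝ) : ℝ := I.epsw Y I.U
/-- `P_v(2 L_v - S_v) = ∑_{i ≤ j} c_i(v) (2 L_v - S_v)^i` -/
def pol (tl : Bool) (c : ℕ → ℕ → ℝ) (j k : ℕ) (ω : SkOm I.m) : ℝ := ∑ i ∈ range (j + 1), c i k * (2 * (I.sp tl).L k ω - I.S k) ^ i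

/-- **the deterministic envelope**: Prop. 8.1 (last display) and Lemma 8.2 (i).      TEX[LL:prop:statistics-pointwise] TEX[LL:lem:statistics-widths] -/
structure Env (e : ℕ → ℝ) (A Y vt cE : ℝ) : Prop where
  lo : ∀ k ≤ I.n, I.x ^ cE ≤ e k
  low : ∀ k ≤ I.n, I.v k ≤ Y → e k = Y
  hi : ∀ k ≤ I.n, Y ≤ I.v k → e k ≤ A * I.v k
  bud : ∀ r, Y ≤ r → r ≤ vt → I.band r (fun k => e k ^ 2) ≤ A * r * (Y ^ 2 / r) ^ 2
  f_le : ∀ k ≤ I.n, I.v k ≤ vt → |I.f k| ≤ A * e k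
  d_le : ∀ k ≤ I.n, I.v k ≤ vt → |I.d k| + |I.dd k| ≤ A * I.lam * max (I.v k) Y ^ 2 * e k

/-- **untilted numbers**: (D1), (D7) last, (D9) last.      TEX[LL:eq:D1] TEX[LL:lem:statistics-integrated] TEX[LL:lem:statistics-lower-band] -/
structure Num (A Y Zh vt : ℝ) : Prop where
  d1 : ∀ r, I.U ≤ r → r ≤ I.a → I.band r (fun k => I.f k ^ 2) ≤ A * r * (Y ^ 4 / r ^ 2)
  s_le : ∀ k ≤ I.n, I.S k ≤ A * (I.v k + Y)
  d7 : ∀ r, Y ≤ r → r ≤ vt → I.band r I.D2 ≤ A * r * (I.z0 r * Zh * r ^ 2)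
  d9 : ∀ w, 0 < w → w ≤ 2 * Y → I.int (max w I.x) (2 * w) I.D2 ≤ A * Y * I.epsw Y w

/-- **(D8)**, direct path only.      TEX[LL:lem:statistics-localized] -/
def D8 (e : ℕ → ℝ) (A C0 δ' : ℝ) : Prop :=
  I.int I.Y I.a (fun k => if I.x ^ δ' ≤ e k then I.D2 k else 0) ≤ A * I.x ^ (-(C0 * δ')) * I.z0 1 * I.Y ^ 2 * I.Z ^ 2

/-- **(D8) in the tilted active ensemble** (second moment of the overlap about the UNTILTED mean; all the cuts of mass `≥ Y ≥ x > s` are active): the two-large-envelopes case of TRD (09 l.268-283; ask of 101).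
TEX[LL:lem:statistics-localized] TEX[LL:par:statistics-tilt-transfer] -/
def D8t (e : ℕ → ℝ) (A C0 δ' : ℝ) : Prop :=
  I.int I.Y I.a (fun k => if I.x ^ δ' ≤ e k then I.moF true k 1 (fun ω => (I.sp true).Q ω - I.S k) else 0) ≤ A * I.x ^ (-(C0 * δ')) * I.z0 1 * I.Y ^ 2 * I.Z ^ 2

/-- **the random estimates** in the ensemble `tl` -/
structure Rnd (tl : Bool) (e : ℕ → ℝ) (A Y Zh vt vp : ℝ) (pm jm : ℕ) : Prop where
  /-- (D2), first line -/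
  raw_X : ∀ r, 1 ≤ r → r ≤ pm → ∀ k, I.act tl k → I.mo tl r ((I.sp tl).nX k) ≤ (A * (I.v k + Y)) ^ (2 * r)
  raw_L : ∀ r, 1 ≤ r → r ≤ pm → ∀ k, I.act tl k → I.mo tl r ((I.sp tl).L k) ≤ (A * (I.v k + Y)) ^ (2 * r)
  /-- terminal (`k₁, k₂ > n`) and projected endpoints -/
  raw_Q : ∀ r, 1 ≤ r → r ≤ pm → ∀ k, I.act tl k → ∀ k₁ k₂, k ≤ k₁ → k ≤ k₂ → I.moF tl k r ((I.sp tl).QX k₁ k₂) ≤ (A * (I.v k + Y)) ^ (2 * r)
  /-- (D2), second line (`e = Y` below `Y`) -/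
  ref_X : ∀ r, 1 ≤ r → r ≤ pm → ∀ k, I.act tl k → I.v k ≤ vt → I.mo tl r (fun ω => (I.sp tl).nX k ω - I.q k) ≤ (A * e k) ^ (2 * r)
  ref_L : ∀ r, 1 ≤ r → r ≤ pm → ∀ k, I.act tl k → I.v k ≤ vt → I.mo tl r (fun ω => 2 * (I.sp tl).L k ω - I.q k) ≤ (A * e k) ^ (2 * r)
  ref_Q : ∀ r, 1 ≤ r → r ≤ pm → ∀ k, I.act tl k → I.v k ≤ vt → ∀ k₁ k₂, k ≤ k₁ → k ≤ k₂ →
    I.moF tl k r (fun ω => (I.sp tl).QX k₁ k₂ ω - I.q k) ≤ (A * e k) ^ (2 * r)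
  /-- (D7), first line -/
  d7_W : ∀ r, Y ≤ r → r ≤ vt → ∀ j ≤ jm, I.band r (fun k => I.ex tl ((I.sp tl).W k) * e k ^ (2 * j)) ≤
    A * r * (I.z0 r ^ 2 * Zh ^ 2 * r ^ 3 * (if j = 0 then 1 else (Y ^ 2 / r) ^ 2 * r ^ (2 * j - 2)))
  /-- (D7), second line (= the alias errors) -/
  d7_C : ∀ r, Y ≤ r → r ≤ vt → I.band r (fun k => I.ex tl fun ω => (I.sp tl).xCx k ω + (I.sp tl).trC2 k ω) ≤ A * r * (I.z0 r ^ 2 * Zh ^ 2 * r ^ 2)
  /-- second moment about the UNTILTED mean `S`, integrated ((D7) last line, transferred) -/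
  d7_Q : ∀ r, Y ≤ r → r ≤ vt → I.band r (fun k => I.moF tl k 1 fun ω => (I.sp tl).Q ω - I.S k) ≤ A * r * (I.z0 r * Zh * r ^ 2)
  /-- (D9) -/
  d9_W : ∀ w, 0 < w → w ≤ 2 * Y → I.int (max w I.x) (2 * w) (fun k => I.ex tl ((I.sp tl).W k)) ≤ A * I.epsw Y w ^ 2
  d9_Q : ∀ w, 0 < w → w ≤ 2 * Y → I.int (max w I.x) (2 * w) (fun k => I.moF tl k 1 fun ω => (I.sp tl).Q ω - I.S k) ≤ A * Y * I.epsw Y w
  /-- (D10): the centring constant is the UNTILTED mean -/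
  d10 : ∀ r, Y ≤ r → r ≤ vt → ∀ j, 1 ≤ j → j ≤ jm → ∀ c : ℕ → ℕ → ℝ, (∀ i ≤ j, ∀ k ≤ I.n, |c i k| ≤ e k ^ (j - i)) →
    I.ex tl (fun ω => (I.band r fun k => I.pol tl c j k ω - I.ex false (I.pol false c j k)) ^ 2) ≤
      (A * r * (I.z0 r * r * Zh * (if j = 1 then 1 else Y ^ 2 / r * r ^ (j - 2)))) ^ 2
  /-- low linear centred integral, `O(E_0)` before any mass normalisation -/
  d10_low : ∀ c : ℕ → ℝ, (∀ k, |c k| ≤ 1) → I.ex tl (fun ω => (I.int I.x (2 * Y) fun k => c k * (2 * (I.sp tl).L k ω - I.S k)) ^ 2) ≤ (A * I.E0 Y) ^ 2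
  /-- Cor. 8.7: pair split at mass `≤ c'/8`, projection from later cuts down to a cut `kc` of mass `≍ c'` -/
  proj : ∀ r, 1 ≤ r → r ≤ pm → ∀ c', Y ≤ c' → c' ≤ vp → ∀ k kc, I.act tl k → I.v k ≤ c' / 8 → c' ≤ I.v kc → I.v kc ≤ 2 * c' → ∀ k₁ k₂, kc ≤ k₁ → kc ≤ k₂ →
    I.moF tl k r (fun ω => (I.sp tl).QX k₁ k₂ ω - (I.sp tl).QX kc kc ω) ≤ (A * (I.z0 c' * c')) ^ (2 * r)

/-- all of (D1)-(D10) for one instance, both ensembles; the tilted one on the stop, `s = q_s x^(1+ε_s)` -/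
structure All (e : ℕ → ℝ) (A Y Zh vt vp cE εs qs : ℝ) (pm jm : ℕ) : Prop where
  env : I.Env e A Y vt cE
  num : I.Num A Y Zh vt
  unt : I.Rnd false e A Y Zh vt vp pm jm
  til : I.s = qs * I.x ^ (1 + εs) → I.Stop (I.x ^ εs) → I.Rnd true e A Y Zh vt vp pm jm

end L8In

/-! ## PART 3 -/

/-- the majorant `Z` on the three direct sweeps in the clamped parameter `τ` (Lemma 8.8, part 2, needs `i = 1, 2`) -/
def L8MomSw (𝔹 : LlBase) (Mj : L9Mj) (F : LlFix) : Prop :=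
  ∀ δ : ℝ, 0 < δ → ∃ (C : ℝ) (N0 : ℕ), ∀ N : ℕ, N0 ≤ N → ∀ᶠ Fs : Finset GhPos in atTop, ∀ m : ℕ, N ≤ 2 * m → m ≤ 3 * N →
    ∀ ell : ℝ, ell ∈ Icc (1 : ℝ) ((2 : ℝ) ^ (1 / 6 : ℝ)) → ∀ i : Fin 3,
      Measurable (fun z : (Fin (N + 1) → ℝ) × ℝ => Mj.Z F 𝔹 Fs (ll04Dir F N ell i z.1 z.2) m) ∧
      ∀ τ : ℝ, (∀ γ, 1 ≤ Mj.Z F 𝔹 Fs (ll04Dir F N ell i γ τ) m) ∧
        ∫⁻ γ, ENNReal.ofReal (Mj.Z F 𝔹 Fs (ll04Dir F N ell i γ τ) m ^ 4) ∂ll04Mu N ≤ ENNReal.ofReal (C * skX N ^ (-δ))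

/-- **majorants** = `L9Mom` of 216 at `l8Mj c` (+ the multiplier sweeps, + `Z ≤ x^(-C)`), for a saving `c` of (C2) fixed BEFORE `p_*`.   Legal prefix `LlcStB` (224).
TEX[LL:eq:D1] TEX[LL:rem:statistics-majorants] -/
def L8xZ (𝔹 : LlBase) (T : ℝ) : Prop :=
  ∀ F0, L8Fix 𝔹 T F0 → ∀ pB : LLParB, LlcStB 𝔹 F0 pB → ∃ c p0 : ℝ, 0 < c ∧ 0 < p0 ∧ ∀ pS, 0 < pS → pS ≤ p0 →
    L9Mom 𝔹 (l8Mj c) (F0.wExp pB.sStar pB.eta pS) ∧ L8MomSw 𝔹 (l8Mj c) (F0.wExp pB.sStar pB.eta pS) ∧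
    ∃ (C : ℝ) (N0 : ℕ), L8Ev (F0.wExp pB.sStar pB.eta pS) 𝔹 N0 (fun _ => True) fun I => I.Z ≤ I.x ^ (-C)

/-- **(D1)-(D10), Cor. 8.7 on the direct strength sweep**, `Y ≤ x^κ`.   Order: `C_0` (loss of (D8)), the threshold of `δ'`, the top `v0` of Cor. 8.7 and the exponent `cE` of `e ≥ x^cE` FIRST; then `κ`, the tilt, the orders,
the loss `ε`, `δ'`; then `C, N0`. -/
def L8xDir (𝔹 : LlBase) (T : ℝ) : Prop :=
  ∀ F0, L8Fix 𝔹 T F0 → ∀ (pB : LLParB) (pS : ℝ), 0 < pS → pS ≤ 1 → ∃ C0 δ0 v0 cE : ℝ, 1 ≤ C0 ∧ 0 < δ0 ∧ 0 < v0 ∧ 0 < cE ∧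
    ∀ κ εs qs : ℝ, 0 < κ → 0 < εs → 0 < qs → ∀ (pm jm : ℕ) (ε δ' : ℝ), 0 < ε → 0 < δ' → δ' ≤ δ0 → ∃ (C : ℝ) (N0 : ℕ),
      L8Ev (F0.wExp pB.sStar pB.eta pS) 𝔹 N0 l8Dir fun I => I.Y ≤ I.x ^ κ →
        ∃ e : ℕ → ℝ, I.All e (C * I.x ^ (-ε)) I.Y I.Z I.a v0 cE εs qs pm jm ∧ I.D8 e (C * I.x ^ (-ε)) C0 δ' ∧
          (I.s = qs * I.x ^ (1 + εs) → I.Stop (I.x ^ εs) → I.D8t e (C * I.x ^ (-ε)) C0 δ')

/-- **low-region variant on the smoothed size paths**, capped scale `Y = U min(Z, x^(δ_*/3)/U)` (Cor. 8.10), `Z_h = 1`, refined estimates below the fixed mass `v0`, Cor. 8.7 below `v1` -/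
def L8xLow (𝔹 : LlBase) (T : ℝ) : Prop :=
  ∀ F0, L8Fix 𝔹 T F0 → ∀ pB : LLParB, LlcStB 𝔹 F0 pB → ∃ p0 cE : ℝ, 0 < p0 ∧ 0 < cE ∧ ∀ pS, 0 < pS → pS ≤ p0 → ∃ v0 v1 : ℝ, 0 < v0 ∧ 0 < v1 ∧
    ∀ εs qs : ℝ, 0 < εs → 0 < qs → ∀ (pm jm : ℕ) (ε : ℝ), 0 < ε → ∃ (C : ℝ) (N0 : ℕ),
      L8Ev (F0.wExp pB.sStar pB.eta pS) 𝔹 N0 l8Siz fun I => 1 ≤ I.Zc llDStar ∧ ∃ e : ℕ → ℝ, I.All e (C * I.x ^ (-ε)) (I.Yc llDStar) 1 v0 v1 cE εs qs pm jm

/-- **(D11)**: `δ_* = llDStar` is explicit; the threshold on `p_*` depends on stage B only.   Both ensembles (tilted: active pairs, on the stop) -/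
def L8xD11 (𝔹 : LlBase) (T : ℝ) : Prop :=
  ∀ F0, L8Fix 𝔹 T F0 → ∀ pB : LLParB, LlcStB 𝔹 F0 pB → ∃ p0 : ℝ, 0 < p0 ∧ ∀ pS, 0 < pS → pS ≤ p0 → ∀ εs qs : ℝ, 0 < εs → 0 < qs → ∀ r : ℕ, 1 ≤ r → ∃ (C : ℝ) (N0 : ℕ),
    L8Ev (F0.wExp pB.sStar pB.eta pS) 𝔹 N0 l8Siz fun I => ∀ tl : Bool, (tl = true → I.s = qs * I.x ^ (1 + εs) ∧ I.Stop (I.x ^ εs)) →
      ∀ k, I.act tl k → ∀ k₁ k₂, k ≤ k₁ → k ≤ k₂ → I.moF tl k r (fun ω => (I.sp tl).QX k₁ k₂ ω - I.q k) ≤ (C * I.x ^ llDStar) ^ (2 * r)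

/-- **(D15)**.   `c` = ANY positive exponent (it enters through `Z_g` only; `E_γ Z_g² ≲ 1` is `L8xZ`).   Order (136): `C_H` first; then nested thresholds `a_0 | b_H | a_1 | a_2 | p_*` -/
def L8xD15 (𝔹 : LlBase) (T : ℝ) : Prop :=
  ∀ F0, L8Fix 𝔹 T F0 → ∀ (pB : LLParB) (c : ℝ), LlcStB 𝔹 F0 pB → 0 < c → ∃ CH t0 : ℝ, 1 ≤ CH ∧ 0 < t0 ∧ ∀ a0, 0 < a0 → a0 ≤ t0 → ∃ tH : ℝ, 0 < tH ∧ ∀ bH, 0 < bH → bH ≤ tH →
    ∃ t1 : ℝ, 0 < t1 ∧ ∀ a1, 0 < a1 → a1 ≤ t1 → ∃ t2 : ℝ, 0 < t2 ∧ ∀ a2, 0 < a2 → a2 ≤ t2 → ∃ tp : ℝ, 0 < tp ∧ ∀ pS, 0 < pS → pS ≤ tp → ∃ N0 : ℕ,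
      L8Ev (F0.wExp pB.sStar pB.eta pS) 𝔹 N0 l8Siz fun I =>
        (∀ k ≤ I.n, I.x ^ a1 ≤ I.v k → |I.f k| ≤ I.x ^ (2 + bH) * (I.Zc llDStar ^ 2 + I.Zg c)) ∧
        (∀ k ≤ I.n, I.x ^ a1 ≤ I.v k → I.D2 k ≤ (I.x ^ (3 - CH * a1) * I.Zc llDStar ^ 2) ^ 2) ∧
        (∀ k ≤ I.n, I.x ^ a2 ≤ I.v k → I.D2 k ≤ (I.x ^ (3 - CH * a2) * I.Zc llDStar ^ 2) ^ 2)

/-- **Lemma 8.8** = `L9Coarse` + `L9Switch` of 216 (`Z_g` is idle: `c = 1`) -/
def L8xCS (𝔹 : LlBase) (T : ℝ) : Prop :=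
  ∀ F0, L8Fix 𝔹 T F0 → ∀ pB : LLParB, LlcStB 𝔹 F0 pB → ∃ p0 : ℝ, 0 < p0 ∧ ∀ pS, 0 < pS → pS ≤ p0 →
    L9Switch 𝔹 (F0.wExp pB.sStar pB.eta pS) ∧ ∃ κ0 : ℝ, 0 < κ0 ∧ ∀ κ, 0 < κ → κ ≤ κ0 → ∀ c : ℝ, L9Coarse 𝔹 (l8Mj c) κ (F0.wExp pB.sStar pB.eta pS)

end

theorem l8_cl_eq {F : LlFix} {p : LlPt} (h : p.Ok F) : l8Cl F p = p := by
  have h1 : max (p.x ^ (12 : ℝ)) (min (p.x ^ F.pS) p.lam) = p.lam := by rw [min_eq_right h.lam_hi, max_eq_right h.lam_lo]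
  have h2 : max 1 (min ((2 : ℝ) ^ (1 / 6 : ℝ)) p.ell) = p.ell := by rw [min_eq_right h.ell2, max_eq_right h.ell1]
  unfold l8Cl
  rw [h1, h2]

/-- the majorants do not see the tilt -/
theorem l8_Z_eq (I : L8In) (h : I.p.Ok I.F) (c : ℝ) : (l8Mj c).Z I.F I.𝔹 I.Fs I.p I.m = I.Z ∧ (l8Mj c).Zg I.F I.𝔹 I.Fs I.p I.m = I.Zg c := by
  constructor
  · show (L8In.mk I.F I.𝔹 (l8Cl I.F I.p) I.m 0 I.Fs).Z = I.Z
    rw [l8_cl_eq h]; rfl
  · show (L8In.mk I.F I.𝔹 (l8Cl I.F I.p) I.m 0 I.Fs).Zg c = I.Zg c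
    rw [l8_cl_eq h]; rfl

/-- dictionary with the jet context of LL 09 -/
theorem l8_X_eq (I : L8In) (tl : Bool) (k : ℕ) : (I.X tl).qC k = I.q k ∧ (I.X tl).dC k = I.d k ∧ (I.X tl).bC k = I.bC k ∧ (I.X tl).hC k = I.hC k ∧ (I.X tl).KC k = I.KC k :=
  ⟨rfl, rfl, rfl, rfl, rfl⟩

end Claimed.Agent.R286
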