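import Claimed.Agent.R286.L08.L12Frz

/-!
# Row 286 (S0533), LL sec. 8, unit SA, step D11.a : FREEZING, the SK instance      (owner helper233; prefix `l12g_`)

TEX[LL:prop:statistics-size-accuracy]  (08-statistics.tex l.1019-1036, "Freezing beyond the wall").

`l12g_frz`  : on a step path `P₀ ++ P₁ ++ P₂` whose revelations of `P₁ ++ P₂` have masses `≥ u` and whose revelations of `P₁` are fine (`db, dh ≤ δ(n,a)`):
              `1 - S ≤ exp (-(u²/4) * (field length of P₁))` at the cut after `P₁`   (`S = obS` of `Fd/Obs.lean`).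
`l12g_frz_cut` : the same with cuts `j₀ ≤ j` of a step path `P` and `skCumH P j - skCumH P j₀`.
-/

set_option autoImplicit false

namespace Claimed.Agent.R286

open MeasureTheory ProbabilityTheory Filter Topology Set

theorem l12g_sp_sq {n : ℕ} (i : Fin n) (σ : SkCfg n) : skSp σ i ^ 2 = 1 := by rw [sq]; exact sk_d_sp_mul σ i

theorem l12g_sp_abs {n : ℕ} (i : Fin n) (σ : SkCfg n) : |skSp σ i| = 1 := by
  have := l12g_sp_sq i σ
  rw [← sq_abs] at this
  nlinarith [abs_nonneg (skSp σ i)]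

theorem l12g_phi_le (n : ℕ) (σ : SkCfg n) (j : SkDr n) : |skPhi n σ j| ≤ 1 := by
  rcases j with p | i
  · show |skSp σ p.1 * skSp σ p.2 / Real.sqrt (2 * n)| ≤ 1
    have hn : 1 ≤ n := Nat.one_le_iff_ne_zero.2 (fun h => by subst h; exact p.1.elim0)
    have h1 : (1 : ℝ) ≤ Real.sqrt (2 * n) := by
      rw [Real.one_le_sqrt]
      have : (1 : ℝ) ≤ n := by exact_mod_cast hn
      linarith
    rw [abs_div, abs_mul, l12g_sp_abs, l12g_sp_abs, abs_of_pos (by linarith), one_mul]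
    exact (div_le_one (by linarith)).2 h1
  · show |skSp σ i| ≤ 1
    exact (l12g_sp_abs i σ).le

theorem l12g_K_le (n : ℕ) (e : SkInc) {δ : ℝ} (hb : e.db ≤ δ) (hh : e.dh ≤ δ) :
    (e.lv n).K ≤ (Fintype.card (SkCfg n) * Fintype.card (SkDr n) : ℝ) * Real.sqrt δ := by
  unfold GhLv.K
  have h1 : ∀ (σ : SkCfg n) (j : SkDr n), |(e.lv n).A σ j| ≤ Real.sqrt δ := by
    intro σ j
    show |Real.sqrt ((Sum.elim (fun _ => e.db) fun _ => e.dh : SkDr n → ℝ) j) * skPhi n σ j| ≤ Real.sqrt δ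
    rw [abs_mul, abs_of_nonneg (Real.sqrt_nonneg _)]
    have h2 : Real.sqrt ((Sum.elim (fun _ => e.db) fun _ => e.dh : SkDr n → ℝ) j) ≤ Real.sqrt δ := by
      apply Real.sqrt_le_sqrt
      rcases j with p | i
      · exact hb
      · exact hh
    calc _ ≤ Real.sqrt δ * 1 := mul_le_mul h2 (l12g_phi_le n σ j) (abs_nonneg _) (Real.sqrt_nonneg _)
      _ = _ := mul_one _
  calc ∑ σ, ∑ j, |(e.lv n).A σ j| ≤ ∑ _σ : SkCfg n, ∑ _j : SkDr n, Real.sqrt δ :=
        Finset.sum_le_sum fun σ _ => Finset.sum_le_sum fun j _ => h1 σ j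
    _ = _ := by
        simp only [Finset.sum_const, Finset.card_univ, nsmul_eq_mul]
        ring

theorem l12g_adm {n : ℕ} {a u : ℝ} {Q : SkStp} (h1 : Q.Pairwise (fun e e' => e.m ≤ e'.m)) (h2 : ∀ e ∈ Q, u ≤ e.m ∧ e.m ≤ a) :
    GhAdm (skBase n a) u (skLvs n Q) := by
  refine ⟨?_, ?_⟩
  · unfold skLvs
    rw [List.pairwise_map]
    exact h1
  · intro l hl
    obtain ⟨e, he, rfl⟩ := List.mem_map.1 hl
    exact h2 e he

/-- **D11.a, freezing**, decomposed form -/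
theorem l12g_frz (n : ℕ) (hn : 0 < n) {a : ℝ} (ha : 0 < a) : ∃ δ : ℝ, 0 < δ ∧ ∀ (u : ℝ) (P₀ P₁ P₂ : SkStp) (z₀ : SkCfg n → ℝ), 0 ≤ u →
    SkAdm a (P₀ ++ (P₁ ++ P₂)) → (∀ e ∈ P₁ ++ P₂, u ≤ e.m) → (∀ e ∈ P₁, e.db ≤ δ ∧ e.dh ≤ δ) →
    1 - obS n a (P₀ ++ (P₁ ++ P₂)) z₀ (P₀.length + P₁.length) ≤ Real.exp (-(u ^ 2 / 4) * (P₁.map SkInc.dh).sum) := by
  classical
  obtain ⟨ε₀, hε₀, hsm⟩ := l12f_small (SkDr n)
  set N : ℝ := (Fintype.card (SkCfg n) * Fintype.card (SkDr n) : ℝ) with hN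
  have hN0 : 0 ≤ N := by positivity
  refine ⟨(ε₀ / (2 * a * (N + 1))) ^ 2, by positivity, fun u P₀ P₁ P₂ z₀ hu hP hum hfine => ?_⟩
  set B := skBase n a with hBd
  have hB : B.Ok := obt_base_ok n ha
  have hnR : (0 : ℝ) < n := Nat.cast_pos.2 hn
  -- structure of the path
  have hpw := hP.1
  have hPn : GhNn (skLvs n P₀ ++ (skLvs n P₁ ++ skLvs n P₂)) := by
    intro l hl
    have : l ∈ skLvs n (P₀ ++ (P₁ ++ P₂)) := by simpa [skLvs] using hl
    obtain ⟨e, he, rfl⟩ := List.mem_map.1 this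
    exact (hP.2 e he).1
  have hA12 : GhAdm B u (skLvs n P₁ ++ skLvs n P₂) := by
    have : skLvs n P₁ ++ skLvs n P₂ = skLvs n (P₁ ++ P₂) := by simp [skLvs]
    rw [this]
    exact l12g_adm (List.pairwise_append.1 hpw).2.1 fun e he => ⟨hum e he, (hP.2 e (List.mem_append_right _ he)).2.1⟩
  -- per site bound
  have hsite : ∀ i : Fin n, l12fEx B (l12fR B (skLvs n P₂) (fun σ => skSp σ i)) (skLvs n P₀ ++ skLvs n P₁) (skLvs n P₂) z₀
      ≤ Real.exp (-(u ^ 2 / 4) * (P₁.map SkInc.dh).sum) := by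
    intro i
    have key := l12f_frz hB hu (τ := fun σ => skSp σ i) (l12g_sp_sq i) (Sum.inr i)
      (fun l => l.A (fun _ => true) (Sum.inr i) ^ 2) (ε := ε₀) (C0 := 2) (by norm_num) (hsm ε₀ hε₀.le le_rfl _)
      (skLvs n P₀) (skLvs n P₁) (skLvs n P₂) hPn hA12 (by
        intro l hl
        obtain ⟨e, he, rfl⟩ := List.mem_map.1 hl
        have hdh : 0 ≤ e.dh := (hP.2 e (List.mem_append_right _ (List.mem_append_left _ he))).2.2.2
        refine ⟨⟨Real.sqrt e.dh, ?_, fun σ => rfl⟩, fun ξ => ?_⟩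
        · show Real.sqrt e.dh ^ 2 = (Real.sqrt e.dh * skSp (fun _ => true) i) ^ 2
          rw [mul_pow, l12g_sp_sq, mul_one]
        · have h1 := gh_ra_inc_le (e.lv n) ξ
          have h2 := l12g_K_le n e (hfine e he).1 (hfine e he).2
          rw [Real.sqrt_sq (by positivity), ← hN] at h2
          have h3 : 2 * a * (N * (ε₀ / (2 * a * (N + 1)))) ≤ ε₀ := by
            have : 2 * a * (N * (ε₀ / (2 * a * (N + 1)))) = ε₀ * (N / (N + 1)) := by field_simp
            rw [this]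
            have : N / (N + 1) ≤ 1 := (div_le_one (by positivity)).2 (by linarith)
            nlinarith
          have h4 : ‖(e.lv n).inc ξ‖ ≤ N * (ε₀ / (2 * a * (N + 1))) * ‖ξ‖ :=
            h1.trans (mul_le_mul_of_nonneg_right h2 (norm_nonneg _))
          show 2 * a * ‖(e.lv n).inc ξ‖ ≤ ε₀ * ‖ξ‖
          calc 2 * a * ‖(e.lv n).inc ξ‖ ≤ 2 * a * (N * (ε₀ / (2 * a * (N + 1))) * ‖ξ‖) :=
                mul_le_mul_of_nonneg_left h4 (by positivity)
            _ = 2 * a * (N * (ε₀ / (2 * a * (N + 1)))) * ‖ξ‖ := by ring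
            _ ≤ _ := mul_le_mul_of_nonneg_right h3 (norm_nonneg _)) z₀
    have hs : ((skLvs n P₁).map fun l => l.A (fun _ => true) (Sum.inr i) ^ 2).sum = (P₁.map SkInc.dh).sum := by
      unfold skLvs
      rw [List.map_map]
      congr 1
      refine List.map_congr_left fun e he => ?_
      have hdh : 0 ≤ e.dh := (hP.2 e (List.mem_append_right _ (List.mem_append_left _ he))).2.2.2
      show (Real.sqrt e.dh * skSp (fun _ => true) i) ^ 2 = e.dh
      rw [mul_pow, l12g_sp_sq, mul_one, Real.sq_sqrt hdh]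
    rw [hs] at key
    have e4 : (2 : ℝ) * 2 = 4 := by norm_num
    rwa [e4] at key
  -- `S` as a planted expectation
  set g : (SkCfg n → ℝ) → ℝ := fun y => ∑ i, ghE B (skLvs n P₂) (obY i) y ^ 2 with hg
  have hlen : (skLvs n P₀ ++ skLvs n P₁).length = P₀.length + P₁.length := by simp [skLvs]
  have hS : obS n a (P₀ ++ (P₁ ++ P₂)) z₀ (P₀.length + P₁.length)
      = l12fEx B g (skLvs n P₀ ++ skLvs n P₁) (skLvs n P₂) z₀ := by
    have h1 : (P₀ ++ (P₁ ++ P₂)).drop (P₀.length + P₁.length) = P₂ := by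
      rw [← List.append_assoc]
      exact List.drop_left' (by simp)
    have h2 : skLvs n (P₀ ++ (P₁ ++ P₂)) = (skLvs n P₀ ++ skLvs n P₁) ++ skLvs n P₂ := by simp [skLvs]
    have h3 := l12f_path_eq hB g (skLvs n (P₀ ++ (P₁ ++ P₂))) (P₀.length + P₁.length) z₀
    rw [h2, List.take_left' hlen, List.drop_left' hlen, ← h2] at h3
    rw [← h3]
    simp only [obS, obE, obXp, obX, obFld, h1, hg]
    rfl
  have hn2 : GhNn (skLvs n P₂) := fun l hl => hPn l (List.mem_append_right _ (List.mem_append_right _ hl))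
  have hPn' : GhNn ((skLvs n P₀ ++ skLvs n P₁) ++ skLvs n P₂) := by rwa [List.append_assoc]
  -- pointwise comparison
  have hY : ∀ (i : Fin n) (y : SkCfg n → ℝ), ghE B (skLvs n P₂) (obY i) y = (Real.sqrt n)⁻¹ * ghE B (skLvs n P₂) (fun σ => skSp σ i) y := by
    intro i y
    rw [← ghr_E_smul]
    congr 1
    funext σ
    simp only [obY, skY]
    rw [div_eq_inv_mul]
  have hgle : ∀ y, 1 + ∑ i : Fin n, (-(n : ℝ)⁻¹) * l12fR B (skLvs n P₂) (fun σ => skSp σ i) y ≤ g y := by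
    intro y
    have h1 : ∀ i : Fin n, (n : ℝ)⁻¹ + (-(n : ℝ)⁻¹) * l12fR B (skLvs n P₂) (fun σ => skSp σ i) y ≤ ghE B (skLvs n P₂) (obY i) y ^ 2 := by
      intro i
      rw [hY, mul_pow, inv_pow, Real.sq_sqrt hnR.le]
      set U := ghE B (skLvs n P₂) (fun σ => skSp σ i) y with hU
      have hU1 : |U| ≤ 1 := ghr_E_bound hB _ (fun σ => (l12g_sp_abs i σ).le) y
      have hx0 : 0 ≤ 1 - U ^ 2 := by have := abs_le.1 hU1; nlinarith
      have hx1 : 1 - U ^ 2 ≤ 1 := by nlinarith [sq_nonneg U]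
      have hR : 1 - U ^ 2 ≤ Real.sqrt (1 - U ^ 2) := by
        have h5 := Real.sq_sqrt hx0
        have h6 := Real.sqrt_nonneg (1 - U ^ 2)
        have h7 : Real.sqrt (1 - U ^ 2) ≤ 1 := Real.sqrt_le_one.2 hx1
        nlinarith
      have hR' : 1 - U ^ 2 ≤ l12fR B (skLvs n P₂) (fun σ => skSp σ i) y := hR
      have hi : 0 < (n : ℝ)⁻¹ := inv_pos.2 hnR
      nlinarith
    have h2 := Finset.sum_le_sum fun i (_ : i ∈ Finset.univ) => h1 i
    rw [Finset.sum_add_distrib, Finset.sum_const, Finset.card_univ, Fintype.card_fin, nsmul_eq_mul, mul_inv_cancel₀ hnR.ne'] at h2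
    exact h2
  have hRbc : ∀ i : Fin n, GhBC (l12fR B (skLvs n P₂) (fun σ => skSp σ i)) 1 := fun i => l12f_R_bc hB (l12g_sp_sq i) hn2
  have hgbc : GhBC g (∑ _i : Fin n, (1 : ℝ)) := by
    refine ⟨continuous_finsetSum _ fun i _ => ((gh_b_E_bc hB (M := 1) (fun σ => ?_) hn2).cont.pow 2), fun y => ?_⟩
    · simp only [obY, skY]
      rw [abs_div, l12g_sp_abs, abs_of_nonneg (Real.sqrt_nonneg _)]
      have : (1 : ℝ) ≤ Real.sqrt n := by
        rw [Real.one_le_sqrt]; exact_mod_cast hn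
      exact (div_le_one (by linarith)).2 this
    · rw [abs_of_nonneg (Finset.sum_nonneg fun i _ => sq_nonneg _)]
      refine Finset.sum_le_sum fun i _ => ?_
      have hb : |ghE B (skLvs n P₂) (obY i) y| ≤ 1 := ghr_E_bound hB _ (fun σ => by
        simp only [obY, skY]
        rw [abs_div, l12g_sp_abs, abs_of_nonneg (Real.sqrt_nonneg _)]
        have : (1 : ℝ) ≤ Real.sqrt n := by
          rw [Real.one_le_sqrt]; exact_mod_cast hn
        exact (div_le_one (by linarith)).2 this) y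
      have := abs_le.1 hb
      nlinarith
  have hlbc : GhBC (fun y => 1 + ∑ i : Fin n, (-(n : ℝ)⁻¹) * l12fR B (skLvs n P₂) (fun σ => skSp σ i) y)
      (1 + ∑ _i : Fin n, |(-(n : ℝ)⁻¹)| * 1) := by
    refine ⟨continuous_const.add (continuous_finsetSum _ fun i _ => continuous_const.mul (hRbc i).cont), fun y => ?_⟩
    refine (abs_add_le _ _).trans (add_le_add (by simp) ((Finset.abs_sum_le_sum_abs _ _).trans (Finset.sum_le_sum fun i _ => ?_)))
    rw [abs_mul]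
    exact mul_le_mul_of_nonneg_left ((hRbc i).le y) (abs_nonneg _)
  have hmono := l12f_Ex_mono hB hlbc hgbc hgle (skLvs n P₂) (skLvs n P₀ ++ skLvs n P₁) hPn' z₀
  rw [l12f_Ex_lin hB Finset.univ 1 (fun _ => -(n : ℝ)⁻¹) _ hRbc (skLvs n P₂) _ hPn' z₀] at hmono
  rw [hS]
  set c : ℝ := Real.exp (-(u ^ 2 / 4) * (P₁.map SkInc.dh).sum) with hc
  have hsum : ∑ i : Fin n, (-(n : ℝ)⁻¹) * l12fEx B (l12fR B (skLvs n P₂) (fun σ => skSp σ i)) (skLvs n P₀ ++ skLvs n P₁) (skLvs n P₂) z₀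
      ≥ -c := by
    have h1 : ∀ i : Fin n, (-(n : ℝ)⁻¹) * c ≤ (-(n : ℝ)⁻¹) * l12fEx B (l12fR B (skLvs n P₂) (fun σ => skSp σ i)) (skLvs n P₀ ++ skLvs n P₁) (skLvs n P₂) z₀ :=
      fun i => mul_le_mul_of_nonpos_left (hsite i) (by have := inv_pos.2 hnR; linarith)
    have h2 := Finset.sum_le_sum fun i (_ : i ∈ Finset.univ) => h1 i
    rw [Finset.sum_const, Finset.card_univ, Fintype.card_fin, nsmul_eq_mul] at h2
    have h3 : (n : ℝ) * (-(n : ℝ)⁻¹ * c) = -c := by field_simp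
    rw [h3] at h2
    exact h2
  linarith

theorem l12g_cumH (P₀ P₁ P₂ : SkStp) :
    skCumH (P₀ ++ (P₁ ++ P₂)) (P₀.length + P₁.length) - skCumH (P₀ ++ (P₁ ++ P₂)) P₀.length = (P₁.map SkInc.dh).sum := by
  unfold skCumH
  have h1 : (P₀ ++ (P₁ ++ P₂)).take (P₀.length + P₁.length) = P₀ ++ P₁ := by
    rw [← List.append_assoc]
    exact List.take_left' (by simp)
  have h2 : (P₀ ++ (P₁ ++ P₂)).take P₀.length = P₀ := List.take_left' rfl
  rw [h1, h2, List.map_append, List.sum_append]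
  ring

/-- **D11.a, freezing**, between two cuts `j₀ ≤ j` of a step path -/
theorem l12g_frz_cut (n : ℕ) (hn : 0 < n) {a : ℝ} (ha : 0 < a) : ∃ δ : ℝ, 0 < δ ∧ ∀ (u : ℝ) (P : SkStp) (j₀ j : ℕ) (z₀ : SkCfg n → ℝ), 0 ≤ u →
    SkAdm a P → j₀ ≤ j → j ≤ P.length → (∀ e ∈ P.drop j₀, u ≤ e.m) → (∀ e ∈ (P.drop j₀).take (j - j₀), e.db ≤ δ ∧ e.dh ≤ δ) →
    1 - obS n a P z₀ j ≤ Real.exp (-(u ^ 2 / 4) * (skCumH P j - skCumH P j₀)) := by
  obtain ⟨δ, hδ, h⟩ := l12g_frz n hn ha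
  refine ⟨δ, hδ, fun u P j₀ j z₀ hu hP hj₀ hj hum hfine => ?_⟩
  have e2 : (P.drop j₀).take (j - j₀) ++ P.drop j = P.drop j₀ := by
    have : P.drop j = (P.drop j₀).drop (j - j₀) := by
      rw [List.drop_drop]
      congr 1
      omega
    rw [this, List.take_append_drop]
  have e1 : P.take j₀ ++ ((P.drop j₀).take (j - j₀) ++ P.drop j) = P := by rw [e2, List.take_append_drop]
  have l0 : (P.take j₀).length = j₀ := by rw [List.length_take]; omega
  have l1 : ((P.drop j₀).take (j - j₀)).length = j - j₀ := by rw [List.length_take, List.length_drop]; omega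
  have key := h u (P.take j₀) ((P.drop j₀).take (j - j₀)) (P.drop j) z₀ hu (by rw [e1]; exact hP) (by rw [e2]; exact hum) hfine
  have hc := l12g_cumH (P.take j₀) ((P.drop j₀).take (j - j₀)) (P.drop j)
  rw [e1, l0, l1, show j₀ + (j - j₀) = j by omega] at key hc
  rw [hc]
  exact key

end Claimed.Agent.R286
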