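/-
Row 286 (S0533), LL sec. 8, package L12 (08-statistics.tex l.1010-1692), architect helper163.

DEFS-FREE CONTRACTS, part A (pure real analysis / measure theory; no model object).
Every contract is a closed `def l12_<name> : Prop`; a proof is a `theorem l12_<name>_pf : l12_<name>`.

  l12_cap         Cor 8.10  (deterministic cap on the low scale)
  l12_stage_cvx   one stage `r log E exp (G/r)` keeps convexity in a parameter when `r` is affine   (l.1075-1082)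
  l12_mean_cvx    the mass-zero stage
  L12Bump, L12D13 admissible bumps and the family of inequalities (D13)
  l12_pen         the penalty difference `P(1) - P(0)`                                              (l.1100-1113)
  l12_d13_glue    convexity + F'(0) + trial bound + (C2) + l12_pen  ==>  (D13)
  l12_cell_point  (D13) ==> |S - q| <= tau at every point whose 3l-window has small K-oscillation     (l.1119-1180)
  l12_cell_int    sliding windows + Markov ==> integral bound (interior part of (D14))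
  l12_area        L^1 distance of the time profiles <= L^1 distance of the clocks                     (l.1195-1200)
  l12_secant      secant identity                                                                    (l.1222-1226)
  l12_persist     monotone versus Lipschitz: an integral bound forces a pointwise bound               (l.1236-1241)
  l12_quad        D^2 <= A D + B  ==>  D <= A + sqrt B                                                 (l.1583)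
-/
import Mathlib
import Claimed.Agent.Lib.PLConvex

set_option autoImplicit false
open MeasureTheory Set Filter Topology
open scoped ContDiff

namespace Claimed.Agent.R286

/-! ### Cor 8.10 : the cap -/

/-- **Cor 8.10.**  `f = S - q`, `|f| ≤ C0 x^δ` (from (D11)); `(D1)` on the bands `[c1 r, c2 r]`, `U ≤ r ≤ rmax`, for the
majorant `Zold`.  Then `Z = min Zold (x^(δ/3)/U)` is again a majorant, with `U Z ≤ x^(δ/3)`. -/
def l12_cap : Prop :=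
  ∀ (x δ U Zold C C0 rmax c1 c2 : ℝ) (f : ℝ → ℝ),
    0 < x → x ≤ 1 → 0 < δ → 0 < U → U ≤ x ^ (δ / 3) → 1 ≤ Zold → 0 ≤ C0 → 0 < rmax → 0 ≤ c1 → c1 ≤ c2 →
    (∀ v, |f v| ≤ C0 * x ^ δ) →
    (∀ r, U ≤ r → r ≤ rmax → (∫ v in (c1 * r)..(c2 * r), f v ^ 2) / r ≤ C * (U * Zold) ^ 4 / r ^ 2) →
    1 ≤ min Zold (x ^ (δ / 3) / U) ∧ min Zold (x ^ (δ / 3) / U) ≤ Zold ∧
    U * min Zold (x ^ (δ / 3) / U) ≤ x ^ (δ / 3) ∧
    ∀ r, U ≤ r → r ≤ rmax →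
      (∫ v in (c1 * r)..(c2 * r), f v ^ 2) / r
        ≤ max C ((c2 - c1) * C0 ^ 2 * rmax ^ 2) * (U * min Zold (x ^ (δ / 3) / U)) ^ 4 / r ^ 2

/-! ### Convexity in the reciprocal masses -/

/-- One stage at reciprocal mass `r θ` (affine, positive): `θ ↦ r θ * log E exp (G θ / r θ)` is convex if every `θ ↦ G θ w` is. -/
def l12_stage_cvx : Prop :=
  ∀ (Ω : Type) [MeasurableSpace Ω] (μ : Measure Ω) [IsProbabilityMeasure μ] (s : Set ℝ) (r : ℝ → ℝ) (G : ℝ → Ω → ℝ),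
    Convex ℝ s → (∀ θ ∈ s, 0 < r θ) →
    (∀ θ₀ ∈ s, ∀ θ₁ ∈ s, ∀ a b : ℝ, 0 ≤ a → 0 ≤ b → a + b = 1 → r (a * θ₀ + b * θ₁) = a * r θ₀ + b * r θ₁) →
    (∀ w, ConvexOn ℝ s (fun θ => G θ w)) →
    (∀ θ ∈ s, Integrable (fun w => Real.exp (G θ w / r θ)) μ) →
    ConvexOn ℝ s (fun θ => r θ * Real.log (∫ w, Real.exp (G θ w / r θ) ∂μ))

/-- The mass-zero stage. -/
def l12_mean_cvx : Prop :=
  ∀ (Ω : Type) [MeasurableSpace Ω] (μ : Measure Ω) (s : Set ℝ) (G : ℝ → Ω → ℝ),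
    Convex ℝ s → (∀ w, ConvexOn ℝ s (fun θ => G θ w)) → (∀ θ ∈ s, Integrable (G θ) μ) →
    ConvexOn ℝ s (fun θ => ∫ w, G θ w ∂μ)

/-! ### Bumps, the mass change and (D13) -/

/-- the mass change `1/m_θ(v) = 1/v - θ φ(v)/v²`, i.e. `m_θ(v) = v²/(v - θ φ(v))`. -/
noncomputable def l12m (φ : ℝ → ℝ) (θ v : ℝ) : ℝ := v ^ 2 / (v - θ * φ v)

/-- admissible bump on `[α,β]` (`0 < α`): smooth, slope and relative height at most `c0`,
vanishing outside `[α,β]`, and with swept support inside `[α,β]`. -/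
structure L12Bump (c0 α β : ℝ) (φ : ℝ → ℝ) : Prop where
  smooth : ContDiff ℝ ∞ φ
  slope : ∀ v, |deriv φ v| ≤ c0
  rel : ∀ v, |φ v| ≤ c0 * v ∨ φ v = 0
  supp : ∀ v, φ v ≠ 0 → α ≤ v - 2 * |φ v| ∧ v + 2 * |φ v| ≤ β

/-- **(D13)** as a family of inequalities.  `bp = b'`, `hp = h'`, `z0 = (K-h)/b = q - d/b`, `E = 4 x^(4+c)`. -/
def L12D13 (V L c0 κ E C1 : ℝ) (K S B z0 bp hp : ℝ → ℝ) : Prop :=
  ∀ (φ : ℝ → ℝ) (α β σ : ℝ), V ≤ α → α ≤ β → β ≤ L → K β - K α ≤ κ → L12Bump c0 α β φ →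
    (∀ v, |φ v| ≤ σ * v ∨ φ v = 0) →
    ∫ v in α..β, ((B v - z0 v ^ 2) * bp v + 2 * (S v - z0 v) * hp v) * φ v
      ≤ E + C1 * (κ + σ) * ∫ v in α..β, (bp v + hp v) * |φ v|

/-- **Penalty difference** (l.1100-1113), in the Fubini form (no derivative of `K`).
`b, h` are absolutely continuous on `[α,β]` with densities `bp, hp ≥ 0`; `g` is the inverse of `m = l12m φ 1`;
`K` is monotone with oscillation `≤ κ` on `[α,β]`; `|K - h| ≤ zmax * b`, `bmin ≤ b`.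
`P(1) - P(0) = ∫ [(K w - h (g w))²/(4 b (g w)) - (K w - h w)²/(4 b w)] dw`. -/
def l12_pen : Prop :=
  ∀ (bmin zmax : ℝ), 0 < bmin → 0 ≤ zmax → ∃ C1 : ℝ, 0 ≤ C1 ∧
  ∀ (α β κ σ : ℝ) (φ g K b h bp hp : ℝ → ℝ),
    0 < α → α ≤ β → 0 ≤ κ → κ ≤ 1 → 0 ≤ σ → σ ≤ 1 / 4 →
    L12Bump (1 / 4) α β φ → (∀ v, |φ v| ≤ σ * v ∨ φ v = 0) →
    (∀ v ∈ Icc α β, g (l12m φ 1 v) = v) → (∀ w ∈ Icc α β, g w ∈ Icc α β ∧ l12m φ 1 (g w) = w) →
    MonotoneOn K (Icc α β) → K β - K α ≤ κ →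
    IntervalIntegrable bp volume α β → IntervalIntegrable hp volume α β →
    (∀ v ∈ Icc α β, 0 ≤ bp v ∧ 0 ≤ hp v) →
    (∀ v ∈ Icc α β, b v = b α + ∫ u in α..v, bp u) → (∀ v ∈ Icc α β, h v = h α + ∫ u in α..v, hp u) →
    (∀ v ∈ Icc α β, bmin ≤ b v) → (∀ v ∈ Icc α β, |K v - h v| ≤ zmax * b v) →
    ∫ w in α..β, ((K w - h (g w)) ^ 2 / (4 * b (g w)) - (K w - h w) ^ 2 / (4 * b w))
      ≤ ((1 / 4) * ∫ v in α..β, (((K v - h v) / b v) ^ 2 * bp v + 2 * ((K v - h v) / b v) * hp v) * φ v)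
        + C1 * (κ + σ) * ∫ v in α..β, (bp v + hp v) * |φ v|

/-- **Glue for (D13)**: `F` convex on `[0,1]`, right derivative `F0'` at `0`, trial bound at `θ = 1`, trial excess `≤ E0` at `θ = 0`. -/
def l12_d13_glue : Prop :=
  ∀ (F : ℝ → ℝ) (F0' fs P0 P1 E0 : ℝ),
    ConvexOn ℝ (Icc 0 1) F → HasDerivWithinAt F F0' (Ici 0) 0 →
    F 1 ≤ fs + P1 → fs + P0 - F 0 ≤ E0 → F0' ≤ E0 + (P1 - P0)

/-! ### Cells (sliding windows) and the interior part of (D14) -/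

/-- **Good points** (l.1119-1180).  There is a height factor `cφ` depending only on the slope bound `c0`. -/
def l12_cell_point : Prop :=
  ∀ c0 : ℝ, 0 < c0 → ∃ cφ : ℝ, 0 < cφ ∧ cφ ≤ 1 / 8 ∧ cφ ≤ c0 ∧
  ∀ (V L κ E C1 l τ εd Lq Cb η0 η1 β1 ED v1 v2 : ℝ) (K S B q z0 bp hp : ℝ → ℝ),
    0 < V → V ≤ L → 0 < l → l ≤ V → 0 ≤ κ → 0 ≤ C1 → 0 < τ → 0 ≤ Lq → 0 ≤ Cb → 0 < η0 → 0 < η1 → 0 ≤ β1 →
    MonotoneOn K (Icc V L) → MonotoneOn S (Icc V L) → MonotoneOn B (Icc V L) → MonotoneOn q (Icc V L) →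
    AEStronglyMeasurable z0 (volume.restrict (Icc V L)) →
    (∀ u ∈ Icc V L, ∀ v ∈ Icc V L, |q u - q v| ≤ Lq * |K u - K v|) →
    (∀ v ∈ Icc V L, 0 ≤ S v ∧ S v ≤ 1 ∧ S v ^ 2 ≤ B v ∧ B v ≤ 1) →
    (∀ v ∈ Icc V L, 0 ≤ z0 v ∧ z0 v ≤ 2 ∧ |z0 v - q v| ≤ εd) →
    (∫ v in V..L, (B v - S v ^ 2)) ≤ ED →
    IntervalIntegrable bp volume V L → IntervalIntegrable hp volume V L →
    (∀ v ∈ Icc V L, 0 ≤ bp v ∧ bp v ≤ β1 ∧ bp v ≤ Cb * hp v / V ∧ η0 ≤ hp v) →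
    (∀ v ∈ Icc V L, v ≤ v1 → η1 ≤ hp v) → (∀ v ∈ Icc V L, v2 ≤ v → bp v = 0) → v2 + 6 * l ≤ v1 →
    L12D13 V L c0 κ E C1 K S B z0 bp hp →
    Lq * κ ≤ τ / 2 → εd ≤ τ / 8 → C1 * (κ + cφ * l / V) * (1 + Cb / V) ≤ τ / 4 →
    8 * E < τ * η0 * cφ * l ^ 2 → 8 * β1 * ED ≤ τ * η1 * l →
    ∀ v0, V + 3 * l ≤ v0 → v0 ≤ L - 3 * l → K (v0 + 3 * l) - K (v0 - 3 * l) ≤ κ → |S v0 - q v0| ≤ τ

/-- **Sliding windows + Markov**: the set of points whose window has `K`-oscillation `> κ` has mass `≤ 6 l M/κ`. -/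
def l12_cell_int : Prop :=
  ∀ (V L l κ τ M : ℝ) (K f : ℝ → ℝ),
    0 < l → 0 < κ → 0 ≤ τ → V + 6 * l ≤ L → MonotoneOn K (Icc V L) → K L - K V ≤ M →
    (∀ v ∈ Icc V L, |f v| ≤ 1) → IntervalIntegrable f volume V L →
    (∀ v0, V + 3 * l ≤ v0 → v0 ≤ L - 3 * l → K (v0 + 3 * l) - K (v0 - 3 * l) ≤ κ → |f v0| ≤ τ) →
    ∫ v in V..L, |f v| ≤ τ * (L - V) + 6 * l + 6 * l * M / κ

/-! ### From integrated means to pointwise means: the deterministic steps -/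

/-- time profile of a clock on the mass interval `[0,a]`: `α_K(t) = |{v ∈ [0,a] : K v ≤ t}|`. -/
noncomputable def l12prof (a : ℝ) (K : ℝ → ℝ) (t : ℝ) : ℝ := (volume (Icc 0 a ∩ {v | K v ≤ t})).toReal

/-- **Area inequality** (only `≤` is needed; no monotonicity). -/
def l12_area : Prop :=
  ∀ (a T : ℝ) (K₁ K₂ : ℝ → ℝ), 0 ≤ a → 0 ≤ T → Measurable K₁ → Measurable K₂ →
    (∀ v ∈ Icc 0 a, 0 ≤ K₁ v ∧ K₁ v ≤ T) → (∀ v ∈ Icc 0 a, 0 ≤ K₂ v ∧ K₂ v ≤ T) →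
    ∫ t in (0 : ℝ)..T, |l12prof a K₁ t - l12prof a K₂ t| ≤ ∫ v in (0 : ℝ)..a, |K₁ v - K₂ v|

/-- **Secant identity**: `S - Γ(t + b f) = f ∫_0^1 [1 - b Γ'(t + y b f)] dy` with `S = Γ t + f`. -/
def l12_secant : Prop :=
  ∀ (Γ Γ' : ℝ → ℝ) (t b f : ℝ), (∀ y, HasDerivAt Γ (Γ' y) y) → Continuous Γ' →
    Γ t + f - Γ (t + b * f) = f * ∫ y in (0 : ℝ)..1, (1 - b * Γ' (t + y * (b * f)))

/-- **Persistence**: `s` nondecreasing, `g` `Lg`-Lipschitz on `[a,b]`; a deviation `≥ d` at a point with two-sided room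
`d/(2 Lg)` forces `d²/(4 Lg) ≤ ∫ |s - g|`. -/
def l12_persist : Prop :=
  ∀ (s g : ℝ → ℝ) (a b Lg d t : ℝ), 0 < Lg → 0 < d → MonotoneOn s (Icc a b) →
    (∀ u ∈ Icc a b, ∀ v ∈ Icc a b, |g u - g v| ≤ Lg * |u - v|) →
    a + d / (2 * Lg) ≤ t → t ≤ b - d / (2 * Lg) → d ≤ |s t - g t| →
    d ^ 2 / (4 * Lg) ≤ ∫ u in a..b, |s u - g u|

/-- `D² ≤ A D + B ⟹ D ≤ A + √B`. -/
def l12_quad : Prop :=
  ∀ D A B : ℝ, 0 ≤ D → 0 ≤ A → 0 ≤ B → D ^ 2 ≤ A * D + B → D ≤ A + Real.sqrt B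

theorem l12a_eqns_cite : True := by
  have := @l12m.eq_1; have := @l12prof.eq_1
  trivial

end Claimed.Agent.R286
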