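/-
Row 286 (S0533), LL sec. 8, unit SA (Prop 8.9 = (D11)-(D14), Cor 8.10), architect helper163, ADV helper233, provers helper214, helper222.

FILE SaD13 : the CONVEX MASS VARIATION on the FINE level (step paths `SkStp` of `Defs/Sk.lean`, observables of `Fd/Obs.lean`).
08-statistics.tex l.1059-1117.     TEX[LL:prop:statistics-size-accuracy] (part (D13))

ROUTE (replaces "F convex + F'(0)"; only `θ = 1` is used, no derivative in `θ`, no convexity statement):
  l8z_subgrad  first-order convexity inequality in the reciprocal masses = Donsker-Varadhan with the planted law of the ORIGINAL path as trial law: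
                 F(P') - F(P) ≥ ∑_k (1 - m_k/m'_k) E⁰[F_{k+1}(Z_{k+1}) - F_k(Z_k)]          (induction over the list; Jensen; no order of the new masses needed)
  l8z_ent      entropy production:  E⁰[F_{k+1}(Z_{k+1}) - F_k(Z_k)] = (m_k/2) n ∫_0^1 (Δb_k B_{k,t}/2 + Δh_k S_{k,t}) dt,  in SANDWICH form (B, S are monotone along the cuts)
                 (same Dynkin computation as K7 `ob_clock_identity`:  (∂_t + L) F = (m/2)|∇F|²_Σ;   lower half also = DV with a linear test + Stein)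
  l8z_trial    Guerra / square completion along `skSeg s P Q`, `Q` = scalar trial (`db = 0`): from K4 `ob_pressure_deriv`, `B ≥ S²`
  l8z_decouple `db = 0`: the sites decouple
  l8z_pen      PURE: penalty difference by Abel summation over the revelations (no Fubini, no inverse function)
  l8z_d13      assembly = (D13) on the fine level, for bumps of one sign
-/
import Claimed.Agent.R286.Fd.Obs
import Claimed.Agent.R286.L08.L12A

set_option autoImplicit false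
open MeasureTheory Set Finset

namespace Claimed.Agent.R286

/-- change the masses of a step path (increments kept) -/
def saMv (μ : ℝ → ℝ) (P : SkStp) : SkStp := P.map fun e => ⟨μ e.m, e.db, e.dh⟩

/-- increments of the revelation number `k` (`0` after the end) -/
def saDb (P : SkStp) (k : ℕ) : ℝ := (P.map SkInc.db).getD k 0
def saDh (P : SkStp) (k : ℕ) : ℝ := (P.map SkInc.dh).getD k 0

/-- expected increase of the continuation through the revelation number `k`, along the planted path -/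
noncomputable def saInc (n : ℕ) (a : ℝ) (P : SkStp) (k : ℕ) : ℝ :=
  obE n a P 0 fun ξ _ => skF n a (P.drop (k + 1)) (obFld n P 0 ξ (k + 1)) - skF n a (P.drop k) (obFld n P 0 ξ k)

/-- **first-order convexity inequality in the reciprocal masses**.  `μ` = new mass as a function of the old one. -/
def L8Z_Subgrad : Prop :=
  ∀ (n : ℕ) (a : ℝ) (P : SkStp) (μ : ℝ → ℝ), 0 < n → 0 < a → SkAdm a P → μ 0 = 0 → (∀ e ∈ P, 0 < e.m → 0 < μ e.m) →
    ∑ k ∈ range P.length, (1 - skMs a P k / μ (skMs a P k)) * saInc n a P k ≤ skF n a (saMv μ P) 0 - skF n a P 0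

/-- **entropy production**, sandwich form. -/
def L8Z_Ent : Prop :=
  ∀ (n : ℕ) (a : ℝ) (P : SkStp) (k : ℕ), 0 < n → 0 < a → SkAdm a P → k < P.length →
    skMs a P k / 2 * n * (saDb P k / 2 * obB n a P 0 k + saDh P k * obS n a P 0 k) ≤ saInc n a P k ∧
    saInc n a P k ≤ skMs a P k / 2 * n * (saDb P k / 2 * obB n a P 0 (k + 1) + saDh P k * obS n a P 0 (k + 1))

/-- **trial bound** (square completion).  `Q` = scalar trial path, arbitrary masses. -/
def L8Z_Trial : Prop :=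
  ∀ (n : ℕ) (a : ℝ) (P Q : SkStp), 0 < n → 0 < a → SkAdm a P → SkAdm a Q → (∀ e ∈ Q, e.db = 0) →
    (∀ u ∈ Icc 0 a, skClkB P u = 0 → skClkH Q u = skClkH P u) →
    skPr n a P ≤ skPr n a Q + ∫ u in (0 : ℝ)..a, (skClkH Q u - skClkH P u) ^ 2 / (4 * skClkB P u)

/-- without matrix clock the sites decouple -/
def L8Z_Decouple : Prop :=
  ∀ (n : ℕ) (a : ℝ) (Q : SkStp), 0 < n → 0 < a → SkAdm a Q → (∀ e ∈ Q, e.db = 0) → skPr n a Q = skPr 1 a Q

/-- Lipschitz bump on `[α,β]`: slope `≤ c0`, relative height `≤ σ`, swept support inside `[α,β]` -/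
structure L8ZBump (c0 σ α β : ℝ) (φ : ℝ → ℝ) : Prop where
  slope : ∀ u v, |φ u - φ v| ≤ c0 * |u - v|
  rel : ∀ v, |φ v| ≤ σ * v ∨ φ v = 0
  supp : ∀ v, φ v ≠ 0 → α ≤ v - 2 * |φ v| ∧ v + 2 * |φ v| ≤ β

/-- `z_k = (K(m_k) - h_k)/b_k`, clocks of `P` BEFORE the revelation `k` -/
noncomputable def saZ (a : ℝ) (P : SkStp) (Kf : ℝ → ℝ) (k : ℕ) : ℝ := (Kf (skMs a P k) - skCumH P k) / skCumB P k

/-- **penalty difference** (PURE).  `Kf` = trial clock as a function of the mass, `ε` = bound of the increments inside `[α,β]`. -/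
def L8Z_Pen : Prop :=
  ∀ (bmin zmax : ℝ), 0 < bmin → 0 ≤ zmax → ∃ C1 : ℝ, 0 ≤ C1 ∧
  ∀ (a α β κ σ ε : ℝ) (P : SkStp) (Kf φ : ℝ → ℝ),
    SkAdm a P → 0 < α → α ≤ β → β ≤ a → 0 ≤ κ → κ ≤ 1 → 0 ≤ σ → σ ≤ 1 / 4 → 0 ≤ ε → ε ≤ 1 →
    L8ZBump (1 / 4) σ α β φ → MonotoneOn Kf (Icc 0 a) → Kf β - Kf α ≤ κ →
    (∀ e ∈ P, α ≤ e.m → e.m ≤ β → e.db ≤ ε ∧ e.dh ≤ ε) →
    (∀ k < P.length, α ≤ skMs a P k → skMs a P k ≤ β → bmin ≤ skCumB P k ∧ |saZ a P Kf k| ≤ zmax) →
    ∫ u in (0 : ℝ)..a, ((Kf u - skClkH (saMv (l12m φ 1) P) u) ^ 2 / (4 * skClkB (saMv (l12m φ 1) P) u)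
        - (Kf u - skClkH P u) ^ 2 / (4 * skClkB P u))
      ≤ (1 / 4) * ∑ k ∈ range P.length, φ (skMs a P k) * (saZ a P Kf k ^ 2 * saDb P k + 2 * saZ a P Kf k * saDh P k)
        + C1 * (κ + σ + ε) * ∑ k ∈ range P.length, |φ (skMs a P k)| * (saDb P k + saDh P k)

/-- **(D13) on the fine level.**  `E0` = trial excess of `(P,Q)` ((C2), second half).  `s = 0`: nonnegative bumps, statistics at the cut BEFORE
the revelation; `s = 1`: nonpositive bumps, statistics at the cut AFTER it. -/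
def L8Z_D13 : Prop :=
  ∀ (bmin zmax : ℝ), 0 < bmin → 0 ≤ zmax → ∃ C1 : ℝ, 0 ≤ C1 ∧
  ∀ (n : ℕ) (a α β κ σ ε E0 : ℝ) (P Q : SkStp) (φ : ℝ → ℝ) (s : ℕ),
    0 < n → 0 < a → SkAdm a P → SkAdm a Q → (∀ e ∈ Q, e.db = 0) →
    (∀ u ∈ Icc 0 a, skClkB P u = 0 → skClkH Q u = skClkH P u) →
    skPr n a Q + (∫ u in (0 : ℝ)..a, (skClkH Q u - skClkH P u) ^ 2 / (4 * skClkB P u)) - skPr n a P ≤ E0 →
    0 < α → α ≤ β → β ≤ a → 0 ≤ κ → κ ≤ 1 → 0 ≤ σ → σ ≤ 1 / 4 → 0 ≤ ε → ε ≤ 1 →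
    L8ZBump (1 / 4) σ α β φ → skClkH Q β - skClkH Q α ≤ κ →
    (∀ e ∈ P, α ≤ e.m → e.m ≤ β → e.db ≤ ε ∧ e.dh ≤ ε) →
    (∀ k < P.length, α ≤ skMs a P k → skMs a P k ≤ β → bmin ≤ skCumB P k ∧ |saZ a P (skClkH Q) k| ≤ zmax) →
    ((s = 0 ∧ ∀ v, 0 ≤ φ v) ∨ (s = 1 ∧ ∀ v, φ v ≤ 0)) →
    ∑ k ∈ range P.length, φ (skMs a P k) *
        ((obB n a P 0 (k + s) - saZ a P (skClkH Q) k ^ 2) * saDb P k + 2 * (obS n a P 0 (k + s) - saZ a P (skClkH Q) k) * saDh P k)
      ≤ 4 * E0 + C1 * (κ + σ + ε) * ∑ k ∈ range P.length, |φ (skMs a P k)| * (saDb P k + saDh P k)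

end Claimed.Agent.R286
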