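/-
Row 286 (S0533), LL sec. 8, package L12, unit SA (architect helper163).   Personal file of the prover helper222.   0 sorry.
  l12_area_pf : l12_area    (contract of `L08/L12A.lean`)  Tonelli on the symmetric difference of the sublevel sets
  l8z_pen     : L8Z_Pen     (contract of `L08/SaD13.lean`) penalty difference on the FINE level, 08-statistics.tex l.1085-1117:
       A  on a sorted step path the revelations of mass `≤ u` are an initial segment (`l8zp_filter_take`); telescoping (`l8zp_tele`)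
       B  the mass change `l12m φ 1` of a Lipschitz bump: size, first order, monotone (`l12p_m_*`, `l8zp_mu_mono`)
       C  integrals of the indicators      D  one revelation, pointwise in the mass (`l8zp_alg`)
       E  one revelation, integrated (`l8zp_term`)      F  Abel summation (`l8zp_abel`) and assembly
  l8z_d13 (hS : L8Z_Subgrad) (hE : L8Z_Ent) (hT : L8Z_Trial) : L8Z_D13      (D13) on the fine level (part G); `L8Z_Decouple` is not used
The continuum versions (l12_pen, l12_cell_point) were retired by the architect (ruling of 02:54Z) and their proofs removed from this file.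
-/
import Mathlib
import Claimed.Agent.R286.L08.SaD13
import Claimed.Agent.R286.Brg.Step

set_option autoImplicit false

namespace Claimed.Agent.R286

section Area
open MeasureTheory Set Filter Topology
open scoped ContDiff ENNReal symmDiff

theorem l12_area_pf : l12_area := by
  intro a T K₁ K₂ ha hT hK₁ hK₂ hb₁ hb₂
  set A : Set ℝ := Icc 0 a with hA
  have hAm : MeasurableSet A := measurableSet_Icc
  set S : Set (ℝ × ℝ) := {p | (K₁ p.2 ≤ p.1 ∧ p.1 < K₂ p.2) ∨ (K₂ p.2 ≤ p.1 ∧ p.1 < K₁ p.2)} with hS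
  have hSm : MeasurableSet S := by
    have m1 : Measurable fun p : ℝ × ℝ => K₁ p.2 := hK₁.comp measurable_snd
    have m2 : Measurable fun p : ℝ × ℝ => K₂ p.2 := hK₂.comp measurable_snd
    exact ((measurableSet_le m1 measurable_fst).inter (measurableSet_lt measurable_fst m2)).union
      ((measurableSet_le m2 measurable_fst).inter (measurableSet_lt measurable_fst m1))
  set ν : Measure ℝ := volume.restrict A with hν
  have : IsFiniteMeasure ν := ⟨by rw [hν, Measure.restrict_apply_univ, hA]; simp⟩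
  set G : ℝ → ℝ≥0∞ := fun t => ν (Prod.mk t ⁻¹' S) with hG
  have hGm : Measurable G := measurable_measure_prodMk_left hSm
  have hGfin : ∀ t, G t < (⊤ : ℝ≥0∞) := fun t => measure_lt_top ν _
  have hprof : ∀ (K : ℝ → ℝ), Measurable K → ∀ t, l12prof a K t = ν.real {v | K v ≤ t} := by
    intro K hK t
    have hm : MeasurableSet {v | K v ≤ t} := measurableSet_le hK measurable_const
    rw [l12prof, Measure.real, hν, Measure.restrict_apply hm, inter_comm]
  have h1 : ∀ t, |l12prof a K₁ t - l12prof a K₂ t| ≤ (G t).toReal := by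
    intro t
    rw [hprof K₁ hK₁, hprof K₂ hK₂]
    have hm1 : MeasurableSet {v | K₁ v ≤ t} := measurableSet_le hK₁ measurable_const
    have hm2 : MeasurableSet {v | K₂ v ≤ t} := measurableSet_le hK₂ measurable_const
    refine (abs_measureReal_sub_le_measureReal_symmDiff hm1.nullMeasurableSet
      hm2.nullMeasurableSet).trans ?_
    rw [Measure.real]
    refine ENNReal.toReal_mono (hGfin t).ne (measure_mono ?_)
    intro v hv
    rcases hv with ⟨h1, h2⟩ | ⟨h1, h2⟩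
    · left; exact ⟨h1, not_le.1 h2⟩
    · right; exact ⟨h1, not_le.1 h2⟩
  -- Tonelli
  have hton : ∫⁻ t in Ioc 0 T, G t ≤ ∫⁻ v in A, ENNReal.ofReal |K₁ v - K₂ v| := by
    calc ∫⁻ t in Ioc 0 T, G t ≤ ∫⁻ t, G t := setLIntegral_le_lintegral _ _
      _ = ∫⁻ t, ∫⁻ v, S.indicator (fun _ => (1 : ℝ≥0∞)) (t, v) ∂ν := by
          refine lintegral_congr fun t => ?_
          have : (fun v => S.indicator (fun _ => (1 : ℝ≥0∞)) (t, v))
              = (Prod.mk t ⁻¹' S).indicator (fun _ => (1 : ℝ≥0∞)) := by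
            ext v; simp [indicator]
          rw [this, lintegral_indicator (measurable_prodMk_left hSm)]
          simp [hG]
      _ = ∫⁻ v, (∫⁻ t, S.indicator (fun _ => (1 : ℝ≥0∞)) (t, v)) ∂ν := by
          rw [lintegral_lintegral_swap]
          exact (measurable_const.indicator hSm).aemeasurable
      _ ≤ ∫⁻ v, ENNReal.ofReal |K₁ v - K₂ v| ∂ν := by
          refine lintegral_mono fun v => ?_
          have : (fun t => S.indicator (fun _ => (1 : ℝ≥0∞)) (t, v))
              = (Ico (K₁ v) (K₂ v) ∪ Ico (K₂ v) (K₁ v)).indicator (fun _ => (1 : ℝ≥0∞)) := by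
            ext t; simp [indicator, hS]
          show ∫⁻ t, S.indicator (fun _ => (1 : ℝ≥0∞)) (t, v) ≤ _
          rw [this, lintegral_indicator (measurableSet_Ico.union measurableSet_Ico)]
          simp only [lintegral_const, Measure.restrict_apply_univ, one_mul]
          refine (measure_union_le _ _).trans ?_
          rw [Real.volume_Ico, Real.volume_Ico]
          rcases le_total (K₁ v) (K₂ v) with h | h
          · rw [ENNReal.ofReal_of_nonpos (sub_nonpos.2 h), add_zero, abs_sub_comm,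
              abs_of_nonneg (sub_nonneg.2 h)]
          · rw [ENNReal.ofReal_of_nonpos (sub_nonpos.2 h), zero_add, abs_of_nonneg (sub_nonneg.2 h)]
  have hRfin : ∫⁻ v in A, ENNReal.ofReal |K₁ v - K₂ v| < (⊤ : ℝ≥0∞) := by
    calc ∫⁻ v in A, ENNReal.ofReal |K₁ v - K₂ v| ≤ ∫⁻ v in A, ENNReal.ofReal T := by
          refine setLIntegral_mono measurable_const fun v hv => ENNReal.ofReal_le_ofReal ?_
          have := hb₁ v hv
          have := hb₂ v hv
          rw [abs_le]; constructor <;> linarith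
      _ < (⊤ : ℝ≥0∞) := by
          rw [setLIntegral_const, hA, Real.volume_Icc]
          exact ENNReal.mul_lt_top ENNReal.ofReal_lt_top ENNReal.ofReal_lt_top
  rw [intervalIntegral.integral_of_le hT, intervalIntegral.integral_of_le ha]
  have hGi : Integrable (fun t => (G t).toReal) (volume.restrict (Ioc 0 T)) := by
    refine integrable_toReal_of_lintegral_ne_top hGm.aemeasurable ?_
    exact (lt_of_le_of_lt hton hRfin).ne
  calc ∫ t in Ioc 0 T, |l12prof a K₁ t - l12prof a K₂ t|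
      ≤ ∫ t in Ioc 0 T, (G t).toReal :=
        integral_mono_of_nonneg (Eventually.of_forall fun _ => abs_nonneg _) hGi
          (Eventually.of_forall h1)
    _ = (∫⁻ t in Ioc 0 T, G t).toReal :=
        integral_toReal hGm.aemeasurable (Eventually.of_forall hGfin)
    _ ≤ (∫⁻ v in A, ENNReal.ofReal |K₁ v - K₂ v|).toReal := ENNReal.toReal_mono hRfin.ne hton
    _ = ∫ v in A, |K₁ v - K₂ v| := by
        rw [integral_eq_lintegral_of_nonneg_ae (Eventually.of_forall fun _ => abs_nonneg _)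
          (by fun_prop)]
    _ = ∫ v in Ioc 0 a, |K₁ v - K₂ v| := by rw [hA, integral_Icc_eq_integral_Ioc]

end Area

section Pen
open MeasureTheory Set Filter Topology Finset

/-! ## A. lists -/

/-- on a sorted path the revelations of mass `≤ u` form an initial segment -/
theorem l8zp_filter_take (a u : ℝ) : ∀ P : SkStp, P.Pairwise (fun e e' => e.m ≤ e'.m) →
    ∃ j, j ≤ P.length ∧ P.filter (fun e => decide (e.m ≤ u)) = P.take j ∧
      ∀ k, k < P.length → (skMs a P k ≤ u ↔ k < j)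
  | [], _ => ⟨0, le_rfl, rfl, fun k hk => absurd hk (by simp)⟩
  | e :: P, h => by
    rw [List.pairwise_cons] at h
    obtain ⟨j, hj, hf, hk⟩ := l8zp_filter_take a u P h.2
    by_cases he : e.m ≤ u
    · refine ⟨j + 1, by simpa using hj, by simp [he, hf], ?_⟩
      intro k hk'
      cases k with
      | zero => simp [skMs, he]
      | succ k =>
        have := hk k (by simpa using hk')
        simpa [skMs] using this
    · refine ⟨0, Nat.zero_le _, ?_, ?_⟩
      · simp only [List.take_zero, List.filter_eq_nil_iff]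
        intro e' he'
        rcases List.mem_cons.1 he' with rfl | h'
        · simpa using he
        · have := h.1 e' h'
          simp only [decide_eq_true_eq, not_le]
          exact lt_of_lt_of_le (not_le.1 he) this
      · intro k hk'
        simp only [Nat.not_lt_zero, iff_false, not_le]
        cases k with
        | zero => simpa [skMs] using he
        | succ k =>
          have hk2 : k < P.length := by simpa using hk'
          have hmem : P[k] ∈ P := List.getElem_mem hk2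
          have := h.1 _ hmem
          have e2 : skMs a (e :: P) (k + 1) = P[k].m := by
            simp [skMs, List.getD_eq_getElem?_getD, hk2]
          rw [e2]
          exact lt_of_lt_of_le (not_le.1 he) this

theorem l8zp_cum_mv (μ : ℝ → ℝ) (P : SkStp) (j : ℕ) :
    skCumB (saMv μ P) j = skCumB P j ∧ skCumH (saMv μ P) j = skCumH P j := by
  constructor
  · simp [skCumB, saMv, ← List.map_take, Function.comp_def]
  · simp [skCumH, saMv, ← List.map_take, Function.comp_def]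

theorem l8zp_ms_mv (a : ℝ) (μ : ℝ → ℝ) (P : SkStp) {k : ℕ} (hk : k < P.length) :
    skMs a (saMv μ P) k = μ (skMs a P k) := by
  simp [skMs, saMv, List.getD_eq_getElem?_getD, hk]

theorem l8zp_ms_mem (a : ℝ) (P : SkStp) {k : ℕ} (hk : k < P.length) :
    ∃ e ∈ P, skMs a P k = e.m ∧ saDb P k = e.db ∧ saDh P k = e.dh := by
  refine ⟨P[k], List.getElem_mem hk, ?_, ?_, ?_⟩ <;>
    simp [skMs, saDb, saDh, List.getD_eq_getElem?_getD, hk]

theorem l8zp_cum_succ (P : SkStp) {k : ℕ} (hk : k < P.length) :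
    skCumB P (k + 1) = skCumB P k + saDb P k ∧ skCumH P (k + 1) = skCumH P k + saDh P k := by
  have e : P.take (k + 1) = P.take k ++ [P[k]] := by
    rw [List.take_add_one, List.getElem?_eq_getElem hk]; rfl
  constructor
  · rw [skCumB, skCumB, saDb, e]
    simp [List.getD_eq_getElem?_getD, hk]
  · rw [skCumH, skCumH, saDh, e]
    simp [List.getD_eq_getElem?_getD, hk]

/-- telescoping from an initial segment -/
theorem l8zp_tele (G : ℕ → ℝ) (j : ℕ) : ∀ N, j ≤ N →
    G j = G N + ∑ k ∈ range N, (if k < j then 0 else G k - G (k + 1)) := by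
  intro N hN
  induction N, hN using Nat.le_induction with
  | base =>
    have : ∑ k ∈ range j, (if k < j then 0 else G k - G (k + 1)) = 0 :=
      Finset.sum_eq_zero fun k hk => by simp [Finset.mem_range.1 hk]
    rw [this, add_zero]
  | succ N hN ih =>
    rw [Finset.sum_range_succ, if_neg (by omega), ih]
    ring

/-! ## B. the mass change for a Lipschitz bump -/

/-- facts on the mass change `m = l12m φ 1` at a point `v > 0` with `|φ v| ≤ v/4` -/
theorem l12p_m_sub {φ : ℝ → ℝ} {v : ℝ} (hv : 0 < v) (h4 : |φ v| ≤ v / 4) :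
    l12m φ 1 v - v = v * φ v / (v - φ v) ∧ 3 / 4 * v ≤ v - φ v := by
  have h1 : φ v ≤ v / 4 := (le_abs_self _).trans h4
  have h2 : 3 / 4 * v ≤ v - φ v := by linarith
  have h3 : 0 < v - φ v := by linarith
  refine ⟨?_, h2⟩
  rw [l12m, one_mul]
  field_simp
  ring

theorem l12p_m_abs {φ : ℝ → ℝ} {v : ℝ} (hv : 0 < v) (h4 : |φ v| ≤ v / 4) :
    |l12m φ 1 v - v| ≤ 4 / 3 * |φ v| := by
  obtain ⟨e, h2⟩ := l12p_m_sub hv h4
  have h3 : 0 < v - φ v := by linarith
  rw [e, abs_div, abs_mul, abs_of_pos hv, abs_of_pos h3, div_le_iff₀ h3]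
  nlinarith [abs_nonneg (φ v)]

theorem l12p_m_err {φ : ℝ → ℝ} {v σ : ℝ} (hv : 0 < v) (h4 : |φ v| ≤ v / 4) (hσ : |φ v| ≤ σ * v) :
    |l12m φ 1 v - v - φ v| ≤ 4 / 3 * σ * |φ v| := by
  obtain ⟨e, h2⟩ := l12p_m_sub hv h4
  have h3 : 0 < v - φ v := by linarith
  have e2 : l12m φ 1 v - v - φ v = φ v ^ 2 / (v - φ v) := by
    rw [e]; field_simp; ring
  rw [e2, abs_div, abs_of_pos h3, div_le_iff₀ h3, abs_pow, sq]
  have h5 : |φ v| * |φ v| ≤ |φ v| * (σ * v) := mul_le_mul_of_nonneg_left hσ (abs_nonneg _)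
  have hσ0 : 0 ≤ σ * v := (abs_nonneg _).trans hσ
  have h6 : |φ v| * (σ * v) ≤ |φ v| * (σ * (4 / 3 * (v - φ v))) := by
    refine mul_le_mul_of_nonneg_left ?_ (abs_nonneg _)
    have hσ' : 0 ≤ σ := by
      by_contra h
      have := mul_neg_of_neg_of_pos (not_le.1 h) hv
      linarith
    exact mul_le_mul_of_nonneg_left (by linarith) hσ'
  nlinarith [h5, h6]

theorem l12p_m_sign {φ : ℝ → ℝ} {v : ℝ} (hv : 0 < v) (h4 : |φ v| ≤ v / 4) :
    (0 < φ v ↔ v < l12m φ 1 v) ∧ (φ v < 0 ↔ l12m φ 1 v < v) := by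
  obtain ⟨e, h2⟩ := l12p_m_sub hv h4
  have h3 : 0 < v - φ v := by linarith
  have hk : 0 < v / (v - φ v) := by positivity
  have e' : l12m φ 1 v - v = (v / (v - φ v)) * φ v := by rw [e]; ring
  constructor
  · constructor
    · intro h; have := mul_pos hk h; linarith
    · intro h
      have : 0 < (v / (v - φ v)) * φ v := by linarith
      exact (pos_iff_pos_of_mul_pos this).1 hk
  · constructor
    · intro h; have := mul_neg_of_pos_of_neg hk h; linarith
    · intro h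
      have : (v / (v - φ v)) * φ v < 0 := by linarith
      by_contra hc
      have := mul_nonneg hk.le (not_lt.1 hc)
      linarith


theorem l8zp_mu_of_zero {φ : ℝ → ℝ} {v : ℝ} (h : φ v = 0) : l12m φ 1 v = v := by
  rw [l12m, h, mul_zero, sub_zero]
  by_cases hv : v = 0
  · simp [hv]
  · field_simp

theorem l8zp_mu_mono {φ : ℝ → ℝ} (hs : ∀ u v, |φ u - φ v| ≤ 1 / 4 * |u - v|)
    (hr : ∀ v, 0 ≤ v → |φ v| ≤ v / 4) {v v' : ℝ} (h0 : 0 ≤ v) (h : v ≤ v') :
    l12m φ 1 v ≤ l12m φ 1 v' := by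
  have h0' : 0 ≤ v' := h0.trans h
  have d' : 3 / 4 * v' ≤ v' - φ v' := by
    have := (abs_le.1 (hr v' h0')).2
    linarith
  rcases h0.eq_or_lt with hv | hv
  · rw [← hv]
    have : l12m φ 1 0 = 0 := by simp [l12m]
    rw [this, l12m, one_mul]
    exact div_nonneg (by positivity) (by linarith)
  have hv' : 0 < v' := lt_of_lt_of_le hv h
  have d : 3 / 4 * v ≤ v - φ v := by
    have := (abs_le.1 (hr v h0)).2
    linarith
  rw [l12m, l12m, one_mul, one_mul, div_le_div_iff₀ (by linarith) (by linarith)]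
  have a1 : -((v' - v) / 4) ≤ φ v' - φ v := by
    have := (abs_le.1 (hs v' v)).1
    rw [abs_of_nonneg (by linarith : (0 : ℝ) ≤ v' - v)] at this
    linarith
  have a2 : φ v ≤ v / 4 := (abs_le.1 (hr v h0)).2
  have b1 : v ^ 2 * -((v' - v) / 4) ≤ v ^ 2 * (φ v' - φ v) := mul_le_mul_of_nonneg_left a1 (by positivity)
  have b2 : (v' - v) * (v' + v) * φ v ≤ (v' - v) * (v' + v) * (v / 4) :=
    mul_le_mul_of_nonneg_left a2 (mul_nonneg (by linarith) (by linarith))
  have b3 : 0 ≤ (v' - v) * v * (v' - v) := mul_nonneg (mul_nonneg (by linarith) hv.le) (by linarith)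
  have b4 : 0 ≤ (v' - v) * v * v := mul_nonneg (mul_nonneg (by linarith) hv.le) hv.le
  nlinarith [b1, b2, b3, b4]

/-! ## C. integrals of indicators -/

/-- `ι x u = 1` for `u < x`, `0` otherwise -/
theorem l8zp_iota {x a : ℝ} (h0 : 0 ≤ x) (hx : x ≤ a) :
    IntervalIntegrable (fun u : ℝ => if x ≤ u then (0 : ℝ) else 1) volume 0 a ∧
    ∫ u in (0 : ℝ)..a, (if x ≤ u then (0 : ℝ) else 1) = x := by
  have e : (fun u : ℝ => if x ≤ u then (0 : ℝ) else 1) = (Set.Iio x).indicator (fun _ => (1 : ℝ)) := by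
    funext u
    by_cases h : x ≤ u
    · simp [h]
    · simp [h, not_le.1 h]
  have ha : 0 ≤ a := h0.trans hx
  rw [e]
  constructor
  · rw [intervalIntegrable_iff_integrableOn_Ioc_of_le ha]
    exact (integrableOn_const (by simp)).indicator measurableSet_Iio
  · rw [intervalIntegral.integral_of_le ha, integral_indicator measurableSet_Iio,
      Measure.restrict_restrict measurableSet_Iio]
    have : Set.Iio x ∩ Set.Ioc 0 a = Set.Ioo 0 x := by
      ext u
      simp only [Set.mem_inter_iff, Set.mem_Iio, Set.mem_Ioc, Set.mem_Ioo]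
      constructor
      · rintro ⟨h1, h2, _⟩; exact ⟨h2, h1⟩
      · rintro ⟨h1, h2⟩; exact ⟨h2, h1, by linarith⟩
    rw [this]
    simp [h0]

/-! ## D. the pointwise algebra -/

/-- final combination of `l8zp_alg` -/
theorem l8zp_alg_fin {κ ε w Z X M q Db Dh : ℝ} (hκ0 : 0 ≤ κ) (hε0 : 0 ≤ ε) (hε1 : ε ≤ 1) (hw0 : 0 < w) (hwZ : w ≤ Z)
    (hDb0 : 0 ≤ Db) (hDh0 : 0 ≤ Dh) (hq0 : 0 ≤ q) (hq1 : q ≤ ε * w)
    (c2 : |X - M| ≤ (κ * w * (2 * Z)) * Db + 2 * (κ * w) * Dh + ε * w * Dh)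
    (c3 : |X| ≤ Z ^ 2 * Db + 2 * Z * Dh + ε * w * Dh) :
    |1 / 4 * X * (1 - q) - 1 / 4 * M| ≤ ((Z + 1) ^ 2 * (1 + w)) * (κ + ε) * (Db + Dh) := by
  have hZ0 : 0 ≤ Z := hw0.le.trans hwZ
  set Y := Z + 1 with hYd
  have f1 : 2 * Z ≤ Y ^ 2 := by rw [hYd]; nlinarith [sq_nonneg Z]
  have f2 : 1 ≤ Y ^ 2 := by rw [hYd]; nlinarith [sq_nonneg Z]
  have f3 : Z ^ 2 ≤ Y ^ 2 := by rw [hYd]; nlinarith [sq_nonneg Z]
  have f4 : ε * w ≤ Y ^ 2 := by
    have : ε * w ≤ 1 * w := mul_le_mul_of_nonneg_right hε1 hw0.le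
    rw [hYd]; nlinarith [sq_nonneg Z]
  have g1 : κ * w * Db * (2 * Z) ≤ κ * w * Db * Y ^ 2 := mul_le_mul_of_nonneg_left f1 (by positivity)
  have g2 : κ * w * Dh * 1 ≤ κ * w * Dh * Y ^ 2 := mul_le_mul_of_nonneg_left f2 (by positivity)
  have g3 : ε * w * Dh * 1 ≤ ε * w * Dh * Y ^ 2 := mul_le_mul_of_nonneg_left f2 (by positivity)
  have g4 : ε * w * Db * Z ^ 2 ≤ ε * w * Db * Y ^ 2 := mul_le_mul_of_nonneg_left f3 (by positivity)
  have g5 : ε * w * Dh * (2 * Z) ≤ ε * w * Dh * Y ^ 2 := mul_le_mul_of_nonneg_left f1 (by positivity)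
  have g6 : ε * w * Dh * (ε * w) ≤ ε * w * Dh * Y ^ 2 := mul_le_mul_of_nonneg_left f4 (by positivity)
  have g7 : 0 ≤ Y ^ 2 * (κ + ε) * (Db + Dh) := by positivity
  have g8 : 0 ≤ κ * w * Dh * Y ^ 2 := by positivity
  have g9 : 0 ≤ κ * w * Db * Y ^ 2 := by positivity
  have g10 : 0 ≤ ε * w * Db * Y ^ 2 := by positivity
  have g11 : 0 ≤ ε * w * Dh * Y ^ 2 := by positivity
  have hXq : |X * q| ≤ (Z ^ 2 * Db + 2 * Z * Dh + ε * w * Dh) * (ε * w) := by
    rw [abs_mul, abs_of_nonneg hq0]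
    exact mul_le_mul c3 hq1 hq0 (by positivity)
  have e3 : 1 / 4 * X * (1 - q) - 1 / 4 * M = 1 / 4 * (X - M) - 1 / 4 * (X * q) := by ring
  rw [e3]
  have h4 : |1 / 4 * (X - M) - 1 / 4 * (X * q)| ≤ 1 / 4 * |X - M| + 1 / 4 * |X * q| := by
    refine (abs_sub _ _).trans ?_
    rw [abs_mul, abs_mul]
    have : |(1 / 4 : ℝ)| = 1 / 4 := by norm_num
    rw [this]
  refine h4.trans ?_
  have e4 : Y ^ 2 * (1 + w) * (κ + ε) * (Db + Dh) = Y ^ 2 * (κ + ε) * (Db + Dh)
      + (κ * w * Db * Y ^ 2 + κ * w * Dh * Y ^ 2 + ε * w * Db * Y ^ 2 + ε * w * Dh * Y ^ 2) := by ring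
  rw [e4]
  have e5 : (Z ^ 2 * Db + 2 * Z * Dh + ε * w * Dh) * (ε * w)
      = ε * w * Db * Z ^ 2 + ε * w * Dh * (2 * Z) + ε * w * Dh * (ε * w) := by ring
  rw [e5] at hXq
  have e6 : (κ * w * (2 * Z)) * Db + 2 * (κ * w) * Dh + ε * w * Dh
      = κ * w * Db * (2 * Z) + 2 * (κ * w * Dh * 1) + ε * w * Dh * 1 := by ring
  rw [e6] at c2
  linarith

set_option maxHeartbeats 1000000 in
/-- one revelation: `A²/(4b) - (A - Δh)²/(4(b + Δb))` against `(z² Δb + 2 z Δh)/4`, `A = z b + δK` -/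
theorem l8zp_alg {bmin zmax κ ε b z dK Db Dh : ℝ} (hbmin : 0 < bmin) (hzmax : 0 ≤ zmax)
    (hκ0 : 0 ≤ κ) (hκ1 : κ ≤ 1) (hε0 : 0 ≤ ε) (hε1 : ε ≤ 1) (hb : bmin ≤ b) (hz : |z| ≤ zmax) (hK : |dK| ≤ κ)
    (hDb0 : 0 ≤ Db) (hDb : Db ≤ ε) (hDh0 : 0 ≤ Dh) (hDh : Dh ≤ ε) :
    |((z * b + dK) ^ 2 / (4 * b) - (z * b + dK - Dh) ^ 2 / (4 * (b + Db))) - (1 / 4) * (z ^ 2 * Db + 2 * z * Dh)|
      ≤ ((zmax + 1 / bmin + 1) ^ 2 * (1 + 1 / bmin)) * (κ + ε) * (Db + Dh) := by
  have hb0 : 0 < b := lt_of_lt_of_le hbmin hb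
  have hbD : 0 < b + Db := by linarith
  set δ := dK / b with hδ
  have hδb : |δ| ≤ κ / bmin := by
    rw [hδ, abs_div, abs_of_pos hb0]
    exact div_le_div₀ hκ0 hK hbmin hb
  have hδ1 : |δ| ≤ 1 / bmin := hδb.trans (div_le_div_of_nonneg_right hκ1 hbmin.le)
  set ζ := z + δ with hζ
  have eA : z * b + dK = ζ * b := by rw [hζ, hδ]; field_simp
  have hζb : |ζ| ≤ zmax + 1 / bmin := (abs_add_le _ _).trans (add_le_add hz hδ1)
  set w := 1 / bmin with hw
  have hw0 : 0 < w := by positivity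
  -- exact formula
  have ex : (ζ * b) ^ 2 / (4 * b) - (ζ * b - Dh) ^ 2 / (4 * (b + Db))
      = (1 / 4) * (ζ ^ 2 * Db + 2 * ζ * Dh - Dh ^ 2 / b) * (1 - Db / (b + Db)) := by
    field_simp
    ring
  rw [eA, ex]
  set X := ζ ^ 2 * Db + 2 * ζ * Dh - Dh ^ 2 / b with hX
  have hinvb : 1 / b ≤ w := by
    rw [hw]; exact one_div_le_one_div_of_le hbmin hb
  have hD2 : Dh ^ 2 / b ≤ ε * w * Dh := by
    have : Dh ^ 2 / b = Dh * Dh * (1 / b) := by ring
    rw [this]
    calc Dh * Dh * (1 / b) ≤ ε * Dh * w :=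
          mul_le_mul (mul_le_mul_of_nonneg_right hDh hDh0) hinvb (by positivity) (by positivity)
      _ = ε * w * Dh := by ring
  have hD20 : 0 ≤ Dh ^ 2 / b := by positivity
  have hq : 0 ≤ Db / (b + Db) ∧ Db / (b + Db) ≤ ε * w := by
    constructor
    · positivity
    · rw [div_le_iff₀ hbD]
      have : 1 ≤ w * (b + Db) := by
        have : w * bmin = 1 := by rw [hw]; field_simp
        nlinarith
      nlinarith [mul_le_mul_of_nonneg_left this hε0]
  set Z := zmax + w with hZ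
  have hZ0 : 0 ≤ Z := by positivity
  -- |X - main| and |X|
  have e1 : X - (z ^ 2 * Db + 2 * z * Dh) = (2 * z * δ + δ ^ 2) * Db + 2 * δ * Dh - Dh ^ 2 / b := by
    rw [hX, hζ]; ring
  have hδκ : |δ| ≤ κ * w := by rw [hw]; rw [mul_one_div]; exact hδb
  have c1 : |2 * z * δ + δ ^ 2| ≤ κ * w * (2 * Z) := by
    have t1 : |2 * z * δ| ≤ 2 * zmax * (κ * w) := by
      rw [abs_mul, abs_mul]
      have : |(2 : ℝ)| = 2 := by norm_num
      rw [this]; gcongr
    have t2 : |δ ^ 2| ≤ (κ * w) * w := by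
      rw [abs_pow, sq]
      exact mul_le_mul hδκ hδ1 (abs_nonneg _) (by positivity)
    calc |2 * z * δ + δ ^ 2| ≤ 2 * zmax * (κ * w) + (κ * w) * w := (abs_add_le _ _).trans (add_le_add t1 t2)
      _ ≤ κ * w * (2 * Z) := by
          rw [hZ]
          have : 0 ≤ κ * w * w := by positivity
          nlinarith
  have c2 : |X - (z ^ 2 * Db + 2 * z * Dh)| ≤ (κ * w * (2 * Z)) * Db + 2 * (κ * w) * Dh + ε * w * Dh := by
    rw [e1]
    have t1 : |(2 * z * δ + δ ^ 2) * Db| ≤ (κ * w * (2 * Z)) * Db := by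
      rw [abs_mul, abs_of_nonneg hDb0]; exact mul_le_mul_of_nonneg_right c1 hDb0
    have t2 : |2 * δ * Dh| ≤ 2 * (κ * w) * Dh := by
      rw [abs_mul, abs_mul, abs_of_nonneg hDh0]
      have : |(2 : ℝ)| = 2 := by norm_num
      rw [this]; gcongr
    have t3 : |Dh ^ 2 / b| ≤ ε * w * Dh := by rw [abs_of_nonneg hD20]; exact hD2
    calc |(2 * z * δ + δ ^ 2) * Db + 2 * δ * Dh - Dh ^ 2 / b|
        ≤ |(2 * z * δ + δ ^ 2) * Db + 2 * δ * Dh| + |Dh ^ 2 / b| := abs_sub _ _
      _ ≤ |(2 * z * δ + δ ^ 2) * Db| + |2 * δ * Dh| + |Dh ^ 2 / b| := by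
          gcongr; exact abs_add_le _ _
      _ ≤ _ := by linarith
  have c3 : |X| ≤ Z ^ 2 * Db + 2 * Z * Dh + ε * w * Dh := by
    rw [hX]
    have t1 : |ζ ^ 2 * Db| ≤ Z ^ 2 * Db := by
      rw [abs_mul, abs_of_nonneg hDb0, abs_pow]
      exact mul_le_mul_of_nonneg_right (pow_le_pow_left₀ (abs_nonneg _) hζb 2) hDb0
    have t2 : |2 * ζ * Dh| ≤ 2 * Z * Dh := by
      rw [abs_mul, abs_mul, abs_of_nonneg hDh0]
      have : |(2 : ℝ)| = 2 := by norm_num
      rw [this]; gcongr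
    have t3 : |Dh ^ 2 / b| ≤ ε * w * Dh := by rw [abs_of_nonneg hD20]; exact hD2
    calc |ζ ^ 2 * Db + 2 * ζ * Dh - Dh ^ 2 / b|
        ≤ |ζ ^ 2 * Db + 2 * ζ * Dh| + |Dh ^ 2 / b| := abs_sub _ _
      _ ≤ |ζ ^ 2 * Db| + |2 * ζ * Dh| + |Dh ^ 2 / b| := by
          gcongr; exact abs_add_le _ _
      _ ≤ _ := by linarith
  have hY : zmax + w + 1 = Z + 1 := by rw [hZ]
  rw [hY]
  exact l8zp_alg_fin hκ0 hε0 hε1 hw0 (by rw [hZ]; linarith) hDb0 hDh0 hq.1 hq.2 c2 c3

/-! ## E. one revelation, integrated -/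

theorem l8zp_int_sq {a : ℝ} (ha : 0 ≤ a) {Kf : ℝ → ℝ} (hK : MonotoneOn Kf (Icc 0 a)) (H c : ℝ) :
    IntervalIntegrable (fun u => (Kf u - H) ^ 2 / c) volume 0 a := by
  have h0 : IntervalIntegrable Kf volume 0 a := MonotoneOn.intervalIntegrable (by rwa [uIcc_of_le ha])
  have h1 : IntervalIntegrable (fun u => Kf u - H) volume 0 a := h0.sub intervalIntegrable_const
  rw [intervalIntegrable_iff_integrableOn_Ioc_of_le ha] at h1 ⊢
  have h2 : IntegrableOn (fun u => (Kf u - H) * (Kf u - H)) (Ioc 0 a) := by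
    refine Integrable.bdd_mul (c := max |Kf 0 - H| |Kf a - H|) h1 h1.aestronglyMeasurable ?_
    refine (ae_restrict_iff' measurableSet_Ioc).2 (ae_of_all _ fun u hu => ?_)
    have hu' : u ∈ Icc 0 a := ⟨hu.1.le, hu.2⟩
    have l := hK (left_mem_Icc.2 ha) hu' hu.1.le
    have r := hK hu' (right_mem_Icc.2 ha) hu.2
    rw [Real.norm_eq_abs, abs_le]
    constructor
    · have := neg_abs_le (Kf 0 - H)
      have := le_max_left |Kf 0 - H| |Kf a - H|
      linarith
    · have := le_abs_self (Kf a - H)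
      have := le_max_right |Kf 0 - H| |Kf a - H|
      linarith
  have h3 := h2.div_const c
  refine h3.congr (ae_of_all _ fun u => ?_)
  simp only [sq]

theorem l8zp_int_c {a : ℝ} (ha : 0 ≤ a) {g : ℝ → ℝ} (hg : IntervalIntegrable g volume 0 a) (x y : ℝ) :
    IntervalIntegrable (fun u => ((if x ≤ u then (0 : ℝ) else 1) - (if y ≤ u then (0 : ℝ) else 1)) * g u) volume 0 a := by
  rw [intervalIntegrable_iff_integrableOn_Ioc_of_le ha] at hg ⊢
  refine Integrable.bdd_mul (c := 1) hg ?_ (ae_of_all _ fun u => ?_)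
  · refine Measurable.aestronglyMeasurable ?_
    exact (Measurable.ite measurableSet_Ici measurable_const measurable_const).sub
      (Measurable.ite measurableSet_Ici measurable_const measurable_const)
  · by_cases h1 : x ≤ u <;> by_cases h2 : y ≤ u <;> simp [h1, h2]

/-- final arithmetic of `l8zp_term` -/
theorem l8zp_term_fin {zmax κ σ ε C0 z f d Db Dh : ℝ} (hzmax : 0 ≤ zmax) (hκ0 : 0 ≤ κ) (hσ0 : 0 ≤ σ) (hε0 : 0 ≤ ε)
    (hC0 : 0 ≤ C0) (hz : |z| ≤ zmax) (hDb0 : 0 ≤ Db) (hDh0 : 0 ≤ Dh)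
    (h1 : |d| ≤ 4 / 3 * |f|) (h2 : |d - f| ≤ 4 / 3 * σ * |f|) :
    d * (1 / 4 * (z ^ 2 * Db + 2 * z * Dh)) + |d| * (C0 * (κ + ε) * (Db + Dh))
      ≤ (1 / 4) * (f * (z ^ 2 * Db + 2 * z * Dh)) + (2 * C0 + (zmax + 1) ^ 2) * (κ + σ + ε) * (|f| * (Db + Dh)) := by
  set T := z ^ 2 * Db + 2 * z * Dh with hT
  have hTb : |T| ≤ (zmax + 1) ^ 2 * (Db + Dh) := by
    have t1 : |z ^ 2 * Db| ≤ zmax ^ 2 * Db := by
      rw [abs_mul, abs_of_nonneg hDb0, abs_pow]
      exact mul_le_mul_of_nonneg_right (pow_le_pow_left₀ (abs_nonneg _) hz 2) hDb0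
    have t2 : |2 * z * Dh| ≤ 2 * zmax * Dh := by
      rw [abs_mul, abs_mul, abs_of_nonneg hDh0]
      have : |(2 : ℝ)| = 2 := by norm_num
      rw [this]; gcongr
    have t3 : zmax ^ 2 * Db ≤ (zmax + 1) ^ 2 * Db := mul_le_mul_of_nonneg_right (by nlinarith) hDb0
    have t4 : 2 * zmax * Dh ≤ (zmax + 1) ^ 2 * Dh := mul_le_mul_of_nonneg_right (by nlinarith [sq_nonneg zmax]) hDh0
    calc |T| ≤ |z ^ 2 * Db| + |2 * z * Dh| := abs_add_le _ _
      _ ≤ _ := by linarith
  have hf0 := abs_nonneg f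
  have hD : 0 ≤ Db + Dh := by linarith
  have a1 : (d - f) * T ≤ (4 / 3 * σ * |f|) * ((zmax + 1) ^ 2 * (Db + Dh)) := by
    calc (d - f) * T ≤ |(d - f) * T| := le_abs_self _
      _ = |d - f| * |T| := abs_mul _ _
      _ ≤ _ := mul_le_mul h2 hTb (abs_nonneg _) (by positivity)
  have a2 : |d| * (C0 * (κ + ε) * (Db + Dh)) ≤ (4 / 3 * |f|) * (C0 * (κ + ε) * (Db + Dh)) :=
    mul_le_mul_of_nonneg_right h1 (by positivity)
  have p1 : 0 ≤ C0 * κ * (|f| * (Db + Dh)) := by positivity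
  have p2 : 0 ≤ C0 * ε * (|f| * (Db + Dh)) := by positivity
  have p3 : 0 ≤ C0 * σ * (|f| * (Db + Dh)) := by positivity
  have p4 : 0 ≤ (zmax + 1) ^ 2 * κ * (|f| * (Db + Dh)) := by positivity
  have p5 : 0 ≤ (zmax + 1) ^ 2 * ε * (|f| * (Db + Dh)) := by positivity
  have p6 : 0 ≤ (zmax + 1) ^ 2 * σ * (|f| * (Db + Dh)) := by positivity
  nlinarith [a1, a2, p1, p2, p3, p4, p5, p6]

set_option maxHeartbeats 1000000 in
theorem l8zp_term {bmin zmax a α β κ σ ε m f μm b H Db Dh : ℝ} {Kf : ℝ → ℝ}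
    (hbmin : 0 < bmin) (hzmax : 0 ≤ zmax) (hα : 0 < α) (hαβ : α ≤ β) (hβ : β ≤ a)
    (hκ0 : 0 ≤ κ) (hκ1 : κ ≤ 1) (hσ0 : 0 ≤ σ) (hε0 : 0 ≤ ε) (hε1 : ε ≤ 1)
    (hK : MonotoneOn Kf (Icc 0 a)) (hKκ : Kf β - Kf α ≤ κ)
    (hm0 : 0 ≤ m) (hma : m ≤ a) (hDb0 : 0 ≤ Db) (hDh0 : 0 ≤ Dh)
    (hf0 : f = 0 → μm = m)
    (hf : f ≠ 0 → α ≤ m - 2 * |f| ∧ m + 2 * |f| ≤ β ∧ |μm - m| ≤ 4 / 3 * |f| ∧ |μm - m - f| ≤ 4 / 3 * σ * |f| ∧
       bmin ≤ b ∧ |(Kf m - H) / b| ≤ zmax ∧ Db ≤ ε ∧ Dh ≤ ε) :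
    IntervalIntegrable (fun u => ((if μm ≤ u then (0 : ℝ) else 1) - (if m ≤ u then (0 : ℝ) else 1)) *
        ((Kf u - H) ^ 2 / (4 * b) - (Kf u - (H + Dh)) ^ 2 / (4 * (b + Db)))) volume 0 a ∧
    ∫ u in (0 : ℝ)..a, ((if μm ≤ u then (0 : ℝ) else 1) - (if m ≤ u then (0 : ℝ) else 1)) *
        ((Kf u - H) ^ 2 / (4 * b) - (Kf u - (H + Dh)) ^ 2 / (4 * (b + Db)))
      ≤ (1 / 4) * (f * (((Kf m - H) / b) ^ 2 * Db + 2 * ((Kf m - H) / b) * Dh))
        + (2 * ((zmax + 1 / bmin + 1) ^ 2 * (1 + 1 / bmin)) + (zmax + 1) ^ 2) * (κ + σ + ε) * (|f| * (Db + Dh)) := by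
  have ha : 0 ≤ a := hm0.trans hma
  have hint := l8zp_int_c ha ((l8zp_int_sq ha hK H (4 * b)).sub (l8zp_int_sq ha hK (H + Dh) (4 * (b + Db)))) μm m
  refine ⟨hint, ?_⟩
  by_cases hfz : f = 0
  · rw [hf0 hfz, hfz]
    simp
  obtain ⟨s1, s2, d1, d2, hb, hz, hDb, hDh⟩ := hf hfz
  have hfa := abs_nonneg f
  have d1' := abs_le.1 d1
  have hμ0 : 0 ≤ μm := by linarith
  have hμa : μm ≤ a := by linarith
  set z := (Kf m - H) / b with hzd
  set C0 := (zmax + 1 / bmin + 1) ^ 2 * (1 + 1 / bmin) with hC0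
  have hC00 : 0 ≤ C0 := by positivity
  set T := z ^ 2 * Db + 2 * z * Dh with hT
  set E := C0 * (κ + ε) * (Db + Dh) with hE
  have hb0 : 0 < b := lt_of_lt_of_le hbmin hb
  -- pointwise estimate
  have hg : ∀ u, α ≤ u → u ≤ β →
      |((Kf u - H) ^ 2 / (4 * b) - (Kf u - (H + Dh)) ^ 2 / (4 * (b + Db))) - 1 / 4 * T| ≤ E := by
    intro u hu1 hu2
    have mα : α ∈ Icc 0 a := ⟨hα.le, hαβ.trans hβ⟩
    have mβ : β ∈ Icc 0 a := ⟨hα.le.trans hαβ, hβ⟩
    have mu : u ∈ Icc 0 a := ⟨hα.le.trans hu1, hu2.trans hβ⟩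
    have mm : m ∈ Icc 0 a := ⟨hm0, hma⟩
    have k1 := hK mα mu hu1
    have k2 := hK mu mβ hu2
    have k3 := hK mα mm (by linarith)
    have k4 := hK mm mβ (by linarith)
    have hdK : |Kf u - Kf m| ≤ κ := by
      rw [abs_le]; constructor <;> linarith
    have := l8zp_alg hbmin hzmax hκ0 hκ1 hε0 hε1 hb hz hdK hDb0 hDb hDh0 hDh
    have e1 : z * b + (Kf u - Kf m) = Kf u - H := by
      rw [hzd]; field_simp; ring
    rw [e1] at this
    have e2 : Kf u - H - Dh = Kf u - (H + Dh) := by ring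
    rw [e2] at this
    exact this
  -- sign
  obtain ⟨s, hs, hsd⟩ : ∃ s : ℝ, (s = 1 ∧ m ≤ μm ∨ s = -1 ∧ μm ≤ m) ∧ (μm - m) * s = |μm - m| := by
    rcases le_total m μm with h | h
    · exact ⟨1, Or.inl ⟨rfl, h⟩, by rw [abs_of_nonneg (by linarith)]; ring⟩
    · exact ⟨-1, Or.inr ⟨rfl, h⟩, by rw [abs_of_nonpos (by linarith)]; ring⟩
  have i1 := l8zp_iota hμ0 hμa
  have i2 := l8zp_iota hm0 hma
  have hcint : IntervalIntegrable (fun u => ((if μm ≤ u then (0 : ℝ) else 1) - (if m ≤ u then (0 : ℝ) else 1)) *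
      (1 / 4 * T + s * E)) volume 0 a := (i1.1.sub i2.1).mul_const _
  have hmono := intervalIntegral.integral_mono_on ha hint hcint (fun u hu => by
    by_cases h1 : μm ≤ u <;> by_cases h2 : m ≤ u
    · simp [h1, h2]
    · simp only [h1, h2, if_true, if_false]
      have h2' := not_le.1 h2
      have hs' : s = -1 := by
        rcases hs with ⟨_, h⟩ | ⟨h, _⟩
        · linarith
        · exact h
      have := abs_le.1 (hg u (by linarith) (by linarith))
      rw [hs']
      linarith [this.1]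
    · simp only [h1, h2, if_true, if_false]
      have h1' := not_le.1 h1
      have hs' : s = 1 := by
        rcases hs with ⟨h, _⟩ | ⟨_, h⟩
        · exact h
        · linarith
      have := abs_le.1 (hg u (by linarith) (by linarith))
      rw [hs']
      linarith [this.2]
    · simp [h1, h2])
  refine hmono.trans ?_
  rw [intervalIntegral.integral_mul_const, intervalIntegral.integral_sub i1.1 i2.1, i1.2, i2.2]
  have := l8zp_term_fin (z := z) (f := f) (d := μm - m) (Db := Db) (Dh := Dh) hzmax hκ0 hσ0 hε0 hC00 hz hDb0 hDh0 d1 d2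
  calc (μm - m) * (1 / 4 * T + s * E) = (μm - m) * (1 / 4 * T) + |μm - m| * E := by rw [← hsd]; ring
    _ ≤ _ := this

/-! ## F. assembly -/

/-- Abel summation of the penalty difference, pointwise in the mass `u` -/
theorem l8zp_abel (a : ℝ) (μ : ℝ → ℝ) (P : SkStp) (h1 : P.Pairwise (fun e e' => e.m ≤ e'.m))
    (h2 : (saMv μ P).Pairwise (fun e e' => e.m ≤ e'.m)) (K u : ℝ) :
    (K - skClkH (saMv μ P) u) ^ 2 / (4 * skClkB (saMv μ P) u) - (K - skClkH P u) ^ 2 / (4 * skClkB P u)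
      = ∑ k ∈ range P.length, ((if μ (skMs a P k) ≤ u then (0 : ℝ) else 1) - (if skMs a P k ≤ u then (0 : ℝ) else 1)) *
        ((K - skCumH P k) ^ 2 / (4 * skCumB P k) - (K - (skCumH P k + saDh P k)) ^ 2 / (4 * (skCumB P k + saDb P k))) := by
  obtain ⟨j, hj, hf, hk⟩ := l8zp_filter_take a u P h1
  obtain ⟨j', hj', hf', hk'⟩ := l8zp_filter_take a u (saMv μ P) h2
  have hlen : (saMv μ P).length = P.length := by simp [saMv]
  rw [hlen] at hj' hk'
  have eB : skClkB P u = skCumB P j := by rw [skClkB, hf, skCumB]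
  have eH : skClkH P u = skCumH P j := by rw [skClkH, hf, skCumH]
  have eB' : skClkB (saMv μ P) u = skCumB P j' := by rw [skClkB, hf', ← (l8zp_cum_mv μ P j').1, skCumB]
  have eH' : skClkH (saMv μ P) u = skCumH P j' := by rw [skClkH, hf', ← (l8zp_cum_mv μ P j').2, skCumH]
  rw [eB, eH, eB', eH']
  have t1 := l8zp_tele (fun i => (K - skCumH P i) ^ 2 / (4 * skCumB P i)) j P.length hj
  have t2 := l8zp_tele (fun i => (K - skCumH P i) ^ 2 / (4 * skCumB P i)) j' P.length hj'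
  beta_reduce at t1 t2
  rw [t1, t2, add_sub_add_left_eq_sub, ← Finset.sum_sub_distrib]
  refine Finset.sum_congr rfl fun k hkr => ?_
  have hkN := Finset.mem_range.1 hkr
  have c1 := hk k hkN
  have c2 := hk' k hkN
  rw [l8zp_ms_mv a μ P hkN] at c2
  obtain ⟨sB, sH⟩ := l8zp_cum_succ P hkN
  rw [sB, sH]
  by_cases q1 : k < j <;> by_cases q2 : k < j'
  · simp [q1, q2, c1.2 q1, c2.2 q2]
  · have n2 : ¬ μ (skMs a P k) ≤ u := fun h => q2 (c2.1 h)
    simp [q1, q2, c1.2 q1, n2]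
  · have n1 : ¬ skMs a P k ≤ u := fun h => q1 (c1.1 h)
    simp [q1, q2, n1, c2.2 q2]
  · have n1 : ¬ skMs a P k ≤ u := fun h => q1 (c1.1 h)
    have n2 : ¬ μ (skMs a P k) ≤ u := fun h => q2 (c2.1 h)
    simp [q1, q2, n1, n2]

theorem l8z_pen : L8Z_Pen := by
  intro bmin zmax hbmin hzmax
  refine ⟨2 * ((zmax + 1 / bmin + 1) ^ 2 * (1 + 1 / bmin)) + (zmax + 1) ^ 2, by positivity, ?_⟩
  intro a α β κ σ ε P Kf φ hadm hα hαβ hβ hκ0 hκ1 hσ0 hσ1 hε0 hε1 hB hK hKκ hinc hcum
  have hr : ∀ v, 0 ≤ v → |φ v| ≤ v / 4 := by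
    intro v hv
    rcases hB.rel v with h | h
    · refine h.trans ?_
      have := mul_le_mul_of_nonneg_right hσ1 hv
      linarith
    · rw [h, abs_zero]; positivity
  have hsort : (saMv (l12m φ 1) P).Pairwise (fun e e' => e.m ≤ e'.m) := by
    rw [saMv, List.pairwise_map]
    refine hadm.1.imp_of_mem ?_
    intro e e' he he' hee
    exact l8zp_mu_mono hB.slope hr (hadm.2 e he).1 hee
  have key := fun u => l8zp_abel a (l12m φ 1) P hadm.1 hsort (Kf u) u
  simp only [key]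
  have hterm : ∀ k ∈ range P.length,
      IntervalIntegrable (fun u => ((if l12m φ 1 (skMs a P k) ≤ u then (0 : ℝ) else 1) - (if skMs a P k ≤ u then (0 : ℝ) else 1)) *
        ((Kf u - skCumH P k) ^ 2 / (4 * skCumB P k) - (Kf u - (skCumH P k + saDh P k)) ^ 2 / (4 * (skCumB P k + saDb P k))))
        volume 0 a ∧
      ∫ u in (0 : ℝ)..a, ((if l12m φ 1 (skMs a P k) ≤ u then (0 : ℝ) else 1) - (if skMs a P k ≤ u then (0 : ℝ) else 1)) *
        ((Kf u - skCumH P k) ^ 2 / (4 * skCumB P k) - (Kf u - (skCumH P k + saDh P k)) ^ 2 / (4 * (skCumB P k + saDb P k)))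
      ≤ (1 / 4) * (φ (skMs a P k) * (saZ a P Kf k ^ 2 * saDb P k + 2 * saZ a P Kf k * saDh P k))
        + (2 * ((zmax + 1 / bmin + 1) ^ 2 * (1 + 1 / bmin)) + (zmax + 1) ^ 2) * (κ + σ + ε)
          * (|φ (skMs a P k)| * (saDb P k + saDh P k)) := fun k hk => by
    have hkN := Finset.mem_range.1 hk
    obtain ⟨e, he, em, eb, eh⟩ := l8zp_ms_mem a P hkN
    obtain ⟨a1, a2, a3, a4⟩ := hadm.2 e he
    exact l8zp_term (bmin := bmin) (zmax := zmax) (a := a) (α := α) (β := β) (κ := κ) (σ := σ) (ε := ε)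
      (m := skMs a P k) (f := φ (skMs a P k)) (μm := l12m φ 1 (skMs a P k)) (b := skCumB P k) (H := skCumH P k)
      (Db := saDb P k) (Dh := saDh P k) (Kf := Kf) hbmin hzmax hα hαβ hβ hκ0 hκ1 hσ0 hε0 hε1 hK hKκ
      (by rw [em]; exact a1) (by rw [em]; exact a2) (by rw [eb]; exact a3) (by rw [eh]; exact a4)
      (fun h => l8zp_mu_of_zero h)
      (fun h => by
        obtain ⟨s1, s2⟩ := hB.supp _ h
        have hfa := abs_nonneg (φ (skMs a P k))
        have hmp : 0 < skMs a P k := by linarith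
        have h4 := hr _ hmp.le
        have hσm : |φ (skMs a P k)| ≤ σ * skMs a P k := by
          rcases hB.rel (skMs a P k) with h' | h'
          · exact h'
          · exact absurd h' h
        have hc := hcum k hkN (by linarith) (by linarith)
        have hi := hinc e he (by rw [← em]; linarith) (by rw [← em]; linarith)
        exact ⟨s1, s2, l12p_m_abs hmp h4, l12p_m_err hmp h4 hσm, hc.1, hc.2, by rw [eb]; exact hi.1, by rw [eh]; exact hi.2⟩)
  rw [intervalIntegral.integral_finsetSum (fun k hk => (hterm k hk).1), Finset.mul_sum, Finset.mul_sum,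
    ← Finset.sum_add_distrib]
  exact Finset.sum_le_sum fun k hk => (hterm k hk).2

/-! ## G. assembly of (D13) on the fine level -/

theorem l8zp_int_i {a : ℝ} (ha : 0 ≤ a) {g : ℝ → ℝ} (hg : IntervalIntegrable g volume 0 a) (x : ℝ) :
    IntervalIntegrable (fun u => (if x ≤ u then (0 : ℝ) else g u)) volume 0 a := by
  rw [intervalIntegrable_iff_integrableOn_Ioc_of_le ha] at hg ⊢
  have : (fun u => (if x ≤ u then (0 : ℝ) else g u)) = (Set.Iio x).indicator g := by
    funext u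
    by_cases h : x ≤ u
    · simp [h]
    · simp [h, not_le.1 h]
  rw [this]
  exact hg.indicator measurableSet_Iio

/-- the penalty density of a sorted step path against a monotone trial clock is integrable -/
theorem l8zp_pen_int {a : ℝ} (ha : 0 ≤ a) (P : SkStp) (h1 : P.Pairwise (fun e e' => e.m ≤ e'.m))
    {Kf : ℝ → ℝ} (hK : MonotoneOn Kf (Icc 0 a)) :
    IntervalIntegrable (fun u => (Kf u - skClkH P u) ^ 2 / (4 * skClkB P u)) volume 0 a := by
  have key : ∀ u, (Kf u - skClkH P u) ^ 2 / (4 * skClkB P u)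
      = (Kf u - skCumH P P.length) ^ 2 / (4 * skCumB P P.length) + ∑ k ∈ range P.length,
        (if skMs a P k ≤ u then (0 : ℝ) else
          (Kf u - skCumH P k) ^ 2 / (4 * skCumB P k) - (Kf u - skCumH P (k + 1)) ^ 2 / (4 * skCumB P (k + 1))) := by
    intro u
    obtain ⟨j, hj, hf, hk⟩ := l8zp_filter_take a u P h1
    have eB : skClkB P u = skCumB P j := by rw [skClkB, hf, skCumB]
    have eH : skClkH P u = skCumH P j := by rw [skClkH, hf, skCumH]
    rw [eB, eH]
    have t1 := l8zp_tele (fun i => (Kf u - skCumH P i) ^ 2 / (4 * skCumB P i)) j P.length hj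
    beta_reduce at t1
    rw [t1]
    congr 1
    refine Finset.sum_congr rfl fun k hkr => ?_
    have c1 := hk k (Finset.mem_range.1 hkr)
    by_cases q1 : k < j
    · rw [if_pos q1, if_pos (c1.2 q1)]
    · rw [if_neg q1, if_neg (fun h => q1 (c1.1 h))]
  simp only [key]
  refine (l8zp_int_sq ha hK _ _).add ?_
  have := IntervalIntegrable.sum (μ := volume) (a := (0 : ℝ)) (b := a) (range P.length)
    (f := fun k u => (if skMs a P k ≤ u then (0 : ℝ) else
          (Kf u - skCumH P k) ^ 2 / (4 * skCumB P k) - (Kf u - skCumH P (k + 1)) ^ 2 / (4 * skCumB P (k + 1))))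
    (fun k _ => l8zp_int_i ha ((l8zp_int_sq ha hK _ _).sub (l8zp_int_sq ha hK _ _)) _)
  refine this.congr ?_
  intro u _
  simp only [Finset.sum_apply]

theorem l8zp_mv_tot (μ : ℝ → ℝ) (P : SkStp) : skTotB (saMv μ P) = skTotB P ∧ skTotH (saMv μ P) = skTotH P := by
  constructor
  · simp [skTotB, saMv, Function.comp_def]
  · simp [skTotH, saMv, Function.comp_def]

theorem l8zp_q4 {σ α β : ℝ} {φ : ℝ → ℝ} (hB : L8ZBump (1 / 4) σ α β φ) (hσ1 : σ ≤ 1 / 4) :
    ∀ v, 0 ≤ v → |φ v| ≤ v / 4 := by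
  intro v hv
  rcases hB.rel v with h | h
  · refine h.trans ?_
    have := mul_le_mul_of_nonneg_right hσ1 hv
    linarith
  · rw [h, abs_zero]; positivity

/-- a point moved by the bump lies, with its image, in `[α,β]` -/
theorem l8zp_moved {σ α β : ℝ} {φ : ℝ → ℝ} (hB : L8ZBump (1 / 4) σ α β φ) (hσ1 : σ ≤ 1 / 4) (hα : 0 < α)
    {v : ℝ} (h : l12m φ 1 v ≠ v) : φ v ≠ 0 ∧ α ≤ v ∧ v ≤ β ∧ α ≤ l12m φ 1 v ∧ l12m φ 1 v ≤ β := by
  have hφ : φ v ≠ 0 := fun h0 => h (l8zp_mu_of_zero h0)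
  obtain ⟨s1, s2⟩ := hB.supp v hφ
  have hfa := abs_nonneg (φ v)
  have hv : 0 < v := by linarith
  have := abs_le.1 (l12p_m_abs hv (l8zp_q4 hB hσ1 v hv.le))
  exact ⟨hφ, by linarith, by linarith, by linarith, by linarith⟩

theorem l8zp_mv_adm {a σ α β : ℝ} {φ : ℝ → ℝ} {P : SkStp} (hB : L8ZBump (1 / 4) σ α β φ) (hσ1 : σ ≤ 1 / 4)
    (hα : 0 < α) (hβ : β ≤ a) (hadm : SkAdm a P) : SkAdm a (saMv (l12m φ 1) P) := by
  constructor
  · rw [saMv, List.pairwise_map]
    refine hadm.1.imp_of_mem ?_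
    intro e e' he he' hee
    exact l8zp_mu_mono hB.slope (l8zp_q4 hB hσ1) (hadm.2 e he).1 hee
  · intro e' he'
    rw [saMv, List.mem_map] at he'
    obtain ⟨e, he, rfl⟩ := he'
    obtain ⟨a1, a2, a3, a4⟩ := hadm.2 e he
    refine ⟨?_, ?_, a3, a4⟩
    · by_cases h : l12m φ 1 e.m = e.m
      · simpa [h] using a1
      · have := l8zp_moved hB hσ1 hα h
        simp only
        linarith [this.2.2.2.1]
    · by_cases h : l12m φ 1 e.m = e.m
      · simpa [h] using a2
      · have := l8zp_moved hB hσ1 hα h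
        simp only
        linarith [this.2.2.2.2]

/-- after the mass change the matrix clock vanishes only where nothing has changed -/
theorem l8zp_mv_zero {a σ α β bmin : ℝ} {φ : ℝ → ℝ} {P : SkStp} (hB : L8ZBump (1 / 4) σ α β φ) (hσ1 : σ ≤ 1 / 4)
    (hα : 0 < α) (hβ : β ≤ a) (hadm : SkAdm a P) (hbmin : 0 < bmin)
    (hcum : ∀ k < P.length, α ≤ skMs a P k → skMs a P k ≤ β → bmin ≤ skCumB P k) (u : ℝ)
    (h0 : skClkB (saMv (l12m φ 1) P) u = 0) :
    skClkB (saMv (l12m φ 1) P) u = skClkB P u ∧ skClkH (saMv (l12m φ 1) P) u = skClkH P u := by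
  set μ := l12m φ 1 with hμ
  obtain ⟨j, hj, hf, hk⟩ := l8zp_filter_take a u P hadm.1
  obtain ⟨j', hj', hf', hk'⟩ := l8zp_filter_take a u (saMv μ P) (l8zp_mv_adm hB hσ1 hα hβ hadm).1
  have hlen : (saMv μ P).length = P.length := by simp [saMv]
  rw [hlen] at hj' hk'
  have eB : skClkB P u = skCumB P j := by rw [skClkB, hf, skCumB]
  have eH : skClkH P u = skCumH P j := by rw [skClkH, hf, skCumH]
  have eB' : skClkB (saMv μ P) u = skCumB P j' := by rw [skClkB, hf', ← (l8zp_cum_mv μ P j').1, skCumB]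
  have eH' : skClkH (saMv μ P) u = skCumH P j' := by rw [skClkH, hf', ← (l8zp_cum_mv μ P j').2, skCumH]
  rw [eB'] at h0
  rw [eB, eH, eB', eH']
  rcases lt_trichotomy j' j with h | h | h
  · exfalso
    have hN : j' < P.length := lt_of_lt_of_le h hj
    have c1 := (hk j' hN).2 h
    have c2 : ¬ μ (skMs a P j') ≤ u := by
      have := hk' j' hN
      rw [l8zp_ms_mv a μ P hN] at this
      exact fun hh => absurd (this.1 hh) (lt_irrefl _)
    have hne : μ (skMs a P j') ≠ skMs a P j' := fun he => c2 (by rw [he]; exact c1)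
    have hm := l8zp_moved hB hσ1 hα hne
    have := hcum j' hN hm.2.1 hm.2.2.1
    linarith
  · rw [h]; exact ⟨rfl, rfl⟩
  · exfalso
    obtain ⟨i, rfl⟩ : ∃ i, j' = i + 1 := ⟨j' - 1, by omega⟩
    have hN : i < P.length := by omega
    have c1 : ¬ skMs a P i ≤ u := fun hh => by
      have := (hk i hN).1 hh
      omega
    have c2 : μ (skMs a P i) ≤ u := by
      have := hk' i hN
      rw [l8zp_ms_mv a μ P hN] at this
      exact this.2 (Nat.lt_succ_self i)
    have hne : μ (skMs a P i) ≠ skMs a P i := fun he => c1 (by rw [← he]; exact c2)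
    have hm := l8zp_moved hB hσ1 hα hne
    have hb := hcum i hN hm.2.1 hm.2.2.1
    obtain ⟨e, he, _, eb, _⟩ := l8zp_ms_mem a P hN
    have hdb : 0 ≤ saDb P i := by rw [eb]; exact (hadm.2 e he).2.2.1
    rw [(l8zp_cum_succ P hN).1] at h0
    linarith

/-- one term of the subgradient sum against the statistics at the two neighbouring cuts -/
theorem l8zp_coef {m f I n Db Dh B0 S0 B1 S1 : ℝ} (hm : 0 ≤ m) (hf4 : |f| ≤ m / 4)
    (lo : m / 2 * n * (Db / 2 * B0 + Dh * S0) ≤ I) (up : I ≤ m / 2 * n * (Db / 2 * B1 + Dh * S1)) :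
    (0 ≤ f → f * (n / 4) * (B0 * Db + 2 * S0 * Dh) ≤ (1 - m / (m ^ 2 / (m - 1 * f))) * I) ∧
    (f ≤ 0 → f * (n / 4) * (B1 * Db + 2 * S1 * Dh) ≤ (1 - m / (m ^ 2 / (m - 1 * f))) * I) := by
  rcases hm.eq_or_lt with h0 | hpos
  · have hf : f = 0 := by
      rw [← h0] at hf4
      have : |f| ≤ 0 := by simpa using hf4
      exact abs_eq_zero.1 (le_antisymm this (abs_nonneg _))
    rw [← h0] at lo ⊢
    rw [hf]
    have : 0 ≤ I := by simpa using lo
    constructor <;> intro _ <;> simpa using this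
  · have hd : 0 < m - 1 * f := by
      have := (abs_le.1 hf4).2
      linarith
    have e : 1 - m / (m ^ 2 / (m - 1 * f)) = f / m := by
      field_simp
      ring
    rw [e]
    constructor
    · intro hf
      have := mul_le_mul_of_nonneg_left lo (div_nonneg hf hpos.le)
      calc f * (n / 4) * (B0 * Db + 2 * S0 * Dh) = f / m * (m / 2 * n * (Db / 2 * B0 + Dh * S0)) := by
            field_simp; ring
        _ ≤ _ := this
    · intro hf
      have := mul_le_mul_of_nonpos_left up (div_nonpos_of_nonpos_of_nonneg hf hpos.le)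
      calc f * (n / 4) * (B1 * Db + 2 * S1 * Dh) = f / m * (m / 2 * n * (Db / 2 * B1 + Dh * S1)) := by
            field_simp; ring
        _ ≤ _ := this

/-- **(D13) on the fine level**, from the three probabilistic inputs and `l8z_pen`.  (`L8Z_Decouple` is not needed: the trial excess `E0`
is measured with the same `skPr n a Q`.) -/
theorem l8z_d13 (hS : L8Z_Subgrad) (hE : L8Z_Ent) (hT : L8Z_Trial) : L8Z_D13 := by
  intro bmin zmax hbmin hzmax
  obtain ⟨C, hC, hpen⟩ := l8z_pen bmin zmax hbmin hzmax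
  refine ⟨4 * C, by positivity, ?_⟩
  intro n a α β κ σ ε E0 P Q φ s hn ha hadm hadmQ hQ hzero hE0 hα hαβ hβ hκ0 hκ1 hσ0 hσ1 hε0 hε1 hB hKκ hinc hcum hsgn
  set μ := l12m φ 1 with hμ
  have hq4 := l8zp_q4 hB hσ1
  have hadm' : SkAdm a (saMv μ P) := l8zp_mv_adm hB hσ1 hα hβ hadm
  have hKm : MonotoneOn (skClkH Q) (Icc 0 a) :=
    ((sk_stp_clk_mono Q fun e he => ⟨(hadmQ.2 e he).2.2.1, (hadmQ.2 e he).2.2.2⟩).2).monotoneOn _
  have hnR : (0 : ℝ) < n := by exact_mod_cast hn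
  -- 1. subgradient + entropy production
  have h1 := hS n a P μ hn ha hadm (by simp [hμ, l12m]) (fun e he hpos => by
    have := (abs_le.1 (hq4 e.m hpos.le)).2
    rw [hμ, l12m, one_mul]
    exact div_pos (by positivity) (by linarith))
  have h2 : ∑ k ∈ range P.length, φ (skMs a P k) * ((n : ℝ) / 4) *
      (obB n a P 0 (k + s) * saDb P k + 2 * obS n a P 0 (k + s) * saDh P k)
      ≤ ∑ k ∈ range P.length, (1 - skMs a P k / μ (skMs a P k)) * saInc n a P k := by
    refine Finset.sum_le_sum fun k hk => ?_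
    have hkN := Finset.mem_range.1 hk
    obtain ⟨e, he, em, _, _⟩ := l8zp_ms_mem a P hkN
    have hm0 : 0 ≤ skMs a P k := by rw [em]; exact (hadm.2 e he).1
    obtain ⟨lo, up⟩ := hE n a P k hn ha hadm hkN
    have := l8zp_coef hm0 (hq4 _ hm0) lo up
    rcases hsgn with ⟨rfl, hs⟩ | ⟨rfl, hs⟩
    · exact this.1 (hs _)
    · exact this.2 (hs _)
  -- 2. trial bound for the moved path
  have h3 := hT n a (saMv μ P) Q hn ha hadm' hadmQ hQ (fun u hu h0 => by
    obtain ⟨zB, zH⟩ := l8zp_mv_zero hB hσ1 hα hβ hadm hbmin (fun k hk k1 k2 => (hcum k hk k1 k2).1) u h0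
    rw [zH]
    exact hzero u hu (by rw [← zB]; exact h0))
  -- 3. penalty difference
  have h4 := hpen a α β κ σ ε P (skClkH Q) φ hadm hα hαβ hβ hκ0 hκ1 hσ0 hσ1 hε0 hε1 hB hKm hKκ hinc hcum
  rw [intervalIntegral.integral_sub (l8zp_pen_int ha.le _ hadm'.1 hKm) (l8zp_pen_int ha.le _ hadm.1 hKm)] at h4
  -- 4. pressures
  have h5 : skPr n a (saMv μ P) - skPr n a P = (skF n a (saMv μ P) 0 - skF n a P 0) / n := by
    rw [skPr, skPr, (l8zp_mv_tot μ P).1, (l8zp_mv_tot μ P).2]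
    ring
  have h6 : (1 / 4) * ∑ k ∈ range P.length, φ (skMs a P k) *
      (obB n a P 0 (k + s) * saDb P k + 2 * obS n a P 0 (k + s) * saDh P k) ≤ skPr n a (saMv μ P) - skPr n a P := by
    rw [h5, le_div_iff₀ hnR]
    refine le_trans (le_of_eq ?_) (h2.trans h1)
    rw [Finset.mul_sum, Finset.sum_mul]
    refine Finset.sum_congr rfl fun k _ => ?_
    ring
  have h7 : ∑ k ∈ range P.length, φ (skMs a P k) *
        ((obB n a P 0 (k + s) - saZ a P (skClkH Q) k ^ 2) * saDb P k + 2 * (obS n a P 0 (k + s) - saZ a P (skClkH Q) k) * saDh P k)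
      = ∑ k ∈ range P.length, φ (skMs a P k) * (obB n a P 0 (k + s) * saDb P k + 2 * obS n a P 0 (k + s) * saDh P k)
        - ∑ k ∈ range P.length, φ (skMs a P k) * (saZ a P (skClkH Q) k ^ 2 * saDb P k + 2 * saZ a P (skClkH Q) k * saDh P k) := by
    rw [← Finset.sum_sub_distrib]
    refine Finset.sum_congr rfl fun k _ => ?_
    ring
  rw [h7]
  linarith

end Pen

end Claimed.Agent.R286
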