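/-
Row 286, package L12: proofs of the small contracts of `L12A` (helper163).
-/
import Claimed.Agent.R286.L08.L12A

set_option autoImplicit false
open MeasureTheory Set Filter Topology

namespace Claimed.Agent.R286

theorem l12_quad_pf : l12_quad := by
  intro D A B hD hA hB h
  by_contra hcon
  rw [not_le] at hcon
  have hs := Real.sqrt_nonneg B
  have hsq : Real.sqrt B ^ 2 = B := Real.sq_sqrt hB
  nlinarith [mul_pos (lt_of_le_of_lt (add_nonneg hA hs) hcon) (sub_pos.2 hcon)]

theorem l12_d13_glue_pf : l12_d13_glue := by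
  intro F F0' fs P0 P1 E0 hF hd h1 h0
  have key : F0' ≤ F 1 - F 0 := by
    -- slopes of a convex function are monotone
    have hlim := hasDerivWithinAt_iff_tendsto_slope.1 hd
    have hev : ∀ᶠ y in 𝓝[Ici (0:ℝ) \ {0}] (0:ℝ), slope F 0 y ≤ F 1 - F 0 := by
      have hmem : Ioc (0:ℝ) 1 ∈ 𝓝[Ici (0:ℝ) \ {0}] (0:ℝ) := by
        have : Ici (0:ℝ) \ {0} = Ioi 0 := by
          ext y; simp [lt_iff_le_and_ne, eq_comm]
        rw [this]
        exact Ioc_mem_nhdsGT one_pos
      filter_upwards [hmem] with y hy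
      have hy0 : (0:ℝ) < y := hy.1
      have hy1 : y ≤ 1 := hy.2
      have hc := hF.2 (show (0:ℝ) ∈ Icc (0:ℝ) 1 by simp) (show (1:ℝ) ∈ Icc (0:ℝ) 1 by simp)
        (show (0:ℝ) ≤ 1 - y by linarith) hy0.le (by ring)
      simp only [smul_eq_mul, mul_zero, mul_one, zero_add] at hc
      rw [slope_def_field]
      rw [div_le_iff₀ (by linarith)]
      nlinarith
    have hne : (𝓝[Ici (0:ℝ) \ {0}] (0:ℝ)).NeBot := by
      have : Ici (0:ℝ) \ {0} = Ioi 0 := by
        ext y; simp [lt_iff_le_and_ne, eq_comm]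
      rw [this]; infer_instance
    exact le_of_tendsto hlim hev
  linarith

theorem l12_secant_pf : l12_secant := by
  intro Γ Γ' t b f hΓ hc
  have h1 : ∫ y in (0:ℝ)..1, (b * f) * Γ' (t + y * (b * f)) = Γ (t + b * f) - Γ t := by
    have hder : ∀ y ∈ uIcc (0:ℝ) 1, HasDerivAt (fun y => Γ (t + y * (b * f))) ((b * f) * Γ' (t + y * (b * f))) y := by
      intro y _
      have h2 : HasDerivAt (fun y : ℝ => t + y * (b * f)) (b * f) y := by
        simpa using ((hasDerivAt_id y).mul_const (b * f)).const_add t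
      have h3 := HasDerivAt.comp y (hΓ (t + y * (b * f))) h2
      have e : (Γ ∘ fun y : ℝ => t + y * (b * f)) = fun y => Γ (t + y * (b * f)) := rfl
      rw [e] at h3
      exact h3.congr_deriv (mul_comm _ _)
    have hint : IntervalIntegrable (fun y => (b * f) * Γ' (t + y * (b * f))) volume 0 1 := by
      apply Continuous.intervalIntegrable
      fun_prop
    have := intervalIntegral.integral_eq_sub_of_hasDerivAt hder hint
    simpa using this
  have h2 : ∫ y in (0:ℝ)..1, (1 - b * Γ' (t + y * (b * f))) = 1 - ∫ y in (0:ℝ)..1, b * Γ' (t + y * (b * f)) := by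
    rw [intervalIntegral.integral_sub]
    · simp
    · exact continuous_const.intervalIntegrable _ _
    · apply Continuous.intervalIntegrable; fun_prop
  have h3 : ∫ y in (0:ℝ)..1, (b * f) * Γ' (t + y * (b * f)) = f * ∫ y in (0:ℝ)..1, b * Γ' (t + y * (b * f)) := by
    rw [← intervalIntegral.integral_const_mul]
    congr 1; ext y; ring
  rw [h2, mul_sub, ← h3, h1]; ring

theorem l12_mean_cvx_pf : l12_mean_cvx := by
  intro Ω _ μ s G hs hG hint
  refine ⟨hs, ?_⟩
  intro x hx y hy a b ha hb hab
  have hxy : a • x + b • y ∈ s := hs hx hy ha hb hab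
  have h1 : ∫ w, G (a • x + b • y) w ∂μ ≤ ∫ w, (a * G x w + b * G y w) ∂μ := by
    refine integral_mono (hint _ hxy) (((hint _ hx).const_mul a).add ((hint _ hy).const_mul b)) ?_
    intro w
    have := (hG w).2 hx hy ha hb hab
    simpa [smul_eq_mul] using this
  rw [integral_add ((hint _ hx).const_mul a) ((hint _ hy).const_mul b), integral_const_mul, integral_const_mul] at h1
  simpa [smul_eq_mul] using h1


theorem l12_cap_pf : l12_cap := by
  intro x δ U Zold C C0 rmax c1 c2 f hx0 hx1 hδ hU hUx hZ hC0 hrmax hc1 hc12 hf hD1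
  set Y : ℝ := x ^ (δ / 3) with hY
  have hYpos : 0 < Y := Real.rpow_pos_of_pos hx0 _
  have h1 : 1 ≤ min Zold (Y / U) := le_min hZ ((one_le_div hU).2 hUx)
  have h3 : U * min Zold (Y / U) ≤ Y := by
    calc U * min Zold (Y / U) ≤ U * (Y / U) := mul_le_mul_of_nonneg_left (min_le_right _ _) hU.le
      _ = Y := by field_simp
  refine ⟨h1, min_le_left _ _, h3, ?_⟩
  intro r hr1 hr2
  have hr : 0 < r := lt_of_lt_of_le hU hr1
  rcases le_total Zold (Y / U) with hcase | hcase
  · rw [min_eq_left hcase]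
    refine (hD1 r hr1 hr2).trans ?_
    have : 0 ≤ (U * Zold) ^ 4 / r ^ 2 := by positivity
    calc C * (U * Zold) ^ 4 / r ^ 2 = C * ((U * Zold) ^ 4 / r ^ 2) := by ring
      _ ≤ max C ((c2 - c1) * C0 ^ 2 * rmax ^ 2) * ((U * Zold) ^ 4 / r ^ 2) :=
          mul_le_mul_of_nonneg_right (le_max_left _ _) this
      _ = _ := by ring
  · rw [min_eq_right hcase]
    have hUY : U * (Y / U) = Y := by field_simp
    rw [hUY]
    have hint : ∫ v in (c1 * r)..(c2 * r), f v ^ 2 ≤ (C0 * x ^ δ) ^ 2 * ((c2 - c1) * r) := by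
      have hb := intervalIntegral.norm_integral_le_of_norm_le_const (a := c1 * r) (b := c2 * r)
        (f := fun v => f v ^ 2) (C := (C0 * x ^ δ) ^ 2) (by
          intro v _
          rw [Real.norm_of_nonneg (sq_nonneg _), ← sq_abs]
          exact pow_le_pow_left₀ (abs_nonneg _) (hf v) 2)
      have habs : |c2 * r - c1 * r| = (c2 - c1) * r := by
        rw [← sub_mul, abs_of_nonneg (mul_nonneg (by linarith) hr.le)]
      rw [habs] at hb
      exact (le_abs_self _).trans hb
    have hpow : (x ^ δ) ^ 2 ≤ Y ^ 4 := by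
      rw [hY, ← Real.rpow_natCast, ← Real.rpow_natCast, ← Real.rpow_mul hx0.le, ← Real.rpow_mul hx0.le]
      apply Real.rpow_le_rpow_of_exponent_ge hx0 hx1
      push_cast
      linarith
    have hA : (∫ v in (c1 * r)..(c2 * r), f v ^ 2) / r ≤ (c2 - c1) * C0 ^ 2 * Y ^ 4 := by
      rw [div_le_iff₀ hr]
      refine hint.trans ?_
      have hcc : 0 ≤ (c2 - c1) * C0 ^ 2 * r := by
        have : 0 ≤ c2 - c1 := by linarith
        positivity
      calc (C0 * x ^ δ) ^ 2 * ((c2 - c1) * r) = ((c2 - c1) * C0 ^ 2 * r) * (x ^ δ) ^ 2 := by ring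
        _ ≤ ((c2 - c1) * C0 ^ 2 * r) * Y ^ 4 := mul_le_mul_of_nonneg_left hpow hcc
        _ = _ := by ring
    refine hA.trans ?_
    have hratio : 1 ≤ rmax ^ 2 / r ^ 2 := by
      rw [one_le_div (by positivity)]
      exact pow_le_pow_left₀ hr.le hr2 2
    have hcc : 0 ≤ (c2 - c1) * C0 ^ 2 * Y ^ 4 := by
      have : 0 ≤ c2 - c1 := by linarith
      positivity
    calc (c2 - c1) * C0 ^ 2 * Y ^ 4 = ((c2 - c1) * C0 ^ 2 * Y ^ 4) * 1 := by ring
      _ ≤ ((c2 - c1) * C0 ^ 2 * Y ^ 4) * (rmax ^ 2 / r ^ 2) := mul_le_mul_of_nonneg_left hratio hcc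
      _ = ((c2 - c1) * C0 ^ 2 * rmax ^ 2) * (Y ^ 4 / r ^ 2) := by ring
      _ ≤ max C ((c2 - c1) * C0 ^ 2 * rmax ^ 2) * (Y ^ 4 / r ^ 2) :=
          mul_le_mul_of_nonneg_right (le_max_right _ _) (by positivity)
      _ = _ := by ring

theorem l12_stage_cvx_pf : l12_stage_cvx := by
  intro Ω _ μ _ s r G hs hr hraff hG hint
  refine ⟨hs, ?_⟩
  intro θ₀ h₀ θ₁ h₁ a b ha hb hab
  rcases ha.eq_or_lt with ha0 | ha0
  · have hb1 : b = 1 := by linarith
    subst ha0; subst hb1; simp
  rcases hb.eq_or_lt with hb0 | hb0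
  · have ha1 : a = 1 := by linarith
    subst hb0; subst ha1; simp
  have hθ : a • θ₀ + b • θ₁ ∈ s := hs h₀ h₁ ha hb hab
  simp only [smul_eq_mul] at hθ ⊢
  have hr0 := hr _ h₀
  have hr1 := hr _ h₁
  have hrt : r (a * θ₀ + b * θ₁) = a * r θ₀ + b * r θ₁ := hraff _ h₀ _ h₁ a b ha hb hab
  set rt : ℝ := a * r θ₀ + b * r θ₁ with hrtdef
  have hrtpos : 0 < rt := by positivity
  have hp : 0 < a * r θ₀ / rt := by positivity
  have hq : 0 < b * r θ₁ / rt := by positivity
  have hpq : a * r θ₀ / rt + b * r θ₁ / rt = 1 := by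
    rw [← add_div]; exact div_self hrtpos.ne'
  obtain ⟨hI, hH⟩ := Claimed.Agent.PL.pl_holder_mul (hint _ h₀) (hint _ h₁) (fun z => (Real.exp_pos _).le)
    (fun z => (Real.exp_pos _).le) hp hq hpq
  have hintθ := hint _ hθ
  rw [hrt] at hintθ ⊢
  have hpos : ∀ θ ∈ s, 0 < ∫ w, Real.exp (G θ w / r θ) ∂μ := fun θ hθ' => integral_exp_pos (hint θ hθ')
  have hposθ : 0 < ∫ w, Real.exp (G (a * θ₀ + b * θ₁) w / rt) ∂μ := integral_exp_pos hintθ
  have h1 : ∫ w, Real.exp (G (a * θ₀ + b * θ₁) w / rt) ∂μ
      ≤ ∫ w, Real.exp (G θ₀ w / r θ₀) ^ (a * r θ₀ / rt) * Real.exp (G θ₁ w / r θ₁) ^ (b * r θ₁ / rt) ∂μ := by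
    refine integral_mono hintθ hI fun w => ?_
    show Real.exp (G (a * θ₀ + b * θ₁) w / rt)
      ≤ Real.exp (G θ₀ w / r θ₀) ^ (a * r θ₀ / rt) * Real.exp (G θ₁ w / r θ₁) ^ (b * r θ₁ / rt)
    rw [← Real.exp_mul, ← Real.exp_mul, ← Real.exp_add]
    apply Real.exp_le_exp.2
    have hc := (hG w).2 h₀ h₁ ha hb hab
    simp only [smul_eq_mul] at hc
    have e : G θ₀ w / r θ₀ * (a * r θ₀ / rt) + G θ₁ w / r θ₁ * (b * r θ₁ / rt) = (a * G θ₀ w + b * G θ₁ w) / rt := by
      field_simp
    rw [e]
    exact div_le_div_of_nonneg_right hc hrtpos.le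
  have hlog := Real.log_le_log hposθ (h1.trans hH)
  rw [Real.log_mul (Real.rpow_pos_of_pos (hpos _ h₀) _).ne' (Real.rpow_pos_of_pos (hpos _ h₁) _).ne',
    Real.log_rpow (hpos _ h₀), Real.log_rpow (hpos _ h₁)] at hlog
  have := mul_le_mul_of_nonneg_left hlog hrtpos.le
  calc rt * Real.log (∫ w, Real.exp (G (a * θ₀ + b * θ₁) w / rt) ∂μ)
      ≤ rt * (a * r θ₀ / rt * Real.log (∫ w, Real.exp (G θ₀ w / r θ₀) ∂μ)
          + b * r θ₁ / rt * Real.log (∫ w, Real.exp (G θ₁ w / r θ₁) ∂μ)) := this
    _ = a * (r θ₀ * Real.log (∫ w, Real.exp (G θ₀ w / r θ₀) ∂μ))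
          + b * (r θ₁ * Real.log (∫ w, Real.exp (G θ₁ w / r θ₁) ∂μ)) := by
        field_simp


theorem l12_persist_pf : l12_persist := by
  intro s g a b Lg d t hLg hd hs hg hta htb hdev
  set e : ℝ := d / (2 * Lg) with he
  have hepos : 0 < e := by positivity
  have hab : a ≤ b := by linarith
  have hsI : IntervalIntegrable s volume a b := by
    apply MonotoneOn.intervalIntegrable
    rwa [uIcc_of_le hab]
  have hgc : ContinuousOn g (uIcc a b) := by
    rw [uIcc_of_le hab]
    have : LipschitzOnWith (Real.toNNReal Lg) g (Icc a b) := by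
      apply LipschitzOnWith.of_dist_le_mul
      intro u hu v hv
      rw [Real.dist_eq, Real.dist_eq, Real.coe_toNNReal _ hLg.le]
      exact hg u hu v hv
    exact this.continuousOn
  have hI : IntervalIntegrable (fun u => |s u - g u|) volume a b := (hsI.sub hgc.intervalIntegrable).abs
  have hval : d ^ 2 / (4 * Lg) = e * (d / 2) := by
    rw [he]; field_simp; ring
  have hLe : Lg * e = d / 2 := by
    rw [he]; field_simp
  have hnn : 0 ≤ᵐ[volume.restrict (Ioc a b)] fun u => |s u - g u| :=
    Eventually.of_forall fun u => abs_nonneg _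
  rw [hval]
  have htI : t ∈ Icc a b := ⟨by linarith, by linarith⟩
  rcases le_abs'.1 hdev with hneg | hpos
  · -- negative deviation: backward interval
    have h1 : ∫ u in (t - e)..t, |s u - g u| ≤ ∫ u in a..b, |s u - g u| :=
      intervalIntegral.integral_mono_interval (by linarith) (by linarith) (by linarith) hnn hI
    refine le_trans ?_ h1
    have h2 : ∫ _u in (t - e)..t, (d / 2) ≤ ∫ u in (t - e)..t, |s u - g u| := by
      apply intervalIntegral.integral_mono_on (by linarith) (by simp)
      · exact hI.mono_set (by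
          rw [uIcc_of_le hab, uIcc_of_le (by linarith)]
          exact Icc_subset_Icc (by linarith) (by linarith))
      · intro u hu
        have huI : u ∈ Icc a b := ⟨by linarith [hu.1], by linarith [hu.2]⟩
        have hsu : s u ≤ s t := hs huI htI hu.2
        have hgu := hg u huI t htI
        have habs : |u - t| ≤ e := by
          rw [abs_le]; constructor <;> linarith [hu.1, hu.2]
        have hgu' : |g u - g t| ≤ d / 2 := by
          calc |g u - g t| ≤ Lg * |u - t| := hgu
            _ ≤ Lg * e := mul_le_mul_of_nonneg_left habs hLg.le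
            _ = d / 2 := hLe
        have := abs_le.1 hgu'
        have h3 : s u - g u ≤ -(d / 2) := by linarith [this.1]
        rw [abs_of_nonpos (by linarith)]
        linarith
    have e2 : ∫ _u in (t - e)..t, (d / 2) = e * (d / 2) := by
      simp only [intervalIntegral.integral_const, smul_eq_mul]; ring
    rw [e2] at h2; exact h2
  · have h1 : ∫ u in t..(t + e), |s u - g u| ≤ ∫ u in a..b, |s u - g u| :=
      intervalIntegral.integral_mono_interval (by linarith) (by linarith) (by linarith) hnn hI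
    refine le_trans ?_ h1
    have h2 : ∫ _u in t..(t + e), (d / 2) ≤ ∫ u in t..(t + e), |s u - g u| := by
      apply intervalIntegral.integral_mono_on (by linarith) (by simp)
      · exact hI.mono_set (by
          rw [uIcc_of_le hab, uIcc_of_le (by linarith)]
          exact Icc_subset_Icc (by linarith) (by linarith))
      · intro u hu
        have huI : u ∈ Icc a b := ⟨by linarith [hu.1], by linarith [hu.2]⟩
        have hsu : s t ≤ s u := hs htI huI hu.1
        have hgu := hg u huI t htI
        have habs : |u - t| ≤ e := by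
          rw [abs_le]; constructor <;> linarith [hu.1, hu.2]
        have hgu' : |g u - g t| ≤ d / 2 := by
          calc |g u - g t| ≤ Lg * |u - t| := hgu
            _ ≤ Lg * e := mul_le_mul_of_nonneg_left habs hLg.le
            _ = d / 2 := hLe
        have := abs_le.1 hgu'
        have h3 : d / 2 ≤ s u - g u := by linarith [this.2]
        exact h3.trans (le_abs_self _)
    have e2 : ∫ _u in t..(t + e), (d / 2) = e * (d / 2) := by
      simp only [intervalIntegral.integral_const, smul_eq_mul]; ring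
    rw [e2] at h2; exact h2

theorem l12_cell_int_pf : l12_cell_int := by
  intro V L l κ τ M K f hl hκ hτ hVL hK hM hf1 hfI hgood
  have hVLle : V ≤ L := by linarith
  have hKI : IntervalIntegrable K volume V L := by
    apply MonotoneOn.intervalIntegrable
    rwa [uIcc_of_le hVLle]
  have hsub : ∀ c d : ℝ, V ≤ c → c ≤ d → d ≤ L → uIcc c d ⊆ uIcc V L := by
    intro c d h1 h2 h3
    rw [uIcc_of_le hVLle, uIcc_of_le h2]
    exact Icc_subset_Icc h1 h3
  have hgI : IntervalIntegrable (fun v => |f v|) volume V L := hfI.abs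
  have hgI' : ∀ c d : ℝ, V ≤ c → c ≤ d → d ≤ L → IntervalIntegrable (fun v => |f v|) volume c d :=
    fun c d h1 h2 h3 => hgI.mono_set (hsub c d h1 h2 h3)
  have hKI' : ∀ c d : ℝ, V ≤ c → c ≤ d → d ≤ L → IntervalIntegrable K volume c d :=
    fun c d h1 h2 h3 => hKI.mono_set (hsub c d h1 h2 h3)
  -- splitting
  have hsplit : ∫ v in V..L, |f v| = (∫ v in V..(V + 3 * l), |f v|) + (∫ v in (V + 3 * l)..(L - 3 * l), |f v|)
      + ∫ v in (L - 3 * l)..L, |f v| := by
    rw [intervalIntegral.integral_add_adjacent_intervals (hgI' _ _ le_rfl (by linarith) (by linarith))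
      (hgI' _ _ (by linarith) (by linarith) (by linarith)),
      intervalIntegral.integral_add_adjacent_intervals (hgI' _ _ le_rfl (by linarith) (by linarith))
      (hgI' _ _ (by linarith) (by linarith) le_rfl)]
  have hend : ∀ c d : ℝ, V ≤ c → c ≤ d → d ≤ L → ∫ v in c..d, |f v| ≤ d - c := by
    intro c d h1 h2 h3
    have : ∫ v in c..d, |f v| ≤ ∫ _v in c..d, (1:ℝ) := by
      apply intervalIntegral.integral_mono_on h2 (hgI' c d h1 h2 h3) (by simp)
      intro v hv
      exact hf1 v ⟨by linarith [hv.1], by linarith [hv.2]⟩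
    simpa using this
  have h1 := hend V (V + 3 * l) le_rfl (by linarith) (by linarith)
  have h3 := hend (L - 3 * l) L (by linarith) (by linarith) le_rfl
  -- shifted clocks
  have hKp : IntervalIntegrable (fun v => K (v + 3 * l)) volume (V + 3 * l) (L - 3 * l) := by
    have := (hKI' (V + 6 * l) L (by linarith) (by linarith) le_rfl).comp_add_right (3 * l)
    convert this using 1
    ring
  have hKm : IntervalIntegrable (fun v => K (v - 3 * l)) volume (V + 3 * l) (L - 3 * l) := by
    have := (hKI' V (L - 6 * l) le_rfl (by linarith) (by linarith)).comp_sub_right (3 * l)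
    convert this using 1
    ring
  have h2 : ∫ v in (V + 3 * l)..(L - 3 * l), |f v|
      ≤ ∫ v in (V + 3 * l)..(L - 3 * l), (τ + (K (v + 3 * l) - K (v - 3 * l)) / κ) := by
    apply intervalIntegral.integral_mono_on (by linarith) (hgI' _ _ (by linarith) (by linarith) (by linarith))
    · exact (intervalIntegrable_const).add ((hKp.sub hKm).div_const κ)
    · intro v hv
      have hmono : K (v - 3 * l) ≤ K (v + 3 * l) :=
        hK ⟨by linarith [hv.1], by linarith [hv.2]⟩ ⟨by linarith [hv.1], by linarith [hv.2]⟩ (by linarith)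
      by_cases hosc : K (v + 3 * l) - K (v - 3 * l) ≤ κ
      · have := hgood v hv.1 hv.2 hosc
        have h0 : 0 ≤ (K (v + 3 * l) - K (v - 3 * l)) / κ := div_nonneg (by linarith) hκ.le
        linarith
      · rw [not_le] at hosc
        have h0 : 1 ≤ (K (v + 3 * l) - K (v - 3 * l)) / κ := by
          rw [one_le_div hκ]; exact hosc.le
        have := hf1 v ⟨by linarith [hv.1], by linarith [hv.2]⟩
        linarith
  have h2' : ∫ v in (V + 3 * l)..(L - 3 * l), (τ + (K (v + 3 * l) - K (v - 3 * l)) / κ)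
      = τ * (L - V - 6 * l) + ((∫ v in (V + 6 * l)..L, K v) - ∫ v in V..(L - 6 * l), K v) / κ := by
    rw [intervalIntegral.integral_add intervalIntegrable_const ((hKp.sub hKm).div_const κ),
      intervalIntegral.integral_div, intervalIntegral.integral_sub hKp hKm,
      intervalIntegral.integral_comp_add_right, intervalIntegral.integral_comp_sub_right]
    simp only [intervalIntegral.integral_const, smul_eq_mul]
    have e1 : V + 3 * l + 3 * l = V + 6 * l := by ring
    have e2 : L - 3 * l + 3 * l = L := by ring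
    have e3 : V + 3 * l - 3 * l = V := by ring
    have e4 : L - 3 * l - 3 * l = L - 6 * l := by ring
    rw [e1, e2, e3, e4]
    ring
  have hA : (∫ v in V..(V + 6 * l), K v) + ∫ v in (V + 6 * l)..L, K v = ∫ v in V..L, K v :=
    intervalIntegral.integral_add_adjacent_intervals (hKI' _ _ le_rfl (by linarith) (by linarith))
      (hKI' _ _ (by linarith) (by linarith) le_rfl)
  have hB : (∫ v in V..(L - 6 * l), K v) + ∫ v in (L - 6 * l)..L, K v = ∫ v in V..L, K v :=
    intervalIntegral.integral_add_adjacent_intervals (hKI' _ _ le_rfl (by linarith) (by linarith))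
      (hKI' _ _ (by linarith) (by linarith) le_rfl)
  have hup : ∫ v in (L - 6 * l)..L, K v ≤ 6 * l * K L := by
    have : ∫ v in (L - 6 * l)..L, K v ≤ ∫ _v in (L - 6 * l)..L, K L := by
      apply intervalIntegral.integral_mono_on (by linarith) (hKI' _ _ (by linarith) (by linarith) le_rfl) (by simp)
      intro v hv
      exact hK ⟨by linarith [hv.1], hv.2⟩ ⟨hVLle, le_rfl⟩ hv.2
    have e : ∫ _v in (L - 6 * l)..L, K L = 6 * l * K L := by
      simp only [intervalIntegral.integral_const, smul_eq_mul]; ring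
    linarith
  have hlo : 6 * l * K V ≤ ∫ v in V..(V + 6 * l), K v := by
    have : ∫ _v in V..(V + 6 * l), K V ≤ ∫ v in V..(V + 6 * l), K v := by
      apply intervalIntegral.integral_mono_on (by linarith) (by simp) (hKI' _ _ le_rfl (by linarith) (by linarith))
      intro v hv
      exact hK ⟨le_rfl, hVLle⟩ ⟨hv.1, by linarith [hv.2]⟩ hv.1
    have e : ∫ _v in V..(V + 6 * l), K V = 6 * l * K V := by
      simp only [intervalIntegral.integral_const, smul_eq_mul]; ring
    linarith
  have hdiff : (∫ v in (V + 6 * l)..L, K v) - ∫ v in V..(L - 6 * l), K v ≤ 6 * l * M := by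
    have : 6 * l * (K L - K V) ≤ 6 * l * M := mul_le_mul_of_nonneg_left hM (by positivity)
    nlinarith
  have hdiv : ((∫ v in (V + 6 * l)..L, K v) - ∫ v in V..(L - 6 * l), K v) / κ ≤ 6 * l * M / κ :=
    div_le_div_of_nonneg_right hdiff hκ.le
  rw [hsplit]
  have hτl : 0 ≤ τ * (6 * l) := by positivity
  nlinarith

end Claimed.Agent.R286
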