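/-
Row 286 (S0533), LL sec. 8, unit SA, architect helper163, ADV helper233, provers helper214, helper222.

FILE SaCell : from (D13) to (D14) on the FINE level (PURE: a step path `P` only carries masses and increments; `S B q z` are sequences).
08-statistics.tex l.1119-1190.     TEX[LL:prop:statistics-size-accuracy] (part (D14))

  L8ZD13     the family (D13) (conclusion of `L8Z_D13` in `SaD13.lean`) as a hypothesis on sequences
  L8Z_Cell   good points: if the window `[v0 - 3l, v0 + 3l]` has trial-clock oscillation `≤ κ`, then `|S - q| ≤ τ` at the cut of mass `v0`.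
             Bump = explicit trapezoid  `± (1/8) max 0 (min (min (v - α') (α' + l - v)) (l/4))`,  `α' = v0 + l` resp. `v0 - 2 l`  (slope 1/8, height l/32).
             PROOF (163): positive deviation: for the revelations `k` in the support, `k ≥ idx v0`, so `S k ≥ S (idx v0)`, `z k ≤ q (idx v0) + Lq κ + εd`;
             all terms of the left side of (D13) (`s = 0`) are `≥ 0`, the field term is `≥ (3τ/2) I`, `I = ∑ φ dh ≥ η0 l²/128`;  right side `≤ E + (τ/4) I`.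
             negative deviation: `s = 1`, `k + 1 ≤ idx v0`; the only bad term is `∑ |φ| db D²(k+1) ≤ (l/32) EDb`; if some `db ≠ 0` in the window, the window lies below `v1`, `I ≥ η1 l²/128`.
  L8Z_D14in  interior part of (D14): `l12_cell_int` (PROVED in L12AP) applied to the step functions.
-/
import Claimed.Agent.R286.L08.SaD13
import Claimed.Agent.R286.L08.L12AP

set_option autoImplicit false
open MeasureTheory Set Finset

namespace Claimed.Agent.R286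

/-- number of the cut at the mass `v` = number of revelations of mass `≤ v` -/
noncomputable def saIdx (P : SkStp) (v : ℝ) : ℕ := (P.filter fun e => decide (e.m ≤ v)).length

/-- the family (D13) on sequences; `E = 4 E0` -/
def L8ZD13 (a V L κ ε E C1 : ℝ) (P : SkStp) (Kf : ℝ → ℝ) (z S B : ℕ → ℝ) : Prop :=
  ∀ (φ : ℝ → ℝ) (α β σ : ℝ) (s : ℕ), V ≤ α → α ≤ β → β ≤ L → 0 ≤ σ → σ ≤ 1 / 4 → L8ZBump (1 / 4) σ α β φ →
    Kf β - Kf α ≤ κ → ((s = 0 ∧ ∀ v, 0 ≤ φ v) ∨ (s = 1 ∧ ∀ v, φ v ≤ 0)) →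
    ∑ k ∈ range P.length, φ (skMs a P k) * ((B (k + s) - z k ^ 2) * saDb P k + 2 * (S (k + s) - z k) * saDh P k)
      ≤ E + C1 * (κ + σ + ε) * ∑ k ∈ range P.length, |φ (skMs a P k)| * (saDb P k + saDh P k)

/-- **good points** -/
def L8Z_Cell : Prop :=
  ∀ (a V L κ ε E C1 l τ εd εv Lq Cb η0 η1 EDb v1 v2 : ℝ) (P : SkStp) (Kf : ℝ → ℝ) (z S B q : ℕ → ℝ),
    SkAdm a P → 0 < V → V ≤ L → L ≤ a → 0 < l → l ≤ V → 0 ≤ κ → 0 ≤ ε → 0 ≤ C1 → 0 < τ → 0 ≤ Lq → 0 ≤ Cb → 0 < η0 → 0 < η1 →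
    0 < εv → εv ≤ l / 4 →
    -- the masses are `εv`-dense in `[V,L]`
    (∀ w ∈ Icc V L, ∃ e ∈ P, w ≤ e.m ∧ e.m < w + εv) →
    MonotoneOn Kf (Icc 0 a) → Monotone S → Monotone B →
    (∀ k, 0 ≤ S k ∧ S k ^ 2 ≤ B k) →
    (∀ u ∈ Icc V L, ∀ w ∈ Icc V L, |q (saIdx P u) - q (saIdx P w)| ≤ Lq * |Kf u - Kf w|) →
    (∀ k < P.length, V ≤ skMs a P k → skMs a P k ≤ L → 0 ≤ z k ∧ |z k - q (saIdx P (skMs a P k))| ≤ εd) →
    (∑ k ∈ range P.length, (if V ≤ skMs a P k ∧ skMs a P k ≤ L then saDb P k * (B (k + 1) - S (k + 1) ^ 2) else 0)) ≤ EDb →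
    (∀ k < P.length, V ≤ skMs a P k → skMs a P k ≤ L → saDb P k ≤ Cb * saDh P k / V ∧ η0 * skGap a P k ≤ saDh P k) →
    (∀ k < P.length, V ≤ skMs a P k → skMs a P k ≤ v1 → η1 * skGap a P k ≤ saDh P k) →
    (∀ k < P.length, v2 ≤ skMs a P k → skMs a P k ≤ L → saDb P k = 0) → v2 + 6 * l ≤ v1 →
    L8ZD13 a V L κ ε E C1 P Kf z S B →
    Lq * κ + εd ≤ τ / 4 → C1 * (κ + l / (32 * V) + ε) * (1 + Cb / V) ≤ τ / 4 →
    512 * E < τ * η0 * l ^ 2 → 16 * EDb ≤ τ * η1 * l →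
    ∀ v0, V + 3 * l ≤ v0 → v0 ≤ L - 3 * l → Kf (v0 + 3 * l) - Kf (v0 - 3 * l) ≤ κ →
      |S (saIdx P v0) - q (saIdx P v0)| ≤ τ

/-- **interior part of (D14)**, as an integral of the step function `v ↦ |S - q|` at the cut of mass `v` -/
def L8Z_D14in : Prop :=
  ∀ (a V L l κ τ M : ℝ) (P : SkStp) (Kf : ℝ → ℝ) (S q : ℕ → ℝ),
    0 ≤ V → L ≤ a → 0 < l → 0 < κ → 0 ≤ τ → V + 6 * l ≤ L → MonotoneOn Kf (Icc 0 a) → Kf L - Kf V ≤ M →
    (∀ k, |S k - q k| ≤ 1) →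
    (∀ v0, V + 3 * l ≤ v0 → v0 ≤ L - 3 * l → Kf (v0 + 3 * l) - Kf (v0 - 3 * l) ≤ κ → |S (saIdx P v0) - q (saIdx P v0)| ≤ τ) →
    ∫ v in V..L, |S (saIdx P v) - q (saIdx P v)| ≤ τ * (L - V) + 6 * l + 6 * l * M / κ

/-- mass integrals of step functions are sums over the cuts (`skGap` = length of the cut) -/
def L8Z_SumInt : Prop :=
  ∀ (a : ℝ) (P : SkStp) (g : ℕ → ℝ), 0 < a → SkAdm a P →
    ∫ v in (0 : ℝ)..a, g (saIdx P v) = ∑ j ∈ range (P.length + 1), skGap a P j * g j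

end Claimed.Agent.R286
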