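import Claimed.Agent.R286.Gk.Reg
import Claimed.Agent.R286.Defs.Sk
import Claimed.Agent.Lib.PLConvex

/-!
# Row 286 (S0533), LL sec. 8, unit SA, step D11.c1 : THE PRESSURE IS CONVEX IN THE RECIPROCAL MASSES      (owner helper233; prefix `l12c_`, `L12c`, `l12c`)

TEX[LL:prop:statistics-size-accuracy]  (08-statistics.tex l.1066-1082, "convex mass variation"; the paper uses the Gibbs variational formula, here: ONE Hoelder inequality per level, no entropy).

* `l12c_holder`            `(r, G) ↦ r log E exp (G / r)` is jointly convex (three point form);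
* `l12c_ghT_le`            the same for `ghT` in terms of the masses: `m⁻¹ = a m₀⁻¹ + b m₁⁻¹`;
* `L12cLv`, `L12cLv.Ok s`  a revelation whose mass depends on a parameter `θ ∈ s`: identically `0`, or positive with AFFINE reciprocal;
* `l12c_ghF_convexOn`      **`θ ↦ ghF B (levels at θ) z` is convex on `s`** (no monotonicity of the masses is needed);
* `l12cRe M ls`            the hierarchy `ls` with the masses changed by `M`;   `l12c_ghF_convexOn_bump`: the change `1/m_θ(v) = 1/v - θ φ(v)/v²` of the paper;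
* `l12cSk M P`, `l12c_skPr_convexOn`   the same for the self corrected SK pressure `skPr` of a step path;
* `l12c_convexOn_lim`      convexity passes to pointwise limits (for `ghLim`).
-/

set_option autoImplicit false

namespace Claimed.Agent.R286

open MeasureTheory ProbabilityTheory Filter Topology Set

/-- **Hoelder**: joint convexity of `(r, G) ↦ r log E exp (G / r)`. -/
theorem l12c_holder {Ω : Type} [MeasurableSpace Ω] {μ : Measure Ω} [IsProbabilityMeasure μ]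
    {r0 r1 a b : ℝ} (hr0 : 0 < r0) (hr1 : 0 < r1) (ha : 0 ≤ a) (hb : 0 ≤ b) (hab : a + b = 1)
    {G G0 G1 : Ω → ℝ} (hG : ∀ ω, G ω ≤ a * G0 ω + b * G1 ω)
    (hi : Integrable (fun ω => Real.exp (G ω / (a * r0 + b * r1))) μ)
    (h0 : Integrable (fun ω => Real.exp (G0 ω / r0)) μ) (h1 : Integrable (fun ω => Real.exp (G1 ω / r1)) μ) :
    (a * r0 + b * r1) * Real.log (∫ ω, Real.exp (G ω / (a * r0 + b * r1)) ∂μ)
      ≤ a * (r0 * Real.log (∫ ω, Real.exp (G0 ω / r0) ∂μ)) + b * (r1 * Real.log (∫ ω, Real.exp (G1 ω / r1) ∂μ)) := by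
  rcases ha.eq_or_lt with rfl | ha'
  · have hb1 : b = 1 := by linarith
    subst hb1
    simp only [zero_mul, zero_add, one_mul] at *
    refine mul_le_mul_of_nonneg_left (Real.log_le_log (integral_exp_pos hi) (integral_mono hi h1 fun ω => ?_)) hr1.le
    exact Real.exp_le_exp.2 (div_le_div_of_nonneg_right (hG ω) hr1.le)
  rcases hb.eq_or_lt with rfl | hb'
  · have ha1 : a = 1 := by linarith
    subst ha1
    simp only [zero_mul, add_zero, one_mul] at *
    refine mul_le_mul_of_nonneg_left (Real.log_le_log (integral_exp_pos hi) (integral_mono hi h0 fun ω => ?_)) hr0.le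
    exact Real.exp_le_exp.2 (div_le_div_of_nonneg_right (hG ω) hr0.le)
  have hr : 0 < a * r0 + b * r1 := by positivity
  have hp : 0 < a * r0 / (a * r0 + b * r1) := by positivity
  have hq : 0 < b * r1 / (a * r0 + b * r1) := by positivity
  have hpq : a * r0 / (a * r0 + b * r1) + b * r1 / (a * r0 + b * r1) = 1 := by
    rw [← add_div]; exact div_self hr.ne'
  obtain ⟨hI, hH⟩ := Claimed.Agent.PL.pl_holder_mul h0 h1 (fun _ => (Real.exp_pos _).le) (fun _ => (Real.exp_pos _).le) hp hq hpq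
  have h2 : ∫ ω, Real.exp (G ω / (a * r0 + b * r1)) ∂μ
      ≤ ∫ ω, Real.exp (G0 ω / r0) ^ (a * r0 / (a * r0 + b * r1)) * Real.exp (G1 ω / r1) ^ (b * r1 / (a * r0 + b * r1)) ∂μ := by
    refine integral_mono hi hI fun ω => ?_
    show Real.exp (G ω / (a * r0 + b * r1))
      ≤ Real.exp (G0 ω / r0) ^ (a * r0 / (a * r0 + b * r1)) * Real.exp (G1 ω / r1) ^ (b * r1 / (a * r0 + b * r1))
    rw [← Real.exp_mul, ← Real.exp_mul, ← Real.exp_add]
    apply Real.exp_le_exp.2
    have e : G0 ω / r0 * (a * r0 / (a * r0 + b * r1)) + G1 ω / r1 * (b * r1 / (a * r0 + b * r1))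
        = (a * G0 ω + b * G1 ω) / (a * r0 + b * r1) := by
      field_simp
    rw [e]
    exact div_le_div_of_nonneg_right (hG ω) hr.le
  have hlog := Real.log_le_log (integral_exp_pos hi) (h2.trans hH)
  rw [Real.log_mul (Real.rpow_pos_of_pos (integral_exp_pos h0) _).ne' (Real.rpow_pos_of_pos (integral_exp_pos h1) _).ne',
    Real.log_rpow (integral_exp_pos h0), Real.log_rpow (integral_exp_pos h1)] at hlog
  have h3 := mul_le_mul_of_nonneg_left hlog hr.le
  refine h3.trans (le_of_eq ?_)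
  field_simp

/-- the same for `ghT`: the reciprocal mass is a convex combination. -/
theorem l12c_ghT_le {Ω : Type} [MeasurableSpace Ω] {μ : Measure Ω} [IsProbabilityMeasure μ]
    {m m0 m1 a b : ℝ} (hm0 : 0 < m0) (hm1 : 0 < m1) (ha : 0 ≤ a) (hb : 0 ≤ b) (hab : a + b = 1)
    (hm : m⁻¹ = a * m0⁻¹ + b * m1⁻¹)
    {G G0 G1 : Ω → ℝ} (hG : ∀ ω, G ω ≤ a * G0 ω + b * G1 ω)
    (hi : Integrable (fun ω => Real.exp (m * G ω)) μ)
    (h0 : Integrable (fun ω => Real.exp (m0 * G0 ω)) μ) (h1 : Integrable (fun ω => Real.exp (m1 * G1 ω)) μ) :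
    ghT μ m G ≤ a * ghT μ m0 G0 + b * ghT μ m1 G1 := by
  have hr0 : 0 < m0⁻¹ := inv_pos.2 hm0
  have hr1 : 0 < m1⁻¹ := inv_pos.2 hm1
  have hmi : 0 < m⁻¹ := by
    rw [hm]
    rcases ha.eq_or_lt with rfl | ha'
    · have : b = 1 := by linarith
      subst this; simpa using hr1
    · have := mul_pos ha' hr0
      have := mul_nonneg hb hr1.le
      linarith
  have hmp : 0 < m := inv_pos.1 hmi
  have e : ∀ (c : ℝ) (F : Ω → ℝ), (fun ω => Real.exp (F ω / c⁻¹)) = fun ω => Real.exp (c * F ω) := by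
    intro c F; funext ω; rw [div_inv_eq_mul, mul_comm]
  have key := l12c_holder (μ := μ) hr0 hr1 ha hb hab hG (by rw [← hm, e]; exact hi) (by rw [e]; exact h0) (by rw [e]; exact h1)
  rw [← hm, e, e, e] at key
  unfold ghT
  rw [if_neg hmp.ne', if_neg hm0.ne', if_neg hm1.ne']
  exact key

variable {S ι : Type} [Fintype S] [Fintype ι]

/-- a revelation whose mass depends on a parameter -/
structure L12cLv (S ι : Type) where
  m : ℝ → ℝ
  A : S → ι → ℝ

/-- the revelation at the parameter `θ` -/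
def L12cLv.lv (l : L12cLv S ι) (θ : ℝ) : GhLv S ι := ⟨l.m θ, l.A⟩

/-- admissible dependence on `θ ∈ s`: the mass vanishes identically, or it is positive with affine reciprocal -/
def L12cLv.Ok (s : Set ℝ) (l : L12cLv S ι) : Prop :=
  (∀ θ ∈ s, l.m θ = 0) ∨
  ((∀ θ ∈ s, 0 < l.m θ) ∧ ∀ θ₀ ∈ s, ∀ θ₁ ∈ s, ∀ a b : ℝ, 0 ≤ a → 0 ≤ b → a + b = 1 →
      (l.m (a * θ₀ + b * θ₁))⁻¹ = a * (l.m θ₀)⁻¹ + b * (l.m θ₁)⁻¹)

theorem l12c_int {B : GhB S} (hB : B.Ok) (ls : List (GhLv S ι)) (l : GhLv S ι) (z : S → ℝ) :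
    Integrable (fun ξ => ghF B ls (z + l.inc ξ)) (ghStd ι) :=
  gk_int (ghr_noise l) (ghr_F hB ls).smooth.continuous (ghr_F hB ls).gr z

theorem l12c_int_exp {B : GhB S} (hB : B.Ok) (ls : List (GhLv S ι)) (l : GhLv S ι) (c : ℝ) (z : S → ℝ) :
    Integrable (fun ξ => Real.exp (c * ghF B ls (z + l.inc ξ))) (ghStd ι) :=
  gk_int (u := fun y => Real.exp (c * ghF B ls y)) (ghr_noise l) ((ghr_F hB ls).const_mul c).exp.smooth.continuous
    (((ghr_F hB ls).const_mul c).exp.eg 0).gr z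

/-- **D11.c1**: the continuation is convex in a parameter which moves the reciprocal masses affinely. -/
theorem l12c_ghF_convexOn {B : GhB S} (hB : B.Ok) {s : Set ℝ} (hs : Convex ℝ s) :
    ∀ (ls : List (L12cLv S ι)), (∀ l ∈ ls, l.Ok s) → ∀ z : S → ℝ,
      ConvexOn ℝ s (fun θ => ghF B (ls.map fun l => l.lv θ) z)
  | [], _, z => by simpa using convexOn_const _ hs
  | l :: ls, h, z => by
    have ih := l12c_ghF_convexOn hB hs ls (fun l' hl' => h l' (List.mem_cons_of_mem _ hl'))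
    refine ⟨hs, fun θ₀ h0 θ₁ h1 a b ha hb hab => ?_⟩
    have hθ : a * θ₀ + b * θ₁ ∈ s := by
      have := hs h0 h1 ha hb hab
      simpa only [smul_eq_mul] using this
    simp only [List.map_cons, ghF, smul_eq_mul]
    have hG : ∀ ξ : ι → ℝ, ghF B (ls.map fun l => l.lv (a * θ₀ + b * θ₁)) (z + (l.lv (a * θ₀ + b * θ₁)).inc ξ)
        ≤ a * ghF B (ls.map fun l => l.lv θ₀) (z + (l.lv θ₀).inc ξ) + b * ghF B (ls.map fun l => l.lv θ₁) (z + (l.lv θ₁).inc ξ) := by
      intro ξ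
      have := (ih (z + (l.lv θ₀).inc ξ)).2 h0 h1 ha hb hab
      simp only [smul_eq_mul] at this
      exact this
    rcases h l (List.mem_cons_self) with hz | ⟨hp, haff⟩
    · have e : ∀ θ ∈ s, (l.lv θ).m = 0 := hz
      rw [e _ hθ, e _ h0, e _ h1]
      unfold ghT
      simp only [if_true]
      rw [← integral_const_mul, ← integral_const_mul, ← integral_add ((l12c_int hB _ _ _).const_mul a) ((l12c_int hB _ _ _).const_mul b)]
      exact integral_mono (l12c_int hB _ _ _) (((l12c_int hB _ _ _).const_mul a).add ((l12c_int hB _ _ _).const_mul b)) hG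
    · exact l12c_ghT_le (hp _ h0) (hp _ h1) ha hb hab (haff _ h0 _ h1 a b ha hb hab) hG
        (l12c_int_exp hB _ _ _ _) (l12c_int_exp hB _ _ _ _) (l12c_int_exp hB _ _ _ _)

/-- the hierarchy `ls` with the masses changed by `M` -/
def l12cRe (M : ℝ → ℝ) (ls : List (GhLv S ι)) : List (GhLv S ι) := ls.map fun l => ⟨M l.m, l.A⟩

/-- general change of masses `M θ` -/
theorem l12c_ghF_convexOn_re {B : GhB S} (hB : B.Ok) {s : Set ℝ} (hs : Convex ℝ s) (M : ℝ → ℝ → ℝ) (ls : List (GhLv S ι))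
    (h : ∀ l ∈ ls, (∀ θ ∈ s, M θ l.m = 0) ∨
      ((∀ θ ∈ s, 0 < M θ l.m) ∧ ∀ θ₀ ∈ s, ∀ θ₁ ∈ s, ∀ a b : ℝ, 0 ≤ a → 0 ≤ b → a + b = 1 →
        (M (a * θ₀ + b * θ₁) l.m)⁻¹ = a * (M θ₀ l.m)⁻¹ + b * (M θ₁ l.m)⁻¹)) (z : S → ℝ) :
    ConvexOn ℝ s (fun θ => ghF B (l12cRe (M θ) ls) z) := by
  have key := l12c_ghF_convexOn hB hs (ls.map fun l => (⟨fun θ => M θ l.m, l.A⟩ : L12cLv S ι)) (by
    intro l' hl'
    obtain ⟨l, hl, rfl⟩ := List.mem_map.1 hl'
    exact h l hl) z
  have e : ∀ θ, ((ls.map fun l => (⟨fun θ => M θ l.m, l.A⟩ : L12cLv S ι)).map fun l => l.lv θ) = l12cRe (M θ) ls := by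
    intro θ
    unfold l12cRe
    rw [List.map_map]
    rfl
  simpa only [e] using key

/-- the mass change of the paper, `1/m_θ(v) = 1/v - θ φ(v)/v²` (`= l12m φ θ v` of `L12A`) -/
theorem l12c_ghF_convexOn_bump {B : GhB S} (hB : B.Ok) (φ : ℝ → ℝ) (ls : List (GhLv S ι))
    (hm : ∀ l ∈ ls, 0 ≤ l.m) (hφ : ∀ l ∈ ls, |φ l.m| < l.m ∨ φ l.m = 0) (z : S → ℝ) :
    ConvexOn ℝ (Icc (0 : ℝ) 1) (fun θ => ghF B (l12cRe (fun v => v ^ 2 / (v - θ * φ v)) ls) z) := by
  refine l12c_ghF_convexOn_re hB (convex_Icc 0 1) (fun θ v => v ^ 2 / (v - θ * φ v)) ls (fun l hl => ?_) z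
  rcases (hm l hl).eq_or_lt with h0 | hpos
  · left
    intro θ _
    simp [← h0]
  · right
    have hden : ∀ θ ∈ Icc (0 : ℝ) 1, 0 < l.m - θ * φ l.m := by
      intro θ hθ
      rcases hφ l hl with h | h
      · have h1 : θ * φ l.m ≤ |φ l.m| := by
          calc θ * φ l.m ≤ θ * |φ l.m| := mul_le_mul_of_nonneg_left (le_abs_self _) hθ.1
            _ ≤ 1 * |φ l.m| := mul_le_mul_of_nonneg_right hθ.2 (abs_nonneg _)
            _ = |φ l.m| := one_mul _
        linarith
      · rw [h]; simpa using hpos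
    refine ⟨fun θ hθ => div_pos (by positivity) (hden θ hθ), fun θ₀ _ θ₁ _ a b _ _ hab => ?_⟩
    simp only [inv_div]
    have hb : b = 1 - a := by linarith
    subst hb
    field_simp
    ring

/-- a step path with the masses changed by `M` -/
def l12cSk (M : ℝ → ℝ) (P : SkStp) : SkStp := P.map fun e => ⟨M e.m, e.db, e.dh⟩

theorem l12c_skLvs (n : ℕ) (M : ℝ → ℝ) (P : SkStp) : skLvs n (l12cSk M P) = l12cRe M (skLvs n P) := by
  unfold skLvs l12cSk l12cRe
  rw [List.map_map, List.map_map]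
  rfl

theorem l12c_skTot (M : ℝ → ℝ) (P : SkStp) : skTotB (l12cSk M P) = skTotB P ∧ skTotH (l12cSk M P) = skTotH P := by
  unfold skTotB skTotH l12cSk
  rw [List.map_map, List.map_map]
  exact ⟨rfl, rfl⟩

theorem l12c_skBase_ok (n : ℕ) {a : ℝ} (ha : 0 < a) : (skBase n a).Ok := by
  refine ⟨fun s => ?_, ?_, ha⟩
  · show 0 ≤ ((Fintype.card (SkCfg n) : ℝ))⁻¹
    positivity
  · show ∑ _s : SkCfg n, ((Fintype.card (SkCfg n) : ℝ))⁻¹ = 1
    rw [Finset.sum_const, Finset.card_univ, nsmul_eq_mul]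
    exact mul_inv_cancel₀ (by exact_mod_cast Fintype.card_ne_zero)

/-- **D11.c1 for the SK pressure of a step path.** -/
theorem l12c_skPr_convexOn (n : ℕ) {a : ℝ} (ha : 0 < a) (φ : ℝ → ℝ) (P : SkStp)
    (hm : ∀ e ∈ P, 0 ≤ e.m) (hφ : ∀ e ∈ P, |φ e.m| < e.m ∨ φ e.m = 0) :
    ConvexOn ℝ (Icc (0 : ℝ) 1) (fun θ => skPr n a (l12cSk (fun v => v ^ 2 / (v - θ * φ v)) P)) := by
  have key := l12c_ghF_convexOn_bump (l12c_skBase_ok n ha) φ (skLvs n P)
    (by
      intro l hl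
      obtain ⟨e, he, rfl⟩ := List.mem_map.1 hl
      exact hm e he)
    (by
      intro l hl
      obtain ⟨e, he, rfl⟩ := List.mem_map.1 hl
      exact hφ e he) 0
  have e : ∀ θ : ℝ, skPr n a (l12cSk (fun v => v ^ 2 / (v - θ * φ v)) P)
      = (n : ℝ)⁻¹ * ghF (skBase n a) (l12cRe (fun v => v ^ 2 / (v - θ * φ v)) (skLvs n P)) 0
        + (-(a * (skTotB P / 4 + skTotH P / 2))) := by
    intro θ
    unfold skPr skF
    rw [l12c_skLvs, (l12c_skTot _ P).1, (l12c_skTot _ P).2, div_eq_inv_mul]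
    ring
  simp only [e]
  have h1 := key.smul (c := (n : ℝ)⁻¹) (by positivity)
  exact h1.add_const _

/-- convexity passes to pointwise limits -/
theorem l12c_convexOn_lim {s : Set ℝ} (hs : Convex ℝ s) {F : ℕ → ℝ → ℝ} {f : ℝ → ℝ} (hF : ∀ k, ConvexOn ℝ s (F k))
    (hl : ∀ θ ∈ s, Tendsto (fun k => F k θ) atTop (𝓝 (f θ))) : ConvexOn ℝ s f := by
  refine ⟨hs, fun x hx y hy a b ha hb hab => ?_⟩
  have h1 := hl _ (hs hx hy ha hb hab)
  have h2 : Tendsto (fun k => a • F k x + b • F k y) atTop (𝓝 (a • f x + b • f y)) :=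
    ((hl x hx).const_smul a).add ((hl y hy).const_smul b)
  exact le_of_tendsto_of_tendsto' h1 h2 fun k => (hF k).2 hx hy ha hb hab

end Claimed.Agent.R286
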