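/-
Row 286 (S0533), LL sec. 8, unit SA, helper233 : PROOFS of the contracts `L8Z_Subgrad`, `L8Z_Decouple`, `L8Z_Trial` of `L08/SaD13.lean`.
08-statistics.tex l.1059-1117.     TEX[LL:prop:statistics-size-accuracy] (part (D13))      prefix `sap_`
-/
import Claimed.Agent.R286.L08.SaD13
import Claimed.Agent.R286.L08.L12FrzSk
import Claimed.Agent.R286.L08.L12Cvx
import Claimed.Agent.R286.L08.SaCell
import Claimed.Agent.R286.Fd.Contract
import Claimed.Agent.R286.Exit.ClkSite
import Claimed.Agent.R286.Brg.Step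

set_option autoImplicit false
open MeasureTheory Set Finset

namespace Claimed.Agent.R286

/-! ## 1. the planted average on the class `GkEG 0` -/

section Abs

variable {S ι : Type} [Fintype S] [Fintype ι]

theorem sap_A_eq (B : GhB S) (l : GhLv S ι) (ls : List (GhLv S ι)) (g : (S → ℝ) → ℝ) (z : S → ℝ) :
    ghA B l ls g z = Real.exp (-(l.m * ghF B (l :: ls) z)) * gkP (ghStd ι) l.inc (fun y => Real.exp (l.m * ghF B ls y) * g y) z := by
  unfold ghA gkP
  rw [← integral_const_mul]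
  refine integral_congr_ae (Filter.Eventually.of_forall fun ξ => ?_)
  simp only [l12f_D_eq]
  ring

theorem sap_A_eg {B : GhB S} (hB : B.Ok) (l : GhLv S ι) (ls : List (GhLv S ι)) {g : (S → ℝ) → ℝ} (hg : GkEG 0 g) :
    GkEG 0 (ghA B l ls g) := by
  have h1 : GkEG 0 (fun z => Real.exp (-l.m * ghF B (l :: ls) z)) := ((ghr_F hB (l :: ls)).const_mul (-l.m)).exp.eg 0
  have h2 : GkEG 0 (gkP (ghStd ι) l.inc (fun y => Real.exp (l.m * ghF B ls y) * g y)) :=
    GkEG.P (ghr_noise l) ((((ghr_F hB ls).const_mul l.m).exp.eg 0).mul hg)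
  have h3 := h1.mul h2
  have e : ghA B l ls g = fun z => Real.exp (-l.m * ghF B (l :: ls) z) * gkP (ghStd ι) l.inc (fun y => Real.exp (l.m * ghF B ls y) * g y) z := by
    funext z
    rw [sap_A_eq, neg_mul]
  rw [e]
  exact h3

theorem sap_A_mono {B : GhB S} (hB : B.Ok) (l : GhLv S ι) (ls : List (GhLv S ι)) {g g' : (S → ℝ) → ℝ} (hg : GkEG 0 g) (hg' : GkEG 0 g')
    (hle : ∀ y, g y ≤ g' y) (z : S → ℝ) : ghA B l ls g z ≤ ghA B l ls g' z :=
  integral_mono (l12f_D_int hB l ls z hg) (l12f_D_int hB l ls z hg') fun ξ => mul_le_mul_of_nonneg_left (hle _) (gh_b_D_pos B l ls z ξ).le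

theorem sap_A_sub {B : GhB S} (hB : B.Ok) (l : GhLv S ι) (ls : List (GhLv S ι)) {g g' : (S → ℝ) → ℝ} (hg : GkEG 0 g) (hg' : GkEG 0 g')
    (z : S → ℝ) : ghA B l ls (fun y => g y - g' y) z = ghA B l ls g z - ghA B l ls g' z := by
  unfold ghA
  rw [← integral_sub (l12f_D_int hB l ls z hg) (l12f_D_int hB l ls z hg')]
  exact integral_congr_ae (Filter.Eventually.of_forall fun ξ => by simp only; ring)

theorem sap_A_const {B : GhB S} (hB : B.Ok) (l : GhLv S ι) (ls : List (GhLv S ι)) (c : ℝ) (z : S → ℝ) : ghA B l ls (fun _ => c) z = c := by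
  unfold ghA
  rw [integral_mul_const, ghd_ghD_int hB, one_mul]

theorem sap_A_sum {B : GhB S} (hB : B.Ok) (l : GhLv S ι) (ls : List (GhLv S ι)) {κ : Type} (K : Finset κ) (c : κ → ℝ) (G : κ → (S → ℝ) → ℝ)
    (hG : ∀ k, GkEG 0 (G k)) (z : S → ℝ) : ghA B l ls (fun y => ∑ k ∈ K, c k * G k y) z = ∑ k ∈ K, c k * ghA B l ls (G k) z := by
  unfold ghA
  have e : ∀ ξ, ghD B l ls z ξ * (∑ k ∈ K, c k * G k (z + l.inc ξ)) = ∑ k ∈ K, c k * (ghD B l ls z ξ * G k (z + l.inc ξ)) := by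
    intro ξ
    rw [Finset.mul_sum]
    exact Finset.sum_congr rfl fun k _ => by ring
  simp only [e]
  rw [integral_finset_sum _ fun k _ => (l12f_D_int hB l ls z (hG k)).const_mul (c k)]
  simp only [integral_const_mul]

/-! ## 2. Donsker-Varadhan with the planted law of the original path as trial law -/

/-- one level: new mass `m' > 0`, new continuation `ls'` -/
theorem sap_dv {B : GhB S} (hB : B.Ok) (l : GhLv S ι) (ls ls' : List (GhLv S ι)) {m' : ℝ} (hm' : 0 < m') (z : S → ℝ) :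
    ghA B l ls (ghF B ls') z - l.m / m' * (ghA B l ls (ghF B ls) z - ghF B (l :: ls) z) ≤ ghF B ((⟨m', l.A⟩ : GhLv S ι) :: ls') z := by
  set c : ℝ := m' * ghA B l ls (ghF B ls') z - l.m * (ghA B l ls (ghF B ls) z - ghF B (l :: ls) z) with hc
  have i0 : Integrable (ghD B l ls z) (ghStd ι) := ghd_ghD_integrable hB l ls z
  have i1 := l12f_D_int hB l ls z ((ghr_F hB ls').eg 0)
  have i2 := l12f_D_int hB l ls z ((ghr_F hB ls).eg 0)
  have i3 : Integrable (fun ξ => Real.exp (m' * ghF B ls' (z + l.inc ξ))) (ghStd ι) := l12c_int_exp hB ls' l m' z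
  have key : ∀ ξ, Real.exp c * (ghD B l ls z ξ * (1 - c + l.m * ghF B (l :: ls) z) + m' * (ghD B l ls z ξ * ghF B ls' (z + l.inc ξ))
      - l.m * (ghD B l ls z ξ * ghF B ls (z + l.inc ξ))) ≤ Real.exp (m' * ghF B ls' (z + l.inc ξ)) := by
    intro ξ
    set X : ℝ := m' * ghF B ls' (z + l.inc ξ) - l.m * (ghF B ls (z + l.inc ξ) - ghF B (l :: ls) z) with hX
    have e1 : Real.exp (m' * ghF B ls' (z + l.inc ξ)) = ghD B l ls z ξ * Real.exp X := by
      simp only [ghD]
      rw [← Real.exp_add]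
      congr 1
      rw [hX]; ring
    have e2 : Real.exp c * (X - c + 1) ≤ Real.exp X := by
      have := Real.add_one_le_exp (X - c)
      have h2 : Real.exp X = Real.exp c * Real.exp (X - c) := by rw [← Real.exp_add]; congr 1; ring
      rw [h2]
      exact mul_le_mul_of_nonneg_left this (Real.exp_pos _).le
    rw [e1]
    have := mul_le_mul_of_nonneg_left e2 (gh_b_D_pos B l ls z ξ).le
    refine le_trans (le_of_eq ?_) this
    rw [hX]; ring
  have j1 : Integrable (fun ξ => ghD B l ls z ξ * (1 - c + l.m * ghF B (l :: ls) z) + m' * (ghD B l ls z ξ * ghF B ls' (z + l.inc ξ))) (ghStd ι) :=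
    (i0.mul_const _).add (i1.const_mul m')
  have j2 : Integrable (fun ξ => ghD B l ls z ξ * (1 - c + l.m * ghF B (l :: ls) z) + m' * (ghD B l ls z ξ * ghF B ls' (z + l.inc ξ))
      - l.m * (ghD B l ls z ξ * ghF B ls (z + l.inc ξ))) (ghStd ι) := j1.sub (i2.const_mul l.m)
  have hint := integral_mono (j2.const_mul (Real.exp c)) i3 key
  rw [integral_const_mul, integral_sub j1 (i2.const_mul l.m),
    integral_add (i0.mul_const _) (i1.const_mul m'), integral_mul_const, integral_const_mul, integral_const_mul, ghd_ghD_int hB] at hint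
  have e3 : (1 * (1 - c + l.m * ghF B (l :: ls) z) + m' * ∫ ξ, ghD B l ls z ξ * ghF B ls' (z + l.inc ξ) ∂ghStd ι)
      - l.m * ∫ ξ, ghD B l ls z ξ * ghF B ls (z + l.inc ξ) ∂ghStd ι = 1 := by
    rw [hc]; unfold ghA; ring
  rw [e3, mul_one] at hint
  have h4 : c ≤ Real.log (∫ ξ, Real.exp (m' * ghF B ls' (z + l.inc ξ)) ∂ghStd ι) := by
    rw [← Real.log_exp c]
    exact Real.log_le_log (Real.exp_pos _) hint
  have h5 : ghF B ((⟨m', l.A⟩ : GhLv S ι) :: ls') z = m'⁻¹ * Real.log (∫ ξ, Real.exp (m' * ghF B ls' (z + l.inc ξ)) ∂ghStd ι) := by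
    simp only [ghF, ghT, hm'.ne', if_false]
    rfl
  rw [h5]
  have h6 : ghA B l ls (ghF B ls') z - l.m / m' * (ghA B l ls (ghF B ls) z - ghF B (l :: ls) z) = m'⁻¹ * c := by
    rw [hc]; field_simp
  rw [h6]
  exact mul_le_mul_of_nonneg_left h4 (inv_nonneg.2 hm'.le)

/-- expected increase of the continuation through the revelation number `k`, along the planted path from the root field `z` -/
noncomputable def sapI (B : GhB S) (ls : List (GhLv S ι)) (k : ℕ) (z : S → ℝ) : ℝ :=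
  ghPath B ls z fun ξ _ => ghF B (ls.drop (k + 1)) (z + ghPre ls ξ (k + 1)) - ghF B (ls.drop k) (z + ghPre ls ξ k)

theorem sap_I_nil {B : GhB S} (hB : B.Ok) (k : ℕ) (z : S → ℝ) : sapI (ι := ι) B [] k z = 0 := by
  unfold sapI
  simp only [List.drop_nil, obt_pre_nil, sub_self]
  exact obt_path_const hB [] z 0

theorem sap_I_zero {B : GhB S} (hB : B.Ok) (l : GhLv S ι) (ls : List (GhLv S ι)) (z : S → ℝ) :
    sapI B (l :: ls) 0 z = ghA B l ls (ghF B ls) z - ghF B (l :: ls) z := by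
  unfold sapI
  simp only [ghPath, obt_pre_cons, obt_pre_zero, List.drop_succ_cons, List.drop_zero, add_zero, zero_add]
  simp only [obt_path_const hB]
  have := sap_A_sub hB l ls ((ghr_F hB ls).eg 0) (ghh_eg_const 0 (ghF B (l :: ls) z)) z
  rw [sap_A_const hB] at this
  exact this

theorem sap_I_succ (B : GhB S) (l : GhLv S ι) (ls : List (GhLv S ι)) (k : ℕ) (z : S → ℝ) :
    sapI B (l :: ls) (k + 1) z = ghA B l ls (sapI B ls k) z := by
  unfold sapI ghA
  simp only [ghPath, obt_pre_cons, List.drop_succ_cons]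
  simp only [add_assoc]

theorem sap_I_eg {B : GhB S} (hB : B.Ok) : ∀ (ls : List (GhLv S ι)) (k : ℕ), GkEG 0 (sapI B ls k)
  | [], k => by
    have : sapI (ι := ι) B [] k = fun _ => 0 := funext (sap_I_nil hB k)
    rw [this]; exact ghh_eg_const 0 0
  | l :: ls, 0 => by
    have : sapI B (l :: ls) 0 = fun z => ghA B l ls (ghF B ls) z - ghF B (l :: ls) z := funext (sap_I_zero hB l ls)
    rw [this]; exact (sap_A_eg hB l ls ((ghr_F hB ls).eg 0)).sub ((ghr_F hB (l :: ls)).eg 0)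
  | l :: ls, k + 1 => by
    have : sapI B (l :: ls) (k + 1) = ghA B l ls (sapI B ls k) := funext (sap_I_succ B l ls k)
    rw [this]; exact sap_A_eg hB l ls (sap_I_eg hB ls k)

/-- **first-order convexity inequality in the reciprocal masses**, abstract hierarchy, any root field -/
theorem sap_subgrad {B : GhB S} (hB : B.Ok) (μ : ℝ → ℝ) (hμ : μ 0 = 0) (d : ℝ) : ∀ (ls : List (GhLv S ι)), (∀ l ∈ ls, l.m ≠ 0 → 0 < μ l.m) → ∀ z,
    ∑ k ∈ range ls.length, (1 - (ls.map GhLv.m).getD k d / μ ((ls.map GhLv.m).getD k d)) * sapI B ls k z ≤ ghF B (l12cRe μ ls) z - ghF B ls z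
  | [], _, z => by simp [l12cRe]
  | l :: ls, h, z => by
    have ih := sap_subgrad hB μ hμ d ls (fun l' hl' => h l' (List.mem_cons_of_mem _ hl'))
    rw [List.length_cons, Finset.sum_range_succ']
    simp only [List.map_cons, List.getD_cons_succ, List.getD_cons_zero, sap_I_succ]
    rw [← sap_A_sum hB l ls _ _ _ (sap_I_eg hB ls), sap_I_zero hB]
    have hs : GkEG 0 (fun y => ∑ k ∈ range ls.length, (1 - (ls.map GhLv.m).getD k d / μ ((ls.map GhLv.m).getD k d)) * sapI B ls k y) :=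
      GkEG.sum _ fun k _ => (sap_I_eg hB ls k).const_mul _
    have h1 := sap_A_mono hB l ls hs (((ghr_F hB (l12cRe μ ls)).eg 0).sub ((ghr_F hB ls).eg 0)) ih z
    rw [sap_A_sub hB l ls ((ghr_F hB (l12cRe μ ls)).eg 0) ((ghr_F hB ls).eg 0)] at h1
    have e0 : l12cRe μ (l :: ls) = (⟨μ l.m, l.A⟩ : GhLv S ι) :: l12cRe μ ls := rfl
    rw [e0]
    by_cases hm : l.m = 0
    · have a1 : ∀ (ls' : List (GhLv S ι)), ghA B l ls (ghF B ls') z = ∫ ξ, ghF B ls' (z + l.inc ξ) ∂ghStd ι := by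
        intro ls'
        unfold ghA
        simp only [ghD, hm, zero_mul, Real.exp_zero, one_mul]
      have a2 : ghF B ((⟨μ l.m, l.A⟩ : GhLv S ι) :: l12cRe μ ls) z = ∫ ξ, ghF B (l12cRe μ ls) (z + l.inc ξ) ∂ghStd ι := by
        simp only [ghF, ghT, hm, hμ, if_true]
        rfl
      have a3 : ghF B (l :: ls) z = ∫ ξ, ghF B ls (z + l.inc ξ) ∂ghStd ι := gh_b_F_cons_zero hm ls z
      rw [a1, a1] at h1
      rw [a1, a2, a3, sub_self, mul_zero, add_zero]
      exact h1
    · have h2 := sap_dv hB l ls (l12cRe μ ls) (h l (List.mem_cons_self ..) hm) z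
      nlinarith [h1, h2]

end Abs

/-! ## 3. `L8Z_Subgrad` -/

theorem sap_saMv (μ : ℝ → ℝ) (P : SkStp) : saMv μ P = l12cSk μ P := rfl

theorem sap_ms (n : ℕ) (a : ℝ) (P : SkStp) (k : ℕ) : ((skLvs n P).map GhLv.m).getD k a = skMs a P k := by
  unfold skMs skLvs
  rw [List.map_map]
  rfl

theorem sap_inc (n : ℕ) (a : ℝ) (P : SkStp) (k : ℕ) : saInc n a P k = sapI (skBase n a) (skLvs n P) k 0 := by
  unfold saInc sapI obE skF obFld
  simp only [obt_lvs_drop]

theorem l8z_subgrad : L8Z_Subgrad := by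
  intro n a P μ _ ha hP hμ hpos
  have hB := obt_base_ok n ha
  have h := sap_subgrad hB μ hμ a (skLvs n P) (fun l hl hm => by
    obtain ⟨e, he, rfl⟩ := List.mem_map.1 hl
    exact hpos e he (lt_of_le_of_ne (hP.2 e he).1 (Ne.symm hm))) 0
  simp only [sap_ms] at h
  have hl : (skLvs n P).length = P.length := by simp [skLvs]
  rw [hl] at h
  simp only [sap_inc, sap_saMv, skF, l12c_skLvs]
  exact h

/-! ## 4. `L8Z_Decouple` (= `sk_st_pr` of helper26) -/

theorem l8z_decouple : L8Z_Decouple := fun _ _ Q hn ha hQ hb => sk_st_pr hn ha Q (fun e he => (hQ.2 e he).1) hb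

/-! ## 5. mass integrals of step functions: `L8Z_SumInt` -/

theorem sap_idx_cons_le (e : SkInc) (P : SkStp) {v : ℝ} (h : e.m ≤ v) : saIdx (e :: P) v = saIdx P v + 1 := by
  unfold saIdx
  rw [List.filter_cons_of_pos (by simpa using h), List.length_cons]

theorem sap_filter_nil {e : SkInc} {P : SkStp} (hs : ∀ e' ∈ P, e.m ≤ e'.m) {v : ℝ} (h : v < e.m) :
    (e :: P).filter (fun e => decide (e.m ≤ v)) = [] := by
  rw [List.filter_eq_nil_iff]
  intro x hx
  have : v < x.m := by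
    rcases List.mem_cons.1 hx with rfl | hx
    · exact h
    · exact lt_of_lt_of_le h (hs x hx)
  simpa using this

theorem sap_idx_cons_lt {e : SkInc} {P : SkStp} (hs : ∀ e' ∈ P, e.m ≤ e'.m) {v : ℝ} (h : v < e.m) : saIdx (e :: P) v = 0 := by
  unfold saIdx
  rw [sap_filter_nil hs h, List.length_nil]

theorem sap_idx_le (P : SkStp) (v : ℝ) : saIdx P v ≤ P.length := List.length_filter_le _ _

theorem sap_idx_mono (P : SkStp) : Monotone (saIdx P) := by
  intro u v huv
  unfold saIdx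
  refine (List.monotone_filter_right P fun e he => ?_).length_le
  have : e.m ≤ u := by simpa using he
  simpa using this.trans huv

theorem sap_idx_intble (P : SkStp) (g : ℕ → ℝ) (c d : ℝ) : IntervalIntegrable (fun v => g (saIdx P v)) volume c d := by
  have hm : Measurable (fun v => g (saIdx P v)) := (measurable_from_nat (f := g)).comp (sap_idx_mono P).measurable
  refine (intervalIntegrable_const (c := ∑ j ∈ range (P.length + 1), |g j|)).mono_fun' hm.aestronglyMeasurable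
    (Filter.Eventually.of_forall fun v => ?_)
  show ‖g (saIdx P v)‖ ≤ ∑ j ∈ range (P.length + 1), |g j|
  rw [Real.norm_eq_abs]
  exact Finset.single_le_sum (f := fun j => |g j|) (fun _ _ => abs_nonneg _) (Finset.mem_range.2 (Nat.lt_succ_of_le (sap_idx_le P v)))

theorem sap_sumint_aux (a : ℝ) : ∀ (P : SkStp) (c : ℝ) (g : ℕ → ℝ), P.Pairwise (fun e e' => e.m ≤ e'.m) → (∀ e ∈ P, c ≤ e.m ∧ e.m ≤ a) →
    ∫ v in c..a, g (saIdx P v) = ∑ j ∈ range (P.length + 1), (skMs a P j - (if j = 0 then c else skMs a P (j - 1))) * g j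
  | [], c, g, _, _ => by simp [saIdx, skMs]
  | e :: P, c, g, hs, hb => by
    have hs' := List.pairwise_cons.1 hs
    have hem := hb e (List.mem_cons_self ..)
    have ih := sap_sumint_aux a P e.m (fun j => g (j + 1)) hs'.2 (fun e' he' => ⟨hs'.1 e' he', (hb e' (List.mem_cons_of_mem _ he')).2⟩)
    rw [← intervalIntegral.integral_add_adjacent_intervals (sap_idx_intble _ g c e.m) (sap_idx_intble _ g e.m a)]
    have h1 : ∫ v in c..e.m, g (saIdx (e :: P) v) = (e.m - c) * g 0 := by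
      rw [intervalIntegral.integral_congr_ae (g := fun _ => g 0)]
      · simp
      · filter_upwards [compl_mem_ae_iff.2 (measure_singleton e.m)] with v hv hv'
        rw [uIoc_of_le hem.1] at hv'
        rw [sap_idx_cons_lt hs'.1 (lt_of_le_of_ne hv'.2 hv)]
    have h2 : ∫ v in e.m..a, g (saIdx (e :: P) v) = ∫ v in e.m..a, g (saIdx P v + 1) := by
      refine intervalIntegral.integral_congr fun v hv => ?_
      rw [uIcc_of_le hem.2] at hv
      simp only [sap_idx_cons_le e P hv.1]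
    rw [h1, h2, ih, List.length_cons, Finset.sum_range_succ' _ (P.length + 1), add_comm]
    congr 1
    · refine Finset.sum_congr rfl fun j _ => ?_
      congr 1
      rcases j with _ | j
      · simp [skMs]
      · simp [skMs]

theorem sap_sumInt : L8Z_SumInt := by
  intro a P g _ hP
  rw [sap_sumint_aux a P 0 g hP.1 fun e he => ⟨(hP.2 e he).1, (hP.2 e he).2.1⟩]
  rfl

theorem sap_filter_take : ∀ (P : SkStp) (v : ℝ), P.Pairwise (fun e e' => e.m ≤ e'.m) →
    P.filter (fun e => decide (e.m ≤ v)) = P.take (saIdx P v)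
  | [], v, _ => by simp
  | e :: P, v, hs => by
    have hs' := List.pairwise_cons.1 hs
    by_cases h : e.m ≤ v
    · rw [sap_idx_cons_le e P h, List.take_succ_cons, List.filter_cons_of_pos (by simpa using h), sap_filter_take P v hs'.2]
    · push Not at h
      rw [sap_idx_cons_lt hs'.1 h, List.take_zero, sap_filter_nil hs'.1 h]

theorem sap_clkB_idx {P : SkStp} (hs : P.Pairwise (fun e e' => e.m ≤ e'.m)) (v : ℝ) : skClkB P v = skCumB P (saIdx P v) := by
  unfold skClkB skCumB; rw [sap_filter_take P v hs]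

theorem sap_clkH_idx {P : SkStp} (hs : P.Pairwise (fun e e' => e.m ≤ e'.m)) (v : ℝ) : skClkH P v = skCumH P (saIdx P v) := by
  unfold skClkH skCumH; rw [sap_filter_take P v hs]

theorem sap_idx_ms (P : SkStp) (v : ℝ) : saIdx P v = ((P.map SkInc.m).filter fun x => decide (x ≤ v)).length := by
  unfold saIdx
  rw [List.filter_map, List.length_map]
  rfl

/-! ## 6. common refinement of two step paths -/

theorem sap_sort_exists (L : List (SkInc × SkInc)) : ∃ R : List (SkInc × SkInc), R.Perm L ∧ R.Pairwise (fun p q => p.1.m ≤ q.1.m) := by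
  classical
  haveI : Std.Total (fun p q : SkInc × SkInc => p.1.m ≤ q.1.m) := ⟨fun p q => le_total _ _⟩
  haveI : IsTrans (SkInc × SkInc) (fun p q => p.1.m ≤ q.1.m) := ⟨fun _ _ _ => le_trans⟩
  exact ⟨L.insertionSort (fun p q => p.1.m ≤ q.1.m), List.perm_insertionSort _ L, List.pairwise_insertionSort _ L⟩

theorem sap_clk_perm {P P' : SkStp} (h : P'.Perm P) : skClkB P' = skClkB P ∧ skClkH P' = skClkH P := by
  constructor <;> funext u
  · exact ((h.filter _).map _).sum_eq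
  · exact ((h.filter _).map _).sum_eq

theorem sap_clk_append (P Z : SkStp) (u : ℝ) : skClkB (P ++ Z) u = skClkB P u + skClkB Z u ∧ skClkH (P ++ Z) u = skClkH P u + skClkH Z u := by
  unfold skClkB skClkH
  simp only [List.filter_append, List.map_append, List.sum_append, and_self]

theorem sap_clk_zero : ∀ (Q : SkStp) (u : ℝ), skClkB (Q.map fun e => (⟨e.m, 0, 0⟩ : SkInc)) u = 0 ∧ skClkH (Q.map fun e => (⟨e.m, 0, 0⟩ : SkInc)) u = 0
  | [], u => by simp [skClkB, skClkH]
  | e :: Q, u => by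
    have ih := sap_clk_zero Q u
    rw [List.map_cons, sk_stp_clkB_cons, sk_stp_clkH_cons, ih.1, ih.2]
    simp

theorem sap_refine {a : ℝ} {P Q : SkStp} (hP : SkAdm a P) (hQ : SkAdm a Q) : ∃ P' Q' : SkStp, SkAdm a P' ∧ SkAdm a Q' ∧
    P'.map SkInc.m = Q'.map SkInc.m ∧ skClkB P' = skClkB P ∧ skClkH P' = skClkH P ∧ skClkB Q' = skClkB Q ∧ skClkH Q' = skClkH Q := by
  obtain ⟨R, hperm, hsort⟩ := sap_sort_exists ((P.map fun e => (e, (⟨e.m, 0, 0⟩ : SkInc))) ++ Q.map fun e => ((⟨e.m, 0, 0⟩ : SkInc), e))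
  have hmem : ∀ p ∈ R, (∃ e ∈ P, p = (e, (⟨e.m, 0, 0⟩ : SkInc))) ∨ ∃ e ∈ Q, p = ((⟨e.m, 0, 0⟩ : SkInc), e) := by
    intro p hp
    rcases List.mem_append.1 (hperm.mem_iff.1 hp) with h | h
    · obtain ⟨e, he, rfl⟩ := List.mem_map.1 h
      exact Or.inl ⟨e, he, rfl⟩
    · obtain ⟨e, he, rfl⟩ := List.mem_map.1 h
      exact Or.inr ⟨e, he, rfl⟩
  have hms : ∀ p ∈ R, p.1.m = p.2.m := by
    intro p hp
    rcases hmem p hp with ⟨e, _, rfl⟩ | ⟨e, _, rfl⟩ <;> rfl
  have hmm : (R.map Prod.fst).map SkInc.m = (R.map Prod.snd).map SkInc.m := by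
    rw [List.map_map, List.map_map]
    exact List.map_congr_left hms
  have hp1 : (R.map Prod.fst).Perm (P ++ Q.map fun e => (⟨e.m, 0, 0⟩ : SkInc)) := by
    have := hperm.map Prod.fst
    simpa [List.map_append, List.map_map, Function.comp_def] using this
  have hp2 : (R.map Prod.snd).Perm ((P.map fun e => (⟨e.m, 0, 0⟩ : SkInc)) ++ Q) := by
    have := hperm.map Prod.snd
    simpa [List.map_append, List.map_map, Function.comp_def] using this
  have hs1 : (R.map Prod.fst).Pairwise (fun e e' => e.m ≤ e'.m) := List.pairwise_map.2 hsort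
  have hs2 : (R.map Prod.snd).Pairwise (fun e e' => e.m ≤ e'.m) := by
    have h1 : ((R.map Prod.fst).map SkInc.m).Pairwise (· ≤ ·) := List.pairwise_map.2 hs1
    rw [hmm] at h1
    exact List.pairwise_map.1 h1
  refine ⟨R.map Prod.fst, R.map Prod.snd, ⟨hs1, ?_⟩, ⟨hs2, ?_⟩, hmm, ?_, ?_, ?_, ?_⟩
  · intro e he
    obtain ⟨p, hp, rfl⟩ := List.mem_map.1 he
    rcases hmem p hp with ⟨e, he', rfl⟩ | ⟨e, he', rfl⟩
    · exact hP.2 e he'
    · exact ⟨(hQ.2 e he').1, (hQ.2 e he').2.1, le_rfl, le_rfl⟩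
  · intro e he
    obtain ⟨p, hp, rfl⟩ := List.mem_map.1 he
    rcases hmem p hp with ⟨e, he', rfl⟩ | ⟨e, he', rfl⟩
    · exact ⟨(hP.2 e he').1, (hP.2 e he').2.1, le_rfl, le_rfl⟩
    · exact hQ.2 e he'
  · rw [(sap_clk_perm hp1).1]; funext u; rw [(sap_clk_append _ _ u).1, (sap_clk_zero Q u).1, add_zero]
  · rw [(sap_clk_perm hp1).2]; funext u; rw [(sap_clk_append _ _ u).2, (sap_clk_zero Q u).2, add_zero]
  · rw [(sap_clk_perm hp2).1]; funext u; rw [(sap_clk_append _ _ u).1, (sap_clk_zero P u).1, zero_add]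
  · rw [(sap_clk_perm hp2).2]; funext u; rw [(sap_clk_append _ _ u).2, (sap_clk_zero P u).2, zero_add]

/-! ## 7. the segment -/

theorem sap_seg_cons (t : ℝ) (p q : SkInc) (P Q : SkStp) :
    skSeg t (p :: P) (q :: Q) = ⟨p.m, (1 - t) * p.db + t * q.db, (1 - t) * p.dh + t * q.dh⟩ :: skSeg t P Q := rfl

theorem sap_seg_mem (t : ℝ) : ∀ (P Q : SkStp), ∀ e ∈ skSeg t P Q, ∃ p ∈ P, ∃ q ∈ Q, e = ⟨p.m, (1 - t) * p.db + t * q.db, (1 - t) * p.dh + t * q.dh⟩
  | [], _, e, he => by simp [skSeg] at he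
  | _ :: _, [], e, he => by simp [skSeg] at he
  | p :: P, q :: Q, e, he => by
    rw [sap_seg_cons] at he
    rcases List.mem_cons.1 he with rfl | he
    · exact ⟨p, List.mem_cons_self .., q, List.mem_cons_self .., rfl⟩
    · obtain ⟨p', hp', q', hq', h⟩ := sap_seg_mem t P Q e he
      exact ⟨p', List.mem_cons_of_mem _ hp', q', List.mem_cons_of_mem _ hq', h⟩

theorem sap_seg_pw (t : ℝ) : ∀ (P Q : SkStp), P.Pairwise (fun e e' => e.m ≤ e'.m) → (skSeg t P Q).Pairwise (fun e e' => e.m ≤ e'.m)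
  | [], _, _ => by simp [skSeg]
  | _ :: _, [], _ => by simp [skSeg]
  | p :: P, q :: Q, h => by
    rw [sap_seg_cons]
    have h' := List.pairwise_cons.1 h
    refine List.pairwise_cons.2 ⟨fun e he => ?_, sap_seg_pw t P Q h'.2⟩
    obtain ⟨p', hp', q', _, rfl⟩ := sap_seg_mem t P Q e he
    exact h'.1 p' hp'

theorem sap_seg_adm {a t : ℝ} (ht : t ∈ Icc (0 : ℝ) 1) {P Q : SkStp} (hP : SkAdm a P) (hQ : SkAdm a Q) : SkAdm a (skSeg t P Q) := by
  refine ⟨sap_seg_pw t P Q hP.1, fun e he => ?_⟩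
  obtain ⟨p, hp, q, hq, rfl⟩ := sap_seg_mem t P Q e he
  have h1 := hP.2 p hp
  have h2 := hQ.2 q hq
  have ht1 : 0 ≤ 1 - t := by linarith [ht.2]
  exact ⟨h1.1, h1.2.1, add_nonneg (mul_nonneg ht1 h1.2.2.1) (mul_nonneg ht.1 h2.2.2.1),
    add_nonneg (mul_nonneg ht1 h1.2.2.2) (mul_nonneg ht.1 h2.2.2.2)⟩

theorem sap_seg_zero : ∀ (P Q : SkStp), P.map SkInc.m = Q.map SkInc.m → skSeg 0 P Q = P
  | [], [], _ => rfl
  | [], _ :: _, h => by simp at h
  | _ :: _, [], h => by simp at h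
  | p :: P, q :: Q, h => by
    simp only [List.map_cons, List.cons.injEq] at h
    rw [sap_seg_cons, sap_seg_zero P Q h.2]
    simp

theorem sap_seg_one : ∀ (P Q : SkStp), P.map SkInc.m = Q.map SkInc.m → skSeg 1 P Q = Q
  | [], [], _ => rfl
  | [], _ :: _, h => by simp at h
  | _ :: _, [], h => by simp at h
  | p :: P, q :: Q, h => by
    simp only [List.map_cons, List.cons.injEq] at h
    rw [sap_seg_cons, sap_seg_one P Q h.2, h.1]
    simp

/-! ## 8. `L8Z_Trial` -/

/-- the pointwise square completion -/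
theorem sap_square {B S b d : ℝ} (hB : S ^ 2 ≤ B) (hb : 0 ≤ b) (h0 : b = 0 → d = 0) : -(d ^ 2 / (4 * b)) ≤ 1 / 4 * (B * b) - 1 / 2 * (S * d) := by
  rcases hb.eq_or_lt with hb0 | hb0
  · rw [← hb0, h0 hb0.symm]; simp
  · have h1 : 1 / 4 * (S ^ 2 * b) - 1 / 2 * (S * d) + d ^ 2 / (4 * b) = (S * b - d) ^ 2 / (4 * b) := by
      field_simp
      ring
    have h2 : 0 ≤ (S * b - d) ^ 2 / (4 * b) := by positivity
    have h3 : S ^ 2 * b ≤ B * b := mul_le_mul_of_nonneg_right hB hb0.le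
    linarith

/-- same masses -/
theorem sap_trial_same {n : ℕ} (hn : 0 < n) {a : ℝ} (ha : 0 < a) {P Q : SkStp} (hP : SkAdm a P) (hQ : SkAdm a Q)
    (hm : P.map SkInc.m = Q.map SkInc.m) (hb : ∀ u, skClkB Q u = 0)
    (h0 : ∀ u ∈ Icc 0 a, skClkB P u = 0 → skClkH Q u = skClkH P u) :
    skPr n a P ≤ skPr n a Q + ∫ u in (0 : ℝ)..a, (skClkH Q u - skClkH P u) ^ 2 / (4 * skClkB P u) := by
  set I : ℝ := ∫ u in (0 : ℝ)..a, (skClkH Q u - skClkH P u) ^ 2 / (4 * skClkB P u) with hI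
  set f : ℝ → ℝ := fun s => skPrS n a (skSeg s P Q) 0 with hf
  set f' : ℝ → ℝ := fun t => -(1 / 4) * ∑ j ∈ Finset.range (P.length + 1), skGap a P j * obB n a (skSeg t P Q) 0 j * (skCumB Q j - skCumB P j)
        - (1 / 2) * ∑ j ∈ Finset.range (P.length + 1), skGap a P j * obS n a (skSeg t P Q) 0 j * (skCumH Q j - skCumH P j) with hf'
  have hd : ∀ t ∈ Icc (0 : ℝ) 1, HasDerivWithinAt f (f' t) (Icc 0 1) t := fun t ht => ob_pressure_deriv hn ha P Q hP hQ hm 0 ht
  have hidx : ∀ u, saIdx Q u = saIdx P u := fun u => by rw [sap_idx_ms, sap_idx_ms, hm]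
  have hlow : ∀ t ∈ Icc (0 : ℝ) 1, -I ≤ f' t := by
    intro t ht
    have hadm := sap_seg_adm ht hP hQ
    set g : ℕ → ℝ := fun j => -(1 / 4) * (obB n a (skSeg t P Q) 0 j * (skCumB Q j - skCumB P j))
      - 1 / 2 * (obS n a (skSeg t P Q) 0 j * (skCumH Q j - skCumH P j)) with hg
    have e1 : f' t = ∫ v in (0 : ℝ)..a, g (saIdx P v) := by
      rw [sap_sumInt a P g ha hP, hf']
      simp only [hg, Finset.mul_sum, ← Finset.sum_sub_distrib]
      exact Finset.sum_congr rfl fun j _ => by ring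
    set G : ℕ → ℝ := fun j => -((skCumH Q j - skCumH P j) ^ 2 / (4 * skCumB P j)) with hG
    have e2 : -I = ∫ v in (0 : ℝ)..a, G (saIdx P v) := by
      rw [hI, ← intervalIntegral.integral_neg]
      refine intervalIntegral.integral_congr fun u _ => ?_
      simp only [hG]
      rw [sap_clkH_idx hQ.1, sap_clkH_idx hP.1, sap_clkB_idx hP.1, hidx]
    rw [e1, e2]
    refine intervalIntegral.integral_mono_on ha.le (sap_idx_intble P G 0 a) (sap_idx_intble P g 0 a) fun u hu => ?_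
    have hBr := (fd_B_range hn ha (skSeg t P Q) hadm 0 (saIdx P u)).1
    have c1 : skCumB P (saIdx P u) = skClkB P u := (sap_clkB_idx hP.1 u).symm
    have c2 : skCumH P (saIdx P u) = skClkH P u := (sap_clkH_idx hP.1 u).symm
    have c3 : skCumH Q (saIdx P u) = skClkH Q u := by rw [← hidx, sap_clkH_idx hQ.1 u]
    have c4 : skCumB Q (saIdx P u) = 0 := by rw [← hidx, ← sap_clkB_idx hQ.1 u, hb]
    have hbn : 0 ≤ skClkB P u := (sk_stp_clk_nonneg P u fun e he => ⟨(hP.2 e he).2.2.1, (hP.2 e he).2.2.2⟩).1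
    have := sap_square (d := skClkH Q u - skClkH P u) hBr hbn (fun h => by rw [h0 u hu h, sub_self])
    simp only [hG, hg, c1, c2, c3, c4]
    linarith
  have hcont : ContinuousOn f (Icc 0 1) := fun t ht => (hd t ht).continuousWithinAt
  obtain ⟨c, hc, hc'⟩ := exists_hasDerivAt_eq_slope f f' (zero_lt_one) hcont
    (fun t ht => (hd t ⟨ht.1.le, ht.2.le⟩).hasDerivAt (Icc_mem_nhds ht.1 ht.2))
  have h1 := hlow c ⟨hc.1.le, hc.2.le⟩
  rw [hc'] at h1
  have e0 : f 0 = skPr n a P := by simp only [hf]; rw [sap_seg_zero P Q hm]; rfl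
  have e1 : f 1 = skPr n a Q := by simp only [hf]; rw [sap_seg_one P Q hm]; rfl
  rw [e0, e1] at h1
  simp only [sub_zero, div_one] at h1
  linarith

theorem sap_clkB_zero : ∀ (Q : SkStp), (∀ e ∈ Q, e.db = 0) → ∀ u, skClkB Q u = 0
  | [], _, u => sk_stp_clkB_nil u
  | e :: Q, h, u => by
    rw [sk_stp_clkB_cons, sap_clkB_zero Q (fun e' he' => h e' (List.mem_cons_of_mem _ he')) u, h e (List.mem_cons_self ..)]
    simp

theorem l8z_trial : L8Z_Trial := by
  intro n a P Q hn ha hP hQ hb h0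
  obtain ⟨P', Q', hP', hQ', hm, b1, b2, b3, b4⟩ := sap_refine hP hQ
  have h := sap_trial_same hn ha hP' hQ' hm (fun u => by rw [b3]; exact sap_clkB_zero Q hb u) (by rw [b1, b2, b4]; exact h0)
  rw [b1, b2, b4, sk_stp_pr_clk n ha hP' hP b1 b2, sk_stp_pr_clk n ha hQ' hQ b3 b4] at h
  exact h

end Claimed.Agent.R286
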