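/-
Row 286 (S0533), LL sec. 8, package L12, unit SA (architect helper163).   Second personal file of the prover helper222.   0 sorry.
Proofs of the PURE contracts of `L08/SaCell.lean` (08-statistics.tex l.1119-1190, from (D13) to the interior part of (D14), fine level):
  (L8Z_SumInt: `sap_sumInt` of helper233, `L08/SaPf233.lean`; my duplicate was removed)
  l8z_d14in  : L8Z_D14in      sliding windows: `l12_cell_int_pf` applied to `v ↦ S (saIdx P v) - q (saIdx P v)`
  l8z_cell   : L8Z_Cell       good points: explicit trapezoid `l8zcT` (slope 1/8, height l/32) right resp. left of `v0`;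
                              `l8zc_mass`: the field clock charges the plateau (`η l²/128`), by the density of the masses
  l8z_ent    : L8Z_Ent,   l8z_d13_pf : L8Z_D13      UNCONDITIONAL (D13) on the fine level (all inputs proved)
KIT for D11.d on Sc objects (part K; for `l8z_stab` of `L08/SaTop.lean`, architect 163):
  l8zs_gam_stab   two nondecreasing step profiles of the same length: `|Γ - Γ'| ≤ K (1 + T) (d + √d)`, `d = scDst`, `K = K(a)` FREE of the horizon (sgp_P_stab + sgp_D_stab)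
  l8zs_al, l8zs_dst   layer cake of `scAl (slkPi Q)`; area inequality `scDst (slkPi Q) (slkPi Q') ≤ ∑ gap |cumH - cumH'|` (same masses, same total clock)
  l8zs_stab       = both, on one-site step paths
-/
import Mathlib
import Claimed.Agent.R286.L08.P222
import Claimed.Agent.R286.L08.SaCell
import Claimed.Agent.R286.L08.SaPf233
import Claimed.Agent.R286.Fd.EntB
import Claimed.Agent.R286.Sc.Lip90
import Claimed.Agent.R286.Sc.Link

set_option autoImplicit false

namespace Claimed.Agent.R286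

section Cell
open MeasureTheory Set Filter Topology Finset

/-! ## H. step functions of the cut number: `L8Z_D14in` -/

/-- the cut number on a sorted path -/
theorem l8zc_idx (a u : ℝ) (P : SkStp) (h : P.Pairwise (fun e e' => e.m ≤ e'.m)) :
    saIdx P u ≤ P.length ∧ ∀ k, k < P.length → (skMs a P k ≤ u ↔ k < saIdx P u) := by
  obtain ⟨j, hj, hf, hk⟩ := l8zp_filter_take a u P h
  have : saIdx P u = j := by rw [saIdx, hf, List.length_take, min_eq_left hj]
  rw [this]
  exact ⟨hj, hk⟩

theorem l8zc_idx_mono (P : SkStp) : Monotone (saIdx P) := by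
  intro u v huv
  unfold saIdx
  refine List.Sublist.length_le ?_
  refine List.monotone_filter_right P ?_
  intro e he
  simp only [decide_eq_true_eq] at he ⊢
  exact he.trans huv

theorem l8z_d14in : L8Z_D14in := by
  intro a V L l κ τ M P Kf S q hV hL hl hκ hτ hVL hK hKM hb hgood
  have hVL' : V ≤ L := by linarith
  have hmeas : Measurable (fun v => S (saIdx P v) - q (saIdx P v)) :=
    (Measurable.of_discrete (f := fun k : ℕ => S k - q k)).comp (l8zc_idx_mono P).measurable
  have hint : IntervalIntegrable (fun v => S (saIdx P v) - q (saIdx P v)) volume V L := by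
    rw [intervalIntegrable_iff_integrableOn_Ioc_of_le hVL']
    exact Measure.integrableOn_of_bounded (M := 1) (by simp) hmeas.aestronglyMeasurable
      (ae_of_all _ fun v => hb _)
  exact l12_cell_int_pf V L l κ τ M Kf (fun v => S (saIdx P v) - q (saIdx P v)) hl hκ hτ hVL
    (hK.mono (Icc_subset_Icc hV hL)) hKM (fun v _ => hb _) hint hgood

/-! ## I. good points: `L8Z_Cell` -/

/-- the trapezoid of base `[α', α' + l]`, slope `1/8`, height `l/32` -/
noncomputable def l8zcT (α' l v : ℝ) : ℝ := (1 / 8) * max 0 (min (min (v - α') (α' + l - v)) (l / 4))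

theorem l8zc_eqns_cite : True := by
  have := @l8zcT.eq_1
  trivial

theorem l8zc_T_nonneg (α' l v : ℝ) : 0 ≤ l8zcT α' l v :=
  mul_nonneg (by norm_num) (le_max_left _ _)

theorem l8zc_T_le {l : ℝ} (hl : 0 < l) (α' v : ℝ) : l8zcT α' l v ≤ l / 32 := by
  unfold l8zcT
  have : max 0 (min (min (v - α') (α' + l - v)) (l / 4)) ≤ l / 4 := max_le (by positivity) (min_le_right _ _)
  linarith

theorem l8zc_T_lip (α' l u v : ℝ) : |l8zcT α' l u - l8zcT α' l v| ≤ 1 / 8 * |u - v| := by
  unfold l8zcT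
  rw [← mul_sub, abs_mul, abs_of_pos (by norm_num : (0 : ℝ) < 1 / 8)]
  refine mul_le_mul_of_nonneg_left ?_ (by norm_num)
  refine (abs_max_sub_max_le_max _ _ _ _).trans ?_
  refine max_le (by simp) ?_
  refine (abs_min_sub_min_le_max _ _ _ _).trans ?_
  refine max_le ?_ (by simp)
  refine (abs_min_sub_min_le_max _ _ _ _).trans ?_
  refine max_le ?_ ?_
  · have : u - α' - (v - α') = u - v := by ring
    rw [this]
  · have : α' + l - u - (α' + l - v) = -(u - v) := by ring
    rw [this, abs_neg]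

theorem l8zc_T_supp {α' l v : ℝ} (h : l8zcT α' l v ≠ 0) : α' < v ∧ v < α' + l := by
  by_contra hc
  apply h
  unfold l8zcT
  have : min (min (v - α') (α' + l - v)) (l / 4) ≤ 0 := by
    rw [not_and_or, not_lt, not_lt] at hc
    rcases hc with hc | hc
    · exact (min_le_left _ _).trans ((min_le_left _ _).trans (by linarith))
    · exact (min_le_left _ _).trans ((min_le_right _ _).trans (by linarith))
  rw [max_eq_left this, mul_zero]

theorem l8zc_T_top {α' l v : ℝ} (hl : 0 < l) (h1 : α' + l / 4 ≤ v) (h2 : v ≤ α' + 3 * l / 4) :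
    l8zcT α' l v = l / 32 := by
  unfold l8zcT
  have : min (min (v - α') (α' + l - v)) (l / 4) = l / 4 := by
    apply min_eq_right
    exact le_min (by linarith) (by linarith)
  rw [this, max_eq_right (by positivity)]
  ring

theorem l8zc_bump {V α β α' l c : ℝ} (hV : 0 < V) (hVα : V ≤ α) (hl : 0 < l) (h1 : α + l ≤ α') (h2 : α' + 2 * l ≤ β)
    (hc : |c| = 1) : L8ZBump (1 / 4) (l / (32 * V)) α β (fun v => c * l8zcT α' l v) where
  slope := fun u v => by
    rw [← mul_sub, abs_mul, hc, one_mul]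
    refine (l8zc_T_lip α' l u v).trans ?_
    have := abs_nonneg (u - v)
    linarith
  rel := fun v => by
    by_cases h : l8zcT α' l v = 0
    · right; rw [h, mul_zero]
    · left
      obtain ⟨s1, s2⟩ := l8zc_T_supp h
      rw [abs_mul, hc, one_mul, abs_of_nonneg (l8zc_T_nonneg _ _ _)]
      refine (l8zc_T_le hl α' v).trans ?_
      rw [div_mul_eq_mul_div, le_div_iff₀ (by positivity)]
      have : V ≤ v := by linarith
      nlinarith
  supp := fun v h => by
    have h' : l8zcT α' l v ≠ 0 := fun h0 => h (by simp [h0])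
    obtain ⟨s1, s2⟩ := l8zc_T_supp h'
    have : |c * l8zcT α' l v| ≤ l / 32 := by
      rw [abs_mul, hc, one_mul, abs_of_nonneg (l8zc_T_nonneg _ _ _)]
      exact l8zc_T_le hl α' v
    constructor <;> linarith

theorem l8zc_ms_mono (a : ℝ) (P : SkStp) (h : P.Pairwise (fun e e' => e.m ≤ e'.m)) {k k' : ℕ} (hk : k ≤ k')
    (hk' : k' < P.length) : skMs a P k ≤ skMs a P k' := by
  rcases hk.eq_or_lt with rfl | hlt
  · exact le_rfl
  · have := List.pairwise_iff_getElem.1 h k k' (by omega) hk' hlt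
    simpa [skMs, List.getD_eq_getElem?_getD, hk', (by omega : k < P.length)] using this

/-- the field clock charges the trapezoid -/
theorem l8zc_mass {a V L α' l εv η : ℝ} {P : SkStp} (hadm : SkAdm a P) (hV : 0 < V) (hl : 0 < l)
    (hεv : 0 < εv) (hεl : εv ≤ l / 4) (hη : 0 ≤ η)
    (hdense : ∀ w ∈ Icc V L, ∃ e ∈ P, w ≤ e.m ∧ e.m < w + εv) (h1 : V ≤ α') (h2 : α' + l ≤ L)
    (hgap : ∀ k < P.length, α' < skMs a P k → skMs a P k < α' + l → η * skGap a P k ≤ saDh P k) :
    η * l ^ 2 / 128 ≤ ∑ k ∈ range P.length, l8zcT α' l (skMs a P k) * saDh P k := by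
  set x1 := α' + l / 4 with hx1
  set x2 := α' + 3 * l / 4 with hx2
  obtain ⟨hj1, hk1⟩ := l8zc_idx a x1 P hadm.1
  obtain ⟨hj2, hk2⟩ := l8zc_idx a x2 P hadm.1
  set j1 := saIdx P x1 with hj1d
  set j2 := saIdx P x2 with hj2d
  have hj12 : j1 ≤ j2 := l8zc_idx_mono P (by rw [hx1, hx2]; linarith)
  have hDh : ∀ k < P.length, 0 ≤ saDh P k := fun k hk => by
    obtain ⟨e, he, _, _, eh⟩ := l8zp_ms_mem a P hk
    rw [eh]; exact (hadm.2 e he).2.2.2
  set Mm : ℕ → ℝ := fun j => if j = 0 then 0 else skMs a P (j - 1) with hMm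
  have hgapM : ∀ k, skGap a P k = Mm (k + 1) - Mm k := fun k => by
    simp [hMm, skGap]
  have htel : ∑ k ∈ Finset.Ico j1 j2, skGap a P k = Mm j2 - Mm j1 := by
    simp only [hgapM]
    rw [Finset.sum_Ico_eq_sub _ hj12, Finset.sum_range_sub, Finset.sum_range_sub]
    ring
  have hM1 : Mm j1 ≤ x1 := by
    by_cases h0 : j1 = 0
    · simp only [hMm, h0, if_true]; rw [hx1]; linarith
    · simp only [hMm, h0, if_false]
      exact (hk1 (j1 - 1) (by omega)).2 (by omega)
  have hM2 : x2 - εv ≤ Mm j2 := by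
    obtain ⟨e, he, e1, e2⟩ := hdense (x2 - εv) ⟨by rw [hx2]; linarith, by rw [hx2]; linarith⟩
    obtain ⟨k, hk, rfl⟩ := List.getElem_of_mem he
    have em : skMs a P k = P[k].m := by simp [skMs, List.getD_eq_getElem?_getD, hk]
    have hkj : k < j2 := (hk2 k hk).1 (by rw [em]; linarith)
    have h0 : j2 ≠ 0 := by omega
    simp only [hMm, h0, if_false]
    have := l8zc_ms_mono a P hadm.1 (k := k) (k' := j2 - 1) (by omega) (by omega)
    rw [em] at this
    linarith
  calc η * l ^ 2 / 128 = l / 32 * (η * (l / 4)) := by ring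
    _ ≤ l / 32 * (η * ∑ k ∈ Finset.Ico j1 j2, skGap a P k) := by
        rw [htel]
        refine mul_le_mul_of_nonneg_left (mul_le_mul_of_nonneg_left ?_ hη) (by positivity)
        rw [hx1] at hM1; rw [hx2] at hM2
        linarith
    _ = ∑ k ∈ Finset.Ico j1 j2, l / 32 * (η * skGap a P k) := by rw [Finset.mul_sum, Finset.mul_sum]
    _ ≤ ∑ k ∈ Finset.Ico j1 j2, l8zcT α' l (skMs a P k) * saDh P k := by
        refine Finset.sum_le_sum fun k hk => ?_
        obtain ⟨k1, k2⟩ := Finset.mem_Ico.1 hk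
        have hkN : k < P.length := by omega
        have m1 : x1 < skMs a P k := by
          by_contra hc
          have := (hk1 k hkN).1 (not_lt.1 hc)
          omega
        have m2 : skMs a P k ≤ x2 := (hk2 k hkN).2 k2
        rw [l8zc_T_top hl (by rw [hx1] at m1; exact m1.le) (by rw [hx2] at m2; exact m2)]
        refine mul_le_mul_of_nonneg_left ?_ (by positivity)
        exact hgap k hkN (by rw [hx1] at m1; linarith) (by rw [hx2] at m2; linarith)
    _ ≤ ∑ k ∈ range P.length, l8zcT α' l (skMs a P k) * saDh P k := by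
        refine Finset.sum_le_sum_of_subset_of_nonneg ?_ ?_
        · intro k hk
          have := (Finset.mem_Ico.1 hk).2
          exact Finset.mem_range.2 (by omega)
        · intro k hk _
          exact mul_nonneg (l8zc_T_nonneg _ _ _) (hDh k (Finset.mem_range.1 hk))

set_option maxHeartbeats 1600000 in
theorem l8z_cell : L8Z_Cell := by
  intro a V L κ ε E C1 l τ εd εv Lq Cb η0 η1 EDb v1 v2 P Kf z S B q hadm hV hVL hLa hl hlV hκ hε hC1 hτ hLq hCb hη0 hη1
    hεv hεl hdense hK hS hB hSB hq hz hEDb hrat hη1g hv2 hv21 hD13 hc1 hc2 hc3 hc4 v0 hv0a hv0b hosc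
  set i0 := saIdx P v0 with hi0
  set σ := l / (32 * V) with hσ
  have hσ0 : 0 ≤ σ := by positivity
  have hσ1 : σ ≤ 1 / 4 := by rw [hσ, div_le_iff₀ (by positivity)]; linarith
  obtain ⟨hi0N, hidx⟩ := l8zc_idx a v0 P hadm.1
  -- facts in the window
  have hwin : ∀ k < P.length, v0 - 3 * l ≤ skMs a P k → skMs a P k ≤ v0 + 3 * l →
      0 ≤ z k ∧ |z k - q i0| ≤ τ / 4 ∧ 0 ≤ saDb P k ∧ 0 ≤ saDh P k ∧ saDb P k ≤ Cb / V * saDh P k := by
    intro k hk w1 w2
    have mV : V ≤ skMs a P k := by linarith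
    have mL : skMs a P k ≤ L := by linarith
    obtain ⟨z0, zq⟩ := hz k hk mV mL
    have q1 := hq (skMs a P k) ⟨mV, mL⟩ v0 ⟨by linarith, by linarith⟩
    have iα : v0 - 3 * l ∈ Icc 0 a := ⟨by linarith, by linarith⟩
    have iβ : v0 + 3 * l ∈ Icc 0 a := ⟨by linarith, by linarith⟩
    have im : skMs a P k ∈ Icc 0 a := ⟨by linarith, by linarith⟩
    have iv : v0 ∈ Icc 0 a := ⟨by linarith, by linarith⟩
    have k1 := hK iα im w1
    have k2 := hK im iβ w2
    have k3 := hK iα iv (by linarith)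
    have k4 := hK iv iβ (by linarith)
    have hKK : |Kf (skMs a P k) - Kf v0| ≤ κ := by rw [abs_le]; constructor <;> linarith
    have q2 : |q (saIdx P (skMs a P k)) - q i0| ≤ Lq * κ := q1.trans (mul_le_mul_of_nonneg_left hKK hLq)
    obtain ⟨e, he, _, eb, eh⟩ := l8zp_ms_mem a P hk
    refine ⟨z0, ?_, by rw [eb]; exact (hadm.2 e he).2.2.1, by rw [eh]; exact (hadm.2 e he).2.2.2, ?_⟩
    · have : z k - q i0 = (z k - q (saIdx P (skMs a P k))) + (q (saIdx P (skMs a P k)) - q i0) := by ring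
      rw [this]
      exact (abs_add_le _ _).trans (by linarith)
    · have := (hrat k hk mV mL).1
      calc saDb P k ≤ Cb * saDh P k / V := this
        _ = Cb / V * saDh P k := by ring
  -- right side of (D13)
  have hR : ∀ α', v0 - 2 * l ≤ α' → α' + l ≤ v0 + 2 * l →
      C1 * (κ + σ + ε) * ∑ k ∈ range P.length, l8zcT α' l (skMs a P k) * (saDb P k + saDh P k)
        ≤ τ / 4 * ∑ k ∈ range P.length, l8zcT α' l (skMs a P k) * saDh P k := by
    intro α' a1 a2
    have r1 : ∑ k ∈ range P.length, l8zcT α' l (skMs a P k) * (saDb P k + saDh P k)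
        ≤ (1 + Cb / V) * ∑ k ∈ range P.length, l8zcT α' l (skMs a P k) * saDh P k := by
      rw [Finset.mul_sum]
      refine Finset.sum_le_sum fun k hk => ?_
      have hkN := Finset.mem_range.1 hk
      by_cases hT : l8zcT α' l (skMs a P k) = 0
      · simp [hT]
      · obtain ⟨s1, s2⟩ := l8zc_T_supp hT
        obtain ⟨_, _, _, _, w5⟩ := hwin k hkN (by linarith) (by linarith)
        have := mul_le_mul_of_nonneg_left (by linarith : saDb P k + saDh P k ≤ (1 + Cb / V) * saDh P k)
          (l8zc_T_nonneg α' l (skMs a P k))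
        linarith
    have hI0 : 0 ≤ ∑ k ∈ range P.length, l8zcT α' l (skMs a P k) * saDh P k := by
      refine Finset.sum_nonneg fun k hk => ?_
      obtain ⟨e, he, _, _, eh⟩ := l8zp_ms_mem a P (Finset.mem_range.1 hk)
      exact mul_nonneg (l8zc_T_nonneg _ _ _) (by rw [eh]; exact (hadm.2 e he).2.2.2)
    calc C1 * (κ + σ + ε) * ∑ k ∈ range P.length, l8zcT α' l (skMs a P k) * (saDb P k + saDh P k)
        ≤ C1 * (κ + σ + ε) * ((1 + Cb / V) * ∑ k ∈ range P.length, l8zcT α' l (skMs a P k) * saDh P k) :=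
          mul_le_mul_of_nonneg_left r1 (by positivity)
      _ = (C1 * (κ + σ + ε) * (1 + Cb / V)) * ∑ k ∈ range P.length, l8zcT α' l (skMs a P k) * saDh P k := by ring
      _ ≤ _ := mul_le_mul_of_nonneg_right hc2 hI0
  have hI : ∀ α', v0 - 2 * l ≤ α' → α' + l ≤ v0 + 2 * l →
      η0 * l ^ 2 / 128 ≤ ∑ k ∈ range P.length, l8zcT α' l (skMs a P k) * saDh P k := by
    intro α' a1 a2
    exact l8zc_mass hadm hV hl hεv hεl hη0.le hdense (by linarith) (by linarith)
      (fun k hk m1 m2 => (hrat k hk (by linarith) (by linarith)).2)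
  have hpos : 0 < τ * η0 * l ^ 2 := by positivity
  by_contra hcon
  rcases lt_abs.1 (not_le.1 hcon) with hdev | hdev
  · -- positive deviation
    have d := hD13 (fun v => 1 * l8zcT (v0 + l) l v) (v0 - 3 * l) (v0 + 3 * l) σ 0 (by linarith) (by linarith) (by linarith)
      hσ0 hσ1 (l8zc_bump hV (by linarith) hl (by linarith) (by linarith) (by simp)) hosc
      (Or.inl ⟨rfl, fun v => by simpa using l8zc_T_nonneg _ _ _⟩)
    simp only [one_mul, add_zero, abs_of_nonneg (l8zc_T_nonneg _ _ _)] at d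
    have lo : 3 * τ / 2 * ∑ k ∈ range P.length, l8zcT (v0 + l) l (skMs a P k) * saDh P k
        ≤ ∑ k ∈ range P.length, l8zcT (v0 + l) l (skMs a P k) *
          ((B k - z k ^ 2) * saDb P k + 2 * (S k - z k) * saDh P k) := by
      rw [Finset.mul_sum]
      refine Finset.sum_le_sum fun k hk => ?_
      have hkN := Finset.mem_range.1 hk
      by_cases hT : l8zcT (v0 + l) l (skMs a P k) = 0
      · simp [hT]
      · obtain ⟨s1, s2⟩ := l8zc_T_supp hT
        obtain ⟨w1, w2, w3, w4, _⟩ := hwin k hkN (by linarith) (by linarith)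
        have hki : i0 ≤ k := by
          by_contra hc
          have := (hidx k hkN).2 (not_le.1 hc)
          linarith
        have hSk := hS hki
        have w2' := abs_le.1 w2
        have hSz : 3 * τ / 4 ≤ S k - z k := by linarith
        have hBz : 0 ≤ B k - z k ^ 2 := by
          have := (hSB k).2
          nlinarith
        have t1 : 0 ≤ (B k - z k ^ 2) * saDb P k := mul_nonneg hBz w3
        have t2 : 3 * τ / 4 * saDh P k ≤ (S k - z k) * saDh P k := mul_le_mul_of_nonneg_right hSz w4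
        have := mul_le_mul_of_nonneg_left
          (by linarith : 3 * τ / 2 * saDh P k ≤ (B k - z k ^ 2) * saDb P k + 2 * (S k - z k) * saDh P k)
          (l8zc_T_nonneg (v0 + l) l (skMs a P k))
        linarith
    have r := hR (v0 + l) (by linarith) (by linarith)
    have i := hI (v0 + l) (by linarith) (by linarith)
    have := mul_le_mul_of_nonneg_left i (by positivity : 0 ≤ 5 * τ / 4)
    nlinarith
  · -- negative deviation
    have d := hD13 (fun v => (-1) * l8zcT (v0 - 2 * l) l v) (v0 - 3 * l) (v0 + 3 * l) σ 1 (by linarith) (by linarith)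
      (by linarith) hσ0 hσ1 (l8zc_bump hV (by linarith) hl (by linarith) (by linarith) (by simp)) hosc
      (Or.inr ⟨rfl, fun v => by have := l8zc_T_nonneg (v0 - 2 * l) l v; linarith⟩)
    simp only [abs_mul, abs_neg, abs_one, one_mul, abs_of_nonneg (l8zc_T_nonneg _ _ _)] at d
    set W := ∑ k ∈ range P.length, l8zcT (v0 - 2 * l) l (skMs a P k) * (saDb P k * (B (k + 1) - S (k + 1) ^ 2)) with hW
    have lo : 3 * τ / 2 * (∑ k ∈ range P.length, l8zcT (v0 - 2 * l) l (skMs a P k) * saDh P k) - W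
        ≤ ∑ k ∈ range P.length, -1 * l8zcT (v0 - 2 * l) l (skMs a P k) *
          ((B (k + 1) - z k ^ 2) * saDb P k + 2 * (S (k + 1) - z k) * saDh P k) := by
      rw [Finset.mul_sum, hW, ← Finset.sum_sub_distrib]
      refine Finset.sum_le_sum fun k hk => ?_
      have hkN := Finset.mem_range.1 hk
      by_cases hT : l8zcT (v0 - 2 * l) l (skMs a P k) = 0
      · simp [hT]
      · obtain ⟨s1, s2⟩ := l8zc_T_supp hT
        obtain ⟨w1, w2, w3, w4, _⟩ := hwin k hkN (by linarith) (by linarith)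
        have hki : k + 1 ≤ i0 := (hidx k hkN).1 (by linarith)
        have hSk := hS hki
        have w2' := abs_le.1 w2
        have hSz : 3 * τ / 4 ≤ z k - S (k + 1) := by linarith
        have hS0 := (hSB (k + 1)).1
        have hzS : 0 ≤ z k ^ 2 - S (k + 1) ^ 2 := by nlinarith
        have t1 : 0 ≤ (z k ^ 2 - S (k + 1) ^ 2) * saDb P k := mul_nonneg hzS w3
        have t2 : 3 * τ / 4 * saDh P k ≤ (z k - S (k + 1)) * saDh P k := mul_le_mul_of_nonneg_right hSz w4
        have := mul_le_mul_of_nonneg_left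
          (by nlinarith : 3 * τ / 2 * saDh P k - saDb P k * (B (k + 1) - S (k + 1) ^ 2)
            ≤ -((B (k + 1) - z k ^ 2) * saDb P k + 2 * (S (k + 1) - z k) * saDh P k))
          (l8zc_T_nonneg (v0 - 2 * l) l (skMs a P k))
        linarith
    have r := hR (v0 - 2 * l) (by linarith) (by linarith)
    have i := hI (v0 - 2 * l) (by linarith) (by linarith)
    have i' := mul_le_mul_of_nonneg_left i (by positivity : 0 ≤ τ / 4)
    have hWE : W ≤ l / 32 * EDb := by
      refine le_trans ?_ (mul_le_mul_of_nonneg_left hEDb (by positivity))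
      rw [hW, Finset.mul_sum]
      refine Finset.sum_le_sum fun k hk => ?_
      have hkN := Finset.mem_range.1 hk
      obtain ⟨e, he, _, eb, _⟩ := l8zp_ms_mem a P hkN
      have hdb : 0 ≤ saDb P k := by rw [eb]; exact (hadm.2 e he).2.2.1
      have hD : 0 ≤ saDb P k * (B (k + 1) - S (k + 1) ^ 2) := mul_nonneg hdb (by linarith [(hSB (k + 1)).2])
      by_cases hT : l8zcT (v0 - 2 * l) l (skMs a P k) = 0
      · rw [hT, zero_mul]
        split_ifs
        · positivity
        · simp
      · obtain ⟨s1, s2⟩ := l8zc_T_supp hT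
        rw [if_pos ⟨by linarith, by linarith⟩]
        exact mul_le_mul_of_nonneg_right (l8zc_T_le hl _ _) hD
    by_cases hW0 : W = 0
    · have := mul_le_mul_of_nonneg_left i (by positivity : 0 ≤ 5 * τ / 4)
      nlinarith
    · obtain ⟨k, hk, hne⟩ := Finset.exists_ne_zero_of_sum_ne_zero hW0
      have hkN := Finset.mem_range.1 hk
      have hT : l8zcT (v0 - 2 * l) l (skMs a P k) ≠ 0 := fun h => hne (by rw [h, zero_mul])
      have hdb : saDb P k ≠ 0 := fun h => hne (by rw [h, zero_mul, mul_zero])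
      obtain ⟨s1, s2⟩ := l8zc_T_supp hT
      have hlt : skMs a P k < v2 := by
        by_contra hc
        exact hdb (hv2 k hkN (not_lt.1 hc) (by linarith))
      have i1 : η1 * l ^ 2 / 128 ≤ ∑ k ∈ range P.length, l8zcT (v0 - 2 * l) l (skMs a P k) * saDh P k :=
        l8zc_mass hadm hV hl hεv hεl hη1.le hdense (by linarith) (by linarith)
          (fun k' hk' m1 m2 => hη1g k' hk' (by linarith) (by linarith))
      have i1' := mul_le_mul_of_nonneg_left i1 hτ.le
      have e1 : l / 32 * EDb ≤ l / 32 * (τ * η1 * l / 16) :=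
        mul_le_mul_of_nonneg_left (by linarith) (by positivity)
      have hp1 : 0 < τ * η1 * l ^ 2 := by positivity
      nlinarith

/-! ## J. (D13) on the fine level, unconditional -/

/-- entropy production = K12 of helper278 (`Fd/EntB.lean`) -/
theorem l8z_ent : L8Z_Ent := fun _ _ P k hn ha hP hk => ob_entropy hn ha P hP 0 k hk

/-- **(D13) on the fine level**: `l8z_d13` (P222) + `l8z_subgrad`, `l8z_trial` (helper233) + `l8z_ent` (helper278) -/
theorem l8z_d13_pf : L8Z_D13 := l8z_d13 l8z_subgrad l8z_ent l8z_trial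

/-! ## K. D11.d on Sc objects: stability of `Γ`, POLYNOMIAL in the horizon -/

/-- `Γ` of two nondecreasing step profiles of the same length; `d` = `L¹` distance of the masses (in time).   The constant does not depend on the horizon. -/
theorem l8zs_gam_stab {a : ℝ} (ha : 0 < a) : ∃ K : ℝ, 0 ≤ K ∧ ∀ (π π' : List (ℝ × ℝ)), ScAdm a π → ScAdm a π' → ScInc π → ScInc π' →
    scLen π' = scLen π → ∀ t, 0 ≤ t → t ≤ scLen π →
    |scGam (scLC a) π t - scGam (scLC a) π' t|
      ≤ K * (1 + scLen π) * (scDst π π' 0 (scLen π) + Real.sqrt (scDst π π' 0 (scLen π))) := by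
  have hF : ScBI (scLC a) := sc_logcosh_BI a
  have hA : ∀ z, |deriv (scLC a) z| ≤ 1 := (ScAd.logcosh ha).lip
  obtain ⟨C, hC0, hC⟩ := sgp_bounds hF ha.le
  obtain ⟨K, hK1, hP⟩ := sgp_P_stab hF hA ha.le hC
  obtain ⟨Cu, hCu0, hN⟩ := scg_N ha.le hF 2
  set M := (2 : ℝ) ^ 2 * (Cu * Cu) with hM
  have hM0 : 0 ≤ M := by positivity
  set c2 := Real.sqrt (C 2) with hc2
  have hc20 : 0 ≤ c2 := Real.sqrt_nonneg _
  refine ⟨K * M * (1 + 2 * a * c2) + 4 * Cu * c2, by positivity, ?_⟩
  intro π π' hπ hπ' hi hi' hlen t ht0 ht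
  set T := scLen π with hT
  have hT0 : 0 ≤ T := ht0.trans ht
  set d := scDst π π' 0 T with hd
  have hd0 : 0 ≤ d := sgp_dst_nonneg π π' hT0
  set E := sckE C (1 ^ 2 / 2 * d) 1 with hE
  have hEv : E = 2 * c2 * Real.sqrt d := by
    rw [hE]
    simp only [sckE]
    have : 1 ^ 2 / 2 * d * (2 * C (0 + 2)) = C 2 * d := by norm_num; ring
    rw [this, Real.sqrt_mul (hC0 2)]
    ring
  have hu := hN π hπ hi t
  have hu' := hN π' hπ' hi' t
  have hψ : ScN 2 M (fun z => scD 1 (scLC a) π t z ^ 2) := scl_sq_N hu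
  have hψ' : ScN 2 M (fun z => scD 1 (scLC a) π' t z ^ 2) := scl_sq_N hu'
  have h1 := hP π π' hπ hπ' hi hi' hlen _ M hψ 0 t le_rfl ht0 ht 0
  have hDs : ∀ z, |scD 1 (scLC a) π' t z - scD 1 (scLC a) π t z| ≤ E :=
    fun z => sgp_D_stab hF hA ha.le hC hπ hπ' hi hi' hlen ht0 ht 1 z
  have h2 : |scPt (scLC a) π' 0 t (fun z => scD 1 (scLC a) π t z ^ 2) 0
      - scPt (scLC a) π' 0 t (fun z => scD 1 (scLC a) π' t z ^ 2) 0| ≤ 2 * Cu * E :=
    scl_Pt_sub_le hF π' (hψ.mono (Nat.zero_le 2)).scE (hψ'.mono (Nat.zero_le 2)).scE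
      (fun y => scl_sq_sub_le (hu.bd y) (hu'.bd y) (by rw [abs_sub_comm]; exact hDs y)) 0 t 0
  have hdt : scDst π π' 0 t ≤ d := sgp_dst_mono ha.le hπ hπ' le_rfl ht0 ht
  set sd := Real.sqrt d with hsd
  have hsd0 : 0 ≤ sd := Real.sqrt_nonneg _
  have hE0 : 0 ≤ E := by rw [hEv]; positivity
  have hKM : 0 ≤ K * M := by positivity
  have h3 : K * M * (1 * scDst π π' 0 t + a * E * (t - 0)) ≤ K * M * (d + a * E * T) := by
    refine mul_le_mul_of_nonneg_left ?_ hKM
    have : a * E * (t - 0) ≤ a * E * T := mul_le_mul_of_nonneg_left (by linarith) (by positivity)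
    linarith
  have h4 : |scGam (scLC a) π t - scGam (scLC a) π' t| ≤ K * M * (d + a * E * T) + 2 * Cu * E := by
    unfold scGam scEx
    calc |scPt (scLC a) π 0 t (fun z => scD 1 (scLC a) π t z ^ 2) 0 - scPt (scLC a) π' 0 t (fun z => scD 1 (scLC a) π' t z ^ 2) 0|
        ≤ |scPt (scLC a) π 0 t (fun z => scD 1 (scLC a) π t z ^ 2) 0 - scPt (scLC a) π' 0 t (fun z => scD 1 (scLC a) π t z ^ 2) 0|
          + |scPt (scLC a) π' 0 t (fun z => scD 1 (scLC a) π t z ^ 2) 0 - scPt (scLC a) π' 0 t (fun z => scD 1 (scLC a) π' t z ^ 2) 0| :=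
          abs_sub_le _ _ _
      _ ≤ _ := add_le_add (h1.trans h3) h2
  refine h4.trans ?_
  rw [hEv]
  have p1 : 0 ≤ K * M * T * d := by positivity
  have p2 : 0 ≤ K * M * sd := by positivity
  have p3 : 0 ≤ K * M * T * sd := by positivity
  have p4 : 0 ≤ K * M * a * c2 * d := by positivity
  have p5 : 0 ≤ K * M * a * c2 * T * d := by positivity
  have p6 : 0 ≤ K * M * a * c2 * sd := by positivity
  have p7 : 0 ≤ Cu * c2 * d := by positivity
  have p8 : 0 ≤ Cu * c2 * T * d := by positivity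
  have p9 : 0 ≤ Cu * c2 * T * sd := by positivity
  nlinarith [p1, p2, p3, p4, p5, p6, p7, p8, p9]

theorem l8zs_cumH_range {Q : SkStp} (h : ∀ e ∈ Q, 0 ≤ e.dh) (k : ℕ) : 0 ≤ skCumH Q k ∧ skCumH Q k ≤ skTotH Q := by
  have h1 : 0 ≤ skCumH Q k := by
    unfold skCumH
    refine List.sum_nonneg fun x hx => ?_
    obtain ⟨e, he, rfl⟩ := List.mem_map.1 hx
    exact h e (List.mem_of_mem_take he)
  have h2 : 0 ≤ ((Q.drop k).map SkInc.dh).sum := by
    refine List.sum_nonneg fun x hx => ?_
    obtain ⟨e, he, rfl⟩ := List.mem_map.1 hx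
    exact h e (List.mem_of_mem_drop he)
  have h3 : skTotH Q = skCumH Q k + ((Q.drop k).map SkInc.dh).sum := by
    unfold skTotH skCumH
    rw [← List.sum_append, ← List.map_append, List.take_append_drop]
  exact ⟨h1, by linarith⟩

/-- layer cake for the mass profile of a one-site step path; `c` = mass before the first revelation -/
theorem l8zs_al (a : ℝ) : ∀ (Q : SkStp) (c r : ℝ), (∀ e ∈ Q, 0 ≤ e.dh) → 0 ≤ r → r < skTotH Q →
    scAl (slkPi Q) r - c = ∑ k ∈ range Q.length,
      (skMs a Q k - (if k = 0 then c else skMs a Q (k - 1))) * (if skCumH Q k ≤ r then (1 : ℝ) else 0)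
  | [], c, r, _, h0, h1 => by
    simp [skTotH] at h1
    linarith
  | e :: Q, c, r, hh, h0, h1 => by
    have hQ : ∀ e' ∈ Q, 0 ≤ e'.dh := fun x hx => hh x (List.mem_cons_of_mem _ hx)
    rw [List.length_cons, Finset.sum_range_succ']
    have t0 : (skMs a (e :: Q) 0 - (if (0 : ℕ) = 0 then c else skMs a (e :: Q) (0 - 1)))
        * (if skCumH (e :: Q) 0 ≤ r then (1 : ℝ) else 0) = e.m - c := by
      simp [skMs, skCumH, h0]
    rw [t0]
    have tk : ∀ k, (skMs a (e :: Q) (k + 1) - (if k + 1 = 0 then c else skMs a (e :: Q) (k + 1 - 1)))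
          * (if skCumH (e :: Q) (k + 1) ≤ r then (1 : ℝ) else 0)
        = (skMs a Q k - (if k = 0 then e.m else skMs a Q (k - 1))) * (if skCumH Q k ≤ r - e.dh then (1 : ℝ) else 0) := by
      intro k
      have e1 : skMs a (e :: Q) (k + 1) = skMs a Q k := by simp [skMs]
      have e2 : skCumH (e :: Q) (k + 1) = e.dh + skCumH Q k := by simp [skCumH]
      have e3 : skMs a (e :: Q) (k + 1 - 1) = if k = 0 then e.m else skMs a Q (k - 1) := by
        cases k with
        | zero => simp [skMs]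
        | succ k => simp [skMs]
      rw [e1, e2, e3, if_neg (Nat.succ_ne_zero k)]
      congr 1
      by_cases h : e.dh + skCumH Q k ≤ r
      · rw [if_pos h, if_pos (by linarith)]
      · rw [if_neg h, if_neg (by intro h'; apply h; linarith)]
    simp only [tk]
    have hal : scAl (slkPi (e :: Q)) r = if e.dh ≤ r then scAl (slkPi Q) (r - e.dh) else e.m := by
      simp [slkPi, scAl]
    have hT : skTotH (e :: Q) = e.dh + skTotH Q := by simp [skTotH]
    rw [hal]
    by_cases hr : e.dh ≤ r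
    · rw [if_pos hr, ← l8zs_al a Q e.m (r - e.dh) hQ (by linarith) (by linarith)]
      ring
    · rw [if_neg hr]
      have : ∑ k ∈ range Q.length, (skMs a Q k - (if k = 0 then e.m else skMs a Q (k - 1)))
          * (if skCumH Q k ≤ r - e.dh then (1 : ℝ) else 0) = 0 := by
        refine Finset.sum_eq_zero fun k _ => ?_
        have := (l8zs_cumH_range hQ k).1
        have hn : ¬ skCumH Q k ≤ r - e.dh := by intro h; linarith [not_le.1 hr]
        rw [if_neg hn, mul_zero]
      rw [this]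
      ring

theorem l8zs_ind {x y T : ℝ} (hx0 : 0 ≤ x) (hxT : x ≤ T) (hy0 : 0 ≤ y) (hyT : y ≤ T) :
    IntervalIntegrable (fun r : ℝ => |(if x ≤ r then (1 : ℝ) else 0) - (if y ≤ r then (1 : ℝ) else 0)|) volume 0 T ∧
    ∫ r in (0 : ℝ)..T, |(if x ≤ r then (1 : ℝ) else 0) - (if y ≤ r then (1 : ℝ) else 0)| = |x - y| := by
  obtain ⟨ix, vx⟩ := l8zp_iota hx0 hxT
  obtain ⟨iy, vy⟩ := l8zp_iota hy0 hyT
  rcases le_total x y with h | h
  · have e : (fun r : ℝ => |(if x ≤ r then (1 : ℝ) else 0) - (if y ≤ r then (1 : ℝ) else 0)|)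
        = fun r => (if y ≤ r then (0 : ℝ) else 1) - (if x ≤ r then (0 : ℝ) else 1) := by
      funext r
      by_cases h1 : x ≤ r <;> by_cases h2 : y ≤ r
      · simp [h1, h2]
      · simp [h1, h2]
      · exact absurd (h.trans h2) h1
      · simp [h1, h2]
    rw [e]
    refine ⟨iy.sub ix, ?_⟩
    rw [intervalIntegral.integral_sub iy ix, vx, vy, abs_sub_comm, abs_of_nonneg (by linarith)]
  · have e : (fun r : ℝ => |(if x ≤ r then (1 : ℝ) else 0) - (if y ≤ r then (1 : ℝ) else 0)|)
        = fun r => (if x ≤ r then (0 : ℝ) else 1) - (if y ≤ r then (0 : ℝ) else 1) := by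
      funext r
      by_cases h1 : x ≤ r <;> by_cases h2 : y ≤ r
      · simp [h1, h2]
      · exact absurd (h.trans h1) h2
      · simp [h1, h2]
      · simp [h1, h2]
    rw [e]
    refine ⟨ix.sub iy, ?_⟩
    rw [intervalIntegral.integral_sub ix iy, vx, vy, abs_of_nonneg (by linarith)]

/-- **area inequality** on step paths with the same masses: `∫ |α - α'| dt ≤ ∫ |K - K'| dv` -/
theorem l8zs_dst {a : ℝ} (ha : 0 < a) {Q Q' : SkStp} (hQ : SkAdm a Q) (hQ' : SkAdm a Q') (hm : Q.map SkInc.m = Q'.map SkInc.m)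
    (hT : skTotH Q' = skTotH Q) :
    scDst (slkPi Q) (slkPi Q') 0 (skTotH Q) ≤ ∑ k ∈ range Q.length, skGap a Q k * |skCumH Q k - skCumH Q' k| := by
  have hh : ∀ e ∈ Q, 0 ≤ e.dh := fun e he => (hQ.2 e he).2.2.2
  have hh' : ∀ e ∈ Q', 0 ≤ e.dh := fun e he => (hQ'.2 e he).2.2.2
  have hN : Q'.length = Q.length := by
    have := congrArg List.length hm
    simpa using this.symm
  have hms : ∀ k, skMs a Q' k = skMs a Q k := fun k => by unfold skMs; rw [hm]
  have hT0 : 0 ≤ skTotH Q := (l8zs_cumH_range hh 0).1.trans (l8zs_cumH_range hh 0).2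
  have hadm : ScAdm a (slkPi Q) := fun p hp => by
    obtain ⟨e, he, rfl⟩ := List.mem_map.1 hp
    exact ⟨(hQ.2 e he).1, (hQ.2 e he).2.1, (hQ.2 e he).2.2.2⟩
  have hadm' : ScAdm a (slkPi Q') := fun p hp => by
    obtain ⟨e, he, rfl⟩ := List.mem_map.1 hp
    exact ⟨(hQ'.2 e he).1, (hQ'.2 e he).2.1, (hQ'.2 e he).2.2.2⟩
  have hI : ∀ k ∈ range Q.length, IntervalIntegrable (fun r : ℝ => skGap a Q k *
      |(if skCumH Q k ≤ r then (1 : ℝ) else 0) - (if skCumH Q' k ≤ r then (1 : ℝ) else 0)|) volume 0 (skTotH Q) :=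
    fun k _ => (l8zs_ind (l8zs_cumH_range hh k).1 (l8zs_cumH_range hh k).2 (l8zs_cumH_range hh' k).1
      (hT ▸ (l8zs_cumH_range hh' k).2)).1.const_mul _
  have hsum : IntervalIntegrable (fun r : ℝ => ∑ k ∈ range Q.length, skGap a Q k *
      |(if skCumH Q k ≤ r then (1 : ℝ) else 0) - (if skCumH Q' k ≤ r then (1 : ℝ) else 0)|) volume 0 (skTotH Q) := by
    have := IntervalIntegrable.sum (μ := volume) (a := (0 : ℝ)) (b := skTotH Q) (range Q.length)
      (f := fun k r => skGap a Q k *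
        |(if skCumH Q k ≤ r then (1 : ℝ) else 0) - (if skCumH Q' k ≤ r then (1 : ℝ) else 0)|) hI
    refine this.congr ?_
    intro u _
    simp only [Finset.sum_apply]
  unfold scDst
  refine (intervalIntegral.integral_mono_on_of_le_Ioo hT0 (sgp_dst_int ha.le hadm hadm' 0 _) hsum fun r hr => ?_).trans ?_
  · have e1 := l8zs_al a Q 0 r hh hr.1.le hr.2
    have e2 := l8zs_al a Q' 0 r hh' hr.1.le (hT ▸ hr.2)
    rw [hN] at e2
    simp only [hms] at e2
    have : scAl (slkPi Q) r - scAl (slkPi Q') r = ∑ k ∈ range Q.length, skGap a Q k *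
        ((if skCumH Q k ≤ r then (1 : ℝ) else 0) - (if skCumH Q' k ≤ r then (1 : ℝ) else 0)) := by
      have : scAl (slkPi Q) r - scAl (slkPi Q') r = (scAl (slkPi Q) r - 0) - (scAl (slkPi Q') r - 0) := by ring
      rw [this, e1, e2, ← Finset.sum_sub_distrib]
      refine Finset.sum_congr rfl fun k _ => ?_
      unfold skGap
      ring
    rw [this]
    refine (Finset.abs_sum_le_sum_abs _ _).trans (le_of_eq ?_)
    refine Finset.sum_congr rfl fun k _ => ?_
    rw [abs_mul, abs_of_nonneg (pin_gap_nonneg ha Q hQ k)]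
  · rw [intervalIntegral.integral_finsetSum hI]
    refine le_of_eq (Finset.sum_congr rfl fun k _ => ?_)
    rw [intervalIntegral.integral_const_mul, (l8zs_ind (l8zs_cumH_range hh k).1 (l8zs_cumH_range hh k).2
      (l8zs_cumH_range hh' k).1 (hT ▸ (l8zs_cumH_range hh' k).2)).2]

theorem l8zs_pi_adm {a : ℝ} {Q : SkStp} (hQ : SkAdm a Q) : ScAdm a (slkPi Q) ∧ ScInc (slkPi Q) := by
  constructor
  · intro p hp
    obtain ⟨e, he, rfl⟩ := List.mem_map.1 hp
    exact ⟨(hQ.2 e he).1, (hQ.2 e he).2.1, (hQ.2 e he).2.2.2⟩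
  · unfold ScInc slkPi
    rw [List.pairwise_map]
    exact hQ.1

/-- **D11.d on one-site step paths**: same masses, same total clock; `ε = ∫ |K - K'| dv` (sum over the cuts).   `K` depends on `a` only: the bound
is POLYNOMIAL (linear) in the horizon `skTotH Q`. -/
theorem l8zs_stab {a : ℝ} (ha : 0 < a) : ∃ K : ℝ, 0 ≤ K ∧ ∀ (Q Q' : SkStp), SkAdm a Q → SkAdm a Q' → Q.map SkInc.m = Q'.map SkInc.m →
    skTotH Q' = skTotH Q → ∀ (ε t : ℝ), ∑ k ∈ range Q.length, skGap a Q k * |skCumH Q k - skCumH Q' k| ≤ ε → 0 ≤ t → t ≤ skTotH Q →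
    |scGam (scLC a) (slkPi Q) t - scGam (scLC a) (slkPi Q') t| ≤ K * (1 + skTotH Q) * (ε + Real.sqrt ε) := by
  obtain ⟨K, hK, h⟩ := l8zs_gam_stab ha
  refine ⟨K, hK, fun Q Q' hQ hQ' hm hT ε t hε ht0 ht => ?_⟩
  have h1 := h (slkPi Q) (slkPi Q') (l8zs_pi_adm hQ).1 (l8zs_pi_adm hQ').1 (l8zs_pi_adm hQ).2 (l8zs_pi_adm hQ').2
    (by rw [slk_len, slk_len, hT]) t ht0 (by rw [slk_len]; exact ht)
  rw [slk_len] at h1
  have h2 := (l8zs_dst ha hQ hQ' hm hT).trans hε
  refine h1.trans ?_
  have hT0 : 0 ≤ skTotH Q := ht0.trans ht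
  refine mul_le_mul_of_nonneg_left ?_ (by positivity)
  exact add_le_add h2 (Real.sqrt_le_sqrt h2)

end Cell

end Claimed.Agent.R286
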