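import Claimed.Agent.R286.L08.SAg

/-!
# Row 286 (S0533), folder L08, unit SA, file SAd : (D11.b), (D12), PROJECTED PAIRS      (architect + owner helper171, head of SA helper163; prefix `l8z_d_`)

TEX[LL:prop:statistics-size-accuracy] TEX[LL:eq:D12] 08-statistics.tex l.1037-1058, NON-ASYMPTOTIC, over the abstract single path `L8P` (helper75) with a coordinate `P.ZT τ ka kb V e0 om mesh` (L08/SAg):
the SAME statement serves the time coordinate `t = K(v)` and the mass coordinate (`τ (k+1) - τ k = dv k`, `om = 1`).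

* `l8z_d_EW`     (D11.b)  `∑ dτ E W ≤ (S k1 - S k0)/(c m V e0)`  from `P.Sus c`            (paper: `x^6/(λ V0'^3)`)
* `l8z_d_var`    sliding buffers at `r = 1` (`l8s_buffer` + `l8z_g_buf`), ARBITRARY outer weights `d k`, double counting `l8z_d_count`
* `l8z_d_D2_le`  `D² ≤ Var |X|² + θ + (1 + 1/θ) E W / V`   (`D² = Var + 2 E XᵀCX + E tr C²`, `V tr C² ≤ tr CH`, `2 XᵀCX ≤ θ |X|⁴ + tr C²/θ`)
* `l8z_d_D2gen`  (D12) with arbitrary outer weights;      `l8z_d_D12`  **EXIT (D12)**: weights `dτ`, buffers constructed (`l8z_d_prev`, `l8z_d_next`, `l8z_d_cover`); `w`, `θ` free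
* `l8z_d_contr`  **projected pairs**: `∫ (QX k₁ k₂ - c)^(2r) d fork k ≤ ∫ (Q - c)^(2r) d fork k` for `k ≤ k₁, k₂`   (the exit `L8xD11` asks all projected pairs)
* `l8z_d_all`    **(D11.g) AT ALL CUTS, ALL PROJECTED PAIRS**: interior (`l8z_g_interior`, buffers constructed) / below the lowest interior cut `kc` (`l8z_g_small`) / from the first frozen cut `kF` on (`l8z_g_frozen`)
0 sorry (SAg: 0 sorry, helper135).
-/

set_option autoImplicit false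

namespace Claimed.Agent.R286

open MeasureTheory ProbabilityTheory Finset
open scoped ENNReal

/-! ## pure lemmas on chains -/

/-- double counting -/
theorem l8z_d_count (K : Finset ℕ) (d s : ℕ → ℝ) (a b : ℕ → ℕ) (ka kb : ℕ) (M : ℝ) (hs : ∀ l, 0 ≤ s l)
    (hab : ∀ k ∈ K, ka ≤ a k ∧ b k ≤ kb)
    (hM : ∀ l, ka ≤ l → l < kb → ∑ k ∈ K.filter (fun k => a k ≤ l ∧ l < b k), d k ≤ M) :
    ∑ k ∈ K, d k * ∑ l ∈ Ico (a k) (b k), s l ≤ M * ∑ l ∈ Ico ka kb, s l := by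
  have e1 : ∀ k ∈ K, d k * ∑ l ∈ Ico (a k) (b k), s l = ∑ l ∈ Ico ka kb, (if a k ≤ l ∧ l < b k then d k else 0) * s l := by
    intro k hk
    obtain ⟨h1, h2⟩ := hab k hk
    have : Ico (a k) (b k) = (Ico ka kb).filter (fun l => a k ≤ l ∧ l < b k) := by
      ext l
      simp only [mem_Ico, mem_filter]
      constructor
      · rintro ⟨h3, h4⟩; exact ⟨⟨h1.trans h3, lt_of_lt_of_le h4 h2⟩, h3, h4⟩
      · rintro ⟨_, h3, h4⟩; exact ⟨h3, h4⟩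
    rw [this, sum_filter, mul_sum]
    refine sum_congr rfl fun l _ => ?_
    split_ifs <;> simp
  rw [sum_congr rfl e1, sum_comm, mul_sum]
  refine sum_le_sum fun l hl => ?_
  rw [mem_Ico] at hl
  rw [← sum_mul, ← sum_filter]
  exact mul_le_mul_of_nonneg_right (hM l hl.1 hl.2) (hs l)

/-- the cells whose left end lies in `[s, s + L]` have total length `≤ L + mesh` -/
theorem l8z_d_cover {τ : ℕ → ℝ} (hτ : Monotone τ) {mesh s L : ℝ} (hL : 0 ≤ L) (hmesh : 0 ≤ mesh) (k0 k1 : ℕ) (hk : k0 ≤ k1)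
    (hfine : ∀ k, k0 ≤ k → k < k1 → τ (k + 1) - τ k ≤ mesh) :
    ∑ k ∈ (Ico k0 k1).filter (fun k => s ≤ τ k ∧ τ k ≤ s + L), (τ (k + 1) - τ k) ≤ L + mesh := by
  set cl : ℕ → ℝ := fun k => min (max (τ k) s) (s + L + mesh) with hcl
  have hclm : Monotone cl := fun i j hij => min_le_min_right _ (max_le_max_right _ (hτ hij))
  rw [sum_filter]
  have hterm : ∀ k ∈ Ico k0 k1, (if s ≤ τ k ∧ τ k ≤ s + L then τ (k + 1) - τ k else 0) ≤ cl (k + 1) - cl k := by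
    intro k hk'
    rw [mem_Ico] at hk'
    split_ifs with hc
    · have h1 := hfine k hk'.1 hk'.2
      have h2 := hτ (Nat.le_succ k)
      have e1 : cl k = τ k := by
        simp only [hcl]
        rw [max_eq_left hc.1, min_eq_left (by linarith)]
      have e2 : cl (k + 1) = τ (k + 1) := by
        simp only [hcl]
        rw [max_eq_left (hc.1.trans h2), min_eq_left (by linarith)]
      rw [e1, e2]
    · exact sub_nonneg.mpr (hclm (Nat.le_succ k))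
  refine (sum_le_sum hterm).trans ?_
  rw [l8z_g_tele cl hk]
  have h1 : cl k1 ≤ s + L + mesh := min_le_right _ _
  have h2 : s ≤ cl k0 := le_min (le_max_right _ _) (by linarith)
  linarith

/-- a cut at distance in `[w, w + mesh]` before `k` -/
theorem l8z_d_prev {τ : ℕ → ℝ} {mesh w : ℝ} (hw : 0 < w) {ka k : ℕ} (hk : ka ≤ k)
    (hfine : ∀ l, ka ≤ l → l < k → τ (l + 1) - τ l ≤ mesh) (hroom : τ ka + w ≤ τ k) :
    ∃ a, ka ≤ a ∧ a ≤ k ∧ w ≤ τ k - τ a ∧ τ k - τ a ≤ w + mesh := by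
  -- induction on the distance
  have key : ∀ j, ka + j ≤ k → τ (ka + j) + w ≤ τ k → ∃ a, ka ≤ a ∧ a ≤ k ∧ w ≤ τ k - τ a ∧ τ k - τ a ≤ w + mesh := by
    intro j
    induction' hn : k - (ka + j) using Nat.strong_induction_on with n ih generalizing j
    intro hj hr
    by_cases hnext : τ (ka + j + 1) + w ≤ τ k
    · have hlt : ka + j < k := by
        rcases Nat.eq_or_lt_of_le hj with h | h
        · exfalso; rw [h] at hr; linarith
        · exact h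
      exact ih (k - (ka + (j + 1))) (by omega) (j + 1) rfl (by omega) (by simpa [add_assoc] using hnext)
    · rw [not_le] at hnext
      have hlt : ka + j < k := by
        rcases Nat.eq_or_lt_of_le hj with h | h
        · exfalso; rw [h] at hr; linarith
        · exact h
      have := hfine (ka + j) (by omega) hlt
      exact ⟨ka + j, by omega, hj, by linarith, by linarith⟩
  exact key 0 (by simpa using hk) (by simpa using hroom)

/-- a cut at distance in `[w, w + mesh]` after `k` -/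
theorem l8z_d_next {τ : ℕ → ℝ} {mesh w : ℝ} (hw : 0 < w) {k kb : ℕ} (hk : k ≤ kb)
    (hfine : ∀ l, k ≤ l → l < kb → τ (l + 1) - τ l ≤ mesh) (hroom : τ k + w ≤ τ kb) :
    ∃ b, k ≤ b ∧ b ≤ kb ∧ w ≤ τ b - τ k ∧ τ b - τ k ≤ w + mesh := by
  have key : ∀ j, k + j ≤ kb → τ (k + j) < τ k + w → ∃ b, k ≤ b ∧ b ≤ kb ∧ w ≤ τ b - τ k ∧ τ b - τ k ≤ w + mesh := by
    intro j
    induction' hn : kb - (k + j) using Nat.strong_induction_on with n ih generalizing j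
    intro hj hr
    have hlt : k + j < kb := by
      rcases Nat.eq_or_lt_of_le hj with h | h
      · exfalso; rw [h] at hr; linarith
      · exact h
    by_cases hnext : τ (k + j + 1) < τ k + w
    · exact ih (kb - (k + (j + 1))) (by omega) (j + 1) rfl (by omega) (by simpa [add_assoc] using hnext)
    · rw [not_lt] at hnext
      have := hfine (k + j) (by omega) hlt
      exact ⟨k + j + 1, by omega, by omega, by linarith, by linarith⟩
  exact key 0 (by simpa using hk) (by simpa using hw)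

variable {Ω : Type} [mΩ : MeasurableSpace Ω] {m : ℕ}

namespace L8P

variable (P : L8P Ω m)

/-- `E W_k` -/
noncomputable def zEW (k : ℕ) : ℝ := ∫ ω, P.W k ω ∂P.μ

theorem l8z_d_EW_nonneg (h : P.Ok) (k : ℕ) : 0 ≤ P.zEW k := integral_nonneg fun ω => P.l8s_W_nonneg h k ω

/-- **D11.b.**  TEX[LL:prop:statistics-size-accuracy] l.1037-1046: `∫ E W dt ≤ (total increase of S)/(c m V e0)`  (paper: `x^6/(λ V0'^3)`). -/
theorem l8z_d_EW (h : P.Ok) {τ : ℕ → ℝ} {ka kb : ℕ} {V e0 om mesh : ℝ} (hT : P.ZT τ ka kb V e0 om mesh) {c : ℝ} (hc : 0 < c) (hs : P.Sus c)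
    {k0 k1 : ℕ} (hk0 : ka ≤ k0) (hk01 : k0 ≤ k1) (hk1 : k1 ≤ kb) :
    ∑ k ∈ Ico k0 k1, (τ (k + 1) - τ k) * P.zEW k ≤ (P.S k1 - P.S k0) / (c * m * V * e0) := by
  have hm : (0 : ℝ) < m := by exact_mod_cast P.l8z_g_m_pos h
  have hV := hT.V_pos
  have he0 := hT.e0_pos
  rw [le_div_iff₀ (by positivity), sum_mul]
  refine le_trans (sum_le_sum fun k hk => ?_) (P.l8s_sum_W_le h hc hs hk01 (hk1.trans hT.kb_le))
  rw [mem_Ico] at hk
  have h1 : V ≤ P.v k := hT.mass.trans (h.v_mono (hk0.trans hk.1))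
  have h2 := hT.field k (hk0.trans hk.1) (lt_of_lt_of_le hk.2 hk1)
  have h3 : 0 ≤ τ (k + 1) - τ k := sub_nonneg.mpr (hT.mono (Nat.le_succ k))
  have h4 := P.l8z_d_EW_nonneg h k
  have h5 : V * (e0 * (τ (k + 1) - τ k)) ≤ P.v k * P.dh k := mul_le_mul h1 h2 (by positivity) (hV.le.trans h1)
  calc (τ (k + 1) - τ k) * P.zEW k * (c * m * V * e0) = c * m * (V * (e0 * (τ (k + 1) - τ k))) * P.zEW k := by ring
    _ ≤ c * m * (P.v k * P.dh k) * P.zEW k := by gcongr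
    _ = c * m * P.v k * P.dh k * ∫ ω, P.W k ω ∂P.μ := by unfold zEW; ring

/-- one buffer at `r = 1` -/
theorem l8z_d_buf1 (h : P.Ok) {τ : ℕ → ℝ} {ka kb : ℕ} {V e0 om mesh : ℝ} (hT : P.ZT τ ka kb V e0 om mesh) {cpin : ℝ} (hcp : 0 ≤ cpin)
    (hpin : P.Pin 1 cpin) {w R : ℝ} (hw : 0 < w) {k0 k1 : ℕ} (hk0 : ka ≤ k0) (hk1 : k1 ≤ kb) (hl : w ≤ τ k1 - τ k0)
    (hR : ∑ l ∈ Ico k0 k1, (τ (l + 1) - τ l) * P.zEW l ≤ R) :
    ∫ ω, ((∑ l ∈ Ico k0 k1, (τ (l + 1) - τ l) / (τ k1 - τ k0) * P.L l ω)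
        - ∫ ω', (∑ l ∈ Ico k0 k1, (τ (l + 1) - τ l) / (τ k1 - τ k0) * P.L l ω') ∂P.μ) ^ (2 * 1) ∂P.μ
      ≤ Real.sqrt (cpin * (R / (om * w ^ 2))) ^ (2 * 1) := by
  have := h.prob
  have hlen : 0 < τ k1 - τ k0 := lt_of_lt_of_le hw hl
  have hom := hT.om_pos
  have hIW0 : 0 ≤ ∑ l ∈ Ico k0 k1, (τ (l + 1) - τ l) * P.zEW l :=
    sum_nonneg fun l _ => mul_nonneg (sub_nonneg.mpr (hT.mono (Nat.le_succ l))) (P.l8z_d_EW_nonneg h l)
  have hIW : ∫ ω, (∑ k ∈ Ico k0 k1, (τ (k + 1) - τ k) * P.W k ω) ^ 1 ∂P.μ ≤ (∑ l ∈ Ico k0 k1, (τ (l + 1) - τ l) * P.zEW l) ^ 1 := by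
    simp only [pow_one]
    rw [integral_finsetSum _ fun k _ => (l8k_int h (P.l8s_W_bd h k)).const_mul _]
    refine le_of_eq (sum_congr rfl fun k _ => ?_)
    rw [integral_const_mul]; rfl
  have h1 := P.l8z_g_buf h hT 1 le_rfl hpin hcp hk0 hk1 hlen hIW0 hIW
  refine h1.trans ?_
  have hR0 : 0 ≤ R := hIW0.trans hR
  rw [mul_one, Real.sq_sqrt (by positivity), pow_one]
  gcongr

/-- **sliding buffers** (`r = 1`): variance of `|X_k|²`, arbitrary outer weights `d k`, buffers `[a k, k)`, `[k, b k)` of length `≥ w`;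
every cell `l` lies in the buffers of cuts of total weight `≤ M`.      TEX[LL:eq:D12] -/
theorem l8z_d_var (h : P.Ok) {τ : ℕ → ℝ} {ka kb : ℕ} {V e0 om mesh : ℝ} (hT : P.ZT τ ka kb V e0 om mesh) {cpin : ℝ} (hcp : 0 ≤ cpin)
    (hpin : P.Pin 1 cpin) {w : ℝ} (hw : 0 < w) (K : Finset ℕ) (d : ℕ → ℝ) (hd : ∀ k ∈ K, 0 ≤ d k) (a b : ℕ → ℕ)
    (hab : ∀ k ∈ K, ka ≤ a k ∧ a k ≤ k ∧ k ≤ b k ∧ b k ≤ kb ∧ w ≤ τ k - τ (a k) ∧ w ≤ τ (b k) - τ k) (hkab : ka ≤ kb)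
    {M : ℝ} (hM : ∀ l, ka ≤ l → l < kb → ∑ k ∈ K.filter (fun k => a k ≤ l ∧ l < b k), d k ≤ M) :
    ∑ k ∈ K, d k * ∫ ω, (P.nX k ω - P.S k) ^ 2 ∂P.μ
      ≤ 512 * M * ((P.S kb - P.S ka) + cpin * (∑ l ∈ Ico ka kb, (τ (l + 1) - τ l) * P.zEW l) / (om * w ^ 2)) := by
  have hτ := hT.mono
  have hom := hT.om_pos
  have hSm := P.l8s_S_mono h
  have hdt : ∀ l, 0 ≤ τ (l + 1) - τ l := fun l => sub_nonneg.mpr (hτ (Nat.le_succ l))
  have hs2 : ∀ l, 0 ≤ (τ (l + 1) - τ l) * P.zEW l := fun l => mul_nonneg (hdt l) (P.l8z_d_EW_nonneg h l)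
  have hone : ∀ k ∈ K, ∫ ω, (P.nX k ω - P.S k) ^ 2 ∂P.μ
      ≤ 512 * (∑ l ∈ Ico (a k) (b k), (P.S (l + 1) - P.S l))
        + 512 * (cpin / (om * w ^ 2)) * ∑ l ∈ Ico (a k) (b k), (τ (l + 1) - τ l) * P.zEW l := by
    intro k hk
    obtain ⟨h1, h2, h3, h4, h5, h6⟩ := hab k hk
    set Rk : ℝ := ∑ l ∈ Ico (a k) (b k), (τ (l + 1) - τ l) * P.zEW l with hRk
    have hRk0 : 0 ≤ Rk := sum_nonneg fun l _ => hs2 l
    set η : ℝ := P.S (b k) - P.S (a k) with hη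
    have hη0 : 0 ≤ η := sub_nonneg.mpr (hSm (h2.trans h3))
    have hη1 : η ≤ 1 := by have := P.l8s_S_le_one h (b k); have := P.l8s_S_nonneg (a k); linarith
    set ε : ℝ := Real.sqrt (cpin * (Rk / (om * w ^ 2))) with hε
    have hla : 0 < τ k - τ (a k) := lt_of_lt_of_le hw h5
    have hlb : 0 < τ (b k) - τ k := lt_of_lt_of_le hw h6
    have hRa : ∑ l ∈ Ico (a k) k, (τ (l + 1) - τ l) * P.zEW l ≤ Rk :=
      sum_le_sum_of_subset_of_nonneg (Ico_subset_Ico le_rfl h3) fun l _ _ => hs2 l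
    have hRb : ∑ l ∈ Ico k (b k), (τ (l + 1) - τ l) * P.zEW l ≤ Rk :=
      sum_le_sum_of_subset_of_nonneg (Ico_subset_Ico h2 le_rfl) fun l _ _ => hs2 l
    have hbuf := (P.l8s_buffer h 1 le_rfl k (Ico (a k) k) (Ico k (b k)) (fun l => (τ (l + 1) - τ l) / (τ k - τ (a k)))
      (fun l => (τ (l + 1) - τ l) / (τ (b k) - τ k)) (P.S k) η ε
      (fun l hl => (mem_Ico.mp hl).2.le) (fun l hl => (mem_Ico.mp hl).1)
      (fun l => div_nonneg (hdt l) hla.le) (fun l => div_nonneg (hdt l) hlb.le)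
      (by rw [← sum_div, l8z_g_tele τ h2, div_self hla.ne']) (by rw [← sum_div, l8z_g_tele τ h3, div_self hlb.ne'])
      hη0 (Real.sqrt_nonneg _)
      (fun l hl _ => by
        rw [mem_Ico] at hl
        have e1 := hSm hl.1
        have e2 := hSm hl.2.le
        have e3 := hSm h3
        rw [abs_le]; constructor <;> linarith)
      (fun l hl _ => by
        rw [mem_Ico] at hl
        have e1 := hSm hl.1
        have e2 := hSm hl.2.le
        have e3 := hSm h2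
        rw [abs_le]; constructor <;> linarith)
      (P.l8z_d_buf1 h hT hcp hpin hw h1 (h3.trans h4) h5 hRa)
      (P.l8z_d_buf1 h hT hcp hpin hw (h1.trans h2) h4 h6 hRb)).1
    rw [mul_one] at hbuf
    refine hbuf.trans ?_
    have hε2 : ε ^ 2 = cpin * (Rk / (om * w ^ 2)) := Real.sq_sqrt (by positivity)
    have hε0 : 0 ≤ ε := Real.sqrt_nonneg _
    rw [l8z_g_tele P.S (h2.trans h3)]
    have e1 : (16 * (η + ε)) ^ 2 ≤ 512 * (η ^ 2 + ε ^ 2) := by nlinarith [sq_nonneg (η - ε)]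
    have e2 : η ^ 2 ≤ η := by nlinarith
    have e3 : 512 * (cpin / (om * w ^ 2)) * Rk = 512 * (cpin * (Rk / (om * w ^ 2))) := by ring
    rw [e3, ← hε2]
    linarith
  refine (sum_le_sum fun k hk => mul_le_mul_of_nonneg_left (hone k hk) (hd k hk)).trans ?_
  have c1 := l8z_d_count K d (fun l => P.S (l + 1) - P.S l) a b ka kb M (fun l => sub_nonneg.mpr (hSm (Nat.le_succ l)))
    (fun k hk => ⟨(hab k hk).1, (hab k hk).2.2.2.1⟩) hM
  have c2 := l8z_d_count K d (fun l => (τ (l + 1) - τ l) * P.zEW l) a b ka kb M hs2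
    (fun k hk => ⟨(hab k hk).1, (hab k hk).2.2.2.1⟩) hM
  rw [l8z_g_tele P.S hkab] at c1
  have hcoef : 0 ≤ 512 * (cpin / (om * w ^ 2)) := by positivity
  have e : ∑ k ∈ K, d k * (512 * (∑ l ∈ Ico (a k) (b k), (P.S (l + 1) - P.S l))
        + 512 * (cpin / (om * w ^ 2)) * ∑ l ∈ Ico (a k) (b k), (τ (l + 1) - τ l) * P.zEW l)
      = 512 * (∑ k ∈ K, d k * ∑ l ∈ Ico (a k) (b k), (P.S (l + 1) - P.S l))
        + 512 * (cpin / (om * w ^ 2)) * ∑ k ∈ K, d k * ∑ l ∈ Ico (a k) (b k), (τ (l + 1) - τ l) * P.zEW l := by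
    rw [mul_sum, mul_sum, ← sum_add_distrib]
    refine sum_congr rfl fun k _ => ?_
    ring
  rw [e]
  have f1 := mul_le_mul_of_nonneg_left c1 (by norm_num : (0 : ℝ) ≤ 512)
  have f2 := mul_le_mul_of_nonneg_left c2 hcoef
  calc _ ≤ 512 * (M * (P.S kb - P.S ka)) + 512 * (cpin / (om * w ^ 2)) * (M * ∑ l ∈ Ico ka kb, (τ (l + 1) - τ l) * P.zEW l) :=
        add_le_add f1 f2
    _ = _ := by ring

theorem l8z_d_xCx_bd (h : P.Ok) (k : ℕ) : L8Bd (P.xCx k) :=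
  L8Bd.sum _ fun i _ => L8Bd.sum _ fun j _ => ((P.l8s_X_bd h k i).mul (P.l8s_W_bd_C h k i j)).mul (P.l8s_X_bd h k j)

theorem l8z_d_trC2_bd (h : P.Ok) (k : ℕ) : L8Bd (P.trC2 k) :=
  L8Bd.sum _ fun i _ => L8Bd.sum _ fun j _ => (P.l8s_W_bd_C h k i j).pow 2

/-- `E tr C² ≤ E W / V` -/
theorem l8z_d_trC2 (h : P.Ok) {k : ℕ} (hk : k ≤ P.n + 1) {V : ℝ} (hV : 0 < V) (hv : V ≤ P.v k) :
    ∫ ω, P.trC2 k ω ∂P.μ ≤ P.zEW k / V := by
  have := h.prob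
  rw [le_div_iff₀ hV, ← integral_mul_const]
  unfold zEW
  rw [P.l8s_integral_W h k]
  have hCH : L8Bd (P.trCH k) := L8Bd.sum _ fun i _ => L8Bd.sum _ fun j _ => (P.l8s_W_bd_C h k i j).mul (P.l8s_W_bd_H h k i j)
  refine integral_mono (((P.l8z_d_trC2_bd h k).mul_const V).integrable _) (hCH.integrable _) fun ω => ?_
  have h0 : 0 ≤ P.trC2 k ω := sum_nonneg fun i _ => sum_nonneg fun j _ => sq_nonneg _
  calc P.trC2 k ω * V ≤ P.v k * P.trC2 k ω := by rw [mul_comm]; exact mul_le_mul_of_nonneg_right hv h0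
    _ ≤ P.trCH k ω := P.l8s_trC2_le h hk ω

/-- `2 XᵀCX ≤ θ |X|⁴ + tr C²/θ` -/
theorem l8z_d_xCx (h : P.Ok) (k : ℕ) {θ : ℝ} (hθ : 0 < θ) :
    2 * ∫ ω, P.xCx k ω ∂P.μ ≤ θ + (∫ ω, P.trC2 k ω ∂P.μ) / θ := by
  have := h.prob
  have hpt : ∀ ω, 2 * P.xCx k ω ≤ θ + P.trC2 k ω / θ := by
    intro ω
    have h1 : ∀ i j, 2 * (P.X k i ω * P.C k i j ω * P.X k j ω) ≤ θ * (P.X k i ω ^ 2 * P.X k j ω ^ 2) + P.C k i j ω ^ 2 / θ := by
      intro i j
      have e : θ * (P.X k i ω ^ 2 * P.X k j ω ^ 2) + P.C k i j ω ^ 2 / θ - 2 * (P.X k i ω * P.C k i j ω * P.X k j ω)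
          = (θ * (P.X k i ω * P.X k j ω) - P.C k i j ω) ^ 2 / θ := by
        field_simp; ring
      have : 0 ≤ (θ * (P.X k i ω * P.X k j ω) - P.C k i j ω) ^ 2 / θ := by positivity
      linarith
    have h2 : 2 * P.xCx k ω ≤ θ * (P.nX k ω) ^ 2 + P.trC2 k ω / θ := by
      unfold xCx trC2 nX
      rw [mul_sum, sq, sum_mul_sum, mul_sum, sum_div, ← sum_add_distrib]
      refine sum_le_sum fun i _ => ?_
      rw [mul_sum, mul_sum, sum_div, ← sum_add_distrib]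
      exact sum_le_sum fun j _ => h1 i j
    have h3 : P.nX k ω ^ 2 ≤ 1 := by
      have a1 := P.l8s_nX_le_one h k ω
      have a0 : 0 ≤ P.nX k ω := sum_nonneg fun i _ => sq_nonneg _
      nlinarith
    nlinarith
  rw [← integral_const_mul, ← integral_div]
  have e : θ + ∫ ω, P.trC2 k ω / θ ∂P.μ = ∫ ω, (θ + P.trC2 k ω / θ) ∂P.μ := by
    rw [integral_add (integrable_const _) (((P.l8z_d_trC2_bd h k).div_const θ).integrable _)]
    simp
  rw [e]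
  exact integral_mono (((P.l8z_d_xCx_bd h k).const_mul 2).integrable _)
    ((integrable_const _).add (((P.l8z_d_trC2_bd h k).div_const θ).integrable _)) hpt

/-- `D² ≤ Var |X|² + θ + (1 + 1/θ) E W / V` -/
theorem l8z_d_D2_le (h : P.Ok) {k : ℕ} (hk : k ≤ P.n + 1) {V θ : ℝ} (hV : 0 < V) (hv : V ≤ P.v k) (hθ : 0 < θ) :
    P.D2 k ≤ (∫ ω, (P.nX k ω - P.S k) ^ 2 ∂P.μ) + θ + (1 + 1 / θ) * (P.zEW k / V) := by
  rw [P.l8s_D2_eq h k]
  have h1 := P.l8z_d_xCx h k hθ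
  have h2 := P.l8z_d_trC2 h hk hV hv
  have h3 : (∫ ω, P.trC2 k ω ∂P.μ) / θ ≤ (P.zEW k / V) / θ := by gcongr
  have e : (1 + 1 / θ) * (P.zEW k / V) = P.zEW k / V + (P.zEW k / V) / θ := by field_simp
  rw [e]
  linarith

/-- **(D12), general outer weights.**  TEX[LL:eq:D12] -/
theorem l8z_d_D2gen (h : P.Ok) {τ : ℕ → ℝ} {ka kb : ℕ} {V e0 om mesh : ℝ} (hT : P.ZT τ ka kb V e0 om mesh) {cpin : ℝ} (hcp : 0 ≤ cpin)
    (hpin : P.Pin 1 cpin) {w θ : ℝ} (hw : 0 < w) (hθ : 0 < θ) (K : Finset ℕ) (d : ℕ → ℝ) (hd : ∀ k ∈ K, 0 ≤ d k) (a b : ℕ → ℕ)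
    (hab : ∀ k ∈ K, ka ≤ a k ∧ a k ≤ k ∧ k ≤ b k ∧ b k ≤ kb ∧ w ≤ τ k - τ (a k) ∧ w ≤ τ (b k) - τ k) (hkab : ka ≤ kb)
    {M : ℝ} (hM : ∀ l, ka ≤ l → l < kb → ∑ k ∈ K.filter (fun k => a k ≤ l ∧ l < b k), d k ≤ M) :
    ∑ k ∈ K, d k * P.D2 k
      ≤ 512 * M * ((P.S kb - P.S ka) + cpin * (∑ l ∈ Ico ka kb, (τ (l + 1) - τ l) * P.zEW l) / (om * w ^ 2))
        + θ * ∑ k ∈ K, d k + (1 + 1 / θ) / V * ∑ k ∈ K, d k * P.zEW k := by
  have hv := P.l8z_d_var h hT hcp hpin hw K d hd a b hab hkab hM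
  have hone : ∀ k ∈ K, d k * P.D2 k ≤ d k * (∫ ω, (P.nX k ω - P.S k) ^ 2 ∂P.μ) + θ * d k + (1 + 1 / θ) / V * (d k * P.zEW k) := by
    intro k hk
    obtain ⟨h1, h2, h3, h4, _, _⟩ := hab k hk
    have hkn : k ≤ P.n + 1 := by have := hT.kb_le; omega
    have hvk : V ≤ P.v k := hT.mass.trans (h.v_mono (h1.trans h2))
    have := mul_le_mul_of_nonneg_left (P.l8z_d_D2_le h hkn hT.V_pos hvk hθ) (hd k hk)
    refine this.trans (le_of_eq ?_)
    ring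
  refine (sum_le_sum hone).trans ?_
  rw [sum_add_distrib, sum_add_distrib, ← mul_sum, ← mul_sum]
  linarith

/-- **(D12)** in the coordinate `τ` (paper: `t` and `v`; width `w = (x^6/(ω λ V0'^3))^(1/2)`).      TEX[LL:eq:D12] 08-statistics.tex l.1047-1058 -/
theorem l8z_d_D12 (h : P.Ok) {τ : ℕ → ℝ} {ka kb : ℕ} {V e0 om mesh : ℝ} (hT : P.ZT τ ka kb V e0 om mesh) {c cpin : ℝ} (hc : 0 < c) (hs : P.Sus c)
    (hcp : 0 ≤ cpin) (hpin : P.Pin 1 cpin) {w θ : ℝ} (hw : 0 < w) (hθ : 0 < θ) (hmesh : 0 ≤ mesh) {k0 k1 : ℕ} (hk0 : ka ≤ k0) (hk01 : k0 ≤ k1)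
    (hk1 : k1 ≤ kb) (hL : τ ka + w ≤ τ k0) (hR : τ k1 + w ≤ τ kb) :
    ∑ k ∈ Ico k0 k1, (τ (k + 1) - τ k) * P.D2 k
      ≤ 512 * (2 * w + 3 * mesh) * (1 + cpin * (1 / (c * m * V * e0)) / (om * w ^ 2))
        + θ * (τ k1 - τ k0) + (1 + 1 / θ) / V * (1 / (c * m * V * e0)) := by
  have hτ := hT.mono
  have hm : (0 : ℝ) < m := by exact_mod_cast P.l8z_g_m_pos h
  have hV := hT.V_pos
  have he0 := hT.e0_pos
  have hom := hT.om_pos
  have hkab : ka ≤ kb := hk0.trans (hk01.trans hk1)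
  have hden : 0 < c * m * V * e0 := by positivity
  have hex : ∀ k, ∃ a b : ℕ, k ∈ Ico k0 k1 → (ka ≤ a ∧ a ≤ k ∧ w ≤ τ k - τ a ∧ τ k - τ a ≤ w + mesh) ∧
      (k ≤ b ∧ b ≤ kb ∧ w ≤ τ b - τ k ∧ τ b - τ k ≤ w + mesh) := by
    intro k
    by_cases hk : k ∈ Ico k0 k1
    · rw [mem_Ico] at hk
      obtain ⟨a, ha⟩ := l8z_d_prev (τ := τ) (mesh := mesh) hw (hk0.trans hk.1)
        (fun l h1 h2 => hT.fine l h1 (by omega)) (hL.trans (hτ hk.1))
      obtain ⟨b, hb⟩ := l8z_d_next (τ := τ) (mesh := mesh) hw (hk.2.le.trans hk1)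
        (fun l h1 h2 => hT.fine l (by omega) h2) (by have := hτ hk.2.le; linarith)
      exact ⟨a, b, fun _ => ⟨ha, hb⟩⟩
    · exact ⟨0, 0, fun h' => absurd h' hk⟩
  choose a b hab using hex
  have hdt : ∀ l, 0 ≤ τ (l + 1) - τ l := fun l => sub_nonneg.mpr (hτ (Nat.le_succ l))
  have hM : ∀ l, ka ≤ l → l < kb → ∑ k ∈ (Ico k0 k1).filter (fun k => a k ≤ l ∧ l < b k), (τ (k + 1) - τ k) ≤ 2 * w + 3 * mesh := by
    intro l _ _
    have hsub : (Ico k0 k1).filter (fun k => a k ≤ l ∧ l < b k)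
        ⊆ (Ico k0 k1).filter (fun k => τ l - w - mesh ≤ τ k ∧ τ k ≤ τ l - w - mesh + (2 * w + 2 * mesh)) := by
      intro k hk
      rw [mem_filter] at hk ⊢
      obtain ⟨⟨_, _, _, a4⟩, ⟨_, _, _, b4⟩⟩ := hab k hk.1
      have e1 := hτ hk.2.1
      have e2 := hτ hk.2.2.le
      exact ⟨hk.1, by linarith, by linarith⟩
    refine (sum_le_sum_of_subset_of_nonneg hsub fun k _ _ => hdt k).trans ?_
    have := l8z_d_cover hτ (s := τ l - w - mesh) (L := 2 * w + 2 * mesh) (by positivity) hmesh k0 k1 hk01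
      (fun k h1 h2 => hT.fine k (hk0.trans h1) (lt_of_lt_of_le h2 hk1))
    linarith
  have hgen := P.l8z_d_D2gen h hT hcp hpin hw hθ (Ico k0 k1) (fun k => τ (k + 1) - τ k) (fun k _ => hdt k) a b
    (fun k hk => by
      obtain ⟨⟨a1, a2, a3, _⟩, ⟨b1, b2, b3, _⟩⟩ := hab k hk
      exact ⟨a1, a2, b1, b2, a3, b3⟩) hkab hM
  refine hgen.trans ?_
  rw [l8z_g_tele τ hk01]
  have hS1 : P.S kb - P.S ka ≤ 1 := by have := P.l8s_S_le_one h kb; have := P.l8s_S_nonneg ka; linarith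
  have hS1' : P.S k1 - P.S k0 ≤ 1 := by have := P.l8s_S_le_one h k1; have := P.l8s_S_nonneg k0; linarith
  have hRW : ∑ l ∈ Ico ka kb, (τ (l + 1) - τ l) * P.zEW l ≤ 1 / (c * m * V * e0) :=
    (P.l8z_d_EW h hT hc hs le_rfl hkab le_rfl).trans (by gcongr)
  have hRW' : ∑ l ∈ Ico k0 k1, (τ (l + 1) - τ l) * P.zEW l ≤ 1 / (c * m * V * e0) :=
    (P.l8z_d_EW h hT hc hs hk0 hk01 hk1).trans (by gcongr)
  gcongr

/-- conditional Jensen on the second branch: projecting its endpoint to a later cut contracts every even moment -/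
theorem l8z_d_contr2 (h : P.Ok) (r : ℕ) {k k₂ : ℕ} (h2 : k ≤ k₂) (f : Fin m → Ω → ℝ) (hf : ∀ i, L8Bd (f i)) (c : ℝ) :
    ∫ p, (∑ i, f i p.1 * P.X k₂ i p.2 - c) ^ (2 * r) ∂(P.fork k)
      ≤ ∫ p, (∑ i, f i p.1 * P.y i p.2 - c) ^ (2 * r) ∂(P.fork k) := by
  have := h.prob
  have := h.markov k
  have hfB : ∀ i, @L8Bd (Ω × Ω) _ (fun p => f i p.1) := fun i =>
    ⟨(hf i).1.comp measurable_fst, (hf i).2.choose, fun p => (hf i).2.choose_spec p.1⟩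
  have hXB : ∀ i, @L8Bd (Ω × Ω) _ (fun p => P.X k₂ i p.2) := fun i =>
    ⟨(P.l8s_X_bd h k₂ i).1.comp measurable_snd, (P.l8s_X_bd h k₂ i).2.choose, fun p => (P.l8s_X_bd h k₂ i).2.choose_spec p.2⟩
  have hyB : ∀ i, @L8Bd (Ω × Ω) _ (fun p => P.y i p.2) := fun i =>
    ⟨(P.l8s_y_bd h i).1.comp measurable_snd, (P.l8s_y_bd h i).2.choose, fun p => (P.l8s_y_bd h i).2.choose_spec p.2⟩
  have hG1 : @L8Bd (Ω × Ω) _ (fun p => (∑ i, f i p.1 * P.X k₂ i p.2 - c) ^ (2 * r)) :=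
    ((L8Bd.sum _ fun i _ => (hfB i).mul (hXB i)).sub (l8Bd_const c)).pow _
  have hG2 : @L8Bd (Ω × Ω) _ (fun p => (∑ i, f i p.1 * P.y i p.2 - c) ^ (2 * r)) :=
    ((L8Bd.sum _ fun i _ => (hfB i).mul (hyB i)).sub (l8Bd_const c)).pow _
  obtain ⟨hG1m, c1, hG1c⟩ := hG1
  obtain ⟨hG2m, c2, hG2c⟩ := hG2
  rw [P.l8s_fork_integral h k hG1m hG1c, P.l8s_fork_integral h k hG2m hG2c]
  refine integral_mono ((P.l8s_fork_inner_bd_aux h k hG1m hG1c).integrable _)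
    ((P.l8s_fork_inner_bd_aux h k hG2m hG2c).integrable _) fun ω => ?_
  simp only
  have hΨ : L8Bd (fun η => ∑ i, f i ω * P.y i η - c) :=
    (L8Bd.sum _ fun i _ => (P.l8s_y_bd h i).const_mul (f i ω)).sub (l8Bd_const c)
  have e1 : ∀ ω', ∑ i, f i ω * P.X k₂ i ω' - c = P.E k₂ (fun η => ∑ i, f i ω * P.y i η - c) ω' := by
    intro ω'
    rw [P.l8s_E_sub h k₂ (L8Bd.sum _ fun i _ => (P.l8s_y_bd h i).const_mul (f i ω)) (l8Bd_const c), P.l8s_E_const h,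
      P.l8s_E_sum h k₂ _ fun i _ => (P.l8s_y_bd h i).const_mul (f i ω)]
    simp only [P.l8s_E_const_mul]
    rfl
  have e2 : ∀ ω', (∑ i, f i ω * P.X k₂ i ω' - c) ^ (2 * r) ≤ P.E k₂ (fun η => (∑ i, f i ω * P.y i η - c) ^ (2 * r)) ω' := by
    intro ω'
    rw [e1 ω', ← (even_two_mul r).pow_abs]
    refine (P.l8s_E_pow_le h k₂ hΨ (2 * r) ω').trans (le_of_eq ?_)
    congr 1
    funext η
    exact (even_two_mul r).pow_abs _
  have hL : L8Bd (fun ω' => (∑ i, f i ω * P.X k₂ i ω' - c) ^ (2 * r)) :=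
    ((L8Bd.sum _ fun i _ => (P.l8s_X_bd h k₂ i).const_mul (f i ω)).sub (l8Bd_const c)).pow _
  have t1 := P.l8s_E_tower h h2 (hΨ.pow (2 * r)) ω
  have t2 := P.l8s_E_mono h k hL (P.l8s_E_bd h k₂ (hΨ.pow (2 * r))) e2 ω
  rw [t1] at t2
  exact t2

/-- **projected pairs**: TEX[LL:par:aliases] "conditional contraction only reduces these bounds", all even moments.   (`L8xD11` asks all `k ≤ k₁, k₂`.) -/
theorem l8z_d_contr (h : P.Ok) (r : ℕ) {k k₁ k₂ : ℕ} (h1 : k ≤ k₁) (h2 : k ≤ k₂) (c : ℝ) :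
    ∫ p, (P.QX k₁ k₂ p - c) ^ (2 * r) ∂(P.fork k) ≤ ∫ p, (P.Q p - c) ^ (2 * r) ∂(P.fork k) := by
  have s1 := P.l8z_d_contr2 h r h2 (fun i => P.X k₁ i) (fun i => P.l8s_X_bd h k₁ i) c
  have s2 := P.l8z_d_contr2 h r h1 (fun i => P.y i) (fun i => P.l8s_y_bd h i) c
  have hm : Measurable (fun p : Ω × Ω => (∑ i, P.X k₁ i p.1 * P.y i p.2 - c) ^ (2 * r)) := by
    refine ((Finset.measurable_sum _ fun i _ => ?_).sub_const c).pow_const _
    exact ((P.l8s_X_bd h k₁ i).1.comp measurable_fst).mul ((P.l8s_y_bd h i).1.comp measurable_snd)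
  have sw : ∫ p, (∑ i, P.X k₁ i p.1 * P.y i p.2 - c) ^ (2 * r) ∂(P.fork k)
      = ∫ p, (∑ i, P.y i p.1 * P.X k₁ i p.2 - c) ^ (2 * r) ∂(P.fork k) := by
    conv_lhs => rw [← P.l8s_fork_swap h k]
    rw [integral_map measurable_swap.aemeasurable hm.aestronglyMeasurable]
    refine integral_congr_ae (ae_of_all _ fun p => ?_)
    simp only [Prod.fst_swap, Prod.snd_swap]
    congr 2
    exact sum_congr rfl fun i _ => mul_comm _ _
  calc ∫ p, (P.QX k₁ k₂ p - c) ^ (2 * r) ∂(P.fork k) ≤ ∫ p, (∑ i, P.X k₁ i p.1 * P.y i p.2 - c) ^ (2 * r) ∂(P.fork k) := s1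
    _ = ∫ p, (∑ i, P.y i p.1 * P.X k₁ i p.2 - c) ^ (2 * r) ∂(P.fork k) := sw
    _ ≤ ∫ p, (P.Q p - c) ^ (2 * r) ∂(P.fork k) := s2

/-- **(D11.g), ALL CUTS, ALL PROJECTED PAIRS** (untilted path).   TEX[LL:prop:statistics-size-accuracy] l.1243-1303.
`[ka,kb]` = region of the coordinate; `kc` = lowest interior cut (a past buffer `ρ` fits above `ka`); `kF` = first frozen cut (two buffers and the layers fit before `kb`).
Interior cuts: `l8z_g_interior`, buffers constructed; below `kc`: `l8z_g_small` at the central cut `≈ ρ` later; from `kF` on: `l8z_g_frozen`; projected endpoints: `l8z_d_contr`. -/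
theorem l8z_d_all (h : P.Ok) {τ : ℕ → ℝ} {ka kb : ℕ} {V e0 om mesh : ℝ} (hT : P.ZT τ ka kb V e0 om mesh) (r R J : ℕ) (hr : 1 ≤ r) (hR : 1 ≤ R)
    {c1 cR cr cpin hmin l0 ϑ : ℝ} (hc1 : 0 ≤ c1) (hcR : 0 ≤ cR) (hcr : 0 ≤ cr) (hcp : 0 ≤ cpin) (hl0 : 0 < l0) (hϑ : 0 < ϑ) (hp1 : P.Proj 1 c1 V hmin)
    (hpR : P.Proj R cR V hmin) (hpr : P.Proj r cr V hmin) (hpin : P.Pin r cpin) (hmn : hmin ≤ e0 * l0) (q : ℕ → ℝ) {η0 Lq ρ ε sq e ql fz fq : ℝ}
    (hη0 : 0 ≤ η0) (hLq : 0 ≤ Lq) (hε : 0 ≤ ε) (hρ : l0 ≤ ρ) (hmesh : 0 ≤ mesh) (hmρ : mesh ≤ ρ) (hsq0 : 0 ≤ sq) (he : 0 ≤ e) (hfz0 : 0 ≤ fz)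
    {kc kF : ℕ} (hkc : ka ≤ kc) (hcF : kc ≤ kF) (hFb : kF ≤ kb) (hroomL : τ ka + ρ ≤ τ kc) (hroomR : τ kF + 4 * ρ + 2 ^ J * l0 ≤ τ kb)
    (hS : ∀ l, ka ≤ l → l ≤ kb → |P.S l - q l| ≤ η0) (hq : ∀ l l', ka ≤ l → l ≤ l' → l' ≤ kb → |q l' - q l| ≤ Lq * (τ l' - τ l))
    (hεb : cpin * (l8zIW P.a m J r R c1 cR V e0 l0 mesh (6 * ρ) ϑ / (om * ρ ^ 2)) ^ r ≤ ε ^ (2 * r))
    (hsq : 64 * (η0 + Lq * (6 * ρ) + ε) ≤ sq ^ 2) (hpe : cr / (V ^ 2 * m * (e0 * ρ)) ^ r ≤ e ^ (2 * r))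
    (hql : ∀ k, k ≤ kc → |q k| ≤ ql) (hfz : 1 - P.S kF ≤ fz ^ (2 * r)) (hfq : ∀ k, kF ≤ k → |1 - q k| ≤ fq)
    {k k₁ k₂ : ℕ} (h1 : k ≤ k₁) (h2 : k ≤ k₂) :
    ∫ p, (P.QX k₁ k₂ p - q k) ^ (2 * r) ∂(P.fork k)
      ≤ (2 * ql + 2 * Lq * ρ + 16 * (η0 + Lq * (6 * ρ) + ε) + 2 * sq + sq ^ 2 + 2 * e + 2 * fz + fq) ^ (2 * r) := by
  refine (P.l8z_d_contr h r h1 h2 (q k)).trans ?_
  have hτ := hT.mono
  have hρ0 : 0 < ρ := lt_of_lt_of_le hl0 hρ
  have hql0 : 0 ≤ ql := (abs_nonneg _).trans (hql kc le_rfl)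
  have hfq0 : 0 ≤ fq := (abs_nonneg _).trans (hfq kF le_rfl)
  have hδ : 0 ≤ 16 * (η0 + Lq * (6 * ρ) + ε) := by positivity
  have hJ : 0 ≤ (2 : ℝ) ^ J * l0 := by positivity
  have hLρ : 0 ≤ Lq * ρ := by positivity
  have hfine : ∀ l, ka ≤ l → l < kb → τ (l + 1) - τ l ≤ mesh := hT.fine
  rcases le_total kF k with hkF | hkF
  · -- frozen
    have hSk : 1 - P.S k ≤ fz ^ (2 * r) := by
      have := P.l8s_S_mono h hkF
      linarith
    refine (P.l8z_g_frozen h r hr k hfz0 hSk).trans (pow_le_pow_left₀ (by positivity) ?_ _)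
    have := hfq k hkF
    have : 0 ≤ sq ^ 2 := by positivity
    linarith
  · rcases le_total kc k with hck | hck
    · -- interior
      obtain ⟨a0, ha0, ha0k, hla, hla'⟩ := l8z_d_prev hρ0 (hkc.trans hck) (fun l h1 h2 => hfine l h1 (lt_of_lt_of_le h2 (hkF.trans hFb)))
        (hroomL.trans (hτ hck))
      have hkτ : τ k ≤ τ kF := hτ hkF
      obtain ⟨kp, hkkp, hkpb, hlk, hlk'⟩ := l8z_d_next hρ0 (hkF.trans hFb) (fun l h1 h2 => hfine l ((hkc.trans hck).trans h1) h2) (by linarith)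
      obtain ⟨b1, hkpb1, hb1, hlb, hlb'⟩ := l8z_d_next hρ0 hkpb (fun l h1 h2 => hfine l (((hkc.trans hck).trans hkkp).trans h1) h2) (by linarith)
      have := P.l8z_g_interior h hT r R J hr hR hc1 hcR hcr hcp hl0 hϑ hp1 hpR hpr hpin hmn q hη0 hLq hε hρ hmesh hsq0 he ha0 hb1 hla hlk hlb
        (sp := 6 * ρ) (by linarith) (by linarith) (fun l h1 h2 => hS l (ha0.trans h1) (h2.trans hb1))
        (fun l l' h1 h2 h3 => hq l l' (ha0.trans h1) h2 (h3.trans hb1)) hεb hsq hpe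
      refine this.trans (pow_le_pow_left₀ (by positivity) ?_ _)
      linarith
    · -- smaller split
      set k1 : ℕ := max k ka with hk1
      have hk1c : k1 ≤ kc := max_le hck hkc
      have hkk1 : k ≤ k1 := le_max_left _ _
      have hka1 : ka ≤ k1 := le_max_right _ _
      have hk1τ : τ k1 ≤ τ kF := hτ (hk1c.trans hcF)
      obtain ⟨kcc, h1cc, hccb, hlc, hlc'⟩ := l8z_d_next hρ0 ((hk1c.trans hcF).trans hFb) (fun l h1 h2 => hfine l (hka1.trans h1) h2) (by linarith)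
      obtain ⟨b1, hccb1, hb1, hlb, hlb'⟩ := l8z_d_next hρ0 hccb (fun l h1 h2 => hfine l ((hka1.trans h1cc).trans h1) h2) (by linarith)
      have hlt : k1 < kcc := by
        by_contra hc
        have := hτ (not_lt.mp hc)
        linarith
      obtain ⟨c1k, -⟩ := P.l8z_g_cut h hT r R J hr hR hc1 hcR hcp hl0 hϑ hp1 hpR hpin hmn q hη0 hLq hε hρ0 hmesh (a0 := k1) (a1 := kcc) (k := kcc)
        (b0 := kcc) (b1 := b1) hka1 (Nat.le_succ _) le_rfl hb1 hlc hlb (sp := 6 * ρ) (by linarith) (by linarith)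
        (fun l h1 h2 => hS l (hka1.trans h1) (h2.trans hb1)) (fun l l' h1 h2 h3 => hq l l' (hka1.trans h1) h2 (h3.trans hb1)) hεb
      have hvk : V ≤ P.v k1 := hT.mass.trans (h.v_mono hka1)
      have hhl : e0 * ρ ≤ P.hlen k1 kcc :=
        (mul_le_mul_of_nonneg_left hlc hT.e0_pos.le).trans (P.l8z_g_hlen hT hka1 h1cc hccb)
      have hhm : hmin ≤ P.hlen k1 kcc := hmn.trans ((mul_le_mul_of_nonneg_left hρ hT.e0_pos.le).trans hhl)
      have hm : (0 : ℝ) < m := by exact_mod_cast P.l8z_g_m_pos h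
      have hV := hT.V_pos
      have he0 := hT.e0_pos
      have hpe' : cr / (P.v k1 ^ 2 * m * P.hlen k1 kcc) ^ r ≤ e ^ (2 * r) := by
        refine le_trans ?_ hpe
        gcongr
      have := P.l8z_g_small h r hr hpr hkk1 hlt (by have := hT.kb_le; omega) hvk hhm (qk := q k) hδ he c1k hpe'
      refine this.trans (pow_le_pow_left₀ (by positivity) ?_ _)
      have a1 := hql k hck
      have a2 := hql k1 hk1c
      have a3 := hq k1 kcc hka1 h1cc hccb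
      have a4 : |q kcc| ≤ |q k1| + |q kcc - q k1| := by
        have := abs_add_le (q k1) (q kcc - q k1)
        simpa using this
      have a5 : Lq * (τ kcc - τ k1) ≤ Lq * (2 * ρ) := mul_le_mul_of_nonneg_left (by linarith) hLq
      have : 0 ≤ sq ^ 2 := by positivity
      linarith

end L8P

end Claimed.Agent.R286
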