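import Claimed.Agent.R286.L02.Law
import Claimed.Agent.R286.L02.Defs
import Claimed.Agent.R286.Exit.LL02A7
import Claimed.Agent.R286.L02.P73
import Claimed.Agent.R286.Sc.LinkTr
import Claimed.Agent.R286.Fd.Contract
import Claimed.Agent.R286.Fd.ObsTw
import Claimed.Agent.R286.L08.Defs

/-!
# Row 286 (S0533), folder L08, unit SA, file SAe : FIRST ORDER CAVITY AT THE REFERENCE `K_S = h + b S` (D11.e)      (architect + owner helper171, head of SA helper163; prefix `l8z_e_`)

TEX[LL:prop:statistics-size-accuracy] 08-statistics.tex l.1209-1220:   `|S_v - Γ_S(K_S(v))| ≲ D_v + ∫ D_u du + O(1/m)`.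
FINE level, ABSTRACT: a jet context `X : JtCtx S` (`Defs/Jet`) with its laws `X.Law ms` (`L02/Law`, helper239), untilted (`msk = 1`), whose scalar reference is SELF-CONSISTENT:
`KC u = hC u + bC u * S u` at every pair which shares `u ≤ N` stages.   Input: (A7) with `P = 1`, `k = 1` in the contract shape `X.A7` (`Exit/LL02A7`, `exit_a7_masked`, helper93).
`X.qC t` is then `Γ_S(K_S)` at the cut `t` (scalar pair moment of the reference `K_S`).

* E2 `l8z_e_zero`   the order zero of the cavity quotient is `qC t`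
* E3 `l8z_e_J`      one insertion: `J = b (Q - S)`, pruning to the inserted pair, Jensen: `ν_τ |J_23| ≤ M0 √(D²(τ 2 3))`
* E4 `l8z_e_alloc`  PURE: the absolute allocation measure of one pair over the tested pair: one prescribed fork `t` (atom), else bounded mass density.
                    (numerics: /worst ratio 8 against `a G + a² g t`; proved bound `20 a G + 70 a² g t` through the general one-attachment lemma `l8z_e_att1`)
* E5 `l8z_e_main`   EXIT (D11.e)
* E6 `l8z_e_sk`     **SK INSTANCE** on every admissible step path `P : SkStp`: reference `l8zRef n a P` (same stages, masses, `db`, `dh`; `dK` = increments of `l8zKS = skCumH + skCumB * obS`), profile `l8zPi`;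
                    dictionary `l8z_e_zS` (`zS = obS`), `l8z_e_zD2` (`zD2 = obD2`), `l8z_e_gap`, `l8z_e_cumK`, `l8z_e_ref_adm/_bd/_mat/_len`;   `qC = scGam (scLC a) (l8zPi ..) (l8zKS ..)` by `slk_llQs` (102);
                    inputs `exit_a7_masked 2 1 M0` (93), `ll2_law_js` (73).      `l8z_cav1` = the same in the vocabulary `L8In`.
ALL PROVED (0 sorry).   `l8z_e_att1` (ONE attachment, summand = function of the depth shared with an old leaf `z`, any tree) is reusable in LS/HI.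
-/

set_option autoImplicit false

namespace Claimed.Agent.R286

open scoped BigOperators

namespace JtCtx

variable {S : Type} (X : JtCtx S)

/-- `S_u = ν[Q]` at a pair which shares `u` stages -/
noncomputable def zS (u : ℕ) : ℝ := X.nu 2 (trPair X.N u) fun σ => X.ov (σ 0) (σ 1)

/-- `D_u² = ν[(Q - S_u)²]` at a pair which shares `u` stages -/
noncomputable def zD2 (u : ℕ) : ℝ := X.nu 2 (trPair X.N u) fun σ => (X.ov (σ 0) (σ 1) - X.zS u) ^ 2

end JtCtx

theorem l8z_e_isTr (N t : ℕ) (ht : t ≤ N) : IsTr N 2 (trPair N t) := by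
  refine ⟨?_, ?_, ?_, ?_⟩
  · intro x y _ _
    unfold trPair
    split_ifs <;> omega
  · intro x _
    simp [trPair]
  · intro x y _ _
    unfold trPair
    by_cases h : x = y
    · simp [h]
    · rw [if_neg h, if_neg (fun e => h e.symm)]
  · intro x y z _ _ _
    unfold trPair
    by_cases h1 : x = z
    · rw [if_pos h1]
      split_ifs <;> simp <;> omega
    · rw [if_neg h1]
      by_cases h2 : x = y
      · have h3 : y ≠ z := fun e => h1 (h2.trans e)
        rw [if_neg h3]; exact min_le_right _ _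
      · rw [if_neg h2]; exact min_le_left _ _

/-- truncation of `g` at the coincidences -/
def l8zGt (N : ℕ) (g : ℕ → ℝ) (u : ℕ) : ℝ := if u ≤ N then g u else 0

theorem l8zGt_nonneg {N : ℕ} {g : ℕ → ℝ} (hg : ∀ u, 0 ≤ g u) (u : ℕ) : 0 ≤ l8zGt N g u := by
  unfold l8zGt; split_ifs
  · exact hg u
  · exact le_rfl

/-- number of children of a node on the path of `z` -/
theorem l8z_e_deg {N q : ℕ} {τ : ℕ → ℕ → ℕ} (hτ : IsTr N q τ) {z j : ℕ} (hz : z < q) (hj : j ≤ N) :
    trDeg q τ j z ≤ 1 + ((Finset.range q).filter fun y => τ z y = j).card := by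
  rw [tra2_deg_eq_card]
  have hsub : tra2Ch q τ j z ⊆ {tra2Rp τ (j + 1) z} ∪ (Finset.range q).filter fun y => τ z y = j := by
    intro y hy
    simp only [tra2Ch, Finset.mem_filter, Finset.mem_range] at hy
    simp only [Finset.mem_union, Finset.mem_singleton, Finset.mem_filter, Finset.mem_range]
    rcases Nat.eq_or_lt_of_le hy.2.1 with h | h
    · exact Or.inr ⟨hy.1, h.symm⟩
    · left
      have := tra2_rp_eq hτ hz hy.1 (show j + 1 ≤ N + 1 by omega) (by rw [hτ.symm y z hy.1 hz]; omega) hy.2.2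
      exact this.symm
  refine (Finset.card_le_card hsub).trans ((Finset.card_union_le _ _).trans ?_)
  simp

/-- the nodes of depth `j ≤ N` on the path of `z` -/
theorem l8z_e_node {N q : ℕ} {τ : ℕ → ℕ → ℕ} {ms : ℕ → ℝ} (hτ : IsTr N q τ) (hms : IsMs N ms) {z j : ℕ} (hz : z < q) (hj : j ≤ N) :
    ∑ x ∈ tra2Bl q τ j z, |trWt ms N q τ x j|
      ≤ (ms j - trPm ms j) + ms N * ((Finset.range q).filter fun y => τ z y = j).card := by
  have h1 : ∀ y ∈ tra2Bl q τ j z, |trWt ms N q τ y j|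
      = if trIsMin τ j y then (fun y => trDeg q τ j y * ms j - trPm ms j) y else 0 := by
    intro y hy
    simp only [tra2Bl, Finset.mem_filter, Finset.mem_range] at hy
    rw [abs_of_nonpos (tr_wt_nonpos hτ hms hy.1 hj)]
    unfold trWt
    have : j ≠ N + 1 := by omega
    split_ifs <;> simp
  rw [Finset.sum_congr rfl h1, tra2_bl_sum_min hτ hz (by omega)]
  obtain ⟨a1, a2, a3⟩ := tra2_rp_spec hτ hz (show j ≤ N + 1 by omega)
  rw [← tra2_deg_congr hτ hz (lt_of_le_of_lt a1 hz) a2]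
  have hd : (trDeg q τ j z : ℝ) ≤ 1 + (((Finset.range q).filter fun y => τ z y = j).card : ℝ) := by
    exact_mod_cast l8z_e_deg hτ hz hj
  have h0 := hms.nonneg j
  have hjN := hms.mono j N hj le_rfl
  have hc : (0 : ℝ) ≤ (((Finset.range q).filter fun y => τ z y = j).card : ℝ) := Nat.cast_nonneg _
  nlinarith [mul_le_mul_of_nonneg_right hd h0, mul_le_mul_of_nonneg_right hjN hc]

/-- **one attachment**, summand = function of the depth shared with the old leaf `z` -/
theorem l8z_e_att1 {N q : ℕ} {τ : ℕ → ℕ → ℕ} {ms : ℕ → ℝ} (hτ : IsTr N q τ) (hms : IsMs N ms) {z : ℕ} (hz : z < q)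
    (g : ℕ → ℝ) (hg : ∀ u, 0 ≤ g u) :
    ∑ x ∈ Finset.range q, ∑ j ∈ Finset.range (N + 2), |trWt ms N q τ x j| * l8zGt N g (min j (τ z x))
      ≤ ∑ u ∈ Finset.range (N + 1), (ms u - trPm ms u) * g u
        + (1 + 2 * q) * ms N * ∑ y ∈ Finset.range q, l8zGt N g (τ z y) := by
  have hgt := l8zGt_nonneg (N := N) hg
  -- splitting
  have hsplit : ∀ x ∈ Finset.range q, ∀ j ∈ Finset.range (N + 2), |trWt ms N q τ x j| * l8zGt N g (min j (τ z x))
      ≤ (if j ≤ τ z x then |trWt ms N q τ x j| * l8zGt N g j else 0) + |trWt ms N q τ x j| * l8zGt N g (τ z x) := by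
    intro x _ j _
    by_cases h : j ≤ τ z x
    · rw [if_pos h, min_eq_left h]
      have := mul_nonneg (abs_nonneg (trWt ms N q τ x j)) (hgt (τ z x))
      linarith
    · rw [if_neg h, min_eq_right (not_le.mp h).le, zero_add]
  refine (Finset.sum_le_sum fun x hx => Finset.sum_le_sum fun j hj => hsplit x hx j hj).trans ?_
  simp only [Finset.sum_add_distrib]
  -- second part
  have hsec : ∑ x ∈ Finset.range q, ∑ j ∈ Finset.range (N + 2), |trWt ms N q τ x j| * l8zGt N g (τ z x)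
      ≤ 2 * q * ms N * ∑ y ∈ Finset.range q, l8zGt N g (τ z y) := by
    rw [Finset.mul_sum]
    refine Finset.sum_le_sum fun x hx => ?_
    rw [← Finset.sum_mul]
    refine mul_le_mul_of_nonneg_right ?_ (hgt _)
    have htot := tra2_abs_total (ms := ms) hτ hms
    have hrow : ∑ j ∈ Finset.range (N + 2), |trWt ms N q τ x j|
        ≤ ∑ x ∈ Finset.range q, ∑ j ∈ Finset.range (N + 2), |trWt ms N q τ x j| :=
      Finset.single_le_sum (f := fun x => ∑ j ∈ Finset.range (N + 2), |trWt ms N q τ x j|)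
        (fun x _ => Finset.sum_nonneg fun j _ => abs_nonneg _) hx
    linarith
  -- first part
  have hfst : ∑ x ∈ Finset.range q, ∑ j ∈ Finset.range (N + 2), (if j ≤ τ z x then |trWt ms N q τ x j| * l8zGt N g j else 0)
      ≤ ∑ u ∈ Finset.range (N + 1), (ms u - trPm ms u) * g u + ms N * ∑ y ∈ Finset.range q, l8zGt N g (τ z y) := by
    rw [Finset.sum_comm, Finset.sum_range_succ]
    have hlast : ∑ x ∈ Finset.range q, (if N + 1 ≤ τ z x then |trWt ms N q τ x (N + 1)| * l8zGt N g (N + 1) else 0) = 0 := by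
      refine Finset.sum_eq_zero fun x _ => ?_
      have : l8zGt N g (N + 1) = 0 := by unfold l8zGt; rw [if_neg (by omega)]
      rw [this]; simp
    rw [hlast, add_zero]
    have hj : ∀ j ∈ Finset.range (N + 1), ∑ x ∈ Finset.range q, (if j ≤ τ z x then |trWt ms N q τ x j| * l8zGt N g j else 0)
        ≤ (ms j - trPm ms j) * g j + ms N * ∑ y ∈ Finset.range q, (if τ z y = j then g j else 0) := by
      intro j hj
      rw [Finset.mem_range] at hj
      have hjN : j ≤ N := by omega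
      have e1 : ∑ x ∈ Finset.range q, (if j ≤ τ z x then |trWt ms N q τ x j| * l8zGt N g j else 0)
          = (∑ x ∈ tra2Bl q τ j z, |trWt ms N q τ x j|) * g j := by
        unfold tra2Bl
        rw [Finset.sum_filter, Finset.sum_mul]
        refine Finset.sum_congr rfl fun x _ => ?_
        have : l8zGt N g j = g j := by unfold l8zGt; rw [if_pos hjN]
        rw [this]
        split_ifs <;> simp
      have e2 : ∑ y ∈ Finset.range q, (if τ z y = j then g j else 0) = (((Finset.range q).filter fun y => τ z y = j).card : ℝ) * g j := by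
        rw [← Finset.sum_filter, Finset.sum_const, nsmul_eq_mul]
      rw [e1, e2]
      have := mul_le_mul_of_nonneg_right (l8z_e_node hτ hms hz hjN) (hg j)
      linarith
    refine (Finset.sum_le_sum hj).trans ?_
    rw [Finset.sum_add_distrib, ← Finset.mul_sum, Finset.sum_comm]
    refine add_le_add le_rfl (mul_le_mul_of_nonneg_left (le_of_eq ?_) (hms.nonneg N))
    refine Finset.sum_congr rfl fun y _ => ?_
    unfold l8zGt
    by_cases h : τ z y ≤ N
    · rw [if_pos h, Finset.sum_ite_eq]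
      rw [if_pos (Finset.mem_range.mpr (by omega))]
    · rw [if_neg h]
      refine Finset.sum_eq_zero fun j hj => ?_
      rw [Finset.mem_range] at hj
      rw [if_neg (by omega)]
  have hs0 : 0 ≤ ∑ y ∈ Finset.range q, l8zGt N g (τ z y) := Finset.sum_nonneg fun y _ => hgt _
  nlinarith [hfst, hsec]


theorem l8z_e_att_new (N q : ℕ) (τ : ℕ → ℕ → ℕ) (x j y : ℕ) (hy : y ≠ q) : trAtt N q τ x j y q = min j (τ y x) := by
  unfold trAtt; rw [if_neg hy, if_pos rfl]

/-- **E4** (PURE).  Two applications of `l8z_e_att1`: label `3` over the tree of `0,1,2` (`z = 2`), then label `2` over the tested pair (`z = 0`, `z = 1`). -/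
theorem l8z_e_alloc {N : ℕ} {ms : ℕ → ℝ} (hms : IsMs N ms) {t : ℕ} (ht : t ≤ N) (g : ℕ → ℝ) (hg : ∀ u, 0 ≤ g u) :
    trAbsK ms N 2 2 (trPair N t) (fun τ => (if τ 2 3 ≤ N then (1 : ℝ) else 0) * g (τ 2 3))
      ≤ 20 * ms N * ∑ u ∈ Finset.range (N + 1), (ms u - trPm ms u) * g u + 70 * ms N ^ 2 * g t := by
  have hτ0 := l8z_e_isTr N t ht
  have hgt := l8zGt_nonneg (N := N) hg
  have ha := hms.nonneg N
  set G : ℝ := ∑ u ∈ Finset.range (N + 1), (ms u - trPm ms u) * g u with hG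
  have hG0 : 0 ≤ G := Finset.sum_nonneg fun u hu => by
    rw [Finset.mem_range] at hu
    exact mul_nonneg (sub_nonneg.mpr (tra2_pm_le hms (by omega))) (hg u)
  have hΦ : ∀ τ : ℕ → ℕ → ℕ, (if τ 2 3 ≤ N then (1 : ℝ) else 0) * g (τ 2 3) = l8zGt N g (τ 2 3) := by
    intro τ; unfold l8zGt; split_ifs <;> simp
  simp only [hΦ, trAbsK, trAbs]
  -- the second label
  have hin : ∀ x ∈ Finset.range 2, ∀ j ∈ Finset.range (N + 2),
      ∑ x' ∈ Finset.range (2 + 1), ∑ j' ∈ Finset.range (N + 2), |trWt ms N (2 + 1) (trAtt N 2 (trPair N t) x j) x' j'|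
          * l8zGt N g (trAtt N (2 + 1) (trAtt N 2 (trPair N t) x j) x' j' 2 3)
        ≤ G + 7 * ms N * (l8zGt N g (min j (trPair N t 0 x)) + l8zGt N g (min j (trPair N t 1 x))) := by
    intro x hx j hj
    rw [Finset.mem_range] at hx hj
    have hτ1 : IsTr N (2 + 1) (trAtt N 2 (trPair N t) x j) := tr_att_isTr hτ0 hx (by omega)
    have h := l8z_e_att1 (ms := ms) hτ1 hms (z := 2) (by norm_num) g hg
    have e1 : ∀ x' j', trAtt N (2 + 1) (trAtt N 2 (trPair N t) x j) x' j' 2 3 = min j' (trAtt N 2 (trPair N t) x j 2 x') := by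
      intro x' j'
      exact l8z_e_att_new N (2 + 1) _ x' j' 2 (by norm_num)
    simp only [e1]
    refine h.trans ?_
    have e2 : ∑ y ∈ Finset.range (2 + 1), l8zGt N g (trAtt N 2 (trPair N t) x j 2 y)
        = l8zGt N g (min j (trPair N t 0 x)) + l8zGt N g (min j (trPair N t 1 x)) := by
      rw [Finset.sum_range_succ, Finset.sum_range_succ, Finset.sum_range_one]
      have a0 : trAtt N 2 (trPair N t) x j 2 0 = min j (trPair N t 0 x) := by
        unfold trAtt; simp [hτ0.symm x 0 hx (by norm_num)]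
      have a1 : trAtt N 2 (trPair N t) x j 2 1 = min j (trPair N t 1 x) := by
        unfold trAtt; simp [hτ0.symm x 1 hx (by norm_num)]
      have a2 : trAtt N 2 (trPair N t) x j 2 2 = N + 1 := by
        unfold trAtt; simp
      rw [a0, a1, a2]
      have : l8zGt N g (N + 1) = 0 := by unfold l8zGt; rw [if_neg (by omega)]
      rw [this, add_zero]
    rw [e2]
    push_cast
    apply le_of_eq
    ring
  refine (Finset.sum_le_sum fun x hx => Finset.sum_le_sum fun j hj =>
    mul_le_mul_of_nonneg_left (hin x hx j hj) (abs_nonneg _)).trans ?_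
  -- the first label
  have htot := tra2_abs_total (ms := ms) hτ0 hms
  have hA0 := l8z_e_att1 (ms := ms) hτ0 hms (z := 0) (by norm_num) g hg
  have hA1 := l8z_e_att1 (ms := ms) hτ0 hms (z := 1) (by norm_num) g hg
  have s0 : ∑ y ∈ Finset.range 2, l8zGt N g (trPair N t 0 y) = g t := by
    rw [Finset.sum_range_succ, Finset.sum_range_one]
    simp [trPair, l8zGt, ht]
  have s1 : ∑ y ∈ Finset.range 2, l8zGt N g (trPair N t 1 y) = g t := by
    rw [Finset.sum_range_succ, Finset.sum_range_one]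
    simp [trPair, l8zGt, ht]
  rw [s0] at hA0
  rw [s1] at hA1
  have hexp : ∑ x ∈ Finset.range 2, ∑ j ∈ Finset.range (N + 2), |trWt ms N 2 (trPair N t) x j|
        * (G + 7 * ms N * (l8zGt N g (min j (trPair N t 0 x)) + l8zGt N g (min j (trPair N t 1 x))))
      = (∑ x ∈ Finset.range 2, ∑ j ∈ Finset.range (N + 2), |trWt ms N 2 (trPair N t) x j|) * G
        + 7 * ms N * ((∑ x ∈ Finset.range 2, ∑ j ∈ Finset.range (N + 2), |trWt ms N 2 (trPair N t) x j| * l8zGt N g (min j (trPair N t 0 x)))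
          + ∑ x ∈ Finset.range 2, ∑ j ∈ Finset.range (N + 2), |trWt ms N 2 (trPair N t) x j| * l8zGt N g (min j (trPair N t 1 x))) := by
    simp only [Finset.sum_mul, Finset.mul_sum, ← Finset.sum_add_distrib]
    refine Finset.sum_congr rfl fun x _ => Finset.sum_congr rfl fun j _ => ?_
    ring
  rw [hexp]
  push_cast at htot hA0 hA1
  have h1 := mul_le_mul_of_nonneg_right htot hG0
  have h2 := mul_le_mul_of_nonneg_left (add_le_add hA0 hA1) (by positivity : (0 : ℝ) ≤ 7 * ms N)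
  have h3 := mul_nonneg ha hG0
  nlinarith [h1, h2, h3]

variable {S : Type} [Fintype S] [Inhabited S]

/-- **E2.**  `evLt .. 1 = ev .. 0 = N_{01}(∅)/Ψ(∅) · ν[1] = ν_K[τ_0 τ_1]`. -/
theorem l8z_e_zero (X : JtCtx S) {ms : ℕ → ℝ} (hX : X.Law ms) {t : ℕ} (ht : t ≤ X.N) :
    X.evLt 2 (trPair X.N t) (fun r τ => X.Quo r 2 0 1 τ) (fun _ => 1) 1 = X.qC t := by
  have hτ := l8z_e_isTr X.N t ht
  have hq := hX.qC (trPair X.N t) hτ
  have h01 : trPair X.N t 0 1 = t := by simp [trPair]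
  rw [h01] at hq
  unfold JtCtx.evLt JtCtx.ev
  rw [Finset.sum_range_one, hX.sumK]
  simp only [Nat.mul_zero, trSumK, pow_zero, Nat.factorial_zero, Nat.cast_one, mul_one, inv_one, one_mul, Nat.add_zero]
  have hoff : X.off 2 0 (trPair X.N t) = 1 := by simp [JtCtx.off]
  have hJ : ∀ σ : ℕ → S, X.Jprod 2 0 (trPair X.N t) σ = 1 := by intro σ; simp [JtCtx.Jprod]
  simp only [hoff, hJ, one_mul, hX.nu.const, mul_one, Finset.range_zero]
  unfold JtCtx.Quo jtMul
  simp only [Finset.powerset_empty, Finset.sum_singleton, Finset.sdiff_self]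
  have hinv : jtInv (X.Psi 2 2 (trPair X.N t)) ∅ = 1 := by
    simp [jtInv, jtPow, jtOne]
  rw [hinv, mul_one, hq]
  unfold JtCtx.Nij JtCtx.scM
  congr 1
  funext s
  simp

/-- Jensen for tree numbers -/
theorem l8z_e_jensen {N : ℕ} {nu : ℕ → JtTopo → ((ℕ → S) → ℝ) → ℝ} (h : JtNuLaw N nu) (q : ℕ) (τ : JtTopo) (Y : (ℕ → S) → ℝ) :
    nu q τ (fun σ => |Y σ|) ≤ Real.sqrt (nu q τ fun σ => Y σ ^ 2) := by
  obtain ⟨p, h0, h1, hp⟩ := h.rep q τ
  rw [hp, hp]
  apply Real.le_sqrt_of_sq_le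
  have hcs := Finset.sum_mul_sq_le_sq_mul_sq Finset.univ (fun s => Real.sqrt (p s)) (fun s => Real.sqrt (p s) * |Y (trExt s)|)
  have e1 : ∀ s, Real.sqrt (p s) * (Real.sqrt (p s) * |Y (trExt s)|) = p s * |Y (trExt s)| := by
    intro s; rw [← mul_assoc, Real.mul_self_sqrt (h0 s)]
  have e2 : ∀ s, Real.sqrt (p s) ^ 2 = p s := fun s => Real.sq_sqrt (h0 s)
  have e3 : ∀ s, (Real.sqrt (p s) * |Y (trExt s)|) ^ 2 = p s * Y (trExt s) ^ 2 := by
    intro s; rw [mul_pow, e2, sq_abs]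
  simp only [e1, e2, e3, h1, one_mul] at hcs
  exact hcs


/-- **E3.** -/
theorem l8z_e_J (X : JtCtx S) {ms : ℕ → ℝ} (hX : X.Law ms) (hmsk : ∀ u, X.msk u = 1) {M0 : ℝ}
    (hb : ∀ u, u ≤ X.N → 0 ≤ X.bC u ∧ X.bC u ≤ M0) (hK : ∀ u, u ≤ X.N → X.KC u = X.hC u + X.bC u * X.zS u)
    {τ : JtTopo} (hτ : IsTr X.N 4 τ) (h23 : τ 2 3 ≤ X.N) :
    X.nu 4 τ (fun σ => |(1 : ℝ)| * |X.Jprod 2 1 τ σ|) ≤ M0 * Real.sqrt (X.zD2 (τ 2 3)) := by
  obtain ⟨hb0, hb1⟩ := hb _ h23
  have hJ : ∀ σ : ℕ → S, |(1 : ℝ)| * |X.Jprod 2 1 τ σ| = X.bC (τ 2 3) * |X.ov (σ 2) (σ 3) - X.zS (τ 2 3)| := by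
    intro σ
    have e : X.Jprod 2 1 τ σ = X.bC (τ 2 3) * (X.ov (σ 2) (σ 3) - X.zS (τ 2 3)) := by
      simp only [JtCtx.Jprod, Finset.prod_range_one, jtC, jtD, JtCtx.J, JtCtx.Qs, Nat.mul_zero, Nat.add_zero, hmsk, one_mul]
      rw [hK _ h23]; ring
    rw [e, abs_one, one_mul, abs_mul, abs_of_nonneg hb0]
  simp only [hJ]
  rw [hX.nu.const_mul]
  have hP : TrUses 2 (fun σ : ℕ → S => |X.ov (σ 0) (σ 1) - X.zS (τ 2 3)|) := by
    intro σ σ' h
    simp only [h 0 (by norm_num), h 1 (by norm_num)]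
  have hc := hX.nu.comap 4 2 τ hτ (fun x => x + 2) (fun x hx => by omega) _ hP
  simp only [Nat.zero_add] at hc
  have hc' : X.nu 4 τ (fun σ => |X.ov (σ 2) (σ 3) - X.zS (τ 2 3)|)
      = X.nu 2 (fun x y => τ (x + 2) (y + 2)) fun σ => |X.ov (σ 0) (σ 1) - X.zS (τ 2 3)| := hc
  have hg : X.nu 2 (fun x y => τ (x + 2) (y + 2)) (fun σ => |X.ov (σ 0) (σ 1) - X.zS (τ 2 3)|)
      = X.nu 2 (trPair X.N (τ 2 3)) fun σ => |X.ov (σ 0) (σ 1) - X.zS (τ 2 3)| := by
    apply hX.nu.congr
    intro x y hx hy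
    have h22 := hτ.diag 2 (by norm_num)
    have h33 := hτ.diag 3 (by norm_num)
    have h32 := hτ.symm 3 2 (by norm_num) (by norm_num)
    interval_cases x <;> interval_cases y <;> simp [trPair, h22, h33, h32]
  rw [hc', hg]
  have hj := l8z_e_jensen hX.nu 2 (trPair X.N (τ 2 3)) (fun σ => X.ov (σ 0) (σ 1) - X.zS (τ 2 3))
  calc X.bC (τ 2 3) * X.nu 2 (trPair X.N (τ 2 3)) (fun σ => |X.ov (σ 0) (σ 1) - X.zS (τ 2 3)|)
      ≤ X.bC (τ 2 3) * Real.sqrt (X.zD2 (τ 2 3)) := mul_le_mul_of_nonneg_left hj hb0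
    _ ≤ M0 * Real.sqrt (X.zD2 (τ 2 3)) := mul_le_mul_of_nonneg_right hb1 (Real.sqrt_nonneg _)

/-- **E5 = EXIT (D11.e).**  TEX[LL:prop:statistics-size-accuracy] l.1209-1220. -/
theorem l8z_e_main (X : JtCtx S) {ms : ℕ → ℝ} (hX : X.Law ms) (hmsk : ∀ u, X.msk u = 1) {M0 C E : ℝ} (hC : 0 ≤ C)
    (hb : ∀ u, u ≤ X.N → 0 ≤ X.bC u ∧ X.bC u ≤ M0) (hK : ∀ u, u ≤ X.N → X.KC u = X.hC u + X.bC u * X.zS u)
    {t : ℕ} (ht : t ≤ X.N) (hA7 : X.A7 2 (trPair X.N t) (fun _ => 1) 0 1 1 C E) :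
    |X.zS t - X.qC t| ≤ C * M0 * (20 * ms X.N * ∑ u ∈ Finset.range (X.N + 1), (ms u - trPm ms u) * Real.sqrt (X.zD2 u)
        + 70 * ms X.N ^ 2 * Real.sqrt (X.zD2 t)) + E := by
  have hτ0 := l8z_e_isTr X.N t ht
  have hM0 : 0 ≤ M0 := (hb 0 (Nat.zero_le _)).1.trans (hb 0 (Nat.zero_le _)).2
  unfold JtCtx.A7 at hA7
  rw [l8z_e_zero X hX ht] at hA7
  have h1 : X.nu 2 (trPair X.N t) (fun σ => (1 : ℝ) * X.Qs (trPair X.N t) σ 0 1) = X.zS t := by
    unfold JtCtx.zS
    congr 1
    funext σ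
    simp [JtCtx.Qs, hmsk]
  rw [h1] at hA7
  refine hA7.trans ?_
  have hrem : X.rem 2 (trPair X.N t) (fun _ => 1) 1
      ≤ M0 * (20 * ms X.N * ∑ u ∈ Finset.range (X.N + 1), (ms u - trPm ms u) * Real.sqrt (X.zD2 u)
        + 70 * ms X.N ^ 2 * Real.sqrt (X.zD2 t)) := by
    unfold JtCtx.rem
    rw [hX.absK]
    have hmono := tr_absK_mono (ms := ms) hτ0 2
      (fun τ => X.off 2 1 τ * X.nu (2 + 2 * 1) τ fun σ => |(1 : ℝ)| * |X.Jprod 2 1 τ σ|)
      (fun τ => (if τ 2 3 ≤ X.N then (1 : ℝ) else 0) * (fun u => M0 * Real.sqrt (X.zD2 u)) (τ 2 3)) (by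
        intro τ' hτ'
        have hoff : X.off 2 1 τ' = if τ' 2 3 ≤ X.N then (1 : ℝ) else 0 := by
          simp [JtCtx.off, jtC, jtD]
        simp only [hoff]
        by_cases h23 : τ' 2 3 ≤ X.N
        · rw [if_pos h23, one_mul, one_mul]
          exact l8z_e_J X hX hmsk hb hK hτ' h23
        · rw [if_neg h23, zero_mul, zero_mul])
    refine hmono.trans ((l8z_e_alloc hX.isMs ht (fun u => M0 * Real.sqrt (X.zD2 u))
      (fun u => mul_nonneg hM0 (Real.sqrt_nonneg _))).trans (le_of_eq ?_))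
    have : ∀ u, (ms u - trPm ms u) * (M0 * Real.sqrt (X.zD2 u)) = M0 * ((ms u - trPm ms u) * Real.sqrt (X.zD2 u)) := by
      intro u; ring
    simp only [this, ← Finset.mul_sum]
    ring
  have := mul_le_mul_of_nonneg_left hrem hC
  linarith [this]

/-! ## E6. the SK instance -/

/-- `K_S = h + b S` at the cut `u` -/
noncomputable def l8zKS (n : ℕ) (a : ℝ) (P : SkStp) (u : ℕ) : ℝ := skCumH P u + skCumB P u * obS n a P 0 u

/-- the fine path with the matrix part `P` and the scalar reference `K_S` -/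
noncomputable def l8zRef (n : ℕ) (a : ℝ) (P : SkStp) : LlStp :=
  P.mapIdx fun l e => ⟨e.m, e.db, e.dh, l8zKS n a P (l + 1) - l8zKS n a P l⟩

/-- the scalar profile of `K_S` -/
noncomputable def l8zPi (n : ℕ) (a : ℝ) (P : SkStp) : List (ℝ × ℝ) := slkPi (llSc (l8zRef n a P))

theorem l8z_e_ref_len (n : ℕ) (a : ℝ) (P : SkStp) : (l8zRef n a P).length = P.length := by
  simp [l8zRef]

theorem l8z_e_ref_mat (n : ℕ) (a : ℝ) (P : SkStp) : llMat (l8zRef n a P) = P := by
  apply List.ext_getElem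
  · simp [llMat, l8zRef]
  · intro i h1 h2
    simp [llMat, l8zRef]

theorem l8z_e_cumK (n : ℕ) (a : ℝ) (P : SkStp) {u : ℕ} (hu : u ≤ P.length) : llCumK (l8zRef n a P) u = l8zKS n a P u := by
  induction u with
  | zero => simp [llCumK, l8zKS, skCumH, skCumB]
  | succ u ih =>
    have hu' : u < ((l8zRef n a P).map LlInc.dK).length := by simp [l8zRef]; omega
    have h := List.sum_take_succ ((l8zRef n a P).map LlInc.dK) u hu'
    have ih' := ih (by omega)
    unfold llCumK at ih' ⊢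
    rw [List.map_take] at ih' ⊢
    rw [h, ih']
    simp [l8zRef]

theorem l8z_e_cum_top (L : List ℝ) {t : ℕ} (ht : L.length ≤ t) : (L.take t).sum = (L.take L.length).sum := by
  rw [List.take_of_length_le ht, List.take_length]

theorem l8z_e_cumB_mono {a : ℝ} {P : SkStp} (hP : SkAdm a P) {j k : ℕ} (h : j ≤ k) : skCumB P j ≤ skCumB P k := by
  induction k, h using Nat.le_induction with
  | base => exact le_rfl
  | succ k hk ih =>
    refine ih.trans ?_
    unfold skCumB
    by_cases hkl : k < P.length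
    · have hk' : k < (P.map SkInc.db).length := by simpa using hkl
      have h := List.sum_take_succ (P.map SkInc.db) k hk'
      rw [List.map_take, List.map_take, h]
      have : 0 ≤ (P.map SkInc.db)[k] := by
        simp only [List.getElem_map]
        exact (hP.2 _ (List.getElem_mem hkl)).2.2.1
      linarith
    · rw [List.take_of_length_le (by omega), List.take_of_length_le (by omega)]

theorem l8z_e_cumH_mono {a : ℝ} {P : SkStp} (hP : SkAdm a P) {j k : ℕ} (h : j ≤ k) : skCumH P j ≤ skCumH P k := by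
  induction k, h using Nat.le_induction with
  | base => exact le_rfl
  | succ k hk ih =>
    refine ih.trans ?_
    unfold skCumH
    by_cases hkl : k < P.length
    · have hk' : k < (P.map SkInc.dh).length := by simpa using hkl
      have h := List.sum_take_succ (P.map SkInc.dh) k hk'
      rw [List.map_take, List.map_take, h]
      have : 0 ≤ (P.map SkInc.dh)[k] := by
        simp only [List.getElem_map]
        exact (hP.2 _ (List.getElem_mem hkl)).2.2.2
      linarith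
    · rw [List.take_of_length_le (by omega), List.take_of_length_le (by omega)]

theorem l8z_e_KS_mono {n : ℕ} (hn : 0 < n) {a : ℝ} (ha : 0 < a) {P : SkStp} (hP : SkAdm a P) {j k : ℕ} (h : j ≤ k) :
    l8zKS n a P j ≤ l8zKS n a P k := by
  unfold l8zKS
  have h1 := l8z_e_cumH_mono hP h
  have h2 := l8z_e_cumB_mono hP h
  have h3 := fd_S_mono hn ha P hP 0 h
  have h4 := (fd_S_range hn ha P hP 0 j).1
  have h5 : 0 ≤ skCumB P k := ll2_law_cumB_nonneg hP k
  nlinarith [mul_le_mul h2 h3 h4 h5]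

theorem l8z_e_ref_adm {n : ℕ} (hn : 0 < n) {a : ℝ} (ha : 0 < a) {P : SkStp} (hP : SkAdm a P) : LlStpAdm a (l8zRef n a P) := by
  refine ⟨by rw [l8z_e_ref_mat]; exact hP, ?_, ?_⟩
  · have e : (llSc (l8zRef n a P)).map SkInc.m = P.map SkInc.m := by
      apply List.ext_getElem
      · simp [llSc, l8zRef]
      · intro i h1 h2
        simp [llSc, l8zRef]
    have h1 : (P.map SkInc.m).Pairwise (· ≤ ·) := (List.pairwise_map).2 hP.1
    rw [← e] at h1
    exact (List.pairwise_map).1 h1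
  · intro e he
    obtain ⟨i, hi, rfl⟩ := List.getElem_of_mem he
    have hi' : i < P.length := by simpa [llSc, l8zRef] using hi
    have hh := hP.2 _ (List.getElem_mem hi')
    simp only [llSc, l8zRef, List.getElem_map, List.getElem_mapIdx]
    exact ⟨hh.1, hh.2.1, le_rfl, sub_nonneg.mpr (l8z_e_KS_mono hn ha hP (Nat.le_succ i))⟩


theorem l8z_e_ref_bd {n : ℕ} (hn : 0 < n) {a : ℝ} (ha : 0 < a) {P : SkStp} (hP : SkAdm a P) {M0 : ℝ} (hb : ∀ t, skCumB P t ≤ M0) :
    LlBd M0 (l8zRef n a P) := by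
  intro t
  rw [l8z_e_ref_mat]
  refine ⟨hb t, ?_⟩
  have key : ∀ u, u ≤ P.length → |skCumH P u - llCumK (l8zRef n a P) u| ≤ M0 := by
    intro u hu
    rw [l8z_e_cumK n a P hu]
    unfold l8zKS
    have h1 := fd_S_range hn ha P hP 0 u
    have h2 : 0 ≤ skCumB P u := ll2_law_cumB_nonneg hP u
    have e : skCumH P u - (skCumH P u + skCumB P u * obS n a P 0 u) = -(skCumB P u * obS n a P 0 u) := by ring
    rw [e, abs_neg, abs_of_nonneg (mul_nonneg h2 h1.1)]
    calc skCumB P u * obS n a P 0 u ≤ skCumB P u * 1 := mul_le_mul_of_nonneg_left h1.2 h2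
      _ ≤ M0 := by rw [mul_one]; exact hb u
  rcases le_total t P.length with h | h
  · exact key t h
  · have e1 : skCumH P t = skCumH P P.length := by
      unfold skCumH
      rw [List.take_of_length_le h, List.take_length]
    have e2 : llCumK (l8zRef n a P) t = llCumK (l8zRef n a P) P.length := by
      unfold llCumK
      rw [List.take_of_length_le (by rw [l8z_e_ref_len]; exact h), List.take_of_length_le (by rw [l8z_e_ref_len])]
    rw [e1, e2]
    exact key _ le_rfl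

/-- tree numbers of a pair: dictionary `trNu` / `GhTree.nu` -/
theorem l8z_e_pair_nu {n : ℕ} (a : ℝ) (P : SkStp) {N u : ℕ} (hu : u ≤ N) (T : SkCfg n → SkCfg n → ℝ) :
    trNu (skBase n a) (skLvs n P) 2 (trPair N u) 0 (fun σ => T (σ 0) (σ 1))
      = (obT2 u).nu (skBase n a) (skLvs n P) 0 (fun _ σ => T (σ 0) (σ 1)) := by
  unfold trNu GhTree.nu
  have e : (fun t => trRep 2 (trPair N u) t) = (obT2 u).rep := by
    funext t b
    rw [obt_rep]
    by_cases h : t < u
    · rw [if_pos h]; exact slk_trRep_lt hu h b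
    · rw [if_neg h]; exact slk_trRep_ge (not_lt.mp h) b
  rw [e]
  congr 1

theorem l8z_e_zS {n : ℕ} (hn : 0 < n) {a : ℝ} (ha : 0 < a) {P : SkStp} (hP : SkAdm a P) {u : ℕ} (hu : u ≤ P.length) :
    (llJs n a (l8zRef n a P) none).zS u = obS n a P 0 u := by
  unfold JtCtx.zS
  show llNu n a (l8zRef n a P) none 2 (trPair (l8zRef n a P).length u) (fun σ => skOv (σ 0) (σ 1)) = _
  unfold llNu llMv
  rw [l8z_e_ref_mat, l8z_e_ref_len, l8z_e_pair_nu a P hu (fun s t => skOv s t)]
  exact obt_S_two hn ha P hP 0 u hu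

theorem l8z_e_zD2 {n : ℕ} (hn : 0 < n) {a : ℝ} (ha : 0 < a) {P : SkStp} (hP : SkAdm a P) {u : ℕ} (hu : u ≤ P.length) :
    (llJs n a (l8zRef n a P) none).zD2 u = obD2 n a P 0 u := by
  have hS := l8z_e_zS hn ha hP hu
  have hS' : llNu n a (l8zRef n a P) none 2 (trPair (l8zRef n a P).length u) (fun σ => skOv (σ 0) (σ 1)) = obS n a P 0 u := hS
  have hB : llNu n a (l8zRef n a P) none 2 (trPair (l8zRef n a P).length u) (fun σ => skOv (σ 0) (σ 1) ^ 2) = obB n a P 0 u := by
    unfold llNu llMv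
    rw [l8z_e_ref_mat, l8z_e_ref_len, l8z_e_pair_nu a P hu (fun s t => skOv s t ^ 2)]
    exact obt_B_two hn ha P hP 0 u hu
  have hlaw := ll2_law_nu n ha (l8z_e_ref_adm hn ha hP) none
  unfold JtCtx.zD2
  rw [hS]
  show llNu n a (l8zRef n a P) none 2 (trPair (l8zRef n a P).length u) (fun σ => (skOv (σ 0) (σ 1) - obS n a P 0 u) ^ 2) = _
  have e : (fun σ : ℕ → SkCfg n => (skOv (σ 0) (σ 1) - obS n a P 0 u) ^ 2)
      = fun σ => (skOv (σ 0) (σ 1) ^ 2 - (2 * obS n a P 0 u) * skOv (σ 0) (σ 1)) + obS n a P 0 u ^ 2 := by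
    funext σ; ring
  rw [e, hlaw.add, hlaw.sub, hlaw.const_mul, hlaw.const, hB, hS']
  unfold obD2
  ring

theorem l8z_e_ms (n : ℕ) (a : ℝ) (P : SkStp) (j : ℕ) : llMs a (l8zRef n a P) j = skMs a P j := by
  unfold llMs skMs
  have e : (l8zRef n a P).map LlInc.m = P.map SkInc.m := by
    apply List.ext_getElem
    · simp [l8zRef]
    · intro i h1 h2
      simp [l8zRef]
  rw [e, List.getD_eq_getElem?_getD]

theorem l8z_e_gap (n : ℕ) (a : ℝ) (P : SkStp) (j : ℕ) :
    llMs a (l8zRef n a P) j - trPm (llMs a (l8zRef n a P)) j = skGap a P j := by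
  unfold trPm skGap
  simp only [l8z_e_ms]


/-- **(D11.e) for the SK chain.**   TEX[LL:prop:statistics-size-accuracy] l.1209-1220:  `|S_v - Γ_S(K_S(v))| ≲ D_v + ∫ D_u du + 1/m`, `Γ_S = scGam (scLC a) (l8zPi n a P)`, on EVERY admissible step path;
`C` depends on the bound `M0` of the matrix clock only. -/
theorem l8z_e_sk (M0 : ℝ) : ∃ C : ℝ, 0 ≤ C ∧ ∀ (n : ℕ) (a : ℝ) (P : SkStp), 0 < n → 0 < a → a ≤ 4 → SkAdm a P → (∀ t, skCumB P t ≤ M0) → ∀ t, t ≤ P.length →
    |obS n a P 0 t - scGam (scLC a) (l8zPi n a P) (l8zKS n a P t)|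
      ≤ C * (Real.sqrt (obD2 n a P 0 t) + ∑ u ∈ Finset.range (P.length + 1), skGap a P u * Real.sqrt (obD2 n a P 0 u) + 1 / n) := by
  obtain ⟨C0, hC0⟩ := exit_a7_masked 2 1 M0
  set C1 : ℝ := max C0 0 with hC1
  have hC10 : 0 ≤ C1 := le_max_right _ _
  refine ⟨C1 * |M0| * 1120 + C1, by positivity, ?_⟩
  intro n a P hn ha ha4 hP hb t ht
  set R := l8zRef n a P with hR
  have hadm : LlStpAdm a R := l8z_e_ref_adm hn ha hP
  have hlen : R.length = P.length := l8z_e_ref_len n a P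
  have hX := ll2_law_js n ha hadm none
  have hτ : IsTr R.length 2 (trPair R.length t) := l8z_e_isTr _ _ (by rw [hlen]; exact ht)
  have hp : LlOvBd 2 (fun _ => (1 : ℝ)) 1 0 := by
    refine ⟨fun _ _ _ => rfl, fun _ _ => by simp, fun _ _ δ _ _ _ => by simp⟩
  have hA := hC0 n a R none (trPair R.length t) (fun _ => 1) 1 0 0 1 hn ha ha4 hadm trivial (l8z_e_ref_bd hn ha hP hb) hτ hp
    (by norm_num) (by norm_num) (by norm_num) (by norm_num)
  have hA' : (llJs n a R none).A7 2 (trPair (llJs n a R none).N t) (fun _ => 1) 0 1 1 C1 (C1 * (1 + 0) / n) := by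
    unfold JtCtx.A7 at hA ⊢
    refine hA.trans (add_le_add (mul_le_mul_of_nonneg_right (le_max_left _ _) (l2af_rem_nonneg hX _ _ _ _)) ?_)
    exact div_le_div_of_nonneg_right (mul_le_mul_of_nonneg_right (le_max_left _ _) (by norm_num)) (Nat.cast_nonneg n)
  have hbC : ∀ u, u ≤ (llJs n a R none).N → 0 ≤ (llJs n a R none).bC u ∧ (llJs n a R none).bC u ≤ |M0| := by
    intro u _
    show 0 ≤ skCumB (llMat R) u ∧ skCumB (llMat R) u ≤ |M0|
    rw [hR, l8z_e_ref_mat]
    exact ⟨ll2_law_cumB_nonneg hP u, (hb u).trans (le_abs_self _)⟩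
  have hK : ∀ u, u ≤ (llJs n a R none).N → (llJs n a R none).KC u = (llJs n a R none).hC u + (llJs n a R none).bC u * (llJs n a R none).zS u := by
    intro u hu
    have hu' : u ≤ P.length := by rw [← hlen]; exact hu
    rw [hR, l8z_e_zS hn ha hP hu']
    show llCumK (l8zRef n a P) u = skCumH (llMat (l8zRef n a P)) u + skCumB (llMat (l8zRef n a P)) u * _
    rw [l8z_e_cumK n a P hu', l8z_e_ref_mat]
    rfl
  have hmain := l8z_e_main (llJs n a R none) hX (fun _ => rfl) hC10 hbC hK (t := t) (by show t ≤ R.length; rw [hlen]; exact ht) hA'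
  -- dictionary
  have hN : (llJs n a R none).N = P.length := hlen
  have hq : (llJs n a R none).qC t = scGam (scLC a) (l8zPi n a P) (l8zKS n a P t) := by
    show llQs a R t = _
    rw [slk_llQs ha.ne' (fun e he => ?_) (by rw [hlen]; exact ht), hR, l8z_e_cumK n a P ht]
    · rfl
    · have := hadm.2.2 ⟨e.m, 0, e.dK⟩ (List.mem_map.2 ⟨e, he, rfl⟩)
      exact this.2.2.2
  rw [hq, hN, hR, l8z_e_zS hn ha hP ht, l8z_e_zD2 hn ha hP ht] at hmain
  have hsum : ∑ u ∈ Finset.range (P.length + 1), (llMs a (l8zRef n a P) u - trPm (llMs a (l8zRef n a P)) u) * Real.sqrt ((llJs n a (l8zRef n a P) none).zD2 u)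
      = ∑ u ∈ Finset.range (P.length + 1), skGap a P u * Real.sqrt (obD2 n a P 0 u) := by
    refine Finset.sum_congr rfl fun u hu => ?_
    rw [Finset.mem_range] at hu
    rw [l8z_e_gap, l8z_e_zD2 hn ha hP (by omega)]
  rw [hsum] at hmain
  have hmsN : llMs a (l8zRef n a P) P.length = a := by
    rw [l8z_e_ms]
    unfold skMs
    rw [List.getD_eq_default _ _ (by simp)]
  rw [hmsN] at hmain
  refine hmain.trans ?_
  set G : ℝ := ∑ u ∈ Finset.range (P.length + 1), skGap a P u * Real.sqrt (obD2 n a P 0 u) with hG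
  have hG0 : 0 ≤ G := by
    rw [← hsum]
    refine Finset.sum_nonneg fun u hu => ?_
    rw [Finset.mem_range] at hu
    refine mul_nonneg (sub_nonneg.mpr (tra2_pm_le hX.isMs (by rw [hN]; omega))) (Real.sqrt_nonneg _)
  set D : ℝ := Real.sqrt (obD2 n a P 0 t) with hD
  have hD0 : 0 ≤ D := Real.sqrt_nonneg _
  have hn0 : (0 : ℝ) ≤ 1 / n := by positivity
  have hM : 0 ≤ C1 * |M0| := by positivity
  have h1 : 20 * a * G + 70 * a ^ 2 * D ≤ 1120 * (D + G) := by
    have : a ^ 2 ≤ 16 := by nlinarith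
    nlinarith [mul_nonneg hG0 (sub_nonneg.mpr ha4), mul_nonneg hD0 (sub_nonneg.mpr this)]
  have h2 := mul_le_mul_of_nonneg_left h1 hM
  have e3 : C1 * (1 + 0) / (n : ℝ) = C1 * (1 / n) := by ring
  rw [e3]
  nlinarith [mul_nonneg hC10 hD0, mul_nonneg hC10 hG0, mul_nonneg hM hn0]


/-- **(D11.e) in the vocabulary of `L08/Defs`** (untilted statistics of an instance) -/
theorem l8z_cav1 (M0 : ℝ) : ∃ C : ℝ, 0 ≤ C ∧ ∀ I : L8In, 0 < I.m → 0 < I.a → I.a ≤ 4 → SkAdm I.a I.P0 → (∀ t, I.bC t ≤ M0) → ∀ t, t ≤ I.n →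
    |I.S t - scGam (scLC I.a) (l8zPi I.m I.a I.P0) (I.hC t + I.bC t * I.S t)|
      ≤ C * (Real.sqrt (I.D2 t) + ∑ u ∈ Finset.range (I.n + 1), I.dv u * Real.sqrt (I.D2 u) + 1 / I.m) := by
  obtain ⟨C, hC, h⟩ := l8z_e_sk M0
  refine ⟨C, hC, fun I hm ha ha4 hP hb t ht => ?_⟩
  have hlen : I.P0.length = I.n := by simp [L8In.P0, L8In.n, llMat]
  have := h I.m I.a I.P0 hm ha ha4 hP hb t (by rw [hlen]; exact ht)
  rw [hlen] at this
  exact this

end Claimed.Agent.R286
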