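import Claimed.Agent.R286.L08.L12AP

/-!
# Row 286 (S0533), folder L08, unit SA, file SAf : FROM INTEGRATED MEANS TO POINTWISE MEANS (D11.f)      (architect + owner helper171, head of SA helper163; prefix `l8z_f_`)

TEX[LL:prop:statistics-size-accuracy] 08-statistics.tex l.1209-1242, the DETERMINISTIC chain, PURE, on the FINE level: sequences indexed by the cuts `k` of a finite chain.
`τ k` = scalar time `t = K(v)` revealed before the cut `k` (weight of the cut `k` in `∫ .. dt` = `τ (k+1) - τ k`), `S k`, `q k = Γ (τ k)`, `bb k = b` at the cut, `f = S - q`.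
Model inputs (hypotheses here; owners 163 / L12B / 93): (D11.e) `|S k - GS k| ≤ Ce (D k + ID + im)`, (D11.d) `|GS k - Γ (KS k)| ≤ St`, `KS k = τ k + bb k f k + dd k`, (D12), (P5).

* F1 `l8z_f_res`      the residual integral `∑ dt |S - Γ(t + b f)|`                                  (l.1221)
* F2 `l8z_f_div1`, `l8z_f_div`   secant identity + gap (P5): `∑ dt |f| ≤ A / g`                       (l.1221-1234)
* F3 `l8z_f_persist`  monotone versus Lipschitz on a chain: an integral bound forces a pointwise bound (l.1236-1241)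
* F4 `l8z_f_low`      below the cutoff                                                                (l.1241-1242)
* F5 `l8z_f_sup`      EXIT: `sup_k |S k - q k|`
* Z4 `l8z_f_Z4a` (ONE chain, hypotheses = fields of `L8In.ZGeo` + (D12), (D14), freezing, (D11.e), (D11.d)+link; cuts `k0, kc, kF` constructed; `l8z_f_ID` free insertion; `l8zGe` continuation of `Γ` to `t < 0`),
     `l8z_f_Z4b` (numerics in `y = x^(1/40000)`; kit `l8z_n_small`, `l8z_n_large`, `l8z_n_My`, `l8z_n_y`, `l8z_n_yx`: REUSABLE for every `K M^j x^s ≤ 1`)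
ALL PROVED (0 sorry).
-/

set_option autoImplicit false
set_option linter.unusedVariables false

namespace Claimed.Agent.R286

open MeasureTheory Set Finset

theorem l8z_f_tele (τ : ℕ → ℝ) {k l : ℕ} (hkl : k ≤ l) : ∑ j ∈ Ico k l, (τ (j + 1) - τ j) = τ l - τ k := by
  induction l, hkl using Nat.le_induction with
  | base => simp
  | succ l hl ih => rw [Finset.sum_Ico_succ_top hl, ih]; ring

/-- **F2, one cut.**  `l12_secant_pf`. -/
theorem l8z_f_div1 (Γ Γ' : ℝ → ℝ) (hΓ : ∀ y, HasDerivAt Γ (Γ' y) y) (hc : Continuous Γ') (t b S g : ℝ)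
    (hgap : g ≤ ∫ y in (0 : ℝ)..1, (1 - b * Γ' (t + y * (b * (S - Γ t))))) (hg : 0 ≤ g) :
    g * |S - Γ t| ≤ |S - Γ (t + b * (S - Γ t))| := by
  have h := l12_secant_pf Γ Γ' t b (S - Γ t) hΓ hc
  have h1 : S - Γ (t + b * (S - Γ t)) = (S - Γ t) * ∫ y in (0 : ℝ)..1, (1 - b * Γ' (t + y * (b * (S - Γ t)))) := by
    rw [← h]; ring
  rw [h1, abs_mul, mul_comm]
  exact mul_le_mul_of_nonneg_left (hgap.trans (le_abs_self _)) (abs_nonneg _)

/-- **F2.**  TEX[LL:prop:statistics-size-accuracy] l.1221-1234; `g = c λ v²` at the lower end of the region ((P5) with `z = S k`). -/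
theorem l8z_f_div (Γ Γ' : ℝ → ℝ) (hΓ : ∀ y, HasDerivAt Γ (Γ' y) y) (hc : Continuous Γ') {τ S bb : ℕ → ℝ} (hτ : Monotone τ) {g A : ℝ} (hg : 0 < g) {k0 k1 : ℕ}
    (hgap : ∀ k, k0 ≤ k → k < k1 → g ≤ ∫ y in (0 : ℝ)..1, (1 - bb k * Γ' (τ k + y * (bb k * (S k - Γ (τ k))))))
    (hA : ∑ k ∈ Ico k0 k1, (τ (k + 1) - τ k) * |S k - Γ (τ k + bb k * (S k - Γ (τ k)))| ≤ A) :
    ∑ k ∈ Ico k0 k1, (τ (k + 1) - τ k) * |S k - Γ (τ k)| ≤ A / g := by
  rw [le_div_iff₀ hg]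
  refine le_trans ?_ hA
  rw [Finset.sum_mul]
  refine Finset.sum_le_sum fun k hk => ?_
  rw [Finset.mem_Ico] at hk
  have h1 := l8z_f_div1 Γ Γ' hΓ hc (τ k) (bb k) (S k) g (hgap k hk.1 hk.2) hg.le
  have h2 : 0 ≤ τ (k + 1) - τ k := sub_nonneg.mpr (hτ (Nat.le_succ k))
  calc (τ (k + 1) - τ k) * |S k - Γ (τ k)| * g = (τ (k + 1) - τ k) * (g * |S k - Γ (τ k)|) := by ring
    _ ≤ _ := mul_le_mul_of_nonneg_left h1 h2

/-- **F4.**  TEX[LL:prop:statistics-size-accuracy] l.1241-1242. -/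
theorem l8z_f_low {S q : ℕ → ℝ} (hS : Monotone S) (hq : Monotone q) (hS0 : ∀ k, 0 ≤ S k) (hq0 : ∀ k, 0 ≤ q k) {kc k : ℕ} (hk : k ≤ kc) {d : ℝ}
    (hc : |S kc - q kc| ≤ d) : |S k - q k| ≤ q kc + d := by
  have h1 := hS hk
  have h2 := hq hk
  have h3 := abs_le.mp hc
  have h4 := hS0 k
  have h5 := hq0 k
  rw [abs_le]
  constructor <;> linarith [h3.1, h3.2]

/-- **F3.**  TEX[LL:prop:statistics-size-accuracy] l.1236-1241.   Positive deviation: later cuts, `∑ dt_l |f l| ≥ (d/2) ∑ (min (τ (l+1)) c - min (τ l) c)`, `c = τ k + d/(2 Lg)`;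
negative deviation: earlier cuts, `max · c`, `c = τ k - d/(2 Lg) + mesh`. -/
theorem l8z_f_persist {τ S q : ℕ → ℝ} (hτ : Monotone τ) (hS : Monotone S) {Lg mesh I d : ℝ} (hLg : 0 < Lg) (hd : 0 < d) {k0 k1 k : ℕ}
    (hq : ∀ l l', k0 ≤ l → l ≤ l' → l' ≤ k1 → |q l' - q l| ≤ Lg * (τ l' - τ l))
    (hfine : ∀ l, k0 ≤ l → l < k1 → τ (l + 1) - τ l ≤ mesh)
    (hI : ∑ l ∈ Ico k0 k1, (τ (l + 1) - τ l) * |S l - q l| ≤ I)
    (hk0 : k0 ≤ k) (hk1 : k ≤ k1) (hL : τ k0 + d / (2 * Lg) ≤ τ k) (hR : τ k + d / (2 * Lg) ≤ τ k1)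
    (hId : I < d / 2 * (d / (2 * Lg) - mesh)) :
    |S k - q k| < d := by
  by_contra hcon
  rw [not_lt] at hcon
  set w : ℝ := d / (2 * Lg) with hw
  have hw0 : 0 < w := by positivity
  have hLw : Lg * w = d / 2 := by rw [hw]; field_simp
  have hnn : ∀ l, 0 ≤ (τ (l + 1) - τ l) * |S l - q l| := fun l =>
    mul_nonneg (sub_nonneg.mpr (hτ (Nat.le_succ l))) (abs_nonneg _)
  have hmesh : 0 ≤ mesh ∨ k0 = k1 := by
    rcases Nat.eq_or_lt_of_le (hk0.trans hk1) with h | h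
    · exact Or.inr h
    · exact Or.inl (le_trans (sub_nonneg.mpr (hτ (Nat.le_succ k0))) (hfine k0 le_rfl h))
  have hmesh0 : 0 ≤ mesh := by
    rcases hmesh with h | h
    · exact h
    · exfalso
      have : k = k0 := by omega
      subst this
      linarith
  rcases le_abs'.mp hcon with hneg | hpos
  · -- negative deviation : earlier cuts
    set c : ℝ := τ k - w + mesh with hc
    have hsub : ∑ l ∈ Ico k0 k, (τ (l + 1) - τ l) * |S l - q l| ≤ ∑ l ∈ Ico k0 k1, (τ (l + 1) - τ l) * |S l - q l| :=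
      Finset.sum_le_sum_of_subset_of_nonneg (Finset.Ico_subset_Ico le_rfl hk1) (fun l _ _ => hnn l)
    have hterm : ∀ l ∈ Finset.Ico k0 k, d / 2 * ((fun j => max (τ j) c) (l + 1) - (fun j => max (τ j) c) l) ≤ (τ (l + 1) - τ l) * |S l - q l| := by
      intro l hl
      rw [Finset.mem_Ico] at hl
      have hl1 : l < k1 := lt_of_lt_of_le hl.2 hk1
      have hmono : τ l ≤ τ (l + 1) := hτ (Nat.le_succ l)
      simp only
      by_cases hcase : τ k - w ≤ τ l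
      · have hq1 := abs_le.mp (hq l k hl.1 hl.2.le hk1)
        have hS1 := hS hl.2.le
        have hLg' : Lg * (τ k - τ l) ≤ d / 2 := by
          rw [← hLw]; exact mul_le_mul_of_nonneg_left (by linarith) hLg.le
        have hf : d / 2 ≤ |S l - q l| := by
          rw [le_abs']; left; linarith [hq1.1, hq1.2]
        have hmx : max (τ (l + 1)) c - max (τ l) c ≤ τ (l + 1) - τ l := by
          rcases le_total (τ (l + 1)) c with h1 | h1
          · rw [max_eq_right h1, max_eq_right (hmono.trans h1)]; linarith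
          · rw [max_eq_left h1]; linarith [le_max_left (τ l) c]
        have hmx0 : 0 ≤ max (τ (l + 1)) c - max (τ l) c := sub_nonneg.mpr (max_le_max_right c hmono)
        calc d / 2 * (max (τ (l + 1)) c - max (τ l) c) ≤ |S l - q l| * (τ (l + 1) - τ l) :=
              mul_le_mul hf hmx hmx0 (abs_nonneg _)
          _ = _ := by ring
      · rw [not_le] at hcase
        have h1 : τ (l + 1) ≤ c := by have := hfine l hl.1 hl1; rw [hc]; linarith
        rw [max_eq_right h1, max_eq_right (hmono.trans h1)]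
        simpa using hnn l
    have hsum := Finset.sum_le_sum hterm
    rw [← Finset.mul_sum, l8z_f_tele (fun j => max (τ j) c) hk0] at hsum
    have h0c : max (τ k0) c = c := max_eq_right (by rw [hc]; linarith)
    have hkc : τ k - c ≤ max (τ k) c - c := by linarith [le_max_left (τ k) c]
    rw [h0c] at hsum
    have : d / 2 * (w - mesh) ≤ d / 2 * (max (τ k) c - c) :=
      mul_le_mul_of_nonneg_left (by rw [hc] at hkc ⊢; linarith) (by positivity)
    linarith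
  · -- positive deviation : later cuts
    set c : ℝ := τ k + w with hc
    have hsub : ∑ l ∈ Ico k k1, (τ (l + 1) - τ l) * |S l - q l| ≤ ∑ l ∈ Ico k0 k1, (τ (l + 1) - τ l) * |S l - q l| :=
      Finset.sum_le_sum_of_subset_of_nonneg (Finset.Ico_subset_Ico hk0 le_rfl) (fun l _ _ => hnn l)
    have hterm : ∀ l ∈ Finset.Ico k k1, d / 2 * ((fun j => min (τ j) c) (l + 1) - (fun j => min (τ j) c) l) ≤ (τ (l + 1) - τ l) * |S l - q l| := by
      intro l hl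
      rw [Finset.mem_Ico] at hl
      have hmono : τ l ≤ τ (l + 1) := hτ (Nat.le_succ l)
      simp only
      by_cases hcase : τ l ≤ c
      · have hq1 := abs_le.mp (hq k l hk0 hl.1 hl.2.le)
        have hS1 := hS hl.1
        have hLg' : Lg * (τ l - τ k) ≤ d / 2 := by
          rw [← hLw]; exact mul_le_mul_of_nonneg_left (by rw [hc] at hcase; linarith) hLg.le
        have hf : d / 2 ≤ |S l - q l| := by
          rw [le_abs']; right; linarith [hq1.1, hq1.2]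
        have hmx : min (τ (l + 1)) c - min (τ l) c ≤ τ (l + 1) - τ l := by
          rw [min_eq_left hcase]; linarith [min_le_left (τ (l + 1)) c]
        have hmx0 : 0 ≤ min (τ (l + 1)) c - min (τ l) c := sub_nonneg.mpr (min_le_min_right c hmono)
        calc d / 2 * (min (τ (l + 1)) c - min (τ l) c) ≤ |S l - q l| * (τ (l + 1) - τ l) :=
              mul_le_mul hf hmx hmx0 (abs_nonneg _)
          _ = _ := by ring
      · rw [not_le] at hcase
        rw [min_eq_right hcase.le, min_eq_right (hcase.le.trans hmono)]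
        simpa using hnn l
    have hsum := Finset.sum_le_sum hterm
    rw [← Finset.mul_sum, l8z_f_tele (fun j => min (τ j) c) hk1] at hsum
    have h1c : min (τ k1) c = c := min_eq_right (by rw [hc]; exact hR)
    have hkc : min (τ k) c = τ k := min_eq_left (by rw [hc]; linarith)
    rw [h1c, hkc] at hsum
    have : d / 2 * (w - mesh) ≤ d / 2 * (c - τ k) :=
      mul_le_mul_of_nonneg_left (by rw [hc]; linarith) (by positivity)
    linarith


/-- **F1.**  TEX[LL:prop:statistics-size-accuracy] l.1209-1221.   v2: the Lipschitz bound of `Γ` is asked only at the pairs used. -/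
theorem l8z_f_res (Γ : ℝ → ℝ) {τ S q bb dd D GS KS : ℕ → ℝ} (hτ : Monotone τ) {LΓ Ce ID im St dmax E12 : ℝ} (hLΓ : 0 ≤ LΓ) (hCe : 0 ≤ Ce) (hE : 0 ≤ E12)
    {k0 k1 : ℕ} (hk : k0 ≤ k1) (hΓ : ∀ k, k0 ≤ k → k < k1 → |Γ (KS k) - Γ (τ k + bb k * (S k - q k))| ≤ LΓ * |KS k - (τ k + bb k * (S k - q k))|)
    (hD0 : ∀ k, k0 ≤ k → k < k1 → 0 ≤ D k)
    (he : ∀ k, k0 ≤ k → k < k1 → |S k - GS k| ≤ Ce * (D k + ID + im))
    (hd : ∀ k, k0 ≤ k → k < k1 → |GS k - Γ (KS k)| ≤ St)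
    (hKS : ∀ k, k0 ≤ k → k < k1 → KS k = τ k + bb k * (S k - q k) + dd k)
    (hdd : ∀ k, k0 ≤ k → k < k1 → |dd k| ≤ dmax)
    (h12 : ∑ k ∈ Ico k0 k1, (τ (k + 1) - τ k) * D k ^ 2 ≤ E12) :
    ∑ k ∈ Ico k0 k1, (τ (k + 1) - τ k) * |S k - Γ (τ k + bb k * (S k - q k))|
      ≤ Ce * (Real.sqrt ((τ k1 - τ k0) * E12) + (τ k1 - τ k0) * (ID + im)) + (τ k1 - τ k0) * (St + LΓ * dmax) := by
  have hdt : ∀ k, 0 ≤ τ (k + 1) - τ k := fun k => sub_nonneg.mpr (hτ (Nat.le_succ k))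
  have hT : 0 ≤ τ k1 - τ k0 := sub_nonneg.mpr (hτ hk)
  have hterm : ∀ k ∈ Finset.Ico k0 k1, (τ (k + 1) - τ k) * |S k - Γ (τ k + bb k * (S k - q k))|
      ≤ Ce * ((τ (k + 1) - τ k) * D k) + (τ (k + 1) - τ k) * (Ce * (ID + im) + (St + LΓ * dmax)) := by
    intro k hk'
    rw [Finset.mem_Ico] at hk'
    have h1 := he k hk'.1 hk'.2
    have h2 := hd k hk'.1 hk'.2
    have h3 : |Γ (KS k) - Γ (τ k + bb k * (S k - q k))| ≤ LΓ * dmax := by
      refine (hΓ k hk'.1 hk'.2).trans (mul_le_mul_of_nonneg_left ?_ hLΓ)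
      rw [hKS k hk'.1 hk'.2]
      have : τ k + bb k * (S k - q k) + dd k - (τ k + bb k * (S k - q k)) = dd k := by ring
      rw [this]
      exact hdd k hk'.1 hk'.2
    have h4 : |S k - Γ (τ k + bb k * (S k - q k))| ≤ Ce * (D k + ID + im) + St + LΓ * dmax := by
      have e : S k - Γ (τ k + bb k * (S k - q k)) = (S k - GS k) + (GS k - Γ (KS k)) + (Γ (KS k) - Γ (τ k + bb k * (S k - q k))) := by ring
      rw [e]
      exact (abs_add_three _ _ _).trans (by linarith)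
    calc (τ (k + 1) - τ k) * |S k - Γ (τ k + bb k * (S k - q k))| ≤ (τ (k + 1) - τ k) * (Ce * (D k + ID + im) + St + LΓ * dmax) :=
          mul_le_mul_of_nonneg_left h4 (hdt k)
      _ = _ := by ring
  refine (Finset.sum_le_sum hterm).trans ?_
  rw [Finset.sum_add_distrib, ← Finset.mul_sum, ← Finset.sum_mul, l8z_f_tele τ hk]
  have hcs : ∑ k ∈ Finset.Ico k0 k1, (τ (k + 1) - τ k) * D k ≤ Real.sqrt ((τ k1 - τ k0) * E12) := by
    apply Real.le_sqrt_of_sq_le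
    have h := Finset.sum_mul_sq_le_sq_mul_sq (Finset.Ico k0 k1) (fun k => Real.sqrt (τ (k + 1) - τ k)) (fun k => Real.sqrt (τ (k + 1) - τ k) * D k)
    have e1 : ∀ k, Real.sqrt (τ (k + 1) - τ k) * (Real.sqrt (τ (k + 1) - τ k) * D k) = (τ (k + 1) - τ k) * D k := by
      intro k; rw [← mul_assoc, Real.mul_self_sqrt (hdt k)]
    have e2 : ∀ k, Real.sqrt (τ (k + 1) - τ k) ^ 2 = τ (k + 1) - τ k := fun k => Real.sq_sqrt (hdt k)
    have e3 : ∀ k, (Real.sqrt (τ (k + 1) - τ k) * D k) ^ 2 = (τ (k + 1) - τ k) * D k ^ 2 := by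
      intro k; rw [mul_pow, e2]
    simp only [e1, e2, e3] at h
    rw [l8z_f_tele τ hk] at h
    exact h.trans (mul_le_mul_of_nonneg_left h12 hT)
  have := mul_le_mul_of_nonneg_left hcs hCe
  nlinarith [this]

/-- Chain Lipschitz bound from a bound of `Γ'` on the range of the chain. -/
theorem l8z_f_lip (Γ Γ' : ℝ → ℝ) (hΓ : ∀ y, HasDerivAt Γ (Γ' y) y) {τ : ℕ → ℝ} (hτ : Monotone τ) {Lg : ℝ} {k0 k1 : ℕ}
    (hΓL : ∀ y, τ k0 ≤ y → y ≤ τ k1 → |Γ' y| ≤ Lg) (l l' : ℕ) (h0 : k0 ≤ l) (hll : l ≤ l') (h1 : l' ≤ k1) :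
    |Γ (τ l') - Γ (τ l)| ≤ Lg * (τ l' - τ l) := by
  have := Convex.norm_image_sub_le_of_norm_hasDerivWithin_le (f := Γ) (f' := Γ') (C := Lg) (s := Set.Icc (τ k0) (τ k1)) (x := τ l) (y := τ l')
    (fun z _ => (hΓ z).hasDerivWithinAt) (fun z hz => by simpa using hΓL z hz.1 hz.2) (convex_Icc _ _)
    ⟨hτ h0, hτ (hll.trans h1)⟩ ⟨hτ (h0.trans hll), hτ h1⟩
  simpa [abs_of_nonneg (sub_nonneg.mpr (hτ hll))] using this

/-- **F5 = EXIT (D11.f).**  Region of the integral bound `[k0,k1]`; low cutoff `kc`, frozen from `kF` on.   v2 (163, 04:21Z): range, monotonicity and Lipschitz bound of `Γ` are asked ONLY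
along the chain `τ k` (the global forms are unsatisfiable for a `Γ` with `Γ 0 = 0 < Γ' 0`); `hΓL` from `l8z_f_lip`. -/
theorem l8z_f_sup (Γ Γ' : ℝ → ℝ) (hΓ : ∀ y, HasDerivAt Γ (Γ' y) y) (hc : Continuous Γ') {τ S bb : ℕ → ℝ} (hτ : Monotone τ) (hS : Monotone S)
    (hS0 : ∀ k, 0 ≤ S k) (hS1 : ∀ k, S k ≤ 1) (hΓ0 : ∀ k, 0 ≤ Γ (τ k)) (hΓ1 : ∀ k, Γ (τ k) ≤ 1) (hΓm : Monotone fun k => Γ (τ k)) {Lg mesh g A d fz : ℝ} (hLg : 0 < Lg) (hd : 0 < d) (hg : 0 < g)
    {k0 kc kF k1 : ℕ} (hΓL : ∀ l l', k0 ≤ l → l ≤ l' → l' ≤ k1 → |Γ (τ l') - Γ (τ l)| ≤ Lg * (τ l' - τ l)) (h0c : k0 ≤ kc) (hcF : kc ≤ kF) (hF1 : kF ≤ k1)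
    (hfine : ∀ l, k0 ≤ l → l < k1 → τ (l + 1) - τ l ≤ mesh)
    (hgap : ∀ k, k0 ≤ k → k < k1 → g ≤ ∫ y in (0 : ℝ)..1, (1 - bb k * Γ' (τ k + y * (bb k * (S k - Γ (τ k))))))
    (hA : ∑ k ∈ Ico k0 k1, (τ (k + 1) - τ k) * |S k - Γ (τ k + bb k * (S k - Γ (τ k)))| ≤ A)
    (hL : τ k0 + d / (2 * Lg) ≤ τ kc) (hR : τ kF + d / (2 * Lg) ≤ τ k1) (hId : A / g < d / 2 * (d / (2 * Lg) - mesh))
    (hfz : 1 - S kF ≤ fz) (hfz' : 1 - Γ (τ kF) ≤ fz) (k : ℕ) :
    |S k - Γ (τ k)| ≤ max (Γ (τ kc) + d) fz := by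
  have hI := l8z_f_div Γ Γ' hΓ hc hτ hg hgap hA
  have hint : ∀ j, kc ≤ j → j ≤ kF → |S j - Γ (τ j)| < d := by
    intro j h1 h2
    exact l8z_f_persist (q := fun j => Γ (τ j)) hτ hS hLg hd hΓL hfine hI (h0c.trans h1) (h2.trans hF1)
      (hL.trans (hτ h1)) (by have := hτ h2; linarith) hId
  rcases le_total k kc with h1 | h1
  · refine le_trans ?_ (le_max_left _ _)
    exact l8z_f_low (q := fun j => Γ (τ j)) hS hΓm hS0 hΓ0 h1 (hint kc le_rfl hcF).le
  · rcases le_total k kF with h2 | h2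
    · refine le_trans ?_ (le_max_left _ _)
      have := hint k h1 h2
      have := hΓ0 kc
      linarith
    · refine le_trans ?_ (le_max_right _ _)
      have a1 := hS h2
      have a2 : Γ (τ kF) ≤ Γ (τ k) := hΓm h2
      have a3 := hS1 k
      have a4 := hΓ1 k
      rw [abs_le]
      constructor <;> linarith

/-! ## Z4 of the wrapper `L08/SaTop.lean` (163): deterministic layer `l8z_f_Z4a`, numerical layer `l8z_f_Z4b` -/

/-- continuation of a response given on `[0,∞)` by its derivative `G1`: slope `G1 0` on the negative half line -/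
noncomputable def l8zGe (G1 : ℝ → ℝ) (y : ℝ) : ℝ := ∫ s in (0 : ℝ)..y, G1 (max s 0)

theorem l8zGe_cont {G1 : ℝ → ℝ} (hc : ContinuousOn G1 (Ici 0)) : Continuous fun s => G1 (max s 0) :=
  hc.comp_continuous (continuous_id.max continuous_const) fun s => le_max_right s 0

theorem l8zGe_hasDerivAt {G1 : ℝ → ℝ} (hc : ContinuousOn G1 (Ici 0)) (y : ℝ) : HasDerivAt (l8zGe G1) (G1 (max y 0)) y :=
  ((l8zGe_cont hc).integral_hasStrictDerivAt 0 y).hasDerivAt

theorem l8zGe_eq {G G1 : ℝ → ℝ} (h0 : G 0 = 0) (hftc : ∀ t t', 0 ≤ t → t ≤ t' → G t' - G t = ∫ s in t..t', G1 s) {y : ℝ} (hy : 0 ≤ y) :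
    l8zGe G1 y = G y := by
  have h := hftc 0 y le_rfl hy
  rw [h0, sub_zero] at h
  rw [h]
  unfold l8zGe
  refine intervalIntegral.integral_congr fun s hs => ?_
  rw [uIcc_of_le hy] at hs
  simp only [max_eq_left hs.1]

/-- mass revealed before the cut `k` -/
def l8zW (v : ℕ → ℝ) (k : ℕ) : ℝ := if k = 0 then 0 else v (k - 1)

theorem l8zW_succ (v : ℕ → ℝ) (k : ℕ) : l8zW v (k + 1) = v k := by simp [l8zW]

theorem l8zW_mono {v : ℕ → ℝ} (hvm : Monotone v) (hv0 : ∀ k, 0 ≤ v k) : Monotone (l8zW v) := by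
  refine monotone_nat_of_le_succ fun k => ?_
  rw [l8zW_succ]
  unfold l8zW
  split_ifs with h
  · exact hv0 k
  · exact hvm (Nat.sub_le k 1)

/-- `∑ dv = W b - W a` -/
theorem l8z_f_dv_tele {v dv : ℕ → ℝ} (hdv : ∀ k, dv k = v k - (if k = 0 then 0 else v (k - 1))) {a b : ℕ} (hab : a ≤ b) :
    ∑ j ∈ Finset.Ico a b, dv j = l8zW v b - l8zW v a := by
  rw [← l8z_f_tele (l8zW v) hab]
  refine Finset.sum_congr rfl fun j _ => ?_
  rw [hdv, l8zW_succ]
  rfl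

theorem l8z_f_dv_nonneg {v dv : ℕ → ℝ} (hdv : ∀ k, dv k = v k - (if k = 0 then 0 else v (k - 1))) (hvm : Monotone v) (hv0 : ∀ k, 0 ≤ v k) (k : ℕ) :
    0 ≤ dv k := by
  have := l8zW_mono hvm hv0 (Nat.le_succ k)
  rw [l8zW_succ] at this
  rw [hdv]
  exact sub_nonneg.mpr this

theorem l8z_f_dv_total {v dv : ℕ → ℝ} (hdv : ∀ k, dv k = v k - (if k = 0 then 0 else v (k - 1))) (n : ℕ) :
    ∑ j ∈ Finset.range (n + 1), dv j = v n := by
  rw [Finset.range_eq_Ico, l8z_f_dv_tele hdv (Nat.zero_le _), l8zW_succ]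
  simp [l8zW]

/-- the cells of right end `< V` have total length `≤ V` -/
theorem l8z_f_dv_low {v dv : ℕ → ℝ} (hdv : ∀ k, dv k = v k - (if k = 0 then 0 else v (k - 1))) (hvm : Monotone v) (hv0 : ∀ k, 0 ≤ v k) (n : ℕ) {V : ℝ}
    (hV : 0 ≤ V) : ∑ j ∈ (Finset.range (n + 1)).filter (fun j => v j < V), dv j ≤ V := by
  have hW := l8zW_mono hvm hv0
  rw [Finset.sum_filter]
  have hterm : ∀ j ∈ Finset.range (n + 1), (if v j < V then dv j else 0) ≤ (fun k => min (l8zW v k) V) (j + 1) - (fun k => min (l8zW v k) V) j := by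
    intro j _
    simp only
    have hm := hW (Nat.le_succ j)
    split_ifs with h
    · rw [l8zW_succ] at hm ⊢
      rw [min_eq_left h.le, min_eq_left (hm.trans h.le), hdv]
      exact le_of_eq rfl
    · exact sub_nonneg.mpr (min_le_min_right V hm)
  refine (Finset.sum_le_sum hterm).trans ?_
  rw [Finset.range_eq_Ico, l8z_f_tele (fun k => min (l8zW v k) V) (Nat.zero_le _)]
  have h0 : min (l8zW v 0) V = 0 := by simp [l8zW, hV]
  simp only [h0, sub_zero]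
  exact min_le_right _ _

/-- **the free insertion**: `∫ D_u du ≤ V + √(4 E) + 4 √(2 f)`      TEX[LL:prop:statistics-size-accuracy] l.1216-1221 -/
theorem l8z_f_ID {n : ℕ} {v dv D2 : ℕ → ℝ} (hdv : ∀ k, dv k = v k - (if k = 0 then 0 else v (k - 1))) (hvm : Monotone v) (hv0 : ∀ k, 0 ≤ v k)
    {V vM E f a : ℝ} (hV : 0 ≤ V) (hvn : v n ≤ a) (hD0 : ∀ k, 0 ≤ D2 k) (hD1 : ∀ k, D2 k ≤ 1)
    (hmid : ∑ k ∈ (Finset.range (n + 1)).filter (fun k => V ≤ v k ∧ v k ≤ vM), dv k * D2 k ≤ E)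
    (hhigh : ∀ k ≤ n, vM < v k → D2 k ≤ f) :
    ∑ u ∈ Finset.range (n + 1), dv u * Real.sqrt (D2 u) ≤ V + Real.sqrt (a * E) + a * Real.sqrt f := by
  have hdv0 := l8z_f_dv_nonneg hdv hvm hv0
  have htot := l8z_f_dv_total hdv n
  have ha : 0 ≤ a := (hv0 n).trans hvn
  -- split
  have hsplit : ∀ u ∈ Finset.range (n + 1), dv u * Real.sqrt (D2 u)
      = (if v u < V then dv u * Real.sqrt (D2 u) else 0) + (if V ≤ v u ∧ v u ≤ vM then dv u * Real.sqrt (D2 u) else 0)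
        + (if V ≤ v u ∧ vM < v u then dv u * Real.sqrt (D2 u) else 0) := by
    intro u _
    by_cases h1 : v u < V
    · have h2 : ¬ V ≤ v u := not_le.mpr h1
      simp [h1, h2]
    · have h2 : V ≤ v u := not_lt.mp h1
      by_cases h3 : v u ≤ vM
      · have h4 : ¬ vM < v u := not_lt.mpr h3
        simp [h1, h2, h3, h4]
      · have h4 : vM < v u := not_le.mp h3
        simp [h1, h2, h3, h4]
  rw [Finset.sum_congr rfl hsplit, Finset.sum_add_distrib, Finset.sum_add_distrib]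
  refine add_le_add (add_le_add ?_ ?_) ?_
  · -- low
    refine le_trans ?_ (l8z_f_dv_low hdv hvm hv0 n hV)
    rw [Finset.sum_filter]
    refine Finset.sum_le_sum fun u _ => ?_
    split_ifs
    · have : Real.sqrt (D2 u) ≤ 1 := Real.sqrt_le_one.mpr (hD1 u) |>.trans le_rfl
      calc dv u * Real.sqrt (D2 u) ≤ dv u * 1 := mul_le_mul_of_nonneg_left this (hdv0 u)
        _ = dv u := mul_one _
    · exact le_rfl
  · -- middle
    rw [← Finset.sum_filter]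
    apply Real.le_sqrt_of_sq_le
    set s := (Finset.range (n + 1)).filter (fun k => V ≤ v k ∧ v k ≤ vM) with hs
    have h := Finset.sum_mul_sq_le_sq_mul_sq s (fun k => Real.sqrt (dv k)) (fun k => Real.sqrt (dv k) * Real.sqrt (D2 k))
    have e1 : ∀ k, Real.sqrt (dv k) * (Real.sqrt (dv k) * Real.sqrt (D2 k)) = dv k * Real.sqrt (D2 k) := by
      intro k; rw [← mul_assoc, Real.mul_self_sqrt (hdv0 k)]
    have e2 : ∀ k, Real.sqrt (dv k) ^ 2 = dv k := fun k => Real.sq_sqrt (hdv0 k)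
    have e3 : ∀ k, (Real.sqrt (dv k) * Real.sqrt (D2 k)) ^ 2 = dv k * D2 k := by
      intro k; rw [mul_pow, e2, Real.sq_sqrt (hD0 k)]
    simp only [e1, e2, e3] at h
    have hs1 : ∑ k ∈ s, dv k ≤ a := by
      refine le_trans (Finset.sum_le_sum_of_subset_of_nonneg (Finset.filter_subset _ _) fun k _ _ => hdv0 k) ?_
      rw [htot]; exact hvn
    have hs0 : 0 ≤ ∑ k ∈ s, dv k * D2 k := Finset.sum_nonneg fun k _ => mul_nonneg (hdv0 k) (hD0 k)
    exact h.trans (mul_le_mul hs1 hmid hs0 ha)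
  · -- high
    have hterm : ∀ u ∈ Finset.range (n + 1), (if V ≤ v u ∧ vM < v u then dv u * Real.sqrt (D2 u) else 0) ≤ dv u * Real.sqrt f := by
      intro u hu
      rw [Finset.mem_range] at hu
      split_ifs with h
      · exact mul_le_mul_of_nonneg_left (Real.sqrt_le_sqrt (hhigh u (by omega) h.2)) (hdv0 u)
      · exact mul_nonneg (hdv0 u) (Real.sqrt_nonneg _)
    refine (Finset.sum_le_sum hterm).trans ?_
    rw [← Finset.sum_mul, htot]
    exact mul_le_mul_of_nonneg_right hvn (Real.sqrt_nonneg _)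

theorem l8zGe_lip {G1 : ℝ → ℝ} (hc : ContinuousOn G1 (Ici 0)) {C : ℝ} (hb : ∀ t, 0 ≤ t → 0 < G1 t ∧ G1 t ≤ C) (s t : ℝ) :
    |l8zGe G1 s - l8zGe G1 t| ≤ C * |s - t| := by
  have := Convex.norm_image_sub_le_of_norm_hasDerivWithin_le (f := l8zGe G1) (f' := fun y => G1 (max y 0)) (C := C) (s := Set.univ) (x := t) (y := s)
    (fun z _ => (l8zGe_hasDerivAt hc z).hasDerivWithinAt)
    (fun z _ => by
      have h := hb (max z 0) (le_max_right _ _)
      rw [Real.norm_eq_abs, abs_of_pos h.1]; exact h.2) convex_univ (Set.mem_univ _) (Set.mem_univ _)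
  simpa using this

theorem l8zGe_mono {G1 : ℝ → ℝ} (hc : ContinuousOn G1 (Ici 0)) {C : ℝ} (hb : ∀ t, 0 ≤ t → 0 < G1 t ∧ G1 t ≤ C) : Monotone (l8zGe G1) := by
  refine monotone_of_deriv_nonneg (fun y => (l8zGe_hasDerivAt hc y).differentiableAt) fun y => ?_
  rw [(l8zGe_hasDerivAt hc y).deriv]
  exact (hb (max y 0) (le_max_right _ _)).1.le

/-- the explicit bound of the residual integral -/
noncomputable def l8zAb (C Ce Cs M V E12 fx im lk dmax F14 : ℝ) : ℝ :=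
  Ce * (Real.sqrt (M * E12) + M * (V + Real.sqrt (4 * E12) + 4 * Real.sqrt (2 * fx) + im))
    + M * (Cs * (1 + (2 * M + C + dmax)) * ((C * F14 + 4 * dmax) + Real.sqrt (C * F14 + 4 * dmax)) + lk + C * dmax)

set_option maxHeartbeats 800000 in
/-- **Z4, deterministic layer.**  TEX[LL:prop:statistics-size-accuracy] l.1192-1242 on ONE chain: sequences indexed by the cuts, hypotheses = fields of the geometry record of 163 (`L8In.ZGeo`, L08/SaTop) + (D12), (D14), freezing,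
(D11.e) `hcav`, (D11.d) + link `hstab`;   the nine numerical conditions are checked in `l8z_f_Z4b`. -/
theorem l8z_f_Z4a {n : ℕ} {v dv τ hC bC S D2 GS : ℕ → ℝ} {G G1 : ℝ → ℝ}
    {c C v1 lam x M X d ε V E12 fx vM Ce Cs im lk dmax F14 : ℝ}
    (hc : 0 < c) (hCe : 0 ≤ Ce) (hCs : 0 ≤ Cs) (hlam : 0 < lam) (hX : 0 < X) (hd : 0 < d) (hε : 0 ≤ ε) (hV : 0 ≤ V) (him : 0 ≤ im)
    (hdv : ∀ k, dv k = v k - (if k = 0 then 0 else v (k - 1))) (hvm : Monotone v) (hv0 : ∀ k, 0 ≤ v k) (hvn : v n = 4)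
    (hτ : Monotone τ) (hτ0 : τ 0 = 0)
    (mesh_v : ∀ k ≤ n, dv k ≤ ε) (mesh_c : ∀ k < n, τ (k + 1) - τ k ≤ ε)
    (K_low : ∀ k < n, v k ≤ v1 → c * dv k ≤ τ (k + 1) - τ k)
    (K_tot : τ n ≤ M) (K_wall : ∀ k ≤ n, vM ≤ v k → M / 2 ≤ τ k) (hvM : vM ≤ 4)
    (frz_m : ∀ k < n, C ≤ τ k → c ≤ v k)
    (b_nn : ∀ k, 0 ≤ bC k) (b_hi : ∀ k ≤ n, bC k ≤ C) (h_nn : ∀ k, 0 ≤ hC k)
    (d_le : ∀ k ≤ n, |hC k + bC k * G (τ k) - τ k| ≤ dmax)
    (hS_nn : ∀ k ≤ n, 0 ≤ τ k - bC k * G (τ k))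
    (G_zero : G 0 = 0) (G_ftc : ∀ t t', 0 ≤ t → t ≤ t' → G t' - G t = ∫ s in t..t', G1 s) (G_cont : ContinuousOn G1 (Ici 0))
    (G_pos : ∀ t, 0 ≤ t → 0 < G1 t ∧ G1 t ≤ C) (G_le : ∀ t, 0 ≤ t → G t ≤ 1)
    (q_hi : ∀ k ≤ n, G (τ k) ≤ C * v k)
    (gap : ∀ k ≤ n, 2 * x ≤ v k → ∀ z, 0 ≤ z → c * lam * v k ^ 2 ≤ ∫ y in (0 : ℝ)..1, (1 - bC k * G1 (τ k + y * (bC k * (z - G (τ k))))))
    (hSm : Monotone S) (hS0 : ∀ k, 0 ≤ S k) (hS1 : ∀ k, S k ≤ 1)
    (hD0 : ∀ k, 0 ≤ D2 k) (hD1 : ∀ k, D2 k ≤ 1) (hDS : ∀ k, D2 k ≤ 2 * (1 - S k))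
    (h12 : (∑ k ∈ (Finset.range (n + 1)).filter (fun k => V ≤ v k ∧ v k ≤ vM), dv k * D2 k)
      + ∑ k ∈ (Finset.range n).filter (fun k => V ≤ v k), (τ (k + 1) - τ k) * D2 k ≤ E12)
    (h14 : ∑ k ∈ Finset.range (n + 1), dv k * |S k - G (τ k)| ≤ F14)
    (hfrz : ∀ k ≤ n, M / 4 ≤ τ k → 1 - S k ≤ fx ∧ 1 - G (τ k) ≤ fx)
    (hcav : ∀ t ≤ n, |S t - GS t| ≤ Ce * (Real.sqrt (D2 t) + ∑ u ∈ Finset.range (n + 1), dv u * Real.sqrt (D2 u) + im))
    (hstab : ∀ t ≤ n, |GS t - G (hC t + bC t * S t)| ≤ Cs * (1 + (τ n + (hC n + bC n * S n)))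
      * ((∑ k ∈ Finset.range (n + 1), dv k * |hC k + bC k * S k - τ k|) + Real.sqrt (∑ k ∈ Finset.range (n + 1), dv k * |hC k + bC k * S k - τ k|)) + lk)
    (hX4 : 2 * X ≤ 4) (hVX : V ≤ X) (h2x : 2 * x ≤ X) (hXc : 2 * X ≤ c) (hXv1 : 2 * X ≤ v1) (hCM : C ≤ M / 4)
    (hL' : d / (2 * C) ≤ c * (X - ε)) (hR' : M / 4 + ε + d / (2 * C) ≤ M / 2)
    (hId' : l8zAb C Ce Cs M V E12 fx im lk dmax F14 / (c * lam * X ^ 2) < d / 2 * (d / (2 * C) - ε)) (k : ℕ) :
    |S k - G (τ k)| ≤ C * (2 * X + ε) + d + fx := by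
  have hC0 : 0 < C := (G_pos 0 le_rfl).1.trans_le (G_pos 0 le_rfl).2
  have hM0 : 0 < M := by linarith
  have hτn : ∀ j, 0 ≤ τ j := fun j => by rw [← hτ0]; exact hτ (Nat.zero_le j)
  have hdv0 := l8z_f_dv_nonneg hdv hvm hv0
  have htot := l8z_f_dv_total hdv n
  have hWm := l8zW_mono hvm hv0
  have hvW : ∀ j, v j = l8zW v j + dv j := fun j => by rw [hdv]; unfold l8zW; ring
  set Γ : ℝ → ℝ := l8zGe G1 with hΓdef
  have hΓG : ∀ y, 0 ≤ y → Γ y = G y := fun y hy => l8zGe_eq G_zero G_ftc hy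
  have hΓτ : ∀ j, Γ (τ j) = G (τ j) := fun j => hΓG _ (hτn j)
  have hΓmono : Monotone Γ := l8zGe_mono G_cont G_pos
  have hΓlip := l8zGe_lip G_cont G_pos
  have hG0 : ∀ j, 0 ≤ G (τ j) := fun j => by
    have h1 := hΓmono (hτn j)
    rw [hΓG 0 le_rfl, G_zero, hΓτ] at h1
    exact h1
  -- the cuts
  have ex0 : ∃ j, X ≤ v j := ⟨n, by rw [hvn]; linarith⟩
  have exc : ∃ j, 2 * X ≤ v j := ⟨n, by rw [hvn]; exact hX4⟩
  have hτnM : M / 2 ≤ τ n := K_wall n le_rfl (by rw [hvn]; exact hvM)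
  have exF : ∃ j, M / 4 ≤ τ j := ⟨n, by linarith⟩
  classical
  set k0 := Nat.find ex0 with hk0
  set kc := Nat.find exc with hkc
  set kF := Nat.find exF with hkF
  have k0s : X ≤ v k0 := Nat.find_spec ex0
  have kcs : 2 * X ≤ v kc := Nat.find_spec exc
  have kFs : M / 4 ≤ τ kF := Nat.find_spec exF
  have k0m : ∀ j, j < k0 → v j < X := fun j hj => not_le.mp (Nat.find_min ex0 hj)
  have kcm : ∀ j, j < kc → v j < 2 * X := fun j hj => not_le.mp (Nat.find_min exc hj)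
  have kFm : ∀ j, j < kF → τ j < M / 4 := fun j hj => not_le.mp (Nat.find_min exF hj)
  have kcn : kc ≤ n := Nat.find_min' exc (by rw [hvn]; exact hX4)
  have kFn : kF ≤ n := Nat.find_min' exF (by linarith)
  have h0c : k0 ≤ kc := Nat.find_min' ex0 (by linarith)
  have hcF : kc ≤ kF := by
    by_contra hcon
    rw [not_le] at hcon
    have h1 := kcm kF hcon
    have h2 := frz_m kF (lt_of_lt_of_le hcon kcn) (hCM.trans kFs)
    linarith
  have hW0 : l8zW v k0 ≤ X := by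
    unfold l8zW
    split_ifs with h
    · exact hX.le
    · exact (k0m _ (by omega)).le
  have hWc : l8zW v kc ≤ 2 * X := by
    unfold l8zW
    split_ifs with h
    · linarith
    · exact (kcm _ (by omega)).le
  have hWc' : 2 * X - ε ≤ l8zW v kc := by
    have := hvW kc
    have := mesh_v kc kcn
    linarith
  -- room on the left
  have hL : τ k0 + d / (2 * C) ≤ τ kc := by
    have h1 : c * ∑ j ∈ Finset.Ico k0 kc, dv j ≤ ∑ j ∈ Finset.Ico k0 kc, (τ (j + 1) - τ j) := by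
      rw [Finset.mul_sum]
      refine Finset.sum_le_sum fun j hj => ?_
      rw [Finset.mem_Ico] at hj
      exact K_low j (lt_of_lt_of_le hj.2 kcn) ((kcm j hj.2).le.trans hXv1)
    rw [l8z_f_dv_tele hdv h0c, l8z_f_tele τ h0c] at h1
    have h2 : c * (X - ε) ≤ c * (l8zW v kc - l8zW v k0) := mul_le_mul_of_nonneg_left (by linarith) hc.le
    linarith
  -- room on the right
  have hkF1 : 1 ≤ kF := by
    by_contra hcon
    have : kF = 0 := by omega
    rw [this, hτ0] at kFs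
    linarith
  have hτF : τ kF ≤ M / 4 + ε := by
    have h1 := kFm (kF - 1) (by omega)
    have h2 := mesh_c (kF - 1) (by omega)
    rw [Nat.sub_add_cancel hkF1] at h2
    linarith
  have hR : τ kF + d / (2 * C) ≤ τ n := by linarith
  -- the free insertion
  have hmid0 : 0 ≤ ∑ k ∈ (Finset.range (n + 1)).filter (fun k => V ≤ v k ∧ v k ≤ vM), dv k * D2 k :=
    Finset.sum_nonneg fun j _ => mul_nonneg (hdv0 j) (hD0 j)
  have htim0 : 0 ≤ ∑ k ∈ (Finset.range n).filter (fun k => V ≤ v k), (τ (k + 1) - τ k) * D2 k :=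
    Finset.sum_nonneg fun j _ => mul_nonneg (sub_nonneg.mpr (hτ (Nat.le_succ j))) (hD0 j)
  have hE12 : 0 ≤ E12 := by linarith
  have hID := l8z_f_ID (n := n) (D2 := D2) hdv hvm hv0 (V := V) (vM := vM) (E := E12) (f := 2 * fx) (a := 4) hV hvn.le hD0 hD1 (by linarith)
    (fun j hj hjv => by
      have h1 := K_wall j hj hjv.le
      have h2 := (hfrz j hj (by linarith)).1
      have := hDS j
      linarith)
  set ID : ℝ := ∑ u ∈ Finset.range (n + 1), dv u * Real.sqrt (D2 u) with hIDdef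
  -- the distance of the clocks
  set Δ : ℝ := ∑ k ∈ Finset.range (n + 1), dv k * |hC k + bC k * S k - τ k| with hΔdef
  have hΔ0 : 0 ≤ Δ := Finset.sum_nonneg fun j _ => mul_nonneg (hdv0 j) (abs_nonneg _)
  have hdmax : 0 ≤ dmax := (abs_nonneg _).trans (d_le 0 (Nat.zero_le _))
  have hΔ : Δ ≤ C * F14 + 4 * dmax := by
    have hterm : ∀ j ∈ Finset.range (n + 1), dv j * |hC j + bC j * S j - τ j| ≤ C * (dv j * |S j - G (τ j)|) + dv j * dmax := by
      intro j hj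
      rw [Finset.mem_range] at hj
      have hj' : j ≤ n := by omega
      have e : hC j + bC j * S j - τ j = bC j * (S j - G (τ j)) + (hC j + bC j * G (τ j) - τ j) := by ring
      have h1 : |hC j + bC j * S j - τ j| ≤ C * |S j - G (τ j)| + dmax := by
        rw [e]
        refine (abs_add_le _ _).trans (add_le_add ?_ (d_le j hj'))
        rw [abs_mul, abs_of_nonneg (b_nn j)]
        exact mul_le_mul_of_nonneg_right (b_hi j hj') (abs_nonneg _)
      calc dv j * |hC j + bC j * S j - τ j| ≤ dv j * (C * |S j - G (τ j)| + dmax) := mul_le_mul_of_nonneg_left h1 (hdv0 j)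
        _ = _ := by ring
    refine (Finset.sum_le_sum hterm).trans ?_
    rw [Finset.sum_add_distrib, ← Finset.mul_sum, ← Finset.sum_mul, htot, hvn]
    have := mul_le_mul_of_nonneg_left h14 hC0.le
    linarith
  have hKSn : τ n + (hC n + bC n * S n) ≤ 2 * M + C + dmax := by
    have h1 := abs_le.mp (d_le n le_rfl)
    have h2 : bC n * (S n - G (τ n)) ≤ C := by
      have h3 : S n - G (τ n) ≤ 1 := by
        have := hG0 n
        have := hS1 n
        linarith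
      calc bC n * (S n - G (τ n)) ≤ bC n * 1 := mul_le_mul_of_nonneg_left h3 (b_nn n)
        _ ≤ C := by rw [mul_one]; exact b_hi n le_rfl
    have e : hC n + bC n * S n = τ n + bC n * (S n - G (τ n)) + (hC n + bC n * G (τ n) - τ n) := by ring
    rw [e]
    linarith [h1.2]
  set St : ℝ := Cs * (1 + (τ n + (hC n + bC n * S n))) * (Δ + Real.sqrt Δ) + lk with hStdef
  have hKS0 : 0 ≤ τ n + (hC n + bC n * S n) := add_nonneg (hτn n) (add_nonneg (h_nn n) (mul_nonneg (b_nn n) (hS0 n)))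
  have hSt : St ≤ Cs * (1 + (2 * M + C + dmax)) * ((C * F14 + 4 * dmax) + Real.sqrt (C * F14 + 4 * dmax)) + lk := by
    rw [hStdef]
    have h1 : Δ + Real.sqrt Δ ≤ (C * F14 + 4 * dmax) + Real.sqrt (C * F14 + 4 * dmax) := add_le_add hΔ (Real.sqrt_le_sqrt hΔ)
    have h2 : 0 ≤ Δ + Real.sqrt Δ := add_nonneg hΔ0 (Real.sqrt_nonneg _)
    have h3 : Cs * (1 + (τ n + (hC n + bC n * S n))) ≤ Cs * (1 + (2 * M + C + dmax)) := mul_le_mul_of_nonneg_left (by linarith) hCs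
    have := mul_le_mul h3 h1 h2 (by positivity)
    linarith
  -- F1
  have hk0n : k0 ≤ n := h0c.trans kcn
  have hvk : ∀ j, k0 ≤ j → X ≤ v j := fun j hj => k0s.trans (hvm hj)
  have hres := l8z_f_res Γ (τ := τ) (S := S) (q := fun j => Γ (τ j)) (bb := bC) (dd := fun j => hC j + bC j * G (τ j) - τ j)
    (D := fun j => Real.sqrt (D2 j)) (GS := GS) (KS := fun j => hC j + bC j * S j) hτ (LΓ := C) (Ce := Ce) (ID := ID) (im := im) (St := St)
    (dmax := dmax) (E12 := E12) hC0.le hCe hE12 (k0 := k0) (k1 := n) hk0n (fun j _ _ => hΓlip _ _) (fun j _ _ => Real.sqrt_nonneg _)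
    (fun j _ hj => hcav j hj.le)
    (fun j _ hj => by
      rw [hΓG _ (add_nonneg (h_nn j) (mul_nonneg (b_nn j) (hS0 j)))]
      exact hstab j hj.le)
    (fun j _ _ => by simp only [hΓτ]; ring) (fun j _ hj => d_le j hj.le)
    (by
      refine le_trans ?_ (show ∑ k ∈ (Finset.range n).filter (fun k => V ≤ v k), (τ (k + 1) - τ k) * D2 k ≤ E12 by linarith)
      have e : ∀ j, (τ (j + 1) - τ j) * Real.sqrt (D2 j) ^ 2 = (τ (j + 1) - τ j) * D2 j := fun j => by rw [Real.sq_sqrt (hD0 j)]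
      simp only [e]
      refine Finset.sum_le_sum_of_subset_of_nonneg ?_ fun j _ _ => mul_nonneg (sub_nonneg.mpr (hτ (Nat.le_succ j))) (hD0 j)
      intro j hj
      rw [Finset.mem_Ico] at hj
      rw [Finset.mem_filter, Finset.mem_range]
      exact ⟨hj.2, hVX.trans (hvk j hj.1)⟩)
  have hTt0 : 0 ≤ τ n - τ k0 := sub_nonneg.mpr (hτ hk0n)
  have hTt : τ n - τ k0 ≤ M := by have := hτn k0; linarith
  have hSt0 : 0 ≤ St := (abs_nonneg _).trans (hstab 0 (Nat.zero_le _))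
  have hID0 : 0 ≤ ID := Finset.sum_nonneg fun j _ => mul_nonneg (hdv0 j) (Real.sqrt_nonneg _)
  have hA : ∑ j ∈ Finset.Ico k0 n, (τ (j + 1) - τ j) * |S j - Γ (τ j + bC j * (S j - Γ (τ j)))| ≤ l8zAb C Ce Cs M V E12 fx im lk dmax F14 := by
    refine hres.trans ?_
    unfold l8zAb
    have a1 : Real.sqrt ((τ n - τ k0) * E12) ≤ Real.sqrt (M * E12) := Real.sqrt_le_sqrt (mul_le_mul_of_nonneg_right hTt hE12)
    have a2 : (τ n - τ k0) * (ID + im) ≤ M * (V + Real.sqrt (4 * E12) + 4 * Real.sqrt (2 * fx) + im) :=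
      mul_le_mul hTt (by linarith) (by linarith) hM0.le
    have a3 : (τ n - τ k0) * (St + C * dmax)
        ≤ M * (Cs * (1 + (2 * M + C + dmax)) * ((C * F14 + 4 * dmax) + Real.sqrt (C * F14 + 4 * dmax)) + lk + C * dmax) :=
      mul_le_mul hTt (by linarith) (add_nonneg hSt0 (mul_nonneg hC0.le hdmax)) hM0.le
    exact add_le_add (mul_le_mul_of_nonneg_left (add_le_add a1 a2) hCe) a3
  -- the gap
  have hg0 : 0 < c * lam * X ^ 2 := by positivity
  have hgap : ∀ j, k0 ≤ j → j < n → c * lam * X ^ 2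
      ≤ ∫ y in (0 : ℝ)..1, (1 - bC j * (fun y => G1 (max y 0)) (τ j + y * (bC j * (S j - Γ (τ j))))) := by
    intro j hj0 hjn
    have hXv := hvk j hj0
    have h1 := gap j hjn.le (h2x.trans hXv) (S j) (hS0 j)
    have h2 : c * lam * X ^ 2 ≤ c * lam * v j ^ 2 := by
      have : X ^ 2 ≤ v j ^ 2 := pow_le_pow_left₀ hX.le hXv 2
      exact mul_le_mul_of_nonneg_left this (by positivity)
    refine h2.trans (h1.trans (le_of_eq ?_))
    refine intervalIntegral.integral_congr fun y hy => ?_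
    rw [uIcc_of_le (zero_le_one' ℝ)] at hy
    simp only [hΓτ]
    have harg : 0 ≤ τ j + y * (bC j * (S j - G (τ j))) := by
      have b1 := hS_nn j hjn.le
      have b2 : 0 ≤ bC j * G (τ j) := mul_nonneg (b_nn j) (hG0 j)
      have b3 : 0 ≤ y * (bC j * S j) := mul_nonneg hy.1 (mul_nonneg (b_nn j) (hS0 j))
      have b4 : y * (bC j * G (τ j)) ≤ 1 * (bC j * G (τ j)) := mul_le_mul_of_nonneg_right hy.2 b2
      have e : τ j + y * (bC j * (S j - G (τ j))) = (τ j - bC j * G (τ j)) + y * (bC j * S j) + (1 * (bC j * G (τ j)) - y * (bC j * G (τ j))) := by ring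
      rw [e]
      linarith
    rw [max_eq_left harg]
  have hfin := l8z_f_sup Γ (fun y => G1 (max y 0)) (l8zGe_hasDerivAt G_cont) (l8zGe_cont G_cont) (τ := τ) (S := S) (bb := bC) hτ hSm hS0 hS1
    (fun j => by rw [hΓτ]; exact hG0 j) (fun j => by rw [hΓτ]; exact G_le _ (hτn j)) (fun i j hij => hΓmono (hτ hij))
    (Lg := C) (mesh := ε) (g := c * lam * X ^ 2) (A := l8zAb C Ce Cs M V E12 fx im lk dmax F14) (d := d) (fz := fx) hC0 hd hg0
    (k0 := k0) (kc := kc) (kF := kF) (k1 := n)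
    (fun l l' _ hll _ => by
      have := hΓlip (τ l') (τ l)
      rwa [abs_of_nonneg (sub_nonneg.mpr (hτ hll))] at this)
    h0c hcF kFn (fun l _ hl => mesh_c l hl) hgap hA hL hR hId' (hfrz kF kFn kFs).1 (by rw [hΓτ]; exact (hfrz kF kFn kFs).2) k
  rw [hΓτ, hΓτ] at hfin
  refine hfin.trans (max_le ?_ ?_)
  · have h1 := q_hi kc kcn
    have h2 : v kc ≤ 2 * X + ε := by
      have := hvW kc
      have := mesh_v kc kcn
      linarith
    have h3 := mul_le_mul_of_nonneg_left h2 hC0.le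
    have h4 : 0 ≤ fx := by
      have := (hfrz kF kFn kFs).1
      have := hS1 kF
      linarith
    linarith
  · have : 0 ≤ C * (2 * X + ε) := by positivity
    linarith

/-! ## numerics: powers of `y = x^(1/40000)` against powers of `M = log³ (1/x)` -/

theorem l8z_n_small (K s : ℝ) (p : ℕ) (hs : 0 < s) : ∃ x0 : ℝ, 0 < x0 ∧ ∀ x, 0 < x → x ≤ x0 → K * Real.log (1 / x) ^ p * x ^ s ≤ 1 := by
  have hr : 0 < s / (p + 1) := by positivity
  have h1 : Filter.Tendsto (fun x : ℝ => Real.log x * x ^ (s / (p + 1))) (nhdsWithin 0 (Set.Ioi 0)) (nhds 0) :=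
    tendsto_log_mul_rpow_nhdsGT_zero hr
  have h2 : Filter.Tendsto (fun x : ℝ => x ^ (s / (p + 1))) (nhdsWithin 0 (Set.Ioi 0)) (nhds 0) := by
    have := (Real.continuousAt_rpow_const 0 (s / (p + 1)) (Or.inr hr.le)).tendsto
    rw [Real.zero_rpow hr.ne'] at this
    exact this.mono_left nhdsWithin_le_nhds
  have h3 : Filter.Tendsto (fun x : ℝ => K * (-1) ^ p * ((Real.log x * x ^ (s / (p + 1))) ^ p * x ^ (s / (p + 1)))) (nhdsWithin 0 (Set.Ioi 0)) (nhds 0) := by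
    have := ((h1.pow p).mul h2).const_mul (K * (-1) ^ p)
    simpa using this
  have h4 : ∀ᶠ x in nhdsWithin (0 : ℝ) (Set.Ioi 0), K * (-1) ^ p * ((Real.log x * x ^ (s / (p + 1))) ^ p * x ^ (s / (p + 1))) ≤ 1 :=
    h3.eventually (Iic_mem_nhds one_pos)
  obtain ⟨u, hu, hsub⟩ := mem_nhdsGT_iff_exists_Ioc_subset.1 h4
  refine ⟨u, hu, fun x hx hxu => ?_⟩
  have h5 := hsub ⟨hx, hxu⟩
  simp only [Set.mem_ofPred_eq] at h5
  refine le_trans (le_of_eq ?_) h5
  have e1 : Real.log (1 / x) = -1 * Real.log x := by rw [one_div, Real.log_inv]; ring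
  have e2 : x ^ s = (x ^ (s / (p + 1))) ^ p * x ^ (s / (p + 1)) := by
    rw [← Real.rpow_natCast, ← Real.rpow_mul hx.le, ← Real.rpow_add hx]
    congr 1
    field_simp
  rw [e1, e2, mul_pow, mul_pow]
  ring

theorem l8z_n_large (K : ℝ) : ∃ x0 : ℝ, 0 < x0 ∧ ∀ x, 0 < x → x ≤ x0 → K ≤ Real.log (1 / x) ^ 3 := by
  refine ⟨Real.exp (-(max K 1)), Real.exp_pos _, fun x hx hxu => ?_⟩
  have h1 : max K 1 ≤ Real.log (1 / x) := by
    rw [one_div, Real.log_inv, le_neg]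
    have := Real.log_le_log hx hxu
    rwa [Real.log_exp] at this
  have h2 : (1 : ℝ) ≤ Real.log (1 / x) := (le_max_right _ _).trans h1
  have h3 : Real.log (1 / x) ≤ Real.log (1 / x) ^ 3 := le_self_pow₀ h2 (by norm_num)
  exact (le_max_left _ _).trans (h1.trans h3)

/-- `K M^j y^e ≤ 1` -/
theorem l8z_n_My (K : ℝ) (j e : ℕ) (he : 1 ≤ e) : ∃ x0 : ℝ, 0 < x0 ∧ ∀ x, 0 < x → x ≤ x0 →
    K * (Real.log (1 / x) ^ 3) ^ j * (x ^ (1 / 40000 : ℝ)) ^ e ≤ 1 := by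
  obtain ⟨x0, h0, h⟩ := l8z_n_small K ((1 / 40000 : ℝ) * e) (3 * j) (by positivity)
  refine ⟨x0, h0, fun x hx hxu => ?_⟩
  have := h x hx hxu
  rwa [pow_mul, Real.rpow_mul hx.le, Real.rpow_natCast] at this

/-- real powers of `x` as natural powers of `y = x^(1/40000)` -/
theorem l8z_n_y {x : ℝ} (hx : 0 ≤ x) (k : ℕ) {s : ℝ} (hs : s = (k : ℝ) / 40000) : x ^ s = (x ^ (1 / 40000 : ℝ)) ^ k := by
  rw [← Real.rpow_natCast, ← Real.rpow_mul hx, hs]
  congr 1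
  ring

theorem l8z_n_yx {x : ℝ} (hx : 0 ≤ x) : x = (x ^ (1 / 40000 : ℝ)) ^ 40000 := by
  rw [← l8z_n_y hx 40000 (s := 1) (by norm_num), Real.rpow_one]

/-- the constant of the residual integral -/
noncomputable def l8zKA (C C14 Ce Cs : ℝ) : ℝ := 14 * Ce + Cs * (3 + 2 * C) * (2 * (C * |C14| + 4 * C) + 1) + 1 + C ^ 2

theorem l8z_f_Ab_le {C C14 Ce Cs y M im : ℝ} (hC : 0 < C) (hCe : 0 ≤ Ce) (hCs : 0 ≤ Cs) (hy0 : 0 < y) (hy1 : y ≤ 1) (hM1 : 1 ≤ M)
    (him : im ≤ 2 * y ^ 240000) :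
    l8zAb C Ce Cs M (y ^ 200) (y ^ 10000) (2 * y ^ 40000) im (y ^ 400000) (C * y ^ 120000 * M) (C14 * y ^ 200) ≤ l8zKA C C14 Ce Cs * M ^ 3 * y ^ 100 := by
  have hM0 : 0 < M := lt_of_lt_of_le one_pos hM1
  have pw : ∀ {a b : ℕ}, a ≤ b → y ^ b ≤ y ^ a := fun h => pow_le_pow_of_le_one hy0.le hy1 h
  set P : ℝ := y ^ 100 with hP
  have hP0 : 0 < P := pow_pos hy0 _
  have hPP : P ^ 2 = y ^ 200 := by rw [hP, ← pow_mul]
  have hMM : M ≤ M ^ 2 := le_self_pow₀ hM1 (by norm_num)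
  have hM3 : M ≤ M ^ 3 := le_self_pow₀ hM1 (by norm_num)
  have hM23 : M ^ 2 ≤ M ^ 3 := pow_le_pow_right₀ hM1 (by norm_num)
  have s1 : Real.sqrt (M * y ^ 10000) ≤ M * P := by
    refine Real.sqrt_le_iff.mpr ⟨by positivity, ?_⟩
    rw [mul_pow, hPP]
    exact mul_le_mul hMM (pw (by norm_num)) (by positivity) (by positivity)
  have s2 : Real.sqrt (4 * y ^ 10000) ≤ 2 * P := by
    refine Real.sqrt_le_iff.mpr ⟨by positivity, ?_⟩
    rw [mul_pow, hPP]
    have := pw (a := 200) (b := 10000) (by norm_num)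
    linarith
  have s3 : Real.sqrt (2 * (2 * y ^ 40000)) ≤ 2 * P := by
    refine Real.sqrt_le_iff.mpr ⟨by positivity, ?_⟩
    rw [mul_pow, hPP]
    have := pw (a := 200) (b := 40000) (by norm_num)
    linarith
  have s4 : y ^ 200 ≤ P := pw (by norm_num)
  have s5 : im ≤ 2 * P := him.trans (by have := pw (a := 100) (b := 240000) (by norm_num); linarith)
  have t2 : y ^ 200 + Real.sqrt (4 * y ^ 10000) + 4 * Real.sqrt (2 * (2 * y ^ 40000)) + im ≤ 13 * P := by linarith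
  set KD : ℝ := C * |C14| + 4 * C with hKD
  have hKD0 : 0 ≤ KD := by positivity
  have d1 : C * (C14 * y ^ 200) + 4 * (C * y ^ 120000 * M) ≤ KD * M * y ^ 200 := by
    have a1 : C * (C14 * y ^ 200) ≤ C * |C14| * M * y ^ 200 := by
      have h1 : C14 * y ^ 200 ≤ |C14| * y ^ 200 := mul_le_mul_of_nonneg_right (le_abs_self _) (by positivity)
      have h2 : |C14| * y ^ 200 ≤ |C14| * y ^ 200 * M := le_mul_of_one_le_right (by positivity) hM1
      calc C * (C14 * y ^ 200) ≤ C * (|C14| * y ^ 200 * M) := mul_le_mul_of_nonneg_left (h1.trans h2) hC.le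
        _ = _ := by ring
    have a2 : 4 * (C * y ^ 120000 * M) ≤ 4 * C * M * y ^ 200 := by
      have := pw (a := 200) (b := 120000) (by norm_num)
      calc 4 * (C * y ^ 120000 * M) = 4 * C * M * y ^ 120000 := by ring
        _ ≤ _ := mul_le_mul_of_nonneg_left this (by positivity)
    rw [hKD]
    linarith
  have d2 : Real.sqrt (C * (C14 * y ^ 200) + 4 * (C * y ^ 120000 * M)) ≤ (KD + 1) * M * P := by
    refine Real.sqrt_le_iff.mpr ⟨by positivity, d1.trans ?_⟩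
    rw [mul_pow, mul_pow, hPP]
    have h1 : KD ≤ (KD + 1) ^ 2 := by nlinarith
    exact mul_le_mul_of_nonneg_right (mul_le_mul h1 hMM hM0.le (by positivity)) (by positivity)
  have d3 : C * (C14 * y ^ 200) + 4 * (C * y ^ 120000 * M) ≤ KD * M * P := d1.trans (mul_le_mul_of_nonneg_left s4 (by positivity))
  have d4 : (C * (C14 * y ^ 200) + 4 * (C * y ^ 120000 * M)) + Real.sqrt (C * (C14 * y ^ 200) + 4 * (C * y ^ 120000 * M)) ≤ (2 * KD + 1) * M * P := by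
    have := add_le_add d3 d2
    linarith
  have hy12 : y ^ 120000 ≤ 1 := pow_le_one₀ hy0.le hy1
  have e1 : C * y ^ 120000 * M ≤ C * M := by
    calc C * y ^ 120000 * M ≤ C * 1 * M := by gcongr
      _ = C * M := by ring
  have e2 : 1 + (2 * M + C + C * y ^ 120000 * M) ≤ (3 + 2 * C) * M := by
    have : C ≤ C * M := le_mul_of_one_le_right hC.le hM1
    linarith
  have e0 : 0 ≤ 1 + (2 * M + C + C * y ^ 120000 * M) := by positivity
  have t3 : Cs * (1 + (2 * M + C + C * y ^ 120000 * M))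
      * ((C * (C14 * y ^ 200) + 4 * (C * y ^ 120000 * M)) + Real.sqrt (C * (C14 * y ^ 200) + 4 * (C * y ^ 120000 * M)))
      ≤ Cs * (3 + 2 * C) * (2 * KD + 1) * M ^ 2 * P := by
    calc _ ≤ Cs * (1 + (2 * M + C + C * y ^ 120000 * M)) * ((2 * KD + 1) * M * P) := mul_le_mul_of_nonneg_left d4 (by positivity)
      _ ≤ Cs * ((3 + 2 * C) * M) * ((2 * KD + 1) * M * P) := by
          refine mul_le_mul_of_nonneg_right (mul_le_mul_of_nonneg_left e2 hCs) (by positivity)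
      _ = _ := by ring
  have t4 : y ^ 400000 ≤ M ^ 2 * P := by
    have h1 : y ^ 400000 ≤ P := pw (by norm_num)
    have h2 : P ≤ M ^ 2 * P := le_mul_of_one_le_left hP0.le (hM1.trans hMM)
    exact h1.trans h2
  have t5 : C * (C * y ^ 120000 * M) ≤ C ^ 2 * M ^ 2 * P := by
    have h1 : y ^ 120000 ≤ P := pw (by norm_num)
    calc C * (C * y ^ 120000 * M) = C ^ 2 * M * y ^ 120000 := by ring
      _ ≤ C ^ 2 * M ^ 2 * P := by gcongr
  unfold l8zAb l8zKA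
  rw [← hKD]
  have u1 : Ce * (Real.sqrt (M * y ^ 10000) + M * (y ^ 200 + Real.sqrt (4 * y ^ 10000) + 4 * Real.sqrt (2 * (2 * y ^ 40000)) + im)) ≤ 14 * Ce * M ^ 3 * P := by
    have h1 : M * (y ^ 200 + Real.sqrt (4 * y ^ 10000) + 4 * Real.sqrt (2 * (2 * y ^ 40000)) + im) ≤ M * (13 * P) := mul_le_mul_of_nonneg_left t2 hM0.le
    have h2 : Real.sqrt (M * y ^ 10000) + M * (y ^ 200 + Real.sqrt (4 * y ^ 10000) + 4 * Real.sqrt (2 * (2 * y ^ 40000)) + im) ≤ 14 * (M ^ 3 * P) := by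
      have : M * P ≤ M ^ 3 * P := mul_le_mul_of_nonneg_right hM3 hP0.le
      linarith
    calc _ ≤ Ce * (14 * (M ^ 3 * P)) := mul_le_mul_of_nonneg_left h2 hCe
      _ = _ := by ring
  have u2 : M * (Cs * (1 + (2 * M + C + C * y ^ 120000 * M))
      * ((C * (C14 * y ^ 200) + 4 * (C * y ^ 120000 * M)) + Real.sqrt (C * (C14 * y ^ 200) + 4 * (C * y ^ 120000 * M))) + y ^ 400000 + C * (C * y ^ 120000 * M))
      ≤ (Cs * (3 + 2 * C) * (2 * KD + 1) + 1 + C ^ 2) * M ^ 3 * P := by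
    calc _ ≤ M * (Cs * (3 + 2 * C) * (2 * KD + 1) * M ^ 2 * P + M ^ 2 * P + C ^ 2 * M ^ 2 * P) := mul_le_mul_of_nonneg_left (by linarith) hM0.le
      _ = _ := by ring
  calc _ ≤ 14 * Ce * M ^ 3 * P + (Cs * (3 + 2 * C) * (2 * KD + 1) + 1 + C ^ 2) * M ^ 3 * P := add_le_add u1 u2
    _ = _ := by ring

theorem l8zKA_pos {C C14 Ce Cs : ℝ} (hC : 0 < C) (hCe : 0 ≤ Ce) (hCs : 0 ≤ Cs) : 0 < l8zKA C C14 Ce Cs := by
  unfold l8zKA
  positivity

theorem l8z_f_Z4c {c C C14 Ce Cs y M lam im : ℝ} (hc : 0 < c) (hC : 0 < C) (hCe : 0 ≤ Ce) (hCs : 0 ≤ Cs) (hy0 : 0 < y) (hy1 : y ≤ 1) (hM1 : 1 ≤ M)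
    (hlam : y ≤ lam) (him : im ≤ 2 * y ^ 240000) (hK : 16 * C * l8zKA C C14 Ce Cs / c * M ^ 3 * y ^ 9 ≤ 1) (h4C : 4 * C * y ≤ 1) :
    l8zAb C Ce Cs M (y ^ 200) (y ^ 10000) (2 * y ^ 40000) im (y ^ 400000) (C * y ^ 120000 * M) (C14 * y ^ 200) / (c * lam * (y ^ 20) ^ 2)
      < y ^ 25 / 2 * (y ^ 25 / (2 * C) - y ^ 1600000) := by
  have hKA := l8zKA_pos (C14 := C14) hC hCe hCs
  set KA := l8zKA C C14 Ce Cs with hKAdef
  have hM0 : 0 < M := lt_of_lt_of_le one_pos hM1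
  have hAb := l8z_f_Ab_le (C14 := C14) hC hCe hCs hy0 hy1 hM1 him
  rw [← hKAdef] at hAb
  have hden : c * y ^ 41 ≤ c * lam * (y ^ 20) ^ 2 := by
    have e : c * y ^ 41 = c * y * (y ^ 20) ^ 2 := by ring
    rw [e]
    gcongr
  have hden0 : 0 < c * y ^ 41 := by positivity
  have h1 : l8zAb C Ce Cs M (y ^ 200) (y ^ 10000) (2 * y ^ 40000) im (y ^ 400000) (C * y ^ 120000 * M) (C14 * y ^ 200) / (c * lam * (y ^ 20) ^ 2)
      ≤ KA * M ^ 3 * y ^ 100 / (c * y ^ 41) := div_le_div₀ (by positivity) hAb hden0 hden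
  refine lt_of_le_of_lt h1 ?_
  rw [div_lt_iff₀ hden0]
  have h2 : y ^ 1600000 ≤ y ^ 25 / (4 * C) := by
    have a1 : y ^ 1600000 ≤ y ^ 26 := pow_le_pow_of_le_one hy0.le hy1 (by norm_num)
    rw [le_div_iff₀ (by positivity)]
    calc y ^ 1600000 * (4 * C) ≤ y ^ 26 * (4 * C) := by gcongr
      _ = y ^ 25 * (4 * C * y) := by ring
      _ ≤ y ^ 25 * 1 := by gcongr
      _ = y ^ 25 := mul_one _
  have h3 : y ^ 25 / (4 * C) ≤ y ^ 25 / (2 * C) - y ^ 1600000 := by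
    have e : y ^ 25 / (2 * C) = y ^ 25 / (4 * C) + y ^ 25 / (4 * C) := by field_simp; ring
    rw [e]
    linarith
  have h4 : y ^ 25 / 2 * (y ^ 25 / (4 * C)) * (c * y ^ 41) ≤ y ^ 25 / 2 * (y ^ 25 / (2 * C) - y ^ 1600000) * (c * y ^ 41) := by gcongr
  refine lt_of_lt_of_le ?_ h4
  have h5 : y ^ 25 / 2 * (y ^ 25 / (4 * C)) * (c * y ^ 41) = c * y ^ 91 / (8 * C) := by field_simp; ring
  rw [h5]
  have h6 : KA * M ^ 3 * y ^ 100 = (16 * C * KA / c * M ^ 3 * y ^ 9) * (c * y ^ 91 / (16 * C)) := by field_simp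
  rw [h6]
  have h7 : (16 * C * KA / c * M ^ 3 * y ^ 9) * (c * y ^ 91 / (16 * C)) ≤ 1 * (c * y ^ 91 / (16 * C)) := by gcongr
  refine lt_of_le_of_lt h7 ?_
  rw [one_mul]
  have : 0 < c * y ^ 91 := by positivity
  exact div_lt_div_of_pos_left this (by positivity) (by linarith)

/-- **Z4, numerical layer**: the nine conditions of `l8z_f_Z4a` at `X = x^(𝔞/10)`, `d = x^(𝔞/8)`, `ε = x^40`, `V = x^𝔞`, `E12 = x^(1/4)`, `fx = 2 x`, `lk = x^10`, `dmax = C x³ M`, `F14 = C14 x^𝔞`, `𝔞 = 1/200`,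
`M = log³ (1/x)`, `λ ≥ x^(1/40000)`, `1/m ≤ 2 x^6`; and the final absorption. -/
theorem l8z_f_Z4b (c C C14 Ce Cs : ℝ) (hc : 0 < c) (hC : 0 < C) (hCe : 0 ≤ Ce) (hCs : 0 ≤ Cs) : ∃ x0 : ℝ, 0 < x0 ∧ x0 ≤ 1 ∧ ∀ x lam im : ℝ, 0 < x → x ≤ x0 →
    x ^ (1 / 40000 : ℝ) ≤ lam → im ≤ 2 * x ^ 6 →
    2 * x ^ ((1 / 200 : ℝ) / 10) ≤ 4 ∧ x ^ (1 / 200 : ℝ) ≤ x ^ ((1 / 200 : ℝ) / 10) ∧ 2 * x ≤ x ^ ((1 / 200 : ℝ) / 10) ∧ 2 * x ^ ((1 / 200 : ℝ) / 10) ≤ c ∧
    C ≤ Real.log (1 / x) ^ 3 / 4 ∧ x ^ ((1 / 200 : ℝ) / 8) / (2 * C) ≤ c * (x ^ ((1 / 200 : ℝ) / 10) - x ^ 40) ∧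
    Real.log (1 / x) ^ 3 / 4 + x ^ 40 + x ^ ((1 / 200 : ℝ) / 8) / (2 * C) ≤ Real.log (1 / x) ^ 3 / 2 ∧
    l8zAb C Ce Cs (Real.log (1 / x) ^ 3) (x ^ (1 / 200 : ℝ)) (x ^ (1 / 4 : ℝ)) (2 * x) im (x ^ 10) (C * x ^ 3 * Real.log (1 / x) ^ 3) (C14 * x ^ (1 / 200 : ℝ))
        / (c * lam * (x ^ ((1 / 200 : ℝ) / 10)) ^ 2) < x ^ ((1 / 200 : ℝ) / 8) / 2 * (x ^ ((1 / 200 : ℝ) / 8) / (2 * C) - x ^ 40) ∧
    C * (2 * x ^ ((1 / 200 : ℝ) / 10) + x ^ 40) + x ^ ((1 / 200 : ℝ) / 8) + 2 * x ≤ (3 * C + 3) * x ^ ((1 / 200 : ℝ) / 10) := by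
  obtain ⟨x1, hx1, L1⟩ := l8z_n_large (max 1 (max (4 * C) (4 + 2 / C)))
  obtain ⟨x2, hx2, L2⟩ := l8z_n_My (max 2 (max (2 / c) (max (1 / (c * C)) (4 * C)))) 0 1 le_rfl
  obtain ⟨x3, hx3, L3⟩ := l8z_n_My (16 * C * l8zKA C C14 Ce Cs / c) 3 9 (by norm_num)
  refine ⟨min 1 (min x1 (min x2 x3)), by positivity, min_le_left _ _, ?_⟩
  intro x lam im hx hxle hlam him
  simp only [le_min_iff] at hxle
  obtain ⟨hx1', h1, h2, h3⟩ := hxle
  have hM := L1 x hx h1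
  have hy := L2 x hx h2
  have hK := L3 x hx h3
  -- change of variables
  have e20 : x ^ ((1 / 200 : ℝ) / 10) = (x ^ (1 / 40000 : ℝ)) ^ 20 := l8z_n_y hx.le 20 (by norm_num)
  have e25 : x ^ ((1 / 200 : ℝ) / 8) = (x ^ (1 / 40000 : ℝ)) ^ 25 := l8z_n_y hx.le 25 (by norm_num)
  have e200 : x ^ (1 / 200 : ℝ) = (x ^ (1 / 40000 : ℝ)) ^ 200 := l8z_n_y hx.le 200 (by norm_num)
  have e10000 : x ^ (1 / 4 : ℝ) = (x ^ (1 / 40000 : ℝ)) ^ 10000 := l8z_n_y hx.le 10000 (by norm_num)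
  have ex := l8z_n_yx hx.le
  have hy0 : 0 < x ^ (1 / 40000 : ℝ) := Real.rpow_pos_of_pos hx _
  have hy1 : x ^ (1 / 40000 : ℝ) ≤ 1 := Real.rpow_le_one hx.le hx1' (by norm_num)
  rw [e20, e25, e200, e10000]
  generalize Real.log (1 / x) ^ 3 = M at *
  generalize x ^ (1 / 40000 : ℝ) = y at *
  subst ex
  simp only [← pow_mul] at him ⊢
  norm_num at him ⊢
  simp only [pow_zero, mul_one, pow_one] at hy
  have hM1 : 1 ≤ M := (le_max_left _ _).trans hM
  have hM2 : 4 * C ≤ M := ((le_max_left _ _).trans (le_max_right _ _)).trans hM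
  have hM3 : 4 + 2 / C ≤ M := ((le_max_right _ _).trans (le_max_right _ _)).trans hM
  have y2 : 2 * y ≤ 1 := (mul_le_mul_of_nonneg_right (le_max_left _ _) hy0.le).trans hy
  have yc : 2 / c * y ≤ 1 := (mul_le_mul_of_nonneg_right ((le_max_left _ _).trans (le_max_right _ _)) hy0.le).trans hy
  have ycC : 1 / (c * C) * y ≤ 1 :=
    (mul_le_mul_of_nonneg_right ((le_max_left _ _).trans ((le_max_right _ _).trans (le_max_right _ _))) hy0.le).trans hy
  have y4C : 4 * C * y ≤ 1 :=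
    (mul_le_mul_of_nonneg_right ((le_max_right _ _).trans ((le_max_right _ _).trans (le_max_right _ _))) hy0.le).trans hy
  have pw : ∀ {a b : ℕ}, a ≤ b → y ^ b ≤ y ^ a := fun h => pow_le_pow_of_le_one hy0.le hy1 h
  have p20 : 0 < y ^ 20 := pow_pos hy0 _
  have q1 : y ^ 20 ≤ 1 := pow_le_one₀ hy0.le hy1
  have q2 : y ^ 20 ≤ y := by simpa using pw (a := 1) (b := 20) (by norm_num)
  have q3 : y ^ 40000 ≤ y ^ 20 * y := by
    have := pw (a := 21) (b := 40000) (by norm_num)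
    calc y ^ 40000 ≤ y ^ 21 := this
      _ = y ^ 20 * y := by ring
  have q4 : y ^ 1600000 ≤ y ^ 20 * y := by
    have := pw (a := 21) (b := 1600000) (by norm_num)
    calc y ^ 1600000 ≤ y ^ 21 := this
      _ = y ^ 20 * y := by ring
  have q5 : y ^ 20 * y ≤ y ^ 20 / 2 := by
    have : y ^ 20 * (2 * y) ≤ y ^ 20 * 1 := mul_le_mul_of_nonneg_left y2 p20.le
    linarith
  have q6 : y ^ 25 ≤ y ^ 20 * y := by
    have := pw (a := 21) (b := 25) (by norm_num)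
    calc y ^ 25 ≤ y ^ 21 := this
      _ = y ^ 20 * y := by ring
  refine ⟨by linarith, pw (by norm_num), by linarith, ?_, by linarith, ?_, ?_, ?_, ?_⟩
  · have : 2 * y ≤ c := by
      have := mul_le_mul_of_nonneg_left yc hc.le
      have e : c * (2 / c * y) = 2 * y := by field_simp
      linarith
    linarith
  · have a1 : y ≤ c * C := by
      have := mul_le_mul_of_nonneg_left ycC (by positivity : 0 ≤ c * C)
      have e : c * C * (1 / (c * C) * y) = y := by field_simp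
      linarith
    have a2 : y ^ 25 / (2 * C) ≤ c * (y ^ 20 / 2) := by
      rw [div_le_iff₀ (by positivity)]
      calc y ^ 25 ≤ y ^ 20 * y := q6
        _ ≤ y ^ 20 * (c * C) := mul_le_mul_of_nonneg_left a1 p20.le
        _ = c * (y ^ 20 / 2) * (2 * C) := by ring
    refine a2.trans (mul_le_mul_of_nonneg_left ?_ hc.le)
    linarith
  · have a1 : y ^ 25 / (2 * C) ≤ 1 / (2 * C) := by
      have : y ^ 25 ≤ 1 := pow_le_one₀ hy0.le hy1
      gcongr
    have a2 : y ^ 1600000 ≤ 1 := pow_le_one₀ hy0.le hy1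
    have e : 2 / C = 4 * (1 / (2 * C)) := by field_simp; ring
    rw [e] at hM3
    linarith
  · have := l8z_f_Z4c hc hC hCe hCs hy0 hy1 hM1 hlam him hK y4C
    rwa [← pow_mul] at this
  · have a1 : y ^ 1600000 ≤ y ^ 20 := pw (by norm_num)
    have a2 : y ^ 25 ≤ y ^ 20 := pw (by norm_num)
    have a3 : C * (2 * y ^ 20 + y ^ 1600000) ≤ C * (3 * y ^ 20) := mul_le_mul_of_nonneg_left (by linarith) hC.le
    linarith

end Claimed.Agent.R286
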