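-- KEEP
import Claimed.Agent.R286.L09.Defs
import Claimed.Agent.R286.Brg.Osc

/-!
# Row 286 (S0533), folder L08, file FineA : THE CLOCK PART OF `I.Fine`, SEC. A = PURE CHAIN LEMMA      (owner helper214; prefix `l8f_`, `L8f`)

PART A (this file, pure chain lemma, no LL object).   A chain `ps` (sorted valid positions) is `L8fFine a δ M J`: it meets every mass interval of length `> δ` (after the jump) and contains the positions `(j, i/M)`, `i ≤ M`,
of the jump masses `j ∈ J`.   A clock has the modulus `L8fMod f J (2 δ) η`: increments `≤ η` on the intervals `(w, w']` of length `≤ 2 δ` which contain no jump mass.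
Then (`l8f_clk`) the fine LL path `l9Stp a b h K 0 0 0 ps` is admissible, all its mass cells are `≤ δ`, all its increments `db, dh, dK` are `≤ η`, what is left at the end is `≤ η`, and the tilt stage is the stage of `(s,1)`.
NOTHING is asked at the terminal mass `a` (it need not be a mass of the chain), and nothing on the positions of the chain besides the required ones: the statement is uniform in the clocks.
`l8f_fine_of_req` : every finite set which contains `l8fReq δ n M J s` gives a fine chain for EVERY terminal mass `a ≤ 4`.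
CHAINS OF THE INSTANCES (A6, `ghPs a (l9Fl Fs)`: `(0,1)` is the only position of mass `0`): `l8f_clk0` (same fields, `db_le` at the positive masses, `0 ∉ J`, `b` has its modulus off `insert 0 J`) + `L8fClk0.a4 : LlTiltA4`, `l8f_req_fl`, `l8f_req_zero`.
EXACT VALUES (A5): `l8f_cum` (cumulated clocks after the stage `k` = `ghAt` at the position number `k`), `l8f_at_cont` (`ghAt a c p = c p.u` if `p.u ∉ J` or `p.lam = 1`, from a modulus for every `η`), `l8f_at_mem`.      0 sorry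
-/

set_option autoImplicit false

namespace Claimed.Agent.R286

open Set Filter Function Topology

/-! ## A1. values of a monotone function at positions -/

/-- value of `f` at a position -/
noncomputable def l8fAt (f : ℝ → ℝ) (p : GhPos) : ℝ := leftLim f p.u + p.lam * (rightLim f p.u - leftLim f p.u)

/-- increments `≤ η` on the intervals `(w, w']` of length `≤ δ` without a jump mass -/
def L8fMod (f : ℝ → ℝ) (J : Finset ℝ) (δ η : ℝ) : Prop :=
  ∀ w w', w ≤ w' → w' - w ≤ δ → (∀ j ∈ J, ¬ (w < j ∧ j ≤ w')) → f w' - f w ≤ η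

theorem l8f_at_eq (a : ℝ) (c : ℝ → ℝ) (p : GhPos) : ghAt a c p = l8fAt (ghClamp a c) p := rfl

theorem l8f_sep (J : Finset ℝ) (u : ℝ) : ∃ ε > 0, ∀ j ∈ J, j ≠ u → ε ≤ |j - u| := by
  classical
  induction J using Finset.induction_on with
  | empty => exact ⟨1, one_pos, by simp⟩
  | insert j0 J _ ih =>
    obtain ⟨ε, hε, h⟩ := ih
    by_cases hj : j0 = u
    · refine ⟨ε, hε, fun j hj' hne => ?_⟩
      rcases Finset.mem_insert.1 hj' with rfl | h'
      · exact absurd hj hne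
      · exact h j h' hne
    · refine ⟨min ε |j0 - u|, lt_min hε (abs_pos.2 (sub_ne_zero.2 hj)), fun j hj' hne => ?_⟩
      rcases Finset.mem_insert.1 hj' with rfl | h'
      · exact min_le_right _ _
      · exact (min_le_left _ _).trans (h j h' hne)

theorem l8f_at_ge_left {f : ℝ → ℝ} (hf : Monotone f) {p : GhPos} (h0 : 0 ≤ p.lam) : leftLim f p.u ≤ l8fAt f p := by
  have h := hf.leftLim_le_rightLim (le_refl p.u)
  unfold l8fAt
  nlinarith [mul_nonneg h0 (sub_nonneg.2 h)]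

theorem l8f_at_le_right {f : ℝ → ℝ} (hf : Monotone f) {p : GhPos} (h1 : p.lam ≤ 1) : l8fAt f p ≤ rightLim f p.u := by
  have h := hf.leftLim_le_rightLim (le_refl p.u)
  unfold l8fAt
  nlinarith [mul_nonneg (sub_nonneg.2 h1) (sub_nonneg.2 h)]

/-- a point `w` just before the position, below its value -/
theorem l8f_low {f : ℝ → ℝ} (hf : Monotone f) (J : Finset ℝ) {δ : ℝ} (hδ : 0 < δ) {p : GhPos} (h0 : 0 ≤ p.lam)
    (hJ : p.u ∈ J → p.lam = 1) :
    ∃ w, w ≤ p.u ∧ p.u - w ≤ δ ∧ f w ≤ l8fAt f p ∧ (p.u ∉ J → w < p.u) ∧ ∀ j ∈ J, ¬ (w < j ∧ j ≤ p.u) := by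
  by_cases hu : p.u ∈ J
  · refine ⟨p.u, le_rfl, by linarith, ?_, fun h => absurd hu h, fun j _ h => by linarith [h.1, h.2]⟩
    have : l8fAt f p = rightLim f p.u := by unfold l8fAt; rw [hJ hu]; ring
    rw [this]
    exact hf.le_rightLim le_rfl
  · obtain ⟨ε, hε, hsep⟩ := l8f_sep J p.u
    have hm : 0 < min ε δ := lt_min hε hδ
    refine ⟨p.u - min ε δ / 2, by linarith, by linarith [min_le_right ε δ], ?_, fun _ => by linarith, fun j hj h => ?_⟩
    · exact (hf.le_leftLim (by linarith)).trans (l8f_at_ge_left hf h0)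
    · have hne : j ≠ p.u := fun e => hu (e ▸ hj)
      have h1 := hsep j hj hne
      rw [abs_of_nonpos (by linarith [h.2])] at h1
      linarith [h.1, min_le_left ε δ]

/-- upper bound of the value at a position by the values just after it (just before it if the position is before a jump) -/
theorem l8f_up {f : ℝ → ℝ} (hf : Monotone f) (J : Finset ℝ) {δ : ℝ} (hδ : 0 < δ) {p : GhPos} (h1 : p.lam ≤ 1)
    (hJ : p.u ∈ J → p.lam = 0) {u0 B : ℝ} (hu0 : u0 < p.u) (hfree : ∀ j ∈ J, ¬ (u0 < j ∧ j < p.u))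
    (hB : ∀ w', u0 < w' → w' ≤ p.u + δ → (∀ j ∈ J, ¬ (u0 < j ∧ j ≤ w')) → f w' ≤ B) : l8fAt f p ≤ B := by
  by_cases hu : p.u ∈ J
  · have : l8fAt f p = leftLim f p.u := by unfold l8fAt; rw [hJ hu]; ring
    rw [this]
    refine le_of_tendsto (hf.tendsto_leftLim p.u) ?_
    filter_upwards [Ioo_mem_nhdsLT hu0] with w' hw'
    exact hB w' hw'.1 (by linarith [hw'.2]) fun j hj h => hfree j hj ⟨h.1, lt_of_le_of_lt h.2 hw'.2⟩
  · obtain ⟨ε, hε, hsep⟩ := l8f_sep J p.u
    have hm : 0 < min ε δ := lt_min hε hδ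
    refine (l8f_at_le_right hf h1).trans ((hf.rightLim_le (y := p.u + min ε δ / 2) (by linarith)).trans ?_)
    refine hB _ (by linarith) (by linarith [min_le_right ε δ]) fun j hj h => ?_
    have hne : j ≠ p.u := fun e => hu (e ▸ hj)
    rcases lt_or_gt_of_ne hne with hlt | hgt
    · exact hfree j hj ⟨h.1, hlt⟩
    · have h1 := hsep j hj hne
      rw [abs_of_pos (by linarith)] at h1
      linarith [h.2, min_le_left ε δ]

/-- **increment between two neighbouring positions** -/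
theorem l8f_at_sub_le {f : ℝ → ℝ} (hf : Monotone f) (J : Finset ℝ) {δ η Jm : ℝ} (hδ : 0 < δ) (hmod : L8fMod f J (2 * δ) η)
    (hjump : ∀ j ∈ J, rightLim f j - leftLim f j ≤ Jm) {p p' : GhPos} (h0 : 0 ≤ p.lam) (h1' : p'.lam ≤ 1)
    (hsame : p.u = p'.u → p.lam ≤ p'.lam ∧ (p.u ∈ J → (p'.lam - p.lam) * Jm ≤ η))
    (hdiff : p.u ≠ p'.u → p.u < p'.u ∧ p'.u - p.u ≤ δ ∧ (p.u ∈ J → p.lam = 1) ∧ (p'.u ∈ J → p'.lam = 0) ∧
      ∀ j ∈ J, ¬ (p.u < j ∧ j < p'.u)) :
    l8fAt f p' - l8fAt f p ≤ η := by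
  have hδ2 : 0 < δ / 2 := by linarith
  by_cases hu : p.u = p'.u
  · obtain ⟨hl, hs⟩ := hsame hu
    by_cases hJ : p.u ∈ J
    · have e : l8fAt f p' - l8fAt f p = (p'.lam - p.lam) * (rightLim f p.u - leftLim f p.u) := by
        unfold l8fAt; rw [← hu]; ring
      rw [e]
      exact (mul_le_mul_of_nonneg_left (hjump _ hJ) (sub_nonneg.2 hl)).trans (hs hJ)
    · obtain ⟨w, hw1, hw2, hw3, hw4, hw5⟩ := l8f_low hf J hδ2 h0 (fun h => absurd h hJ)
      have hJ' : p'.u ∉ J := hu ▸ hJ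
      have hlt : w < p'.u := hu ▸ hw4 hJ
      have := l8f_up hf J hδ2 h1' (fun h => absurd h hJ') (u0 := w) (B := f w + η) hlt
        (fun j hj h => hw5 j hj ⟨h.1, by rw [hu]; exact h.2.le⟩)
        (fun w' h1 h2 h3 => by
          have := hmod w w' h1.le (by rw [← hu] at h2; linarith) h3
          linarith)
      linarith
  · obtain ⟨hlt, hd, hJ1, hJ2, hfree⟩ := hdiff hu
    obtain ⟨w, hw1, hw2, hw3, -, hw5⟩ := l8f_low hf J hδ2 h0 hJ1
    have := l8f_up hf J hδ2 h1' hJ2 (u0 := p.u) (B := f w + η) hlt hfree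
      (fun w' h1 h2 h3 => by
        have := hmod w w' (by linarith) (by linarith) (fun j hj h => by
          rcases le_or_gt j p.u with hle | hgt
          · exact hw5 j hj ⟨h.1, hle⟩
          · exact h3 j hj ⟨hgt, h.2⟩)
        linarith)
    linarith

/-! ## A2. fine chains -/

/-- a fine chain -/
structure L8fFine (a δ : ℝ) (M : ℕ) (J : Finset ℝ) (ps : List GhPos) : Prop where
  lt : ps.Pairwise (· < ·)
  ok : ∀ p ∈ ps, p.Ok a
  grid : ∀ u u', 0 ≤ u → u' ≤ a → δ < u' - u → ∃ g, u < g ∧ g < u' ∧ ghPosA g ∈ ps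
  jump : ∀ j ∈ J, 0 ≤ j → j ≤ a → ∀ i : ℕ, i ≤ M → ghPosF j ((i : ℝ) / M) ∈ ps

/-- neighbours in the chain -/
def L8fNext (ps : List GhPos) (p p' : GhPos) : Prop := p ∈ ps ∧ p' ∈ ps ∧ p < p' ∧ ∀ r ∈ ps, r ≤ p ∨ p' ≤ r

theorem l8f_eqns_cite : True := by
  have := @l8fAt.eq_1
  have := @L8fMod.eq_1
  have := @L8fNext.eq_1
  trivial

theorem l8f_posF_u (u l : ℝ) : (ghPosF u l).u = u := rfl
theorem l8f_posF_lam (u l : ℝ) : (ghPosF u l).lam = l := rfl
theorem l8f_posA_u (u : ℝ) : (ghPosA u).u = u := rfl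
theorem l8f_posA_lam (u : ℝ) : (ghPosA u).lam = 1 := rfl

section fine
variable {a δ : ℝ} {M : ℕ} {J : Finset ℝ} {ps : List GhPos} {p p' : GhPos}

theorem L8fFine.posA (h : L8fFine a δ M J ps) (hM : 0 < M) {j : ℝ} (hj : j ∈ J) (h0 : 0 ≤ j) (h1 : j ≤ a) : ghPosA j ∈ ps := by
  have := h.jump j hj h0 h1 M le_rfl
  rwa [div_self (Nat.cast_ne_zero.2 hM.ne')] at this

theorem L8fFine.posB (h : L8fFine a δ M J ps) {j : ℝ} (hj : j ∈ J) (h0 : 0 ≤ j) (h1 : j ≤ a) : ghPosB j ∈ ps := by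
  have := h.jump j hj h0 h1 0 (Nat.zero_le _)
  rwa [Nat.cast_zero, zero_div] at this

/-- no position of the chain strictly between two neighbours -/
theorem L8fNext.not_mem (hn : L8fNext ps p p') {r : GhPos} (h1 : p < r) (h2 : r < p') : r ∉ ps := fun hr => by
  rcases hn.2.2.2 r hr with h | h
  · exact absurd h1 (not_lt.2 h)
  · exact absurd h2 (not_lt.2 h)

theorem l8f_next_same (h : L8fFine a δ M J ps) (hM : 0 < M) (hn : L8fNext ps p p') (hu : p.u = p'.u) (hJ : p.u ∈ J) :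
    p.lam ≤ p'.lam ∧ p'.lam - p.lam ≤ 1 / M := by
  have hMr : (0 : ℝ) < M := Nat.cast_pos.2 hM
  have hok := h.ok p hn.1
  have hok' := h.ok p' hn.2.1
  have hl : p.lam < p'.lam := by
    rcases (gh_os_pos_lt_iff p p').1 hn.2.2.1 with h1 | h1
    · exact absurd hu h1.ne
    · exact h1.2
  refine ⟨hl.le, ?_⟩
  by_contra hc
  push Not at hc
  set i : ℕ := ⌊p.lam * M⌋₊ + 1 with hi
  have h1 : p.lam * M < i := by rw [hi]; push_cast; exact Nat.lt_floor_add_one _
  have h2 : (i : ℝ) ≤ p.lam * M + 1 := by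
    rw [hi]; push_cast
    linarith [Nat.floor_le (mul_nonneg hok.2.2.1 hMr.le)]
  have h3 : p.lam < (i : ℝ) / M := by rwa [lt_div_iff₀ hMr]
  have h4 : (i : ℝ) / M < p'.lam := by
    rw [div_lt_iff₀ hMr]
    have : (p.lam + 1 / M) * M < p'.lam * M := mul_lt_mul_of_pos_right (by linarith) hMr
    have e : (p.lam + 1 / M) * M = p.lam * M + 1 := by field_simp
    linarith
  have h5 : i ≤ M := by
    have : (i : ℝ) < M := by
      have := (div_lt_iff₀ hMr).1 (h4.trans_le hok'.2.2.2)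
      linarith
    exact_mod_cast this.le
  refine hn.not_mem (r := ghPosF p.u ((i : ℝ) / M)) ?_ ?_ (h.jump _ hJ hok.1 hok.2.1 i h5)
  · exact (gh_os_pos_lt_iff _ _).2 (Or.inr ⟨rfl, h3⟩)
  · exact (gh_os_pos_lt_iff _ _).2 (Or.inr ⟨hu, h4⟩)

theorem l8f_next_diff (h : L8fFine a δ M J ps) (hM : 0 < M) (hn : L8fNext ps p p') (hu : p.u ≠ p'.u) :
    p.u < p'.u ∧ p'.u - p.u ≤ δ ∧ (p.u ∈ J → p.lam = 1) ∧ (p'.u ∈ J → p'.lam = 0) ∧ ∀ j ∈ J, ¬ (p.u < j ∧ j < p'.u) := by
  have hok := h.ok p hn.1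
  have hok' := h.ok p' hn.2.1
  have hlt : p.u < p'.u := by
    rcases (gh_os_pos_lt_iff p p').1 hn.2.2.1 with h1 | h1
    · exact h1
    · exact absurd h1.1 hu
  refine ⟨hlt, ?_, fun hJ => ?_, fun hJ => ?_, fun j hj hh => ?_⟩
  · by_contra hc
    push Not at hc
    obtain ⟨g, h1, h2, h3⟩ := h.grid p.u p'.u hok.1 hok'.2.1 hc
    exact hn.not_mem (r := ghPosA g) ((gh_os_pos_lt_iff _ _).2 (Or.inl h1)) ((gh_os_pos_lt_iff _ _).2 (Or.inl h2)) h3
  · by_contra hc
    have hl : p.lam < 1 := lt_of_le_of_ne hok.2.2.2 hc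
    exact hn.not_mem (r := ghPosA p.u) ((gh_os_pos_lt_iff _ _).2 (Or.inr ⟨rfl, hl⟩)) ((gh_os_pos_lt_iff _ _).2 (Or.inl hlt))
      (h.posA hM hJ hok.1 hok.2.1)
  · by_contra hc
    have hl : 0 < p'.lam := lt_of_le_of_ne hok'.2.2.1 (Ne.symm hc)
    exact hn.not_mem (r := ghPosB p'.u) ((gh_os_pos_lt_iff _ _).2 (Or.inl hlt)) ((gh_os_pos_lt_iff _ _).2 (Or.inr ⟨rfl, hl⟩))
      (h.posB hJ hok'.1 hok'.2.1)
  · exact hn.not_mem (r := ghPosA j) ((gh_os_pos_lt_iff _ _).2 (Or.inl hh.1)) ((gh_os_pos_lt_iff _ _).2 (Or.inl hh.2))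
      (h.posA hM hj (hok.1.trans hh.1.le) (hh.2.le.trans hok'.2.1))

/-- the mass cell between two neighbours -/
theorem l8f_next_mass (h : L8fFine a δ M J ps) (hM : 0 < M) (hδ : 0 ≤ δ) (hn : L8fNext ps p p') : p'.u - p.u ≤ δ := by
  by_cases hu : p.u = p'.u
  · rw [hu]; simpa using hδ
  · exact (l8f_next_diff h hM hn hu).2.1

theorem l8f_jump_le {c : ℝ → ℝ} (ha : 0 ≤ a) (hc : GhClk1 a c) (u : ℝ) :
    rightLim (ghClamp a c) u - leftLim (ghClamp a c) u ≤ c a := by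
  have hm := gh_os_clamp_mono ha hc
  have h1 : rightLim (ghClamp a c) u ≤ c a := by
    refine (hm.rightLim_le (y := max u a + 1) (by linarith [le_max_left u a])).trans ?_
    unfold ghClamp
    rw [if_neg (by linarith [le_max_right u a]), min_eq_right (by linarith [le_max_right u a])]
  linarith [gh_os_left_nonneg ha hc u]

/-- **the increment of a clock between two neighbours of a fine chain** -/
theorem l8f_next_le {c : ℝ → ℝ} {η Jm : ℝ} (ha : 0 ≤ a) (hc : GhClk1 a c) (h : L8fFine a δ M J ps) (hM : 0 < M) (hδ : 0 < δ)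
    (hmod : L8fMod (ghClamp a c) J (2 * δ) η) (hJm : c a ≤ Jm) (hJm0 : 0 ≤ Jm) (hMη : Jm ≤ M * η) (hn : L8fNext ps p p') :
    ghAt a c p' - ghAt a c p ≤ η := by
  have hMr : (0 : ℝ) < M := Nat.cast_pos.2 hM
  refine l8f_at_sub_le (gh_os_clamp_mono ha hc) J hδ hmod (fun j _ => (l8f_jump_le ha hc j).trans hJm) (h.ok p hn.1).2.2.1
    (h.ok p' hn.2.1).2.2.2 (fun hu => ?_) (fun hu => l8f_next_diff h hM hn hu)
  by_cases hJ : p.u ∈ J
  · obtain ⟨h1, h2⟩ := l8f_next_same h hM hn hu hJ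
    refine ⟨h1, fun _ => ?_⟩
    calc (p'.lam - p.lam) * Jm ≤ 1 / M * Jm := mul_le_mul_of_nonneg_right h2 hJm0
      _ ≤ 1 / M * (M * η) := mul_le_mul_of_nonneg_left hMη (by positivity)
      _ = η := by field_simp
  · refine ⟨?_, fun h' => absurd h' hJ⟩
    rcases (gh_os_pos_lt_iff p p').1 hn.2.2.1 with h1 | h1
    · exact absurd hu h1.ne
    · exact h1.2.le

/-- what is left after the last position -/
theorem l8f_top_le {c : ℝ → ℝ} {η : ℝ} (ha : 0 ≤ a) (hc : GhClk1 a c) (h : L8fFine a δ M J ps) (hM : 0 < M) (hδ : 0 < δ)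
    (hmod : L8fMod (ghClamp a c) J (2 * δ) η) (hp : p ∈ ps) (hmax : ∀ r ∈ ps, r ≤ p) : a - p.u ≤ δ ∧ c a - ghAt a c p ≤ η := by
  have hok := h.ok p hp
  have hd : a - p.u ≤ δ := by
    by_contra hc'
    push Not at hc'
    obtain ⟨g, h1, _, h3⟩ := h.grid p.u a hok.1 le_rfl hc'
    exact absurd (hmax _ h3) (not_le.2 ((gh_os_pos_lt_iff _ _).2 (Or.inl h1)))
  refine ⟨hd, ?_⟩
  obtain ⟨w, hw1, hw2, hw3, -, hw5⟩ := l8f_low (gh_os_clamp_mono ha hc) J (δ := δ / 2) (by linarith) hok.2.2.1 (fun hJ => by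
    by_contra hc'
    have hl : p.lam < 1 := lt_of_le_of_ne hok.2.2.2 hc'
    exact absurd (hmax _ (h.posA hM hJ hok.1 hok.2.1)) (not_le.2 ((gh_os_pos_lt_iff _ _).2 (Or.inr ⟨rfl, hl⟩))))
  have h1 := hmod w a (hw1.trans hok.2.1) (by linarith) (fun j hj hh => by
    rcases le_or_gt j p.u with hle | hgt
    · exact hw5 j hj ⟨hh.1, hle⟩
    · exact absurd (hmax _ (h.posA hM hj (hok.1.trans hgt.le) hh.2)) (not_le.2 ((gh_os_pos_lt_iff _ _).2 (Or.inl hgt))))
  have h2 : ghClamp a c a = c a := by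
    unfold ghClamp
    rw [if_neg (not_lt.2 ha), min_self]
  rw [h2] at h1
  rw [l8f_at_eq]
  linarith

end fine

/-! ## A3. the fine LL path of a chain -/

section stp
variable (a : ℝ) (b h K : ℝ → ℝ)

/-- the revelations of the fine path: the first one, or a pair of adjacent positions -/
theorem l8f_stp_mem : ∀ (ps : List GhPos) (b0 h0 K0 : ℝ) (e : LlInc), e ∈ l9Stp a b h K b0 h0 K0 ps →
    (∃ p l, ps = p :: l ∧ e = ⟨p.u, ghAt a b p - b0, ghAt a h p - h0, ghAt a K p - K0⟩) ∨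
    (∃ l1 p p' l2, ps = l1 ++ p :: p' :: l2 ∧ e = ⟨p'.u, ghAt a b p' - ghAt a b p, ghAt a h p' - ghAt a h p, ghAt a K p' - ghAt a K p⟩)
  | [], _, _, _, e, he => by simp [l9Stp] at he
  | p :: l, b0, h0, K0, e, he => by
      rw [l9Stp] at he
      rcases List.mem_cons.1 he with rfl | he
      · exact Or.inl ⟨p, l, rfl, rfl⟩
      · rcases l8f_stp_mem l _ _ _ e he with ⟨q, l', rfl, rfl⟩ | ⟨l1, q, q', l2, rfl, rfl⟩
        · exact Or.inr ⟨[], p, q, l', rfl, rfl⟩
        · exact Or.inr ⟨p :: l1, q, q', l2, rfl, rfl⟩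

theorem l8f_stp_length : ∀ (ps : List GhPos) (b0 h0 K0 : ℝ), (l9Stp a b h K b0 h0 K0 ps).length = ps.length
  | [], _, _, _ => rfl
  | p :: l, _, _, _ => by rw [l9Stp, List.length_cons, List.length_cons, l8f_stp_length l]

theorem l8f_stp_mass : ∀ (ps : List GhPos) (b0 h0 K0 : ℝ), (l9Stp a b h K b0 h0 K0 ps).map LlInc.m = ps.map GhPos.u
  | [], _, _, _ => rfl
  | p :: l, _, _, _ => by rw [l9Stp, List.map_cons, List.map_cons, l8f_stp_mass l]

/-- telescoping -/
theorem l8f_stp_sum : ∀ (ps : List GhPos) (b0 h0 K0 : ℝ), ps.Pairwise (· < ·) → ps ≠ [] → ∃ p ∈ ps, (∀ r ∈ ps, r ≤ p) ∧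
    ((l9Stp a b h K b0 h0 K0 ps).map LlInc.db).sum = ghAt a b p - b0 ∧ ((l9Stp a b h K b0 h0 K0 ps).map LlInc.dh).sum = ghAt a h p - h0 ∧
    ((l9Stp a b h K b0 h0 K0 ps).map LlInc.dK).sum = ghAt a K p - K0
  | [], _, _, _, _, hne => absurd rfl hne
  | [p], b0, h0, K0, _, _ => ⟨p, by simp, by simp, by simp [l9Stp], by simp [l9Stp], by simp [l9Stp]⟩
  | p :: q :: l, b0, h0, K0, hs, _ => by
      obtain ⟨r, hr, hmax, e1, e2, e3⟩ := l8f_stp_sum (q :: l) (ghAt a b p) (ghAt a h p) (ghAt a K p) (List.pairwise_cons.1 hs).2 (by simp)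
      refine ⟨r, List.mem_cons_of_mem _ hr, fun x hx => ?_, ?_, ?_, ?_⟩
      · rcases List.mem_cons.1 hx with rfl | hx
        · exact ((List.pairwise_cons.1 hs).1 r hr).le
        · exact hmax x hx
      · rw [l9Stp, List.map_cons, List.sum_cons, e1]; ring
      · rw [l9Stp, List.map_cons, List.sum_cons, e2]; ring
      · rw [l9Stp, List.map_cons, List.sum_cons, e3]; ring

end stp

/-- adjacent entries of a sorted list are neighbours -/
theorem l8f_next_of_append {l1 l2 : List GhPos} {p p' : GhPos} (hs : (l1 ++ p :: p' :: l2).Pairwise (· < ·)) :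
    L8fNext (l1 ++ p :: p' :: l2) p p' := by
  rw [List.pairwise_append] at hs
  obtain ⟨_, h2, h3⟩ := hs
  rw [List.pairwise_cons] at h2
  obtain ⟨h4, h5⟩ := h2
  rw [List.pairwise_cons] at h5
  refine ⟨by simp, by simp, h4 p' (by simp), fun r hr => ?_⟩
  rcases List.mem_append.1 hr with hr | hr
  · exact Or.inl (h3 r hr p (by simp)).le
  · rcases List.mem_cons.1 hr with rfl | hr
    · exact Or.inl le_rfl
    · rcases List.mem_cons.1 hr with rfl | hr
      · exact Or.inr le_rfl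
      · exact Or.inr (h5.1 r hr).le

/-- the first position of a fine chain is `(0,0)` -/
theorem l8f_head {a δ : ℝ} {M : ℕ} {J : Finset ℝ} {p : GhPos} {l : List GhPos} (hf : L8fFine a δ M J (p :: l)) (ha : 0 ≤ a)
    (h0 : (0 : ℝ) ∈ J) : p = ghPosB 0 := by
  have h1 := hf.posB h0 le_rfl ha
  have hok := hf.ok p (by simp)
  have h2 : p ≤ ghPosB 0 := by
    rcases List.mem_cons.1 h1 with h | h
    · exact h.ge
    · exact ((List.pairwise_cons.1 hf.lt).1 _ h).le
  have h3 : ghPosB 0 ≤ p := by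
    rw [gh_os_pos_le_iff]
    rcases hok.1.eq_or_lt with h | h
    · exact Or.inr ⟨h, hok.2.2.1⟩
    · exact Or.inl h
  exact le_antisymm h2 h3

/-- the conclusions on the fine path (= the clock fields of `L8In.Fine`, L08/Glue.lean) -/
structure L8fClk (a η : ℝ) (b h K : ℝ → ℝ) (s : ℝ) (ps : List GhPos) : Prop where
  adm : LlStpAdm a (l9Stp a b h K 0 0 0 ps)
  dv_le : ∀ k ≤ (l9Stp a b h K 0 0 0 ps).length, skGap a (llMat (l9Stp a b h K 0 0 0 ps)) k ≤ η
  db_le : ∀ e ∈ l9Stp a b h K 0 0 0 ps, e.db ≤ η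
  dh_le : ∀ e ∈ l9Stp a b h K 0 0 0 ps, e.dh ≤ η
  dK_le : ∀ e ∈ l9Stp a b h K 0 0 0 ps, e.dK ≤ η
  b_top : b a - skCumB (llMat (l9Stp a b h K 0 0 0 ps)) (l9Stp a b h K 0 0 0 ps).length ≤ η
  h_top : h a - skCumH (llMat (l9Stp a b h K 0 0 0 ps)) (l9Stp a b h K 0 0 0 ps).length ≤ η
  K_top : K a - llCumK (l9Stp a b h K 0 0 0 ps) (l9Stp a b h K 0 0 0 ps).length ≤ η
  js_lt : l9Js s ps < (l9Stp a b h K 0 0 0 ps).length
  js_m : skMs a (llMat (l9Stp a b h K 0 0 0 ps)) (l9Js s ps) = s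
  js_next : s < skMs a (llMat (l9Stp a b h K 0 0 0 ps)) (l9Js s ps + 1)

theorem l8f_ms (a : ℝ) (b h K : ℝ → ℝ) (ps : List GhPos) (j : ℕ) :
    skMs a (llMat (l9Stp a b h K 0 0 0 ps)) j = (ps.map GhPos.u).getD j a := by
  unfold skMs llMat
  rw [List.map_map, ← l8f_stp_mass a b h K ps 0 0 0]
  rfl

theorem l8f_split {ps : List GhPos} {i : ℕ} (hi : i + 1 < ps.length) :
    ps = ps.take i ++ ps[i] :: ps[i + 1] :: ps.drop (i + 2) := by
  conv_lhs => rw [← List.take_append_drop i ps]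
  rw [List.drop_eq_getElem_cons (by omega : i < ps.length), List.drop_eq_getElem_cons hi]

theorem l8f_last {ps : List GhPos} (hs : ps.Pairwise (· < ·)) {i : ℕ} (hi : i + 1 = ps.length) : ∀ r ∈ ps, r ≤ ps[i] := by
  intro r hr
  obtain ⟨k, hk, rfl⟩ := List.getElem_of_mem hr
  rcases Nat.lt_or_ge k i with h | h
  · exact (List.pairwise_iff_getElem.1 hs k i hk (by omega) h).le
  · have : k = i := by omega
    subst this
    exact le_rfl

/-- the mass cells -/
theorem l8f_gap {a δ : ℝ} {ps : List GhPos} (hs : ps.Pairwise (· < ·)) (hnext : ∀ p p', L8fNext ps p p' → p'.u - p.u ≤ δ)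
    (hhead : ∀ p l, ps = p :: l → p.u ≤ δ) (hlast : ∀ p ∈ ps, (∀ r ∈ ps, r ≤ p) → a - p.u ≤ δ) (hne : ps ≠ []) (k : ℕ) (hk : k ≤ ps.length) :
    (ps.map GhPos.u).getD k a - (if k = 0 then 0 else (ps.map GhPos.u).getD (k - 1) a) ≤ δ := by
  cases k with
  | zero =>
    obtain ⟨p, l, rfl⟩ := List.exists_cons_of_ne_nil hne
    simpa using hhead p l rfl
  | succ i =>
    rw [if_neg (Nat.succ_ne_zero i), Nat.add_sub_cancel, List.getD_eq_getElem _ _ (by simpa using hk : i < (ps.map GhPos.u).length),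
      List.getElem_map]
    rcases Nat.lt_or_ge (i + 1) ps.length with h | h
    · rw [List.getD_eq_getElem _ _ (by simpa using h : i + 1 < (ps.map GhPos.u).length), List.getElem_map]
      refine hnext _ _ ?_
      have e := l8f_split h
      have := l8f_next_of_append (l1 := ps.take i) (p := ps[i]) (p' := ps[i + 1]) (l2 := ps.drop (i + 2)) (e ▸ hs)
      rwa [← e] at this
    · rw [List.getD_eq_default _ _ (by simpa using h)]
      exact hlast _ (List.getElem_mem _) (l8f_last hs (by omega))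

/-- `ghIdx` in plain form (the definition filters the list of the coerced positions) -/
theorem l8f_idx_coe (ps : List GhPos) (p : GhPos) :
    ghIdx ps (p : WithTop GhPos) = (ps.filter fun x : GhPos => decide (x ≤ p)).length := by
  unfold ghIdx
  rw [if_neg WithTop.coe_ne_top, add_zero]
  induction ps with
  | nil => rfl
  | cons x ps ih =>
    simp only [List.filter_cons] at ih ⊢
    simp only [List.bind_eq_flatMap, List.flatMap_cons, List.pure_def, List.singleton_append, List.filter_cons, WithTop.coe_le_coe] at ih ⊢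
    split_ifs <;> simp [ih]

/-- the tilt stage -/
theorem l8f_js {l1 l2 : List GhPos} {s : ℝ} (hs : (l1 ++ ghPosA s :: l2).Pairwise (· < ·)) : l9Js s (l1 ++ ghPosA s :: l2) = l1.length := by
  rw [List.pairwise_append] at hs
  obtain ⟨_, h2, h3⟩ := hs
  rw [List.pairwise_cons] at h2
  unfold l9Js
  rw [l8f_idx_coe, List.filter_append, List.filter_cons_of_pos (by simp)]
  have e1 : l1.filter (fun x => decide (x ≤ ghPosA s)) = l1 :=
    List.filter_eq_self.2 fun x hx => by simpa using (h3 x hx _ (by simp)).le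
  have e2 : l2.filter (fun x => decide (x ≤ ghPosA s)) = [] :=
    List.filter_eq_nil_iff.2 fun x hx => by simpa using h2.1 x hx
  rw [e1, e2]
  simp

/-- **PART A: the clock fields on a fine chain** -/
theorem l8f_clk {a δ η Jm s : ℝ} {M : ℕ} {J : Finset ℝ} {b h K : ℝ → ℝ} {ps : List GhPos} (ha : 0 < a) (hδ : 0 < δ) (hδη : δ ≤ η)
    (hM : 0 < M) (h0J : (0 : ℝ) ∈ J) (hf : L8fFine a δ M J ps) (hsa : s < a) (hsps : ghPosA s ∈ ps)
    (hb : GhClk1 a b) (hh : GhClk1 a h) (hK : GhClk1 a K)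
    (mb : L8fMod (ghClamp a b) J (2 * δ) η) (mh : L8fMod (ghClamp a h) J (2 * δ) η) (mK : L8fMod (ghClamp a K) J (2 * δ) η)
    (jb : b a ≤ Jm) (jh : h a ≤ Jm) (jK : K a ≤ Jm) (hJm0 : 0 ≤ Jm) (hMη : Jm ≤ M * η) : L8fClk a η b h K s ps := by
  have hη : 0 ≤ η := hδ.le.trans hδη
  have hne : ps ≠ [] := List.ne_nil_of_mem hsps
  have hlen := l8f_stp_length a b h K ps 0 0 0
  -- every revelation
  have key : ∀ e ∈ l9Stp a b h K 0 0 0 ps, (0 ≤ e.m ∧ e.m ≤ a) ∧ (0 ≤ e.db ∧ e.db ≤ η) ∧ (0 ≤ e.dh ∧ e.dh ≤ η) ∧ (0 ≤ e.dK ∧ e.dK ≤ η) := by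
    intro e he
    rcases l8f_stp_mem a b h K ps 0 0 0 e he with ⟨p, l, rfl, rfl⟩ | ⟨l1, p, p', l2, rfl, rfl⟩
    · have hp := l8f_head hf ha.le h0J
      subst hp
      have e0 : ∀ c : ℝ → ℝ, ghAt a c (ghPosB 0) - 0 = 0 := fun c => by rw [gh_os_at_posB, gh_os_left_zero a c le_rfl, sub_zero]
      simp only [e0]
      exact ⟨⟨le_rfl, ha.le⟩, ⟨le_rfl, hη⟩, ⟨le_rfl, hη⟩, ⟨le_rfl, hη⟩⟩
    · have hn := l8f_next_of_append hf.lt
      have hok := hf.ok p hn.1
      have hok' := hf.ok p' hn.2.1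
      exact ⟨⟨hok'.1, hok'.2.1⟩,
        ⟨sub_nonneg.2 (gh_os_at_mono ha.le hb hok.2.2.2 hok'.2.2.1 hn.2.2.1.le), l8f_next_le ha.le hb hf hM hδ mb jb hJm0 hMη hn⟩,
        ⟨sub_nonneg.2 (gh_os_at_mono ha.le hh hok.2.2.2 hok'.2.2.1 hn.2.2.1.le), l8f_next_le ha.le hh hf hM hδ mh jh hJm0 hMη hn⟩,
        ⟨sub_nonneg.2 (gh_os_at_mono ha.le hK hok.2.2.2 hok'.2.2.1 hn.2.2.1.le), l8f_next_le ha.le hK hf hM hδ mK jK hJm0 hMη hn⟩⟩
  have hpw : (l9Stp a b h K 0 0 0 ps).Pairwise fun x y => x.m ≤ y.m := by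
    have h1 : (ps.map GhPos.u).Pairwise (· ≤ ·) := by
      rw [List.pairwise_map]
      refine hf.lt.imp fun {p q} hpq => ?_
      rcases (gh_os_pos_lt_iff p q).1 hpq with h | h
      · exact h.le
      · exact h.1.le
    rw [← l8f_stp_mass a b h K ps 0 0 0, List.pairwise_map] at h1
    exact h1
  obtain ⟨pm, hpm, hmax, e1, e2, e3⟩ := l8f_stp_sum a b h K ps 0 0 0 hf.lt hne
  obtain ⟨l1, l2, hl⟩ := List.mem_iff_append.1 hsps
  have hjs : l9Js s ps = l1.length := by rw [hl]; exact l8f_js (hl ▸ hf.lt)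
  refine ⟨⟨⟨?_, ?_⟩, ⟨?_, ?_⟩⟩, ?_, fun e he => (key e he).2.1.2, fun e he => (key e he).2.2.1.2, fun e he => (key e he).2.2.2.2,
    ?_, ?_, ?_, ?_, ?_, ?_⟩
  · unfold llMat; rw [List.pairwise_map]; exact hpw
  · intro e he
    unfold llMat at he
    obtain ⟨x, hx, rfl⟩ := List.mem_map.1 he
    exact ⟨(key x hx).1.1, (key x hx).1.2, (key x hx).2.1.1, (key x hx).2.2.1.1⟩
  · unfold llSc; rw [List.pairwise_map]; exact hpw
  · intro e he
    unfold llSc at he
    obtain ⟨x, hx, rfl⟩ := List.mem_map.1 he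
    exact ⟨(key x hx).1.1, (key x hx).1.2, le_rfl, (key x hx).2.2.2.1⟩
  · intro k hk
    rw [hlen] at hk
    unfold skGap
    rw [l8f_ms, l8f_ms]
    refine (l8f_gap hf.lt (fun p p' hn => l8f_next_mass hf hM hδ.le hn) (fun p l hpl => ?_)
      (fun p hp hmx => (l8f_top_le ha.le hb hf hM hδ mb hp hmx).1) hne k hk).trans hδη
    have hp0 : p = ghPosB 0 := l8f_head (l := l) (hpl ▸ hf) ha.le h0J
    rw [hp0]
    exact hδ.le
  · have : skCumB (llMat (l9Stp a b h K 0 0 0 ps)) (l9Stp a b h K 0 0 0 ps).length = ghAt a b pm := by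
      unfold skCumB llMat
      rw [← List.map_take, List.take_length, List.map_map]
      rw [sub_zero] at e1
      exact e1
    rw [this]
    exact (l8f_top_le ha.le hb hf hM hδ mb hpm hmax).2
  · have : skCumH (llMat (l9Stp a b h K 0 0 0 ps)) (l9Stp a b h K 0 0 0 ps).length = ghAt a h pm := by
      unfold skCumH llMat
      rw [← List.map_take, List.take_length, List.map_map]
      rw [sub_zero] at e2
      exact e2
    rw [this]
    exact (l8f_top_le ha.le hh hf hM hδ mh hpm hmax).2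
  · have : llCumK (l9Stp a b h K 0 0 0 ps) (l9Stp a b h K 0 0 0 ps).length = ghAt a K pm := by
      unfold llCumK
      rw [List.take_length]
      rw [sub_zero] at e3
      exact e3
    rw [this]
    exact (l8f_top_le ha.le hK hf hM hδ mK hpm hmax).2
  · rw [hjs, hlen, hl]; simp
  · rw [l8f_ms, hjs, hl]
    simp [List.getD_eq_getElem?_getD, l8f_posA_u]
  · rw [l8f_ms, hjs, hl]
    cases l2 with
    | nil => simpa [List.getD_eq_getElem?_getD] using hsa
    | cons r l2 =>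
      have hs' := hf.lt
      rw [hl, List.pairwise_append, List.pairwise_cons] at hs'
      have h1 : ghPosA s < r := hs'.2.1.1 r (by simp)
      have hokr := hf.ok r (by rw [hl]; simp)
      have h2 : s < r.u := by
        rcases (gh_os_pos_lt_iff _ _).1 h1 with h | h
        · exact h
        · exact absurd h.2 (not_lt.2 hokr.2.2.2)
      simpa [List.getD_eq_getElem?_getD] using h2

/-! ## A4. the required positions -/

/-- the positions which make a chain fine: the masses `i δ`, `i ≤ n` (after their jumps), the positions `(j, i/M)` of the jump masses, and `(s,1)` -/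
noncomputable def l8fReq (δ : ℝ) (n M : ℕ) (J : Finset ℝ) (s : ℝ) : Finset GhPos := by
  classical
  exact (Finset.range (n + 1)).image (fun i : ℕ => ghPosA ((i : ℝ) * δ)) ∪
    J.biUnion (fun j => (Finset.range (M + 1)).image fun i : ℕ => ghPosF j ((i : ℝ) / M)) ∪ {ghPosA s}

theorem l8f_fine_of_req {a δ s : ℝ} {n M : ℕ} {J : Finset ℝ} {Fs : Finset GhPos} (hδ : 0 < δ) (hn : 4 ≤ (n : ℝ) * δ) (ha4 : a ≤ 4)
    (hFs : l8fReq δ n M J s ⊆ Fs) : L8fFine a δ M J (ghPs a Fs) := by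
  classical
  refine ⟨gh_os_ps_lt a Fs, fun p hp => (gh_os_ps_mem.1 hp).2, fun u u' h0 h1 hd => ?_, fun j hj h0 h1 i hi => ?_⟩
  · set i : ℕ := ⌊u / δ⌋₊ + 1 with hi
    have h2 : u / δ < i := by rw [hi]; push_cast; exact Nat.lt_floor_add_one _
    have h3 : (i : ℝ) ≤ u / δ + 1 := by
      rw [hi]; push_cast
      linarith [Nat.floor_le (div_nonneg h0 hδ.le)]
    have h4 : u < (i : ℝ) * δ := by rwa [div_lt_iff₀ hδ] at h2
    have h5 : (i : ℝ) * δ ≤ u + δ := by
      have := mul_le_mul_of_nonneg_right h3 hδ.le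
      have e : (u / δ + 1) * δ = u + δ := by field_simp
      linarith
    have h6 : i ≤ n := by
      have : (i : ℝ) * δ < (n : ℝ) * δ := by linarith
      have := lt_of_mul_lt_mul_right this hδ.le
      exact_mod_cast this.le
    refine ⟨(i : ℝ) * δ, h4, by linarith, gh_os_ps_mem.2 ⟨hFs ?_, gh_os_posA_ok (by linarith) (by linarith)⟩⟩
    unfold l8fReq
    exact Finset.mem_union_left _ (Finset.mem_union_left _ (Finset.mem_image.2 ⟨i, Finset.mem_range.2 (by omega), rfl⟩))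
  · refine gh_os_ps_mem.2 ⟨hFs ?_, h0, h1, ?_, ?_⟩
    · unfold l8fReq
      exact Finset.mem_union_left _ (Finset.mem_union_right _ (Finset.mem_biUnion.2 ⟨j, hj, Finset.mem_image.2 ⟨i, Finset.mem_range.2 (by omega), rfl⟩⟩))
    · show 0 ≤ (i : ℝ) / M
      positivity
    · show (i : ℝ) / M ≤ 1
      exact div_le_one_of_le₀ (by exact_mod_cast hi) (Nat.cast_nonneg _)

theorem l8f_req_s {a δ s : ℝ} {n M : ℕ} {J : Finset ℝ} {Fs : Finset GhPos} (hs0 : 0 ≤ s) (hsa : s ≤ a) (hFs : l8fReq δ n M J s ⊆ Fs) :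
    ghPosA s ∈ ghPs a Fs := by
  classical
  refine gh_os_ps_mem.2 ⟨hFs ?_, gh_os_posA_ok hs0 hsa⟩
  unfold l8fReq
  exact Finset.mem_union_right _ (Finset.mem_singleton_self _)

theorem l8fReq_eqns_cite : True := by
  have := @l8fReq.eq_1
  trivial

/-! ## A5. exact values -/

theorem L8fMod.mono {f : ℝ → ℝ} {J J' : Finset ℝ} {δ δ' η η' : ℝ} (h : L8fMod f J δ η) (hJ : J ⊆ J') (hδ : δ' ≤ δ) (hη : η ≤ η') :
    L8fMod f J' δ' η' := fun w w' h1 h2 h3 => (h w w' h1 (h2.trans hδ) fun j hj => h3 j (hJ hj)).trans hη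

/-- a modulus for every `η`: right continuity everywhere -/
theorem l8f_right_eq {f : ℝ → ℝ} (hf : Monotone f) {J : Finset ℝ} (hmod : ∀ η > 0, ∃ δ > 0, L8fMod f J δ η) (u : ℝ) : rightLim f u = f u := by
  refine le_antisymm (le_of_forall_pos_le_add fun η hη => ?_) (hf.le_rightLim le_rfl)
  obtain ⟨δ, hδ, hm⟩ := hmod η hη
  obtain ⟨ε, hε, hsep⟩ := l8f_sep J u
  have hmin : 0 < min ε δ := lt_min hε hδ
  have h1 := hm u (u + min ε δ / 2) (by linarith) (by linarith [min_le_right ε δ]) (fun j hj h => by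
    have h2 := hsep j hj h.1.ne'
    rw [abs_of_pos (by linarith [h.1])] at h2
    linarith [h.2, min_le_left ε δ])
  have h2 := hf.rightLim_le (x := u) (y := u + min ε δ / 2) (by linarith)
  linarith

/-- left continuity off the jump masses -/
theorem l8f_left_eq {f : ℝ → ℝ} (hf : Monotone f) {J : Finset ℝ} (hmod : ∀ η > 0, ∃ δ > 0, L8fMod f J δ η) {u : ℝ} (hu : u ∉ J) :
    leftLim f u = f u := by
  refine le_antisymm (hf.leftLim_le le_rfl) (le_of_forall_pos_le_add fun η hη => ?_)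
  obtain ⟨δ, hδ, hm⟩ := hmod η hη
  obtain ⟨ε, hε, hsep⟩ := l8f_sep J u
  have hmin : 0 < min ε δ := lt_min hε hδ
  have h1 := hm (u - min ε δ / 2) u (by linarith) (by linarith [min_le_right ε δ]) (fun j hj h => by
    have hne : j ≠ u := fun e => hu (e ▸ hj)
    have h2 := hsep j hj hne
    rw [abs_of_nonpos (by linarith [h.2])] at h2
    linarith [h.1, min_le_left ε δ])
  have h2 := hf.le_leftLim (x := u - min ε δ / 2) (y := u) (by linarith)
  linarith

theorem l8f_clamp_eq {a : ℝ} (c : ℝ → ℝ) {u : ℝ} (h0 : 0 ≤ u) (h1 : u ≤ a) : ghClamp a c u = c u := by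
  unfold ghClamp
  rw [if_neg (not_lt.2 h0), min_eq_left h1]

/-- **the value of a clock at a position** which is not inside a jump -/
theorem l8f_at_cont {a : ℝ} {c : ℝ → ℝ} (ha : 0 ≤ a) (hc : GhClk1 a c) {J : Finset ℝ} (hmod : ∀ η > 0, ∃ δ > 0, L8fMod (ghClamp a c) J δ η)
    {p : GhPos} (hp : p.Ok a) (h : p.u ∉ J ∨ p.lam = 1) : ghAt a c p = c p.u := by
  have hm := gh_os_clamp_mono ha hc
  have hr := l8f_right_eq hm hmod p.u
  rw [l8f_clamp_eq c hp.1 hp.2.1] at hr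
  unfold ghAt
  rcases h with h | h
  · have hl := l8f_left_eq hm hmod h
    rw [l8f_clamp_eq c hp.1 hp.2.1] at hl
    rw [hr, hl]; ring
  · rw [hr, h]; ring

/-- inside a jump: between the left limit and the value -/
theorem l8f_at_mem {a : ℝ} {c : ℝ → ℝ} (ha : 0 ≤ a) (hc : GhClk1 a c) {J : Finset ℝ} (hmod : ∀ η > 0, ∃ δ > 0, L8fMod (ghClamp a c) J δ η)
    {p : GhPos} (hp : p.Ok a) : 0 ≤ ghAt a c p ∧ ghAt a c p ≤ c p.u := by
  have hr := l8f_right_eq (gh_os_clamp_mono ha hc) hmod p.u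
  rw [l8f_clamp_eq c hp.1 hp.2.1] at hr
  exact ⟨gh_os_at_nonneg ha hc hp.2.2.1, hr ▸ gh_os_at_le_right ha hc hp.2.2.2⟩

/-- the cumulated clocks after the stage `k` are the values at the position number `k` -/
theorem l8f_take_sum (a : ℝ) (b h K : ℝ → ℝ) : ∀ (ps : List GhPos) (b0 h0 K0 : ℝ) (k : ℕ) (hk : k < ps.length),
    (((l9Stp a b h K b0 h0 K0 ps).take (k + 1)).map LlInc.db).sum = ghAt a b ps[k] - b0 ∧
    (((l9Stp a b h K b0 h0 K0 ps).take (k + 1)).map LlInc.dh).sum = ghAt a h ps[k] - h0 ∧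
    (((l9Stp a b h K b0 h0 K0 ps).take (k + 1)).map LlInc.dK).sum = ghAt a K ps[k] - K0
  | [], _, _, _, _, hk => by simp at hk
  | p :: l, b0, h0, K0, 0, _ => by simp [l9Stp]
  | p :: l, b0, h0, K0, k + 1, hk => by
      obtain ⟨e1, e2, e3⟩ := l8f_take_sum a b h K l (ghAt a b p) (ghAt a h p) (ghAt a K p) k (by simpa using hk)
      rw [l9Stp, List.take_succ_cons, List.map_cons, List.map_cons, List.map_cons, List.sum_cons, List.sum_cons, List.sum_cons, e1, e2, e3]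
      simp only [List.getElem_cons_succ]
      refine ⟨by ring, by ring, by ring⟩

theorem l8f_cum (a : ℝ) (b h K : ℝ → ℝ) (ps : List GhPos) (k : ℕ) (hk : k < ps.length) :
    skCumB (llMat (l9Stp a b h K 0 0 0 ps)) (k + 1) = ghAt a b ps[k] ∧ skCumH (llMat (l9Stp a b h K 0 0 0 ps)) (k + 1) = ghAt a h ps[k] ∧
    llCumK (l9Stp a b h K 0 0 0 ps) (k + 1) = ghAt a K ps[k] := by
  obtain ⟨e1, e2, e3⟩ := l8f_take_sum a b h K ps 0 0 0 k hk
  rw [sub_zero] at e1 e2 e3
  refine ⟨?_, ?_, e3⟩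
  · unfold skCumB llMat
    rw [← List.map_take, List.map_map]
    exact e1
  · unfold skCumH llMat
    rw [← List.map_take, List.map_map]
    exact e2

/-- the mass of the stage `k` -/
theorem l8f_ms_lt (a : ℝ) (b h K : ℝ → ℝ) (ps : List GhPos) (k : ℕ) (hk : k < ps.length) :
    skMs a (llMat (l9Stp a b h K 0 0 0 ps)) k = ps[k].u := by
  rw [l8f_ms, List.getD_eq_getElem _ _ (by simpa using hk), List.getElem_map]

/-! ## A6. chains which do NOT split the jump at the mass `0`   (the chains `ghPs a (l9Fl Fs)` of the instances: `(0,1)` is the only position of mass `0`)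

`J` = the jump masses which the chain splits (`0 ∉ J`);  the matrix clock `b` has the modulus off `insert 0 J`, the clocks `h`, `K` off `J` (no jump at `0`). -/

section zero
variable {a δ : ℝ} {M : ℕ} {J : Finset ℝ} {ps : List GhPos} {p p' : GhPos}

theorem l8f_next_le0 {c : ℝ → ℝ} {η Jm : ℝ} (ha : 0 ≤ a) (hc : GhClk1 a c) (h : L8fFine a δ M J ps) (h01 : ∀ p ∈ ps, p.u = 0 → p.lam = 1)
    (hM : 0 < M) (hδ : 0 < δ) (hmod : L8fMod (ghClamp a c) (insert 0 J) (2 * δ) η) (hJm : c a ≤ Jm) (hJm0 : 0 ≤ Jm) (hMη : Jm ≤ M * η)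
    (hn : L8fNext ps p p') : ghAt a c p' - ghAt a c p ≤ η := by
  classical
  have hMr : (0 : ℝ) < M := Nat.cast_pos.2 hM
  have hok := h.ok p hn.1
  have hok' := h.ok p' hn.2.1
  refine l8f_at_sub_le (gh_os_clamp_mono ha hc) (insert 0 J) hδ hmod (fun j _ => (l8f_jump_le ha hc j).trans hJm) hok.2.2.1
    hok'.2.2.2 (fun hu => ?_) (fun hu => ?_)
  · have hl : p.lam < p'.lam := by
      rcases (gh_os_pos_lt_iff p p').1 hn.2.2.1 with h1 | h1
      · exact absurd hu h1.ne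
      · exact h1.2
    refine ⟨hl.le, fun hJ => ?_⟩
    rcases Finset.mem_insert.1 hJ with h0 | hJ
    · have e1 := h01 p hn.1 h0
      have e2 := h01 p' hn.2.1 (hu ▸ h0)
      rw [e1, e2] at hl
      exact absurd hl (lt_irrefl _)
    · obtain ⟨_, h2⟩ := l8f_next_same h hM hn hu hJ
      calc (p'.lam - p.lam) * Jm ≤ 1 / M * Jm := mul_le_mul_of_nonneg_right h2 hJm0
        _ ≤ 1 / M * (M * η) := mul_le_mul_of_nonneg_left hMη (by positivity)
        _ = η := by field_simp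
  · obtain ⟨h1, h2, h3, h4, h5⟩ := l8f_next_diff h hM hn hu
    refine ⟨h1, h2, fun hJ => ?_, fun hJ => ?_, fun j hj hh => ?_⟩
    · rcases Finset.mem_insert.1 hJ with h0 | hJ
      · exact h01 p hn.1 h0
      · exact h3 hJ
    · rcases Finset.mem_insert.1 hJ with h0 | hJ
      · linarith [hok.1]
      · exact h4 hJ
    · rcases Finset.mem_insert.1 hj with rfl | hj
      · linarith [hok.1, hh.1]
      · exact h5 j hj hh

theorem l8f_top_le0 {c : ℝ → ℝ} {η : ℝ} (ha : 0 ≤ a) (hc : GhClk1 a c) (h : L8fFine a δ M J ps) (h01 : ∀ p ∈ ps, p.u = 0 → p.lam = 1)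
    (hM : 0 < M) (hδ : 0 < δ) (hmod : L8fMod (ghClamp a c) (insert 0 J) (2 * δ) η) (hp : p ∈ ps) (hmax : ∀ r ∈ ps, r ≤ p) :
    c a - ghAt a c p ≤ η := by
  classical
  have hok := h.ok p hp
  have hd : a - p.u ≤ δ := by
    by_contra hc'
    push Not at hc'
    obtain ⟨g, h1, _, h3⟩ := h.grid p.u a hok.1 le_rfl hc'
    exact absurd (hmax _ h3) (not_le.2 ((gh_os_pos_lt_iff _ _).2 (Or.inl h1)))
  obtain ⟨w, hw1, hw2, hw3, -, hw5⟩ := l8f_low (gh_os_clamp_mono ha hc) (insert 0 J) (δ := δ / 2) (by linarith) hok.2.2.1 (fun hJ => by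
    rcases Finset.mem_insert.1 hJ with h0 | hJ
    · exact h01 p hp h0
    · by_contra hc'
      have hl : p.lam < 1 := lt_of_le_of_ne hok.2.2.2 hc'
      exact absurd (hmax _ (h.posA hM hJ hok.1 hok.2.1)) (not_le.2 ((gh_os_pos_lt_iff _ _).2 (Or.inr ⟨rfl, hl⟩))))
  have h1 := hmod w a (hw1.trans hok.2.1) (by linarith) (fun j hj hh => by
    rcases le_or_gt j p.u with hle | hgt
    · exact hw5 j hj ⟨hh.1, hle⟩
    · rcases Finset.mem_insert.1 hj with rfl | hj
      · linarith [hok.1]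
      · exact absurd (hmax _ (h.posA hM hj (hok.1.trans hgt.le) hh.2)) (not_le.2 ((gh_os_pos_lt_iff _ _).2 (Or.inl hgt))))
  have h2 : ghClamp a c a = c a := by
    unfold ghClamp
    rw [if_neg (not_lt.2 ha), min_self]
  rw [h2] at h1
  rw [l8f_at_eq]
  linarith

/-- the first position is `(0,1)` -/
theorem l8f_head0 {l : List GhPos} (hlt : (p :: l).Pairwise (· < ·)) (hok : ∀ q ∈ p :: l, q.Ok a) (h0 : ghPosA 0 ∈ p :: l)
    (h01 : ∀ q ∈ p :: l, q.u = 0 → q.lam = 1) : p = ghPosA 0 := by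
  have hokp := hok p (by simp)
  have h2 : p ≤ ghPosA 0 := by
    rcases List.mem_cons.1 h0 with h | h
    · exact h.ge
    · exact ((List.pairwise_cons.1 hlt).1 _ h).le
  have h3 : ghPosA 0 ≤ p := by
    rw [gh_os_pos_le_iff]
    rcases hokp.1.eq_or_lt with h | h
    · exact Or.inr ⟨h, (h01 p (by simp) h.symm).ge⟩
    · exact Or.inl h
  exact le_antisymm h2 h3

/-- the value just after the mass `0` of a clock without a jump there -/
theorem l8f_at_zero_le {c : ℝ → ℝ} {η : ℝ} (ha : 0 ≤ a) (hc : GhClk1 a c) (hδ : 0 < δ) (h0J : (0 : ℝ) ∉ J)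
    (hmod : L8fMod (ghClamp a c) J (2 * δ) η) : ghAt a c (ghPosA 0) ≤ η := by
  have hm := gh_os_clamp_mono ha hc
  obtain ⟨ε, hε, hsep⟩ := l8f_sep J 0
  have hmin : 0 < min ε δ := lt_min hε hδ
  have h1 := hmod (-(min ε δ / 2)) (min ε δ / 2) (by linarith) (by linarith [min_le_right ε δ]) (fun j hj h => by
    have hne : j ≠ 0 := fun e => h0J (e ▸ hj)
    have h2 := hsep j hj hne
    rw [sub_zero] at h2
    have h3 : |j| ≤ min ε δ / 2 := abs_le.2 ⟨h.1.le, h.2⟩
    linarith [min_le_left ε δ])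
  have h2 : ghClamp a c (-(min ε δ / 2)) = 0 := by
    unfold ghClamp
    rw [if_pos (by linarith)]
  rw [h2, sub_zero] at h1
  have h3 : ghAt a c (ghPosA 0) = rightLim (ghClamp a c) 0 := by
    rw [l8f_at_eq]; unfold l8fAt; rw [l8f_posA_u, l8f_posA_lam]; ring
  rw [h3]
  exact (hm.rightLim_le (by linarith)).trans h1

end zero

/-- the clock fields of `L8In.Fine` on a chain which does not split the jump at `0`, and the chain part of `LlTiltA4` -/
structure L8fClk0 (a η : ℝ) (b h K : ℝ → ℝ) (s : ℝ) (ps : List GhPos) : Prop where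
  adm : LlStpAdm a (l9Stp a b h K 0 0 0 ps)
  dv_le : ∀ k ≤ (l9Stp a b h K 0 0 0 ps).length, skGap a (llMat (l9Stp a b h K 0 0 0 ps)) k ≤ η
  db_le : ∀ e ∈ l9Stp a b h K 0 0 0 ps, 0 < e.m → e.db ≤ η
  dh_le : ∀ e ∈ l9Stp a b h K 0 0 0 ps, e.dh ≤ η
  dK_le : ∀ e ∈ l9Stp a b h K 0 0 0 ps, e.dK ≤ η
  b_top : b a - skCumB (llMat (l9Stp a b h K 0 0 0 ps)) (l9Stp a b h K 0 0 0 ps).length ≤ η
  h_top : h a - skCumH (llMat (l9Stp a b h K 0 0 0 ps)) (l9Stp a b h K 0 0 0 ps).length ≤ η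
  K_top : K a - llCumK (l9Stp a b h K 0 0 0 ps) (l9Stp a b h K 0 0 0 ps).length ≤ η
  js_lt : l9Js s ps < (l9Stp a b h K 0 0 0 ps).length
  js_m : skMs a (llMat (l9Stp a b h K 0 0 0 ps)) (l9Js s ps) = s
  js_next : s < skMs a (llMat (l9Stp a b h K 0 0 0 ps)) (l9Js s ps + 1)
  /-- the stage `0` is `(0,1)`, the stage `js` is `(s,1)`; all the other stages have a positive mass -/
  m0 : llMs a (l9Stp a b h K 0 0 0 ps) 0 = 0
  m_pos : ∀ k, 0 < k → 0 < skMs a (llMat (l9Stp a b h K 0 0 0 ps)) k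
  b_one : skCumB (llMat (l9Stp a b h K 0 0 0 ps)) 1 = ghAt a b (ghPosA 0)
  b_js : skCumB (llMat (l9Stp a b h K 0 0 0 ps)) (l9Js s ps + 1) = ghAt a b (ghPosA s)
  h_js : skCumH (llMat (l9Stp a b h K 0 0 0 ps)) (l9Js s ps + 1) = ghAt a h (ghPosA s)
  K_js : llCumK (l9Stp a b h K 0 0 0 ps) (l9Js s ps + 1) = ghAt a K (ghPosA s)

/-- **PART A, chains of the instances** -/
theorem l8f_clk0 {a δ η Jm s : ℝ} {M : ℕ} {J : Finset ℝ} {b h K : ℝ → ℝ} {ps : List GhPos} (ha : 0 < a) (hδ : 0 < δ) (hδη : δ ≤ η)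
    (hM : 0 < M) (h0J : (0 : ℝ) ∉ J) (hf : L8fFine a δ M J ps) (h0 : ghPosA 0 ∈ ps) (h01 : ∀ p ∈ ps, p.u = 0 → p.lam = 1)
    (hsa : s < a) (hsps : ghPosA s ∈ ps) (hb : GhClk1 a b) (hh : GhClk1 a h) (hK : GhClk1 a K)
    (mb : L8fMod (ghClamp a b) (insert 0 J) (2 * δ) η) (mh : L8fMod (ghClamp a h) J (2 * δ) η) (mK : L8fMod (ghClamp a K) J (2 * δ) η)
    (jb : b a ≤ Jm) (jh : h a ≤ Jm) (jK : K a ≤ Jm) (hJm0 : 0 ≤ Jm) (hMη : Jm ≤ M * η) : L8fClk0 a η b h K s ps := by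
  classical
  have hη : 0 ≤ η := hδ.le.trans hδη
  have hne : ps ≠ [] := List.ne_nil_of_mem hsps
  have hlen := l8f_stp_length a b h K ps 0 0 0
  have hhead : ∀ p l, ps = p :: l → p = ghPosA 0 := fun p l hpl => by
    subst hpl
    exact l8f_head0 hf.lt hf.ok h0 h01
  -- every revelation
  have key : ∀ e ∈ l9Stp a b h K 0 0 0 ps, (0 ≤ e.m ∧ e.m ≤ a) ∧ (0 ≤ e.db ∧ (0 < e.m → e.db ≤ η)) ∧ (0 ≤ e.dh ∧ e.dh ≤ η) ∧ (0 ≤ e.dK ∧ e.dK ≤ η) := by
    intro e he
    rcases l8f_stp_mem a b h K ps 0 0 0 e he with ⟨p, l, hpl, rfl⟩ | ⟨l1, p, p', l2, rfl, rfl⟩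
    · have hp := hhead p l hpl
      subst hp
      have hok0 : (ghPosA 0).Ok a := gh_os_posA_ok le_rfl ha.le
      simp only [sub_zero]
      exact ⟨⟨le_rfl, ha.le⟩, ⟨gh_os_at_nonneg ha.le hb hok0.2.2.1, fun h => absurd h (lt_irrefl _)⟩,
        ⟨gh_os_at_nonneg ha.le hh hok0.2.2.1, l8f_at_zero_le ha.le hh hδ h0J mh⟩,
        ⟨gh_os_at_nonneg ha.le hK hok0.2.2.1, l8f_at_zero_le ha.le hK hδ h0J mK⟩⟩
    · have hn := l8f_next_of_append hf.lt
      have hok := hf.ok p hn.1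
      have hok' := hf.ok p' hn.2.1
      exact ⟨⟨hok'.1, hok'.2.1⟩,
        ⟨sub_nonneg.2 (gh_os_at_mono ha.le hb hok.2.2.2 hok'.2.2.1 hn.2.2.1.le), fun _ => l8f_next_le0 ha.le hb hf h01 hM hδ mb jb hJm0 hMη hn⟩,
        ⟨sub_nonneg.2 (gh_os_at_mono ha.le hh hok.2.2.2 hok'.2.2.1 hn.2.2.1.le), l8f_next_le ha.le hh hf hM hδ mh jh hJm0 hMη hn⟩,
        ⟨sub_nonneg.2 (gh_os_at_mono ha.le hK hok.2.2.2 hok'.2.2.1 hn.2.2.1.le), l8f_next_le ha.le hK hf hM hδ mK jK hJm0 hMη hn⟩⟩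
  have hpw : (l9Stp a b h K 0 0 0 ps).Pairwise fun x y => x.m ≤ y.m := by
    have h1 : (ps.map GhPos.u).Pairwise (· ≤ ·) := by
      rw [List.pairwise_map]
      refine hf.lt.imp fun {p q} hpq => ?_
      rcases (gh_os_pos_lt_iff p q).1 hpq with h | h
      · exact h.le
      · exact h.1.le
    rw [← l8f_stp_mass a b h K ps 0 0 0, List.pairwise_map] at h1
    exact h1
  obtain ⟨pm, hpm, hmax, e1, e2, e3⟩ := l8f_stp_sum a b h K ps 0 0 0 hf.lt hne
  obtain ⟨l1, l2, hl⟩ := List.mem_iff_append.1 hsps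
  have hjs : l9Js s ps = l1.length := by rw [hl]; exact l8f_js (hl ▸ hf.lt)
  have hjlt : l9Js s ps < ps.length := by rw [hjs, hl]; simp
  have hjel : ps[l9Js s ps]'hjlt = ghPosA s := by
    have h1 : ps[l9Js s ps]? = some (ghPosA s) := by rw [hjs, hl]; simp
    obtain ⟨_, h2⟩ := List.getElem?_eq_some_iff.1 h1
    exact h2
  obtain ⟨p0, l0, hpl0⟩ := List.exists_cons_of_ne_nil hne
  have hp0 := hhead p0 l0 hpl0
  have h0lt : 0 < ps.length := by rw [hpl0]; simp
  have h0el : ps[0]'h0lt = ghPosA 0 := by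
    have h1 : ps[0]? = some (ghPosA 0) := by rw [hpl0, hp0]; simp
    obtain ⟨_, h2⟩ := List.getElem?_eq_some_iff.1 h1
    exact h2
  refine ⟨⟨⟨?_, ?_⟩, ⟨?_, ?_⟩⟩, ?_, fun e he => (key e he).2.1.2, fun e he => (key e he).2.2.1.2, fun e he => (key e he).2.2.2.2,
    ?_, ?_, ?_, ?_, ?_, ?_, ?_, ?_, ?_, ?_, ?_, ?_⟩
  · unfold llMat; rw [List.pairwise_map]; exact hpw
  · intro e he
    unfold llMat at he
    obtain ⟨x, hx, rfl⟩ := List.mem_map.1 he
    exact ⟨(key x hx).1.1, (key x hx).1.2, (key x hx).2.1.1, (key x hx).2.2.1.1⟩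
  · unfold llSc; rw [List.pairwise_map]; exact hpw
  · intro e he
    unfold llSc at he
    obtain ⟨x, hx, rfl⟩ := List.mem_map.1 he
    exact ⟨(key x hx).1.1, (key x hx).1.2, le_rfl, (key x hx).2.2.2.1⟩
  · intro k hk
    rw [hlen] at hk
    unfold skGap
    rw [l8f_ms, l8f_ms]
    refine (l8f_gap hf.lt (fun p p' hn => l8f_next_mass hf hM hδ.le hn) (fun p l hpl => ?_)
      (fun p hp hmx => (l8f_top_le ha.le hh hf hM hδ mh hp hmx).1) hne k hk).trans hδη
    rw [hhead p l hpl]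
    exact hδ.le
  · have : skCumB (llMat (l9Stp a b h K 0 0 0 ps)) (l9Stp a b h K 0 0 0 ps).length = ghAt a b pm := by
      unfold skCumB llMat
      rw [← List.map_take, List.take_length, List.map_map]
      rw [sub_zero] at e1
      exact e1
    rw [this]
    exact l8f_top_le0 ha.le hb hf h01 hM hδ mb hpm hmax
  · have : skCumH (llMat (l9Stp a b h K 0 0 0 ps)) (l9Stp a b h K 0 0 0 ps).length = ghAt a h pm := by
      unfold skCumH llMat
      rw [← List.map_take, List.take_length, List.map_map]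
      rw [sub_zero] at e2
      exact e2
    rw [this]
    exact (l8f_top_le ha.le hh hf hM hδ mh hpm hmax).2
  · have : llCumK (l9Stp a b h K 0 0 0 ps) (l9Stp a b h K 0 0 0 ps).length = ghAt a K pm := by
      unfold llCumK
      rw [List.take_length]
      rw [sub_zero] at e3
      exact e3
    rw [this]
    exact (l8f_top_le ha.le hK hf hM hδ mK hpm hmax).2
  · rw [hlen]; exact hjlt
  · rw [l8f_ms_lt a b h K ps _ hjlt, hjel]; rfl
  · rw [l8f_ms, hjs, hl]
    cases l2 with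
    | nil => simpa [List.getD_eq_getElem?_getD] using hsa
    | cons r l2 =>
      have hs' := hf.lt
      rw [hl, List.pairwise_append, List.pairwise_cons] at hs'
      have h1 : ghPosA s < r := hs'.2.1.1 r (by simp)
      have hokr := hf.ok r (by rw [hl]; simp)
      have h2 : s < r.u := by
        rcases (gh_os_pos_lt_iff _ _).1 h1 with h | h
        · exact h
        · exact absurd h.2 (not_lt.2 hokr.2.2.2)
      simpa [List.getD_eq_getElem?_getD] using h2
  · unfold llMs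
    rw [l8f_stp_mass, hpl0, hp0]
    simp [l8f_posA_u]
  · intro k hk
    rcases Nat.lt_or_ge k ps.length with hkl | hkl
    · rw [l8f_ms_lt a b h K ps k hkl]
      have h1 : ps[0]'h0lt < ps[k] := List.pairwise_iff_getElem.1 hf.lt 0 k h0lt hkl hk
      rw [h0el] at h1
      have hokk := hf.ok ps[k] (List.getElem_mem _)
      rcases (gh_os_pos_lt_iff _ _).1 h1 with h | h
      · exact h
      · exact absurd h.2 (not_lt.2 hokk.2.2.2)
    · rw [l8f_ms, List.getD_eq_default _ _ (by simpa using hkl)]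
      exact ha
  · rw [(l8f_cum a b h K ps 0 h0lt).1, h0el]
  · rw [(l8f_cum a b h K ps _ hjlt).1, hjel]
  · rw [(l8f_cum a b h K ps _ hjlt).2.1, hjel]
  · rw [(l8f_cum a b h K ps _ hjlt).2.2, hjel]

/-- partial sums of a list of nonnegative numbers (helper218, for the field `low` of `LlTiltA4`) -/
theorem l8f_take_succ (L : List ℝ) {l : ℕ} (hl : l < L.length) : (L.take (l + 1)).sum = (L.take l).sum + L[l] := by
  rw [List.take_succ_eq_append_getElem hl, List.sum_append]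
  simp

theorem l8f_take_mono (L : List ℝ) (h : ∀ x ∈ L, 0 ≤ x) : Monotone fun j => (L.take j).sum := by
  refine monotone_nat_of_le_succ fun j => ?_
  rcases Nat.lt_or_ge j L.length with hj | hj
  · show (L.take j).sum ≤ (L.take (j + 1)).sum
    rw [l8f_take_succ L hj]
    have := h _ (List.getElem_mem hj)
    linarith
  · show (L.take j).sum ≤ (L.take (j + 1)).sum
    rw [List.take_of_length_le hj, List.take_of_length_le (by omega)]

theorem l8f_zero_between (L : List ℝ) (h : ∀ x ∈ L, 0 ≤ x) {i j l : ℕ} (hil : i ≤ l) (hlj : l < j) (hl : l < L.length)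
    (he : (L.take j).sum = (L.take i).sum) : L[l] = 0 := by
  have h1 : (L.take i).sum ≤ (L.take l).sum := l8f_take_mono L h hil
  have h2 : (L.take (l + 1)).sum ≤ (L.take j).sum := l8f_take_mono L h hlj
  rw [l8f_take_succ L hl] at h2
  have h3 := h _ (List.getElem_mem hl)
  linarith

/-- the hypotheses of (A4) on such a chain: `h (s+) = 0`, `b (s+) = b (0+)` -/
theorem L8fClk0.a4 {a η s : ℝ} {b h K : ℝ → ℝ} {ps : List GhPos} (H : L8fClk0 a η b h K s ps) (hs : ghAt a h (ghPosA s) = 0)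
    (bs : ghAt a b (ghPosA s) = ghAt a b (ghPosA 0)) : LlTiltA4 a (l9Stp a b h K 0 0 0 ps) (l9Js s ps) := by
  refine ⟨H.adm, ⟨H.js_lt, H.h_js.trans hs⟩, ?_⟩
  intro l hl e he
  obtain ⟨hlt, hel⟩ := List.getElem?_eq_some_iff.1 he
  have hnn := H.adm.1.2
  have hlen : (llMat (l9Stp a b h K 0 0 0 ps)).length = (l9Stp a b h K 0 0 0 ps).length := by simp [llMat]
  refine ⟨?_, ?_⟩
  · have h1 : (((llMat (l9Stp a b h K 0 0 0 ps)).map SkInc.dh).take (l9Js s ps + 1)).sum
        = (((llMat (l9Stp a b h K 0 0 0 ps)).map SkInc.dh).take 0).sum := by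
      rw [← List.map_take]
      exact (H.h_js.trans hs).trans (by simp)
    have h2 := l8f_zero_between ((llMat (l9Stp a b h K 0 0 0 ps)).map SkInc.dh)
      (fun x hx => by obtain ⟨e', he', rfl⟩ := List.mem_map.1 hx; exact (hnn e' he').2.2.2)
      (Nat.zero_le l) (Nat.lt_succ_of_le hl) (by simpa [llMat] using hlt) h1
    simpa [llMat, hel] using h2
  · rcases Nat.eq_zero_or_pos l with rfl | hl0
    · right
      have h3 := H.m0
      unfold llMs at h3
      simpa [he] using h3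
    · left
      have h1 : (((llMat (l9Stp a b h K 0 0 0 ps)).map SkInc.db).take (l9Js s ps + 1)).sum
          = (((llMat (l9Stp a b h K 0 0 0 ps)).map SkInc.db).take 1).sum := by
        rw [← List.map_take, ← List.map_take]
        exact (H.b_js.trans bs).trans H.b_one.symm
      have h2 := l8f_zero_between ((llMat (l9Stp a b h K 0 0 0 ps)).map SkInc.db)
        (fun x hx => by obtain ⟨e', he', rfl⟩ := List.mem_map.1 hx; exact (hnn e' he').2.2.1)
        hl0 (Nat.lt_succ_of_le hl) (by simpa [llMat] using hlt) h1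
      simpa [llMat, hel] using h2

/-- the required positions survive the filter `q.u = 0 → q.lam = 1` -/
theorem l8f_req_fl {δ s : ℝ} {n M : ℕ} {J : Finset ℝ} (h0J : (0 : ℝ) ∉ J) : ∀ q ∈ l8fReq δ n M J s, q.u = 0 → q.lam = 1 := by
  classical
  intro q hq hu
  unfold l8fReq at hq
  rcases Finset.mem_union.1 hq with hq | hq
  · rcases Finset.mem_union.1 hq with hq | hq
    · obtain ⟨i, _, rfl⟩ := Finset.mem_image.1 hq
      rfl
    · obtain ⟨j, hj, hq⟩ := Finset.mem_biUnion.1 hq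
      obtain ⟨i, _, rfl⟩ := Finset.mem_image.1 hq
      exact absurd (show j = 0 from hu) (fun e => h0J (e ▸ hj))
  · rw [Finset.mem_singleton.1 hq]
    rfl

theorem l8f_req_zero {a δ s : ℝ} {n M : ℕ} {J : Finset ℝ} {Fs : Finset GhPos} (ha : 0 ≤ a) (hFs : l8fReq δ n M J s ⊆ Fs) :
    ghPosA 0 ∈ ghPs a Fs := by
  classical
  refine gh_os_ps_mem.2 ⟨hFs ?_, gh_os_posA_ok le_rfl ha⟩
  unfold l8fReq
  refine Finset.mem_union_left _ (Finset.mem_union_left _ (Finset.mem_image.2 ⟨0, Finset.mem_range.2 (by omega), ?_⟩))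
  simp

end Claimed.Agent.R286
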