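import Claimed.Agent.R286.L08.Defs
import Claimed.Agent.R286.LL.PathsClkB
import Claimed.Agent.R286.LL.PathsClkE
import Claimed.Agent.R286.LL.PathsKk

/-!
# Row 286 (S0533), folder L08, file GeoPt : THE CLOCKS OF ONE SMOOTHED SIZE POINT, in masses      (owner helper88; names `L8zPt*`, `l8zp_*`)

POINT LEVEL half of `l8z_geo` (`L08/SaTop.lean`): NO chain here.   `L8zPt p F 𝔹 c C v1 v2` = everything that `L8In.ZGeo` needs from LL 03 at the point `p` (`sm = true`, `chiL = 1`, so `a = 4`, `chiE = 0`, `λ = x^(p_*)`),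
stated for masses `u ≤ u'` in the CLOSED range `[0,4]`.   Dictionary of the glue (helper127, `l8z_geo_smp`): cut `k ≥ 1`, `u = I.v (k-1)`, `u' = I.v k`: `bC k = b u`, `KC k = K u`, `hC k = h u` (`u > x`), `zq k = q u`.
The record is the union of five sub-records; each has ITS producer (`∃ c C`, `LlUnif`) and ITS monotonicity in the constants:
* `L8zPtA`  raw data (monotone clocks, modulus, masks)                                  `l8zp_A`      88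
* `L8zPtB`  (P3)  `b_lo b_hi b_lam b_top`                                                `l8zp_B`      88
* `L8zPtK`  `K_zero K_dens K_slow K_low K_tot K_wall frz_m`                              `l8zp_K`      88
* `L8zPtG`  (P2)  `G_zero G_ftc G_cont G_pos G_le q_zero q_lo q_hi q_lip`                `l8zp_G`      88
* `L8zPtH`  (P4)-(P6)  `h_K h_lo d_hi d_lo hS_nn gap`                                    `l8zp_H`      236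
-/

set_option autoImplicit false

namespace Claimed.Agent.R286

open MeasureTheory Set Filter Topology

noncomputable section

/-- raw data of the clocks -/
structure L8zPtA (p : LlPt) (F : LlFix) (𝔹 : LlBase) : Prop where
  a4 : p.a = 4
  chiE : p.chiE = 0
  lam_eq : p.lam = p.x ^ F.pS
  b_mono : MonotoneOn (p.b F 𝔹) (Icc 0 4)
  h_mono : MonotoneOn (p.h F 𝔹) (Icc 0 4)
  hS_mono : MonotoneOn (p.hS F 𝔹) (Icc 0 4)
  K_mono : MonotoneOn (p.K F 𝔹) (Icc 0 4)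
  q_mono : MonotoneOn (p.q F 𝔹) (Icc 0 4)
  h_nn : ∀ u ∈ Icc (0 : ℝ) 4, 0 ≤ p.h F 𝔹 u
  K_nn : ∀ u ∈ Icc (0 : ℝ) 4, 0 ≤ p.K F 𝔹 u
  /-- one modulus for all clocks; `h` jumps at the mask `x` only -/
  equi : ∀ η : ℝ, 0 < η → ∃ δ : ℝ, 0 < δ ∧ ∀ v v' : ℝ, 0 ≤ v → v ≤ v' → v' ≤ 4 → v' - v ≤ δ →
      p.K F 𝔹 v' - p.K F 𝔹 v ≤ η ∧ p.q F 𝔹 v' - p.q F 𝔹 v ≤ η ∧ p.b F 𝔹 v' - p.b F 𝔹 v ≤ η ∧ p.hS F 𝔹 v' - p.hS F 𝔹 v ≤ η ∧
      ((v' < p.x ∨ p.x ≤ v) → p.h F 𝔹 v' - p.h F 𝔹 v ≤ η)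
  b_x : ∀ u ∈ Icc 0 p.x, p.b F 𝔹 u = p.b F 𝔹 0
  h_x : ∀ u, u < p.x → p.h F 𝔹 u = 0

/-- (P3); `b` is constant above `vt` -/
structure L8zPtB (p : LlPt) (F : LlFix) (𝔹 : LlBase) (c C vt : ℝ) : Prop where
  b_lo : ∀ u ∈ Icc (0 : ℝ) 4, c ≤ p.b F 𝔹 u
  b_hi : ∀ u ∈ Icc (0 : ℝ) 4, p.b F 𝔹 u ≤ C
  b_lam : ∀ u u', 0 ≤ u → u ≤ u' → u' ≤ 4 → p.b F 𝔹 u' - p.b F 𝔹 u ≤ C * p.lam * u' * (u' - u)
  b_top : ∀ u u', vt ≤ u → u ≤ u' → u' ≤ 4 → p.b F 𝔹 u' = p.b F 𝔹 u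

/-- scalar time against mass -/
structure L8zPtK (p : LlPt) (F : LlFix) (𝔹 : LlBase) (c C v1 : ℝ) : Prop where
  K_zero : p.K F 𝔹 0 = 0
  K_dens : ∀ u u', 0 ≤ u → u ≤ u' → u' ≤ 4 → c * p.om * (p.K F 𝔹 u' - p.K F 𝔹 u) ≤ u' - u
  K_slow : ∀ u u', 0 ≤ u → u ≤ u' → u' ≤ p.ell * (1 + p.om * p.M) → c * p.om * (u' - u) ≤ p.K F 𝔹 u' - p.K F 𝔹 u
  K_low : ∀ u u', 0 ≤ u → u ≤ u' → u' ≤ v1 → c * (u' - u) ≤ p.K F 𝔹 u' - p.K F 𝔹 u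
  K_tot : ∀ u ∈ Icc (0 : ℝ) 4, p.K F 𝔹 u ≤ p.M
  /-- with the room `x^40` of the mesh -/
  K_wall : ∀ u, p.ell * (1 + p.om * p.M) - p.x ^ 40 ≤ u → u ≤ 4 → p.M / 2 ≤ p.K F 𝔹 u
  frz_m : ∀ u ∈ Icc (0 : ℝ) 4, C ≤ p.K F 𝔹 u → c ≤ u

/-- (P2) -/
structure L8zPtG (p : LlPt) (F : LlFix) (𝔹 : LlBase) (c C : ℝ) : Prop where
  G_zero : p.Gam F 𝔹 0 = 0
  G_ftc : ∀ t t', 0 ≤ t → t ≤ t' → p.Gam F 𝔹 t' - p.Gam F 𝔹 t = ∫ s in t..t', p.Gam1 F 𝔹 s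
  G_cont : ContinuousOn (p.Gam1 F 𝔹) (Ici 0)
  G_pos : ∀ t, 0 ≤ t → 0 < p.Gam1 F 𝔹 t ∧ p.Gam1 F 𝔹 t ≤ C
  G_le : ∀ t, 0 ≤ t → p.Gam F 𝔹 t ≤ 1
  q_zero : p.q F 𝔹 0 = 0
  q_lo : ∀ u u', 0 < u → u ≤ 4 → u' ≤ 2 * u → c * u' ≤ p.q F 𝔹 u
  q_hi : ∀ u ∈ Icc (0 : ℝ) 4, p.q F 𝔹 u ≤ C * u
  q_lip : ∀ u u', 0 ≤ u → u ≤ u' → u' ≤ 4 → p.q F 𝔹 u' - p.q F 𝔹 u ≤ C * (p.K F 𝔹 u' - p.K F 𝔹 u)

/-- (P4), (P5), (P6) -/
structure L8zPtH (p : LlPt) (F : LlFix) (𝔹 : LlBase) (c C : ℝ) : Prop where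
  h_K : ∀ u u', p.x ≤ u → u ≤ u' → u' ≤ 4 → u' ≤ 2 * u → c * p.lam * u' ^ 2 * (p.K F 𝔹 u' - p.K F 𝔹 u) ≤ p.h F 𝔹 u' - p.h F 𝔹 u
  h_lo : ∀ u u', p.x ≤ u → u ≤ u' → u' ≤ p.ell → p.x ^ (3 + 1 / 100 : ℝ) * (u' - u) ≤ p.h F 𝔹 u' - p.h F 𝔹 u
  /-- the defect above the mask .. -/
  d_hi : ∀ u, p.x ≤ u → u ≤ 4 → |p.h F 𝔹 u - p.hS F 𝔹 u| ≤ C * p.x ^ 3 * p.M
  /-- .. and `h_*` below it -/
  d_lo : ∀ u, 0 ≤ u → u ≤ p.x → p.hS F 𝔹 u ≤ C * p.x ^ 3 * p.M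
  hS_nn : ∀ u ∈ Icc (0 : ℝ) 4, 0 ≤ p.hS F 𝔹 u
  gap : ∀ u u', 0 < u → u ≤ 4 → 0 ≤ u' → u' ≤ 2 * u → ∀ z, 0 ≤ z →
    c * p.lam * u' ^ 2 ≤ ∫ y in (0 : ℝ)..1, (1 - p.b F 𝔹 u * p.Gam1 F 𝔹 (p.K F 𝔹 u + y * (p.b F 𝔹 u * (z - p.q F 𝔹 u))))

/-- **the clocks of one smoothed size point** -/
structure L8zPt (p : LlPt) (F : LlFix) (𝔹 : LlBase) (c C v1 v2 : ℝ) : Prop
    extends L8zPtA p F 𝔹, L8zPtB p F 𝔹 c C (v2 - c), L8zPtK p F 𝔹 c C v1, L8zPtG p F 𝔹 c C, L8zPtH p F 𝔹 c C where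
  vv : 0 < v2 ∧ v2 + c ≤ v1 ∧ v1 ≤ 1

/-! ## kit of `l8zp_H` (helper236; prefix `l8zh_`) -/

section l8zh

variable {p : LlPt} {F : LlFix} {𝔹 : LlBase}

/-- the field clock of a size point above the mask -/
theorem l8zh_h_eq (hp : p.Ok F) (hs : l8Siz p) (v : ℝ) (hv : p.x ≤ v) :
    p.h F 𝔹 v = p.hS F 𝔹 v + p.Hlo F v + p.Hlin F v := by
  have e1 : p.chiL = 1 := hs.2
  have e2 : p.chiE = 0 := (hp.sm_fin hs.1).2
  rw [LlPt.h, if_neg (not_lt.2 hv), e1, e2]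
  ring

theorem l8zh_lamU_nonneg (hp : p.Ok F) : 0 ≤ p.lam1 F * p.U F ^ 3 := by
  have h1 : 0 < p.lam1 F := Real.rpow_pos_of_pos (lkk_lam_pos hp) _
  have h2 : 0 < p.U F := lcd_U_pos F p (lkk_x_pos hp.N2) (lkk_lam_pos hp)
  positivity

theorem l8zh_Hlo_mono (hp : p.Ok F) {u u' : ℝ} (hu : p.x ≤ u) (huu : u ≤ u') : p.Hlo F u ≤ p.Hlo F u' := by
  have hx := lkk_x_pos hp.N2
  have hl : 0 < p.ell := by linarith [hp.ell1]
  unfold LlPt.Hlo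
  refine mul_le_mul_of_nonneg_left ?_ (l8zh_lamU_nonneg hp)
  refine Real.log_le_log (div_pos (lt_min (by linarith) hl) hx) ?_
  exact div_le_div_of_nonneg_right (min_le_min_right _ huu) hx.le

theorem l8zh_Hlo_inc (hp : p.Ok F) {u u' : ℝ} (hu : p.x ≤ u) (huu : u ≤ u') (hl : u' ≤ p.ell) :
    p.lam1 F * p.U F ^ 3 * ((u' - u) / p.ell) ≤ p.Hlo F u' - p.Hlo F u := by
  have hx := lkk_x_pos hp.N2
  have hl0 : 0 < p.ell := by linarith [hp.ell1]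
  have hu0 : 0 < u := by linarith
  have hu0' : 0 < u' := by linarith
  unfold LlPt.Hlo
  rw [min_eq_left hl, min_eq_left (huu.trans hl), ← mul_sub]
  refine mul_le_mul_of_nonneg_left ?_ (l8zh_lamU_nonneg hp)
  rw [← Real.log_div (div_pos hu0' hx).ne' (div_pos hu0 hx).ne']
  have e : u' / p.x / (u / p.x) = u' / u := by field_simp
  rw [e]
  have h1 := Real.one_sub_inv_le_log_of_pos (div_pos hu0' hu0)
  refine le_trans ?_ h1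
  have e2 : 1 - (u' / u)⁻¹ = (u' - u) / u' := by field_simp
  rw [e2]
  exact div_le_div_of_nonneg_left (by linarith) hu0' hl

theorem l8zh_Hlin_mono (hp : p.Ok F) {u u' : ℝ} (huu : u ≤ u') : p.Hlin F u ≤ p.Hlin F u' := by
  have hx := lkk_x_pos hp.N2
  unfold LlPt.Hlin
  refine mul_le_mul_of_nonneg_left ?_ (by positivity)
  exact max_le_max le_rfl (sub_le_sub_right (min_le_min_right _ huu) _)

/-- `λ₁ U³ ≤ x³` -/
theorem l8zh_lamU_le (hF : F.Ok) (hp : p.Ok F) (hl1 : p.lam ≤ 1) : p.lam1 F * p.U F ^ 3 ≤ p.x ^ 3 := by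
  have hx := lkk_x_pos hp.N2
  have hl := lkk_lam_pos hp
  have hU0 : 0 < p.U F := lcd_U_pos F p hx hl
  have hU : p.U F ≤ p.x * p.lam ^ (-(F.sS / 2)) := min_le_right _ _
  have h1 : p.U F ^ 3 ≤ (p.x * p.lam ^ (-(F.sS / 2))) ^ 3 := pow_le_pow_left₀ hU0.le hU 3
  have hl1' : 0 < p.lam1 F := Real.rpow_pos_of_pos hl _
  have e : p.lam1 F * (p.x * p.lam ^ (-(F.sS / 2))) ^ 3 = p.x ^ 3 * p.lam ^ (1 + F.eta - 3 * F.sS / 2) := by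
    have e1 : (p.lam ^ (-(F.sS / 2))) ^ 3 = p.lam ^ (-(3 * F.sS / 2)) := by
      rw [← Real.rpow_natCast, ← Real.rpow_mul hl.le]
      congr 1
      push_cast
      ring
    rw [mul_pow, e1, LlPt.lam1, mul_left_comm, ← Real.rpow_add hl]
    congr 2
  have h2 : p.lam ^ (1 + F.eta - 3 * F.sS / 2) ≤ 1 :=
    Real.rpow_le_one hl.le hl1 (by linarith [hF.eta0, hF.sS1])
  calc p.lam1 F * p.U F ^ 3 ≤ p.lam1 F * (p.x * p.lam ^ (-(F.sS / 2))) ^ 3 := mul_le_mul_of_nonneg_left h1 hl1'.le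
    _ = p.x ^ 3 * p.lam ^ (1 + F.eta - 3 * F.sS / 2) := e
    _ ≤ p.x ^ 3 * 1 := mul_le_mul_of_nonneg_left h2 (by positivity)
    _ = p.x ^ 3 := mul_one _

/-- `x ≤ U` -/
theorem l8zh_x_le_U (hF : F.Ok) (hp : p.Ok F) (hl1 : p.lam ≤ 1) : p.x ≤ p.U F := by
  have hx := lkk_x_pos hp.N2
  have hl := lkk_lam_pos hp
  refine le_min (lkk_x_lt_one hp.N2).le ?_
  have h1 : 1 ≤ p.lam ^ (-(F.sS / 2)) := Real.one_le_rpow_of_pos_of_le_one_of_nonpos hl hl1 (by linarith [hF.sS0])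
  calc p.x = p.x * 1 := (mul_one _).symm
    _ ≤ p.x * p.lam ^ (-(F.sS / 2)) := mul_le_mul_of_nonneg_left h1 hx.le

/-- `x^(3 + 2 p_*) ≤ λ₁ U³` at final strength -/
theorem l8zh_lamU_ge (hF : F.Ok) (hp : p.Ok F) (hlam : p.lam = p.x ^ F.pS) (he : F.eta ≤ 1) :
    p.x ^ (3 + 2 * F.pS : ℝ) ≤ p.lam1 F * p.U F ^ 3 := by
  have hx := lkk_x_pos hp.N2
  have hx1 := (lkk_x_lt_one hp.N2).le
  have hl := lkk_lam_pos hp
  have hl1 : p.lam ≤ 1 := by rw [hlam]; exact Real.rpow_le_one hx.le hx1 hF.pS0.le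
  have h1 : p.x ^ 3 ≤ p.U F ^ 3 := pow_le_pow_left₀ hx.le (l8zh_x_le_U hF hp hl1) 3
  have h2 : p.x ^ (2 * F.pS : ℝ) ≤ p.lam1 F := by
    rw [LlPt.lam1, hlam, ← Real.rpow_mul hx.le]
    refine Real.rpow_le_rpow_of_exponent_ge hx hx1 ?_
    nlinarith [hF.pS0, hF.eta0]
  have e : p.x ^ (3 + 2 * F.pS : ℝ) = p.x ^ (2 * F.pS : ℝ) * p.x ^ 3 := by
    rw [Real.rpow_add hx, mul_comm]
    congr 1
    exact Real.rpow_natCast p.x 3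
  rw [e]
  exact mul_le_mul h2 h1 (by positivity) (Real.rpow_pos_of_pos hl _).le

/-- the wall lies before `3` -/
theorem l8zh_wall_le (hp : p.Ok F) : p.ell * (1 + p.om * p.M) ≤ 3 := by
  have h6 := lkk_ell6 hp
  have h1 := hp.ell1
  have ho := lkk_omM hp.N2
  have h0 : 0 ≤ p.om * p.M := mul_nonneg (lkk_om_pos hp.N2).le (lkk_M_nonneg hp.N2)
  have hl : p.ell ≤ 3 / 2 := by
    by_contra hcon
    push Not at hcon
    have : (3 / 2 : ℝ) ^ 6 < p.ell ^ 6 := pow_lt_pow_left₀ hcon (by norm_num) (by norm_num)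
    norm_num at this
    linarith
  nlinarith

/-- `1 ≤ log (1/x) ≤ M` for `x ≤ 1/3` -/
theorem l8zh_logM (hp : p.Ok F) (hx3 : p.x ≤ 1 / 3) : 1 ≤ Real.log (1 / p.x) ∧ Real.log (1 / p.x) ≤ p.M := by
  have hx := lkk_x_pos hp.N2
  have hL1 : 1 ≤ Real.log (1 / p.x) := by
    rw [Real.le_log_iff_exp_le (by positivity)]
    have h1 : Real.exp 1 ≤ 3 := Real.exp_one_lt_d9.le.trans (by norm_num)
    have h2 : (3 : ℝ) ≤ 1 / p.x := by rw [le_div_iff₀ hx]; linarith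
    exact h1.trans h2
  refine ⟨hL1, ?_⟩
  unfold LlPt.M
  nlinarith [mul_nonneg (sub_nonneg.2 hL1) (sub_nonneg.2 hL1)]

/-- `K` is constant beyond the wall -/
theorem l8zh_Kc (hp : p.Ok F)
    (Wl : ∀ v, p.ell * (1 + p.om * p.M) ≤ v → v ≤ 4 → p.ell ^ 2 * p.K F 𝔹 v = p.M) :
    ∀ v, p.ell * (1 + p.om * p.M) ≤ v → v ≤ 4 → p.K F 𝔹 v = p.K F 𝔹 4 := by
  intro v h1 h2
  have hell0 : 0 < p.ell := by linarith [hp.ell1]
  have e1 := Wl v h1 h2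
  have e2 := Wl 4 (by linarith) le_rfl
  have hne : p.ell ^ 2 ≠ 0 := by positivity
  exact mul_left_cancel₀ hne (e1.trans e2.symm)

/-- (P4) on the closed range -/
theorem l8zh_P4c (hp : p.Ok F) {c4 : ℝ}
    (Kc : ∀ v, p.ell * (1 + p.om * p.M) ≤ v → v ≤ 4 → p.K F 𝔹 v = p.K F 𝔹 4)
    (hSm : MonotoneOn (p.hS F 𝔹) (Icc 0 4))
    (P4a : ∀ v ∈ Ioo (0 : ℝ) 4, ∀ v' ∈ Ioo (0 : ℝ) 4, v ≤ v' →
      c4 * p.lam * (v ^ 2 + p.U F ^ 2) * (p.K F 𝔹 v' - p.K F 𝔹 v) ≤ p.hS F 𝔹 v' - p.hS F 𝔹 v) :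
    ∀ u u', 0 < u → u ≤ u' → u' ≤ 4 →
      c4 * p.lam * (u ^ 2 + p.U F ^ 2) * (p.K F 𝔹 u' - p.K F 𝔹 u) ≤ p.hS F 𝔹 u' - p.hS F 𝔹 u := by
  intro u u' h0 h1 h2
  have hwall := l8zh_wall_le hp
  rcases lt_or_eq_of_le h2 with h | h
  · exact P4a u ⟨h0, lt_of_le_of_lt h1 h⟩ u' ⟨lt_of_lt_of_le h0 h1, h⟩ h1
  subst h
  rcases lt_or_eq_of_le h1 with h | h
  swap
  · subst h; simp
  have hw1 : u ≤ max u 3 := le_max_left _ _
  have hw2 : max u 3 < 4 := max_lt h (by norm_num)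
  have hw3 : p.ell * (1 + p.om * p.M) ≤ max u 3 := hwall.trans (le_max_right _ _)
  have a1 := P4a u ⟨h0, h⟩ (max u 3) ⟨lt_of_lt_of_le h0 hw1, hw2⟩ hw1
  rw [Kc _ hw3 hw2.le] at a1
  have a2 : p.hS F 𝔹 (max u 3) ≤ p.hS F 𝔹 4 :=
    hSm ⟨(h0.le.trans hw1), hw2.le⟩ ⟨by norm_num, le_rfl⟩ hw2.le
  linarith

/-- field `h_K` -/
theorem l8zh_hK (hp : p.Ok F) (hs : l8Siz p) {c c4 : ℝ} (hc4 : 0 < c4) (hcc4 : c ≤ c4 / 4)
    (hKm : MonotoneOn (p.K F 𝔹) (Icc 0 4))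
    (P4c : ∀ u u', 0 < u → u ≤ u' → u' ≤ 4 →
      c4 * p.lam * (u ^ 2 + p.U F ^ 2) * (p.K F 𝔹 u' - p.K F 𝔹 u) ≤ p.hS F 𝔹 u' - p.hS F 𝔹 u) :
    ∀ u u', p.x ≤ u → u ≤ u' → u' ≤ 4 → u' ≤ 2 * u →
      c * p.lam * u' ^ 2 * (p.K F 𝔹 u' - p.K F 𝔹 u) ≤ p.h F 𝔹 u' - p.h F 𝔹 u := by
  intro u u' h1 h2 h3 h4
  have hx := lkk_x_pos hp.N2
  have hl := lkk_lam_pos hp
  have hu0 : 0 < u := by linarith
  rw [l8zh_h_eq hp hs u' (h1.trans h2), l8zh_h_eq hp hs u h1]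
  have a1 := P4c u u' hu0 h2 h3
  have a2 := l8zh_Hlo_mono (F := F) hp h1 h2
  have a3 := l8zh_Hlin_mono (F := F) hp h2
  have hK : 0 ≤ p.K F 𝔹 u' - p.K F 𝔹 u := sub_nonneg.2 (hKm ⟨hu0.le, h2.trans h3⟩ ⟨hu0.le.trans h2, h3⟩ h2)
  have a4 : c * p.lam * u' ^ 2 ≤ c4 * p.lam * (u ^ 2 + p.U F ^ 2) := by
    have b1 : u' ^ 2 ≤ (2 * u) ^ 2 := pow_le_pow_left₀ (hu0.le.trans h2) h4 2
    have b2 : c * p.lam * u' ^ 2 ≤ c4 / 4 * p.lam * (2 * u) ^ 2 :=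
      mul_le_mul (mul_le_mul_of_nonneg_right hcc4 hl.le) b1 (sq_nonneg _) (by positivity)
    have b3 : 0 ≤ c4 * p.lam * p.U F ^ 2 := by positivity
    have e : c4 / 4 * p.lam * (2 * u) ^ 2 + c4 * p.lam * p.U F ^ 2 = c4 * p.lam * (u ^ 2 + p.U F ^ 2) := by ring
    linarith
  have a5 := mul_le_mul_of_nonneg_right a4 hK
  linarith

/-- `2 x^(3 + 1/100) ≤ x^(3 + 2 p_*)` -/
theorem l8zh_pow_room (hp : p.Ok F) (hpS : F.pS ≤ 1 / 40000) (hx200 : p.x ≤ (1 / 2 : ℝ) ^ 200) :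
    2 * p.x ^ (3 + 1 / 100 : ℝ) ≤ p.x ^ (3 + 2 * F.pS : ℝ) := by
  have hx := lkk_x_pos hp.N2
  have hx1 := (lkk_x_lt_one hp.N2).le
  have e : p.x ^ (3 + 1 / 100 : ℝ) = p.x ^ (3 + 2 * F.pS : ℝ) * p.x ^ (1 / 100 - 2 * F.pS : ℝ) := by
    rw [← Real.rpow_add hx]; congr 1; ring
  have b1 : p.x ^ (1 / 100 - 2 * F.pS : ℝ) ≤ p.x ^ (1 / 200 : ℝ) :=
    Real.rpow_le_rpow_of_exponent_ge hx hx1 (by linarith)
  have b2 : p.x ^ (1 / 200 : ℝ) ≤ ((1 / 2 : ℝ) ^ 200) ^ (1 / 200 : ℝ) := Real.rpow_le_rpow hx.le hx200 (by norm_num)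
  have b3 : ((1 / 2 : ℝ) ^ 200) ^ (1 / 200 : ℝ) = 1 / 2 := by
    rw [← Real.rpow_natCast, ← Real.rpow_mul (by norm_num)]
    norm_num
  have b4 : 0 < p.x ^ (3 + 2 * F.pS : ℝ) := Real.rpow_pos_of_pos hx _
  rw [e]
  have b5 : p.x ^ (1 / 100 - 2 * F.pS : ℝ) ≤ 1 / 2 := b1.trans (b2.trans (le_of_eq b3))
  have b6 := mul_le_mul_of_nonneg_left b5 b4.le
  linarith

/-- field `h_lo` -/
theorem l8zh_hlo (hF : F.Ok) (hp : p.Ok F) (hs : l8Siz p) (he : F.eta ≤ 1 / 8) (hpS : F.pS ≤ 1 / 40000)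
    (hx200 : p.x ≤ (1 / 2 : ℝ) ^ 200) (hSm : MonotoneOn (p.hS F 𝔹) (Icc 0 4)) :
    ∀ u u', p.x ≤ u → u ≤ u' → u' ≤ p.ell → p.x ^ (3 + 1 / 100 : ℝ) * (u' - u) ≤ p.h F 𝔹 u' - p.h F 𝔹 u := by
  intro u u' h1 h2 h3
  have hx := lkk_x_pos hp.N2
  have hlam : p.lam = p.x ^ F.pS := (hp.sm_fin hs.1).1
  have hell2 := lkk_ell_le_two hp
  have hell0 : 0 < p.ell := by linarith [hp.ell1]
  have hu0 : 0 < u := by linarith
  rw [l8zh_h_eq hp hs u' (h1.trans h2), l8zh_h_eq hp hs u h1]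
  have a1 : p.hS F 𝔹 u ≤ p.hS F 𝔹 u' := hSm ⟨hu0.le, by linarith⟩ ⟨hu0.le.trans h2, by linarith⟩ h2
  have a2 := l8zh_Hlo_inc (F := F) hp h1 h2 h3
  have a3 := l8zh_Hlin_mono (F := F) hp h2
  have a4 := l8zh_lamU_ge hF hp hlam (by linarith)
  have hd : 0 ≤ u' - u := by linarith
  have a5 := l8zh_pow_room hp hpS hx200
  have a6 : p.x ^ (3 + 1 / 100 : ℝ) * (u' - u) ≤ p.lam1 F * p.U F ^ 3 * ((u' - u) / p.ell) := by
    rw [mul_div_assoc', le_div_iff₀ hell0]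
    have b1 : p.x ^ (3 + 1 / 100 : ℝ) * p.ell ≤ p.x ^ (3 + 1 / 100 : ℝ) * 2 :=
      mul_le_mul_of_nonneg_left hell2 (Real.rpow_pos_of_pos hx _).le
    have b2 : p.x ^ (3 + 1 / 100 : ℝ) * p.ell ≤ p.lam1 F * p.U F ^ 3 := by linarith
    have b3 := mul_le_mul_of_nonneg_right b2 hd
    linarith
  linarith

/-- field `d_hi` -/
theorem l8zh_dhi (hF : F.Ok) (hp : p.Ok F) (hs : l8Siz p) (hl1 : p.lam ≤ 1) (hx3 : p.x ≤ 1 / 3) {D : ℝ} (hD : 0 ≤ D) :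
    ∀ u, p.x ≤ u → u ≤ 4 → |p.h F 𝔹 u - p.hS F 𝔹 u| ≤ (4 + D) * p.x ^ 3 * p.M := by
  intro u h1 h2
  have hx := lkk_x_pos hp.N2
  have hx1 := (lkk_x_lt_one hp.N2).le
  have hl := lkk_lam_pos hp
  obtain ⟨hL1, hLM⟩ := l8zh_logM hp hx3
  have hM1 : 1 ≤ p.M := hL1.trans hLM
  have hlU := l8zh_lamU_le hF hp hl1
  rw [l8zh_h_eq hp hs u h1]
  obtain ⟨a1, a2⟩ := lcd_Hlo_mem F p hx hx1 hp.ell1 (lkk_ell_le_two hp) hl u h1
  obtain ⟨a3, a4, -⟩ := lcd_Hlin_mem F p hF.vb0 hx (lkk_ell_le_two hp) u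
  have e : p.hS F 𝔹 u + p.Hlo F u + p.Hlin F u - p.hS F 𝔹 u = p.Hlo F u + p.Hlin F u := by ring
  rw [e, abs_of_nonneg (by linarith)]
  have hx30 : 0 ≤ p.x ^ 3 := by positivity
  have a5 : p.lam1 F * p.U F ^ 3 * (1 + Real.log (1 / p.x)) ≤ p.x ^ 3 * (1 + Real.log (1 / p.x)) :=
    mul_le_mul_of_nonneg_right hlU (by linarith)
  have a6 : p.x ^ 3 * (1 + Real.log (1 / p.x)) ≤ p.x ^ 3 * (2 * p.M) := mul_le_mul_of_nonneg_left (by linarith) hx30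
  have a6' : p.x ^ 3 * 2 ≤ p.x ^ 3 * (2 * p.M) := mul_le_mul_of_nonneg_left (by linarith) hx30
  have a7 : 0 ≤ D * p.x ^ 3 * p.M := by positivity
  have e2 : (4 + D) * p.x ^ 3 * p.M = p.x ^ 3 * (2 * p.M) + p.x ^ 3 * (2 * p.M) + D * p.x ^ 3 * p.M := by ring
  rw [e2]
  linarith

/-- `λ U² ≤ x²` -/
theorem l8zh_lamU2 (hF : F.Ok) (hp : p.Ok F) (hl1 : p.lam ≤ 1) : p.lam * p.U F ^ 2 ≤ p.x ^ 2 := by
  have hx := lkk_x_pos hp.N2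
  have hl := lkk_lam_pos hp
  have hU0 : 0 < p.U F := lcd_U_pos F p hx hl
  have hU : p.U F ≤ p.x * p.lam ^ (-(F.sS / 2)) := min_le_right _ _
  have b1 : p.U F ^ 2 ≤ (p.x * p.lam ^ (-(F.sS / 2))) ^ 2 := pow_le_pow_left₀ hU0.le hU 2
  have e1 : (p.lam ^ (-(F.sS / 2))) ^ 2 = p.lam ^ (-F.sS) := by
    rw [← Real.rpow_natCast, ← Real.rpow_mul hl.le]
    congr 1
    push_cast
    ring
  have e2 : p.lam * (p.x * p.lam ^ (-(F.sS / 2))) ^ 2 = p.x ^ 2 * p.lam ^ (1 - F.sS) := by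
    rw [mul_pow, e1, mul_left_comm]
    congr 1
    rw [sub_eq_add_neg, Real.rpow_add hl, Real.rpow_one]
  have b2 : p.lam ^ (1 - F.sS) ≤ 1 := Real.rpow_le_one hl.le hl1 (by linarith [hF.sS1])
  calc p.lam * p.U F ^ 2 ≤ p.lam * (p.x * p.lam ^ (-(F.sS / 2))) ^ 2 := mul_le_mul_of_nonneg_left b1 hl.le
    _ = p.x ^ 2 * p.lam ^ (1 - F.sS) := e2
    _ ≤ p.x ^ 2 * 1 := mul_le_mul_of_nonneg_left b2 (by positivity)
    _ = p.x ^ 2 := mul_one _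

/-- field `d_lo` -/
theorem l8zh_dlo (hF : F.Ok) (hp : p.Ok F) (hl1 : p.lam ≤ 1) (hx3 : p.x ≤ 1 / 3) {C4 : ℝ}
    (hSm : MonotoneOn (p.hS F 𝔹) (Icc 0 4))
    (a2 : p.hS F 𝔹 p.x ≤ C4 * p.lam * (p.x ^ 3 + p.x * p.U F ^ 2)) :
    ∀ u, 0 ≤ u → u ≤ p.x → p.hS F 𝔹 u ≤ (4 + 2 * |C4|) * p.x ^ 3 * p.M := by
  intro u h1 h2
  have hx := lkk_x_pos hp.N2
  have hl := lkk_lam_pos hp
  obtain ⟨hL1, hLM⟩ := l8zh_logM hp hx3
  have hM1 : 1 ≤ p.M := hL1.trans hLM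
  have a1 : p.hS F 𝔹 u ≤ p.hS F 𝔹 p.x := hSm ⟨h1, by linarith⟩ ⟨hx.le, by linarith⟩ h2
  have a3 := l8zh_lamU2 hF hp hl1
  have a4 : p.lam * (p.x ^ 3 + p.x * p.U F ^ 2) ≤ 2 * p.x ^ 3 := by
    have b1 : p.lam * p.x ^ 3 ≤ 1 * p.x ^ 3 := mul_le_mul_of_nonneg_right hl1 (by positivity)
    have b2 : p.x * (p.lam * p.U F ^ 2) ≤ p.x * p.x ^ 2 := mul_le_mul_of_nonneg_left a3 hx.le
    have e : p.lam * (p.x ^ 3 + p.x * p.U F ^ 2) = p.lam * p.x ^ 3 + p.x * (p.lam * p.U F ^ 2) := by ring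
    have e' : p.x * p.x ^ 2 = p.x ^ 3 := by ring
    rw [e]
    linarith
  have a5 : C4 * p.lam * (p.x ^ 3 + p.x * p.U F ^ 2) ≤ |C4| * (2 * p.x ^ 3) := by
    rw [mul_assoc]
    exact mul_le_mul (le_abs_self _) a4 (by positivity) (abs_nonneg _)
  have a6 : |C4| * (2 * p.x ^ 3) * 1 ≤ |C4| * (2 * p.x ^ 3) * p.M := mul_le_mul_of_nonneg_left hM1 (by positivity)
  have a7 : 0 ≤ 4 * p.x ^ 3 * p.M := by positivity
  have e2 : (4 + 2 * |C4|) * p.x ^ 3 * p.M = 4 * p.x ^ 3 * p.M + |C4| * (2 * p.x ^ 3) * p.M := by ring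
  rw [e2]
  linarith

/-- field `gap` -/
theorem l8zh_gap (hp : p.Ok F) {c c5 : ℝ} (hc5 : 0 < c5) (hcc5 : c ≤ c5 / 8)
    (Kc : ∀ v, p.ell * (1 + p.om * p.M) ≤ v → v ≤ 4 → p.K F 𝔹 v = p.K F 𝔹 4)
    (Bt : p.b F 𝔹 4 = p.b F 𝔹 3)
    (P5 : ∀ v ∈ Ioo (0 : ℝ) 4, ∀ z, 0 ≤ z → c5 * p.lam * (v ^ 2 + p.U F ^ 2)
      ≤ ∫ y in (0 : ℝ)..1, (1 - p.b F 𝔹 v * p.Gam1 F 𝔹 (p.K F 𝔹 v + y * p.b F 𝔹 v * (z - p.q F 𝔹 v)))) :
    ∀ u u', 0 < u → u ≤ 4 → 0 ≤ u' → u' ≤ 2 * u → ∀ z, 0 ≤ z →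
      c * p.lam * u' ^ 2 ≤ ∫ y in (0 : ℝ)..1, (1 - p.b F 𝔹 u * p.Gam1 F 𝔹 (p.K F 𝔹 u + y * (p.b F 𝔹 u * (z - p.q F 𝔹 u)))) := by
  intro u u' h1 h2 h3 h4 z hz
  have hl := lkk_lam_pos hp
  have hwall := l8zh_wall_le hp
  -- (P5) at an interior mass `w` with the same clocks
  have key : ∀ w, 0 < w → w < 4 → p.b F 𝔹 w = p.b F 𝔹 u → p.K F 𝔹 w = p.K F 𝔹 u → u' ^ 2 ≤ 8 * w ^ 2 →
      c * p.lam * u' ^ 2
        ≤ ∫ y in (0 : ℝ)..1, (1 - p.b F 𝔹 u * p.Gam1 F 𝔹 (p.K F 𝔹 u + y * (p.b F 𝔹 u * (z - p.q F 𝔹 u)))) := by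
    intro w hw0 hw4 eb eK hw
    have a1 := P5 w ⟨hw0, hw4⟩ z hz
    have eq : p.q F 𝔹 w = p.q F 𝔹 u := by unfold LlPt.q; rw [eK]
    rw [eb, eK, eq] at a1
    have e : (fun y : ℝ => 1 - p.b F 𝔹 u * p.Gam1 F 𝔹 (p.K F 𝔹 u + y * p.b F 𝔹 u * (z - p.q F 𝔹 u)))
        = fun y : ℝ => 1 - p.b F 𝔹 u * p.Gam1 F 𝔹 (p.K F 𝔹 u + y * (p.b F 𝔹 u * (z - p.q F 𝔹 u))) := by
      funext y; rw [mul_assoc]
    rw [e] at a1
    refine le_trans ?_ a1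
    have b2 : c * p.lam * u' ^ 2 ≤ c5 / 8 * p.lam * (8 * w ^ 2) :=
      mul_le_mul (mul_le_mul_of_nonneg_right hcc5 hl.le) hw (sq_nonneg _) (by positivity)
    have b3 : 0 ≤ c5 * p.lam * p.U F ^ 2 := by positivity
    have e3 : c5 / 8 * p.lam * (8 * w ^ 2) + c5 * p.lam * p.U F ^ 2 = c5 * p.lam * (w ^ 2 + p.U F ^ 2) := by ring
    linarith
  have hsq : u' ^ 2 ≤ (2 * u) ^ 2 := pow_le_pow_left₀ h3 h4 2
  rcases lt_or_eq_of_le h2 with h | h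
  · refine key u h1 h rfl rfl ?_
    have : (2 * u) ^ 2 + 4 * u ^ 2 = 8 * u ^ 2 := by ring
    have := sq_nonneg u
    linarith
  · subst h
    refine key 3 (by norm_num) (by norm_num) Bt.symm (Kc 3 hwall (by norm_num)) ?_
    norm_num at hsq ⊢
    linarith

end l8zh
/-! ## monotonicity in the constants -/

theorem L8zPtB.mono {p : LlPt} {F : LlFix} {𝔹 : LlBase} {c C vt c' C' vt' : ℝ} (h : L8zPtB p F 𝔹 c C vt) (hl : 0 ≤ p.lam) (hc : c' ≤ c) (hC : C ≤ C') (hv : vt ≤ vt') :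
    L8zPtB p F 𝔹 c' C' vt' := by
  refine ⟨fun u hu => hc.trans (h.b_lo u hu), fun u hu => (h.b_hi u hu).trans hC, fun u u' h0 h1 h2 => (h.b_lam u u' h0 h1 h2).trans ?_,
    fun u u' h0 h1 h2 => h.b_top u u' (hv.trans h0) h1 h2⟩
  have h3 : 0 ≤ p.lam * u' * (u' - u) := mul_nonneg (mul_nonneg hl (h0.trans h1)) (sub_nonneg.2 h1)
  calc C * p.lam * u' * (u' - u) = C * (p.lam * u' * (u' - u)) := by ring
    _ ≤ C' * (p.lam * u' * (u' - u)) := mul_le_mul_of_nonneg_right hC h3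
    _ = C' * p.lam * u' * (u' - u) := by ring

theorem L8zPtK.mono {p : LlPt} {F : LlFix} {𝔹 : LlBase} {c C v1 c' C' : ℝ} (h : L8zPtK p F 𝔹 c C v1) (hA : L8zPtA p F 𝔹) (ho : 0 ≤ p.om) (hc : c' ≤ c) (hC : C ≤ C') :
    L8zPtK p F 𝔹 c' C' v1 := by
  refine ⟨h.K_zero, fun u u' h0 h1 h2 => le_trans ?_ (h.K_dens u u' h0 h1 h2), fun u u' h0 h1 h2 => le_trans ?_ (h.K_slow u u' h0 h1 h2),
    fun u u' h0 h1 h2 => le_trans ?_ (h.K_low u u' h0 h1 h2), h.K_tot, h.K_wall, fun u hu h1 => hc.trans (h.frz_m u hu (hC.trans h1))⟩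
  · have h3 : 0 ≤ p.K F 𝔹 u' - p.K F 𝔹 u := sub_nonneg.2 (hA.K_mono ⟨h0, h1.trans h2⟩ ⟨h0.trans h1, h2⟩ h1)
    exact mul_le_mul_of_nonneg_right (mul_le_mul_of_nonneg_right hc ho) h3
  · exact mul_le_mul_of_nonneg_right (mul_le_mul_of_nonneg_right hc ho) (sub_nonneg.2 h1)
  · exact mul_le_mul_of_nonneg_right hc (sub_nonneg.2 h1)

theorem L8zPtG.mono {p : LlPt} {F : LlFix} {𝔹 : LlBase} {c C c' C' : ℝ} (h : L8zPtG p F 𝔹 c C) (hA : L8zPtA p F 𝔹) (hc0 : 0 ≤ c') (hc : c' ≤ c) (hC : C ≤ C') :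
    L8zPtG p F 𝔹 c' C' := by
  refine ⟨h.G_zero, h.G_ftc, h.G_cont, fun t ht => ⟨(h.G_pos t ht).1, (h.G_pos t ht).2.trans hC⟩, h.G_le, h.q_zero, fun u u' h0 h1 h2 => ?_,
    fun u hu => (h.q_hi u hu).trans (mul_le_mul_of_nonneg_right hC hu.1), fun u u' h0 h1 h2 => (h.q_lip u u' h0 h1 h2).trans ?_⟩
  · rcases le_total 0 u' with h3 | h3
    · exact (mul_le_mul_of_nonneg_right hc h3).trans (h.q_lo u u' h0 h1 h2)
    · have h4 := h.q_lo u 0 h0 h1 (by linarith)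
      rw [mul_zero] at h4
      exact (mul_nonpos_of_nonneg_of_nonpos hc0 h3).trans h4
  · exact mul_le_mul_of_nonneg_right hC (sub_nonneg.2 (hA.K_mono ⟨h0, h1.trans h2⟩ ⟨h0.trans h1, h2⟩ h1))

/-- PROVED (helper236) -/
theorem L8zPtH.mono {p : LlPt} {F : LlFix} {𝔹 : LlBase} {c C c' C' : ℝ} (h : L8zPtH p F 𝔹 c C) (hA : L8zPtA p F 𝔹) (hl : 0 ≤ p.lam) (hx : 0 ≤ p.x) (hM : 0 ≤ p.M) (hc : c' ≤ c) (hC : C ≤ C') :
    L8zPtH p F 𝔹 c' C' := by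
  have hCC : C * p.x ^ 3 * p.M ≤ C' * p.x ^ 3 * p.M :=
    mul_le_mul_of_nonneg_right (mul_le_mul_of_nonneg_right hC (by positivity)) hM
  refine ⟨fun u u' h1 h2 h3 h4 => le_trans ?_ (h.h_K u u' h1 h2 h3 h4), h.h_lo, fun u h1 h2 => (h.d_hi u h1 h2).trans hCC,
    fun u h1 h2 => (h.d_lo u h1 h2).trans hCC, h.hS_nn, fun u u' h1 h2 h3 h4 z hz => le_trans ?_ (h.gap u u' h1 h2 h3 h4 z hz)⟩
  · have hK : 0 ≤ p.K F 𝔹 u' - p.K F 𝔹 u :=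
      sub_nonneg.2 (hA.K_mono ⟨hx.trans h1, h2.trans h3⟩ ⟨(hx.trans h1).trans h2, h3⟩ h2)
    exact mul_le_mul_of_nonneg_right (mul_le_mul_of_nonneg_right (mul_le_mul_of_nonneg_right hc hl) (sq_nonneg _)) hK
  · exact mul_le_mul_of_nonneg_right (mul_le_mul_of_nonneg_right hc hl) (sq_nonneg _)

/-! ## producers -/

theorem l8zp_a4 {p : LlPt} (h : p.sm = true) : p.a = 4 := by simp [LlPt.a, h]

theorem l8zp_lam_pos {p : LlPt} {F : LlFix} (hp : p.Ok F) : 0 < p.lam :=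
  lt_of_lt_of_le (Real.rpow_pos_of_pos (llc_x_pos hp) _) hp.lam_lo

theorem l8zp_om_pos {p : LlPt} {F : LlFix} (hp : p.Ok F) : 0 < p.om := Real.rpow_pos_of_pos (llc_x_pos hp) _

theorem l8zp_M_nn {p : LlPt} {F : LlFix} (hp : p.Ok F) : 0 ≤ p.M := by
  unfold LlPt.M
  exact pow_nonneg (Real.log_nonneg ((one_le_div (llc_x_pos hp)).2 (llc_x_le_one hp))) 3

/-- `LlAdm`, `LlEqui`, `Ok.sm_fin`, formula of `h`.      OWNER: helper88 -/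
theorem l8zp_A {𝔹 : LlBase} {F : LlFix} (h3 : LlSec3 𝔹 F) : LlUnif F fun p => l8Siz p → L8zPtA p F 𝔹 := by
  obtain ⟨c, C, hc, hU⟩ := h3.adm
  obtain ⟨N0, hE⟩ := h3.equi
  have hE' : LlUnif F fun p => ∀ η : ℝ, 0 < η → ∃ δ : ℝ, 0 < δ ∧ ∀ v v' : ℝ, 0 ≤ v → v ≤ v' → v' ≤ p.a → v' - v ≤ δ →
      p.K F 𝔹 v' - p.K F 𝔹 v ≤ η ∧ p.q F 𝔹 v' - p.q F 𝔹 v ≤ η ∧ p.b F 𝔹 v' - p.b F 𝔹 v ≤ η ∧ p.hS F 𝔹 v' - p.hS F 𝔹 v ≤ η ∧
      ((v' < p.x ∨ p.x ≤ v) → p.h F 𝔹 v' - p.h F 𝔹 v ≤ η) :=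
    ⟨N0, fun p hp hN η hη => by
      obtain ⟨δ, hδ, h⟩ := hE p.N hN η hη
      exact ⟨δ, hδ, h p hp rfl⟩⟩
  refine (hU.and hE').mono fun p hp h hs => ?_
  obtain ⟨⟨m1, m2, m3, m4, m5, h6, -, h8⟩, he⟩ := h
  have ha := l8zp_a4 hs.1
  rw [ha] at m1 m2 m3 m4 m5 h6 he
  exact ⟨ha, (hp.sm_fin hs.1).2, (hp.sm_fin hs.1).1, m1, m2, m3, m4, m5, fun u hu => (h6 u hu).2.2.1, fun u hu => (h6 u hu).2.2.2.2, he, h8,
    fun u hu => by unfold LlPt.h; rw [if_pos hu]⟩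

/-- `LlAdm`; `b_top`: `lcb_G_const`, `lcb_dy_zero`.      OWNER: helper88 -/
theorem l8zp_B {𝔹 : LlBase} {F : LlFix} (h3 : LlSec3 𝔹 F) : ∃ c C : ℝ, 0 < c ∧ LlUnif F fun p => l8Siz p → L8zPtB p F 𝔹 c C (2 * F.vb) := by
  obtain ⟨c, C, hc, hU⟩ := h3.adm
  have hvb := h3.ok.vb0
  refine ⟨c, max C (C * F.cb), hc, (hU.and (lce_unif_x F (F.vb / 8) (by positivity))).mono fun p hp h hs => ?_⟩
  obtain ⟨⟨-, -, -, -, -, h6, h7, -⟩, hx⟩ := h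
  have ha := l8zp_a4 hs.1
  rw [ha] at h6 h7
  have hl := (l8zp_lam_pos hp).le
  refine ⟨fun u hu => (h6 u hu).1, fun u hu => (h6 u hu).2.1.trans (le_max_left _ _), fun u u' h0 h1 h2 => ?_, fun u u' h0 h1 h2 => ?_⟩
  · refine (h7 u ⟨h0, h1.trans h2⟩ u' ⟨h0.trans h1, h2⟩ h1).trans ?_
    have h4 : 0 ≤ p.lam * u' * (u' - u) := mul_nonneg (mul_nonneg hl (h0.trans h1)) (sub_nonneg.2 h1)
    calc C * F.cb * p.lam * u' * (u' - u) = (C * F.cb) * (p.lam * u' * (u' - u)) := by ring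
      _ ≤ max C (C * F.cb) * (p.lam * u' * (u' - u)) := mul_le_mul_of_nonneg_right (le_max_right _ _) h4
      _ = max C (C * F.cb) * p.lam * u' * (u' - u) := by ring
  · have hxb : 8 * p.x ≤ F.vb := by linarith
    have hx0 := llc_x_pos hp
    unfold LlPt.b
    rw [lcb_G_const F h3.ok p hx0 hxb u h0, lcb_G_const F h3.ok p hx0 hxb u' (h0.trans h1), lcb_dy_zero F h3.ok p hx0 hxb u (Or.inr (by linarith)),
      lcb_dy_zero F h3.ok p hx0 hxb u' (Or.inr (by linarith))]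

/-- `K 0 = 0` -/
theorem l8zp_K0 {K : ℝ → ℝ} {C v0 : ℝ} (hv0 : 0 < v0) (hm : MonotoneOn K (Icc 0 4)) (h0 : 0 ≤ K 0) (hi : ∀ v, 0 < v → v ≤ v0 → K v ≤ C * v) : K 0 = 0 := by
  refine le_antisymm (le_of_forall_pos_le_add fun ε hε => ?_) h0
  have hC : 0 < |C| + 1 := by positivity
  set v := min (min v0 4) (ε / (|C| + 1)) with hv
  have hvp : 0 < v := lt_min (lt_min hv0 (by norm_num)) (by positivity)
  have h1 : v ≤ v0 := (min_le_left _ _).trans (min_le_left _ _)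
  have h2 : v ≤ 4 := (min_le_left _ _).trans (min_le_right _ _)
  have h3 : v ≤ ε / (|C| + 1) := min_le_right _ _
  have h4 : K 0 ≤ K v := hm ⟨le_rfl, by norm_num⟩ ⟨hvp.le, h2⟩ hvp.le
  have h5 : C * v ≤ ε := by
    calc C * v ≤ (|C| + 1) * v := mul_le_mul_of_nonneg_right (by linarith [le_abs_self C]) hvp.le
      _ ≤ (|C| + 1) * (ε / (|C| + 1)) := mul_le_mul_of_nonneg_left h3 hC.le
      _ = ε := by field_simp
  linarith [hi v hvp h1]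

/-- passage to the limit `v → 0+` -/
theorem l8zp_lim {A B D w : ℝ} (hw : 0 < w) (hD : 0 ≤ D) (h : ∀ v, 0 < v → v ≤ w → A ≤ B + D * v) : A ≤ B := by
  refine le_of_forall_pos_le_add fun ε hε => ?_
  have hD1 : 0 < D + 1 := by linarith
  have hv : 0 < min w (ε / (D + 1)) := lt_min hw (by positivity)
  have h1 := h _ hv (min_le_left _ _)
  have h2 : D * min w (ε / (D + 1)) ≤ ε := by
    calc D * min w (ε / (D + 1)) ≤ (D + 1) * (ε / (D + 1)) := mul_le_mul (by linarith) (min_le_right _ _) hv.le hD1.le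
      _ = ε := by field_simp
  linarith

theorem l8zp_ell_sq {p : LlPt} {F : LlFix} (hp : p.Ok F) : p.ell ^ 2 ≤ 4 / 3 := by
  by_contra hcon
  rw [not_le] at hcon
  have h1 : (4 / 3 : ℝ) ^ 3 < (p.ell ^ 2) ^ 3 := pow_lt_pow_left₀ hcon (by norm_num) (by norm_num)
  have h2 := lkk_ell6 hp
  have h3 : (p.ell ^ 2) ^ 3 = p.ell ^ 6 := by ring
  rw [h3] at h1
  norm_num at h1
  linarith

/-- the body of `LlK8` (`hK`), extended to `u = 0` (`K 0 = 0`: `LlAdm` + `Ref.K_hi0`); `K_tot`: wall + monotone; `K_wall`: wall + `dens`; `frz_m`: `Ref.K_hi0`.      OWNER: helper88 -/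
theorem l8zp_K {𝔹 : LlBase} {F : LlFix} (h3 : LlSec3 𝔹 F) (cK v1 : ℝ) (hcK : 0 < cK) (hv1 : 0 < v1)
    (hK : LlUnif F fun p => p.sm = true →
      (∀ v v', 0 < v → v ≤ v' → v' ≤ v1 → cK * (v' - v) ≤ p.K F 𝔹 v' - p.K F 𝔹 v) ∧
      (∀ v v', 0 < v → v ≤ v' → v' ≤ 4 → cK * p.om * (p.K F 𝔹 v' - p.K F 𝔹 v) ≤ v' - v) ∧
      (∀ v v', 0 < v → v ≤ v' → v' ≤ p.ell * (1 + p.om * p.M) → cK * p.om * (v' - v) ≤ p.K F 𝔹 v' - p.K F 𝔹 v) ∧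
      (∀ v, p.ell * (1 + p.om * p.M) ≤ v → v ≤ 4 → p.ell ^ 2 * p.K F 𝔹 v = p.M)) :
    ∃ c C : ℝ, 0 < c ∧ LlUnif F fun p => l8Siz p → L8zPtK p F 𝔹 c C v1 := by
  obtain ⟨cA, CA, hcA, hU⟩ := h3.adm
  obtain ⟨c, C, v0, hc, hv0, hR⟩ := h3.ref
  obtain ⟨N1, hN1⟩ := lkk_M_large 1
  have hM : LlUnif F fun p => 1 < p.M := ⟨N1, fun p hp hN => hN1 p hp.N2 hN⟩
  refine ⟨min cK v0, |C| * v0 + 1, lt_min hcK hv0,
    ((((hU.and hR).and hK).and hM).and (lce_unif_x F (min (1 / 2) (cK / 4)) (by positivity))).mono fun p hp h hs => ?_⟩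
  obtain ⟨⟨⟨⟨⟨-, -, -, m4, -, h6, -, -⟩, r⟩, hk⟩, hM⟩, hx⟩ := h
  obtain ⟨k1, k2, k3, k4⟩ := hk hs.1
  have ha := l8zp_a4 hs.1
  rw [ha] at m4 h6
  have hx0 := llc_x_pos hp
  have ho := l8zp_om_pos hp
  have hKnn : ∀ u, 0 ≤ u → u ≤ 4 → 0 ≤ p.K F 𝔹 u := fun u h0 h1 => (h6 u ⟨h0, h1⟩).2.2.2.2
  have hK0 : p.K F 𝔹 0 = 0 := l8zp_K0 hv0 m4 (hKnn 0 le_rfl (by norm_num)) r.K_hi0
  have hell1 := hp.ell1
  have hell2 := l8zp_ell_sq hp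
  have hoM : 0 ≤ p.om * p.M := mul_nonneg ho.le (l8zp_M_nn hp)
  have hvM4 : p.ell * (1 + p.om * p.M) ≤ 4 := by
    have h1 := lkk_omM hp.N2
    have h2 := lkk_ell_le_two hp
    nlinarith
  have hvM1 : 1 ≤ p.ell * (1 + p.om * p.M) := by nlinarith
  -- extension to `u = 0`
  have dens : ∀ u u', 0 ≤ u → u ≤ u' → u' ≤ 4 → cK * p.om * (p.K F 𝔹 u' - p.K F 𝔹 u) ≤ u' - u := by
    intro u u' h0 h1 h2
    rcases h0.eq_or_lt with e | h0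
    · subst e
      rcases h1.eq_or_lt with e | h1
      · subst e; simp
      · rw [hK0, sub_zero, sub_zero]
        refine l8zp_lim (w := min u' v0) (D := cK * p.om * |C|) (lt_min h1 hv0) (by positivity) fun v hv hvw => ?_
        have h4 := k2 v u' hv (hvw.trans (min_le_left _ _)) h2
        have h5 := r.K_hi0 v hv (hvw.trans (min_le_right _ _))
        have h7 : C * v ≤ |C| * v := mul_le_mul_of_nonneg_right (le_abs_self C) hv.le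
        have h8 : cK * p.om * p.K F 𝔹 v ≤ cK * p.om * (|C| * v) := mul_le_mul_of_nonneg_left (h5.trans h7) (by positivity)
        nlinarith
    · exact k2 u u' h0 h1 h2
  have lowG : ∀ (a B : ℝ), 0 ≤ a → (∀ v v', 0 < v → v ≤ v' → v' ≤ B → a * (v' - v) ≤ p.K F 𝔹 v' - p.K F 𝔹 v) →
      ∀ u u', 0 ≤ u → u ≤ u' → u' ≤ B → a * (u' - u) ≤ p.K F 𝔹 u' - p.K F 𝔹 u := by
    intro a B ha0 hh u u' h0 h1 h2
    rcases h0.eq_or_lt with e | h0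
    · subst e
      rcases h1.eq_or_lt with e | h1
      · subst e; simp
      · rw [hK0, sub_zero, sub_zero]
        refine l8zp_lim (w := min u' 4) (D := a) (lt_min h1 (by norm_num)) ha0 fun v hv hvw => ?_
        have h4 := hh v u' hv (hvw.trans (min_le_left _ _)) h2
        have h5 := hKnn v hv.le (hvw.trans (min_le_right _ _))
        nlinarith
    · exact hh u u' h0 h1 h2
  have hmin1 : min cK v0 ≤ cK := min_le_left _ _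
  have hwall : ∀ u, p.ell * (1 + p.om * p.M) ≤ u → u ≤ 4 → 3 / 4 * p.M ≤ p.K F 𝔹 u ∧ p.K F 𝔹 u ≤ p.M := by
    intro u h0 h1
    have h2 := k4 u h0 h1
    have h4 := hKnn u (by linarith) h1
    have h5 : 1 ≤ p.ell ^ 2 := by nlinarith
    constructor
    · nlinarith
    · nlinarith [mul_le_mul_of_nonneg_right h5 h4]
  refine ⟨hK0, fun u u' h0 h1 h2 => le_trans ?_ (dens u u' h0 h1 h2), fun u u' h0 h1 h2 => le_trans ?_ (lowG _ _ (by positivity) k3 u u' h0 h1 h2),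
    fun u u' h0 h1 h2 => ?_, fun u hu => ?_, fun u h0 h1 => ?_, fun u hu h1 => ?_⟩
  · exact mul_le_mul_of_nonneg_right (mul_le_mul_of_nonneg_right hmin1 ho.le) (sub_nonneg.2 (m4 ⟨h0, h1.trans h2⟩ ⟨h0.trans h1, h2⟩ h1))
  · exact mul_le_mul_of_nonneg_right (mul_le_mul_of_nonneg_right hmin1 ho.le) (sub_nonneg.2 h1)
  · exact (mul_le_mul_of_nonneg_right hmin1 (sub_nonneg.2 h1)).trans (lowG _ _ hcK.le k1 u u' h0 h1 h2)
  · exact (m4 hu ⟨by norm_num, le_rfl⟩ hu.2).trans (hwall 4 hvM4 le_rfl).2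
  · rcases le_total (p.ell * (1 + p.om * p.M)) u with h2 | h2
    · linarith [(hwall u h2 h1).1]
    · have hx1 : p.x ≤ 1 := llc_x_le_one hp
      have hx40 : p.x ^ 40 ≤ 1 := pow_le_one₀ hx0.le hx1
      have h4 := dens u _ (by linarith) h2 hvM4
      have h5 := (hwall _ le_rfl hvM4).1
      have h7 : p.x ^ 6 ≤ p.om := by
        unfold LlPt.om
        rw [← Real.rpow_natCast]
        exact Real.rpow_le_rpow_of_exponent_ge hx0 hx1 (by norm_num)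
      have h8 : p.x ^ 34 ≤ cK / 4 := by
        calc p.x ^ 34 ≤ p.x ^ 1 := pow_le_pow_of_le_one hx0.le hx1 (by norm_num)
          _ = p.x := pow_one _
          _ ≤ cK / 4 := hx.trans (min_le_right _ _)
      have h9 : p.x ^ 40 ≤ cK * p.om * (1 / 4) := by
        calc p.x ^ 40 = p.x ^ 34 * p.x ^ 6 := by ring
          _ ≤ cK / 4 * p.om := mul_le_mul h8 h7 (by positivity) (by positivity)
          _ = cK * p.om * (1 / 4) := by ring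
      have h10 : cK * p.om * (p.K F 𝔹 (p.ell * (1 + p.om * p.M)) - p.K F 𝔹 u) ≤ cK * p.om * (1 / 4) := by linarith
      have h11 := le_of_mul_le_mul_left h10 (by positivity)
      linarith
  · by_contra hcon
    rw [not_le] at hcon
    have h2 : u < v0 := lt_of_lt_of_le hcon (min_le_right _ _)
    have h4 : 0 ≤ |C| * v0 := by positivity
    rcases hu.1.eq_or_lt with e | h0
    · rw [← e, hK0] at h1
      linarith
    · have h5 := r.K_hi0 u h0 h2.le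
      have h7 : C * u ≤ |C| * v0 := mul_le_mul (le_abs_self C) h2.le h0.le (abs_nonneg C)
      linarith

/-- `Ref`; `Γ' ≤ 1/b_∘ ≤ 1/c` by `gap_lo`; the end `u = 4` by monotonicity (`LlAdm`).      OWNER: helper88 -/
theorem l8zp_G {𝔹 : LlBase} {F : LlFix} (h3 : LlSec3 𝔹 F) : ∃ c C : ℝ, 0 < c ∧ LlUnif F fun p => l8Siz p → L8zPtG p F 𝔹 c C := by
  obtain ⟨cA, CA, hcA, hU⟩ := h3.adm
  obtain ⟨c, C, v0, hc, hv0, hR⟩ := h3.ref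
  refine ⟨c / 4, max (max C 1) (1 / c), by positivity, (hU.and hR).mono fun p hp h hs => ?_⟩
  obtain ⟨⟨-, -, -, m4, m5, h6, -, -⟩, r⟩ := h
  have ha := l8zp_a4 hs.1
  have rql := r.q_lo
  have rqh := r.q_hi
  rw [ha] at m4 m5 h6 rql rqh
  have hl := l8zp_lam_pos hp
  have hK0 : p.K F 𝔹 0 = 0 := l8zp_K0 hv0 m4 (h6 0 ⟨le_rfl, by norm_num⟩).2.2.2.2 r.K_hi0
  have hq0 : p.q F 𝔹 0 = 0 := by unfold LlPt.q; rw [hK0, r.gam_zero]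
  have hG1 : ∀ t, 0 ≤ t → p.Gam1 F 𝔹 t ≤ 1 / c := by
    intro t ht
    have h1 := r.gap_lo t ht
    have h2 : 0 ≤ c * p.lam * min (t ^ 2) 1 := mul_nonneg (mul_nonneg hc.le hl.le) (le_min (sq_nonneg t) zero_le_one)
    unfold LlPt.gap at h1
    have h4 := (r.g1_pos t ht).le
    have h5 : c * p.Gam1 F 𝔹 t ≤ 1 := (mul_le_mul_of_nonneg_right r.b0_lo h4).trans (by linarith)
    rw [le_div_iff₀ hc]
    linarith
  refine ⟨r.gam_zero, r.gam_ftc, r.g1_cont, fun t ht => ⟨r.g1_pos t ht, (hG1 t ht).trans (le_max_right _ _)⟩, r.gam_le, hq0, fun u u' h0 h1 h2 => ?_,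
    fun u hu => ?_, fun u u' h0 h1 h2 => ?_⟩
  · rcases h1.lt_or_eq with h4 | h4
    · have := rql u ⟨h0, h4⟩
      nlinarith
    · have h5 := rql 2 ⟨by norm_num, by norm_num⟩
      have h6 : p.q F 𝔹 2 ≤ p.q F 𝔹 u := m5 ⟨by norm_num, by norm_num⟩ ⟨h0.le, h1⟩ (by linarith)
      nlinarith
  · have hC1 : C ≤ max (max C 1) (1 / c) := (le_max_left _ _).trans (le_max_left _ _)
    have hC2 : 1 ≤ max (max C 1) (1 / c) := (le_max_right _ _).trans (le_max_left _ _)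
    rcases hu.1.eq_or_lt with h4 | h4
    · rw [← h4, hq0, mul_zero]
    · rcases hu.2.lt_or_eq with h5 | h5
      · exact (rqh u ⟨h4, h5⟩).trans (mul_le_mul_of_nonneg_right hC1 hu.1)
      · have h7 : p.q F 𝔹 u ≤ 1 := r.gam_le _ (h6 u hu).2.2.2.2
        nlinarith
  · have k0 : 0 ≤ p.K F 𝔹 u := (h6 u ⟨h0, h1.trans h2⟩).2.2.2.2
    have k1 : p.K F 𝔹 u ≤ p.K F 𝔹 u' := m4 ⟨h0, h1.trans h2⟩ ⟨h0.trans h1, h2⟩ h1
    unfold LlPt.q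
    rw [r.gam_ftc _ _ k0 k1]
    have hi : IntervalIntegrable (p.Gam1 F 𝔹) volume (p.K F 𝔹 u) (p.K F 𝔹 u') :=
      (r.g1_cont.mono fun s hs => k0.trans hs.1).intervalIntegrable_of_Icc k1
    have h7 := intervalIntegral.integral_mono_on k1 hi (intervalIntegrable_const (c := max (max C 1) (1 / c)))
      (fun s hs => (hG1 s (k0.trans hs.1)).trans (le_max_right _ _))
    rw [intervalIntegral.integral_const, smul_eq_mul] at h7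
    linarith

/-- `h_K`: `LlP4` + `Hlo, Hlin` nondecreasing;   `h_lo`: `hS, Hlin` nondecreasing, `Hlo u' - Hlo u ≥ λ₁ U³ (u' - u)/ℓ`, `λ₁ U³ = x³ λ^(1+η-3s/2) ≥ x^(3 + 9 p_*/8)`;   `d_hi`: `d = Hlo + Hlin ≤ x³ (log (2/x) + 2)`;   `d_lo`: `LlP4.2`;
`hS_nn`: `LlAdm`;   `gap`: `LlP5` (`mul_assoc`).   THE END `u = 4` (resp. `u' = 4`): `LlP4`, `LlP5` live on `Ioo 0 a`; beyond the wall (`hW`) `K`, hence `q`, are constant, `b` is constant above `2 v_b` (`l8zp_B`), `hS` monotone on `Icc`.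
PROVED (helper236) -/
theorem l8zp_H {𝔹 : LlBase} {F : LlFix} (h3 : LlSec3 𝔹 F) (he : F.eta ≤ 1 / 8) (hp : F.pS ≤ 1 / 40000) (hvb : 2 * F.vb ≤ 1)
    (hW : LlUnif F fun p => p.sm = true → ∀ v, p.ell * (1 + p.om * p.M) ≤ v → v ≤ 4 → p.ell ^ 2 * p.K F 𝔹 v = p.M) :
    ∃ c C : ℝ, 0 < c ∧ LlUnif F fun p => l8Siz p → L8zPtH p F 𝔹 c C := by
  have hF := h3.ok
  obtain ⟨cA, CA, hcA, NA, HA⟩ := h3.adm
  obtain ⟨c4, C4, v4, hc4, hv4, N4, H4⟩ := h3.p4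
  obtain ⟨c5, hc5, N5, H5⟩ := h3.p5
  obtain ⟨NW, HW⟩ := hW
  obtain ⟨cB, CB, hcB, NB, HB⟩ := l8zp_B h3
  obtain ⟨Nx, HX⟩ := lkk_x_small (ε := min v4 ((1 / 2 : ℝ) ^ 200)) (lt_min hv4 (by positivity))
  refine ⟨min (c4 / 4) (c5 / 8), 4 + 2 * |C4|, lt_min (by positivity) (by positivity),
    max (max NA N4) (max (max N5 NW) (max NB Nx)), fun p hpo hN hs => ?_⟩
  have hNA : NA ≤ p.N := ((le_max_left _ _).trans (le_max_left _ _)).trans hN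
  have hN4 : N4 ≤ p.N := ((le_max_right _ _).trans (le_max_left _ _)).trans hN
  have hN5 : N5 ≤ p.N := ((le_max_left _ _).trans ((le_max_left _ _).trans (le_max_right _ _))).trans hN
  have hNW : NW ≤ p.N := ((le_max_right _ _).trans ((le_max_left _ _).trans (le_max_right _ _))).trans hN
  have hNB : NB ≤ p.N := ((le_max_left _ _).trans ((le_max_right _ _).trans (le_max_right _ _))).trans hN
  have hNx : Nx ≤ p.N := ((le_max_right _ _).trans ((le_max_right _ _).trans (le_max_right _ _))).trans hN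
  obtain ⟨-, -, hSm, hKm, -, hbd, -, -⟩ := HA p hpo hNA
  obtain ⟨P4a, P4b⟩ := H4 p hpo hN4
  have P5 := H5 p hpo hN5
  have Wl := HW p hpo hNW hs.1
  have Bt := (HB p hpo hNB hs).b_top
  have hxs := HX p hNx
  have ha : p.a = 4 := by unfold LlPt.a; rw [if_pos hs.1]
  rw [ha] at hSm hKm hbd P4a P5
  have hx := lkk_x_pos hpo.N2
  have hx1 := (lkk_x_lt_one hpo.N2).le
  have hlam : p.lam = p.x ^ F.pS := (hpo.sm_fin hs.1).1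
  have hl1 : p.lam ≤ 1 := by rw [hlam]; exact Real.rpow_le_one hx.le hx1 hF.pS0.le
  have hx200 : p.x ≤ (1 / 2 : ℝ) ^ 200 := hxs.trans (min_le_right _ _)
  have hxv4 : p.x ≤ v4 := hxs.trans (min_le_left _ _)
  have hx3 : p.x ≤ 1 / 3 := hx200.trans (by norm_num)
  have Kc := l8zh_Kc hpo Wl
  exact ⟨l8zh_hK hpo hs hc4 (min_le_left _ _) hKm (l8zh_P4c hpo Kc hSm P4a),
    l8zh_hlo hF hpo hs he hp hx200 hSm,
    l8zh_dhi hF hpo hs hl1 hx3 (by positivity),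
    l8zh_dlo hF hpo hl1 hx3 hSm (P4b p.x ⟨hx, hxv4⟩),
    fun u hu => (hbd u hu).2.2.2.1,
    l8zh_gap hpo hc5 (min_le_right _ _) Kc (Bt 3 4 (by linarith) (by norm_num) le_rfl) (fun v hv z hz => (P5 v hv z hz).1)⟩

/-- **THE POINT RECORD.**  `hK` = the body of `LlK8 𝔹 F` (unfold it at the call).      GLUE: helper88 -/
theorem l8zp_main {𝔹 : LlBase} {F : LlFix} (h3 : LlSec3 𝔹 F) (he : F.eta ≤ 1 / 8) (hp : F.pS ≤ 1 / 40000)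
    (hK : ∃ c v1 : ℝ, 0 < c ∧ 2 * F.vb < v1 ∧ v1 ≤ 1 ∧ LlUnif F fun p => p.sm = true →
      (∀ v v', 0 < v → v ≤ v' → v' ≤ v1 → c * (v' - v) ≤ p.K F 𝔹 v' - p.K F 𝔹 v) ∧
      (∀ v v', 0 < v → v ≤ v' → v' ≤ 4 → c * p.om * (p.K F 𝔹 v' - p.K F 𝔹 v) ≤ v' - v) ∧
      (∀ v v', 0 < v → v ≤ v' → v' ≤ p.ell * (1 + p.om * p.M) → c * p.om * (v' - v) ≤ p.K F 𝔹 v' - p.K F 𝔹 v) ∧
      (∀ v, p.ell * (1 + p.om * p.M) ≤ v → v ≤ 4 → p.ell ^ 2 * p.K F 𝔹 v = p.M)) :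
    ∃ c C v1 v2 : ℝ, 0 < c ∧ c ≤ 1 ∧ 1 ≤ C ∧ LlUnif F fun p => l8Siz p → L8zPt p F 𝔹 c C v1 v2 := by
  obtain ⟨cK, v1, hcK, hv, hv1, hK⟩ := hK
  have hvb := h3.ok.vb0
  obtain ⟨c1, C1, hc1, hB⟩ := l8zp_B h3
  obtain ⟨c2, C2, hc2, hKK⟩ := l8zp_K h3 cK v1 hcK (by linarith) hK
  obtain ⟨c3, C3, hc3, hG⟩ := l8zp_G h3
  obtain ⟨c4, C4, hc4, hH⟩ := l8zp_H h3 he hp (by linarith) (hK.mono fun p _ h hs => (h hs).2.2.2)
  have hd : 0 < (v1 - 2 * F.vb) / 2 := by linarith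
  refine ⟨min (min (min c1 c2) (min c3 c4)) (min 1 ((v1 - 2 * F.vb) / 2)), max (max (max C1 C2) (max C3 C4)) 1, v1, (2 * F.vb + v1) / 2,
    lt_min (lt_min (lt_min hc1 hc2) (lt_min hc3 hc4)) (lt_min one_pos hd), (min_le_right _ _).trans (min_le_left _ _), le_max_right _ _,
    (((((l8zp_A h3).and hB).and hKK).and hG).and hH).mono fun p hp h hs => ?_⟩
  obtain ⟨⟨⟨⟨hA, hB⟩, hK⟩, hG⟩, hH⟩ := h
  set c := min (min (min c1 c2) (min c3 c4)) (min 1 ((v1 - 2 * F.vb) / 2)) with hc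
  set C := max (max (max C1 C2) (max C3 C4)) 1 with hC
  have e1 : c ≤ c1 := (min_le_left _ _).trans ((min_le_left _ _).trans (min_le_left _ _))
  have e2 : c ≤ c2 := (min_le_left _ _).trans ((min_le_left _ _).trans (min_le_right _ _))
  have e3 : c ≤ c3 := (min_le_left _ _).trans ((min_le_right _ _).trans (min_le_left _ _))
  have e4 : c ≤ c4 := (min_le_left _ _).trans ((min_le_right _ _).trans (min_le_right _ _))
  have e5 : c ≤ (v1 - 2 * F.vb) / 2 := (min_le_right _ _).trans (min_le_right _ _)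
  have E1 : C1 ≤ C := ((le_max_left _ _).trans (le_max_left _ _)).trans (le_max_left _ _)
  have E2 : C2 ≤ C := ((le_max_right _ _).trans (le_max_left _ _)).trans (le_max_left _ _)
  have E3 : C3 ≤ C := ((le_max_left _ _).trans (le_max_right _ _)).trans (le_max_left _ _)
  have E4 : C4 ≤ C := ((le_max_right _ _).trans (le_max_right _ _)).trans (le_max_left _ _)
  have hc0 : 0 < c := lt_min (lt_min (lt_min hc1 hc2) (lt_min hc3 hc4)) (lt_min one_pos hd)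
  have hl := (l8zp_lam_pos hp).le
  exact
    { toL8zPtA := hA hs
      toL8zPtB := (hB hs).mono hl e1 E1 (by linarith)
      toL8zPtK := (hK hs).mono (hA hs) (l8zp_om_pos hp).le e2 E2
      toL8zPtG := (hG hs).mono (hA hs) hc0.le e3 E3
      toL8zPtH := (hH hs).mono (hA hs) hl (llc_x_pos hp).le (l8zp_M_nn hp) e4 E4
      vv := ⟨by linarith, by linarith, hv1⟩ }

end

end Claimed.Agent.R286
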