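import Claimed.Agent.R286.L08.Glue
import Claimed.Agent.R286.L08.SaD13
import Claimed.Agent.R286.L08.FineA
import Claimed.Agent.R286.L08.GeoPt
import Claimed.Agent.R286.LL.PathsKk
import Claimed.Agent.R286.LL.PathsClkB

/-!
# Row 286 (S0533), folder L08, unit SA, file SaGeo : THE GEOMETRY OF THE SAMPLED CLOCKS ON A SMOOTHED SIZE PATH = INSTANCE `l8z_geo` OF `I.ZGeo`      (head helper73; team 88, 202, 236, 232, 127; architect of `ZGeo`: helper163; prefix `l8z_`, `SaK`, `L8In.Z*`)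

Sec. C of `L08/SaTop.lean` (definitions `L8In.zPK .. L8In.ZGeo`) MOVED HERE verbatim (light imports: the team does not build the model files).   `SaTop` imports this file.
GOAL  `l8z_geo` : at every `x^50`-fine instance of a smoothed size path, `N ≥ N1`:  `I.ZGeo c C v1 v2 (x^40)`.      **PROVED, 0 sorry in this file.**

| step              | content                                                                                                   | by |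
| `l8z_geo_pt`      | `LlSec3 + LlK8 ⟹ I.ZPt K` : raw facts of LL 03 AT THE POINT of the instance (for the sampling lemma)         | 73 |
| `l8z_geo_smp`     | SAMPLING: `I.ZSmp` (cumulated clocks = path clocks at the mass of the last revelation) + `I.ZFin η` (index form of `I.Fine η`)  | 73 |
| `l8zp_main`       | `L08/GeoPt.lean`: THE POINT RECORD `L8zPt p F 𝔹 c C v1 v2` (path level, masses in the closed `[0,4]`)           | 88, 202, 236 |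
| `L8In.ZRc.pre`    | `I.ZPre k`: at the cut `k ≤ n` all cumulated clocks are the path clocks at `I.zu k` (`= v (k-1)`, `0` at `k = 0`), `dv k = v k - zu k` | 73 |
| `l8z_clk_close_core` | the step clocks of a sampled chain are `η`-close to the clocks (list level)                                | 232 |
| `l8z_rc_clk, _b, _K, _h, _G` | the five groups of `ZGeo` from `I.ZRc c C v1 v2 = {ok, smp, fin, rc : L8zPt}`; constants `c/2, C, v1, v2`     | 73 |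

CONVENTION  `u_k = I.v k` = mass of the revelation `k < n`;   `I.bC (k+1) = b(u_k)` (`u_k > 0`), `I.KC (k+1) = K(u_k)`, `I.hC (k+1) = h(u_k)` (`u_k ≠ x`), `∈ [0, h x]` at `u_k = x` (position inside the jump of the mask).
TRAPS: (T1) positions `(0, lam)`, `lam < 1`: `bC (k+1) ∈ [0, b 0]` only; the stage of positive mass after them has `db ≤ η` (`ZFin.dB`), hence `bC k ≥ b(u_k) - η`;  a stage with `0 < u_k < x` has `db = 0` (`ZFin.low`), a stage with `u_k ≥ x` has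
`u_(k-1) ≥ u_k - η > 0`.   (T2) the mass `a = 4` may be a mass of the chain while (P2), (P4), (P5) speak on the open interval: solved in `GeoPt` (closed ranges).   (T3) `k = 0`: all cumulated clocks vanish, `u_0 = dv 0 ≤ η`.
-/

set_option autoImplicit false

namespace Claimed.Agent.R286

open MeasureTheory Set Filter Finset

noncomputable section

/-! ## C. The geometry of the sampled clocks (definitions of helper163, moved from `SaTop`) -/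

namespace L8In

variable (I : L8In)

/-- the one-site scalar path of the chain -/
def zPK : SkStp := llSc I.LP
/-- increments through the revelation number `k` -/
def zdB (k : ℕ) : ℝ := saDb I.P0 k
def zdH (k : ℕ) : ℝ := saDh I.P0 k
def zdK (k : ℕ) : ℝ := saDh I.zPK k
/-- response `Γ(t)` and `Γ'(t)` of the path -/
def zGam (t : ℝ) : ℝ := I.p.Gam I.F I.𝔹 t
def zGam1 (t : ℝ) : ℝ := I.p.Gam1 I.F I.𝔹 t
/-- `Γ` at the scalar time revealed before the cut -/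
def zq (k : ℕ) : ℝ := I.zGam (I.KC k)
/-- the wall `v_M = ℓ (1 + ω M)` -/
def zvM : ℝ := I.p.ell * (1 + I.p.om * I.p.M)
/-- defect with the path response -/
def zdd (k : ℕ) : ℝ := I.hC k + I.bC k * I.zq k - I.KC k
/-- trial excess of (C2) on the chain -/
def zE0 : ℝ :=
  skPr I.m I.a I.zPK + (∫ u in (0 : ℝ)..I.a, (skClkH I.zPK u - skClkH I.P0 u) ^ 2 / (4 * skClkB I.P0 u)) - skPr I.m I.a I.P0

/-- **geometry of one chain on a smoothed size path**: constants `c` (small), `C` (large), masses `v2 < v1` (`b` is constant above `v2`, `K` has slope `≥ c` below `v1`), mesh `ε`.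
Source of every field: LL 03 (P2)-(P6), `LlK8`, formulas of the clocks (`LL/PathsDefs`), `ghAt` at the positions, `I.Fine`. -/
structure ZGeo (c C v1 v2 ε : ℝ) : Prop where
  a4 : I.a = 4
  adm0 : SkAdm I.a I.P0
  admK : SkAdm I.a I.zPK
  ck0 : CkAdm I.a (I.p.b I.F I.𝔹) (I.p.h I.F I.𝔹)
  ckK : CkAdm I.a (fun _ => 0) (I.p.K I.F I.𝔹)
  vv : 0 < v2 ∧ v2 + c ≤ v1 ∧ v1 ≤ 1
  /-- mesh -/
  mesh_v : ∀ k ≤ I.n, I.dv k ≤ ε
  mesh_c : ∀ k < I.n, I.zdH k ≤ ε ∧ I.zdK k ≤ ε ∧ (0 < I.v k → I.zdB k ≤ ε)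
  h_zero : ∀ k < I.n, I.v k < I.x → I.zdH k = 0
  /-- the clocks are continuous above `x`: several positions at one mass reveal nothing new -/
  same : ∀ k j, k < j → j ≤ I.n → I.v (j - 1) = I.v k → 2 * I.x ≤ I.v k → I.hC j = I.hC (k + 1) ∧ I.bC j = I.bC (k + 1) ∧ I.KC j = I.KC (k + 1)
  /-- the step clocks of the chain are uniformly close to the clocks -/
  close : ∀ u ∈ Ioo 0 I.a, |skClkB I.P0 u - I.p.b I.F I.𝔹 u| ≤ ε ∧ |skClkH I.P0 u - I.p.h I.F I.𝔹 u| ≤ ε ∧ |skClkH I.zPK u - I.p.K I.F I.𝔹 u| ≤ ε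
  clkB_pos : ∀ u ∈ Icc 0 I.a, c ≤ skClkB I.P0 u
  /-- matrix clock: (P3) -/
  b_lo : ∀ k ≤ I.n, 0 < I.v k → c ≤ I.bC k
  b_hi : ∀ k ≤ I.n, I.bC k ≤ C
  b_lam : ∀ k < I.n, 0 < I.v k → I.zdB k ≤ C * I.lam * I.v k * I.dv k
  b_top : ∀ k < I.n, v2 ≤ I.v k → I.zdB k = 0
  /-- scalar time against mass: both derivatives `≤ C/ω` before the wall; slope `≥ c` in the low region -/
  K_dens : ∀ k < I.n, c * I.p.om * I.zdK k ≤ I.dv k
  K_slow : ∀ k < I.n, I.v k ≤ I.zvM → c * I.p.om * I.dv k ≤ I.zdK k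
  K_low : ∀ k < I.n, I.v k ≤ v1 → c * I.dv k ≤ I.zdK k
  K_tot : I.KC I.n ≤ I.p.M
  K_wall : ∀ k ≤ I.n, I.zvM ≤ I.v k → I.p.M / 2 ≤ I.KC k
  /-- field clock: (P4), `H_lo` -/
  h_K : ∀ k < I.n, 2 * I.x ≤ I.v k → c * I.lam * I.v k ^ 2 * I.zdK k ≤ I.zdH k
  h_lo : ∀ k < I.n, 2 * I.x ≤ I.v k → I.v k ≤ I.p.ell → I.x ^ (3 + 1 / 100 : ℝ) * I.dv k ≤ I.zdH k
  /-- defect `d = h - (K - b q)`: (P6);   `h_* = K - b q ≥ 0` -/
  d_le : ∀ k ≤ I.n, |I.zdd k| ≤ C * I.x ^ 3 * I.p.M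
  hS_nn : ∀ k ≤ I.n, 0 ≤ I.KC k - I.bC k * I.zq k
  /-- the response: (P2) -/
  G_zero : I.zGam 0 = 0
  G_ftc : ∀ t t', 0 ≤ t → t ≤ t' → I.zGam t' - I.zGam t = ∫ s in t..t', I.zGam1 s
  G_cont : ContinuousOn I.zGam1 (Ici 0)
  G_pos : ∀ t, 0 ≤ t → 0 < I.zGam1 t ∧ I.zGam1 t ≤ C
  G_le : ∀ t, 0 ≤ t → I.zGam t ≤ 1
  q_lo : ∀ k ≤ I.n, 2 * I.x ≤ I.v k → c * I.v k ≤ I.zq k
  q_hi : ∀ k ≤ I.n, I.zq k ≤ C * I.v k
  q_sh : ∀ k ≤ I.n, |I.q k - I.zq k| ≤ ε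
  /-- (P5) -/
  gap : ∀ k ≤ I.n, 2 * I.x ≤ I.v k → ∀ z, 0 ≤ z →
    c * I.lam * I.v k ^ 2 ≤ ∫ y in (0 : ℝ)..1, (1 - I.bC k * I.zGam1 (I.KC k + y * (I.bC k * (z - I.zq k))))
  /-- beyond a fixed time the masses are bounded below -/
  frz_m : ∀ k < I.n, C ≤ I.KC k → c ≤ I.v k


/-! ## C'. The cut of `ZGeo` in five groups -/

/-- group CLK -/
structure ZGeoClk (c ε : ℝ) : Prop where
  a4 : I.a = 4
  adm0 : SkAdm I.a I.P0
  admK : SkAdm I.a I.zPK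
  ck0 : CkAdm I.a (I.p.b I.F I.𝔹) (I.p.h I.F I.𝔹)
  ckK : CkAdm I.a (fun _ => 0) (I.p.K I.F I.𝔹)
  mesh_v : ∀ k ≤ I.n, I.dv k ≤ ε
  mesh_c : ∀ k < I.n, I.zdH k ≤ ε ∧ I.zdK k ≤ ε ∧ (0 < I.v k → I.zdB k ≤ ε)
  h_zero : ∀ k < I.n, I.v k < I.x → I.zdH k = 0
  same : ∀ k j, k < j → j ≤ I.n → I.v (j - 1) = I.v k → 2 * I.x ≤ I.v k → I.hC j = I.hC (k + 1) ∧ I.bC j = I.bC (k + 1) ∧ I.KC j = I.KC (k + 1)
  close : ∀ u ∈ Ioo 0 I.a, |skClkB I.P0 u - I.p.b I.F I.𝔹 u| ≤ ε ∧ |skClkH I.P0 u - I.p.h I.F I.𝔹 u| ≤ ε ∧ |skClkH I.zPK u - I.p.K I.F I.𝔹 u| ≤ ε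
  clkB_pos : ∀ u ∈ Icc 0 I.a, c ≤ skClkB I.P0 u

/-- group B -/
structure ZGeoB (c C v2 : ℝ) : Prop where
  b_lo : ∀ k ≤ I.n, 0 < I.v k → c ≤ I.bC k
  b_hi : ∀ k ≤ I.n, I.bC k ≤ C
  b_lam : ∀ k < I.n, 0 < I.v k → I.zdB k ≤ C * I.lam * I.v k * I.dv k
  b_top : ∀ k < I.n, v2 ≤ I.v k → I.zdB k = 0

/-- group K -/
structure ZGeoK (c C v1 : ℝ) : Prop where
  K_dens : ∀ k < I.n, c * I.p.om * I.zdK k ≤ I.dv k
  K_slow : ∀ k < I.n, I.v k ≤ I.zvM → c * I.p.om * I.dv k ≤ I.zdK k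
  K_low : ∀ k < I.n, I.v k ≤ v1 → c * I.dv k ≤ I.zdK k
  K_tot : I.KC I.n ≤ I.p.M
  K_wall : ∀ k ≤ I.n, I.zvM ≤ I.v k → I.p.M / 2 ≤ I.KC k
  frz_m : ∀ k < I.n, C ≤ I.KC k → c ≤ I.v k

/-- group H -/
structure ZGeoH (c C : ℝ) : Prop where
  h_K : ∀ k < I.n, 2 * I.x ≤ I.v k → c * I.lam * I.v k ^ 2 * I.zdK k ≤ I.zdH k
  h_lo : ∀ k < I.n, 2 * I.x ≤ I.v k → I.v k ≤ I.p.ell → I.x ^ (3 + 1 / 100 : ℝ) * I.dv k ≤ I.zdH k
  d_le : ∀ k ≤ I.n, |I.zdd k| ≤ C * I.x ^ 3 * I.p.M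
  hS_nn : ∀ k ≤ I.n, 0 ≤ I.KC k - I.bC k * I.zq k

/-- group G -/
structure ZGeoG (c C ε : ℝ) : Prop where
  G_zero : I.zGam 0 = 0
  G_ftc : ∀ t t', 0 ≤ t → t ≤ t' → I.zGam t' - I.zGam t = ∫ s in t..t', I.zGam1 s
  G_cont : ContinuousOn I.zGam1 (Ici 0)
  G_pos : ∀ t, 0 ≤ t → 0 < I.zGam1 t ∧ I.zGam1 t ≤ C
  G_le : ∀ t, 0 ≤ t → I.zGam t ≤ 1
  q_lo : ∀ k ≤ I.n, 2 * I.x ≤ I.v k → c * I.v k ≤ I.zq k
  q_hi : ∀ k ≤ I.n, I.zq k ≤ C * I.v k
  q_sh : ∀ k ≤ I.n, |I.q k - I.zq k| ≤ ε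
  gap : ∀ k ≤ I.n, 2 * I.x ≤ I.v k → ∀ z, 0 ≤ z →
    c * I.lam * I.v k ^ 2 ≤ ∫ y in (0 : ℝ)..1, (1 - I.bC k * I.zGam1 (I.KC k + y * (I.bC k * (z - I.zq k))))

end L8In

/-- the five groups are the geometry -/
theorem L8In.ZGeo.of_groups {I : L8In} {c C v1 v2 ε : ℝ} (hv : 0 < v2 ∧ v2 + c ≤ v1 ∧ v1 ≤ 1) (h1 : I.ZGeoClk c ε) (h2 : I.ZGeoB c C v2) (h3 : I.ZGeoK c C v1)
    (h4 : I.ZGeoH c C) (h5 : I.ZGeoG c C ε) : I.ZGeo c C v1 v2 ε where
  a4 := h1.a4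
  adm0 := h1.adm0
  admK := h1.admK
  ck0 := h1.ck0
  ckK := h1.ckK
  vv := hv
  mesh_v := h1.mesh_v
  mesh_c := h1.mesh_c
  h_zero := h1.h_zero
  same := h1.same
  close := h1.close
  clkB_pos := h1.clkB_pos
  b_lo := h2.b_lo
  b_hi := h2.b_hi
  b_lam := h2.b_lam
  b_top := h2.b_top
  K_dens := h3.K_dens
  K_slow := h3.K_slow
  K_low := h3.K_low
  K_tot := h3.K_tot
  K_wall := h3.K_wall
  h_K := h4.h_K
  h_lo := h4.h_lo
  d_le := h4.d_le
  hS_nn := h4.hS_nn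
  G_zero := h5.G_zero
  G_ftc := h5.G_ftc
  G_cont := h5.G_cont
  G_pos := h5.G_pos
  G_le := h5.G_le
  q_lo := h5.q_lo
  q_hi := h5.q_hi
  q_sh := h5.q_sh
  gap := h5.gap
  frz_m := h3.frz_m

-- `L8In.Fine.mono` : `L08/Fine.lean`

/-! ## D. The supply of LL 03 and the constants -/

/- **SUPPLY (LL 03)**: `LlK8 𝔹 F` is now a def of `LL/PathsDefs.lean` and the field `k8` of `LlSec3` (producer `lch_k8`, `LL/PathsClkH.lean`, helper202: PROVED). -/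

/-- the constants of LL 03: `cr Cr v0` (P2) `LlRef`;  `ca Ca` `LlAdm`;  `c4 C4 v4` (P4);  `c5` (P5);  `c8 v1` `LlK8` -/
structure SaK where
  cr : ℝ
  Cr : ℝ
  v0 : ℝ
  ca : ℝ
  Ca : ℝ
  c4 : ℝ
  C4 : ℝ
  v4 : ℝ
  c5 : ℝ
  c8 : ℝ
  v1 : ℝ

namespace SaK

variable (K : SaK) (F : LlFix)

structure Ok : Prop where
  cr : 0 < K.cr
  v0 : 0 < K.v0
  ca : 0 < K.ca
  c4 : 0 < K.c4
  v4 : 0 < K.v4
  c5 : 0 < K.c5
  c8 : 0 < K.c8
  vb : 0 < F.vb
  v1_lo : 2 * F.vb < K.v1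
  v1_hi : K.v1 ≤ 1

end SaK

namespace L8In

variable (I : L8In)

/-- **the facts of LL 03 at the point of the instance** (`p = I.p` a smoothed point): bodies of `LlRef`, `LlAdm`, `LlEqui`, `LlP4`, `LlP5`, `LlK8` -/
structure ZPt (K : SaK) : Prop where
  fok : I.F.Ok
  eta_le : I.F.eta ≤ 1 / 8
  pS_le : I.F.pS ≤ 1 / 40000
  ref : I.p.Ref I.F I.𝔹 K.cr K.Cr K.v0
  adm : MonotoneOn (I.p.b I.F I.𝔹) (Icc 0 I.p.a) ∧ MonotoneOn (I.p.h I.F I.𝔹) (Icc 0 I.p.a) ∧ MonotoneOn (I.p.hS I.F I.𝔹) (Icc 0 I.p.a) ∧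
    MonotoneOn (I.p.K I.F I.𝔹) (Icc 0 I.p.a) ∧ MonotoneOn (I.p.q I.F I.𝔹) (Icc 0 I.p.a) ∧
    (∀ v ∈ Icc 0 I.p.a, K.ca ≤ I.p.b I.F I.𝔹 v ∧ I.p.b I.F I.𝔹 v ≤ K.Ca ∧ 0 ≤ I.p.h I.F I.𝔹 v ∧ 0 ≤ I.p.hS I.F I.𝔹 v ∧ 0 ≤ I.p.K I.F I.𝔹 v) ∧
    (∀ v ∈ Icc 0 I.p.a, ∀ v' ∈ Icc 0 I.p.a, v ≤ v' → I.p.b I.F I.𝔹 v' - I.p.b I.F I.𝔹 v ≤ K.Ca * I.F.cb * I.p.lam * v' * (v' - v)) ∧
    (∀ v ∈ Icc 0 I.p.x, I.p.b I.F I.𝔹 v = I.p.b I.F I.𝔹 0)
  equi : ∀ η : ℝ, 0 < η → ∃ δ : ℝ, 0 < δ ∧ ∀ v v' : ℝ, 0 ≤ v → v ≤ v' → v' ≤ I.p.a → v' - v ≤ δ →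
      I.p.K I.F I.𝔹 v' - I.p.K I.F I.𝔹 v ≤ η ∧ I.p.q I.F I.𝔹 v' - I.p.q I.F I.𝔹 v ≤ η ∧ I.p.b I.F I.𝔹 v' - I.p.b I.F I.𝔹 v ≤ η ∧
      I.p.hS I.F I.𝔹 v' - I.p.hS I.F I.𝔹 v ≤ η ∧ ((v' < I.p.x ∨ I.p.x ≤ v) → I.p.h I.F I.𝔹 v' - I.p.h I.F I.𝔹 v ≤ η)
  p4 : (∀ v ∈ Ioo 0 I.p.a, ∀ v' ∈ Ioo 0 I.p.a, v ≤ v' →
      K.c4 * I.p.lam * (v ^ 2 + I.p.U I.F ^ 2) * (I.p.K I.F I.𝔹 v' - I.p.K I.F I.𝔹 v) ≤ I.p.hS I.F I.𝔹 v' - I.p.hS I.F I.𝔹 v) ∧
    (∀ v ∈ Ioc 0 K.v4, I.p.hS I.F I.𝔹 v ≤ K.C4 * I.p.lam * (v ^ 3 + v * I.p.U I.F ^ 2))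
  p5 : ∀ v ∈ Ioo 0 I.p.a, ∀ z, 0 ≤ z →
    K.c5 * I.p.lam * (v ^ 2 + I.p.U I.F ^ 2) ≤
      (∫ y in (0 : ℝ)..1, (1 - I.p.b I.F I.𝔹 v * I.p.Gam1 I.F I.𝔹 (I.p.K I.F I.𝔹 v + y * I.p.b I.F I.𝔹 v * (z - I.p.q I.F I.𝔹 v))))
  k8 : (∀ v v', 0 < v → v ≤ v' → v' ≤ K.v1 → K.c8 * (v' - v) ≤ I.p.K I.F I.𝔹 v' - I.p.K I.F I.𝔹 v) ∧
    (∀ v v', 0 < v → v ≤ v' → v' ≤ 4 → K.c8 * I.p.om * (I.p.K I.F I.𝔹 v' - I.p.K I.F I.𝔹 v) ≤ v' - v) ∧
    (∀ v v', 0 < v → v ≤ v' → v' ≤ I.p.ell * (1 + I.p.om * I.p.M) → K.c8 * I.p.om * (v' - v) ≤ I.p.K I.F I.𝔹 v' - I.p.K I.F I.𝔹 v) ∧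
    (∀ v, I.p.ell * (1 + I.p.om * I.p.M) ≤ v → v ≤ 4 → I.p.ell ^ 2 * I.p.K I.F I.𝔹 v = I.p.M)

/-- **SAMPLING**: structure of the sequences of the chain; the cumulated clocks are the path clocks at the mass of the last revelation -/
structure ZSmp : Prop where
  n_pos : 0 < I.n
  v_nn : ∀ k, 0 ≤ I.v k
  v_le : ∀ k, I.v k ≤ I.a
  v_mono : Monotone I.v
  v_top : ∀ k, I.n ≤ k → I.v k = I.a
  dv0 : I.dv 0 = I.v 0
  dvS : ∀ k, I.dv (k + 1) = I.v (k + 1) - I.v k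
  c0 : I.bC 0 = 0 ∧ I.hC 0 = 0 ∧ I.KC 0 = 0
  dB : ∀ k < I.n, I.zdB k = I.bC (k + 1) - I.bC k
  dH : ∀ k < I.n, I.zdH k = I.hC (k + 1) - I.hC k
  dK : ∀ k < I.n, I.zdK k = I.KC (k + 1) - I.KC k
  b : ∀ k < I.n, 0 < I.v k → I.bC (k + 1) = I.p.b I.F I.𝔹 (I.v k)
  b0 : ∀ k < I.n, I.v k = 0 → 0 ≤ I.bC (k + 1) ∧ I.bC (k + 1) ≤ I.p.b I.F I.𝔹 0
  K : ∀ k < I.n, I.KC (k + 1) = I.p.K I.F I.𝔹 (I.v k)
  h : ∀ k < I.n, I.v k ≠ I.x → I.hC (k + 1) = I.p.h I.F I.𝔹 (I.v k)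
  hx : ∀ k < I.n, I.v k = I.x → 0 ≤ I.hC (k + 1) ∧ I.hC (k + 1) ≤ I.p.h I.F I.𝔹 I.x

/-- `I.Fine η` in index form -/
structure ZFin (η : ℝ) : Prop where
  dv : ∀ k ≤ I.n, I.dv k ≤ η
  dB : ∀ k < I.n, 0 < I.v k → I.zdB k ≤ η
  dH : ∀ k < I.n, I.zdH k ≤ η
  dK : ∀ k < I.n, I.zdK k ≤ η
  nnB : ∀ k < I.n, 0 ≤ I.zdB k
  nnH : ∀ k < I.n, 0 ≤ I.zdH k
  nnK : ∀ k < I.n, 0 ≤ I.zdK k
  low : ∀ k < I.n, I.v k < I.x → I.zdH k = 0 ∧ (I.zdB k = 0 ∨ I.v k = 0)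
  b_top : I.p.b I.F I.𝔹 I.a - I.bC I.n ≤ η
  h_top : I.p.h I.F I.𝔹 I.a - I.hC I.n ≤ η
  K_top : I.p.K I.F I.𝔹 I.a - I.KC I.n ≤ η
  q_link : ∀ k ≤ I.n, |I.q k - I.p.q I.F I.𝔹 (I.v k)| ≤ η

end L8In

/-! ## E. The steps -/

/-- **PT**: the facts of LL 03 at the point.      OWNER helper73 -/
theorem l8z_geo_pt (T : ℝ) (F0 : LlFix) (hF : L8Fix llBase T F0) (pB : LLParB) (pS : ℝ) (h0 : 0 < pS) (h1 : pS ≤ 1 / 40000)
    (hK8 : LlK8 llBase (F0.wExp pB.sStar pB.eta pS)) :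
    ∃ (K : SaK) (N1 : ℕ), K.Ok (F0.wExp pB.sStar pB.eta pS) ∧
      ∀ I : L8In, I.F = F0.wExp pB.sStar pB.eta pS → I.𝔹 = llBase → N1 ≤ I.p.N → l8Siz I.p → I.Ok → I.ZPt K := by
  have h3 := (hF.2.2 _ _ _ (llc_expOk pB h0 (h1.trans (by norm_num)))).sec3
  obtain ⟨cr, Cr, v0, hcr, hv0, Nr, hr⟩ := h3.ref
  obtain ⟨ca, Ca, hca, Na, ha⟩ := h3.adm
  obtain ⟨Ne, he⟩ := h3.equi
  obtain ⟨c4, C4, v4, hc4, hv4, N4, h4⟩ := h3.p4
  obtain ⟨c5, hc5, N5, h5⟩ := h3.p5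
  obtain ⟨c8, v1, hc8, hv1, hv1', N8, h8⟩ := hK8
  refine ⟨⟨cr, Cr, v0, ca, Ca, c4, C4, v4, c5, c8, v1⟩, Nr + Na + Ne + N4 + N5 + N8, ⟨hcr, hv0, hca, hc4, hv4, hc5, hc8, h3.ok.vb0, hv1, hv1'⟩, ?_⟩
  intro I hIF hIB hN hS hOk
  obtain ⟨F, 𝔹, p, m, s, Fs⟩ := I
  simp only at hIF hIB hN hS
  subst hIF hIB
  have hp : p.Ok (F0.wExp pB.sStar pB.eta pS) := hOk.pt
  refine ⟨h3.ok, ?_, h1, hr p hp (by omega), ha p hp (by omega), fun η hη => ?_, h4 p hp (by omega), fun v hv z hz => (h5 p hp (by omega) v hv z hz).1,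
    h8 p hp (by omega) hS.1⟩
  · have := pB.eta_le; have := pB.tau_le
    show pB.eta ≤ 1 / 8
    linarith
  · obtain ⟨δ, hδ, h⟩ := he p.N (by omega) η hη
    exact ⟨δ, hδ, h p hp rfl⟩

/-! ### kit of the sampling lemma -/

theorem l8zg_idx (a : ℝ) (P : LlStp) (k : ℕ) (hk : k < P.length) :
    skMs a (llMat P) k = P[k].m ∧ saDb (llMat P) k = P[k].db ∧ saDh (llMat P) k = P[k].dh ∧ saDh (llSc P) k = P[k].dK := by
  simp [skMs, saDb, saDh, llMat, llSc, hk]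

theorem l8zg_ms_top (a : ℝ) (P : LlStp) (k : ℕ) (hk : P.length ≤ k) : skMs a (llMat P) k = a := by
  unfold skMs
  rw [List.getD_eq_default _ _ (by simpa [llMat] using hk)]

theorem l8zg_cum_succ (P : LlStp) (k : ℕ) (hk : k < P.length) :
    skCumB (llMat P) (k + 1) = skCumB (llMat P) k + P[k].db ∧ skCumH (llMat P) (k + 1) = skCumH (llMat P) k + P[k].dh ∧
    llCumK P (k + 1) = llCumK P k + P[k].dK := by
  refine ⟨?_, ?_, ?_⟩
  · unfold skCumB llMat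
    rw [List.map_take, List.map_take, List.sum_take_succ _ _ (by simpa using hk)]
    simp
  · unfold skCumH llMat
    rw [List.map_take, List.map_take, List.sum_take_succ _ _ (by simpa using hk)]
    simp
  · unfold llCumK
    rw [List.map_take, List.map_take, List.sum_take_succ _ _ (by simpa using hk)]
    simp

/-- a modulus on `[0,a]` off the jump masses gives the modulus of the clamped clock -/
theorem l8zg_mod {a : ℝ} (ha : 0 ≤ a) (c : ℝ → ℝ) (J : Finset ℝ) (h0 : (0 : ℝ) ∈ J)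
    (hc : ∀ η : ℝ, 0 < η → ∃ δ : ℝ, 0 < δ ∧ ∀ v v' : ℝ, 0 ≤ v → v ≤ v' → v' ≤ a → v' - v ≤ δ → (∀ j ∈ J, ¬ (v < j ∧ j ≤ v')) → c v' - c v ≤ η) :
    ∀ η > 0, ∃ δ > 0, L8fMod (ghClamp a c) J δ η := by
  intro η hη
  obtain ⟨δ, hδ, h⟩ := hc η hη
  refine ⟨δ, hδ, fun w w' hww hd hJ => ?_⟩
  unfold ghClamp
  by_cases hw : w < 0
  · have hw' : w' < 0 := by
      by_contra hcon
      exact hJ 0 h0 ⟨hw, not_lt.1 hcon⟩
    rw [if_pos hw, if_pos hw']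
    linarith
  · have hw0 : 0 ≤ w := not_lt.1 hw
    rw [if_neg hw, if_neg (not_lt.2 (hw0.trans hww))]
    refine h _ _ (le_min hw0 ha) (min_le_min_right a hww) (min_le_right _ _) ?_ ?_
    · rcases le_total w a with h1 | h1
      · rw [min_eq_left h1]
        linarith [min_le_left w' a]
      · rw [min_eq_right h1, min_eq_right (h1.trans hww)]
        linarith
    · intro j hj ⟨g1, g2⟩
      rcases le_total w a with h1 | h1
      · rw [min_eq_left h1] at g1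
        exact hJ j hj ⟨g1, g2.trans (min_le_left _ _)⟩
      · rw [min_eq_right h1] at g1
        exact absurd (g2.trans (min_le_right _ _)) (not_le.2 g1)

namespace L8In

variable {I : L8In} {K : SaK}

theorem zx_pos (hOk : I.Ok) : 0 < I.x := llc_x_pos hOk.pt

theorem zx_le_one (hOk : I.Ok) : I.x ≤ 1 := llc_x_le_one hOk.pt

theorem za4 (hS : l8Siz I.p) : I.a = 4 := by
  show I.p.a = 4
  unfold LlPt.a
  rw [if_pos hS.1]

namespace ZPt

theorem K_zero (h : I.ZPt K) (hK : K.Ok I.F) (hS : l8Siz I.p) : I.p.K I.F I.𝔹 0 = 0 := by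
  have ha : I.p.a = 4 := za4 hS
  obtain ⟨-, -, -, hKm, -, hb, -, -⟩ := h.adm
  have h0 : 0 ≤ I.p.K I.F I.𝔹 0 := (hb 0 ⟨le_rfl, by rw [ha]; norm_num⟩).2.2.2.2
  have hv0 := hK.v0
  have key : ∀ v, 0 < v → v ≤ K.v0 → v ≤ 4 → I.p.K I.F I.𝔹 0 ≤ K.Cr * v := fun v h1 h2 h3 =>
    (hKm ⟨le_rfl, by rw [ha]; norm_num⟩ ⟨h1.le, by rw [ha]; exact h3⟩ h1.le).trans (h.ref.K_hi0 v h1 h2)
  by_contra hne
  have hpos : 0 < I.p.K I.F I.𝔹 0 := lt_of_le_of_ne h0 (Ne.symm hne)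
  set k0 := I.p.K I.F I.𝔹 0 with hk0
  have hC : 0 < K.Cr := by
    by_contra hC
    have := key (min K.v0 4) (lt_min hv0 (by norm_num)) (min_le_left _ _) (min_le_right _ _)
    have h2 : K.Cr * min K.v0 4 ≤ 0 := mul_nonpos_of_nonpos_of_nonneg (not_lt.1 hC) (lt_min hv0 (by norm_num)).le
    linarith
  have hv : 0 < min (min K.v0 4) (k0 / (2 * K.Cr)) := lt_min (lt_min hv0 (by norm_num)) (by positivity)
  have := key _ hv ((min_le_left _ _).trans (min_le_left _ _)) ((min_le_left _ _).trans (min_le_right _ _))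
  have h2 : K.Cr * min (min K.v0 4) (k0 / (2 * K.Cr)) ≤ K.Cr * (k0 / (2 * K.Cr)) := mul_le_mul_of_nonneg_left (min_le_right _ _) hC.le
  have h3 : K.Cr * (k0 / (2 * K.Cr)) = k0 / 2 := by field_simp
  linarith

theorem h_zero {v : ℝ} (hv : v < I.x) : I.p.h I.F I.𝔹 v = 0 := by
  have hv' : v < I.p.x := hv
  unfold LlPt.h
  rw [if_pos hv']

theorem clk_b (h : I.ZPt K) (hK : K.Ok I.F) (hS : l8Siz I.p) : GhClk1 I.a (I.p.b I.F I.𝔹) := by
  have ha : I.p.a = 4 := za4 hS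
  exact ⟨h.adm.1, hK.ca.le.trans (h.adm.2.2.2.2.2.1 0 ⟨le_rfl, by rw [ha]; norm_num⟩).1⟩

theorem clk_h (h : I.ZPt K) (hS : l8Siz I.p) : GhClk1 I.a (I.p.h I.F I.𝔹) := by
  have ha : I.p.a = 4 := za4 hS
  exact ⟨h.adm.2.1, (h.adm.2.2.2.2.2.1 0 ⟨le_rfl, by rw [ha]; norm_num⟩).2.2.1⟩

theorem clk_K (h : I.ZPt K) (hS : l8Siz I.p) : GhClk1 I.a (I.p.K I.F I.𝔹) := by
  have ha : I.p.a = 4 := za4 hS
  exact ⟨h.adm.2.2.2.1, (h.adm.2.2.2.2.2.1 0 ⟨le_rfl, by rw [ha]; norm_num⟩).2.2.2.2⟩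

theorem mod_b (h : I.ZPt K) (hS : l8Siz I.p) : ∀ η > 0, ∃ δ > 0, L8fMod (ghClamp I.a (I.p.b I.F I.𝔹)) {0} δ η := by
  refine l8zg_mod (by rw [za4 hS]; norm_num) _ _ (by simp) fun η hη => ?_
  obtain ⟨δ, hδ, g⟩ := h.equi η hη
  exact ⟨δ, hδ, fun v v' h1 h2 h3 h4 _ => (g v v' h1 h2 h3 h4).2.2.1⟩

theorem mod_K (h : I.ZPt K) (hS : l8Siz I.p) : ∀ η > 0, ∃ δ > 0, L8fMod (ghClamp I.a (I.p.K I.F I.𝔹)) {0} δ η := by
  refine l8zg_mod (by rw [za4 hS]; norm_num) _ _ (by simp) fun η hη => ?_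
  obtain ⟨δ, hδ, g⟩ := h.equi η hη
  exact ⟨δ, hδ, fun v v' h1 h2 h3 h4 _ => (g v v' h1 h2 h3 h4).1⟩

theorem mod_h (h : I.ZPt K) (hS : l8Siz I.p) : ∀ η > 0, ∃ δ > 0, L8fMod (ghClamp I.a (I.p.h I.F I.𝔹)) {0, I.x} δ η := by
  refine l8zg_mod (by rw [za4 hS]; norm_num) _ _ (by simp) fun η hη => ?_
  obtain ⟨δ, hδ, g⟩ := h.equi η hη
  refine ⟨δ, hδ, fun v v' h1 h2 h3 h4 hJ => (g v v' h1 h2 h3 h4).2.2.2.2 ?_⟩
  by_contra hcon
  rw [not_or, not_lt, not_le] at hcon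
  exact hJ I.x (by simp) ⟨hcon.2, hcon.1⟩

end ZPt

end L8In

/-- the positions of the chain are valid -/
theorem l8zg_ps_ok (I : L8In) : ∀ q ∈ I.i9.ps I.p, q.Ok I.a := by
  classical
  intro q hq
  unfold L9I.ps ghPs at hq
  rw [Finset.mem_sort, Finset.mem_filter] at hq
  exact hq.2

/-- **SMP = the sampling lemma.**      OWNER helper73.      PROVED.
`I.LP = l9Stp a b h K 0 0 0 ps`, `ps = I.i9.ps I.p` sorted valid positions.   `l8f_cum`, `l8f_ms_lt`, `l8f_ms` (214, `L08/FineA`): `bC (k+1) = ghAt a b ps[k]`, `v k = ps[k].u`.   `l8f_at_cont`, `l8f_at_mem` with the moduli from `ZPt.equi`: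
jump masses `J = {0}` for `b`, `K`; `J = {0, x}` for `h`.   `K 0 = 0` (`Ref.K_hi0` + monotone), `h 0 = 0`.   `ZFin`: `List.getD` against membership. -/
theorem l8z_geo_smp (K : SaK) (I : L8In) (hOk : I.Ok) (hS : l8Siz I.p) (hK : K.Ok I.F) (hpt : I.ZPt K) {η : ℝ} (hf : I.Fine η) : I.ZSmp ∧ I.ZFin η := by
  have ha4 : I.a = 4 := L8In.za4 hS
  have ha : 0 ≤ I.a := by rw [ha4]; norm_num
  have hx := L8In.zx_pos hOk
  have hadm0 : SkAdm I.a (llMat I.LP) := hf.adm.1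
  have hadmK : SkAdm I.a (llSc I.LP) := hf.adm.2
  have hmat : ∀ k (hk : k < I.LP.length), (⟨I.LP[k].m, I.LP[k].db, I.LP[k].dh⟩ : SkInc) ∈ llMat I.LP := fun k hk =>
    List.mem_map.2 ⟨I.LP[k], List.getElem_mem _, rfl⟩
  have hsc : ∀ k (hk : k < I.LP.length), (⟨I.LP[k].m, 0, I.LP[k].dK⟩ : SkInc) ∈ llSc I.LP := fun k hk =>
    List.mem_map.2 ⟨I.LP[k], List.getElem_mem _, rfl⟩
  have hv : ∀ k (hk : k < I.LP.length), I.v k = I.LP[k].m := fun k hk => (l8zg_idx I.a I.LP k hk).1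
  have hdB : ∀ k (hk : k < I.LP.length), I.zdB k = I.LP[k].db := fun k hk => (l8zg_idx I.a I.LP k hk).2.1
  have hdH : ∀ k (hk : k < I.LP.length), I.zdH k = I.LP[k].dh := fun k hk => (l8zg_idx I.a I.LP k hk).2.2.1
  have hdK : ∀ k (hk : k < I.LP.length), I.zdK k = I.LP[k].dK := fun k hk => (l8zg_idx I.a I.LP k hk).2.2.2
  have hvt : ∀ k, I.n ≤ k → I.v k = I.a := fun k hk => l8zg_ms_top I.a I.LP k hk
  have hvnn : ∀ k, 0 ≤ I.v k := fun k => by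
    by_cases hk : k < I.LP.length
    · rw [hv k hk]; exact (hadm0.2 _ (hmat k hk)).1
    · rw [hvt k (not_lt.1 hk)]; exact ha
  have hvle : ∀ k, I.v k ≤ I.a := fun k => by
    by_cases hk : k < I.LP.length
    · rw [hv k hk]; exact (hadm0.2 _ (hmat k hk)).2.1
    · rw [hvt k (not_lt.1 hk)]
  -- the chain
  have hlen : (I.i9.ps I.p).length = I.LP.length := (l8f_stp_length I.a _ _ _ (I.i9.ps I.p) 0 0 0).symm
  have hcum : ∀ k (hk : k < (I.i9.ps I.p).length), I.bC (k + 1) = ghAt I.a (I.p.b I.F I.𝔹) (I.i9.ps I.p)[k] ∧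
      I.hC (k + 1) = ghAt I.a (I.p.h I.F I.𝔹) (I.i9.ps I.p)[k] ∧ I.KC (k + 1) = ghAt I.a (I.p.K I.F I.𝔹) (I.i9.ps I.p)[k] :=
    fun k hk => l8f_cum I.a _ _ _ (I.i9.ps I.p) k hk
  have hu : ∀ k (hk : k < (I.i9.ps I.p).length), I.v k = (I.i9.ps I.p)[k].u := fun k hk => l8f_ms_lt I.a _ _ _ (I.i9.ps I.p) k hk
  have hok : ∀ k (hk : k < (I.i9.ps I.p).length), (I.i9.ps I.p)[k].Ok I.a := fun k hk => l8zg_ps_ok I _ (List.getElem_mem _)
  have hK0 := hpt.K_zero hK hS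
  have hh0 : I.p.h I.F I.𝔹 0 = 0 := L8In.ZPt.h_zero hx
  constructor
  · refine ⟨lt_of_le_of_lt (Nat.zero_le _) hf.js_lt, hvnn, hvle, ?_, hvt, ?_, ?_, ⟨rfl, rfl, rfl⟩, ?_, ?_, ?_, ?_, ?_, ?_, ?_, ?_⟩
    · refine monotone_nat_of_le_succ fun k => ?_
      by_cases hk : k + 1 < I.LP.length
      · rw [hv k (by omega), hv (k + 1) hk]
        have := List.pairwise_iff_getElem.1 hadm0.1 k (k + 1) (by simpa [llMat] using (by omega : k < I.LP.length)) (by simpa [llMat] using hk) (by omega)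
        simpa [llMat] using this
      · rw [hvt (k + 1) (not_lt.1 hk)]; exact hvle k
    · show skGap I.a I.P0 0 = _
      unfold skGap
      rw [if_pos rfl, sub_zero]; rfl
    · intro k
      show skGap I.a I.P0 (k + 1) = _
      unfold skGap
      rw [if_neg (by omega)]; rfl
    · intro k hk
      rw [hdB k hk]
      have := (l8zg_cum_succ I.LP k hk).1
      show _ = skCumB (llMat I.LP) (k + 1) - skCumB (llMat I.LP) k
      linarith
    · intro k hk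
      rw [hdH k hk]
      have := (l8zg_cum_succ I.LP k hk).2.1
      show _ = skCumH (llMat I.LP) (k + 1) - skCumH (llMat I.LP) k
      linarith
    · intro k hk
      rw [hdK k hk]
      have := (l8zg_cum_succ I.LP k hk).2.2
      show _ = llCumK I.LP (k + 1) - llCumK I.LP k
      linarith
    · intro k hk hpos
      have hk' : k < (I.i9.ps I.p).length := by rw [hlen]; exact hk
      rw [(hcum k hk').1, hu k hk']
      refine l8f_at_cont ha (hpt.clk_b hK hS) (hpt.mod_b hS) (hok k hk') (Or.inl ?_)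
      rw [Finset.mem_singleton, ← hu k hk']
      exact hpos.ne'
    · intro k hk h0
      have hk' : k < (I.i9.ps I.p).length := by rw [hlen]; exact hk
      have := l8f_at_mem ha (hpt.clk_b hK hS) (hpt.mod_b hS) (hok k hk')
      rw [← hu k hk', h0] at this
      rw [(hcum k hk').1]
      exact this
    · intro k hk
      have hk' : k < (I.i9.ps I.p).length := by rw [hlen]; exact hk
      rw [(hcum k hk').2.2]
      by_cases h0 : I.v k = 0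
      · have := l8f_at_mem ha (hpt.clk_K hS) (hpt.mod_K hS) (hok k hk')
        rw [← hu k hk', h0, hK0] at this
        rw [h0, hK0]
        exact le_antisymm this.2 this.1
      · rw [hu k hk']
        refine l8f_at_cont ha (hpt.clk_K hS) (hpt.mod_K hS) (hok k hk') (Or.inl ?_)
        rw [Finset.mem_singleton, ← hu k hk']
        exact h0
    · intro k hk hne
      have hk' : k < (I.i9.ps I.p).length := by rw [hlen]; exact hk
      rw [(hcum k hk').2.1]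
      by_cases h0 : I.v k = 0
      · have := l8f_at_mem ha (hpt.clk_h hS) (hpt.mod_h hS) (hok k hk')
        rw [← hu k hk', h0, hh0] at this
        rw [h0, hh0]
        exact le_antisymm this.2 this.1
      · rw [hu k hk']
        refine l8f_at_cont ha (hpt.clk_h hS) (hpt.mod_h hS) (hok k hk') (Or.inl ?_)
        rw [Finset.mem_insert, Finset.mem_singleton, ← hu k hk', not_or]
        exact ⟨h0, hne⟩
    · intro k hk he
      have hk' : k < (I.i9.ps I.p).length := by rw [hlen]; exact hk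
      have := l8f_at_mem ha (hpt.clk_h hS) (hpt.mod_h hS) (hok k hk')
      rw [← hu k hk', he] at this
      rw [(hcum k hk').2.1]
      exact this
  · refine ⟨hf.dv_le, ?_, ?_, ?_, ?_, ?_, ?_, ?_, hf.b_top, hf.h_top, hf.K_top, hf.q_link⟩
    · intro k hk hpos
      rw [hdB k hk]
      exact hf.db_le _ (List.getElem_mem _) (by rw [← hv k hk]; exact hpos)
    · intro k hk
      rw [hdH k hk]
      exact hf.dh_le _ (List.getElem_mem _)
    · intro k hk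
      rw [hdK k hk]
      exact hf.dK_le _ (List.getElem_mem _)
    · intro k hk
      rw [hdB k hk]
      exact (hadm0.2 _ (hmat k hk)).2.2.1
    · intro k hk
      rw [hdH k hk]
      exact (hadm0.2 _ (hmat k hk)).2.2.2
    · intro k hk
      rw [hdK k hk]
      exact (hadmK.2 _ (hsc k hk)).2.2.2
    · intro k hk hlt
      rw [hdH k hk, hdB k hk, hv k hk]
      exact hf.low _ (List.getElem_mem _) (by rw [← hv k hk]; exact hlt)

/-- the cut of a sorted chain at the mass `u`: the stages of mass `≤ u` are a prefix -/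
theorem l8z_clk_cut : ∀ (P : LlStp), P.Pairwise (fun e e' => e.m ≤ e'.m) → ∀ u : ℝ,
    ∃ j ≤ P.length, P.filter (fun e => decide (e.m ≤ u)) = P.take j ∧ (∀ i < j, (P.map LlInc.m).getD i u ≤ u) ∧
      (∀ a : ℝ, j < P.length → u < (P.map LlInc.m).getD j a)
  | [], _, u => ⟨0, le_rfl, by simp, by simp, by simp⟩
  | e :: P, hs, u => by
    have hs' := List.pairwise_cons.1 hs
    by_cases h : e.m ≤ u
    · obtain ⟨j, hj, h1, h2, h3⟩ := l8z_clk_cut P hs'.2 u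
      refine ⟨j + 1, by simpa using hj, ?_, ?_, ?_⟩
      · rw [List.filter_cons_of_pos (by simpa using h), List.take_succ_cons, h1]
      · intro i hi
        rcases i with _ | i
        · simpa using h
        · simpa using h2 i (by omega)
      · intro a hj'
        simpa using h3 a (by simpa using hj')
    · push Not at h
      refine ⟨0, Nat.zero_le _, ?_, by simp, ?_⟩
      · rw [List.take_zero, List.filter_eq_nil_iff]
        intro y hy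
        have : u < y.m := by
          rcases List.mem_cons.1 hy with rfl | hy
          · exact h
          · exact lt_of_lt_of_le h (hs'.1 y hy)
        simpa using this
      · intro a _
        simpa using h

/-- the step clocks at the mass `u` are the cumulated clocks at ONE cut `j`: `v (j-1) ≤ u < v j` -/
theorem l8z_clk_idx (I : L8In) (h : SkAdm I.a I.P0) (u : ℝ) : ∃ j ≤ I.n, skClkB I.P0 u = I.bC j ∧ skClkH I.P0 u = I.hC j ∧ skClkH I.zPK u = I.KC j ∧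
    (∀ i < j, I.v i ≤ u) ∧ (j < I.n → u < I.v j) := by
  have hs : I.LP.Pairwise (fun e e' => e.m ≤ e'.m) := by
    have := h.1
    unfold L8In.P0 llMat at this
    rw [List.pairwise_map] at this
    exact this
  obtain ⟨j, hj, h1, h2, h3⟩ := l8z_clk_cut I.LP hs u
  have hm : I.P0.map SkInc.m = I.LP.map LlInc.m := by simp [L8In.P0, llMat, Function.comp_def]
  refine ⟨j, hj, ?_, ?_, ?_, ?_, ?_⟩
  · unfold skClkB L8In.bC skCumB L8In.P0 llMat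
    rw [List.filter_map, ← List.map_take]
    have : (I.LP.filter ((fun e : SkInc => decide (e.m ≤ u)) ∘ fun e : LlInc => (⟨e.m, e.db, e.dh⟩ : SkInc))) = I.LP.take j := h1
    rw [this]
  · unfold skClkH L8In.hC skCumH L8In.P0 llMat
    rw [List.filter_map, ← List.map_take]
    have : (I.LP.filter ((fun e : SkInc => decide (e.m ≤ u)) ∘ fun e : LlInc => (⟨e.m, e.db, e.dh⟩ : SkInc))) = I.LP.take j := h1
    rw [this]
  · unfold skClkH L8In.KC llCumK L8In.zPK llSc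
    rw [List.filter_map]
    have : (I.LP.filter ((fun e : SkInc => decide (e.m ≤ u)) ∘ fun e : LlInc => (⟨e.m, 0, e.dK⟩ : SkInc))) = I.LP.take j := h1
    rw [this, List.map_map]
    rfl
  · intro i hi
    have hi' : i < (I.LP.map LlInc.m).length := by simpa using lt_of_lt_of_le hi hj
    have := h2 i hi
    unfold L8In.v skMs
    rw [hm, List.getD_eq_getElem _ _ hi']
    rwa [List.getD_eq_getElem _ _ hi'] at this
  · intro hj'
    unfold L8In.v skMs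
    rw [hm]
    exact h3 _ hj'

/-- **the step clocks of a sampled chain are `η`-close to the clocks** (pure statement on the sequences) -/
theorem l8z_clk_close_core (I : L8In) {ca η : ℝ} (had : SkAdm I.a I.P0) (hs : I.ZSmp) (hf : I.ZFin η)
    (bm : MonotoneOn (I.p.b I.F I.𝔹) (Icc 0 I.a)) (hm : MonotoneOn (I.p.h I.F I.𝔹) (Icc 0 I.a)) (Km : MonotoneOn (I.p.K I.F I.𝔹) (Icc 0 I.a))
    (hb : ∀ v ∈ Icc 0 I.a, ca ≤ I.p.b I.F I.𝔹 v) (hh : ∀ v ∈ Icc 0 I.a, 0 ≤ I.p.h I.F I.𝔹 v) (hK : ∀ v ∈ Icc 0 I.a, 0 ≤ I.p.K I.F I.𝔹 v) (hca : 0 ≤ ca) (hη : 0 ≤ η) :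
    (∀ u ∈ Ioo 0 I.a, |skClkB I.P0 u - I.p.b I.F I.𝔹 u| ≤ η ∧ |skClkH I.P0 u - I.p.h I.F I.𝔹 u| ≤ η ∧ |skClkH I.zPK u - I.p.K I.F I.𝔹 u| ≤ η) ∧
    (∀ u ∈ Icc 0 I.a, ca - η ≤ skClkB I.P0 u) := by
  have vmem : ∀ k, I.v k ∈ Icc 0 I.a := fun k => ⟨hs.v_nn k, hs.v_le k⟩
  have amem : I.a ∈ Icc 0 I.a := by
    have := vmem I.n
    rwa [hs.v_top I.n le_rfl] at this
  constructor
  · intro u hu
    have umem : u ∈ Icc 0 I.a := ⟨hu.1.le, hu.2.le⟩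
    obtain ⟨j, hj, e1, e2, e3, hlo, hhi⟩ := l8z_clk_idx I had u
    rw [e1, e2, e3]
    refine ⟨abs_le.2 ⟨?_, ?_⟩, abs_le.2 ⟨?_, ?_⟩, abs_le.2 ⟨?_, ?_⟩⟩
    · -- b u ≤ bC j + η
      rcases hj.lt_or_eq with hjn | hjn
      · have hv := hhi hjn
        have h0 : 0 < I.v j := hu.1.trans hv
        have := bm umem (vmem j) hv.le
        have := hs.b j hjn h0
        have := hs.dB j hjn
        have := hf.dB j hjn h0
        linarith
      · have := bm umem amem hu.2.le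
        have := hf.b_top
        rw [hjn]
        linarith
    · -- bC j ≤ b u
      rcases j with _ | i
      · have := hs.c0.1
        have := hb u umem
        linarith
      · have hin : i < I.n := by omega
        have hvi := hlo i (by omega)
        have h1 := bm (vmem i) umem hvi
        rcases (hs.v_nn i).lt_or_eq with h0 | h0
        · have := hs.b i hin h0
          linarith
        · have := (hs.b0 i hin h0.symm).2
          rw [← h0] at h1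
          linarith
    · -- h u ≤ hC j + η
      rcases hj.lt_or_eq with hjn | hjn
      · have hv := hhi hjn
        by_cases hx : I.v j = I.x
        · have hux : u < I.p.x := by rw [hx] at hv; exact hv
          have h0 : I.p.h I.F I.𝔹 u = 0 := by unfold LlPt.h; rw [if_pos hux]
          have : 0 ≤ I.hC j := by
            rcases j with _ | i
            · exact hs.c0.2.1.ge
            · have hin : i < I.n := by omega
              by_cases hx' : I.v i = I.x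
              · exact (hs.hx i hin hx').1
              · rw [hs.h i hin hx']; exact hh _ (vmem i)
          linarith
        · have := hm umem (vmem j) hv.le
          have := hs.h j hjn hx
          have := hs.dH j hjn
          have := hf.dH j hjn
          linarith
      · have := hm umem amem hu.2.le
        have := hf.h_top
        rw [hjn]
        linarith
    · -- hC j ≤ h u
      rcases j with _ | i
      · have := hs.c0.2.1
        have := hh u umem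
        linarith
      · have hin : i < I.n := by omega
        have hvi := hlo i (by omega)
        have h1 := hm (vmem i) umem hvi
        by_cases hx' : I.v i = I.x
        · have := (hs.hx i hin hx').2
          rw [hx'] at h1
          linarith
        · have := hs.h i hin hx'
          linarith
    · -- K u ≤ KC j + η
      rcases hj.lt_or_eq with hjn | hjn
      · have hv := hhi hjn
        have := Km umem (vmem j) hv.le
        have := hs.K j hjn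
        have := hs.dK j hjn
        have := hf.dK j hjn
        linarith
      · have := Km umem amem hu.2.le
        have := hf.K_top
        rw [hjn]
        linarith
    · -- KC j ≤ K u
      rcases j with _ | i
      · have := hs.c0.2.2
        have := hK u umem
        linarith
      · have hin : i < I.n := by omega
        have hvi := hlo i (by omega)
        have h1 := Km (vmem i) umem hvi
        have := hs.K i hin
        linarith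
  · intro u hu
    obtain ⟨j, hj, e1, -, -, -, hhi⟩ := l8z_clk_idx I had u
    rw [e1]
    rcases hj.lt_or_eq with hjn | hjn
    · have hv := hhi hjn
      have h0 : 0 < I.v j := lt_of_le_of_lt hu.1 hv
      have := hb _ (vmem j)
      have := hs.b j hjn h0
      have := hs.dB j hjn
      have := hf.dB j hjn h0
      linarith
    · have := hb _ amem
      have := hf.b_top
      rw [hjn]
      linarith

/-! ## E'. The chain groups from the point record `L8zPt` (88, `L08/GeoPt`) and the sampling lemma -/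

namespace L8In

variable (I : L8In)

/-- the mass at which the cumulated clocks of the cut `k` are read: the mass of the last revelation (`0` at `k = 0`) -/
def zu (k : ℕ) : ℝ := if k = 0 then 0 else I.v (k - 1)

/-- **standing hypotheses of the chain groups** -/
structure ZRc (c C v1 v2 : ℝ) : Prop where
  ok : I.Ok
  smp : I.ZSmp
  fin : I.ZFin (I.x ^ 50)
  rc : L8zPt I.p I.F I.𝔹 c C v1 v2

variable {I}

/-- the cumulated clocks at the cut `k` are the path clocks at the mass `zu k` -/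
structure ZPre (k : ℕ) : Prop where
  nn : 0 ≤ I.zu k
  le : I.zu k ≤ I.v k
  le4 : I.zu k ≤ 4
  dv : I.dv k = I.v k - I.zu k
  K : I.KC k = I.p.K I.F I.𝔹 (I.zu k)
  q : I.zq k = I.p.q I.F I.𝔹 (I.zu k)
  b : 0 < I.zu k → I.bC k = I.p.b I.F I.𝔹 (I.zu k)
  b0 : I.zu k = 0 → 0 ≤ I.bC k ∧ I.bC k ≤ I.p.b I.F I.𝔹 0
  h : I.zu k ≠ I.x → I.hC k = I.p.h I.F I.𝔹 (I.zu k)
  hx : I.zu k = I.x → 0 ≤ I.hC k ∧ I.hC k ≤ I.p.h I.F I.𝔹 I.x

namespace ZRc

variable {c C v1 v2 : ℝ}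

theorem a4 (h : I.ZRc c C v1 v2) : I.a = 4 := h.rc.a4

theorem v_mem (h : I.ZRc c C v1 v2) (k : ℕ) : I.v k ∈ Icc (0 : ℝ) 4 := ⟨h.smp.v_nn k, h.a4 ▸ h.smp.v_le k⟩

theorem pre (h : I.ZRc c C v1 v2) (hc : 0 < c) (k : ℕ) (hk : k ≤ I.n) : I.ZPre k := by
  have hx := zx_pos h.ok
  rcases Nat.eq_zero_or_pos k with rfl | hpos
  · have e : I.zu 0 = 0 := by unfold zu; rw [if_pos rfl]
    have hK : I.KC 0 = I.p.K I.F I.𝔹 (I.zu 0) := by rw [e, h.smp.c0.2.2, h.rc.K_zero]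
    refine ⟨e.ge, e ▸ h.smp.v_nn 0, by rw [e]; norm_num, by rw [e, sub_zero]; exact h.smp.dv0, hK, ?_, fun h0 => absurd e h0.ne', fun _ => ?_, fun _ => ?_,
      fun h0 => absurd (e ▸ h0 : (0 : ℝ) = I.x) hx.ne⟩
    · show I.p.Gam I.F I.𝔹 (I.KC 0) = _
      rw [hK]; rfl
    · rw [h.smp.c0.1]
      exact ⟨le_rfl, hc.le.trans (h.rc.b_lo 0 ⟨le_rfl, by norm_num⟩)⟩
    · rw [e, h.smp.c0.2.1, h.rc.h_x 0 hx]
  · obtain ⟨j, rfl⟩ : ∃ j, k = j + 1 := ⟨k - 1, by omega⟩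
    have hj : j < I.n := hk
    have e : I.zu (j + 1) = I.v j := by unfold zu; rw [if_neg (by omega)]; rfl
    have hK : I.KC (j + 1) = I.p.K I.F I.𝔹 (I.zu (j + 1)) := by rw [e]; exact h.smp.K j hj
    refine ⟨e ▸ h.smp.v_nn j, e ▸ h.smp.v_mono (Nat.le_succ j), e ▸ (h.v_mem j).2, by rw [e]; exact h.smp.dvS j, hK, ?_, fun h0 => ?_, fun h0 => ?_, fun h0 => ?_, fun h0 => ?_⟩
    · show I.p.Gam I.F I.𝔹 (I.KC (j + 1)) = _
      rw [hK]; rfl
    · rw [e] at h0 ⊢; exact h.smp.b j hj h0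
    · rw [e] at h0; exact h.smp.b0 j hj h0
    · rw [e] at h0 ⊢; exact h.smp.h j hj h0
    · rw [e] at h0; exact h.smp.hx j hj h0

/-- the mesh -/
theorem eta (h : I.ZRc c C v1 v2) (hx : I.x ≤ 1 / 2) : 0 < I.x ^ 50 ∧ I.x ^ 50 ≤ I.x ^ 40 ∧ I.x ^ 50 ≤ I.x / 2 := by
  have hx0 := zx_pos h.ok
  refine ⟨by positivity, pow_le_pow_of_le_one hx0.le (by linarith) (by norm_num), ?_⟩
  have h1 : I.x ^ 49 ≤ I.x ^ 1 := pow_le_pow_of_le_one hx0.le (by linarith) (by norm_num)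
  calc I.x ^ 50 = I.x * I.x ^ 49 := by ring
    _ ≤ I.x * (1 / 2) := mul_le_mul_of_nonneg_left (by linarith) hx0.le
    _ = I.x / 2 := by ring

theorem zu_ge (h : I.ZRc c C v1 v2) (hc : 0 < c) (k : ℕ) (hk : k ≤ I.n) : I.v k - I.x ^ 50 ≤ I.zu k := by
  have := (h.pre hc k hk).dv
  have := h.fin.dv k hk
  linarith

theorem dv_nn (h : I.ZRc c C v1 v2) (hc : 0 < c) (k : ℕ) (hk : k ≤ I.n) : 0 ≤ I.dv k := by
  have := (h.pre hc k hk).dv
  have := (h.pre hc k hk).le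
  linarith

theorem C_pos (h : I.ZRc c C v1 v2) (hc : 0 < c) : 0 < C :=
  hc.trans_le ((h.rc.b_lo 0 ⟨le_rfl, by norm_num⟩).trans (h.rc.b_hi 0 ⟨le_rfl, by norm_num⟩))

theorem lam_pos (h : I.ZRc c C v1 v2) : 0 < I.lam := lkk_lam_pos h.ok.pt

theorem om_pos (h : I.ZRc c C v1 v2) : 0 < I.p.om := Real.rpow_pos_of_pos (zx_pos h.ok) _

end ZRc

end L8In

/-- **B** -/
theorem l8z_rc_b (c C v1 v2 : ℝ) (hc : 0 < c) : ∃ x0 : ℝ, 0 < x0 ∧ ∀ I : L8In, I.ZRc c C v1 v2 → I.x ≤ x0 → I.ZGeoB (c / 2) C v2 := by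
  refine ⟨min (1 / 2) (min c (if 0 < v2 then v2 else 1)), lt_min (by norm_num) (lt_min hc (by split_ifs with h0; exacts [h0, one_pos])), fun I h hx => ?_⟩
  rw [if_pos h.rc.vv.1] at hx
  have hx1 : I.x ≤ 1 / 2 := hx.trans (min_le_left _ _)
  have hxc : I.x ≤ c := hx.trans ((min_le_right _ _).trans (min_le_left _ _))
  have hxv : I.x ≤ v2 := hx.trans ((min_le_right _ _).trans (min_le_right _ _))
  have hx0 := L8In.zx_pos h.ok
  obtain ⟨he0, -, he⟩ := h.eta hx1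
  have hC := h.C_pos hc
  have hl := h.lam_pos
  refine ⟨fun k hk hpos => ?_, fun k hk => ?_, fun k hk hpos => ?_, fun k hk hv => ?_⟩
  · rcases Nat.lt_or_ge k I.n with hkn | hkn
    · have e1 := h.smp.dB k hkn
      have e2 := h.smp.b k hkn hpos
      have e3 := h.fin.dB k hkn hpos
      have e4 := h.rc.b_lo (I.v k) (h.v_mem k)
      linarith
    · obtain rfl : k = I.n := le_antisymm hk hkn
      have e1 := h.fin.b_top
      rw [h.a4] at e1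
      have e4 := h.rc.b_lo 4 ⟨by norm_num, le_rfl⟩
      linarith
  · have P := h.pre hc k hk
    rcases P.nn.eq_or_lt with h0 | h0
    · exact (P.b0 h0.symm).2.trans (h.rc.b_hi 0 ⟨le_rfl, by norm_num⟩)
    · rw [P.b h0]; exact h.rc.b_hi _ ⟨P.nn, P.le4⟩
  · have P := h.pre hc k hk.le
    have hdv := h.dv_nn hc k hk.le
    rcases lt_or_ge (I.v k) I.x with hlt | hge
    · rcases (h.fin.low k hk hlt).2 with h0 | h0
      · rw [h0]; positivity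
      · exact absurd h0 hpos.ne'
    · have hu := h.zu_ge hc k hk.le
      have hu0 : 0 < I.zu k := by linarith
      rw [h.smp.dB k hk, h.smp.b k hk hpos, P.b hu0, P.dv]
      exact h.rc.b_lam _ _ P.nn P.le (h.v_mem k).2
  · have P := h.pre hc k hk.le
    have hu := h.zu_ge hc k hk.le
    have hu0 : 0 < I.zu k := by linarith
    have hpos : 0 < I.v k := lt_of_lt_of_le hu0 P.le
    rw [h.smp.dB k hk, h.smp.b k hk hpos, P.b hu0, h.rc.b_top (I.zu k) (I.v k) (by linarith) P.le (h.v_mem k).2, sub_self]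

/-- **K** -/
theorem l8z_rc_K (c C v1 v2 : ℝ) (hc : 0 < c) : ∃ x0 : ℝ, 0 < x0 ∧ ∀ I : L8In, I.ZRc c C v1 v2 → I.x ≤ x0 → I.ZGeoK (c / 2) C v1 := by
  refine ⟨1 / 2, by norm_num, fun I h hx1 => ?_⟩
  have hx0 := L8In.zx_pos h.ok
  obtain ⟨he0, he40, he⟩ := h.eta hx1
  have ho := h.om_pos
  have hdK : ∀ k < I.n, I.zdK k = I.p.K I.F I.𝔹 (I.v k) - I.p.K I.F I.𝔹 (I.zu k) := fun k hk => by
    rw [h.smp.dK k hk, h.smp.K k hk, (h.pre hc k hk.le).K]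
  refine ⟨fun k hk => ?_, fun k hk hv => ?_, fun k hk hv => ?_, ?_, fun k hk hv => ?_, fun k hk hC => ?_⟩
  · have P := h.pre hc k hk.le
    have e := h.rc.K_dens _ _ P.nn P.le (h.v_mem k).2
    rw [← hdK k hk, ← P.dv] at e
    have h0 := h.fin.nnK k hk
    have : c / 2 * I.p.om * I.zdK k ≤ c * I.p.om * I.zdK k :=
      mul_le_mul_of_nonneg_right (mul_le_mul_of_nonneg_right (by linarith) ho.le) h0
    linarith
  · have P := h.pre hc k hk.le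
    have e := h.rc.K_slow _ _ P.nn P.le hv
    rw [← hdK k hk, ← P.dv] at e
    have h0 := h.dv_nn hc k hk.le
    have : c / 2 * I.p.om * I.dv k ≤ c * I.p.om * I.dv k :=
      mul_le_mul_of_nonneg_right (mul_le_mul_of_nonneg_right (by linarith) ho.le) h0
    linarith
  · have P := h.pre hc k hk.le
    have e := h.rc.K_low _ _ P.nn P.le hv
    rw [← hdK k hk, ← P.dv] at e
    have h0 := h.dv_nn hc k hk.le
    have : c / 2 * I.dv k ≤ c * I.dv k := mul_le_mul_of_nonneg_right (by linarith) h0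
    linarith
  · have P := h.pre hc I.n le_rfl
    rw [P.K]; exact h.rc.K_tot _ ⟨P.nn, P.le4⟩
  · have P := h.pre hc k hk
    have hu := h.zu_ge hc k hk
    rw [P.K]
    refine h.rc.K_wall _ ?_ P.le4
    have hv' : I.p.ell * (1 + I.p.om * I.p.M) ≤ I.v k := hv
    have he40' : I.x ^ 50 ≤ I.p.x ^ 40 := he40
    linarith
  · have P := h.pre hc k hk.le
    rw [P.K] at hC
    have := h.rc.frz_m _ ⟨P.nn, P.le4⟩ hC
    have := P.le
    linarith

/-- above `2 x` the previous mass is above the mask and comparable -/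
theorem L8In.ZRc.above {I : L8In} {c C v1 v2 : ℝ} (h : I.ZRc c C v1 v2) (hc : 0 < c) (hx1 : I.x ≤ 1 / 2) (k : ℕ) (hk : k ≤ I.n) (hv : 2 * I.x ≤ I.v k) :
    I.x < I.zu k ∧ I.v k ≤ 2 * I.zu k := by
  have hx0 := L8In.zx_pos h.ok
  obtain ⟨he0, -, he⟩ := h.eta hx1
  have hu := h.zu_ge hc k hk
  constructor <;> linarith

/-- **H** -/
theorem l8z_rc_h (c C v1 v2 : ℝ) (hc : 0 < c) : ∃ x0 : ℝ, 0 < x0 ∧ ∀ I : L8In, I.ZRc c C v1 v2 → I.x ≤ x0 → I.ZGeoH (c / 2) C := by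
  refine ⟨1 / 2, by norm_num, fun I h hx1 => ?_⟩
  have hx0 := L8In.zx_pos h.ok
  have hl := h.lam_pos
  have hdK : ∀ k < I.n, I.zdK k = I.p.K I.F I.𝔹 (I.v k) - I.p.K I.F I.𝔹 (I.zu k) := fun k hk => by
    rw [h.smp.dK k hk, h.smp.K k hk, (h.pre hc k hk.le).K]
  have hdH : ∀ k < I.n, 2 * I.x ≤ I.v k → I.zdH k = I.p.h I.F I.𝔹 (I.v k) - I.p.h I.F I.𝔹 (I.zu k) := fun k hk hv => by
    rw [h.smp.dH k hk, h.smp.h k hk (by intro e; linarith), (h.pre hc k hk.le).h (h.above hc hx1 k hk.le hv).1.ne']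
  refine ⟨fun k hk hv => ?_, fun k hk hv hl' => ?_, fun k hk => ?_, fun k hk => ?_⟩
  · have P := h.pre hc k hk.le
    obtain ⟨a1, a2⟩ := h.above hc hx1 k hk.le hv
    have e := h.rc.h_K _ _ a1.le P.le (h.v_mem k).2 a2
    rw [← hdK k hk, ← hdH k hk hv] at e
    have h0 := h.fin.nnK k hk
    have : c / 2 * I.lam * I.v k ^ 2 * I.zdK k ≤ c * I.lam * I.v k ^ 2 * I.zdK k :=
      mul_le_mul_of_nonneg_right (mul_le_mul_of_nonneg_right (mul_le_mul_of_nonneg_right (by linarith) hl.le) (sq_nonneg _)) h0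
    exact this.trans e
  · have P := h.pre hc k hk.le
    obtain ⟨a1, a2⟩ := h.above hc hx1 k hk.le hv
    have e := h.rc.h_lo _ _ a1.le P.le hl'
    rw [← hdH k hk hv, ← P.dv] at e
    exact e
  · have P := h.pre hc k hk
    have hxp : I.p.x = I.x := rfl
    have hB : 0 ≤ C * I.x ^ 3 * I.p.M := (abs_nonneg _).trans (h.rc.d_hi 4 (by rw [hxp]; linarith) le_rfl)
    unfold L8In.zdd
    rcases P.nn.eq_or_lt with h0 | h0
    · rw [P.q, P.K, P.h (by rw [← h0]; exact hx0.ne), ← h0, h.rc.q_zero, h.rc.K_zero, h.rc.h_x 0 hx0]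
      simpa using hB
    · have ehS : I.p.hS I.F I.𝔹 (I.zu k) = I.KC k - I.bC k * I.zq k := by rw [P.K, P.b h0, P.q]; rfl
      have e1 : I.hC k + I.bC k * I.zq k - I.KC k = I.hC k - I.p.hS I.F I.𝔹 (I.zu k) := by rw [ehS]; ring
      rw [e1]
      have hnn := h.rc.hS_nn _ ⟨P.nn, P.le4⟩
      rcases lt_trichotomy (I.zu k) I.x with hlt | heq | hgt
      · rw [P.h hlt.ne, h.rc.h_x _ hlt, zero_sub, abs_neg, abs_of_nonneg hnn]
        exact h.rc.d_lo _ P.nn hlt.le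
      · obtain ⟨g1, g2⟩ := P.hx heq
        have d1 := h.rc.d_lo _ P.nn heq.le
        have d2 := h.rc.d_hi _ heq.ge P.le4
        rw [heq] at d1 d2 hnn ⊢
        rw [hxp] at d1 d2
        rw [abs_le] at d2 ⊢
        constructor <;> linarith [d2.1, d2.2]
      · rw [P.h hgt.ne']
        exact h.rc.d_hi _ hgt.le P.le4
  · have P := h.pre hc k hk
    rcases P.nn.eq_or_lt with h0 | h0
    · rw [P.q, P.K, ← h0, h.rc.q_zero, h.rc.K_zero]; simp
    · have ehS : I.p.hS I.F I.𝔹 (I.zu k) = I.KC k - I.bC k * I.zq k := by rw [P.K, P.b h0, P.q]; rfl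
      rw [← ehS]
      exact h.rc.hS_nn _ ⟨P.nn, P.le4⟩

/-- **G** -/
theorem l8z_rc_G (c C v1 v2 : ℝ) (hc : 0 < c) : ∃ x0 : ℝ, 0 < x0 ∧ ∀ I : L8In, I.ZRc c C v1 v2 → I.x ≤ x0 → I.ZGeoG (c / 2) C (I.x ^ 40) := by
  refine ⟨min (1 / 2) (1 / (1 + |C|)), lt_min (by norm_num) (by positivity), fun I h hx => ?_⟩
  have hx1 : I.x ≤ 1 / 2 := hx.trans (min_le_left _ _)
  have hxC : I.x ≤ 1 / (1 + |C|) := hx.trans (min_le_right _ _)
  have hx0 := L8In.zx_pos h.ok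
  have hl := h.lam_pos
  have hC := h.C_pos hc
  refine ⟨h.rc.G_zero, h.rc.G_ftc, h.rc.G_cont, h.rc.G_pos, h.rc.G_le, fun k hk hv => ?_, fun k hk => ?_, fun k hk => ?_, fun k hk hv z hz => ?_⟩
  · have P := h.pre hc k hk
    obtain ⟨a1, a2⟩ := h.above hc hx1 k hk hv
    rw [P.q]
    have e := h.rc.q_lo _ _ (hx0.trans a1) P.le4 a2
    have : c / 2 * I.v k ≤ c * I.v k := mul_le_mul_of_nonneg_right (by linarith) (h.v_mem k).1
    linarith
  · have P := h.pre hc k hk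
    rw [P.q]
    exact (h.rc.q_hi _ ⟨P.nn, P.le4⟩).trans (mul_le_mul_of_nonneg_left P.le hC.le)
  · have P := h.pre hc k hk
    have e1 := h.fin.q_link k hk
    have e2 := h.rc.q_lip _ _ P.nn P.le (h.v_mem k).2
    have e3 := h.rc.q_mono ⟨P.nn, P.le4⟩ (h.v_mem k) P.le
    have e4 : I.p.K I.F I.𝔹 (I.v k) - I.p.K I.F I.𝔹 (I.zu k) ≤ I.x ^ 50 := by
      rcases Nat.lt_or_ge k I.n with hkn | hkn
      · have := h.fin.dK k hkn
        rw [h.smp.dK k hkn, h.smp.K k hkn, P.K] at this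
        exact this
      · obtain rfl : k = I.n := le_antisymm hk hkn
        have := h.fin.K_top
        rw [P.K] at this
        rw [h.smp.v_top _ le_rfl]
        exact this
    have e5 : C * (I.p.K I.F I.𝔹 (I.v k) - I.p.K I.F I.𝔹 (I.zu k)) ≤ C * I.x ^ 50 := mul_le_mul_of_nonneg_left e4 hC.le
    have e6 : (1 + C) * I.x ^ 50 ≤ I.x ^ 40 := by
      have g1 : I.x ^ 10 ≤ I.x ^ 1 := pow_le_pow_of_le_one hx0.le (by linarith) (by norm_num)
      have g2 : (1 + C) * I.x ≤ 1 := by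
        rw [abs_of_pos hC, le_div_iff₀ (by linarith)] at hxC
        linarith
      calc (1 + C) * I.x ^ 50 = ((1 + C) * I.x ^ 10) * I.x ^ 40 := by ring
        _ ≤ 1 * I.x ^ 40 := by
            refine mul_le_mul_of_nonneg_right ?_ (by positivity)
            calc (1 + C) * I.x ^ 10 ≤ (1 + C) * I.x ^ 1 := mul_le_mul_of_nonneg_left g1 (by linarith)
              _ ≤ 1 := by rw [pow_one]; exact g2
        _ = I.x ^ 40 := one_mul _
    rw [P.q]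
    rw [abs_le] at e1 ⊢
    constructor <;> linarith [e1.1, e1.2]
  · have P := h.pre hc k hk
    obtain ⟨a1, a2⟩ := h.above hc hx1 k hk hv
    have hu0 : 0 < I.zu k := hx0.trans a1
    have e := h.rc.gap _ _ hu0 P.le4 (h.v_mem k).1 a2 z hz
    rw [P.b hu0, P.K, P.q]
    have : c / 2 * I.lam * I.v k ^ 2 ≤ c * I.lam * I.v k ^ 2 :=
      mul_le_mul_of_nonneg_right (mul_le_mul_of_nonneg_right (by linarith) hl.le) (sq_nonneg _)
    exact this.trans e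

/-- **CLOSE**: the two list-level fields of the group CLK, from `l8z_clk_close_core` (helper232) -/
theorem l8z_clk_close (c C v1 v2 : ℝ) (hc : 0 < c) : ∃ x0 : ℝ, 0 < x0 ∧ ∀ I : L8In, I.ZRc c C v1 v2 → I.Fine (I.x ^ 50) → I.x ≤ x0 →
    (∀ u ∈ Ioo 0 I.a, |skClkB I.P0 u - I.p.b I.F I.𝔹 u| ≤ I.x ^ 40 ∧ |skClkH I.P0 u - I.p.h I.F I.𝔹 u| ≤ I.x ^ 40 ∧ |skClkH I.zPK u - I.p.K I.F I.𝔹 u| ≤ I.x ^ 40) ∧
    ∀ u ∈ Icc 0 I.a, c / 2 ≤ skClkB I.P0 u := by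
  refine ⟨min (1 / 2) c, lt_min (by norm_num) hc, fun I h hf hx => ?_⟩
  have hx1 : I.x ≤ 1 / 2 := hx.trans (min_le_left _ _)
  have hxc : I.x ≤ c := hx.trans (min_le_right _ _)
  have hx0 := L8In.zx_pos h.ok
  obtain ⟨he0, he40, he⟩ := h.eta hx1
  have ha := h.a4
  obtain ⟨g1, g2⟩ := l8z_clk_close_core I (ca := c) hf.adm.1 h.smp h.fin (ha ▸ h.rc.b_mono) (ha ▸ h.rc.h_mono) (ha ▸ h.rc.K_mono)
    (ha ▸ h.rc.b_lo) (ha ▸ h.rc.h_nn) (ha ▸ h.rc.K_nn) hc.le he0.le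
  refine ⟨fun u hu => ?_, fun u hu => ?_⟩
  · obtain ⟨e1, e2, e3⟩ := g1 u hu
    exact ⟨e1.trans he40, e2.trans he40, e3.trans he40⟩
  · have := g2 u hu
    linarith

/-- **CLK** -/
theorem l8z_rc_clk (c C v1 v2 : ℝ) (hc : 0 < c) : ∃ x0 : ℝ, 0 < x0 ∧ ∀ I : L8In, I.ZRc c C v1 v2 → I.Fine (I.x ^ 50) → I.x ≤ x0 → I.ZGeoClk (c / 2) (I.x ^ 40) := by
  obtain ⟨x1, hx1, hcl⟩ := l8z_clk_close c C v1 v2 hc
  refine ⟨min (1 / 2) x1, lt_min (by norm_num) hx1, fun I h hf hx => ?_⟩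
  have hx2 : I.x ≤ 1 / 2 := hx.trans (min_le_left _ _)
  have hx0 := L8In.zx_pos h.ok
  obtain ⟨he0, he40, he⟩ := h.eta hx2
  obtain ⟨c1, c2⟩ := hcl I h hf (hx.trans (min_le_right _ _))
  have z4 : (0 : ℝ) ∈ Icc (0 : ℝ) 4 := ⟨le_rfl, by norm_num⟩
  refine ⟨h.a4, hf.adm.1, hf.adm.2, ?_, ?_, fun k hk => (h.fin.dv k hk).trans he40, fun k hk => ⟨(h.fin.dH k hk).trans he40, (h.fin.dK k hk).trans he40,
    fun hp => (h.fin.dB k hk hp).trans he40⟩, fun k hk hv => (h.fin.low k hk hv).1, fun k j hkj hj hv h2 => ?_, c1, c2⟩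
  · rw [h.a4]
    exact ⟨⟨h.rc.b_mono, hc.le.trans (h.rc.b_lo 0 z4)⟩, ⟨h.rc.h_mono, h.rc.h_nn 0 z4⟩⟩
  · rw [h.a4]
    exact ⟨⟨monotoneOn_const, le_rfl⟩, ⟨h.rc.K_mono, h.rc.K_nn 0 z4⟩⟩
  · obtain ⟨i, rfl⟩ : ∃ i, j = i + 1 := ⟨j - 1, by omega⟩
    have hv' : I.v i = I.v k := hv
    have hi : i < I.n := hj
    have hk : k < I.n := by omega
    have hne : I.v k ≠ I.x := by intro e; linarith
    have hpos : 0 < I.v k := by linarith
    refine ⟨?_, ?_, ?_⟩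
    · rw [h.smp.h i hi (hv' ▸ hne), h.smp.h k hk hne, hv']
    · rw [h.smp.b i hi (hv' ▸ hpos), h.smp.b k hk hpos, hv']
    · rw [h.smp.K i hi, h.smp.K k hk, hv']


/-! ## F. Glue (proved) -/

/-- **INSTANCE of the geometry**, at ONE `x^50`-fine instance.      TEX[LL:paths:lift] TEX[LL:eq:P3] TEX[LL:eq:P4] TEX[LL:eq:P5] TEX[LL:eq:P6] -/
theorem l8z_geo (T : ℝ) (_hT : 1 < T) (F0 : LlFix) (hF : L8Fix llBase T F0) (pB : LLParB) (pS : ℝ) (h0 : 0 < pS) (h1 : pS ≤ 1 / 40000)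
    (hK8 : LlK8 llBase (F0.wExp pB.sStar pB.eta pS)) :
    ∃ (c C v1 v2 : ℝ) (N1 : ℕ), 0 < c ∧ c ≤ 1 ∧ 1 ≤ C ∧ ∀ I : L8In, I.F = F0.wExp pB.sStar pB.eta pS → I.𝔹 = llBase → N1 ≤ I.p.N → l8Siz I.p → I.Ok →
      I.Fine (I.x ^ 50) → I.ZGeo c C v1 v2 (I.x ^ 40) := by
  have h3 := (hF.2.2 _ _ _ (llc_expOk pB h0 (h1.trans (by norm_num)))).sec3
  have he : (F0.wExp pB.sStar pB.eta pS).eta ≤ 1 / 8 := by
    have := pB.eta_le; have := pB.tau_le
    show pB.eta ≤ 1 / 8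
    linarith
  obtain ⟨K, N1, hK, hpt⟩ := l8z_geo_pt T F0 hF pB pS h0 h1 hK8
  obtain ⟨c, C, v1, v2, hc, hc1, hC1, N2, hrc⟩ := l8zp_main h3 he h1 hK8
  obtain ⟨x1, hx1, g1⟩ := l8z_rc_clk c C v1 v2 hc
  obtain ⟨x2, hx2, g2⟩ := l8z_rc_b c C v1 v2 hc
  obtain ⟨x3, hx3, g3⟩ := l8z_rc_K c C v1 v2 hc
  obtain ⟨x4, hx4, g4⟩ := l8z_rc_h c C v1 v2 hc
  obtain ⟨x5, hx5, g5⟩ := l8z_rc_G c C v1 v2 hc
  obtain ⟨Nx, hNx⟩ := lkk_x_small (ε := min x1 (min x2 (min x3 (min x4 x5)))) (by positivity)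
  refine ⟨c / 2, C, v1, v2, max (max N1 N2) Nx, by positivity, by linarith, hC1, fun I hIF hIB hN hS hOk hf => ?_⟩
  have hp := hpt I hIF hIB ((le_max_left _ _).trans ((le_max_left _ _).trans hN)) hS hOk
  obtain ⟨hs, hfi⟩ := l8z_geo_smp K I hOk hS (hIF ▸ hK) hp hf
  have hr : L8zPt I.p I.F I.𝔹 c C v1 v2 := by
    rw [hIF, hIB]
    exact hrc I.p (hIF ▸ hOk.pt) ((le_max_right _ _).trans ((le_max_left _ _).trans hN)) hS
  have hin : I.ZRc c C v1 v2 := ⟨hOk, hs, hfi, hr⟩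
  have hx : I.x ≤ min x1 (min x2 (min x3 (min x4 x5))) := hNx I.p ((le_max_right _ _).trans hN)
  simp only [le_min_iff] at hx
  obtain ⟨e1, e2, e3, e4, e5⟩ := hx
  obtain ⟨w1, w2, w3⟩ := hr.vv
  exact L8In.ZGeo.of_groups ⟨w1, by linarith, w3⟩ (g1 I hin hf e1) (g2 I hin e2) (g3 I hin e3) (g4 I hin e4) (g5 I hin e5)

end

theorem l8z_geo_eqns_cite : True := by
  have := @L8In.zPK.eq_1; have := @L8In.zdB.eq_1; have := @L8In.zdH.eq_1; have := @L8In.zdK.eq_1; have := @L8In.zGam.eq_1; have := @L8In.zGam1.eq_1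
  have := @L8In.zq.eq_1; have := @L8In.zvM.eq_1; have := @L8In.zdd.eq_1; have := @L8In.zE0.eq_1
  have := @L8In.zu.eq_1
  trivial

end Claimed.Agent.R286
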