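import Claimed.Agent.R286.L08.SP

/-!
# Row 286 (S0533), folder L08, file TlLink : THE TILT LINK, ABSTRACT PART      (owner helper189; prefix `tlk_`, `Tlk`)

LL 08 l.890-965 (tilt transfer, S5): the law of the ACTIVE observables of the tilted single path `Pt` is the law of the same observables of the untilted path `Pu`, reweighted by a density `R`.
The two paths live on the same space `Ω`, but their observables are DIFFERENT functions of `ω`: the link is an identity of image laws.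

* `TlkO m`            values of all the active observables `(y, X (k0 + k), C (k0 + k), H (k0 + k))`;      `tlkObs P k0 : Ω → TlkO m`;
* `TlkLink Pt Pu k0 R`   **the link**: `Pt.μ.map obs = (R · Pu.μ).map obs`, and the same for the fork laws at the cuts `k ≥ k0` (density `R` of the first branch);
* `TlkLk Pt Pu k0 ft fu`   LINKED PAIR: `ft = g ∘ obs Pt`, `fu = g ∘ obs Pu` for ONE measurable `g`;   `TlkLk2` the same on `Ω × Ω`.   Calculus: `const add sub neg mul pow sum comp`, basic pairs `y X C H`,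
                      derived `nX L R W xCx trC2 trH2 trCH`, on pairs `fst snd Q QX`;
* `tlk_int`, `tlk_int2`   TRANSFER: `∫ ft ∂Pt.μ = ∫ R * fu ∂Pu.μ`;      `tlk_cs`, `tlk_cs2`   Cauchy-Schwarz form.
PRODUCER (planted chains, SK, `L8In`): `L08/TlSpi.lean`.      CONSUMER: `L08/CenX.lean` (187).
-/

set_option autoImplicit false

namespace Claimed.Agent.R286

open MeasureTheory ProbabilityTheory Finset
open scoped ENNReal

/-- values of the active observables: `y`, `X`, `C`, `H` -/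
abbrev TlkO (m : ℕ) : Type :=
  (Fin m → ℝ) × (ℕ → Fin m → ℝ) × (ℕ → Fin m → Fin m → ℝ) × (ℕ → Fin m → Fin m → ℝ)

variable {Ω : Type} [mΩ : MeasurableSpace Ω] {m : ℕ}

/-- all the observables of the cuts `≥ k0` -/
noncomputable def tlkObs (P : L8P Ω m) (k0 : ℕ) (ω : Ω) : TlkO m :=
  (fun i => P.y i ω, fun k i => P.X (k0 + k) i ω, fun k i j => P.C (k0 + k) i j ω, fun k i j => P.H (k0 + k) i j ω)

/-- **the tilt link** -/
structure TlkLink (Pt Pu : L8P Ω m) (k0 : ℕ) (R : Ω → ℝ) : Prop where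
  R_meas : Measurable R
  R_nonneg : ∀ ω, 0 ≤ R ω
  obs_t : Measurable (tlkObs Pt k0)
  obs_u : Measurable (tlkObs Pu k0)
  mu : Pt.μ.map (tlkObs Pt k0) = (Pu.μ.withDensity fun ω => ENNReal.ofReal (R ω)).map (tlkObs Pu k0)
  fork : ∀ k, k0 ≤ k → (Pt.fork k).map (Prod.map (tlkObs Pt k0) (tlkObs Pt k0)) =
    ((Pu.fork k).withDensity fun ω => ENNReal.ofReal (R ω.1)).map (Prod.map (tlkObs Pu k0) (tlkObs Pu k0))

/-- linked pair of functions on the single paths -/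
def TlkLk (Pt Pu : L8P Ω m) (k0 : ℕ) (ft fu : Ω → ℝ) : Prop :=
  ∃ g : TlkO m → ℝ, Measurable g ∧ (∀ ω, ft ω = g (tlkObs Pt k0 ω)) ∧ ∀ ω, fu ω = g (tlkObs Pu k0 ω)

/-- linked pair of functions on the forks -/
def TlkLk2 (Pt Pu : L8P Ω m) (k0 : ℕ) (ft fu : Ω × Ω → ℝ) : Prop :=
  ∃ g : TlkO m × TlkO m → ℝ, Measurable g ∧ (∀ ω, ft ω = g (tlkObs Pt k0 ω.1, tlkObs Pt k0 ω.2)) ∧
    ∀ ω, fu ω = g (tlkObs Pu k0 ω.1, tlkObs Pu k0 ω.2)

theorem tlk_eqns_cite : True := by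
  have := @tlkObs.eq_1
  have := @TlkLk.eq_1
  have := @TlkLk2.eq_1
  trivial

section calc1

variable {Pt Pu : L8P Ω m} {k0 : ℕ}

theorem TlkLk.const (c : ℝ) : TlkLk Pt Pu k0 (fun _ => c) (fun _ => c) :=
  ⟨fun _ => c, measurable_const, fun _ => rfl, fun _ => rfl⟩

theorem TlkLk.comp {ft fu : Ω → ℝ} (h : TlkLk Pt Pu k0 ft fu) {φ : ℝ → ℝ} (hφ : Measurable φ) :
    TlkLk Pt Pu k0 (fun ω => φ (ft ω)) (fun ω => φ (fu ω)) := by
  obtain ⟨g, hg, h1, h2⟩ := h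
  exact ⟨fun o => φ (g o), hφ.comp hg, fun ω => by simp only [h1], fun ω => by simp only [h2]⟩

theorem TlkLk.add {ft fu ft' fu' : Ω → ℝ} (h : TlkLk Pt Pu k0 ft fu) (h' : TlkLk Pt Pu k0 ft' fu') :
    TlkLk Pt Pu k0 (fun ω => ft ω + ft' ω) (fun ω => fu ω + fu' ω) := by
  obtain ⟨g, hg, h1, h2⟩ := h
  obtain ⟨g', hg', h1', h2'⟩ := h'
  exact ⟨fun o => g o + g' o, hg.add hg', fun ω => by simp only [h1, h1'], fun ω => by simp only [h2, h2']⟩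

theorem TlkLk.sub {ft fu ft' fu' : Ω → ℝ} (h : TlkLk Pt Pu k0 ft fu) (h' : TlkLk Pt Pu k0 ft' fu') :
    TlkLk Pt Pu k0 (fun ω => ft ω - ft' ω) (fun ω => fu ω - fu' ω) := by
  obtain ⟨g, hg, h1, h2⟩ := h
  obtain ⟨g', hg', h1', h2'⟩ := h'
  exact ⟨fun o => g o - g' o, hg.sub hg', fun ω => by simp only [h1, h1'], fun ω => by simp only [h2, h2']⟩

theorem TlkLk.mul {ft fu ft' fu' : Ω → ℝ} (h : TlkLk Pt Pu k0 ft fu) (h' : TlkLk Pt Pu k0 ft' fu') :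
    TlkLk Pt Pu k0 (fun ω => ft ω * ft' ω) (fun ω => fu ω * fu' ω) := by
  obtain ⟨g, hg, h1, h2⟩ := h
  obtain ⟨g', hg', h1', h2'⟩ := h'
  exact ⟨fun o => g o * g' o, hg.mul hg', fun ω => by simp only [h1, h1'], fun ω => by simp only [h2, h2']⟩

theorem TlkLk.neg {ft fu : Ω → ℝ} (h : TlkLk Pt Pu k0 ft fu) : TlkLk Pt Pu k0 (fun ω => - ft ω) (fun ω => - fu ω) :=
  h.comp measurable_neg

theorem TlkLk.const_mul {ft fu : Ω → ℝ} (c : ℝ) (h : TlkLk Pt Pu k0 ft fu) :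
    TlkLk Pt Pu k0 (fun ω => c * ft ω) (fun ω => c * fu ω) := (TlkLk.const c).mul h

theorem TlkLk.mul_const {ft fu : Ω → ℝ} (h : TlkLk Pt Pu k0 ft fu) (c : ℝ) :
    TlkLk Pt Pu k0 (fun ω => ft ω * c) (fun ω => fu ω * c) := h.mul (TlkLk.const c)

theorem TlkLk.div_const {ft fu : Ω → ℝ} (h : TlkLk Pt Pu k0 ft fu) (c : ℝ) :
    TlkLk Pt Pu k0 (fun ω => ft ω / c) (fun ω => fu ω / c) := h.comp (measurable_id.div_const c)

theorem TlkLk.sub_const {ft fu : Ω → ℝ} (h : TlkLk Pt Pu k0 ft fu) (c : ℝ) :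
    TlkLk Pt Pu k0 (fun ω => ft ω - c) (fun ω => fu ω - c) := h.sub (TlkLk.const c)

theorem TlkLk.pow {ft fu : Ω → ℝ} (h : TlkLk Pt Pu k0 ft fu) (n : ℕ) :
    TlkLk Pt Pu k0 (fun ω => ft ω ^ n) (fun ω => fu ω ^ n) := h.comp (measurable_id.pow_const n)

theorem TlkLk.abs {ft fu : Ω → ℝ} (h : TlkLk Pt Pu k0 ft fu) :
    TlkLk Pt Pu k0 (fun ω => |ft ω|) (fun ω => |fu ω|) := h.comp measurable_norm

theorem TlkLk.sum {α : Type} (s : Finset α) {ft fu : α → Ω → ℝ} (h : ∀ a ∈ s, TlkLk Pt Pu k0 (ft a) (fu a)) :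
    TlkLk Pt Pu k0 (fun ω => ∑ a ∈ s, ft a ω) (fun ω => ∑ a ∈ s, fu a ω) := by
  classical
  induction s using Finset.induction_on with
  | empty => simpa using TlkLk.const (Pt := Pt) (Pu := Pu) (k0 := k0) 0
  | insert a s ha ih =>
    have h1 := (h a (Finset.mem_insert_self a s)).add (ih fun b hb => h b (Finset.mem_insert_of_mem hb))
    simpa only [Finset.sum_insert ha] using h1

theorem TlkLk.congr {ft fu ft' fu' : Ω → ℝ} (h : TlkLk Pt Pu k0 ft fu) (e1 : ∀ ω, ft' ω = ft ω) (e2 : ∀ ω, fu' ω = fu ω) :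
    TlkLk Pt Pu k0 ft' fu' := by
  have h1 : ft' = ft := funext e1
  have h2 : fu' = fu := funext e2
  rw [h1, h2]; exact h

/-! ### basic pairs -/

theorem tlk_y (Pt Pu : L8P Ω m) (k0 : ℕ) (i : Fin m) : TlkLk Pt Pu k0 (Pt.y i) (Pu.y i) :=
  ⟨fun o => o.1 i, (measurable_pi_apply i).comp measurable_fst, fun _ => rfl, fun _ => rfl⟩

theorem tlk_X (Pt Pu : L8P Ω m) {k0 k : ℕ} (hk : k0 ≤ k) (i : Fin m) : TlkLk Pt Pu k0 (Pt.X k i) (Pu.X k i) := by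
  obtain ⟨j, rfl⟩ := Nat.exists_eq_add_of_le hk
  exact ⟨fun o => o.2.1 j i, by fun_prop, fun _ => rfl, fun _ => rfl⟩

theorem tlk_C (Pt Pu : L8P Ω m) {k0 k : ℕ} (hk : k0 ≤ k) (i j : Fin m) : TlkLk Pt Pu k0 (Pt.C k i j) (Pu.C k i j) := by
  obtain ⟨l, rfl⟩ := Nat.exists_eq_add_of_le hk
  exact ⟨fun o => o.2.2.1 l i j, by fun_prop, fun _ => rfl, fun _ => rfl⟩

theorem tlk_H (Pt Pu : L8P Ω m) {k0 k : ℕ} (hk : k0 ≤ k) (i j : Fin m) : TlkLk Pt Pu k0 (Pt.H k i j) (Pu.H k i j) := by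
  obtain ⟨l, rfl⟩ := Nat.exists_eq_add_of_le hk
  exact ⟨fun o => o.2.2.2 l i j, by fun_prop, fun _ => rfl, fun _ => rfl⟩

/-! ### derived pairs -/

theorem tlk_R (Pt Pu : L8P Ω m) {k0 k : ℕ} (hk : k0 ≤ k) (i : Fin m) : TlkLk Pt Pu k0 (Pt.R k i) (Pu.R k i) :=
  (tlk_y Pt Pu k0 i).sub (tlk_X Pt Pu hk i)

theorem tlk_XX (Pt Pu : L8P Ω m) {k0 k l : ℕ} (hk : k0 ≤ k) (hl : k0 ≤ l) (i : Fin m) :
    TlkLk Pt Pu k0 (Pt.XX k l i) (Pu.XX k l i) := (tlk_X Pt Pu hl i).sub (tlk_X Pt Pu hk i)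

theorem tlk_dX (Pt Pu : L8P Ω m) {k0 k : ℕ} (hk : k0 ≤ k) (i : Fin m) : TlkLk Pt Pu k0 (Pt.dX k i) (Pu.dX k i) :=
  (tlk_X Pt Pu (Nat.le_succ_of_le hk) i).sub (tlk_X Pt Pu hk i)

theorem tlk_nX (Pt Pu : L8P Ω m) {k0 k : ℕ} (hk : k0 ≤ k) : TlkLk Pt Pu k0 (Pt.nX k) (Pu.nX k) :=
  TlkLk.sum _ fun i _ => (tlk_X Pt Pu hk i).pow 2

theorem tlk_L (Pt Pu : L8P Ω m) {k0 k : ℕ} (hk : k0 ≤ k) : TlkLk Pt Pu k0 (Pt.L k) (Pu.L k) :=
  (TlkLk.sum _ fun i _ => (tlk_y Pt Pu k0 i).mul (tlk_X Pt Pu hk i)).sub ((tlk_nX Pt Pu hk).div_const 2)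

theorem tlk_W (Pt Pu : L8P Ω m) {k0 k : ℕ} (hk : k0 ≤ k) : TlkLk Pt Pu k0 (Pt.W k) (Pu.W k) :=
  TlkLk.sum _ fun i _ => TlkLk.sum _ fun j _ => ((tlk_R Pt Pu hk i).mul (tlk_H Pt Pu hk i j)).mul (tlk_R Pt Pu hk j)

theorem tlk_trH2 (Pt Pu : L8P Ω m) {k0 k : ℕ} (hk : k0 ≤ k) : TlkLk Pt Pu k0 (Pt.trH2 k) (Pu.trH2 k) :=
  TlkLk.sum _ fun i _ => TlkLk.sum _ fun j _ => (tlk_H Pt Pu hk i j).pow 2

theorem tlk_trC2 (Pt Pu : L8P Ω m) {k0 k : ℕ} (hk : k0 ≤ k) : TlkLk Pt Pu k0 (Pt.trC2 k) (Pu.trC2 k) :=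
  TlkLk.sum _ fun i _ => TlkLk.sum _ fun j _ => (tlk_C Pt Pu hk i j).pow 2

theorem tlk_trCH (Pt Pu : L8P Ω m) {k0 k : ℕ} (hk : k0 ≤ k) : TlkLk Pt Pu k0 (Pt.trCH k) (Pu.trCH k) :=
  TlkLk.sum _ fun i _ => TlkLk.sum _ fun j _ => (tlk_C Pt Pu hk i j).mul (tlk_H Pt Pu hk i j)

theorem tlk_xCx (Pt Pu : L8P Ω m) {k0 k : ℕ} (hk : k0 ≤ k) : TlkLk Pt Pu k0 (Pt.xCx k) (Pu.xCx k) :=
  TlkLk.sum _ fun i _ => TlkLk.sum _ fun j _ => ((tlk_X Pt Pu hk i).mul (tlk_C Pt Pu hk i j)).mul (tlk_X Pt Pu hk j)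

end calc1

section calc2

variable {Pt Pu : L8P Ω m} {k0 : ℕ}

theorem TlkLk2.const (c : ℝ) : TlkLk2 Pt Pu k0 (fun _ => c) (fun _ => c) :=
  ⟨fun _ => c, measurable_const, fun _ => rfl, fun _ => rfl⟩

theorem TlkLk.fst {ft fu : Ω → ℝ} (h : TlkLk Pt Pu k0 ft fu) : TlkLk2 Pt Pu k0 (fun ω => ft ω.1) (fun ω => fu ω.1) := by
  obtain ⟨g, hg, h1, h2⟩ := h
  exact ⟨fun o => g o.1, hg.comp measurable_fst, fun ω => h1 ω.1, fun ω => h2 ω.1⟩

theorem TlkLk.snd {ft fu : Ω → ℝ} (h : TlkLk Pt Pu k0 ft fu) : TlkLk2 Pt Pu k0 (fun ω => ft ω.2) (fun ω => fu ω.2) := by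
  obtain ⟨g, hg, h1, h2⟩ := h
  exact ⟨fun o => g o.2, hg.comp measurable_snd, fun ω => h1 ω.2, fun ω => h2 ω.2⟩

theorem TlkLk2.comp {ft fu : Ω × Ω → ℝ} (h : TlkLk2 Pt Pu k0 ft fu) {φ : ℝ → ℝ} (hφ : Measurable φ) :
    TlkLk2 Pt Pu k0 (fun ω => φ (ft ω)) (fun ω => φ (fu ω)) := by
  obtain ⟨g, hg, h1, h2⟩ := h
  exact ⟨fun o => φ (g o), hφ.comp hg, fun ω => by simp only [h1], fun ω => by simp only [h2]⟩

theorem TlkLk2.add {ft fu ft' fu' : Ω × Ω → ℝ} (h : TlkLk2 Pt Pu k0 ft fu) (h' : TlkLk2 Pt Pu k0 ft' fu') :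
    TlkLk2 Pt Pu k0 (fun ω => ft ω + ft' ω) (fun ω => fu ω + fu' ω) := by
  obtain ⟨g, hg, h1, h2⟩ := h
  obtain ⟨g', hg', h1', h2'⟩ := h'
  exact ⟨fun o => g o + g' o, hg.add hg', fun ω => by simp only [h1, h1'], fun ω => by simp only [h2, h2']⟩

theorem TlkLk2.sub {ft fu ft' fu' : Ω × Ω → ℝ} (h : TlkLk2 Pt Pu k0 ft fu) (h' : TlkLk2 Pt Pu k0 ft' fu') :
    TlkLk2 Pt Pu k0 (fun ω => ft ω - ft' ω) (fun ω => fu ω - fu' ω) := by
  obtain ⟨g, hg, h1, h2⟩ := h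
  obtain ⟨g', hg', h1', h2'⟩ := h'
  exact ⟨fun o => g o - g' o, hg.sub hg', fun ω => by simp only [h1, h1'], fun ω => by simp only [h2, h2']⟩

theorem TlkLk2.mul {ft fu ft' fu' : Ω × Ω → ℝ} (h : TlkLk2 Pt Pu k0 ft fu) (h' : TlkLk2 Pt Pu k0 ft' fu') :
    TlkLk2 Pt Pu k0 (fun ω => ft ω * ft' ω) (fun ω => fu ω * fu' ω) := by
  obtain ⟨g, hg, h1, h2⟩ := h
  obtain ⟨g', hg', h1', h2'⟩ := h'
  exact ⟨fun o => g o * g' o, hg.mul hg', fun ω => by simp only [h1, h1'], fun ω => by simp only [h2, h2']⟩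

theorem TlkLk2.sub_const {ft fu : Ω × Ω → ℝ} (h : TlkLk2 Pt Pu k0 ft fu) (c : ℝ) :
    TlkLk2 Pt Pu k0 (fun ω => ft ω - c) (fun ω => fu ω - c) := h.sub (TlkLk2.const c)

theorem TlkLk2.const_mul {ft fu : Ω × Ω → ℝ} (c : ℝ) (h : TlkLk2 Pt Pu k0 ft fu) :
    TlkLk2 Pt Pu k0 (fun ω => c * ft ω) (fun ω => c * fu ω) := (TlkLk2.const c).mul h

theorem TlkLk2.pow {ft fu : Ω × Ω → ℝ} (h : TlkLk2 Pt Pu k0 ft fu) (n : ℕ) :
    TlkLk2 Pt Pu k0 (fun ω => ft ω ^ n) (fun ω => fu ω ^ n) := h.comp (measurable_id.pow_const n)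

theorem TlkLk2.sum {α : Type} (s : Finset α) {ft fu : α → Ω × Ω → ℝ} (h : ∀ a ∈ s, TlkLk2 Pt Pu k0 (ft a) (fu a)) :
    TlkLk2 Pt Pu k0 (fun ω => ∑ a ∈ s, ft a ω) (fun ω => ∑ a ∈ s, fu a ω) := by
  classical
  induction s using Finset.induction_on with
  | empty => simpa using TlkLk2.const (Pt := Pt) (Pu := Pu) (k0 := k0) 0
  | insert a s ha ih =>
    have h1 := (h a (Finset.mem_insert_self a s)).add (ih fun b hb => h b (Finset.mem_insert_of_mem hb))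
    simpa only [Finset.sum_insert ha] using h1

theorem TlkLk2.congr {ft fu ft' fu' : Ω × Ω → ℝ} (h : TlkLk2 Pt Pu k0 ft fu) (e1 : ∀ ω, ft' ω = ft ω)
    (e2 : ∀ ω, fu' ω = fu ω) : TlkLk2 Pt Pu k0 ft' fu' := by
  have h1 : ft' = ft := funext e1
  have h2 : fu' = fu := funext e2
  rw [h1, h2]; exact h

theorem tlk_Q (Pt Pu : L8P Ω m) (k0 : ℕ) : TlkLk2 Pt Pu k0 Pt.Q Pu.Q :=
  TlkLk2.sum _ fun i _ => (tlk_y Pt Pu k0 i).fst.mul (tlk_y Pt Pu k0 i).snd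

theorem tlk_QX (Pt Pu : L8P Ω m) {k0 k₁ k₂ : ℕ} (h1 : k0 ≤ k₁) (h2 : k0 ≤ k₂) : TlkLk2 Pt Pu k0 (Pt.QX k₁ k₂) (Pu.QX k₁ k₂) :=
  TlkLk2.sum _ fun i _ => (tlk_X Pt Pu h1 i).fst.mul (tlk_X Pt Pu h2 i).snd

end calc2

/-! ### transfer -/

section transfer

variable {Pt Pu : L8P Ω m} {k0 : ℕ} {R : Ω → ℝ}

/-- **TRANSFER on the single path** -/
theorem tlk_int (h : TlkLink Pt Pu k0 R) {ft fu : Ω → ℝ} (hl : TlkLk Pt Pu k0 ft fu) :
    ∫ ω, ft ω ∂Pt.μ = ∫ ω, R ω * fu ω ∂Pu.μ := by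
  obtain ⟨g, hg, h1, h2⟩ := hl
  have e1 : ∫ ω, ft ω ∂Pt.μ = ∫ o, g o ∂(Pt.μ.map (tlkObs Pt k0)) := by
    rw [integral_map h.obs_t.aemeasurable hg.aestronglyMeasurable]
    exact integral_congr_ae (Filter.Eventually.of_forall h1)
  rw [e1, h.mu, integral_map h.obs_u.aemeasurable hg.aestronglyMeasurable,
    integral_withDensity_eq_integral_toReal_smul h.R_meas.ennreal_ofReal (Filter.Eventually.of_forall fun _ => ENNReal.ofReal_lt_top)]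
  refine integral_congr_ae (Filter.Eventually.of_forall fun ω => ?_)
  simp only [ENNReal.toReal_ofReal (h.R_nonneg ω), smul_eq_mul, h2]

/-- **TRANSFER on the forks** -/
theorem tlk_int2 (h : TlkLink Pt Pu k0 R) {k : ℕ} (hk : k0 ≤ k) {ft fu : Ω × Ω → ℝ} (hl : TlkLk2 Pt Pu k0 ft fu) :
    ∫ ω, ft ω ∂Pt.fork k = ∫ ω, R ω.1 * fu ω ∂Pu.fork k := by
  obtain ⟨g, hg, h1, h2⟩ := hl
  have mt : Measurable (Prod.map (tlkObs Pt k0) (tlkObs Pt k0)) := h.obs_t.prodMap h.obs_t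
  have mu : Measurable (Prod.map (tlkObs Pu k0) (tlkObs Pu k0)) := h.obs_u.prodMap h.obs_u
  have e1 : ∫ ω, ft ω ∂Pt.fork k = ∫ o, g o ∂((Pt.fork k).map (Prod.map (tlkObs Pt k0) (tlkObs Pt k0))) := by
    rw [integral_map mt.aemeasurable hg.aestronglyMeasurable]
    exact integral_congr_ae (Filter.Eventually.of_forall h1)
  have hm : Measurable fun ω : Ω × Ω => ENNReal.ofReal (R ω.1) := (h.R_meas.comp measurable_fst).ennreal_ofReal
  rw [e1, h.fork k hk, integral_map mu.aemeasurable hg.aestronglyMeasurable,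
    integral_withDensity_eq_integral_toReal_smul hm (Filter.Eventually.of_forall fun _ => ENNReal.ofReal_lt_top)]
  refine integral_congr_ae (Filter.Eventually.of_forall fun ω => ?_)
  simp only [ENNReal.toReal_ofReal (h.R_nonneg ω.1), smul_eq_mul, h2]
  rfl

theorem TlkLk.meas_u (h : TlkLink Pt Pu k0 R) {ft fu : Ω → ℝ} (hl : TlkLk Pt Pu k0 ft fu) : Measurable fu := by
  obtain ⟨g, hg, _, h2⟩ := hl
  have e : fu = fun ω => g (tlkObs Pu k0 ω) := funext h2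
  rw [e]; exact hg.comp h.obs_u

theorem TlkLk.meas_t (h : TlkLink Pt Pu k0 R) {ft fu : Ω → ℝ} (hl : TlkLk Pt Pu k0 ft fu) : Measurable ft := by
  obtain ⟨g, hg, h1, _⟩ := hl
  have e : ft = fun ω => g (tlkObs Pt k0 ω) := funext h1
  rw [e]; exact hg.comp h.obs_t

theorem TlkLk2.meas_u (h : TlkLink Pt Pu k0 R) {ft fu : Ω × Ω → ℝ} (hl : TlkLk2 Pt Pu k0 ft fu) : Measurable fu := by
  obtain ⟨g, hg, _, h2⟩ := hl
  have e : fu = fun ω => g (tlkObs Pu k0 ω.1, tlkObs Pu k0 ω.2) := funext h2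
  rw [e]; exact hg.comp ((h.obs_u.comp measurable_fst).prodMk (h.obs_u.comp measurable_snd))

theorem TlkLk2.meas_t (h : TlkLink Pt Pu k0 R) {ft fu : Ω × Ω → ℝ} (hl : TlkLk2 Pt Pu k0 ft fu) : Measurable ft := by
  obtain ⟨g, hg, h1, _⟩ := hl
  have e : ft = fun ω => g (tlkObs Pt k0 ω.1, tlkObs Pt k0 ω.2) := funext h1
  rw [e]; exact hg.comp ((h.obs_t.comp measurable_fst).prodMk (h.obs_t.comp measurable_snd))

/-- Cauchy-Schwarz for square integrable functions -/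
theorem tlk_cs_aux {α : Type} [MeasurableSpace α] (ν : Measure α) {f g : α → ℝ} (hf : Measurable f) (hg : Measurable g)
    (hf2 : Integrable (fun x => f x ^ 2) ν) (hg2 : Integrable (fun x => g x ^ 2) ν) :
    ∫ x, |f x * g x| ∂ν ≤ √(∫ x, f x ^ 2 ∂ν) * √(∫ x, g x ^ 2 ∂ν) := by
  have e2 : ENNReal.ofReal 2 = 2 := by norm_num
  have hfL : MemLp f (ENNReal.ofReal 2) ν := by
    rw [e2]; exact (memLp_two_iff_integrable_sq hf.aestronglyMeasurable).2 hf2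
  have hgL : MemLp g (ENNReal.ofReal 2) ν := by
    rw [e2]; exact (memLp_two_iff_integrable_sq hg.aestronglyMeasurable).2 hg2
  have key := integral_mul_norm_le_Lp_mul_Lq (μ := ν) (f := f) (g := g) Real.HolderConjugate.two_two hfL hgL
  simp only [Real.norm_eq_abs, Real.rpow_two, sq_abs] at key
  rw [Real.sqrt_eq_rpow, Real.sqrt_eq_rpow]
  simpa only [abs_mul] using key

/-- **TRANSFER, Cauchy-Schwarz form, single path** -/
theorem tlk_cs (h : TlkLink Pt Pu k0 R) {ft fu : Ω → ℝ} (hl : TlkLk Pt Pu k0 ft fu)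
    (hR : Integrable (fun ω => R ω ^ 2) Pu.μ) (hf : Integrable (fun ω => fu ω ^ 2) Pu.μ) :
    |∫ ω, ft ω ∂Pt.μ| ≤ √(∫ ω, R ω ^ 2 ∂Pu.μ) * √(∫ ω, fu ω ^ 2 ∂Pu.μ) := by
  rw [tlk_int h hl]
  exact abs_integral_le_integral_abs.trans (tlk_cs_aux Pu.μ h.R_meas (hl.meas_u h) hR hf)

/-- **TRANSFER, Cauchy-Schwarz form, forks** -/
theorem tlk_cs2 (h : TlkLink Pt Pu k0 R) {k : ℕ} (hk : k0 ≤ k) {ft fu : Ω × Ω → ℝ} (hl : TlkLk2 Pt Pu k0 ft fu)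
    (hR : Integrable (fun ω : Ω × Ω => R ω.1 ^ 2) (Pu.fork k)) (hf : Integrable (fun ω => fu ω ^ 2) (Pu.fork k)) :
    |∫ ω, ft ω ∂Pt.fork k| ≤ √(∫ ω, R ω.1 ^ 2 ∂Pu.fork k) * √(∫ ω, fu ω ^ 2 ∂Pu.fork k) := by
  rw [tlk_int2 h hk hl]
  exact abs_integral_le_integral_abs.trans
    (tlk_cs_aux (Pu.fork k) (h.R_meas.comp measurable_fst) (hl.meas_u h) hR hf)

end transfer

/-! ### transfer by truncation of the density -/

/-- **transfer with the multiplicative loss `M` and the additive error `δ`** (per unit of the sup bound of the observable) -/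
structure TlkTr (Pt Pu : L8P Ω m) (k0 : ℕ) (M δ : ℝ) : Prop where
  one : ∀ (ft fu : Ω → ℝ) (G : ℝ), TlkLk Pt Pu k0 ft fu → (∀ ω, 0 ≤ fu ω) → (∀ ω, fu ω ≤ G) →
    ∫ ω, ft ω ∂Pt.μ ≤ M * ∫ ω, fu ω ∂Pu.μ + G * δ
  two : ∀ k, k0 ≤ k → ∀ (ft fu : Ω × Ω → ℝ) (G : ℝ), TlkLk2 Pt Pu k0 ft fu → (∀ ω, 0 ≤ fu ω) → (∀ ω, fu ω ≤ G) →
    ∫ ω, ft ω ∂Pt.fork k ≤ M * ∫ ω, fu ω ∂Pu.fork k + G * δ

/-- pointwise truncation: `R g ≤ M g + G R^(n+1) / M^n` -/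
theorem tlk_trunc_pt {R g G M : ℝ} (n : ℕ) (hR : 0 ≤ R) (hg : 0 ≤ g) (hG : g ≤ G) (hM : 0 < M) :
    R * g ≤ M * g + G * (R ^ (n + 1) / M ^ n) := by
  have hG0 : 0 ≤ G := hg.trans hG
  rcases le_or_gt R M with h | h
  · have h1 : 0 ≤ G * (R ^ (n + 1) / M ^ n) := mul_nonneg hG0 (div_nonneg (pow_nonneg hR _) (pow_nonneg hM.le _))
    nlinarith [mul_le_mul_of_nonneg_right h hg]
  · have h1 : R ≤ R ^ (n + 1) / M ^ n := by
      rw [le_div_iff₀ (pow_pos hM n), pow_succ, mul_comm]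
      exact mul_le_mul_of_nonneg_right (pow_le_pow_left₀ hM.le h.le n) hR
    have h2 : R * g ≤ G * (R ^ (n + 1) / M ^ n) := by
      calc R * g ≤ R * G := mul_le_mul_of_nonneg_left hG hR
        _ = G * R := mul_comm _ _
        _ ≤ _ := mul_le_mul_of_nonneg_left h1 hG0
    nlinarith [mul_nonneg hM.le hg]

/-- truncation under one finite measure -/
theorem tlk_trunc_int {α : Type} [MeasurableSpace α] (ν : Measure α) [IsFiniteMeasure ν] {R g : α → ℝ} {G M c : ℝ} (n : ℕ)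
    (hRm : Measurable R) (hR : ∀ x, 0 ≤ R x) (hgm : Measurable g) (hg : ∀ x, 0 ≤ g x) (hG : ∀ x, g x ≤ G) (hG0 : 0 ≤ G) (hM : 0 < M)
    (hRi : Integrable (fun x => R x ^ (n + 1)) ν) (hc : ∫ x, R x ^ (n + 1) ∂ν ≤ c) :
    ∫ x, R x * g x ∂ν ≤ M * ∫ x, g x ∂ν + G * (c / M ^ n) := by
  have hgi : Integrable g ν := Integrable.of_bound hgm.aestronglyMeasurable G
    (Filter.Eventually.of_forall fun x => by rw [Real.norm_eq_abs, abs_of_nonneg (hg x)]; exact hG x)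
  have hub : Integrable (fun x => M * g x + G * (R x ^ (n + 1) / M ^ n)) ν :=
    (hgi.const_mul M).add ((hRi.div_const _).const_mul G)
  have hlb : Integrable (fun x => R x * g x) ν := by
    refine hub.mono' (hRm.mul hgm).aestronglyMeasurable (Filter.Eventually.of_forall fun x => ?_)
    rw [Real.norm_eq_abs, abs_of_nonneg (mul_nonneg (hR x) (hg x))]
    exact tlk_trunc_pt n (hR x) (hg x) (hG x) hM
  calc ∫ x, R x * g x ∂ν ≤ ∫ x, (M * g x + G * (R x ^ (n + 1) / M ^ n)) ∂ν :=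
        integral_mono hlb hub fun x => tlk_trunc_pt n (hR x) (hg x) (hG x) hM
    _ = M * ∫ x, g x ∂ν + G * ((∫ x, R x ^ (n + 1) ∂ν) / M ^ n) := by
        rw [integral_add (hgi.const_mul M) ((hRi.div_const _).const_mul G), integral_const_mul, integral_const_mul,
          integral_div]
    _ ≤ _ := by
        have := div_le_div_of_nonneg_right hc (pow_nonneg hM.le n)
        nlinarith [mul_le_mul_of_nonneg_left this hG0]

/-- the first marginal of a fork law -/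
theorem tlk_fork_fst (P : L8P Ω m) (hP : P.Ok) (k : ℕ) {g : Ω → ℝ} (hg : Measurable g) :
    ∫ ω, g ω.1 ∂P.fork k = ∫ ω, g ω ∂P.μ := by
  have := hP.prob
  have := hP.markov k
  have e : (P.fork k).map Prod.fst = P.μ := by
    unfold L8P.fork
    exact Measure.fst_compProd _ _
  rw [← e, integral_map measurable_fst.aemeasurable hg.aestronglyMeasurable]

theorem tlk_fork_fst_int (P : L8P Ω m) (hP : P.Ok) (k : ℕ) {g : Ω → ℝ} (hg : Measurable g) (hi : Integrable g P.μ) :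
    Integrable (fun ω : Ω × Ω => g ω.1) (P.fork k) := by
  have := hP.prob
  have := hP.markov k
  have e : (P.fork k).map Prod.fst = P.μ := by
    unfold L8P.fork
    exact Measure.fst_compProd _ _
  rw [← e] at hi
  exact (integrable_map_measure hg.aestronglyMeasurable measurable_fst.aemeasurable).1 hi

/-- **the link and one moment of the density give the transfer** -/
theorem tlk_tr {Pt Pu : L8P Ω m} {k0 : ℕ} {R : Ω → ℝ} (h : TlkLink Pt Pu k0 R) (hP : Pu.Ok) (n : ℕ) {M c : ℝ} (hM : 0 < M)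
    (hRi : Integrable (fun ω => R ω ^ (n + 1)) Pu.μ) (hc : ∫ ω, R ω ^ (n + 1) ∂Pu.μ ≤ c) :
    TlkTr Pt Pu k0 M (c / M ^ n) := by
  have hpr := hP.prob
  have hne : Nonempty Ω := by
    by_contra hemp
    rw [not_nonempty_iff] at hemp
    have h1 : Pu.μ Set.univ = 0 := by rw [Set.univ_eq_empty_iff.2 hemp]; exact measure_empty
    rw [measure_univ] at h1
    exact one_ne_zero h1
  obtain ⟨ω0⟩ := hne
  refine ⟨fun ft fu G hl h0 hG => ?_, fun k hk ft fu G hl h0 hG => ?_⟩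
  · rw [tlk_int h hl]
    exact tlk_trunc_int Pu.μ n h.R_meas h.R_nonneg (hl.meas_u h) h0 hG ((h0 ω0).trans (hG ω0)) hM hRi hc
  · have := hP.markov k
    have hfin : IsFiniteMeasure (Pu.fork k) := by unfold L8P.fork; infer_instance
    rw [tlk_int2 h hk hl]
    have hm : Measurable fun ω => R ω ^ (n + 1) := h.R_meas.pow_const _
    refine tlk_trunc_int (Pu.fork k) n (h.R_meas.comp measurable_fst) (fun ω => h.R_nonneg ω.1) (hl.meas_u h) h0 hG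
      ((h0 (ω0, ω0)).trans (hG (ω0, ω0))) hM (tlk_fork_fst_int Pu hP k hm hRi) ?_
    exact (tlk_fork_fst Pu hP k hm).le.trans hc

end Claimed.Agent.R286
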