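import Claimed.Agent.R286.L08.SpiDic
import Claimed.Agent.R286.Gk.Split
import Claimed.Agent.R286.L08.TlLink

/-!
# Row 286 (S0533), folder L08, file TlSpi : THE TILT LINK FOR PLANTED CHAINS      (owner helper189; prefix `tls_`, `tls`)

PRODUCER of `TlkLink` (L08/TlLink) at the level of `Defs/Gh` + L08/Spi*.      Two hierarchies `lowT ++ hi`, `lowU ++ hi` with the same continuation `hi` and prefixes of the same length `k0`.
* `tlsTh ls z k ω = (field revealed at the cut k, tail of ω after the cut k)`;      all the observables of the cuts `≥ k` are ONE function `tlsG` of `tlsTh` (dictionary of L08/SpiDic);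
* `tlsLam B low hi z G`   the law of the field at the cut `low.length`, as a functional of `G ≥ 0` (recursion on `low`);
* `tls_restart`       `∫⁻ F (tlsTh ω) ∂(spiK B (low ++ hi) z) = tlsLam B low hi z (z' ↦ ∫⁻ F (z', ·) ∂(spiK B hi z'))`;
* `tls_lam_neutral`   NEUTRAL prefix (every level has mass `0` or is empty; covariances proportional to one `l1.cov`): the field at the cut is Gaussian with the SUM of the covariances (`ghs_law_add`);
* `tls_lam_tilt`      prefix = empty levels, then ONE level `lT`: density `ghD B lT hi z`;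
* `tls_link`          **the link**.
All integrals are `∫⁻`: no integrability conditions.
-/

set_option autoImplicit false
set_option linter.unusedSectionVars false

namespace Claimed.Agent.R286

open MeasureTheory ProbabilityTheory Finset
open scoped ENNReal NNReal

variable {S ι : Type} [Fintype S] [Fintype ι]

/-! ### tails -/

/-- the drivers after the cut `k` -/
def tlsSh {α : Type} (k : ℕ) (ξ : ℕ → α) : ℕ → α := fun t => ξ (t + k)

theorem tls_sh_zero {α : Type} (ξ : ℕ → α) : tlsSh 0 ξ = ξ := rfl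

theorem tls_sh_cons {α : Type} (k : ℕ) (x : α) (ξ : ℕ → α) : tlsSh (k + 1) (ghCons x ξ) = tlsSh k ξ := rfl

theorem tls_spl_sh {α : Type} (k : ℕ) (ξ : ℕ → α) : spiSpl k ξ (tlsSh k ξ) = ξ := by
  funext t
  simp only [spiSpl, tlsSh]
  split_ifs with h
  · rfl
  · congr 1; omega

theorem tls_sh_spl {α : Type} (k j : ℕ) (ξ η : ℕ → α) : tlsSh k (spiSpl (k + j) ξ η) = spiSpl j (tlsSh k ξ) η := by
  funext t
  simp only [spiSpl, tlsSh]
  by_cases h : t < j
  · have h' : t + k < k + j := by omega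
    simp [h, h']
  · have h' : ¬ t + k < k + j := by omega
    have e : t + k - (k + j) = t - j := by omega
    simp [h, h', e]

theorem tls_sh_meas (k : ℕ) : Measurable (tlsSh (α := ι → ℝ) k) :=
  measurable_pi_lambda _ fun t => measurable_pi_apply (t + k)

/-- the prefix field after `k + j` levels -/
theorem tls_pre_add (ls : List (GhLv S ι)) (k j : ℕ) (ξ : ℕ → ι → ℝ) :
    ghPre ls ξ (k + j) = ghPre ls ξ k + ghPre (ls.drop k) (tlsSh k ξ) j := by
  have h := spi_pre_add ls k j ξ (tlsSh k ξ)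
  rwa [tls_spl_sh] at h

/-- the prefix field at the cut `k` does not see the drivers after a later cut -/
theorem tls_pre_spl (ls : List (GhLv S ι)) (k j : ℕ) (ξ η : ℕ → ι → ℝ) :
    ghPre ls (spiSpl (k + j) ξ η) k = ghPre ls ξ k := by
  have e : spiSpl (k + j) ξ η = spiSpl k ξ (tlsSh k (spiSpl (k + j) ξ η)) := by
    funext t
    simp only [spiSpl, tlsSh]
    by_cases h : t < k
    · have h' : t < k + j := by omega
      simp [h, h']
    · have e1 : t - k + k = t := by omega
      simp [h, e1]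
  rw [e, spi_pre_spl]

variable [MeasurableSpace S] [DiscreteMeasurableSpace S]

/-- (field at the cut `k`, tail after the cut `k`) -/
def tlsTh (ls : List (GhLv S ι)) (z : S → ℝ) (k : ℕ) (ω : SpiOm S ι) : (S → ℝ) × SpiOm S ι :=
  (z + ghPre ls ω.1 k, (tlsSh k ω.1, ω.2))

theorem tls_th_meas (ls : List (GhLv S ι)) (z : S → ℝ) (k : ℕ) : Measurable (tlsTh ls z k) :=
  ((spi_pre_meas ls z k).comp measurable_fst).prodMk (((tls_sh_meas k).comp measurable_fst).prodMk measurable_snd)

theorem tls_th_zero (ls : List (GhLv S ι)) (z : S → ℝ) (ω : SpiOm S ι) : tlsTh ls z 0 ω = (z, ω) := by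
  simp only [tlsTh, spi_pre_zero, add_zero, tls_sh_zero]

theorem tls_th_cons (l : GhLv S ι) (ls : List (GhLv S ι)) (z : S → ℝ) (k : ℕ) (x : ι → ℝ) (ω : SpiOm S ι) :
    tlsTh (l :: ls) z (k + 1) (ghCons x ω.1, ω.2) = tlsTh ls (z + l.inc x) k ω := by
  simp only [tlsTh, spi_pre_cons, tls_sh_cons, add_assoc]

/-! ### the recursion of the kernel, `∫⁻` form -/

theorem tls_lint_cons {B : GhB S} (l : GhLv S ι) {ls : List (GhLv S ι)} (hr : SpiReg B (l :: ls)) (z : S → ℝ)
    {f : SpiOm S ι → ℝ≥0∞} (hf : Measurable f) :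
    ∫⁻ ω, f ω ∂(spiK B (l :: ls) z)
      = ∫⁻ ξ, ENNReal.ofReal (ghD B l ls z ξ) * ∫⁻ ω, f (ghCons ξ ω.1, ω.2) ∂(spiK B ls (z + l.inc ξ)) ∂ghStd ι := by
  have hm : Measurable (Function.uncurry fun (z : S → ℝ) (ξ : ι → ℝ) => ((ghD B l ls z ξ).toNNReal : ℝ≥0∞)) :=
    (spi_d_meas' l hr).coe_nnreal_ennreal
  have hg : Measurable fun p : (ι → ℝ) × SpiOm S ι => f (ghCons p.1 p.2.1, p.2.2) := hf.comp spi_cons_meas
  simp only [spiK]
  rw [Kernel.map_apply _ spi_cons_meas, lintegral_map hf spi_cons_meas, Kernel.lintegral_compProd _ _ _ hg, spiK1,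
    Kernel.lintegral_withDensity _ hm _ (by
      have h2 : Measurable fun q : ((S → ℝ) × (ι → ℝ)) × SpiOm S ι => f (ghCons q.1.2 q.2.1, q.2.2) :=
        hg.comp ((measurable_snd.comp measurable_fst).prodMk measurable_snd)
      exact (h2.lintegral_kernel_prod_right' (κ := (spiK B ls).comap _ (spi_inc_meas l))).comp measurable_prodMk_left),
    Kernel.const_apply]
  rfl

/-- the law of the field at the cut `low.length`, as a functional -/
noncomputable def tlsLam (B : GhB S) : List (GhLv S ι) → List (GhLv S ι) → (S → ℝ) → ((S → ℝ) → ℝ≥0∞) → ℝ≥0∞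
  | [], _, z, G => G z
  | l :: low, hi, z, G => ∫⁻ ξ, ENNReal.ofReal (ghD B l (low ++ hi) z ξ) * tlsLam B low hi (z + l.inc ξ) G ∂ghStd ι

/-- **restart at the cut `low.length`** -/
theorem tls_restart {B : GhB S} (low hi : List (GhLv S ι)) (hr : SpiReg B (low ++ hi)) (z : S → ℝ)
    {F : (S → ℝ) × SpiOm S ι → ℝ≥0∞} (hF : Measurable F) :
    ∫⁻ ω, F (tlsTh (low ++ hi) z low.length ω) ∂(spiK B (low ++ hi) z)
      = tlsLam B low hi z fun z' => ∫⁻ ω, F (z', ω) ∂(spiK B hi z') := by
  induction low generalizing z with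
  | nil => simp only [List.nil_append, List.length_nil, tls_th_zero, tlsLam]
  | cons l low ih =>
    have hr' : SpiReg B (l :: (low ++ hi)) := hr
    simp only [List.cons_append, List.length_cons, tlsLam]
    rw [tls_lint_cons l hr' z (f := fun ω => F (tlsTh (l :: (low ++ hi)) z (low.length + 1) ω)) (hF.comp (tls_th_meas _ z _))]
    refine lintegral_congr fun ξ => ?_
    congr 1
    rw [← ih hr'.2.2 (z + l.inc ξ)]
    refine lintegral_congr fun ω => ?_
    rw [tls_th_cons]

/-! ### neutral levels -/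

theorem tls_inc_zero {l : GhLv S ι} (h0 : ∀ s, l.cov s s = 0) (ξ : ι → ℝ) : l.inc ξ = 0 := by
  have hA : ∀ s i, l.A s i = 0 := by
    intro s i
    have := h0 s
    unfold GhLv.cov at this
    have h2 := (Finset.sum_eq_zero_iff_of_nonneg (fun i _ => mul_self_nonneg (l.A s i))).1 this i (Finset.mem_univ i)
    exact mul_self_eq_zero.1 h2
  funext s; simp [GhLv.inc, hA]

theorem tls_D_mass0 (B : GhB S) {l : GhLv S ι} (h : l.m = 0) (ls : List (GhLv S ι)) (z : S → ℝ) (ξ : ι → ℝ) : ghD B l ls z ξ = 1 := by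
  simp [ghD, h]

theorem tls_D_empty (B : GhB S) {l : GhLv S ι} (h0 : ∀ s, l.cov s s = 0) (ls : List (GhLv S ι)) (z : S → ℝ) (ξ : ι → ℝ) :
    ghD B l ls z ξ = 1 := by
  simp [ghD, tls_inc_zero h0, ghs_F_empty B l ls h0]

/-- change of the level in a Gaussian `∫⁻` -/
theorem tls_lint_congr (l l' : GhLv S ι) (h : ∀ s t, l.cov s t = l'.cov s t) {G : (S → ℝ) → ℝ≥0∞} (hG : Measurable G) :
    ∫⁻ ξ, G (l.inc ξ) ∂ghStd ι = ∫⁻ ξ, G (l'.inc ξ) ∂ghStd ι := by
  rw [← lintegral_map hG (ghs_measurable_inc l), ghs_law_congr l l' h, lintegral_map hG (ghs_measurable_inc l')]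

/-- Gaussian semigroup, `∫⁻` form -/
theorem tls_lint_merge (l₁ l₂ l : GhLv S ι) (h : ∀ s t, l.cov s t = l₁.cov s t + l₂.cov s t) {G : (S → ℝ) → ℝ≥0∞} (hG : Measurable G) :
    ∫⁻ ξ, ∫⁻ ξ', G (l₁.inc ξ + l₂.inc ξ') ∂ghStd ι ∂ghStd ι = ∫⁻ ξ, G (l.inc ξ) ∂ghStd ι := by
  have hm : Measurable fun p : (ι → ℝ) × (ι → ℝ) => l₁.inc p.1 + l₂.inc p.2 :=
    ((ghs_measurable_inc l₁).comp measurable_fst).add ((ghs_measurable_inc l₂).comp measurable_snd)
  rw [← lintegral_map hG (ghs_measurable_inc l), ← ghs_law_add l₁ l₂ l h, lintegral_map hG hm,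
    lintegral_prod (fun p : (ι → ℝ) × (ι → ℝ) => G (l₁.inc p.1 + l₂.inc p.2)) (hG.comp hm).aemeasurable]

/-- **neutral prefix**: the field at the cut is Gaussian, covariance = the sum -/
theorem tls_lam_neutral {α : Type} (B : GhB S) (hi : List (GhLv S ι)) (l1 : GhLv S ι) (g : α → GhLv S ι) (b : α → ℝ) (es : List α)
    (h : ∀ e ∈ es, 0 ≤ b e ∧ ((g e).m = 0 ∨ b e = 0) ∧ ∀ s t, (g e).cov s t = b e * l1.cov s t) (z : S → ℝ)
    {G : (S → ℝ) → ℝ≥0∞} (hG : Measurable G) :
    tlsLam B (es.map g) hi z G = ∫⁻ ξ, G (z + (ghsScale (Real.sqrt (es.map b).sum) l1).inc ξ) ∂ghStd ι := by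
  induction es generalizing z with
  | nil =>
    simp only [List.map_nil, tlsLam, List.sum_nil, Real.sqrt_zero, ghs_scale_inc, zero_smul, add_zero, lintegral_const,
      measure_univ, mul_one]
  | cons e es ih =>
    obtain ⟨hb, hn, hc⟩ := h e List.mem_cons_self
    have h' : ∀ e' ∈ es, 0 ≤ b e' ∧ ((g e').m = 0 ∨ b e' = 0) ∧ ∀ s t, (g e').cov s t = b e' * l1.cov s t :=
      fun e' he' => h e' (List.mem_cons_of_mem _ he')
    have hβ : 0 ≤ (es.map b).sum := List.sum_nonneg fun x hx => by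
      obtain ⟨e', he', rfl⟩ := List.mem_map.1 hx
      exact (h' e' he').1
    have hD : ∀ ξ, ghD B (g e) (es.map g ++ hi) z ξ = 1 := by
      intro ξ
      rcases hn with h0 | h0
      · exact tls_D_mass0 B h0 _ z ξ
      · exact tls_D_empty B (fun s => by rw [hc, h0, zero_mul]) _ z ξ
    simp only [List.map_cons, tlsLam, List.sum_cons, hD, ENNReal.ofReal_one, one_mul]
    have e1 : ∀ ξ, tlsLam B (es.map g) hi (z + (g e).inc ξ) G
        = ∫⁻ ξ', (fun x => G (z + x)) ((g e).inc ξ + (ghsScale (Real.sqrt (es.map b).sum) l1).inc ξ') ∂ghStd ι := by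
      intro ξ
      rw [ih h' (z + (g e).inc ξ)]
      simp only [add_assoc]
    simp only [e1]
    exact tls_lint_merge (g e) (ghsScale (Real.sqrt (es.map b).sum) l1) (ghsScale (Real.sqrt (b e + (es.map b).sum)) l1)
      (fun s t => by rw [ghs_scale_cov, ghs_scale_cov, Real.sq_sqrt hβ, Real.sq_sqrt (add_nonneg hb hβ), hc]; ring)
      (hG.comp (measurable_const.add measurable_id))

/-- leading empty levels -/
theorem tls_lam_emp (B : GhB S) (emp rest hi : List (GhLv S ι)) (he : ∀ l ∈ emp, ∀ s, l.cov s s = 0) (z : S → ℝ) (G : (S → ℝ) → ℝ≥0∞) :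
    tlsLam B (emp ++ rest) hi z G = tlsLam B rest hi z G := by
  induction emp with
  | nil => rfl
  | cons l emp ih =>
    have h0 := he l List.mem_cons_self
    simp only [List.cons_append, tlsLam, tls_D_empty B h0, tls_inc_zero h0, add_zero, ENNReal.ofReal_one, one_mul, lintegral_const,
      measure_univ, mul_one]
    exact ih fun l' hl' => he l' (List.mem_cons_of_mem _ hl')

/-- **tilted prefix**: empty levels, then one level -/
theorem tls_lam_tilt (B : GhB S) (emp hi : List (GhLv S ι)) (lT : GhLv S ι) (he : ∀ l ∈ emp, ∀ s, l.cov s s = 0) (z : S → ℝ)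
    (G : (S → ℝ) → ℝ≥0∞) :
    tlsLam B (emp ++ [lT]) hi z G = ∫⁻ ξ, ENNReal.ofReal (ghD B lT hi z ξ) * G (z + lT.inc ξ) ∂ghStd ι := by
  rw [tls_lam_emp B emp [lT] hi he]
  simp only [tlsLam, List.nil_append]

/-- the density of the tilted field at the cut, as a function of the field -/
noncomputable def tlsRho (B : GhB S) (lT : GhLv S ι) (hi : List (GhLv S ι)) (z z' : S → ℝ) : ℝ :=
  Real.exp (lT.m * (ghF B hi z' - ghF B (lT :: hi) z))

theorem tls_rho_meas {B : GhB S} (hB : B.Ok) (lT : GhLv S ι) (hi : List (GhLv S ι)) (z : S → ℝ) : Measurable (tlsRho B lT hi z) := by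
  unfold tlsRho
  exact Real.measurable_exp.comp (((ghs_F_measurable hB hi).sub measurable_const).const_mul _)

theorem tls_rho_D (B : GhB S) (lT : GhLv S ι) (hi : List (GhLv S ι)) (z : S → ℝ) (ξ : ι → ℝ) :
    tlsRho B lT hi z (z + lT.inc ξ) = ghD B lT hi z ξ := rfl

/-- **the two field laws**: tilted = density × untilted -/
theorem tls_lam_link {α : Type} {B : GhB S} (hB : B.Ok) (emp hi : List (GhLv S ι)) (lT l1 : GhLv S ι) (g : α → GhLv S ι) (b : α → ℝ) (es : List α)
    (he : ∀ l ∈ emp, ∀ s, l.cov s s = 0)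
    (h : ∀ e ∈ es, 0 ≤ b e ∧ ((g e).m = 0 ∨ b e = 0) ∧ ∀ s t, (g e).cov s t = b e * l1.cov s t)
    (hT : ∀ s t, lT.cov s t = (es.map b).sum * l1.cov s t) (z : S → ℝ) {G : (S → ℝ) → ℝ≥0∞} (hG : Measurable G) :
    tlsLam B (emp ++ [lT]) hi z G = tlsLam B (es.map g) hi z fun z' => ENNReal.ofReal (tlsRho B lT hi z z') * G z' := by
  have hβ : 0 ≤ (es.map b).sum := List.sum_nonneg fun x hx => by
    obtain ⟨e', he', rfl⟩ := List.mem_map.1 hx
    exact (h e' he').1
  have hG' : Measurable fun z' => ENNReal.ofReal (tlsRho B lT hi z z') * G z' := (tls_rho_meas hB lT hi z).ennreal_ofReal.mul hG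
  rw [tls_lam_tilt B emp hi lT he, tls_lam_neutral B hi l1 g b es h z hG']
  simp only [← tls_rho_D]
  exact tls_lint_congr lT (ghsScale (Real.sqrt (es.map b).sum) l1) (fun s t => by rw [ghs_scale_cov, Real.sq_sqrt hβ, hT])
    (G := fun x => ENNReal.ofReal (tlsRho B lT hi z (z + x)) * G (z + x)) (hG'.comp (measurable_const.add measurable_id))

/-! ### the link in the coordinates `tlsTh` -/

section link

variable {B : GhB S} (hB : B.Ok) (lowT lowU hi : List (GhLv S ι)) (hlen : lowT.length = lowU.length)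
  (hrT : SpiReg B (lowT ++ hi)) (hrU : SpiReg B (lowU ++ hi)) (z : S → ℝ) (ρ : (S → ℝ) → ℝ) (hρ : Measurable ρ)
  (hLam : ∀ G : (S → ℝ) → ℝ≥0∞, Measurable G → tlsLam B lowT hi z G = tlsLam B lowU hi z fun z' => ENNReal.ofReal (ρ z') * G z')

include hlen hrT hrU hρ hLam in
/-- single path -/
theorem tls_single {F : (S → ℝ) × SpiOm S ι → ℝ≥0∞} (hF : Measurable F) :
    ∫⁻ ω, F (tlsTh (lowT ++ hi) z lowU.length ω) ∂(spiK B (lowT ++ hi) z)
      = ∫⁻ ω, ENNReal.ofReal (ρ (tlsTh (lowU ++ hi) z lowU.length ω).1) * F (tlsTh (lowU ++ hi) z lowU.length ω) ∂(spiK B (lowU ++ hi) z) := by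
  have hG : Measurable fun z' => ∫⁻ ω, F (z', ω) ∂(spiK B hi z') := hF.lintegral_kernel_prod_right'
  have hF' : Measurable fun p : (S → ℝ) × SpiOm S ι => ENNReal.ofReal (ρ p.1) * F p :=
    (hρ.comp measurable_fst).ennreal_ofReal.mul hF
  rw [← hlen, tls_restart lowT hi hrT z hF, hLam _ hG, hlen, tls_restart lowU hi hrU z hF']
  congr 1
  funext z'
  exact (lintegral_const_mul (ENNReal.ofReal (ρ z')) (f := fun ω => F (z', ω)) (hF.comp measurable_prodMk_left)).symm

end link

/-- the conditional law at a later cut, in the coordinates `tlsTh` -/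
noncomputable def tlsPhi (B : GhB S) (hi : List (GhLv S ι)) (j : ℕ) (F : ((S → ℝ) × SpiOm S ι) × ((S → ℝ) × SpiOm S ι) → ℝ≥0∞)
    (p : (S → ℝ) × SpiOm S ι) : ℝ≥0∞ :=
  if j ≤ hi.length then ∫⁻ ω, F (p, (p.1, (spiSpl j p.2.1 ω.1, ω.2))) ∂(spiK B (hi.drop j) (p.1 + ghPre hi p.2.1 j))
  else F (p, p)

theorem tls_phi_meas (B : GhB S) (hi : List (GhLv S ι)) (j : ℕ) {F : ((S → ℝ) × SpiOm S ι) × ((S → ℝ) × SpiOm S ι) → ℝ≥0∞}
    (hF : Measurable F) : Measurable (tlsPhi B hi j F) := by
  unfold tlsPhi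
  by_cases hj : j ≤ hi.length
  · simp only [hj, if_true]
    have hz : Measurable fun p : (S → ℝ) × SpiOm S ι => p.1 + ghPre hi p.2.1 j :=
      measurable_fst.add ((spi_sum_meas _).comp (measurable_fst.comp measurable_snd))
    have h1 : Measurable fun q : ((S → ℝ) × SpiOm S ι) × SpiOm S ι => F (q.1, (q.1.1, (spiSpl j q.1.2.1 q.2.1, q.2.2))) := by
      refine hF.comp (measurable_fst.prodMk ((measurable_fst.comp measurable_fst).prodMk (Measurable.prodMk ?_ (measurable_snd.comp measurable_snd))))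
      exact (spi_spl_meas j).comp ((measurable_fst.comp (measurable_snd.comp measurable_fst)).prodMk (measurable_fst.comp measurable_snd))
    exact h1.lintegral_kernel_prod_right' (κ := (spiK B (hi.drop j)).comap _ hz)
  · simp only [hj, if_false]
    exact hF.comp (measurable_id.prodMk measurable_id)

theorem tls_inner (B : GhB S) (low hi : List (GhLv S ι)) (z : S → ℝ) (j : ℕ)
    {F : ((S → ℝ) × SpiOm S ι) × ((S → ℝ) × SpiOm S ι) → ℝ≥0∞} (hF : Measurable F) (ω₁ : SpiOm S ι) :
    ∫⁻ ω₂, F (tlsTh (low ++ hi) z low.length ω₁, tlsTh (low ++ hi) z low.length ω₂) ∂(spiKap B (low ++ hi) z (low.length + j) ω₁)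
      = tlsPhi B hi j F (tlsTh (low ++ hi) z low.length ω₁) := by
  have hm : Measurable fun ω₂ => F (tlsTh (low ++ hi) z low.length ω₁, tlsTh (low ++ hi) z low.length ω₂) :=
    hF.comp (measurable_const.prodMk (tls_th_meas _ z _))
  unfold tlsPhi
  by_cases hj : j ≤ hi.length
  · have hk : low.length + j ≤ (low ++ hi).length := by simp only [List.length_append]; omega
    have hd : (low ++ hi).drop (low.length + j) = hi.drop j := by
      rw [← List.drop_drop, List.drop_left]
    have hd0 : (low ++ hi).drop low.length = hi := List.drop_left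
    simp only [hj, if_true]
    rw [spi_kap_le B z hk, spi_kd_apply, lintegral_map hm (spi_glue_meas' _ _), hd, tls_pre_add, hd0, ← add_assoc]
    refine lintegral_congr fun ω => ?_
    simp only [tlsTh, tls_pre_spl, tls_sh_spl]
  · have hk : (low ++ hi).length < low.length + j := by simp only [List.length_append]; omega
    simp only [hj, if_false]
    rw [spi_kap_gt B z hk, lintegral_dirac' _ hm]

section link2

variable {B : GhB S} (hB : B.Ok) (lowT lowU hi : List (GhLv S ι)) (hlen : lowT.length = lowU.length)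
  (hrT : SpiReg B (lowT ++ hi)) (hrU : SpiReg B (lowU ++ hi)) (z : S → ℝ) (ρ : (S → ℝ) → ℝ) (hρ : Measurable ρ)
  (hLam : ∀ G : (S → ℝ) → ℝ≥0∞, Measurable G → tlsLam B lowT hi z G = tlsLam B lowU hi z fun z' => ENNReal.ofReal (ρ z') * G z')

include hB hlen hrT hrU hρ hLam in
/-- forks -/
theorem tls_fork (j : ℕ) {F : ((S → ℝ) × SpiOm S ι) × ((S → ℝ) × SpiOm S ι) → ℝ≥0∞} (hF : Measurable F) :
    ∫⁻ ω, F (tlsTh (lowT ++ hi) z lowU.length ω.1, tlsTh (lowT ++ hi) z lowU.length ω.2)
        ∂((spiK B (lowT ++ hi) z) ⊗ₘ (spiKap B (lowT ++ hi) z (lowU.length + j)))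
      = ∫⁻ ω, ENNReal.ofReal (ρ (tlsTh (lowU ++ hi) z lowU.length ω.1).1) *
          F (tlsTh (lowU ++ hi) z lowU.length ω.1, tlsTh (lowU ++ hi) z lowU.length ω.2)
        ∂((spiK B (lowU ++ hi) z) ⊗ₘ (spiKap B (lowU ++ hi) z (lowU.length + j))) := by
  have := spi_k_markov hB hrT
  have := spi_k_markov hB hrU
  have := spi_kap_markov hB hrT z (lowU.length + j)
  have := spi_kap_markov hB hrU z (lowU.length + j)
  have mT : Measurable fun ω : SpiOm S ι × SpiOm S ι => F (tlsTh (lowT ++ hi) z lowU.length ω.1, tlsTh (lowT ++ hi) z lowU.length ω.2) :=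
    hF.comp (((tls_th_meas _ z _).comp measurable_fst).prodMk ((tls_th_meas _ z _).comp measurable_snd))
  have mU : Measurable fun ω : SpiOm S ι × SpiOm S ι => F (tlsTh (lowU ++ hi) z lowU.length ω.1, tlsTh (lowU ++ hi) z lowU.length ω.2) :=
    hF.comp (((tls_th_meas _ z _).comp measurable_fst).prodMk ((tls_th_meas _ z _).comp measurable_snd))
  have mR : Measurable fun ω : SpiOm S ι × SpiOm S ι => ENNReal.ofReal (ρ (tlsTh (lowU ++ hi) z lowU.length ω.1).1) :=
    (hρ.comp (measurable_fst.comp ((tls_th_meas _ z _).comp measurable_fst))).ennreal_ofReal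
  have mRU : Measurable fun ω : SpiOm S ι × SpiOm S ι => ENNReal.ofReal (ρ (tlsTh (lowU ++ hi) z lowU.length ω.1).1) *
      F (tlsTh (lowU ++ hi) z lowU.length ω.1, tlsTh (lowU ++ hi) z lowU.length ω.2) := mR.mul mU
  rw [Measure.lintegral_compProd mT, Measure.lintegral_compProd mRU]
  have e1 : ∀ ω₁, ∫⁻ ω₂, F (tlsTh (lowT ++ hi) z lowU.length ω₁, tlsTh (lowT ++ hi) z lowU.length ω₂)
      ∂(spiKap B (lowT ++ hi) z (lowU.length + j) ω₁) = tlsPhi B hi j F (tlsTh (lowT ++ hi) z lowU.length ω₁) := by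
    intro ω₁
    rw [← hlen]
    exact tls_inner B lowT hi z j hF ω₁
  have e2 : ∀ ω₁, ∫⁻ ω₂, ENNReal.ofReal (ρ (tlsTh (lowU ++ hi) z lowU.length ω₁).1) *
      F (tlsTh (lowU ++ hi) z lowU.length ω₁, tlsTh (lowU ++ hi) z lowU.length ω₂)
      ∂(spiKap B (lowU ++ hi) z (lowU.length + j) ω₁)
      = ENNReal.ofReal (ρ (tlsTh (lowU ++ hi) z lowU.length ω₁).1) * tlsPhi B hi j F (tlsTh (lowU ++ hi) z lowU.length ω₁) := by
    intro ω₁
    rw [← tls_inner B lowU hi z j hF ω₁]
    exact lintegral_const_mul _ (f := fun ω₂ => F (tlsTh (lowU ++ hi) z lowU.length ω₁, tlsTh (lowU ++ hi) z lowU.length ω₂))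
      (hF.comp (measurable_const.prodMk (tls_th_meas _ z _)))
  simp only [e1, e2]
  exact tls_single lowT lowU hi hlen hrT hrU z ρ hρ hLam (tls_phi_meas B hi j hF)

end link2

/-! ### the dictionary: the active observables are ONE function of `tlsTh` -/

/-- the active observables as a function of (field at the cut, tail) -/
noncomputable def tlsG (B : GhB S) (hi : List (GhLv S ι)) {m : ℕ} (Y : Fin m → S → ℝ) (p : (S → ℝ) × SpiOm S ι) : TlkO m :=
  (fun i => Y i p.2.2,
   fun j i => if j ≤ hi.length then ghE B (hi.drop j) (Y i) (p.1 + ghPre hi p.2.1 j) else Y i p.2.2,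
   fun j i i' => if j ≤ hi.length then ghC B (hi.drop j) (Y i) (Y i') (p.1 + ghPre hi p.2.1 j) else 0,
   fun j i i' => if j ≤ hi.length then ghH B (hi.drop j) (Y i) (Y i') (p.1 + ghPre hi p.2.1 j) else 0)

theorem tls_nn_drop {ls : List (GhLv S ι)} (h : GhNn ls) (j : ℕ) : GhNn (ls.drop j) := fun l hl => h l (List.mem_of_mem_drop hl)

theorem tls_G_meas {B : GhB S} (hB : B.Ok) {hi : List (GhLv S ι)} (hn : GhNn hi) {m : ℕ} (Y : Fin m → S → ℝ) : Measurable (tlsG B hi Y) := by
  have hz : ∀ j, Measurable fun p : (S → ℝ) × SpiOm S ι => p.1 + ghPre hi p.2.1 j := fun j =>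
    measurable_fst.add ((spi_sum_meas _).comp (measurable_fst.comp measurable_snd))
  have hy : ∀ i, Measurable fun p : (S → ℝ) × SpiOm S ι => Y i p.2.2 := fun i =>
    (Measurable.of_discrete (f := Y i)).comp (measurable_snd.comp measurable_snd)
  have hE : ∀ j (Φ : S → ℝ), Measurable fun p : (S → ℝ) × SpiOm S ι => ghE B (hi.drop j) Φ (p.1 + ghPre hi p.2.1 j) := fun j Φ =>
    (gh_b_E_continuous hB Φ (tls_nn_drop hn j)).measurable.comp (hz j)
  unfold tlsG
  refine Measurable.prodMk (measurable_pi_lambda _ hy) (Measurable.prodMk ?_ (Measurable.prodMk ?_ ?_))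
  · refine measurable_pi_lambda _ fun j => measurable_pi_lambda _ fun i => ?_
    by_cases hj : j ≤ hi.length
    · simp only [hj, if_true]; exact hE j _
    · simp only [hj, if_false]; exact hy i
  · refine measurable_pi_lambda _ fun j => measurable_pi_lambda _ fun i => measurable_pi_lambda _ fun i' => ?_
    by_cases hj : j ≤ hi.length
    · simp only [hj, if_true, ghC]; exact (hE j _).sub ((hE j _).mul (hE j _))
    · simp only [hj, if_false]; exact measurable_const
  · refine measurable_pi_lambda _ fun j => measurable_pi_lambda _ fun i => measurable_pi_lambda _ fun i' => ?_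
    by_cases hj : j ≤ hi.length
    · simp only [hj, if_true]; exact (gh_b_H_continuous hB _ _ (tls_nn_drop hn j)).measurable.comp (hz j)
    · simp only [hj, if_false]; exact measurable_const

theorem tls_obs {B : GhB S} (hB : B.Ok) (low hi : List (GhLv S ι)) (hr : SpiReg B (low ++ hi)) (z : S → ℝ) {m : ℕ} (Y : Fin m → S → ℝ)
    (dh : ℕ → ℝ) (ω : SpiOm S ι) :
    tlkObs (spiP B (low ++ hi) z Y dh) low.length ω = tlsG B hi Y (tlsTh (low ++ hi) z low.length ω) := by
  have hd0 : (low ++ hi).drop low.length = hi := List.drop_left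
  have hd : ∀ j, (low ++ hi).drop (low.length + j) = hi.drop j := fun j => by rw [← List.drop_drop, List.drop_left]
  have hZ : ∀ j, spiZ (low ++ hi) z (low.length + j) ω = z + ghPre (low ++ hi) ω.1 low.length + ghPre hi (tlsSh low.length ω.1) j := by
    intro j
    rw [spiZ, tls_pre_add, hd0, add_assoc]
  have hle : ∀ j, j ≤ hi.length → low.length + j ≤ (low ++ hi).length := fun j hj => by simp only [List.length_append]; omega
  have hgt : ∀ j, ¬ j ≤ hi.length → (low ++ hi).length < low.length + j := fun j hj => by simp only [List.length_append]; omega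
  unfold tlkObs tlsG tlsTh
  refine Prod.ext rfl (Prod.ext ?_ (Prod.ext ?_ ?_))
  · funext j i
    by_cases hj : j ≤ hi.length
    · simp only [hj, if_true]
      rw [spi_X_le hB hr z Y dh (hle j hj), hd, hZ]
    · simp only [hj, if_false]
      rw [spi_X_gt z Y dh (hgt j hj)]
  · funext j i i'
    by_cases hj : j ≤ hi.length
    · simp only [hj, if_true]
      rw [spi_C hB hr z Y dh (hle j hj), hd, hZ]
    · simp only [hj, if_false]
      unfold L8P.C
      rw [spi_X_gt z Y dh (hgt j hj), spi_X_gt z Y dh (hgt j hj),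
        spi_E_gt z Y dh (hgt j hj) ω (fun ω' => (spiP B (low ++ hi) z Y dh).y i ω' * (spiP B (low ++ hi) z Y dh).y i' ω')
          ((spi_y_meas Y i).mul (spi_y_meas Y i'))]
      exact sub_self _
  · funext j i i'
    by_cases hj : j ≤ hi.length
    · simp only [hj, if_true]
      rw [spi_H hB hr z Y dh (hle j hj), hd, hZ]
    · simp only [hj, if_false]
      unfold L8P.H
      have he : Finset.Ico (low.length + j) ((spiP B (low ++ hi) z Y dh).n + 1) = ∅ := by
        rw [Finset.Ico_eq_empty_iff]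
        have := hgt j hj
        show ¬ low.length + j < (low ++ hi).length + 1
        omega
      simp only [he, Finset.sum_empty]
      simp [L8P.E]

/-- **THE LINK for planted chains**, from the relation of the two field laws at the cut -/
theorem tls_link {B : GhB S} (hB : B.Ok) (lowT lowU hi : List (GhLv S ι)) (hlen : lowT.length = lowU.length)
    (hnT : GhNn (lowT ++ hi)) (hnU : GhNn (lowU ++ hi)) (z : S → ℝ) (ρ : (S → ℝ) → ℝ) (hρ : Measurable ρ) (hρ0 : ∀ z', 0 ≤ ρ z')
    (hLam : ∀ G : (S → ℝ) → ℝ≥0∞, Measurable G → tlsLam B lowT hi z G = tlsLam B lowU hi z fun z' => ENNReal.ofReal (ρ z') * G z')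
    {m : ℕ} (Y : Fin m → S → ℝ) (dhT dhU : ℕ → ℝ) :
    TlkLink (spiP B (lowT ++ hi) z Y dhT) (spiP B (lowU ++ hi) z Y dhU) lowU.length fun ω => ρ (spiZ (lowU ++ hi) z lowU.length ω) := by
  have hrT := spi_reg_of_nn hB hnT
  have hrU := spi_reg_of_nn hB hnU
  have hnh : GhNn hi := fun l hl => hnU l (List.mem_append_right _ hl)
  have hGm := tls_G_meas hB hnh Y
  have oT : tlkObs (spiP B (lowT ++ hi) z Y dhT) lowU.length = fun ω => tlsG B hi Y (tlsTh (lowT ++ hi) z lowU.length ω) := by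
    funext ω; rw [← hlen]; exact tls_obs hB lowT hi hrT z Y dhT ω
  have oU : tlkObs (spiP B (lowU ++ hi) z Y dhU) lowU.length = fun ω => tlsG B hi Y (tlsTh (lowU ++ hi) z lowU.length ω) := by
    funext ω; exact tls_obs hB lowU hi hrU z Y dhU ω
  have mT : Measurable (tlkObs (spiP B (lowT ++ hi) z Y dhT) lowU.length) := by rw [oT]; exact hGm.comp (tls_th_meas _ z _)
  have mU : Measurable (tlkObs (spiP B (lowU ++ hi) z Y dhU) lowU.length) := by rw [oU]; exact hGm.comp (tls_th_meas _ z _)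
  have mR : Measurable fun ω : SpiOm S ι => ρ (spiZ (lowU ++ hi) z lowU.length ω) :=
    hρ.comp ((spi_pre_meas _ z _).comp measurable_fst)
  refine ⟨mR, fun ω => hρ0 _, mT, mU, ?_, ?_⟩
  · refine Measure.ext_of_lintegral _ fun f hf => ?_
    have e := lintegral_withDensity_eq_lintegral_mul (spiP B (lowU ++ hi) z Y dhU).μ mR.ennreal_ofReal (hf.comp mU)
    simp only [Function.comp, Pi.mul_apply] at e
    rw [lintegral_map hf mT, lintegral_map hf mU, e, oT, oU]
    exact tls_single lowT lowU hi hlen hrT hrU z ρ hρ hLam (hf.comp hGm)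
  · intro k hk
    obtain ⟨j, rfl⟩ := Nat.exists_eq_add_of_le hk
    refine Measure.ext_of_lintegral _ fun f hf => ?_
    have mR2 : Measurable fun ω : SpiOm S ι × SpiOm S ι => ENNReal.ofReal (ρ (spiZ (lowU ++ hi) z lowU.length ω.1)) :=
      (mR.comp measurable_fst).ennreal_ofReal
    have e := lintegral_withDensity_eq_lintegral_mul ((spiP B (lowU ++ hi) z Y dhU).fork (lowU.length + j)) mR2 (hf.comp (mU.prodMap mU))
    simp only [Function.comp, Pi.mul_apply] at e
    rw [lintegral_map hf (mT.prodMap mT), lintegral_map hf (mU.prodMap mU), e, oT, oU]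
    exact tls_fork hB lowT lowU hi hlen hrT hrU z ρ hρ hLam j (F := fun q => f (tlsG B hi Y q.1, tlsG B hi Y q.2))
      (hf.comp ((hGm.comp measurable_fst).prodMk (hGm.comp measurable_snd)))

end Claimed.Agent.R286
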