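import Claimed.Agent.R286.L08.Glue
import Claimed.Agent.R286.L08.TlSpi
import Claimed.Agent.R286.Exit.LL02A4
import Claimed.Agent.R286.LL04.Contract

/-!
# Row 286 (S0533), folder L08, file TlSk : THE TILT LINK AT THE INSTANCES OF LL 08      (owner helper189; prefix `tlq_`, exits `tlk_I_*`)

TEX[LL:par:statistics-tilt-transfer] (LL 08 l.889-915).
* abstract: `tlq_field_map` the law of the field at the cut of a NEUTRAL prefix is the law of ONE Gaussian increment; `tlq_mom`, `tlq_mom_int` moments of the density;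
* SK, fine path `P`, tilt stage `js`, hypotheses `LlTiltA4` (77): `tlq_sk_link`, `tlq_sk_mom`, `tlq_sk_KK`;
* instance `I : L8In`: `tlk_I_a4`, **`tlk_I_link`**, **`tlk_I_mom`**, **`tlk_I_tr0`** (= `tlk_I_tr` of L08/TlTil).
-/

set_option autoImplicit false
set_option linter.unusedSectionVars false

namespace Claimed.Agent.R286

open MeasureTheory ProbabilityTheory Finset
open scoped ENNReal NNReal

section abs

variable {S ι : Type} [Fintype S] [Fintype ι] [MeasurableSpace S] [DiscreteMeasurableSpace S]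

/-- the law of the field at the cut `low.length` is the functional `tlsLam` -/
theorem tlq_field_lint {B : GhB S} (hB : B.Ok) (low hi : List (GhLv S ι)) (hr : SpiReg B (low ++ hi)) (z : S → ℝ)
    {G : (S → ℝ) → ℝ≥0∞} (hG : Measurable G) :
    ∫⁻ ω, G (spiZ (low ++ hi) z low.length ω) ∂(spiK B (low ++ hi) z) = tlsLam B low hi z G := by
  have hrh : SpiReg B hi := by
    have := spi_reg_drop low.length hr
    rwa [List.drop_left] at this
  have := spi_k_markov hB hrh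
  have h := tls_restart low hi hr z (F := fun p => G p.1) (hG.comp measurable_fst)
  simp only [lintegral_const, measure_univ, mul_one] at h
  exact h

/-- **neutral prefix**: the field at the cut has the law of ONE Gaussian increment `lT.inc` -/
theorem tlq_field_map {α : Type} {B : GhB S} (hB : B.Ok) (hi : List (GhLv S ι)) (lT l1 : GhLv S ι) (g : α → GhLv S ι) (b : α → ℝ) (es : List α)
    (hr : SpiReg B (es.map g ++ hi))
    (h : ∀ e ∈ es, 0 ≤ b e ∧ ((g e).m = 0 ∨ b e = 0) ∧ ∀ s t, (g e).cov s t = b e * l1.cov s t)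
    (hT : ∀ s t, lT.cov s t = (es.map b).sum * l1.cov s t) (z : S → ℝ) :
    (spiK B (es.map g ++ hi) z).map (spiZ (es.map g ++ hi) z (es.map g).length) = (ghStd ι).map fun ξ => z + lT.inc ξ := by
  have hβ : 0 ≤ (es.map b).sum := List.sum_nonneg fun x hx => by
    obtain ⟨e', he', rfl⟩ := List.mem_map.1 hx
    exact (h e' he').1
  have m1 : Measurable (spiZ (es.map g ++ hi) z (es.map g).length) := (spi_pre_meas _ z _).comp measurable_fst
  have m2 : Measurable fun ξ : ι → ℝ => z + lT.inc ξ := measurable_const.add (ghs_measurable_inc lT)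
  refine Measure.ext_of_lintegral _ fun G hG => ?_
  rw [lintegral_map hG m1, lintegral_map hG m2, tlq_field_lint hB _ hi hr z hG, tls_lam_neutral B hi l1 g b es h z hG]
  exact (tls_lint_congr lT (ghsScale (Real.sqrt (es.map b).sum) l1) (fun s t => by rw [ghs_scale_cov, Real.sq_sqrt hβ, hT])
    (G := fun x => G (z + x)) (hG.comp (measurable_const.add measurable_id))).symm

/-- moments of a function of the field at the cut -/
theorem tlq_field_int {α : Type} {B : GhB S} (hB : B.Ok) (hi : List (GhLv S ι)) (lT l1 : GhLv S ι) (g : α → GhLv S ι) (b : α → ℝ) (es : List α)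
    (hr : SpiReg B (es.map g ++ hi))
    (h : ∀ e ∈ es, 0 ≤ b e ∧ ((g e).m = 0 ∨ b e = 0) ∧ ∀ s t, (g e).cov s t = b e * l1.cov s t)
    (hT : ∀ s t, lT.cov s t = (es.map b).sum * l1.cov s t) (z : S → ℝ) {f : (S → ℝ) → ℝ} (hf : Measurable f) :
    (∫ ω, f (spiZ (es.map g ++ hi) z (es.map g).length ω) ∂(spiK B (es.map g ++ hi) z) = ∫ ξ, f (z + lT.inc ξ) ∂ghStd ι) ∧
    (Integrable (fun ξ => f (z + lT.inc ξ)) (ghStd ι) →
      Integrable (fun ω => f (spiZ (es.map g ++ hi) z (es.map g).length ω)) (spiK B (es.map g ++ hi) z)) := by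
  have m1 : Measurable (spiZ (es.map g ++ hi) z (es.map g).length) := (spi_pre_meas _ z _).comp measurable_fst
  have m2 : Measurable fun ξ : ι → ℝ => z + lT.inc ξ := measurable_const.add (ghs_measurable_inc lT)
  have e := tlq_field_map hB hi lT l1 g b es hr h hT z
  constructor
  · rw [← integral_map m1.aemeasurable hf.aestronglyMeasurable, e, integral_map m2.aemeasurable hf.aestronglyMeasurable]
  · intro hI
    have h1 : Integrable f ((ghStd ι).map fun ξ => z + lT.inc ξ) := (integrable_map_measure hf.aestronglyMeasurable m2.aemeasurable).2 hI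
    rw [← e] at h1
    exact (integrable_map_measure hf.aestronglyMeasurable m1.aemeasurable).1 h1

end abs

/-! ### SK: fine path `P`, tilt stage `js` -/

section sk

/-- the level of the tilted revelation -/
noncomputable def tlqLT (n : ℕ) (a : ℝ) (P : LlStp) (js : ℕ) : GhLv (SkCfg n) (SkDr n) := ⟨llMs a P js, ll2A0 n (skCumB (llMat P) (js + 1))⟩

/-- the levels above the tilt stage -/
noncomputable def tlqHi (n : ℕ) (P : LlStp) (js : ℕ) : List (GhLv (SkCfg n) (SkDr n)) := skLvs n ((llMat P).drop (js + 1))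

/-- **the density of the tilted ensemble**, a function of the field at the cut `js + 1` of the UNTILTED single path -/
noncomputable def tlqR (n : ℕ) (a : ℝ) (P : LlStp) (js : ℕ) (ω : SkOm n) : ℝ :=
  tlsRho (skBase n a) (tlqLT n a P js) (tlqHi n P js) 0 (spiZ (skLvs n (llMat P)) 0 (js + 1) ω)

/-- the unit matrix level -/
noncomputable def tlqL1 (n : ℕ) : GhLv (SkCfg n) (SkDr n) := (⟨0, 1, 0⟩ : SkInc).lv n

theorem tlq_eqns_cite : True := by
  have := @tlqLT.eq_1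
  have := @tlqHi.eq_1
  have := @tlqR.eq_1
  have := @tlqL1.eq_1
  trivial

theorem tlq_sk_neutral {n : ℕ} (hn : 0 < n) {lo : SkStp} (h : Ll2Flat lo) :
    ∀ e ∈ lo, 0 ≤ e.db ∧ ((e.lv n).m = 0 ∨ e.db = 0) ∧ ∀ σ τ, (e.lv n).cov σ τ = e.db * (tlqL1 n).cov σ τ := by
  intro e he
  obtain ⟨h1, h2, h3⟩ := h e he
  refine ⟨h2, h3.symm, fun σ τ => ?_⟩
  unfold tlqL1
  rw [sk_d_cov n hn e h2 h1.ge, sk_d_cov n hn ⟨0, 1, 0⟩ zero_le_one le_rfl, h1]
  ring

theorem tlq_sk_covT {n : ℕ} (hn : 0 < n) (a : ℝ) {P : LlStp} {js : ℕ} (hb : 0 ≤ skCumB (llMat P) (js + 1)) (σ τ : SkCfg n) :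
    (tlqLT n a P js).cov σ τ = (((llMat P).take (js + 1)).map SkInc.db).sum * (tlqL1 n).cov σ τ := by
  have e : (tlqLT n a P js).cov σ τ = ((⟨0, skCumB (llMat P) (js + 1), 0⟩ : SkInc).lv n).cov σ τ := rfl
  unfold tlqL1
  rw [e, sk_d_cov n hn _ hb le_rfl, sk_d_cov n hn ⟨0, 1, 0⟩ zero_le_one le_rfl]
  show _ = skCumB (llMat P) (js + 1) * _
  ring

theorem tlq_sk_eU (n : ℕ) (P : LlStp) (js : ℕ) :
    skLvs n (llMat P) = ((llMat P).take (js + 1)).map (SkInc.lv n) ++ tlqHi n P js := by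
  unfold tlqHi skLvs
  rw [← List.map_append, List.take_append_drop]

theorem tlq_sk_eT (n : ℕ) {a : ℝ} {P : LlStp} {js : ℕ} (hP : LlStpAdm a P) (h : LlTiltOk P (some js)) :
    skLvs n (llMvAt js P) = ((((P.take js).map LlInc.m).map fun m => (ll2E m).lv n) ++ [tlqLT n a P js]) ++ tlqHi n P js := by
  rw [ll2b_nfG hP h, ll2t_sk_lvs_T]
  unfold ll2tT tlqLT tlqHi
  rw [List.append_assoc]
  rfl

theorem tlq_sk_emp (n : ℕ) (ms : List ℝ) : ∀ l ∈ ms.map fun m => (ll2E m).lv n, ∀ σ : SkCfg n, l.cov σ σ = 0 := by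
  intro l hl σ
  unfold GhLv.cov
  exact Finset.sum_eq_zero fun i _ => by rw [ll2t_sk_emp n ms l hl σ i, zero_mul]

/-- **THE LINK**, SK form -/
theorem tlq_sk_link {n : ℕ} (hn : 0 < n) {a : ℝ} (ha : 0 < a) {P : LlStp} {js : ℕ} (h : LlTiltA4 a P js) :
    TlkLink (skSP n a (llMvAt js P)) (skSP n a (llMat P)) (js + 1) (tlqR n a P js) := by
  have hB := obt_base_ok n ha
  have hb : 0 ≤ skCumB (llMat P) (js + 1) := ll2b_cumB_nonneg h.adm.1 _
  obtain ⟨l1, l2, -⟩ := ll2b_len h.ok.1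
  have hlU : (((llMat P).take (js + 1)).map (SkInc.lv n)).length = js + 1 := by rw [List.length_map, l1, l2]
  have hnT : GhNn (skLvs n (llMvAt js P)) := (l8i_adm (exit_a4_adm h.adm (some js))).ghNn le_rfl
  have hnU : GhNn (skLvs n (llMat P)) := (l8i_adm h.adm.1).ghNn le_rfl
  have hR : tlqR n a P js = fun ω => tlsRho (skBase n a) (tlqLT n a P js) (tlqHi n P js) 0 (spiZ (skLvs n (llMat P)) 0 (js + 1) ω) := rfl
  rw [l8i_eq, l8i_eq, hR]
  rw [tlq_sk_eT n h.adm h.ok] at hnT ⊢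
  rw [tlq_sk_eU n P js] at hnU ⊢
  have := tls_link hB _ _ (tlqHi n P js) (by rw [hlU, List.length_append, List.length_map, l2]; rfl) hnT hnU 0 (tlsRho (skBase n a) (tlqLT n a P js) (tlqHi n P js) 0)
    (tls_rho_meas hB _ _ _) (fun _ => (Real.exp_pos _).le)
    (fun G hG => tls_lam_link hB _ (tlqHi n P js) (tlqLT n a P js) (tlqL1 n) (SkInc.lv n) SkInc.db ((llMat P).take (js + 1))
      (tlq_sk_emp n _) (tlq_sk_neutral hn (ll2b_flat h)) (tlq_sk_covT hn a hb) 0 hG)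
    (fun i σ => skY σ i) (fun k => ((llMvAt js P).map SkInc.dh).getD k 0) (fun k => ((llMat P).map SkInc.dh).getD k 0)
  rw [hlU] at this
  exact this

/-- `K_n(t)` of (A4) in the vocabulary of `Defs/Sk`, EVERY `t ≠ 0` -/
theorem tlq_sk_KK {n : ℕ} (hn : 0 < n) {a : ℝ} (ha : 0 < a) (P : LlStp) (js : ℕ) {t : ℝ} (ht : t ≠ 0) :
    ll2sK n a (skCumB (llMat P) (js + 1)) ((llMat P).drop (js + 1)) t = skKK n a t (llMrg js P) := by
  unfold skKK skPsi llMrg
  rw [ll2g_sk_tilt n a _ [] t _]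
  exact (ll2g_sk_A4 n hn ha ht _ [] _).symm

/-- **the moments of the density**: `E R^k = exp (K(ks) - k K(s))` -/
theorem tlq_sk_mom {n : ℕ} (hn : 0 < n) {a : ℝ} (ha : 0 < a) {P : LlStp} {js : ℕ} (h : LlTiltA4 a P js) (hs : llMs a P js ≠ 0) {k : ℕ} (hk : 0 < k) :
    Integrable (fun ω => tlqR n a P js ω ^ k) (skSP n a (llMat P)).μ ∧
    ∫ ω, tlqR n a P js ω ^ k ∂(skSP n a (llMat P)).μ
      = Real.exp (skKK n a (k * llMs a P js) (llMrg js P) - k * skKK n a (llMs a P js) (llMrg js P)) := by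
  have hB := obt_base_ok n ha
  have hb : 0 ≤ skCumB (llMat P) (js + 1) := ll2b_cumB_nonneg h.adm.1 _
  obtain ⟨l1, l2, -⟩ := ll2b_len h.ok.1
  have hlU : (((llMat P).take (js + 1)).map (SkInc.lv n)).length = js + 1 := by rw [List.length_map, l1, l2]
  have hr : SpiReg (skBase n a) (skLvs n (llMat P)) := l8i_reg ha h.adm.1
  have hk' : (k : ℝ) ≠ 0 := by exact_mod_cast hk.ne'
  have hf : Measurable fun z' : SkCfg n → ℝ => tlsRho (skBase n a) (tlqLT n a P js) (tlqHi n P js) 0 z' ^ k :=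
    (tls_rho_meas hB _ _ _).pow_const k
  have hμ : (skSP n a (llMat P)).μ = spiK (skBase n a) (skLvs n (llMat P)) 0 := rfl
  have hR : ∀ ω, tlqR n a P js ω = tlsRho (skBase n a) (tlqLT n a P js) (tlqHi n P js) 0 (spiZ (skLvs n (llMat P)) 0 (js + 1) ω) := fun _ => rfl
  have hD : ∀ ξ, tlsRho (skBase n a) (tlqLT n a P js) (tlqHi n P js) 0 (0 + (tlqLT n a P js).inc ξ) ^ k
      = ll2tR (skBase n a) (llMs a P js) (ll2A0 n (skCumB (llMat P) (js + 1))) (skLvs n ((llMat P).drop (js + 1))) 0 ξ ^ (k : ℝ) := by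
    intro ξ
    rw [tls_rho_D, Real.rpow_natCast]
    rfl
  simp only [hμ, hR]
  rw [tlq_sk_eU n P js] at hr ⊢
  obtain ⟨e1, e2⟩ := tlq_field_int hB (tlqHi n P js) (tlqLT n a P js) (tlqL1 n) (SkInc.lv n) SkInc.db ((llMat P).take (js + 1)) hr
    (tlq_sk_neutral hn (ll2b_flat h)) (tlq_sk_covT hn a hb) 0 hf
  rw [hlU] at e1 e2
  simp only [hD] at e1 e2
  refine ⟨e2 (ll2t_R_rpow_int hB hs _ _ _ _), ?_⟩
  rw [e1, ll2t_R_norm hB hs, ← tlq_sk_KK hn ha P js hs, ← tlq_sk_KK hn ha P js (mul_ne_zero hk' hs)]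
  rfl

/-- the merged path is admissible -/
theorem tlq_sk_mrg_adm {a : ℝ} {P : LlStp} (hP : LlStpAdm a P) (ha : 0 ≤ a) (js : ℕ) : SkAdm a (llMrg js P) := by
  unfold llMrg
  constructor
  · refine List.pairwise_cons.2 ⟨fun e he => (hP.1.2 e (List.mem_of_mem_drop he)).1, ?_⟩
    exact List.Pairwise.sublist (List.drop_sublist _ _) hP.1.1
  · intro e he
    rcases List.mem_cons.1 he with rfl | he
    · exact ⟨le_rfl, ha, ll2b_cumB_nonneg hP.1 _, le_rfl⟩
    · exact hP.1.2 e (List.mem_of_mem_drop he)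

end sk

/-! ### the instances of LL 08 -/

section inst

theorem tlq_I_a_one {I : L8In} (hOk : I.Ok) : 1 ≤ I.a := by
  show 1 ≤ I.p.a
  unfold LlPt.a
  split_ifs
  · norm_num
  · exact hOk.pt.ell1

theorem tlq_I_m_pos {I : L8In} (hOk : I.Ok) : 0 < I.m := by
  have := hOk.pt.N2
  have := hOk.m_lo
  omega

theorem tlq_I_x {I : L8In} (hOk : I.Ok) : 0 < I.x ∧ I.x ≤ 1 ∧ I.x = skX I.p.N := by
  have hN : (1 : ℝ) ≤ I.p.N := by
    have := hOk.pt.N2
    exact_mod_cast (by omega : 1 ≤ I.p.N)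
  refine ⟨Real.rpow_pos_of_pos (by linarith) _, Real.rpow_le_one_of_one_le_of_nonpos hN (by norm_num), rfl⟩

theorem tlq_ms_eq (a : ℝ) (P : LlStp) (k : ℕ) : skMs a (llMat P) k = llMs a P k := by
  have e : (llMat P).map SkInc.m = P.map LlInc.m := by simp [llMat, List.map_map, Function.comp_def]
  unfold skMs llMs
  rw [e, List.getD_eq_getElem?_getD]

theorem tlq_ms_get (a : ℝ) (P : LlStp) {k : ℕ} (hk : k < P.length) : llMs a P k = P[k].m := by
  unfold llMs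
  simp [hk]

theorem tlq_mass_le {a : ℝ} {P : LlStp} (hP : LlStpAdm a P) {i j : ℕ} (hij : i ≤ j) (hj : j < P.length) : P[i].m ≤ P[j].m := by
  rcases hij.eq_or_lt with rfl | hlt
  · exact le_rfl
  · have h1 : P.Pairwise fun e e' => e.m ≤ e'.m := by
      have := hP.1.1
      unfold llMat at this
      rw [List.pairwise_map] at this
      exact this
    exact List.pairwise_iff_getElem.1 h1 i j (by omega) hj hlt

/-- **(A4) holds at every fine instance** -/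
theorem tlk_I_a4 {I : L8In} (hOk : I.Ok) (hf : I.Fine 1) : LlTiltA4 I.a I.LP I.js := by
  have hjs : I.js < I.LP.length := hf.js_lt
  have hs : I.LP[I.js].m = I.s := by
    rw [← tlq_ms_get I.a I.LP hjs, ← tlq_ms_eq]
    exact hf.js_m
  have hlow : ∀ l, l ≤ I.js → ∀ e, I.LP[l]? = some e → e.dh = 0 ∧ (e.db = 0 ∨ e.m = 0) := by
    intro l hl e he
    obtain ⟨hl', rfl⟩ := List.getElem?_eq_some_iff.1 he
    refine hf.low _ (List.getElem_mem hl') ?_
    calc I.LP[l].m ≤ I.LP[I.js].m := tlq_mass_le hf.adm hl hjs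
      _ = I.s := hs
      _ < I.x := hOk.s_lt
  refine ⟨hf.adm, ⟨hjs, ?_⟩, hlow⟩
  unfold skCumH
  refine List.sum_eq_zero fun x hx => ?_
  obtain ⟨e, he, rfl⟩ := List.mem_map.1 hx
  obtain ⟨i, hi, rfl⟩ := List.mem_take_iff_getElem.1 he
  have hi' : i < I.LP.length := by
    have : i < (llMat I.LP).length := by omega
    simpa [llMat] using this
  have := (hlow i (by omega) I.LP[i] (List.getElem?_eq_getElem hi')).1
  simpa [llMat] using this

theorem tlq_I_ms {I : L8In} (hf : I.Fine 1) : llMs I.a I.LP I.js = I.s := by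
  rw [← tlq_ms_eq]
  exact hf.js_m

/-- **THE LINK at the instance**;   `R = tlqR I.m I.a I.LP I.js` -/
theorem tlk_I_link {I : L8In} (hOk : I.Ok) (hf : I.Fine 1) :
    TlkLink (I.sp true) (I.sp false) (I.js + 1) (tlqR I.m I.a I.LP I.js) :=
  tlq_sk_link (tlq_I_m_pos hOk) (zero_lt_one.trans_le (tlq_I_a_one hOk)) (tlk_I_a4 hOk hf)

/-- the stop in the vocabulary of `Defs/Sk`, on the merged path -/
theorem tlq_I_stop {I : L8In} (hOk : I.Ok) (hf : I.Fine 1) {L : ℝ} (h : I.Stop L) : skKK I.m I.a I.s (llMrg I.js I.LP) ≤ 4 * L := by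
  have e : I.i9.psi I.p I.m = llPsi llMv I.m I.a I.js I.LP := rfl
  unfold L8In.Stop at h
  rw [e, exit_a4_psi (tlq_I_m_pos hOk) (zero_lt_one.trans_le (tlq_I_a_one hOk)) (tlk_I_a4 hOk hf), tlq_I_ms hf] at h
  exact h

/-- the non-empty stages above the tilt stage have masses `≥ x` -/
theorem tlq_I_hi {I : L8In} (hOk : I.Ok) (hf : I.Fine 1) :
    ∀ e' ∈ (llMat I.LP).drop (I.js + 1), (e'.db ≠ 0 ∨ e'.dh ≠ 0) → I.x ≤ e'.m := by
  intro e' he' hne
  by_contra hlt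
  rw [not_le] at hlt
  have hjs : I.js < I.LP.length := hf.js_lt
  have hs : I.LP[I.js].m = I.s := by
    rw [← tlq_ms_get I.a I.LP hjs, ← tlq_ms_eq]
    exact hf.js_m
  obtain ⟨i, hi, rfl⟩ := List.mem_iff_getElem.1 he'
  have hi' : I.js + 1 + i < I.LP.length := by
    have : i < (llMat I.LP).length - (I.js + 1) := by simpa using hi
    have h2 : (llMat I.LP).length = I.LP.length := by simp [llMat]
    omega
  have e1 : ((llMat I.LP).drop (I.js + 1))[i] = ⟨I.LP[I.js + 1 + i].m, I.LP[I.js + 1 + i].db, I.LP[I.js + 1 + i].dh⟩ := by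
    simp [llMat]
  rw [e1] at hlt hne
  obtain ⟨h1, h2⟩ := hf.low _ (List.getElem_mem hi') hlt
  have h3 : I.s ≤ I.LP[I.js + 1 + i].m := hs ▸ tlq_mass_le hf.adm (by omega) hi'
  have h4 := hOk.s_pos
  rcases h2 with h2 | h2
  · rcases hne with hne | hne
    · exact hne h2
    · exact hne h1
  · linarith

/-- **the moments of the density on the stop**: `E R^k ≤ e` -/
theorem tlk_I_mom (εs qs : ℝ) (k : ℕ) (hεs : 0 < εs) (hqs : 0 < qs) (hk : 0 < k) : ∃ N0 : ℕ, ∀ I : L8In, N0 ≤ I.p.N → I.Ok → I.Fine 1 →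
    I.s = qs * I.x ^ (1 + εs) → I.Stop (I.x ^ εs) →
    Integrable (fun ω => tlqR I.m I.a I.LP I.js ω ^ k) (I.sp false).μ ∧ ∫ ω, tlqR I.m I.a I.LP I.js ω ^ k ∂(I.sp false).μ ≤ Real.exp 1 := by
  obtain ⟨N0, h0⟩ := ll04_stop_x_ne εs qs k hεs hqs (by exact_mod_cast hk)
  refine ⟨N0, fun I hN hOk hf hs hstop => ?_⟩
  have hm := tlq_I_m_pos hOk
  have ha1 := tlq_I_a_one hOk
  have ha : 0 < I.a := zero_lt_one.trans_le ha1
  obtain ⟨-, hx1, hx⟩ := tlq_I_x hOk
  have h4 := tlk_I_a4 hOk hf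
  have hms := tlq_I_ms hf
  have hs0 : I.s ≠ 0 := hOk.s_pos.ne'
  obtain ⟨i1, i2⟩ := tlq_sk_mom hm ha h4 (by rw [hms]; exact hs0) hk
  refine ⟨i1, ?_⟩
  have e : (∫ ω, tlqR I.m I.a I.LP I.js ω ^ k ∂(I.sp false).μ) = ∫ ω, tlqR I.m I.a I.LP I.js ω ^ k ∂(skSP I.m I.a (llMat I.LP)).μ := rfl
  rw [e, i2, hms]
  refine Real.exp_le_exp.2 ?_
  have hK0 : 0 ≤ skKK I.m I.a I.s (llMrg I.js I.LP) := by
    rw [← tlq_sk_KK hm ha I.LP I.js hs0]
    exact ll2t_K_nonneg (obt_base_ok I.m ha) _ _ _ _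
  have hK1 : skKK I.m I.a (k * I.s) (llMrg I.js I.LP) ≤ 1 := by
    have hst := tlq_I_stop hOk hf hstop
    rw [hs, hx] at hst ⊢
    exact h0 I.p.N hN I.m I.a _ _ hm (tlq_sk_mrg_adm hf.adm ha.le I.js) rfl (by rw [← hx]; exact tlq_I_hi hOk hf) (by rw [← hx]; linarith) hst
  have : 0 ≤ (k : ℝ) * skKK I.m I.a I.s (llMrg I.js I.LP) := mul_nonneg (Nat.cast_nonneg _) hK0
  linarith

/-- monotonicity of the transfer in the error -/
theorem tlq_tr_mono {Ω : Type} [MeasurableSpace Ω] [Nonempty Ω] {m : ℕ} {Pt Pu : L8P Ω m} {k0 : ℕ} {M δ δ' : ℝ} (h : TlkTr Pt Pu k0 M δ)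
    (hδ : δ ≤ δ') : TlkTr Pt Pu k0 M δ' := by
  obtain ⟨ω0⟩ := (inferInstance : Nonempty Ω)
  refine ⟨fun ft fu G hl h0 hG => ?_, fun k hk ft fu G hl h0 hG => ?_⟩
  · have hG0 : 0 ≤ G := (h0 ω0).trans (hG ω0)
    exact (h.one ft fu G hl h0 hG).trans (by nlinarith [mul_le_mul_of_nonneg_left hδ hG0])
  · have hG0 : 0 ≤ G := (h0 (ω0, ω0)).trans (hG (ω0, ω0))
    exact (h.two k hk ft fu G hl h0 hG).trans (by nlinarith [mul_le_mul_of_nonneg_left hδ hG0])

/-- arithmetic of the error: `e / (x^(-ε₁))^n ≤ x^K` -/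
theorem tlq_err {x ε1 : ℝ} {K n : ℕ} (hx0 : 0 < x) (hx3 : x ≤ 3⁻¹) (hn : (K : ℝ) + 1 ≤ ε1 * n) :
    Real.exp 1 / (x ^ (-ε1)) ^ n ≤ x ^ K := by
  have hx1 : x ≤ 1 := hx3.trans (by norm_num)
  have e1 : (x ^ (-ε1)) ^ n = (x ^ (ε1 * n))⁻¹ := by
    rw [← Real.rpow_natCast, ← Real.rpow_mul hx0.le, ← Real.rpow_neg hx0.le]
    congr 1; ring
  rw [e1, div_inv_eq_mul]
  have h1 : x ^ (ε1 * n) ≤ x ^ ((K : ℝ) + 1) := Real.rpow_le_rpow_of_exponent_ge hx0 hx1 hn
  have h2 : x ^ ((K : ℝ) + 1) = x ^ K * x := by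
    rw [Real.rpow_add hx0, Real.rpow_natCast, Real.rpow_one]
  have h3 : Real.exp 1 < 3 := lt_trans Real.exp_one_lt_d9 (by norm_num)
  have h4 : 0 < x ^ K := pow_pos hx0 K
  have h5 : Real.exp 1 * x ≤ 1 := by
    calc Real.exp 1 * x ≤ 3 * 3⁻¹ := mul_le_mul h3.le hx3 hx0.le (by norm_num)
      _ = 1 := by norm_num
  calc Real.exp 1 * x ^ (ε1 * n) ≤ Real.exp 1 * (x ^ K * x) := by
        rw [← h2]; exact mul_le_mul_of_nonneg_left h1 (Real.exp_pos 1).le
    _ = x ^ K * (Real.exp 1 * x) := by ring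
    _ ≤ x ^ K * 1 := mul_le_mul_of_nonneg_left h5 h4.le
    _ = x ^ K := mul_one _

theorem tlq_x_third {N : ℕ} (hN : 729 ≤ N) : (N : ℝ) ^ (-(1 / 6) : ℝ) ≤ 3⁻¹ := by
  have h1 : (N : ℝ) ^ (-(1 / 6) : ℝ) ≤ (729 : ℝ) ^ (-(1 / 6) : ℝ) :=
    Real.rpow_le_rpow_of_nonpos (by norm_num) (by exact_mod_cast hN) (by norm_num)
  have h2 : (729 : ℝ) ^ (-(1 / 6) : ℝ) = 3⁻¹ := by
    rw [show (729 : ℝ) = (3 : ℝ) ^ (6 : ℕ) by norm_num, ← Real.rpow_natCast, ← Real.rpow_mul (by norm_num)]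
    rw [show ((6 : ℕ) : ℝ) * (-(1 / 6) : ℝ) = -1 by norm_num, Real.rpow_neg_one]
  exact h1.trans h2.le

/-- **THE TRANSFER ON THE STOP** (= `tlk_I_tr` of L08/TlTil) -/
theorem tlk_I_tr0 (εs qs ε1 : ℝ) (K : ℕ) (hεs : 0 < εs) (hqs : 0 < qs) (hε1 : 0 < ε1) : ∃ N0 : ℕ, ∀ I : L8In, N0 ≤ I.p.N → I.Ok → I.Fine 1 →
    I.s = qs * I.x ^ (1 + εs) → I.Stop (I.x ^ εs) → TlkTr (I.sp true) (I.sp false) (I.js + 1) (I.x ^ (-ε1)) (I.x ^ K) := by
  obtain ⟨n, hn⟩ := exists_nat_ge (((K : ℝ) + 1) / ε1)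
  obtain ⟨N0, h0⟩ := tlk_I_mom εs qs (n + 1) hεs hqs (Nat.succ_pos n)
  refine ⟨max N0 729, fun I hN hOk hf hs hstop => ?_⟩
  obtain ⟨i1, i2⟩ := h0 I ((le_max_left _ _).trans hN) hOk hf hs hstop
  obtain ⟨hx0, -, -⟩ := tlq_I_x hOk
  have hx3 : I.x ≤ 3⁻¹ := tlq_x_third ((le_max_right _ _).trans hN)
  have hPu : (I.sp false).Ok := l8i_ok I.m (tlq_I_m_pos hOk) I.a (zero_lt_one.trans_le (tlq_I_a_one hOk)) _ hf.adm.1
  have htr := tlk_tr (tlk_I_link hOk hf) hPu n (Real.rpow_pos_of_pos hx0 (-ε1)) i1 i2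
  refine tlq_tr_mono htr (tlq_err hx0 hx3 ?_)
  rw [div_le_iff₀ hε1] at hn
  linarith

end inst

end Claimed.Agent.R286
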