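import Claimed.Agent.R286.L08.Glue
import Claimed.Agent.R286.L08.TlSk
import Claimed.Agent.R286.L08.SaGeo
import Claimed.Agent.R286.L08.SAd
import Claimed.Agent.R286.L08.SAe
import Claimed.Agent.R286.L08.SAf
import Claimed.Agent.R286.L08.P222
import Claimed.Agent.R286.L08.P222b
import Claimed.Agent.R286.L08.L12FrzSk
import Claimed.Agent.R286.Sc.GenP
import Claimed.Agent.R286.Sc.LinkTr
import Claimed.Agent.R286.Sc.App
import Claimed.Agent.R286.Sc.Mom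
import Claimed.Agent.R286.Sc.Bound
import Claimed.Agent.R286.Bud.TopDefs
import Claimed.Agent.R286.Fd.EntB
import Claimed.Agent.R286.LL.PathsKk

/-!
# Row 286 (S0533), folder L08, unit SA, file SaTop : THE WRAPPER OF (D11)      (architect + owner helper163; ADV helper233; prefix `l8z_`, `L8z`, defs `L8In.z*`, `L8In.Z*`, `sa*`)

TEX[LL:prop:statistics-size-accuracy] 08-statistics.tex l.1001-1304.      GOAL: `l8z_core` (PROVED below from the leaves) = the body of `L8xD11 llBase T` (`L08/Defs.lean`, helper75); `Exit/D11.lean` calls it.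
Everything is POINTWISE in ONE instance `I : L8In` (one point of a smoothed size path, one size `m`, one chain): `I.ZStd c C v1 v2` = standing hypotheses (geometry `I.ZGeo` of the sampled clocks with mesh `x^40`, mesh of the
freezing lemma);   a step reads  `∃ x0 > 0, ∀ I, I.ZStd c C v1 v2 → I.x ≤ x0 → ..`.      Nets of chains: only in `l8z_core`, through `L8Ev.of_fine'` (`L08/Glue.lean`).
`𝔞 = saA = 1/200`, `V0' = x^𝔞`, `l = x^(5𝔞)`, `κ = x^(3𝔞)`, low cutoff `x^(𝔞/10)`, `δ_* = llDStar = 𝔞/50`, `p_* ≤ 1/40000 = 𝔞/200`.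
CUT `k` (`0 ≤ k ≤ n`): mass cell `(v (k-1), v k)`, `I.KC k, I.hC k, I.bC k` = clocks revealed BEFORE the cut = values of the path clocks at the mass `v (k-1)`;   the revelation `k < n` sits at the mass `v k` and carries `zdB, zdH, zdK`.
TWO REFERENCES: `I.q k = llQs` = response of the SAMPLED scalar clock `= scGam (scLC a) (slkPi I.zPK) (I.KC k)` (`slk_llQs`, proved);   `I.zq k = Γ(I.KC k)`, `Γ = I.zGam` the response of the PATH ((P2), (P5) speak about it); `q_sh`: they differ by `≤ x^40`.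

MAP (owner of each `sorry` in its docstring; provers patch IN PLACE, auxiliary lemmas just above the leaf)
 A  scalar, step profiles   : `l8z_stabT` (D11.d, Hoelder 1/2, common horizon; PROVED from `l8zs_stab` of 222);      `sc_ann_Gam` (Sc/App, proved) = terminal annealed extension
 B  model, non-asymptotic   : `l8z_q_obS` (PROVED);      PROVED elsewhere: `l12g_frz_cut` (233, D11.a), `l8z_cav1` (171, SAe, D11.e), `l8z_d_D12`, `l8z_d_contr` (171, SAd), SAf, SAg, `l8z_d13`, `l8z_cell`, `l8z_d14in`, `l8z_sumInt`, `l8z_ent` (222, 278)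
 C  geometry                : `L8In.ZGeo`, INSTANCE `l8z_geo` (from `L8Fix`, `LlK8`, `I.Fine (x^50)`)
 D  supplies of other units : `LlK8` (LL 03: NEW export), `L8zTilt` (189), `BtC2` (66), `L8gFine` (75);      PROVED: `l8z_d13_pf` (222), `l8z_decouple` (233)
 E  steps                   : Z1 (D12) | Z2a ((C2) on the chain) | Z2 (D13+D14) | Z3 (freezing) | Zl (link at all times) | Z4 (sup of the means) | Z5 (all moments)
 F  glue, PROVED            : `l8z_unt` (Z1-Z5 chained), `l8z_c2` ((C2) in the shape `L8Ev`), `l8z_core`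
DEVIATIONS FROM THE PAPER (checked by 163): (1) D11.d in the Hoelder-1/2 form `sup |Γ_S - Γ| ≲ (1+M) √‖α_S - α‖₁` (`Sc/GenP`): `x^(𝔞/2)` divided by the gap `x^(p_* + 𝔞/5)` is `≤ x^(𝔞/4)`, persistence gives `x^(𝔞/8) ≤ x^(𝔞/10)`.
(2) freezing needs NO decay of `Γ'`: `h(j) - h(j0) = ΔK - Δ(b q) + Δd ≥ ΔK - C - 1`; `1 - q` freezes by the SAME lemma at `n = 1`.   (3) lower slope of `h` on `[2x, ℓ]` from `H_lo` alone: `dh ≥ λ₁ U³ dv/ℓ ≥ x^(3+1/100) dv`.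
DEAD: `l12_gamma_stab`, `l12_gamma_lip` (L12B), `l12_pen`, `l12_cell_point`, `L12D13` (L12A).
-/

set_option autoImplicit false

namespace Claimed.Agent.R286

open MeasureTheory Set Filter Finset

noncomputable section

/-- `𝔞 = 1/200` -/
def saA : ℝ := 1 / 200

/-- the scalar step profile of the FIELD clock of a step path, with the terminal annealed extension up to the time `T` -/
def saPi (a T : ℝ) (Q : SkStp) : List (ℝ × ℝ) := slkPi Q ++ [(a, T - skTotH Q)]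

/-- the mesh of the freezing lemma `l12g_frz_cut` at `n` sites, terminal mass `4` -/
def saDel (n : ℕ) : ℝ := if h : 0 < n then Classical.choose (l12g_frz_cut n h (a := 4) (by norm_num)) else 1

/-- the mesh asked from the chains at the dyad `N` -/
def saEta (N : ℕ) : ℝ := min (((N : ℝ) ^ (-(1 / 6) : ℝ)) ^ 50) (∏ m ∈ range (3 * N + 1), min 1 (saDel m))

theorem saDel_pos (n : ℕ) : 0 < saDel n := by
  unfold saDel
  split_ifs with h
  · exact (Classical.choose_spec (l12g_frz_cut n h (a := 4) (by norm_num))).1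
  · exact one_pos

/-- **D11.a** at the mesh `saDel n` (233) -/
theorem saDel_spec (n : ℕ) (hn : 0 < n) (u : ℝ) (P : SkStp) (j₀ j : ℕ) (z₀ : SkCfg n → ℝ) (hu : 0 ≤ u) (hP : SkAdm 4 P) (h0 : j₀ ≤ j) (hj : j ≤ P.length)
    (hm : ∀ e ∈ P.drop j₀, u ≤ e.m) (hf : ∀ e ∈ (P.drop j₀).take (j - j₀), e.db ≤ saDel n ∧ e.dh ≤ saDel n) :
    1 - obS n 4 P z₀ j ≤ Real.exp (-(u ^ 2 / 4) * (skCumH P j - skCumH P j₀)) := by
  have h := (Classical.choose_spec (l12g_frz_cut n hn (a := 4) (by norm_num))).2 u P j₀ j z₀ hu hP h0 hj hm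
  have e : saDel n = Classical.choose (l12g_frz_cut n hn (a := 4) (by norm_num)) := by unfold saDel; rw [dif_pos hn]
  rw [e] at hf
  exact h hf

theorem saEta_pos (N : ℕ) (hN : 2 ≤ N) : 0 < saEta N := by
  unfold saEta
  refine lt_min (pow_pos (Real.rpow_pos_of_pos (by exact_mod_cast (by omega : 0 < N)) _) _) (Finset.prod_pos fun m _ => lt_min one_pos (saDel_pos m))

theorem saEta_le_del (N m : ℕ) (hm : m ≤ 3 * N) : saEta N ≤ saDel m := by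
  unfold saEta
  refine (min_le_right _ _).trans ?_
  have hmem : m ∈ range (3 * N + 1) := Finset.mem_range.2 (by omega)
  have h2 : ∏ i ∈ (range (3 * N + 1)).erase m, min 1 (saDel i) ≤ 1 :=
    Finset.prod_le_one (fun i _ => (lt_min one_pos (saDel_pos i)).le) (fun i _ => min_le_left _ _)
  rw [← Finset.mul_prod_erase _ _ hmem]
  calc min 1 (saDel m) * ∏ i ∈ (range (3 * N + 1)).erase m, min 1 (saDel i) ≤ min 1 (saDel m) * 1 :=
        mul_le_mul_of_nonneg_left h2 (lt_min one_pos (saDel_pos m)).le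
    _ ≤ saDel m := by rw [mul_one]; exact min_le_right _ _

/-! ## A. Scalar part (step profiles of `Sc/Prof.lean`, terminal datum `scLC a`): D11.d = `l8zs_stab` (222, P222b) + terminal annealed stage.   PROVED -/

/-- a step path with the terminal annealed stage up to the total field clock `T` -/
def saExt (a T : ℝ) (Q : SkStp) : SkStp := Q ++ [⟨a, 0, T - skTotH Q⟩]

theorem saExt_adm {a T : ℝ} {Q : SkStp} (ha : 0 < a) (hQ : SkAdm a Q) (hT : skTotH Q ≤ T) : SkAdm a (saExt a T Q) := by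
  constructor
  · unfold saExt
    rw [List.pairwise_append]
    refine ⟨hQ.1, List.pairwise_singleton _ _, fun e he e' he' => ?_⟩
    rw [List.mem_singleton] at he'
    subst he'
    exact (hQ.2 e he).2.1
  · intro e he
    unfold saExt at he
    rw [List.mem_append, List.mem_singleton] at he
    rcases he with he | rfl
    · exact hQ.2 e he
    · exact ⟨ha.le, le_rfl, le_rfl, sub_nonneg.2 hT⟩

theorem saExt_pi (a T : ℝ) (Q : SkStp) : slkPi (saExt a T Q) = saPi a T Q := by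
  simp [slkPi, saExt, saPi]

theorem saExt_tot (a T : ℝ) (Q : SkStp) : skTotH (saExt a T Q) = T := by
  simp [skTotH, saExt]

theorem saExt_ms (a T : ℝ) (Q : SkStp) (j : ℕ) : skMs a (saExt a T Q) j = skMs a Q j := by
  unfold skMs saExt
  rw [List.map_append]
  rcases lt_trichotomy j Q.length with h | h | h
  · rw [List.getD_append _ _ _ _ (by simpa using h)]
  · subst h
    rw [List.getD_append_right _ _ _ _ (by simp), List.getD_eq_default (Q.map SkInc.m) _ (by simp)]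
    simp
  · rw [List.getD_eq_default _ _ (by simp; omega), List.getD_eq_default _ _ (by simp; omega)]

theorem saExt_gap (a T : ℝ) (Q : SkStp) (j : ℕ) : skGap a (saExt a T Q) j = skGap a Q j := by
  unfold skGap
  simp only [saExt_ms]

theorem saExt_cum (a T : ℝ) (Q : SkStp) {k : ℕ} (hk : k ≤ Q.length) : skCumH (saExt a T Q) k = skCumH Q k := by
  unfold skCumH saExt
  rw [List.take_append_of_le_length hk]

/-- **D11.d**, one-site step paths with the same masses, common horizon `T` -/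
theorem l8z_stabT {a : ℝ} (ha : 0 < a) : ∃ K : ℝ, 0 ≤ K ∧ ∀ (Q Q' : SkStp) (T : ℝ), SkAdm a Q → SkAdm a Q' → Q.map SkInc.m = Q'.map SkInc.m →
    skTotH Q ≤ T → skTotH Q' ≤ T → ∀ (ε t : ℝ), ∑ k ∈ range (Q.length + 1), skGap a Q k * |skCumH Q k - skCumH Q' k| ≤ ε → 0 ≤ t → t ≤ T →
    |scGam (scLC a) (saPi a T Q) t - scGam (scLC a) (saPi a T Q') t| ≤ K * (1 + T) * (ε + Real.sqrt ε) := by
  obtain ⟨K, hK, h⟩ := l8zs_stab ha
  refine ⟨K, hK, fun Q Q' T hQ hQ' hm hT hT' ε t hε h0 ht => ?_⟩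
  have hlen : Q'.length = Q.length := by simpa using (congrArg List.length hm).symm
  have h1 := h (saExt a T Q) (saExt a T Q') (saExt_adm ha hQ hT) (saExt_adm ha hQ' hT') (by simp [saExt, hm]) (by rw [saExt_tot, saExt_tot]) ε t
    (by
      refine le_trans (le_of_eq ?_) hε
      have e : (saExt a T Q).length = Q.length + 1 := by simp [saExt]
      rw [e]
      refine Finset.sum_congr rfl fun k hk => ?_
      have hk' : k ≤ Q.length := by have := Finset.mem_range.1 hk; omega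
      rw [saExt_gap, saExt_cum a T Q hk', saExt_cum a T Q' (by rw [hlen]; exact hk')]) h0 (by rw [saExt_tot]; exact ht)
  rw [saExt_pi, saExt_pi, saExt_tot] at h1
  exact h1
/-! ## B. Model contracts, non-asymptotic -/

/-- the reference overlap on the chain is the statistic `S` of the one-site model -/
theorem l8z_q_obS (a : ℝ) (ha : 0 < a) (P : LlStp) (hP : SkAdm a (llSc P)) (t : ℕ) (ht : t ≤ P.length) : llQs a P t = obS 1 a (llSc P) 0 t := by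
  have hlen : (llSc P).length = P.length := by simp [llSc]
  rw [← obt_S_two one_pos ha (llSc P) hP 0 t (by rw [hlen]; exact ht), ← l8z_e_pair_nu a (llSc P) ht (fun s t => skOv s t)]
  unfold llQs llNuS
  congr 1
  funext σ
  simp [skOv, skSp, jtSp, Claims.C0461.pmSpin]

theorem l8z_M2_nonneg {F : ℝ → ℝ} (hF : ScBI F) (π : List (ℝ × ℝ)) (r : ℝ) : 0 ≤ scM2 F π r := by
  unfold scM2 scEx
  have hw : ScE 0 (deriv (deriv (scVt F π r))) := ((sc_Vt_BI hF π r 2).deriv_bd).deriv.scE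
  refine sc_Pt_nonneg hF ?_ (fun z => sq_nonneg _) π 0 r 0
  exact hw.pow 2

/-- the response of a step profile is nondecreasing in time -/
theorem l8z_Gam_mono {F : ℝ → ℝ} (hF : ScBI F) {π : List (ℝ × ℝ)} (hπ : ScPos π) {s t : ℝ} (hs : 0 ≤ s) (hst : s ≤ t) (ht : t ≤ scLen π) :
    scGam F π s ≤ scGam F π t := by
  have h := scm_Gam hF hπ hs hst ht
  have h2 : 0 ≤ ∫ r in s..t, scM2 F π r := intervalIntegral.integral_nonneg hst fun r _ => l8z_M2_nonneg hF π r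
  linarith

theorem l8z_Gam_le_one {a : ℝ} (ha : 0 < a) {π : List (ℝ × ℝ)} (hπ : ScAdm a π) {t : ℝ} (h0 : 0 ≤ t) (ht : t ≤ scLen π) : scGam (scLC a) π t ≤ 1 := by
  have h1 := l8z_Gam_mono (sc_LC_BI a) hπ.pos h0 ht le_rfl
  have h2 := scb_Gam_end ha hπ
  have h3 := Real.exp_pos (-3 * a ^ 2 * scLen π)
  linarith

theorem l8z_cumK_succ (P : LlStp) (k : ℕ) : llCumK P (k + 1) = llCumK P k + saDh (llSc P) k := by
  induction P generalizing k with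
  | nil => simp [llCumK, saDh, llSc]
  | cons e P ih =>
    cases k with
    | zero => simp [llCumK, saDh, llSc]
    | succ k =>
      have h := ih k
      simp only [llCumK, saDh, llSc, List.take_succ_cons, List.map_cons, List.sum_cons, List.getD_cons_succ] at h ⊢
      rw [h]; ring

/-- discrete intermediate value -/
theorem l8z_ivt (f : ℕ → ℝ) (n : ℕ) (t : ℝ) (hn0 : 0 < n) (h0 : f 0 ≤ t) (hn : t ≤ f n) : ∃ k < n, f k ≤ t ∧ t ≤ f (k + 1) := by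
  induction n with
  | zero => exact absurd hn0 (lt_irrefl 0)
  | succ n ih =>
    by_cases h : t ≤ f n
    · rcases Nat.eq_zero_or_pos n with h1 | h1
      · subst h1
        exact ⟨0, Nat.one_pos, h0, hn⟩
      · obtain ⟨k, hk, h2⟩ := ih h1 h
        exact ⟨k, by omega, h2⟩
    · exact ⟨n, Nat.lt_succ_self n, (not_le.1 h).le, hn⟩

/-! ## C. The geometry of the sampled clocks: definitions `L8In.zPK .. L8In.ZGeo` MOVED to `L08/SaGeo.lean` (73) -/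

namespace L8In

variable (I : L8In)

/-- **standing hypotheses of the steps** -/
structure ZStd (c C v1 v2 : ℝ) : Prop where
  ok : I.Ok
  siz : l8Siz I.p
  base : I.𝔹 = llBase
  pS0 : 0 < I.F.pS
  pS : I.F.pS ≤ 1 / 40000
  geo : I.ZGeo c C v1 v2 (I.x ^ 40)
  fz : ∀ e ∈ I.LP, 0 < e.m → e.db ≤ saDel I.m ∧ e.dh ≤ saDel I.m ∧ e.dK ≤ saDel 1

/-- (D12) -/
def ZD12 : Prop :=
  I.int (I.x ^ saA) I.zvM I.D2 + ∑ k ∈ (range I.n).filter (fun k => I.x ^ saA ≤ I.v k), I.zdK k * I.D2 k ≤ I.x ^ (1 / 4 : ℝ)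

/-- freezing: after the scalar time `M/4` -/
def ZFrz (K : ℕ) : Prop := ∀ k ≤ I.n, I.p.M / 4 ≤ I.KC k → 1 - I.S k ≤ I.x ^ K ∧ 1 - I.q k ≤ I.x ^ K

/-- (D14) -/
def ZD14 (C14 : ℝ) : Prop := ∑ k ∈ range (I.n + 1), I.dv k * |I.S k - I.zq k| ≤ C14 * I.x ^ saA

/-- the mean part of (D11) -/
def ZMean (Cm : ℝ) : Prop := ∀ k ≤ I.n, |I.S k - I.zq k| ≤ Cm * I.x ^ (saA / 10)

/-- link at ALL times: the response of the SAMPLED scalar clock (step calculus, annealed extension to the horizon `T`) against the response of the path -/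
def ZLink : Prop :=
  ∀ T, skTotH I.zPK ≤ T → ∀ t, 0 ≤ t → t ≤ T → |scGam (scLC I.a) (saPi I.a T I.zPK) t - I.zGam t| ≤ I.x ^ 10

/-- (D11), untilted, order `2 r` -/
def ZUnt (r : ℕ) (C5 : ℝ) : Prop :=
  ∀ k ≤ I.n, ∀ k₁ k₂, k ≤ k₁ → k ≤ k₂ → I.moF false k r (fun ω => (I.sp false).QX k₁ k₂ ω - I.q k) ≤ (C5 * I.x ^ llDStar) ^ (2 * r)

end L8In

/-! ## D. Supplies of other units -/

/-- **SUPPLY (TILT BRIDGE)**, Cauchy-Schwarz form.      OWNER: helper189 (`L08/TlLink.lean`; moments of the density: `ll04_stop_x`).      TEX[LL:par:statistics-tilt-transfer] l.889-897, l.1302-1303.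
At an ACTIVE cut the tilted fork law of the observables is the untilted one reweighted by a density `R`; on the stop `E R² ≤ CR`. -/
def L8zTilt (F : LlFix) (εs qs : ℝ) : Prop :=
  ∃ (CR : ℝ) (N0 : ℕ), L8Ev F llBase N0 l8Siz fun I => I.s = qs * I.x ^ (1 + εs) → I.Stop (I.x ^ εs) →
    ∀ (r k k₁ k₂ : ℕ) (q : ℝ), I.act true k → k ≤ k₁ → k ≤ k₂ →
      I.moF true k r (fun ω => (I.sp true).QX k₁ k₂ ω - q) ^ 2 ≤ CR * I.moF false k (2 * r) (fun ω => (I.sp false).QX k₁ k₂ ω - q)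

-- `LlK8`, `L8In.ZGeo` and its INSTANCE `l8z_geo` : file `L08/SaGeo.lean` (head helper73)

/-! ## E. The steps -/

/-! ### kit of Z1 (helper238, `l8z1_`) -/

/-- every positive power is small -/
theorem l8z1_small (K ε : ℝ) (hε : 0 < ε) : ∃ x0 : ℝ, 0 < x0 ∧ ∀ x : ℝ, 0 < x → x ≤ x0 → K * x ^ ε ≤ 1 := by
  have hK : 0 < |K| + 1 := by positivity
  refine ⟨(1 / (|K| + 1)) ^ (1 / ε), Real.rpow_pos_of_pos (by positivity) _, fun x hx hxx => ?_⟩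
  have h1 : x ^ ε ≤ ((1 / (|K| + 1)) ^ (1 / ε)) ^ ε := Real.rpow_le_rpow hx.le hxx hε.le
  rw [← Real.rpow_mul (by positivity), one_div_mul_cancel hε.ne', Real.rpow_one] at h1
  have h0 : 0 ≤ x ^ ε := Real.rpow_nonneg hx.le _
  calc K * x ^ ε ≤ (|K| + 1) * x ^ ε := mul_le_mul_of_nonneg_right (by linarith [le_abs_self K]) h0
    _ ≤ (|K| + 1) * (1 / (|K| + 1)) := mul_le_mul_of_nonneg_left h1 hK.le
    _ = 1 := by field_simp

/-- a positive power beats `log³` -/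
theorem l8z1_small_log (K ε : ℝ) (hε : 0 < ε) : ∃ x0 : ℝ, 0 < x0 ∧ ∀ x : ℝ, 0 < x → x ≤ x0 → x ≤ 1 →
    K * (x ^ ε * Real.log (1 / x) ^ 3) ≤ 1 := by
  obtain ⟨x0, hx0, h⟩ := l8z1_small (|K| * (6 / ε) ^ 3) (ε / 2) (by positivity)
  refine ⟨x0, hx0, fun x hx hxx hx1 => ?_⟩
  have ht0 : 0 < 1 / x := by positivity
  have ht : 1 ≤ 1 / x := by rw [le_div_iff₀ hx]; linarith
  have h1 : Real.log (1 / x) ≤ (1 / x) ^ (ε / 6) / (ε / 6) := Real.log_le_rpow_div ht0.le (by positivity)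
  have h0 : 0 ≤ Real.log (1 / x) := Real.log_nonneg ht
  have h2 : Real.log (1 / x) ^ 3 ≤ ((1 / x) ^ (ε / 6) / (ε / 6)) ^ 3 := pow_le_pow_left₀ h0 h1 3
  have h3 : ((1 / x) ^ (ε / 6) / (ε / 6)) ^ 3 = (6 / ε) ^ 3 * x ^ (-(ε / 2)) := by
    rw [div_pow, ← Real.rpow_natCast ((1 / x) ^ (ε / 6)), ← Real.rpow_mul ht0.le, one_div, Real.inv_rpow hx.le, ← Real.rpow_neg hx.le]
    have : -(ε / 6 * ((3 : ℕ) : ℝ)) = -(ε / 2) := by push_cast; ring
    rw [this]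
    field_simp
  have hxe : 0 < x ^ ε := Real.rpow_pos_of_pos hx _
  have h4 : x ^ ε * x ^ (-(ε / 2)) = x ^ (ε / 2) := by
    rw [← Real.rpow_add hx]; congr 1; ring
  have h5 : x ^ ε * Real.log (1 / x) ^ 3 ≤ (6 / ε) ^ 3 * x ^ (ε / 2) := by
    calc x ^ ε * Real.log (1 / x) ^ 3 ≤ x ^ ε * ((6 / ε) ^ 3 * x ^ (-(ε / 2))) := by
          rw [← h3]; exact mul_le_mul_of_nonneg_left h2 hxe.le
      _ = (6 / ε) ^ 3 * (x ^ ε * x ^ (-(ε / 2))) := by ring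
      _ = _ := by rw [h4]
  have h6 : 0 ≤ x ^ ε * Real.log (1 / x) ^ 3 := by positivity
  calc K * (x ^ ε * Real.log (1 / x) ^ 3) ≤ |K| * (x ^ ε * Real.log (1 / x) ^ 3) := mul_le_mul_of_nonneg_right (le_abs_self K) h6
    _ ≤ |K| * ((6 / ε) ^ 3 * x ^ (ε / 2)) := mul_le_mul_of_nonneg_left h5 (abs_nonneg K)
    _ = |K| * (6 / ε) ^ 3 * x ^ (ε / 2) := by ring
    _ ≤ 1 := h x hx hxx

/-- the unit `1/(c' m V e0 ω)` of (D12) -/
theorem l8z1_Rm {c x p mm : ℝ} (hc : 0 < c) (hx : 0 < x) (hx1 : x ≤ 1) (hp : p ≤ 1 / 40000) (hm : 1 / (2 * x ^ 6) ≤ mm) :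
    1 / (1 / 2 * mm * (x ^ (1 / 200 : ℝ) / 2) * (c * x ^ p * (x ^ (1 / 200 : ℝ) / 2) ^ 2 * (c * x ^ (5 + 1 / 4 : ℝ))))
      ≤ 32 / c ^ 2 * x ^ (73 / 100 : ℝ) := by
  set A := x ^ (1 / 200 : ℝ) with hA
  set Lp := x ^ p with hLp
  set O := x ^ (5 + 1 / 4 : ℝ) with hO
  set E := x ^ (73 / 100 : ℝ) with hE
  have hA0 : 0 < A := Real.rpow_pos_of_pos hx _
  have hL0 : 0 < Lp := Real.rpow_pos_of_pos hx _
  have hO0 : 0 < O := Real.rpow_pos_of_pos hx _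
  have hE0 : 0 < E := Real.rpow_pos_of_pos hx _
  have hx6 : 0 < x ^ 6 := by positivity
  have hmm : 0 < mm := lt_of_lt_of_le (by positivity) hm
  -- `x⁶ ≤ E Lp O A³`
  have k1 : x ^ 6 ≤ E * Lp * O * A ^ 3 := by
    have e1 : A ^ 3 = x ^ (3 / 200 : ℝ) := by
      rw [hA, ← Real.rpow_natCast, ← Real.rpow_mul hx.le]; congr 1; norm_num
    have e2 : E * Lp * O * A ^ 3 = x ^ (73 / 100 + p + (5 + 1 / 4) + 3 / 200 : ℝ) := by
      rw [e1, hE, hLp, hO, ← Real.rpow_add hx, ← Real.rpow_add hx, ← Real.rpow_add hx]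
    have e3 : x ^ 6 = x ^ (6 : ℝ) := by rw [← Real.rpow_natCast]; norm_num
    rw [e2, e3]
    exact Real.rpow_le_rpow_of_exponent_ge hx hx1 (by linarith)
  have hD : c ^ 2 * Lp * O * A ^ 3 / (32 * x ^ 6) ≤ 1 / 2 * mm * (A / 2) * (c * Lp * (A / 2) ^ 2 * (c * O)) := by
    have e : 1 / 2 * mm * (A / 2) * (c * Lp * (A / 2) ^ 2 * (c * O)) = mm * (c ^ 2 * Lp * O * A ^ 3 / 16) := by ring
    rw [e]
    have h2 : 1 / (2 * x ^ 6) * (c ^ 2 * Lp * O * A ^ 3 / 16) ≤ mm * (c ^ 2 * Lp * O * A ^ 3 / 16) :=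
      mul_le_mul_of_nonneg_right hm (by positivity)
    refine le_trans (le_of_eq ?_) h2
    field_simp
    ring
  have hD0 : 0 < c ^ 2 * Lp * O * A ^ 3 / (32 * x ^ 6) := by positivity
  refine (one_div_le_one_div_of_le hD0 hD).trans ?_
  rw [one_div_div, div_le_iff₀ (by positivity)]
  calc 32 * x ^ 6 ≤ 32 * (E * Lp * O * A ^ 3) := by linarith
    _ = 32 / c ^ 2 * E * (c ^ 2 * Lp * O * A ^ 3) := by field_simp

/-- one of the two bounds of (D12), simplified -/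
theorem l8z1_T {w μ θ V om R Rm L : ℝ} (hw : 0 < w) (hμ : μ ≤ w) (hθ : 0 < θ) (hθ1 : θ ≤ 1) (hV : 0 < V) (hom : 0 < om)
    (hR0 : 0 ≤ R) (hRm : R ≤ Rm) (hRw : R / (om * w ^ 2) ≤ 1) :
    512 * (2 * w + 3 * μ) * (1 + 7 / 3 * R / (om * w ^ 2)) + θ * L + (1 + 1 / θ) / V * R + (w + μ)
      ≤ 8536 * w + θ * L + 2 * (Rm / (θ * V)) := by
  have h1 : 7 / 3 * R / (om * w ^ 2) ≤ 7 / 3 := by
    rw [mul_div_assoc]; linarith
  have h0 : 0 ≤ 7 / 3 * R / (om * w ^ 2) := by positivity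
  have h2 : 512 * (2 * w + 3 * μ) * (1 + 7 / 3 * R / (om * w ^ 2)) ≤ 512 * (5 * w) * (10 / 3) :=
    mul_le_mul (by linarith) (by linarith) (by linarith) (by positivity)
  have h3 : (1 + 1 / θ) / V * R ≤ 2 * (Rm / (θ * V)) := by
    have e1 : 1 + 1 / θ ≤ 2 / θ := by
      rw [show (2 : ℝ) / θ = 1 / θ + 1 / θ by ring]
      have : 1 ≤ 1 / θ := by rw [le_div_iff₀ hθ]; linarith
      linarith
    calc (1 + 1 / θ) / V * R ≤ (2 / θ) / V * Rm :=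
          mul_le_mul (div_le_div_of_nonneg_right e1 hV.le) hRm hR0 (by positivity)
      _ = 2 * (Rm / (θ * V)) := by field_simp
  linarith

/-- the sum of the two bounds from explicit smallness conditions -/
theorem l8z1_sum {c x p mm M : ℝ} (hc : 0 < c) (hc1 : c ≤ 1) (hx : 0 < x) (hx1 : x ≤ 1) (hp : p ≤ 1 / 40000)
    (hm : 1 / (2 * x ^ 6) ≤ mm)
    (s1 : 32 / c ^ 2 * x ^ (1 / 100 : ℝ) ≤ 1) (s2 : 51216 * x ^ (11 / 100 : ℝ) ≤ 1) (s3 : 3 * (x ^ (1 / 20 : ℝ) * (M + 4)) ≤ 1)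
    (s4 : 768 / c ^ 2 * x ^ (7 / 40 : ℝ) ≤ 1) :
    (512 * (2 * x ^ (9 / 25 : ℝ) + 3 * x ^ 40) * (1 + 7 / 3 * (1 / (1 / 2 * mm * (x ^ (1 / 200 : ℝ) / 2) * (c * x ^ p * (x ^ (1 / 200 : ℝ) / 2) ^ 2)))
        / (c * x ^ (5 + 1 / 4 : ℝ) * (x ^ (9 / 25 : ℝ)) ^ 2)) + x ^ (3 / 10 : ℝ) * M
      + (1 + 1 / x ^ (3 / 10 : ℝ)) / (x ^ (1 / 200 : ℝ) / 2) * (1 / (1 / 2 * mm * (x ^ (1 / 200 : ℝ) / 2) * (c * x ^ p * (x ^ (1 / 200 : ℝ) / 2) ^ 2)))
      + (x ^ (9 / 25 : ℝ) + x ^ 40))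
    + (512 * (2 * x ^ (9 / 25 : ℝ) + 3 * x ^ 40) * (1 + 7 / 3 * (1 / (1 / 2 * mm * (x ^ (1 / 200 : ℝ) / 2) * (c * x ^ p * (x ^ (1 / 200 : ℝ) / 2) ^ 2 * (c * x ^ (5 + 1 / 4 : ℝ)))))
        / (1 * (x ^ (9 / 25 : ℝ)) ^ 2)) + x ^ (3 / 10 : ℝ) * 4
      + (1 + 1 / x ^ (3 / 10 : ℝ)) / (x ^ (1 / 200 : ℝ) / 2) * (1 / (1 / 2 * mm * (x ^ (1 / 200 : ℝ) / 2) * (c * x ^ p * (x ^ (1 / 200 : ℝ) / 2) ^ 2 * (c * x ^ (5 + 1 / 4 : ℝ)))))
      + (x ^ (9 / 25 : ℝ) + x ^ 40)) ≤ x ^ (1 / 4 : ℝ) := by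
  have hRm := l8z1_Rm hc hx hx1 hp hm
  set A := x ^ (1 / 200 : ℝ) with hA
  set Lp := x ^ p with hLp
  set O := x ^ (5 + 1 / 4 : ℝ) with hO
  set E := x ^ (73 / 100 : ℝ) with hE
  set w := x ^ (9 / 25 : ℝ) with hw
  set θ := x ^ (3 / 10 : ℝ) with hθ
  set Q := x ^ (1 / 4 : ℝ) with hQ
  have hA0 : 0 < A := Real.rpow_pos_of_pos hx _
  have hL0 : 0 < Lp := Real.rpow_pos_of_pos hx _
  have hO0 : 0 < O := Real.rpow_pos_of_pos hx _
  have hE0 : 0 < E := Real.rpow_pos_of_pos hx _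
  have hw0 : 0 < w := Real.rpow_pos_of_pos hx _
  have hθ0 : 0 < θ := Real.rpow_pos_of_pos hx _
  have hQ0 : 0 < Q := Real.rpow_pos_of_pos hx _
  have hO1 : O ≤ 1 := Real.rpow_le_one hx.le hx1 (by norm_num)
  have hθ1 : θ ≤ 1 := Real.rpow_le_one hx.le hx1 (by norm_num)
  have hmm : 0 < mm := lt_of_lt_of_le (by positivity) hm
  have hμ : x ^ 40 ≤ w := by
    have e3 : x ^ 40 = x ^ (40 : ℝ) := by rw [← Real.rpow_natCast]; norm_num
    rw [e3]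
    exact Real.rpow_le_rpow_of_exponent_ge hx hx1 (by norm_num)
  set D0 := 1 / 2 * mm * (A / 2) * (c * Lp * (A / 2) ^ 2) with hD0
  have hD00 : 0 < D0 := by positivity
  have eD : 1 / 2 * mm * (A / 2) * (c * Lp * (A / 2) ^ 2 * (c * O)) = D0 * (c * O) := by rw [hD0]; ring
  rw [eD] at hRm ⊢
  set Rm := 1 / (D0 * (c * O)) with hRmd
  have hRm0 : 0 < Rm := by positivity
  have hcO : 0 < c * O := by positivity
  have hcO1 : c * O ≤ 1 := by nlinarith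
  have eR : 1 / D0 = Rm * (c * O) := by rw [hRmd]; field_simp
  have hRle : 1 / D0 ≤ Rm := by rw [eR]; exact mul_le_of_le_one_right hRm0.le hcO1
  -- powers
  have k2 : E = x ^ (1 / 100 : ℝ) * w ^ 2 := by
    rw [hw, ← Real.rpow_natCast (x ^ (9 / 25 : ℝ)), ← Real.rpow_mul hx.le, ← Real.rpow_add hx, hE]; congr 1; norm_num
  have k3 : E = x ^ (7 / 40 : ℝ) * Q * θ * A := by
    rw [hQ, hθ, hA, ← Real.rpow_add hx, ← Real.rpow_add hx, ← Real.rpow_add hx, hE]; congr 1; norm_num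
  have k4 : w = x ^ (11 / 100 : ℝ) * Q := by
    rw [hQ, ← Real.rpow_add hx, hw]; congr 1; norm_num
  have k5 : θ = x ^ (1 / 20 : ℝ) * Q := by
    rw [hQ, ← Real.rpow_add hx, hθ]; congr 1; norm_num
  have hRw : Rm / w ^ 2 ≤ 1 := by
    rw [div_le_one (by positivity)]
    calc Rm ≤ 32 / c ^ 2 * E := hRm
      _ = (32 / c ^ 2 * x ^ (1 / 100 : ℝ)) * w ^ 2 := by rw [k2]; ring
      _ ≤ 1 * w ^ 2 := mul_le_mul_of_nonneg_right s1 (by positivity)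
      _ = w ^ 2 := one_mul _
  have t1 := l8z1_T (L := M) hw0 hμ hθ0 hθ1 (by positivity : 0 < A / 2) hcO (by positivity : 0 ≤ 1 / D0) hRle
    (by rw [eR, mul_comm Rm, mul_div_mul_left _ _ hcO.ne']; exact hRw)
  have t2 := l8z1_T (L := 4) hw0 hμ hθ0 hθ1 (by positivity : 0 < A / 2) one_pos hRm0.le le_rfl (by rw [one_mul]; exact hRw)
  have hlast : Rm / (θ * (A / 2)) ≤ 64 / c ^ 2 * x ^ (7 / 40 : ℝ) * Q := by
    rw [div_le_iff₀ (by positivity)]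
    calc Rm ≤ 32 / c ^ 2 * E := hRm
      _ = 64 / c ^ 2 * x ^ (7 / 40 : ℝ) * Q * (θ * (A / 2)) := by rw [k3]; ring
  have f1 : 17072 * w ≤ Q / 3 := by
    rw [k4]
    have := mul_le_mul_of_nonneg_right s2 hQ0.le
    linarith
  have f2 : θ * M + θ * 4 ≤ Q / 3 := by
    rw [k5]
    have := mul_le_mul_of_nonneg_right s3 hQ0.le
    linarith
  have f3 : 4 * (64 / c ^ 2 * x ^ (7 / 40 : ℝ) * Q) ≤ Q / 3 := by
    have := mul_le_mul_of_nonneg_right s4 hQ0.le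
    have e : 768 / c ^ 2 * x ^ (7 / 40 : ℝ) * Q = 3 * (4 * (64 / c ^ 2 * x ^ (7 / 40 : ℝ) * Q)) := by ring
    linarith
  linarith

/-- all the smallness conditions of Z1 -/
structure L8z1Sm (c x : ℝ) : Prop where
  x1 : x ≤ 1
  a : 2 * x ≤ x ^ (1 / 200 : ℝ) / 2
  b : x ^ (1 / 200 : ℝ) ≤ c
  d : x ^ (9 / 25 : ℝ) ≤ c * (x ^ (1 / 200 : ℝ) / 2 - x ^ 40)
  e : 48 * x ^ 34 ≤ 1
  f : x ^ (5 + 1 / 4 : ℝ) * Real.log (1 / x) ^ 3 < 1
  s1 : 32 / c ^ 2 * x ^ (1 / 100 : ℝ) ≤ 1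
  s2 : 51216 * x ^ (11 / 100 : ℝ) ≤ 1
  s3 : 3 * (x ^ (1 / 20 : ℝ) * (Real.log (1 / x) ^ 3 + 4)) ≤ 1
  s4 : 768 / c ^ 2 * x ^ (7 / 40 : ℝ) ≤ 1

theorem l8z1_sm (c : ℝ) (hc : 0 < c) : ∃ x0 : ℝ, 0 < x0 ∧ ∀ x : ℝ, 0 < x → x ≤ x0 → L8z1Sm c x := by
  obtain ⟨y1, hy1, g1⟩ := l8z1_small 4 (199 / 200) (by norm_num)
  obtain ⟨y2, hy2, g2⟩ := l8z1_small (1 / c) (1 / 200) (by norm_num)
  obtain ⟨y3, hy3, g3⟩ := l8z1_small 4 (7999 / 200) (by norm_num)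
  obtain ⟨y4, hy4, g4⟩ := l8z1_small (4 / c) (71 / 200) (by norm_num)
  obtain ⟨y5, hy5, g5⟩ := l8z1_small 48 34 (by norm_num)
  obtain ⟨y6, hy6, g6⟩ := l8z1_small (32 / c ^ 2) (1 / 100) (by norm_num)
  obtain ⟨y7, hy7, g7⟩ := l8z1_small 51216 (11 / 100) (by norm_num)
  obtain ⟨y8, hy8, g8⟩ := l8z1_small 24 (1 / 20) (by norm_num)
  obtain ⟨y9, hy9, g9⟩ := l8z1_small (768 / c ^ 2) (7 / 40) (by norm_num)
  obtain ⟨z1, hz1, l1⟩ := l8z1_small_log 2 (5 + 1 / 4) (by norm_num)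
  obtain ⟨z2, hz2, l2⟩ := l8z1_small_log 6 (1 / 20) (by norm_num)
  refine ⟨min 1 (min y1 (min y2 (min y3 (min y4 (min y5 (min y6 (min y7 (min y8 (min y9 (min z1 z2)))))))))), by positivity, fun x hx hxx => ?_⟩
  simp only [le_min_iff] at hxx
  obtain ⟨hx1, a1, a2, a3, a4, a5, a6, a7, a8, a9, b1, b2⟩ := hxx
  have hA0 : 0 < x ^ (1 / 200 : ℝ) := Real.rpow_pos_of_pos hx _
  have e40 : x ^ 40 ≤ x ^ (1 / 200 : ℝ) / 4 := by
    have e : x ^ 40 = x ^ (7999 / 200 : ℝ) * x ^ (1 / 200 : ℝ) := by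
      rw [← Real.rpow_add hx, ← Real.rpow_natCast]; congr 1; norm_num
    have := mul_le_mul_of_nonneg_right (g3 x hx a3) hA0.le
    rw [e]; linarith
  refine ⟨hx1, ?_, ?_, ?_, ?_, ?_, g6 x hx a6, g7 x hx a7, ?_, g9 x hx a9⟩
  · have e : x = x ^ (199 / 200 : ℝ) * x ^ (1 / 200 : ℝ) := by
      rw [← Real.rpow_add hx]; norm_num
    have := mul_le_mul_of_nonneg_right (g1 x hx a1) hA0.le
    rw [mul_assoc, ← e] at this
    linarith
  · have := g2 x hx a2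
    rwa [div_mul_eq_mul_div, one_mul, div_le_one hc] at this
  · have e : x ^ (9 / 25 : ℝ) = x ^ (71 / 200 : ℝ) * x ^ (1 / 200 : ℝ) := by
      rw [← Real.rpow_add hx]; congr 1; norm_num
    have h1 := g4 x hx a4
    rw [div_mul_eq_mul_div, div_le_one hc] at h1
    have h2 := mul_le_mul_of_nonneg_right h1 hA0.le
    have h3 : c * (x ^ (1 / 200 : ℝ) / 4) ≤ c * (x ^ (1 / 200 : ℝ) / 2 - x ^ 40) :=
      mul_le_mul_of_nonneg_left (by linarith) hc.le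
    rw [e]; linarith
  · have := g5 x hx a5
    rwa [show (34 : ℝ) = ((34 : ℕ) : ℝ) by norm_num, Real.rpow_natCast] at this
  · have := l1 x hx b1 hx1
    linarith
  · have h1 := l2 x hx b2 hx1
    have h2 := g8 x hx a8
    linarith

/-- **(D12) up to the end of the coordinate**: the last strip of width `w` costs `w + mesh` -/
theorem L8P.l8z1_D12 {Ω : Type} [MeasurableSpace Ω] {m : ℕ} (P : L8P Ω m) (h : P.Ok) (hD1 : ∀ k, P.D2 k ≤ 1) {τ : ℕ → ℝ} {ka kb : ℕ} {V e0 om mesh : ℝ}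
    (hT : P.ZT τ ka kb V e0 om mesh) {c cpin : ℝ} (hc : 0 < c) (hs : P.Sus c)
    (hcp : 0 ≤ cpin) (hpin : P.Pin 1 cpin) {w θ : ℝ} (hw : 0 < w) (hθ : 0 < θ) (hmesh : 0 ≤ mesh) {k0 : ℕ} (hk0 : ka ≤ k0) (hk01 : k0 ≤ kb)
    (hL : τ ka + w ≤ τ k0) :
    ∑ k ∈ Finset.Ico k0 kb, (τ (k + 1) - τ k) * P.D2 k
      ≤ 512 * (2 * w + 3 * mesh) * (1 + cpin * (1 / (c * m * V * e0)) / (om * w ^ 2))
        + θ * (τ kb - τ k0) + (1 + 1 / θ) / V * (1 / (c * m * V * e0)) + (w + mesh) := by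
  have hτ := hT.mono
  have hm : (0 : ℝ) < m := by exact_mod_cast P.l8z_g_m_pos h
  have hV := hT.V_pos
  have he0 := hT.e0_pos
  have hom := hT.om_pos
  have hden : 0 < c * m * V * e0 := by positivity
  have hdt : ∀ l, 0 ≤ τ (l + 1) - τ l := fun l => sub_nonneg.mpr (hτ (Nat.le_succ l))
  have hstrip : ∀ k1, k1 ≤ kb → ∑ k ∈ Finset.Ico k1 kb, (τ (k + 1) - τ k) * P.D2 k ≤ τ kb - τ k1 := by
    intro k1 hk1
    rw [← l8z_g_tele τ hk1]
    exact sum_le_sum fun k _ => mul_le_of_le_one_right (hdt k) (hD1 k)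
  have hA : 0 ≤ 512 * (2 * w + 3 * mesh) * (1 + cpin * (1 / (c * m * V * e0)) / (om * w ^ 2)) := by positivity
  have hB : 0 ≤ (1 + 1 / θ) / V * (1 / (c * m * V * e0)) := by positivity
  by_cases hroom : τ k0 + w ≤ τ kb
  · obtain ⟨k1, h1, h2, h3, h4⟩ := l8z_d_prev (τ := τ) (mesh := mesh) hw hk01
      (fun l a1 a2 => hT.fine l (hk0.trans a1) a2) hroom
    have hmain := P.l8z_d_D12 h hT hc hs hcp hpin hw hθ hmesh hk0 h1 h2 hL (by linarith)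
    rw [← sum_Ico_consecutive _ h1 h2]
    have e1 := hstrip k1 h2
    have e2 : θ * (τ k1 - τ k0) ≤ θ * (τ kb - τ k0) := mul_le_mul_of_nonneg_left (by linarith [hτ h2]) hθ.le
    linarith
  · have e1 := hstrip k0 hk01
    have e2 : 0 ≤ θ * (τ kb - τ k0) := mul_nonneg hθ.le (by linarith [hτ hk01])
    linarith

theorem l8z1_D2_le_one {Ω : Type} [MeasurableSpace Ω] {m : ℕ} (P : L8P Ω m) (hP : P.Ok) (k : ℕ) : P.D2 k ≤ 1 := by
  have hB : P.B k ≤ 1 := by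
    rw [← P.l8s_fork_Q_sq hP k]
    have := P.l8s_fork_prob hP k
    obtain ⟨hm, hb⟩ := P.l8s_fork_Q_bd_aux hP
    calc ∫ p, P.Q p ^ 2 ∂(P.fork k) ≤ ∫ _p, (1 : ℝ) ∂(P.fork k) := by
          refine integral_mono_of_nonneg (ae_of_all _ fun _ => sq_nonneg _) (integrable_const _) (ae_of_all _ fun p => ?_)
          have := hb p
          show P.Q p ^ 2 ≤ 1
          rw [← sq_abs]; nlinarith [abs_nonneg (P.Q p)]
      _ = 1 := by simp
  unfold L8P.D2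
  nlinarith [sq_nonneg (P.S k)]

/-- first index at which a monotone sequence reaches the level `t` -/
theorem l8z1_first {f : ℕ → ℝ} (hf : Monotone f) {t : ℝ} {n : ℕ} (hn : t ≤ f n) : ∃ k0 ≤ n, ∀ k, t ≤ f k ↔ k0 ≤ k := by
  classical
  have hex : ∃ k, t ≤ f k := ⟨n, hn⟩
  refine ⟨Nat.find hex, Nat.find_min' hex hn, fun k => ⟨fun h => Nat.find_min' hex h, fun h => (Nat.find_spec hex).trans (hf h)⟩⟩

/-- first index at which a monotone sequence exceeds the level `t` -/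
theorem l8z1_first' {f : ℕ → ℝ} (hf : Monotone f) {t : ℝ} {n : ℕ} (hn : t < f n) : ∃ k0 ≤ n, ∀ k, t < f k ↔ k0 ≤ k := by
  classical
  have hex : ∃ k, t < f k := ⟨n, hn⟩
  refine ⟨Nat.find hex, Nat.find_min' hex hn, fun k => ⟨fun h => Nat.find_min' hex h, fun h => lt_of_lt_of_le (Nat.find_spec hex) (hf h)⟩⟩

/-- the mass coordinate of the cuts -/
def l8z1Tm (I : L8In) (k : ℕ) : ℝ := if k = 0 then 0 else I.v (k - 1)

theorem l8z1_eqns_cite : True := by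
  have := @l8z1Tm.eq_1
  trivial

theorem l8z1_tm_succ (I : L8In) (k : ℕ) : l8z1Tm I (k + 1) - l8z1Tm I k = I.dv k := by
  unfold l8z1Tm L8In.dv skGap L8In.v
  simp

theorem l8z1_x6 (I : L8In) : I.x ^ 6 = 1 / (I.p.N : ℝ) := by
  have hN0 : (0 : ℝ) ≤ I.p.N := Nat.cast_nonneg _
  unfold L8In.x LlPt.x
  rw [← Real.rpow_natCast, ← Real.rpow_mul hN0]
  norm_num
  rw [Real.rpow_neg_one]

section one

variable {I : L8In} {c C v1 v2 : ℝ}

theorem l8z1_xpos (hI : I.ZStd c C v1 v2) : 0 < I.x := lkk_x_pos hI.ok.pt.N2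

theorem l8z1_m (hI : I.ZStd c C v1 v2) : 1 ≤ I.m ∧ 1 / (2 * I.x ^ 6) ≤ (I.m : ℝ) ∧ (I.m : ℝ) * I.x ^ 6 ≤ 3 := by
  have hN := hI.ok.pt.N2
  have h1 := hI.ok.m_lo
  have h2 := hI.ok.m_hi
  have hN0 : (0 : ℝ) < I.p.N := by exact_mod_cast (by omega : 0 < I.p.N)
  have h1' : (I.p.N : ℝ) ≤ 2 * I.m := by exact_mod_cast h1
  have h2' : (I.m : ℝ) ≤ 3 * I.p.N := by exact_mod_cast h2
  refine ⟨by omega, ?_, ?_⟩
  · rw [l8z1_x6, div_le_iff₀ (by positivity)]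
    have : (I.m : ℝ) * (2 * (1 / (I.p.N : ℝ))) = 2 * I.m / I.p.N := by ring
    rw [this, le_div_iff₀ hN0]; linarith
  · rw [l8z1_x6, mul_one_div, div_le_iff₀ hN0]; exact h2'

theorem l8z1_ok (hI : I.ZStd c C v1 v2) : (skSP I.m I.a I.P0).Ok :=
  l8i_ok I.m (l8z1_m hI).1 I.a (by rw [hI.geo.a4]; norm_num) I.P0 hI.geo.adm0

theorem l8z1_sus (hI : I.ZStd c C v1 v2) (he : 48 * I.x ^ 34 ≤ 1) : (skSP I.m I.a I.P0).Sus (1 / 2) := by
  have g := hI.geo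
  have hx := l8z1_xpos hI
  have h := l8i_sus_h I.m (l8z1_m hI).1 I.a (by rw [g.a4]; norm_num) I.P0 g.adm0 (δ := 1) zero_le_one (fun e he' => ?_)
  · have e : (1 : ℝ) / (1 + 1) = 1 / 2 := by norm_num
    rwa [e] at h
  · obtain ⟨k, hk, rfl⟩ := List.getElem_of_mem he'
    have hkn : k < I.n := by simpa [L8In.n, L8In.P0, llMat] using hk
    have h1 := (g.mesh_c k hkn).1
    have h2 : I.zdH k = (I.P0[k]).dh := by
      unfold L8In.zdH saDh
      rw [List.getD_eq_getElem _ _ (by simpa using hk)]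
      simp
    rw [h2] at h1
    have h3 := (l8z1_m hI).2.2
    have hm0 : (0 : ℝ) ≤ I.m := Nat.cast_nonneg _
    rw [g.a4]
    calc (4 : ℝ) ^ 2 * (I.m * (I.P0[k]).dh) ≤ 4 ^ 2 * (I.m * I.x ^ 40) := by gcongr
      _ = 16 * (I.m * I.x ^ 6) * I.x ^ 34 := by ring
      _ ≤ 16 * 3 * I.x ^ 34 := by gcongr
      _ ≤ 1 := by linarith

theorem l8z1_pin (hI : I.ZStd c C v1 v2) : (skSP I.m I.a I.P0).Pin 1 (7 / 3) := by
  have h := l8i_pin I.m (l8z1_m hI).1 I.a (by rw [hI.geo.a4]; norm_num) I.P0 hI.geo.adm0 1 le_rfl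
  have e : ((1 + (2 * ((1 : ℕ) : ℝ)) ^ 2 / 3) ^ 1 : ℝ) = 7 / 3 := by norm_num
  rwa [e] at h

theorem l8z1_D2 (hI : I.ZStd c C v1 v2) {k : ℕ} (hk : k ≤ I.n) : (skSP I.m I.a I.P0).D2 k = I.D2 k := by
  have ha : 0 < I.a := by rw [hI.geo.a4]; norm_num
  have hk' : k ≤ I.P0.length := by simpa [L8In.n, L8In.P0, llMat] using hk
  unfold L8P.D2 L8In.D2 obD2
  rw [l8i_S I.m I.a ha I.P0 hI.geo.adm0 k hk', l8i_B I.m I.a ha I.P0 hI.geo.adm0 k hk']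

theorem l8z1_vmono (hI : I.ZStd c C v1 v2) : Monotone I.v := (l8z1_ok hI).v_mono

theorem l8z1_vn (I : L8In) : I.v I.n = I.a := by
  unfold L8In.v skMs
  rw [List.getD_eq_default _ _ (by simp [L8In.n, L8In.P0, llMat])]

theorem l8z1_tm_mono (hI : I.ZStd c C v1 v2) : Monotone (l8z1Tm I) := by
  refine monotone_nat_of_le_succ fun k => ?_
  unfold l8z1Tm
  rcases k with _ | k
  · have h0 : 0 ≤ I.v 0 := (l8z1_ok hI).v_nonneg 0
    simpa using h0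
  · simpa using l8z1_vmono hI (Nat.le_succ k)

theorem l8z1_zvM (hI : I.ZStd c C v1 v2) (hf : I.x ^ (5 + 1 / 4 : ℝ) * Real.log (1 / I.x) ^ 3 < 1) : 1 ≤ I.zvM ∧ I.zvM < 4 := by
  have hp := hI.ok.pt
  have hM0 : 0 ≤ I.p.M := lkk_M_nonneg hp.N2
  have hom0 : 0 ≤ I.p.om := Real.rpow_nonneg (lkk_x_pos hp.N2).le _
  have hf' : I.p.om * I.p.M < 1 := hf
  have hl2 : I.p.ell ≤ 2 := by
    refine hp.ell2.trans ?_
    calc (2 : ℝ) ^ (1 / 6 : ℝ) ≤ 2 ^ (1 : ℝ) := Real.rpow_le_rpow_of_exponent_le (by norm_num) (by norm_num)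
      _ = 2 := Real.rpow_one 2
  have hl1 := hp.ell1
  have h0 : 0 ≤ I.p.om * I.p.M := mul_nonneg hom0 hM0
  unfold L8In.zvM
  constructor
  · nlinarith
  · nlinarith

/-- the three cuts of Z1 -/
theorem l8z1_cuts (hI : I.ZStd c C v1 v2) (sm : L8z1Sm c I.x) :
    ∃ ka k0 kb : ℕ, ka ≤ k0 ∧ k0 ≤ kb ∧ kb ≤ I.n ∧ (∀ k, I.x ^ (1 / 200 : ℝ) / 2 ≤ I.v k ↔ ka ≤ k) ∧ (∀ k, I.x ^ (1 / 200 : ℝ) ≤ I.v k ↔ k0 ≤ k) ∧
      (∀ k, I.zvM < I.v k ↔ kb ≤ k) ∧ l8z1Tm I ka + (I.x ^ (1 / 200 : ℝ) / 2 - I.x ^ 40) ≤ l8z1Tm I k0 := by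
  have g := hI.geo
  have hx := l8z1_xpos hI
  have hmono := l8z1_vmono hI
  have hc1 : c ≤ 1 := by have := g.vv; linarith
  have hA0 : 0 < I.x ^ (1 / 200 : ℝ) := Real.rpow_pos_of_pos hx _
  have hA1 : I.x ^ (1 / 200 : ℝ) ≤ 1 := sm.b.trans hc1
  obtain ⟨hz1, hz4⟩ := l8z1_zvM hI sm.f
  have hvn : I.v I.n = 4 := by rw [l8z1_vn, g.a4]
  obtain ⟨ka, -, hka⟩ := l8z1_first hmono (t := I.x ^ (1 / 200 : ℝ) / 2) (n := I.n) (by rw [hvn]; linarith)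
  obtain ⟨k0, hk0n, hk0⟩ := l8z1_first hmono (t := I.x ^ (1 / 200 : ℝ)) (n := I.n) (by rw [hvn]; linarith)
  obtain ⟨kb, hkbn, hkb⟩ := l8z1_first' hmono (t := I.zvM) (n := I.n) (by rw [hvn]; exact hz4)
  have e0 : I.x ^ (1 / 200 : ℝ) ≤ I.v k0 := (hk0 k0).2 le_rfl
  have eb : I.zvM < I.v kb := (hkb kb).2 le_rfl
  refine ⟨ka, k0, kb, (hka k0).1 (by linarith), (hk0 kb).1 (by linarith), hkbn, hka, hk0, hkb, ?_⟩
  -- `x^40 < A/2`
  have hw0 : 0 < I.x ^ (9 / 25 : ℝ) := Real.rpow_pos_of_pos hx _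
  have hgap : 0 < I.x ^ (1 / 200 : ℝ) / 2 - I.x ^ 40 := by
    by_contra hn
    have := mul_nonpos_of_nonneg_of_nonpos (lt_of_lt_of_le hA0 sm.b).le (not_lt.1 hn)
    linarith [sm.d]
  have h1 : l8z1Tm I ka ≤ I.x ^ (1 / 200 : ℝ) / 2 := by
    unfold l8z1Tm
    split_ifs with h
    · positivity
    · have : ¬ (I.x ^ (1 / 200 : ℝ) / 2 ≤ I.v (ka - 1)) := fun hh => by have := (hka _).1 hh; omega
      exact (not_le.1 this).le
  have h2 : I.x ^ (1 / 200 : ℝ) - I.x ^ 40 ≤ l8z1Tm I k0 := by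
    have e1 := l8z1_tm_succ I k0
    have e2 := g.mesh_v k0 hk0n
    have e3 : l8z1Tm I (k0 + 1) = I.v k0 := by simp [l8z1Tm]
    rw [e3] at e1
    linarith
  linarith

theorem l8z1_KC (hI : I.ZStd c C v1 v2) : (∀ k, I.KC (k + 1) - I.KC k = I.zdK k) ∧ (∀ k, 0 ≤ I.zdK k) ∧ Monotone I.KC ∧ ∀ k, 0 ≤ I.KC k := by
  have g := hI.geo
  have hdK0 : ∀ k, 0 ≤ I.zdK k := fun k => l8i_dh_nonneg g.admK k
  have hsucc : ∀ k, I.KC (k + 1) = I.KC k + I.zdK k := fun k => l8z_cumK_succ I.LP k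
  have hKmono : Monotone I.KC := monotone_nat_of_le_succ fun k => by rw [hsucc]; linarith [hdK0 k]
  have hK0 : I.KC 0 = 0 := by simp [L8In.KC, llCumK]
  exact ⟨fun k => by rw [hsucc]; ring, hdK0, hKmono, fun k => hK0 ▸ hKmono (Nat.zero_le k)⟩

/-- field slope above the mass `V = x^𝔞/2` -/
theorem l8z1_field (hI : I.ZStd c C v1 v2) (hc : 0 < c) (sm : L8z1Sm c I.x) {k : ℕ} (hk : k < I.n) (hv : I.x ^ (1 / 200 : ℝ) / 2 ≤ I.v k) :
    c * I.x ^ I.F.pS * (I.x ^ (1 / 200 : ℝ) / 2) ^ 2 * I.zdK k ≤ I.zdH k := by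
  have g := hI.geo
  have hx := l8z1_xpos hI
  have hlam : I.lam = I.x ^ I.F.pS := (hI.ok.pt.sm_fin hI.siz.1).1
  have h1 := g.h_K k hk (sm.a.trans hv)
  rw [hlam] at h1
  refine le_trans ?_ h1
  have hA0 : 0 < I.x ^ (1 / 200 : ℝ) := Real.rpow_pos_of_pos hx _
  have hL0 : 0 < I.x ^ I.F.pS := Real.rpow_pos_of_pos hx _
  have h2 : (I.x ^ (1 / 200 : ℝ) / 2) ^ 2 ≤ I.v k ^ 2 := pow_le_pow_left₀ (by positivity) hv 2
  exact mul_le_mul_of_nonneg_right (mul_le_mul_of_nonneg_left h2 (by positivity)) ((l8z1_KC hI).2.1 k)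

theorem l8z1_ZT_time (hI : I.ZStd c C v1 v2) (hc : 0 < c) (sm : L8z1Sm c I.x) {ka : ℕ} (hka : ∀ k, I.x ^ (1 / 200 : ℝ) / 2 ≤ I.v k ↔ ka ≤ k) :
    (skSP I.m I.a I.P0).ZT I.KC ka I.n (I.x ^ (1 / 200 : ℝ) / 2) (c * I.x ^ I.F.pS * (I.x ^ (1 / 200 : ℝ) / 2) ^ 2)
      (c * I.x ^ (5 + 1 / 4 : ℝ)) (I.x ^ 40) := by
  have g := hI.geo
  have hx := l8z1_xpos hI
  obtain ⟨hs, -, hm, -⟩ := l8z1_KC hI
  have hA0 : 0 < I.x ^ (1 / 200 : ℝ) := Real.rpow_pos_of_pos hx _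
  have hL0 : 0 < I.x ^ I.F.pS := Real.rpow_pos_of_pos hx _
  have hO0 : 0 < I.x ^ (5 + 1 / 4 : ℝ) := Real.rpow_pos_of_pos hx _
  refine ⟨hm, le_of_eq (by simp [L8In.n, L8In.P0, llMat, skSP]), by positivity, by positivity, by positivity, (hka ka).2 le_rfl,
    fun k h1 h2 => ?_, fun k _ h2 => ?_, fun k _ h2 => ?_⟩
  · rw [hs]; exact l8z1_field hI hc sm h2 ((hka k).2 h1)
  · rw [hs]; exact g.K_dens k h2
  · rw [hs]; exact (g.mesh_c k h2).2.1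

theorem l8z1_ZT_mass (hI : I.ZStd c C v1 v2) (hc : 0 < c) (sm : L8z1Sm c I.x) {ka kb : ℕ} (hka : ∀ k, I.x ^ (1 / 200 : ℝ) / 2 ≤ I.v k ↔ ka ≤ k)
    (hkb : ∀ k, I.zvM < I.v k ↔ kb ≤ k) (hkbn : kb ≤ I.n) :
    (skSP I.m I.a I.P0).ZT (l8z1Tm I) ka kb (I.x ^ (1 / 200 : ℝ) / 2)
      (c * I.x ^ I.F.pS * (I.x ^ (1 / 200 : ℝ) / 2) ^ 2 * (c * I.x ^ (5 + 1 / 4 : ℝ))) 1 (I.x ^ 40) := by
  have g := hI.geo
  have hx := l8z1_xpos hI
  have hA0 : 0 < I.x ^ (1 / 200 : ℝ) := Real.rpow_pos_of_pos hx _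
  have hL0 : 0 < I.x ^ I.F.pS := Real.rpow_pos_of_pos hx _
  have hO0 : 0 < I.x ^ (5 + 1 / 4 : ℝ) := Real.rpow_pos_of_pos hx _
  refine ⟨l8z1_tm_mono hI, hkbn.trans (le_of_eq (by simp [L8In.n, L8In.P0, llMat, skSP])), by positivity, by positivity, one_pos,
    (hka ka).2 le_rfl, fun k h1 h2 => ?_, fun k _ _ => ?_, fun k _ h2 => ?_⟩
  · rw [l8z1_tm_succ]
    have hkn : k < I.n := lt_of_lt_of_le h2 hkbn
    have hv : I.v k ≤ I.zvM := not_lt.1 fun hh => by have := (hkb k).1 hh; omega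
    have e1 : c * I.x ^ (5 + 1 / 4 : ℝ) * I.dv k ≤ I.zdK k := g.K_slow k hkn hv
    have e2 := l8z1_field hI hc sm hkn ((hka k).2 h1)
    refine le_trans ?_ e2
    rw [mul_assoc]
    exact mul_le_mul_of_nonneg_left e1 (by positivity)
  · rw [l8z1_tm_succ, one_mul]; exact le_rfl
  · rw [l8z1_tm_succ]; exact g.mesh_v k (h2.le.trans hkbn)

/-- room below, time coordinate -/
theorem l8z1_room (hI : I.ZStd c C v1 v2) (hc : 0 < c) (sm : L8z1Sm c I.x) {ka k0 : ℕ} (h01 : ka ≤ k0) (hk0n : k0 ≤ I.n)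
    (hk0 : ∀ k, I.x ^ (1 / 200 : ℝ) ≤ I.v k ↔ k0 ≤ k)
    (hr : l8z1Tm I ka + (I.x ^ (1 / 200 : ℝ) / 2 - I.x ^ 40) ≤ l8z1Tm I k0) :
    I.KC ka + I.x ^ (9 / 25 : ℝ) ≤ I.KC k0 ∧ l8z1Tm I ka + I.x ^ (9 / 25 : ℝ) ≤ l8z1Tm I k0 := by
  have g := hI.geo
  have hc1 : c ≤ 1 := by have := g.vv; linarith
  obtain ⟨hs, -, -, -⟩ := l8z1_KC hI
  have h1 : c * (l8z1Tm I k0 - l8z1Tm I ka) ≤ I.KC k0 - I.KC ka := by
    rw [← l8z_g_tele I.KC h01, ← l8z_g_tele (l8z1Tm I) h01, Finset.mul_sum]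
    refine Finset.sum_le_sum fun k hk => ?_
    rw [Finset.mem_Ico] at hk
    rw [hs, l8z1_tm_succ]
    have hv : I.v k ≤ v1 := by
      have hn : ¬ (I.x ^ (1 / 200 : ℝ) ≤ I.v k) := fun hh => by have := (hk0 k).1 hh; omega
      have hvv := g.vv
      linarith [sm.b, not_le.1 hn]
    exact g.K_low k (by omega) hv
  have h2 : c * (I.x ^ (1 / 200 : ℝ) / 2 - I.x ^ 40) ≤ c * (l8z1Tm I k0 - l8z1Tm I ka) :=
    mul_le_mul_of_nonneg_left (by linarith) hc.le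
  have h3 : 0 ≤ l8z1Tm I k0 - l8z1Tm I ka := sub_nonneg.2 (l8z1_tm_mono hI h01)
  have h4 : c * (l8z1Tm I k0 - l8z1Tm I ka) ≤ l8z1Tm I k0 - l8z1Tm I ka := mul_le_of_le_one_left h3 hc1
  exact ⟨by linarith [sm.d], by linarith [sm.d]⟩

end one

/-- **Z1 = (D12).**  OWNER: helper171.      TEX[LL:eq:D12]
`P = I.sp false`: `l8i_ok`, `l8i_sus_h` (`mesh_c`: `16 · 3 N x^40 ≤ 1`), `l8i_pin` (`r = 1`), `l8i_S`, `l8i_B`, `l8i_dv`.   `l8z_d_D12` (SAd) twice, `V = x^𝔞/2`, `w = x^(9/25)`, `m ≥ x^(-6)/2`, `θ = x^(3/10)`.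
TIME: `τ = I.KC`, `e0 = c λ x^(2𝔞)/4` (`h_K`), `om = c ω` (`K_dens`), `kb = n`.      MASS: `τ k = I.v (k-1)` (`0` at `k = 0`), `e0 → e0 c ω` (`K_slow`), `om = 1`, `kb` = last cut of mass `≤ v_M`.
`1/(m e0 V ω) ≲ x^(6 - 21/4 - 3𝔞 - p_*)`; divided by `w`: `≤ x^(3/10)`.   Room below: `K_low`.   The end strips (`w` in the coordinate) by `0 ≤ D2 ≤ 1`. -/
theorem l8z_Z1 (c C v1 v2 : ℝ) (hc : 0 < c) : ∃ x0 : ℝ, 0 < x0 ∧ ∀ I : L8In, I.ZStd c C v1 v2 → I.x ≤ x0 → I.ZD12 := by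
  obtain ⟨x0, hx0, hsm⟩ := l8z1_sm c hc
  refine ⟨x0, hx0, fun I hI hx => ?_⟩
  have g := hI.geo
  have hxpos := l8z1_xpos hI
  have sm := hsm I.x hxpos hx
  have hc1 : c ≤ 1 := by have := g.vv; linarith
  obtain ⟨ka, k0, kb, h01, h0b, hbn, hka, hk0, hkb, hr⟩ := l8z1_cuts hI sm
  obtain ⟨r1, r2⟩ := l8z1_room hI hc sm h01 (h0b.trans hbn) hk0 hr
  obtain ⟨hs, hdK, hKm, hK0⟩ := l8z1_KC hI
  have hok := l8z1_ok hI
  have hw0 : 0 < I.x ^ (9 / 25 : ℝ) := Real.rpow_pos_of_pos hxpos _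
  have hθ0 : 0 < I.x ^ (3 / 10 : ℝ) := Real.rpow_pos_of_pos hxpos _
  have hμ0 : 0 ≤ I.x ^ 40 := by positivity
  have T1 := (skSP I.m I.a I.P0).l8z1_D12 hok (l8z1_D2_le_one _ hok) (l8z1_ZT_time hI hc sm hka) (by norm_num : (0 : ℝ) < 1 / 2)
    (l8z1_sus hI sm.e) (by norm_num : (0 : ℝ) ≤ 7 / 3) (l8z1_pin hI) hw0 hθ0 hμ0 h01 (h0b.trans hbn) r1
  have T2 := (skSP I.m I.a I.P0).l8z1_D12 hok (l8z1_D2_le_one _ hok) (l8z1_ZT_mass hI hc sm hka hkb hbn) (by norm_num : (0 : ℝ) < 1 / 2)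
    (l8z1_sus hI sm.e) (by norm_num : (0 : ℝ) ≤ 7 / 3) (l8z1_pin hI) hw0 hθ0 hμ0 h01 h0b r2
  have hsum := l8z1_sum (M := I.p.M) hc hc1 hxpos sm.x1 hI.pS (l8z1_m hI).2.1 sm.s1 sm.s2 sm.s3 sm.s4
  -- the lengths of the two coordinates
  have L1 : I.x ^ (3 / 10 : ℝ) * (I.KC I.n - I.KC k0) ≤ I.x ^ (3 / 10 : ℝ) * I.p.M :=
    mul_le_mul_of_nonneg_left (by linarith [g.K_tot, hK0 k0]) hθ0.le
  have L2 : I.x ^ (3 / 10 : ℝ) * (l8z1Tm I kb - l8z1Tm I k0) ≤ I.x ^ (3 / 10 : ℝ) * 4 := by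
    refine mul_le_mul_of_nonneg_left ?_ hθ0.le
    have e1 : 0 ≤ l8z1Tm I k0 := by
      have := l8z1_tm_mono hI (Nat.zero_le k0)
      simpa [l8z1Tm] using this
    have e2 : l8z1Tm I kb ≤ 4 := by
      have h1 := l8z1_tm_mono hI (Nat.le_succ_of_le hbn)
      have h2 : l8z1Tm I (I.n + 1) = 4 := by
        have : l8z1Tm I (I.n + 1) = I.v I.n := by simp [l8z1Tm]
        rw [this, l8z1_vn, g.a4]
      linarith
    linarith
  -- the two sums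
  have S1 : ∑ k ∈ (range I.n).filter (fun k => I.x ^ saA ≤ I.v k), I.zdK k * I.D2 k
      = ∑ k ∈ Finset.Ico k0 I.n, (I.KC (k + 1) - I.KC k) * (skSP I.m I.a I.P0).D2 k := by
    have es : (range I.n).filter (fun k => I.x ^ saA ≤ I.v k) = Finset.Ico k0 I.n := by
      ext k
      have a1 : I.x ^ saA ≤ I.v k ↔ k0 ≤ k := hk0 k
      simp only [Finset.mem_filter, Finset.mem_range, Finset.mem_Ico, a1]
      exact and_comm
    rw [es]
    refine Finset.sum_congr rfl fun k hk => ?_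
    rw [Finset.mem_Ico] at hk
    rw [hs, l8z1_D2 hI hk.2.le]
  have S2 : I.int (I.x ^ saA) I.zvM I.D2 = ∑ k ∈ Finset.Ico k0 kb, (l8z1Tm I (k + 1) - l8z1Tm I k) * (skSP I.m I.a I.P0).D2 k := by
    unfold L8In.int
    have es : (range (I.n + 1)).filter (fun k => I.x ^ saA ≤ I.v k ∧ I.v k ≤ I.zvM) = Finset.Ico k0 kb := by
      ext k
      have a1 : I.x ^ saA ≤ I.v k ↔ k0 ≤ k := hk0 k
      have a2 : I.v k ≤ I.zvM ↔ k < kb := by rw [← not_lt, hkb k, not_le]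
      simp only [Finset.mem_filter, Finset.mem_range, Finset.mem_Ico, a1, a2]
      constructor
      · rintro ⟨_, b1, b2⟩; exact ⟨b1, b2⟩
      · rintro ⟨b1, b2⟩; exact ⟨by omega, b1, b2⟩
    rw [es]
    refine Finset.sum_congr rfl fun k hk => ?_
    rw [Finset.mem_Ico] at hk
    rw [l8z1_tm_succ, l8z1_D2 hI (by omega)]
  unfold L8In.ZD12
  rw [S1, S2]
  linarith

/-! ### kit of helper296 (`l8zk_`): dictionary of one chain -/

theorem l8zk_len0 (I : L8In) : I.P0.length = I.n := by simp [L8In.P0, L8In.n, llMat]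

theorem l8zk_lenK (I : L8In) : I.zPK.length = I.n := by simp [L8In.zPK, L8In.n, llSc]

theorem l8zk_msK (I : L8In) : I.zPK.map SkInc.m = I.P0.map SkInc.m := by
  simp [L8In.zPK, L8In.P0, llSc, llMat, Function.comp_def]

theorem l8zk_idxK (I : L8In) (u : ℝ) : saIdx I.zPK u = saIdx I.P0 u := by rw [sap_idx_ms, sap_idx_ms, l8zk_msK]

theorem l8zk_cumK (I : L8In) (k : ℕ) : skCumH I.zPK k = I.KC k := by
  simp [L8In.zPK, L8In.KC, skCumH, llCumK, llSc, ← List.map_take, Function.comp_def]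

theorem l8zk_clkK (I : L8In) (h : SkAdm I.a I.zPK) (u : ℝ) : skClkH I.zPK u = I.KC (saIdx I.P0 u) := by
  rw [sap_clkH_idx h.1, l8zk_cumK, l8zk_idxK]

theorem l8zk_clkH (I : L8In) (h : SkAdm I.a I.P0) (u : ℝ) : skClkH I.P0 u = I.hC (saIdx I.P0 u) := sap_clkH_idx h.1 u

theorem l8zk_clkB (I : L8In) (h : SkAdm I.a I.P0) (u : ℝ) : skClkB I.P0 u = I.bC (saIdx I.P0 u) := sap_clkB_idx h.1 u

theorem l8zk_dbK (I : L8In) : ∀ e ∈ I.zPK, e.db = 0 := by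
  intro e he
  obtain ⟨e', _, rfl⟩ := List.mem_map.1 he
  rfl

theorem l8zk_KC_succ (I : L8In) {k : ℕ} (hk : k < I.n) : I.KC (k + 1) = I.KC k + I.zdK k := by
  rw [← l8zk_cumK, ← l8zk_cumK]
  exact (l8zp_cum_succ I.zPK (by rw [l8zk_lenK]; exact hk)).2

theorem l8zk_hC_succ (I : L8In) {k : ℕ} (hk : k < I.n) : I.hC (k + 1) = I.hC k + I.zdH k :=
  (l8zp_cum_succ I.P0 (by rw [l8zk_len0]; exact hk)).2

theorem l8zk_bC_succ (I : L8In) {k : ℕ} (hk : k < I.n) : I.bC (k + 1) = I.bC k + I.zdB k :=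
  (l8zp_cum_succ I.P0 (by rw [l8zk_len0]; exact hk)).1


theorem l8zk_KC_nonneg (I : L8In) (h : SkAdm I.a I.zPK) (k : ℕ) : 0 ≤ I.KC k := by
  rw [← l8zk_cumK]
  exact (l8zs_cumH_range (fun e he => (h.2 e he).2.2.2) k).1

theorem l8zk_G_nonneg {I : L8In} {c C v1 v2 ε : ℝ} (g : I.ZGeo c C v1 v2 ε) {t : ℝ} (ht : 0 ≤ t) : 0 ≤ I.zGam t := by
  have h := g.G_ftc 0 t le_rfl ht
  rw [g.G_zero, sub_zero] at h
  rw [h]
  exact intervalIntegral.integral_nonneg ht fun s hs => (g.G_pos s hs.1).1.le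

theorem l8zk_G_lip {I : L8In} {c C v1 v2 ε : ℝ} (g : I.ZGeo c C v1 v2 ε) {t t' : ℝ} (ht : 0 ≤ t) (ht' : 0 ≤ t') :
    |I.zGam t - I.zGam t'| ≤ C * |t - t'| := by
  have key : ∀ s s' : ℝ, 0 ≤ s → s ≤ s' → |I.zGam s' - I.zGam s| ≤ C * |s' - s| := by
    intro s s' hs hss
    rw [g.G_ftc s s' hs hss, ← Real.norm_eq_abs]
    refine intervalIntegral.norm_integral_le_of_norm_le_const fun r hr => ?_
    rw [uIoc_of_le hss] at hr
    have h0 : 0 ≤ r := hs.trans hr.1.le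
    rw [Real.norm_eq_abs, abs_of_pos (g.G_pos r h0).1]
    exact (g.G_pos r h0).2
  rcases le_total t t' with h | h
  · rw [abs_sub_comm, abs_sub_comm t]
    exact key t t' ht h
  · exact key t' t ht' h

theorem l8zk_zq_mem {I : L8In} {c C v1 v2 ε : ℝ} (g : I.ZGeo c C v1 v2 ε) (k : ℕ) : 0 ≤ I.zq k ∧ I.zq k ≤ 1 :=
  ⟨l8zk_G_nonneg g (l8zk_KC_nonneg I g.admK k), g.G_le _ (l8zk_KC_nonneg I g.admK k)⟩

theorem l8zk_C_pos {I : L8In} {c C v1 v2 ε : ℝ} (g : I.ZGeo c C v1 v2 ε) : 0 < C :=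
  lt_of_lt_of_le (g.G_pos 0 le_rfl).1 (g.G_pos 0 le_rfl).2

/-- the penalty density of monotone clocks is integrable -/
theorem l8zk_pen_int {a c D : ℝ} (ha : 0 ≤ a) {K h b : ℝ → ℝ} (hK : MonotoneOn K (Icc 0 a)) (hh : MonotoneOn h (Icc 0 a))
    (hb : MonotoneOn b (Icc 0 a)) (hc : 0 < c) (hbc : ∀ u ∈ Ioo 0 a, c ≤ b u) (hD : ∀ u ∈ Ioo 0 a, |K u - h u| ≤ D) :
    IntervalIntegrable (fun u => (K u - h u) ^ 2 / (4 * b u)) volume 0 a := by
  rw [intervalIntegrable_iff_integrableOn_Ioo_of_le ha]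
  have mm : ∀ {g : ℝ → ℝ}, MonotoneOn g (Icc 0 a) → AEMeasurable g (volume.restrict (Ioo 0 a)) := fun hg =>
    (aemeasurable_restrict_of_monotoneOn measurableSet_Icc hg).mono_measure (Measure.restrict_mono Set.Ioo_subset_Icc_self le_rfl)
  show Integrable _ (volume.restrict (Set.Ioo 0 a))
  refine Integrable.of_bound ((((mm hK).sub (mm hh)).pow_const 2).div ((mm hb).const_mul 4)).aestronglyMeasurable (D ^ 2 / (4 * c)) ?_
  refine (ae_restrict_iff' measurableSet_Ioo).2 (ae_of_all _ fun u hu => ?_)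
  have h1 := hbc u hu
  have h2 := hD u hu
  have h3 : (K u - h u) ^ 2 ≤ D ^ 2 := by rw [← sq_abs]; exact pow_le_pow_left₀ (abs_nonneg _) h2 2
  have h4 : 0 < b u := lt_of_lt_of_le hc h1
  show ‖(K u - h u) ^ 2 / (4 * b u)‖ ≤ _
  rw [Real.norm_eq_abs, abs_of_nonneg (by positivity)]
  exact div_le_div₀ (sq_nonneg _) h3 (by positivity) (by linarith)

/-- the penalty density moves little -/
theorem l8zk_pen_cmp {c D ε A A' b b' : ℝ} (hc : 0 < c) (hε0 : 0 ≤ ε) (hε1 : ε ≤ 1) (hb : c ≤ b) (hb' : c / 2 ≤ b') (hbb : |b - b'| ≤ ε)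
    (hA : |A| ≤ D) (hAA : |A - A'| ≤ 2 * ε) : A ^ 2 / (4 * b) - A' ^ 2 / (4 * b') ≤ ((D + 1) / c + (D + 2) ^ 2 / (2 * c ^ 2)) * ε := by
  have hD0 : 0 ≤ D := (abs_nonneg _).trans hA
  have hb0 : 0 < b := lt_of_lt_of_le hc hb
  have hb0' : 0 < b' := lt_of_lt_of_le (by positivity) hb'
  have hA' : |A'| ≤ D + 2 := by
    have : |A'| ≤ |A| + |A - A'| := by
      have := abs_sub_abs_le_abs_sub A' A
      rw [abs_sub_comm A' A] at this
      linarith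
    linarith
  have h1 : A ^ 2 ≤ A' ^ 2 + 2 * ε * (2 * D + 2) := by
    have e : A ^ 2 - A' ^ 2 = (A - A') * (A + A') := by ring
    have h2 : (A - A') * (A + A') ≤ |A - A'| * |A + A'| := by rw [← abs_mul]; exact le_abs_self _
    have h3 : |A + A'| ≤ 2 * D + 2 := (abs_add_le _ _).trans (by linarith)
    have h4 : |A - A'| * |A + A'| ≤ 2 * ε * (2 * D + 2) := mul_le_mul hAA h3 (abs_nonneg _) (by positivity)
    linarith
  have h2 : A' ^ 2 ≤ (D + 2) ^ 2 := by rw [← sq_abs]; exact pow_le_pow_left₀ (abs_nonneg _) hA' 2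
  have s1 : A ^ 2 / (4 * b) ≤ A' ^ 2 / (4 * b) + (D + 1) / c * ε := by
    have : A ^ 2 / (4 * b) ≤ (A' ^ 2 + 2 * ε * (2 * D + 2)) / (4 * b) := div_le_div_of_nonneg_right h1 (by positivity)
    refine this.trans ?_
    rw [add_div]
    have : 2 * ε * (2 * D + 2) / (4 * b) ≤ (D + 1) / c * ε := by
      have e : 2 * ε * (2 * D + 2) / (4 * b) = (D + 1) * ε / b := by field_simp; ring
      rw [e, div_mul_eq_mul_div]
      exact div_le_div_of_nonneg_left (by positivity) hc hb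
    linarith
  have s2 : A' ^ 2 / (4 * b) - A' ^ 2 / (4 * b') ≤ (D + 2) ^ 2 / (2 * c ^ 2) * ε := by
    have e : A' ^ 2 / (4 * b) - A' ^ 2 / (4 * b') = A' ^ 2 * (b' - b) / (4 * b * b') := by field_simp
    rw [e]
    have h5 : b' - b ≤ ε := by have := (abs_le.1 hbb).1; linarith
    have h6 : A' ^ 2 * (b' - b) ≤ (D + 2) ^ 2 * ε :=
      (mul_le_mul_of_nonneg_left h5 (sq_nonneg _)).trans (mul_le_mul_of_nonneg_right h2 hε0)
    have h7 : 2 * c ^ 2 ≤ 4 * b * b' := by nlinarith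
    rw [div_mul_eq_mul_div]
    exact div_le_div₀ (by positivity) h6 (by positivity) h7
  calc A ^ 2 / (4 * b) - A' ^ 2 / (4 * b') ≤ (D + 1) / c * ε + (D + 2) ^ 2 / (2 * c ^ 2) * ε := by linarith
    _ = _ := by ring


theorem l8zk_int_le {a ε : ℝ} (ha : 0 ≤ a) {f : ℝ → ℝ} (h : ∀ u ∈ Set.Ioo 0 a, |f u| ≤ ε) : ∫ u in (0 : ℝ)..a, |f u| ≤ a * ε := by
  rw [intervalIntegral.integral_of_le ha, integral_Ioc_eq_integral_Ioo]
  have h1 := norm_setIntegral_le_of_norm_le_const (μ := volume) (s := Set.Ioo 0 a) (f := fun u => |f u|) (C := ε) measure_Ioo_lt_top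
    (fun u hu => by rw [Real.norm_eq_abs, abs_abs]; exact h u hu)
  have h2 : volume.real (Set.Ioo 0 a) = a := by simp [Measure.real, ha]
  rw [h2] at h1
  calc ∫ u in Set.Ioo 0 a, |f u| ≤ ‖∫ u in Set.Ioo 0 a, |f u|‖ := le_abs_self _
    _ ≤ ε * a := h1
    _ = a * ε := mul_comm _ _

theorem l8zk_x_pos {I : L8In} (h : I.Ok) : 0 < I.x := llc_x_pos h.pt

theorem l8zk_m_pos {I : L8In} (h : I.Ok) : 0 < I.m := by
  have h1 := h.pt.N2
  have h2 := h.m_lo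
  omega

/-- `0 ≤ M` and `x³ M ≤ 1` -/
theorem l8zk_M {I : L8In} (h0 : 0 < I.x) (h1 : I.x ≤ 1) : 0 ≤ I.p.M ∧ I.x ^ 3 * I.p.M ≤ 1 := by
  have hL0 : 0 ≤ Real.log (1 / I.x) := Real.log_nonneg (by rw [le_div_iff₀ h0]; linarith)
  have hL1 : Real.log (1 / I.x) ≤ 1 / I.x := (Real.log_le_sub_one_of_pos (by positivity)).trans (by linarith)
  have e : I.p.M = Real.log (1 / I.x) ^ 3 := rfl
  rw [e]
  refine ⟨by positivity, ?_⟩
  calc I.x ^ 3 * Real.log (1 / I.x) ^ 3 ≤ I.x ^ 3 * (1 / I.x) ^ 3 := mul_le_mul_of_nonneg_left (pow_le_pow_left₀ hL0 hL1 3) (by positivity)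
    _ = 1 := by field_simp

/-- `|K - h| ≤ 2 C` on the chain -/
theorem l8zk_Kh {I : L8In} {c C v1 v2 ε : ℝ} (g : I.ZGeo c C v1 v2 ε) (h0 : 0 < I.x) (h1 : I.x ≤ 1) {k : ℕ} (hk : k ≤ I.n) :
    |I.KC k - I.hC k| ≤ 2 * C := by
  have hC := l8zk_C_pos g
  have e : I.KC k - I.hC k = I.bC k * I.zq k - I.zdd k := by unfold L8In.zdd; ring
  have hb0 : 0 ≤ I.bC k := by
    unfold L8In.bC skCumB
    refine List.sum_nonneg fun y hy => ?_
    obtain ⟨e, he, rfl⟩ := List.mem_map.1 hy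
    exact (g.adm0.2 e (List.mem_of_mem_take he)).2.2.1
  have hq := l8zk_zq_mem g k
  have h2 : I.bC k * I.zq k ≤ C * 1 := mul_le_mul (g.b_hi k hk) hq.2 hq.1 hC.le
  have h3 : 0 ≤ I.bC k * I.zq k := mul_nonneg hb0 hq.1
  have h4 : |I.zdd k| ≤ C := by
    refine (g.d_le k hk).trans ?_
    have := (l8zk_M h0 h1).2
    calc C * I.x ^ 3 * I.p.M = C * (I.x ^ 3 * I.p.M) := by ring
      _ ≤ C * 1 := mul_le_mul_of_nonneg_left this hC.le
      _ = C := mul_one _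
  rw [e, abs_le]
  have := abs_le.1 h4
  constructor <;> linarith [this.1, this.2]

/-- **Z2a = (C2) on the chain.**  OWNER: helper296.      `exit_clk_step_pr` (`skPr = skCPr` of the step clocks), `exit_clk_pr_lip` (`L¹`-Lipschitz) for `(b,h)` at size `m` and for `(0,K)` at size `1`, `l8z_decouple`
(`skPr m a zPK = skPr 1 a zPK`), `close`, `clkB_pos`, `|K - h| ≤ C + 1`: every term moves by `≤ C' x^40`.   `llBase.pres = skCPr` by `rfl`; `base`. -/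
theorem l8z_Z2a (c C v1 v2 : ℝ) (hc : 0 < c) : ∃ x0 : ℝ, 0 < x0 ∧ ∀ I : L8In, I.ZStd c C v1 v2 → I.x ≤ x0 →
    I.zE0 ≤ I.p.trialGap I.F I.𝔹 I.m + I.x ^ 30 := by
  set Kp : ℝ := (2 * |C| + 1) / c + (2 * |C| + 2) ^ 2 / (2 * c ^ 2) with hKp
  have hKp0 : 0 ≤ Kp := by positivity
  set A : ℝ := 5 + 4 * Kp with hA
  have hA0 : 0 < A := by positivity
  refine ⟨min 1 (min (c / 2) (1 / A)), by positivity, ?_⟩
  intro I hI hx
  simp only [le_min_iff] at hx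
  obtain ⟨hx1, hx2, hx3⟩ := hx
  have g := hI.geo
  have hx0 := l8zk_x_pos hI.ok
  have hm := l8zk_m_pos hI.ok
  have hC := l8zk_C_pos g
  have hCa : |C| = C := abs_of_pos hC
  have ha4 : I.a = 4 := g.a4
  have ha0 : 0 < I.a := by rw [ha4]; norm_num
  set ε : ℝ := I.x ^ 40 with hε
  have hε0 : 0 ≤ ε := by positivity
  have hεx : ε ≤ I.x := by
    calc I.x ^ 40 ≤ I.x ^ 1 := pow_le_pow_of_le_one hx0.le hx1 (by norm_num)
      _ = I.x := pow_one _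
  have hε1 : ε ≤ 1 := hεx.trans hx1
  have hεc : ε ≤ c / 2 := hεx.trans hx2
  -- the clocks
  set b := I.p.b I.F I.𝔹 with hb
  set h := I.p.h I.F I.𝔹 with hh
  set K := I.p.K I.F I.𝔹 with hK
  -- pressures
  have e1 : skPr I.m I.a I.zPK = skPr 1 I.a I.zPK := l8z_decouple I.m I.a I.zPK hm ha0 g.admK (l8zk_dbK I)
  obtain ⟨ad1, e2, -⟩ := exit_clk_step_pr (n := 1) one_pos ha0 I.zPK g.admK 0
  obtain ⟨ad0, e3, -⟩ := exit_clk_step_pr (n := I.m) hm ha0 I.P0 g.adm0 0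
  have l1 := exit_clk_pr_lip (n := 1) one_pos ha0 ad1 g.ckK
  have l0 := exit_clk_pr_lip (n := I.m) hm ha0 ad0 g.ck0
  have i1 : ∫ u in (0 : ℝ)..I.a, |skClkB I.zPK u - 0| ≤ I.a * 0 :=
    l8zk_int_le ha0.le fun u _ => by rw [sap_clkB_zero I.zPK (l8zk_dbK I) u]; simp
  have i2 : ∫ u in (0 : ℝ)..I.a, |skClkH I.zPK u - K u| ≤ I.a * ε := l8zk_int_le ha0.le fun u hu => (g.close u hu).2.2
  have i3 : ∫ u in (0 : ℝ)..I.a, |skClkB I.P0 u - b u| ≤ I.a * ε := l8zk_int_le ha0.le fun u hu => (g.close u hu).1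
  have i4 : ∫ u in (0 : ℝ)..I.a, |skClkH I.P0 u - h u| ≤ I.a * ε := l8zk_int_le ha0.le fun u hu => (g.close u hu).2.1
  have f1 : I.𝔹.fspin I.a K = skCPr 1 I.a (fun _ => 0) K := by
    rw [hI.base]
    exact llBase_pres one_pos ha0 g.ckK.1 g.ckK.2
  have f0 : I.p.f0 I.F I.𝔹 I.m = skCPr I.m I.a b h := by
    show I.𝔹.pres I.m I.a b h = _
    rw [hI.base]
    exact llBase_pres hm ha0 g.ck0.1 g.ck0.2
  -- the penalty
  have hAk : ∀ u ∈ Set.Ioo 0 I.a, |skClkH I.zPK u - skClkH I.P0 u| ≤ 2 * |C| := by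
    intro u _
    rw [l8zk_clkK I g.admK, l8zk_clkH I g.adm0, hCa]
    exact l8zk_Kh g hx0 hx1 (by rw [← l8zk_len0]; exact sap_idx_le _ _)
  have hb' : ∀ u ∈ Set.Ioo 0 I.a, c / 2 ≤ b u := by
    intro u hu
    have h1 := g.clkB_pos u ⟨hu.1.le, hu.2.le⟩
    have h2 := (abs_le.1 (g.close u hu).1).2
    linarith
  have hAA : ∀ u ∈ Set.Ioo 0 I.a, |(skClkH I.zPK u - skClkH I.P0 u) - (K u - h u)| ≤ 2 * ε := by
    intro u hu
    have h1 := abs_le.1 (g.close u hu).2.1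
    have h2 := abs_le.1 (g.close u hu).2.2
    rw [abs_le]
    constructor <;> linarith [h1.1, h1.2, h2.1, h2.2]
  have n1 : IntervalIntegrable (fun u => (skClkH I.zPK u - skClkH I.P0 u) ^ 2 / (4 * skClkB I.P0 u)) volume 0 I.a :=
    l8zp_pen_int ha0.le I.P0 g.adm0.1 ad1.2.1
  have n2 : IntervalIntegrable (fun u => (K u - h u) ^ 2 / (4 * b u)) volume 0 I.a := by
    refine l8zk_pen_int (c := c / 2) (D := 2 * |C| + 2) ha0.le g.ckK.2.1 g.ck0.2.1 g.ck0.1.1 (by positivity) hb' fun u hu => ?_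
    have h1 := abs_le.1 (hAk u hu)
    have h2 := abs_le.1 (hAA u hu)
    rw [abs_le]
    constructor <;> linarith [h1.1, h1.2, h2.1, h2.2]
  have pen : (∫ u in (0 : ℝ)..I.a, (skClkH I.zPK u - skClkH I.P0 u) ^ 2 / (4 * skClkB I.P0 u)) - ∫ u in (0 : ℝ)..I.a, (K u - h u) ^ 2 / (4 * b u)
      ≤ I.a * (Kp * ε) := by
    rw [← intervalIntegral.integral_sub n1 n2]
    have := intervalIntegral.integral_mono_on_of_le_Ioo ha0.le (n1.sub n2) (intervalIntegrable_const (c := Kp * ε)) fun u hu =>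
      l8zk_pen_cmp hc hε0 hε1 (g.clkB_pos u ⟨hu.1.le, hu.2.le⟩) (hb' u hu) (g.close u hu).1 (hAk u hu) (hAA u hu)
    refine this.trans (le_of_eq ?_)
    rw [intervalIntegral.integral_const, sub_zero, smul_eq_mul]
  have tg : I.p.trialGap I.F I.𝔹 I.m = skCPr 1 I.a (fun _ => 0) K + (∫ u in (0 : ℝ)..I.a, (K u - h u) ^ 2 / (4 * b u)) - skCPr I.m I.a b h := by
    rw [← f1, ← f0]
    rfl
  have fin : A * ε ≤ I.x ^ 30 := by
    have e : ε = I.x ^ 30 * I.x ^ 10 := by rw [hε, ← pow_add]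
    have h10 : I.x ^ 10 ≤ I.x := by
      calc I.x ^ 10 ≤ I.x ^ 1 := pow_le_pow_of_le_one hx0.le hx1 (by norm_num)
        _ = I.x := pow_one _
    have h11 : A * I.x ^ 10 ≤ 1 := by
      have : A * I.x ≤ 1 := by rw [le_div_iff₀ hA0] at hx3; linarith
      nlinarith
    calc A * ε = I.x ^ 30 * (A * I.x ^ 10) := by rw [e]; ring
      _ ≤ I.x ^ 30 * 1 := mul_le_mul_of_nonneg_left h11 (by positivity)
      _ = I.x ^ 30 := mul_one _
  unfold L8In.zE0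
  rw [tg, e1, ← e2, ← e3]
  have q1 := (abs_le.1 l1).2
  have q0 := (abs_le.1 l0).1
  rw [ha4] at i1 i2 i3 i4 pen
  rw [ha4] at q1 q0 ⊢
  rw [hA] at fin
  linarith

/-! ### kit for Z2 (helper296) -/

theorem l8zk_mem (a : ℝ) {P : SkStp} {e : SkInc} (he : e ∈ P) : ∃ k < P.length, skMs a P k = e.m ∧ saDb P k = e.db ∧ saDh P k = e.dh := by
  obtain ⟨k, hk, rfl⟩ := List.mem_iff_getElem.1 he
  refine ⟨k, hk, ?_, ?_, ?_⟩ <;> simp [skMs, saDb, saDh, List.getD_eq_getElem?_getD, hk]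

theorem l8zk_inc_nonneg {I : L8In} {c C v1 v2 ε : ℝ} (g : I.ZGeo c C v1 v2 ε) {k : ℕ} (hk : k < I.n) :
    0 ≤ I.zdB k ∧ 0 ≤ I.zdH k ∧ 0 ≤ I.zdK k := by
  obtain ⟨e, he, -, h2, h3⟩ := l8zp_ms_mem I.a I.P0 (k := k) (by rw [l8zk_len0]; exact hk)
  obtain ⟨e', he', -, -, h3'⟩ := l8zp_ms_mem I.a I.zPK (k := k) (by rw [l8zk_lenK]; exact hk)
  refine ⟨?_, ?_, ?_⟩
  · show 0 ≤ saDb I.P0 k
    rw [h2]; exact (g.adm0.2 e he).2.2.1
  · show 0 ≤ saDh I.P0 k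
    rw [h3]; exact (g.adm0.2 e he).2.2.2
  · show 0 ≤ saDh I.zPK k
    rw [h3']; exact (g.admK.2 e' he').2.2.2

theorem l8zk_dv_nonneg {I : L8In} {c C v1 v2 ε : ℝ} (g : I.ZGeo c C v1 v2 ε) (k : ℕ) : 0 ≤ I.dv k :=
  pin_gap_nonneg (by rw [g.a4]; norm_num) I.P0 g.adm0 k

theorem l8zk_v_top (I : L8In) : I.v I.n = I.a := by
  unfold L8In.v skMs
  rw [List.getD_eq_default _ _ (by simp [l8zk_len0])]

/-- the masses of the chain are `ε`-dense -/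
theorem l8zk_dense {I : L8In} {c C v1 v2 ε : ℝ} (g : I.ZGeo c C v1 v2 ε) {w : ℝ} (hw0 : 0 < w) (hw : w + ε < I.a) :
    ∃ e ∈ I.P0, w ≤ e.m ∧ e.m < w + ε := by
  classical
  have hε : 0 ≤ ε := (l8zk_dv_nonneg g 0).trans (g.mesh_v 0 (Nat.zero_le _))
  have hex : ∃ k, w ≤ I.v k := ⟨I.n, by rw [l8zk_v_top]; linarith⟩
  set k := Nat.find hex with hk
  have h1 : w ≤ I.v k := Nat.find_spec hex
  have h2 : ∀ j < k, I.v j < w := fun j hj => not_le.1 (Nat.find_min hex hj)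
  have hkn : k ≤ I.n := Nat.find_min' hex (by rw [l8zk_v_top]; linarith)
  have h3 : I.v k < w + ε := by
    have hd := g.mesh_v k hkn
    have e : I.dv k = I.v k - (if k = 0 then 0 else I.v (k - 1)) := rfl
    rw [e] at hd
    by_cases h0 : k = 0
    · rw [if_pos h0] at hd; linarith
    · rw [if_neg h0] at hd
      have := h2 (k - 1) (by omega)
      linarith
  have hlt : k < I.n := by
    rcases hkn.eq_or_lt with h | h
    · rw [h, l8zk_v_top] at h3; linarith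
    · exact h
  obtain ⟨e, he, hm, -, -⟩ := l8zp_ms_mem I.a I.P0 (k := k) (by rw [l8zk_len0]; exact hlt)
  have hm' : I.v k = e.m := hm
  exact ⟨e, he, by rw [← hm']; exact h1, by rw [← hm']; exact h3⟩

/-- the cut after all the revelations at the mass of the revelation `k` -/
theorem l8zk_idx_v {I : L8In} {c C v1 v2 ε : ℝ} (g : I.ZGeo c C v1 v2 ε) {k : ℕ} (hk : k < I.n) (hx : 2 * I.x ≤ I.v k) :
    saIdx I.P0 (I.v k) ≤ I.n ∧ I.KC (saIdx I.P0 (I.v k)) = I.KC k + I.zdK k := by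
  obtain ⟨h1, h2⟩ := l8zc_idx I.a (I.v k) I.P0 g.adm0.1
  rw [l8zk_len0] at h1 h2
  set j := saIdx I.P0 (I.v k) with hj
  have hkj : k < j := (h2 k hk).1 le_rfl
  have h3 : I.v (j - 1) ≤ I.v k := (h2 (j - 1) (by omega)).2 (by omega)
  have h4 : I.v k ≤ I.v (j - 1) := l8zc_ms_mono I.a I.P0 g.adm0.1 (by omega) (by rw [l8zk_len0]; omega)
  have h5 := (g.same k j hkj h1 (le_antisymm h3 h4) hx).2.2
  exact ⟨h1, by rw [h5, l8zk_KC_succ I hk]⟩

/-- `z_k` of (D13) on the chain -/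
theorem l8zk_z {I : L8In} {c C v1 v2 ε : ℝ} (hc : 0 < c) (g : I.ZGeo c C v1 v2 ε) (h0 : 0 < I.x) {k : ℕ} (hk : k < I.n) (hx : 2 * I.x ≤ I.v k) :
    saZ I.a I.P0 (skClkH I.zPK) k = I.zq k + (I.zdK k - I.zdd k) / I.bC k := by
  have hb : 0 < I.bC k := lt_of_lt_of_le hc (g.b_lo k hk.le (by linarith))
  have e1 : skClkH I.zPK (skMs I.a I.P0 k) = I.KC k + I.zdK k := by
    rw [l8zk_clkK I g.admK]
    exact (l8zk_idx_v g hk hx).2
  unfold saZ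
  rw [e1]
  show (I.KC k + I.zdK k - I.hC k) / I.bC k = _
  unfold L8In.zdd
  field_simp
  ring


/-- `|z_k - Γ(K_k)| ≤ (ε + C x³ M)/c` -/
theorem l8zk_z_bd {I : L8In} {c C v1 v2 ε : ℝ} (hc : 0 < c) (g : I.ZGeo c C v1 v2 ε) (h0 : 0 < I.x) {k : ℕ} (hk : k < I.n) (hx : 2 * I.x ≤ I.v k) :
    |saZ I.a I.P0 (skClkH I.zPK) k - I.zq k| ≤ (ε + C * I.x ^ 3 * I.p.M) / c := by
  have hb : c ≤ I.bC k := g.b_lo k hk.le (by linarith)
  have hb0 : 0 < I.bC k := lt_of_lt_of_le hc hb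
  rw [l8zk_z hc g h0 hk hx, add_sub_cancel_left, abs_div, abs_of_pos hb0]
  have h1 : |I.zdK k - I.zdd k| ≤ ε + C * I.x ^ 3 * I.p.M := by
    have h2 := (g.mesh_c k hk).2.1
    have h3 := (l8zk_inc_nonneg g hk).2.2
    have h4 := abs_le.1 (g.d_le k hk.le)
    rw [abs_le]
    constructor <;> linarith [h4.1, h4.2]
  exact div_le_div₀ ((abs_nonneg _).trans h1) h1 hc hb

/-- the numerical conditions of Z2; `y = x^𝔞`, `V = τ = y`, `κ = y³`, `l = y⁵`, mesh `x^40` -/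
structure L8zkNum (c C C1 x M lam om : ℝ) : Prop where
  x0 : 0 < x
  x1 : x ≤ 1
  M0 : 0 ≤ M
  a : 2 * x ≤ x ^ saA
  cc : x ^ 40 ≤ (x ^ saA) ^ 5 / 4
  d : 6 * (x ^ saA) ^ 5 ≤ c
  e : C * (x ^ saA) ^ 3 + ((x ^ 40 + C * x ^ 3 * M) / c + C * x ^ 40) ≤ x ^ saA / 4
  f : C1 * ((x ^ saA) ^ 3 + (x ^ saA) ^ 5 / (32 * x ^ saA) + x ^ 40) * (1 + C / c ^ 2 / x ^ saA) ≤ x ^ saA / 4
  gg : 512 * (4 * (2 * x ^ 4)) < x ^ saA * x ^ (3 + 1 / 100 : ℝ) * ((x ^ saA) ^ 5) ^ 2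
  h : 16 * (4 * C * lam * x ^ (1 / 4 : ℝ) + x ^ 40) ≤ x ^ saA * (c ^ 2 * lam * (x ^ saA) ^ 2) * (x ^ saA) ^ 5
  i : x ^ saA + 6 * (x ^ saA) ^ 5 ≤ 1
  j : (x ^ 40 + C * x ^ 3 * M) / c ≤ c * x ^ saA
  k : (x ^ 40 + C * x ^ 3 * M) / c ≤ 1
  m1 : 6 * (x ^ saA) ^ 5 * M / (x ^ saA) ^ 3 ≤ x ^ saA
  m2 : 2 * (om * M) ≤ x ^ saA
  m4 : x + x ^ 40 ≤ x ^ saA
  lam0 : 0 < lam

/-- the variance error of the negative bumps -/
theorem l8zk_EDb {I : L8In} {c C v1 v2 : ℝ} (hI : I.ZStd c C v1 v2) (h12 : I.ZD12) (hlam : 0 ≤ I.lam) (hM : 0 ≤ I.p.om * I.p.M) :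
    (∑ k ∈ range I.P0.length, (if I.x ^ saA ≤ skMs I.a I.P0 k ∧ skMs I.a I.P0 k ≤ I.p.ell then saDb I.P0 k * (I.B (k + 1) - I.S (k + 1) ^ 2) else 0))
      ≤ 4 * C * I.lam * I.x ^ (1 / 4 : ℝ) + I.x ^ 40 := by
  have g := hI.geo
  have hC := l8zk_C_pos g
  have hm := l8zk_m_pos hI.ok
  have hx0 := l8zk_x_pos hI.ok
  have ha0 : 0 < I.a := by rw [g.a4]; norm_num
  have hy0 : 0 < I.x ^ saA := Real.rpow_pos_of_pos hx0 _
  have hell : I.p.ell ≤ I.zvM := by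
    unfold L8In.zvM
    have := hI.ok.pt.ell1
    nlinarith
  have hell4 : I.p.ell ≤ 4 := by
    refine hI.ok.pt.ell2.trans ?_
    calc (2 : ℝ) ^ (1 / 6 : ℝ) ≤ 2 ^ (1 : ℝ) := Real.rpow_le_rpow_of_exponent_le (by norm_num) (by norm_num)
      _ ≤ 4 := by norm_num
  have hD2 : ∀ k, 0 ≤ I.D2 k := fun k => by
    have := (fd_B_range hm ha0 I.P0 g.adm0 0 k).1
    show 0 ≤ obB _ _ _ _ _ - obS _ _ _ _ _ ^ 2
    linarith
  rw [l8zk_len0]
  -- termwise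
  have term : ∀ k ∈ range I.n, (if I.x ^ saA ≤ skMs I.a I.P0 k ∧ skMs I.a I.P0 k ≤ I.p.ell then saDb I.P0 k * (I.B (k + 1) - I.S (k + 1) ^ 2) else 0)
      ≤ 4 * C * I.lam * (if I.x ^ saA ≤ I.v k ∧ I.v k ≤ I.zvM then I.dv k * I.D2 k else 0) + I.x ^ 40 * (I.B (k + 1) - I.B k) := by
    intro k hk
    have hk' := Finset.mem_range.1 hk
    have hBm : 0 ≤ I.B (k + 1) - I.B k := sub_nonneg.2 (fd_B_mono hm ha0 I.P0 g.adm0 0 (Nat.le_succ k))
    have hdv := l8zk_dv_nonneg g k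
    by_cases hc1 : I.x ^ saA ≤ skMs I.a I.P0 k ∧ skMs I.a I.P0 k ≤ I.p.ell
    · have hc2 : I.x ^ saA ≤ I.v k ∧ I.v k ≤ I.zvM := ⟨hc1.1, hc1.2.trans hell⟩
      rw [if_pos hc1, if_pos hc2]
      have hv0 : 0 < I.v k := lt_of_lt_of_le hy0 hc1.1
      have hS0 := (fd_S_range hm ha0 I.P0 g.adm0 0 k).1
      have hSm := fd_S_mono hm ha0 I.P0 g.adm0 0 (Nat.le_succ k)
      have hSS : I.S k ^ 2 ≤ I.S (k + 1) ^ 2 := pow_le_pow_left₀ hS0 hSm 2
      have e1 : I.B (k + 1) - I.S (k + 1) ^ 2 ≤ I.D2 k + (I.B (k + 1) - I.B k) := by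
        have : I.D2 k = I.B k - I.S k ^ 2 := rfl
        linarith
      have hb0 := (l8zk_inc_nonneg g hk').1
      have hb1 : I.zdB k ≤ 4 * C * I.lam * I.dv k := by
        refine (g.b_lam k hk' hv0).trans ?_
        have : I.v k ≤ 4 := hc1.2.trans hell4
        have h5 : 0 ≤ C * I.lam * I.dv k := by positivity
        nlinarith
      have hb2 : I.zdB k ≤ I.x ^ 40 := (g.mesh_c k hk').2.2 hv0
      calc saDb I.P0 k * (I.B (k + 1) - I.S (k + 1) ^ 2) ≤ I.zdB k * (I.D2 k + (I.B (k + 1) - I.B k)) := mul_le_mul_of_nonneg_left e1 hb0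
        _ = I.zdB k * I.D2 k + I.zdB k * (I.B (k + 1) - I.B k) := by ring
        _ ≤ 4 * C * I.lam * I.dv k * I.D2 k + I.x ^ 40 * (I.B (k + 1) - I.B k) :=
            add_le_add (mul_le_mul_of_nonneg_right hb1 (hD2 k)) (mul_le_mul_of_nonneg_right hb2 hBm)
        _ = _ := by ring
    · rw [if_neg hc1]
      have : 0 ≤ (if I.x ^ saA ≤ I.v k ∧ I.v k ≤ I.zvM then I.dv k * I.D2 k else 0) := by
        split_ifs
        · exact mul_nonneg hdv (hD2 k)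
        · exact le_rfl
      positivity
  refine (Finset.sum_le_sum term).trans ?_
  rw [Finset.sum_add_distrib, ← Finset.mul_sum, ← Finset.mul_sum, Finset.sum_range_sub (fun k => I.B k)]
  have s1 : ∑ k ∈ range I.n, (if I.x ^ saA ≤ I.v k ∧ I.v k ≤ I.zvM then I.dv k * I.D2 k else 0) ≤ I.x ^ (1 / 4 : ℝ) := by
    have e2 : ∑ k ∈ range I.n, (if I.x ^ saA ≤ I.v k ∧ I.v k ≤ I.zvM then I.dv k * I.D2 k else 0) ≤ I.int (I.x ^ saA) I.zvM I.D2 := by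
      unfold L8In.int
      rw [Finset.sum_filter, Finset.sum_range_succ]
      have : 0 ≤ (if I.x ^ saA ≤ I.v I.n ∧ I.v I.n ≤ I.zvM then I.dv I.n * I.D2 I.n else 0) := by
        split_ifs
        · exact mul_nonneg (l8zk_dv_nonneg g _) (hD2 _)
        · exact le_rfl
      linarith
    have e3 : 0 ≤ ∑ k ∈ (range I.n).filter (fun k => I.x ^ saA ≤ I.v k), I.zdK k * I.D2 k :=
      Finset.sum_nonneg fun k hk => mul_nonneg (l8zk_inc_nonneg g (Finset.mem_range.1 (Finset.mem_filter.1 hk).1)).2.2 (hD2 k)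
    unfold L8In.ZD12 at h12
    linarith
  have s2 : I.B I.n - I.B 0 ≤ 1 := by
    have h1 := (fd_B_range hm ha0 I.P0 g.adm0 0 I.n).2
    have h2 := (fd_B_range hm ha0 I.P0 g.adm0 0 0).1
    have h3 : I.B I.n ≤ 1 := h1
    have h4 : 0 ≤ I.B 0 := (sq_nonneg _).trans h2
    linarith
  have p1 : 0 ≤ 4 * C * I.lam := by positivity
  have p2 : 0 ≤ I.x ^ 40 := by positivity
  nlinarith [mul_le_mul_of_nonneg_left s1 p1, mul_le_mul_of_nonneg_left s2 p2]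


theorem l8zk_ell {I : L8In} (h : I.Ok) : 1 ≤ I.p.ell ∧ I.p.ell ≤ 2 := by
  refine ⟨h.pt.ell1, h.pt.ell2.trans ?_⟩
  calc (2 : ℝ) ^ (1 / 6 : ℝ) ≤ 2 ^ (1 : ℝ) := Real.rpow_le_rpow_of_exponent_le (by norm_num) (by norm_num)
    _ = 2 := Real.rpow_one _

/-- **good points**: `l8z_cell` on the chain -/
theorem l8zk_good {I : L8In} {c C v1 v2 C1 : ℝ} (hc : 0 < c) (hC1 : 0 ≤ C1) (hI : I.ZStd c C v1 v2) (N : L8zkNum c C C1 I.x I.p.M I.lam I.p.om)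
    (h12 : I.ZD12)
    (hD13 : L8ZD13 I.a (I.x ^ saA) I.p.ell ((I.x ^ saA) ^ 3) (I.x ^ 40) (4 * (2 * I.x ^ 4)) C1 I.P0 (skClkH I.zPK) (saZ I.a I.P0 (skClkH I.zPK)) I.S I.B) :
    ∀ v0, I.x ^ saA + 3 * (I.x ^ saA) ^ 5 ≤ v0 → v0 ≤ I.p.ell - 3 * (I.x ^ saA) ^ 5 →
      skClkH I.zPK (v0 + 3 * (I.x ^ saA) ^ 5) - skClkH I.zPK (v0 - 3 * (I.x ^ saA) ^ 5) ≤ (I.x ^ saA) ^ 3 →
      |I.S (saIdx I.P0 v0) - I.zq (saIdx I.P0 v0)| ≤ I.x ^ saA := by
  have g := hI.geo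
  have hC := l8zk_C_pos g
  have hm := l8zk_m_pos hI.ok
  have hx0 := N.x0
  have ha4 : I.a = 4 := g.a4
  have ha0 : 0 < I.a := by rw [ha4]; norm_num
  set y := I.x ^ saA with hy
  have hy0 : 0 < y := Real.rpow_pos_of_pos hx0 _
  have hy1 : y ≤ 1 := Real.rpow_le_one hx0.le N.x1 (by norm_num [saA])
  obtain ⟨hl1, hl2⟩ := l8zk_ell hI.ok
  have hε0 : 0 < I.x ^ 40 := by positivity
  have hε1 : I.x ^ 40 ≤ 1 := pow_le_one₀ hx0.le N.x1
  have hlam := N.lam0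
  have hlen := l8zk_len0 I
  refine l8z_cell I.a y I.p.ell (y ^ 3) (I.x ^ 40) (4 * (2 * I.x ^ 4)) C1 (y ^ 5) y ((I.x ^ 40 + C * I.x ^ 3 * I.p.M) / c + C * I.x ^ 40) (I.x ^ 40) C (C / c ^ 2)
    (I.x ^ (3 + 1 / 100 : ℝ)) (c ^ 2 * I.lam * y ^ 2) (4 * C * I.lam * I.x ^ (1 / 4 : ℝ) + I.x ^ 40) v1 v2 I.P0 (skClkH I.zPK)
    (saZ I.a I.P0 (skClkH I.zPK)) I.S I.B I.zq g.adm0 hy0 (hy1.trans hl1) (by rw [ha4]; linarith) (by positivity)
    (by calc y ^ 5 ≤ y ^ 1 := pow_le_pow_of_le_one hy0.le hy1 (by norm_num)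
          _ = y := pow_one _)
    (by positivity) hε0.le hC1 hy0 hC.le (by positivity) (Real.rpow_pos_of_pos hx0 _) (by positivity) hε0 N.cc ?_ ?_ ?_ ?_ ?_ ?_ ?_ ?_ ?_ ?_ ?_ ?_ hD13
    N.e N.f N.gg N.h
  · -- density
    intro w hw
    exact l8zk_dense g (lt_of_lt_of_le hy0 hw.1) (by rw [ha4]; linarith [hw.2])
  · exact (exit_clk_step_pr (n := 1) one_pos ha0 I.zPK g.admK 0).1.2.1
  · exact fun j j' h => fd_S_mono hm ha0 I.P0 g.adm0 0 h
  · exact fun j j' h => fd_B_mono hm ha0 I.P0 g.adm0 0 h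
  · exact fun k => ⟨(fd_S_range hm ha0 I.P0 g.adm0 0 k).1, (fd_B_range hm ha0 I.P0 g.adm0 0 k).1⟩
  · -- Lipschitz response
    intro u _ w _
    rw [l8zk_clkK I g.admK, l8zk_clkK I g.admK]
    exact l8zk_G_lip g (l8zk_KC_nonneg I g.admK _) (l8zk_KC_nonneg I g.admK _)
  · -- `z`
    intro k hk h1 _
    rw [hlen] at hk
    have hxv : 2 * I.x ≤ I.v k := N.a.trans h1
    have hzb := abs_le.1 (l8zk_z_bd hc g hx0 hk hxv)
    have hq := g.q_lo k hk.le hxv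
    have hcy : c * y ≤ c * I.v k := mul_le_mul_of_nonneg_left h1 hc.le
    refine ⟨by linarith [hzb.1, N.j], ?_⟩
    have e1 : I.zq (saIdx I.P0 (skMs I.a I.P0 k)) = I.zGam (I.KC k + I.zdK k) := congrArg I.zGam (l8zk_idx_v g hk hxv).2
    have hK0 := l8zk_KC_nonneg I g.admK k
    have hd0 := (l8zk_inc_nonneg g hk).2.2
    have h3 := l8zk_G_lip g (t := I.KC k + I.zdK k) (t' := I.KC k) (by linarith) hK0
    rw [add_sub_cancel_left, abs_of_nonneg hd0] at h3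
    have h4 : C * I.zdK k ≤ C * I.x ^ 40 := mul_le_mul_of_nonneg_left (g.mesh_c k hk).2.1 hC.le
    have h5 := abs_le.1 (h3.trans h4)
    have e2 : I.zq k = I.zGam (I.KC k) := rfl
    rw [e1, abs_le]
    rw [← e2] at h5
    constructor <;> linarith [hzb.1, hzb.2, h5.1, h5.2]
  · exact l8zk_EDb hI h12 hlam.le (mul_nonneg (Real.rpow_nonneg hx0.le _) N.M0)
  · -- ratios
    intro k hk h1 h2
    rw [hlen] at hk
    have hxv : 2 * I.x ≤ I.v k := N.a.trans h1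
    have hv0 : 0 < I.v k := lt_of_lt_of_le hy0 h1
    have hdv := l8zk_dv_nonneg g k
    obtain ⟨hb0, hh0, hK0⟩ := l8zk_inc_nonneg g hk
    refine ⟨?_, g.h_lo k hk hxv h2⟩
    by_cases hv2 : v2 ≤ I.v k
    · have : saDb I.P0 k = 0 := g.b_top k hk hv2
      rw [this]
      have : 0 ≤ saDh I.P0 k := hh0
      positivity
    · have hv1 : I.v k ≤ v1 := by have := g.vv.2.1; linarith [not_le.1 hv2]
      have t1 := g.b_lam k hk hv0
      have t2 := g.h_K k hk hxv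
      have t3 := g.K_low k hk hv1
      rw [le_div_iff₀ hy0]
      have t4 : c ^ 2 * I.lam * I.v k ^ 2 * I.dv k ≤ I.zdH k := by
        refine le_trans ?_ t2
        have : 0 ≤ c * I.lam * I.v k ^ 2 := by positivity
        calc c ^ 2 * I.lam * I.v k ^ 2 * I.dv k = c * I.lam * I.v k ^ 2 * (c * I.dv k) := by ring
          _ ≤ c * I.lam * I.v k ^ 2 * I.zdK k := mul_le_mul_of_nonneg_left t3 this
      calc saDb I.P0 k * y ≤ (C * I.lam * I.v k * I.dv k) * I.v k := mul_le_mul t1 h1 hy0.le (by positivity)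
        _ = C / c ^ 2 * (c ^ 2 * I.lam * I.v k ^ 2 * I.dv k) := by field_simp
        _ ≤ C / c ^ 2 * saDh I.P0 k := mul_le_mul_of_nonneg_left t4 (by positivity)
  · -- low slope
    intro k hk h1 h2
    rw [hlen] at hk
    have hxv : 2 * I.x ≤ I.v k := N.a.trans h1
    have hdv := l8zk_dv_nonneg g k
    have t2 := g.h_K k hk hxv
    have t3 := g.K_low k hk h2
    refine le_trans ?_ t2
    have hyv : y ^ 2 ≤ I.v k ^ 2 := pow_le_pow_left₀ hy0.le h1 2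
    calc c ^ 2 * I.lam * y ^ 2 * skGap I.a I.P0 k = c * I.lam * y ^ 2 * (c * I.dv k) := by
          show c ^ 2 * I.lam * y ^ 2 * I.dv k = _
          ring
      _ ≤ c * I.lam * I.v k ^ 2 * I.zdK k := by
          refine mul_le_mul (mul_le_mul_of_nonneg_left hyv (by positivity)) t3 (by positivity) (by positivity)
  · intro k hk h1 _
    rw [hlen] at hk
    exact g.b_top k hk h1
  · have := g.vv.2.1
    linarith [N.d]


theorem l8zk_int_idx_le (P : SkStp) (G : ℕ → ℝ) {c d B : ℝ} (hcd : c ≤ d) (h : ∀ v ∈ Set.Ioo c d, G (saIdx P v) ≤ B) :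
    ∫ v in c..d, G (saIdx P v) ≤ B * (d - c) := by
  have := intervalIntegral.integral_mono_on_of_le_Ioo hcd (sap_idx_intble P G c d) (intervalIntegrable_const (c := B)) h
  refine this.trans (le_of_eq ?_)
  rw [intervalIntegral.integral_const, smul_eq_mul, mul_comm]

/-- **(D14)** from the good points, the wall and the freezing -/
theorem l8zk_d14 {I : L8In} {c C v1 v2 C1 : ℝ} (hI : I.ZStd c C v1 v2) (N : L8zkNum c C C1 I.x I.p.M I.lam I.p.om)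
    (hgood : ∀ v0, I.x ^ saA + 3 * (I.x ^ saA) ^ 5 ≤ v0 → v0 ≤ I.p.ell - 3 * (I.x ^ saA) ^ 5 →
      skClkH I.zPK (v0 + 3 * (I.x ^ saA) ^ 5) - skClkH I.zPK (v0 - 3 * (I.x ^ saA) ^ 5) ≤ (I.x ^ saA) ^ 3 →
      |I.S (saIdx I.P0 v0) - I.zq (saIdx I.P0 v0)| ≤ I.x ^ saA) (hF : I.ZFrz 1) : I.ZD14 15 := by
  have g := hI.geo
  have hm := l8zk_m_pos hI.ok
  have hx0 := N.x0
  have ha4 : I.a = 4 := g.a4
  have ha0 : 0 < I.a := by rw [ha4]; norm_num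
  set y := I.x ^ saA with hy
  have hy0 : 0 < y := Real.rpow_pos_of_pos hx0 _
  have hy1 : y ≤ 1 := Real.rpow_le_one hx0.le N.x1 (by norm_num [saA])
  obtain ⟨hl1, hl2⟩ := l8zk_ell hI.ok
  have hlen := l8zk_len0 I
  have hM0 := N.M0
  have hom : 0 ≤ I.p.om * I.p.M := mul_nonneg (Real.rpow_nonneg hx0.le _) hM0
  set G : ℕ → ℝ := fun k => |I.S k - I.zq k| with hG
  have hG1 : ∀ k, |I.S k - I.zq k| ≤ 1 := by
    intro k
    have h1 := fd_S_range hm ha0 I.P0 g.adm0 0 k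
    have h2 := l8zk_zq_mem g k
    have e : I.S k = obS I.m I.a I.P0 0 k := rfl
    rw [abs_le, e]
    constructor <;> linarith [h1.1, h1.2, h2.1, h2.2]
  have hK : MonotoneOn (skClkH I.zPK) (Set.Icc 0 I.a) := (exit_clk_step_pr (n := 1) one_pos ha0 I.zPK g.admK 0).1.2.1
  have hKM : skClkH I.zPK I.p.ell - skClkH I.zPK y ≤ I.p.M := by
    rw [l8zk_clkK I g.admK, l8zk_clkK I g.admK]
    have h1 : I.KC (saIdx I.P0 I.p.ell) ≤ I.KC I.n := by
      rw [← l8zk_cumK, ← l8zk_cumK]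
      exact l8z_e_cumH_mono g.admK (by rw [← hlen]; exact sap_idx_le _ _)
    have h2 := l8zk_KC_nonneg I g.admK (saIdx I.P0 y)
    linarith [g.K_tot]
  have mid := l8z_d14in I.a y I.p.ell (y ^ 5) (y ^ 3) y I.p.M I.P0 (skClkH I.zPK) I.S I.zq hy0.le (by rw [ha4]; linarith) (by positivity) (by positivity)
    hy0.le (by linarith [N.i]) hK hKM hG1 hgood
  -- the wall
  have hw1 : I.p.ell ≤ I.zvM := by unfold L8In.zvM; nlinarith
  have hw2 : I.zvM - I.p.ell ≤ y := by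
    have : I.zvM - I.p.ell = I.p.ell * (I.p.om * I.p.M) := by unfold L8In.zvM; ring
    rw [this]
    have := N.m2
    nlinarith
  have hw3 : I.zvM ≤ I.a := by rw [ha4]; linarith
  have tail : ∀ v ∈ Set.Ioo I.zvM I.a, G (saIdx I.P0 v) ≤ y := by
    intro v hv
    obtain ⟨h1, h2⟩ := l8zc_idx I.a v I.P0 g.adm0.1
    rw [hlen] at h1 h2
    set k := saIdx I.P0 v with hk
    have hvk : I.zvM ≤ I.v k := by
      rcases h1.eq_or_lt with h | h
      · rw [h, l8zk_v_top]; exact hw3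
      · have : ¬ skMs I.a I.P0 k ≤ v := fun h' => lt_irrefl k ((h2 k h).1 h')
        exact hv.1.le.trans (not_le.1 this).le
    have hKw := g.K_wall k h1 hvk
    obtain ⟨f1, f2⟩ := hF k h1 (by linarith)
    rw [pow_one] at f1 f2
    have h3 := abs_le.1 (g.q_sh k h1)
    have h4 := (fd_S_range hm ha0 I.P0 g.adm0 0 k).2
    have h5 := (l8zk_zq_mem g k).2
    have e : I.S k = obS I.m I.a I.P0 0 k := rfl
    have h6 := N.m4
    show |I.S k - I.zq k| ≤ y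
    rw [abs_le]
    constructor <;> linarith [h3.1, h3.2]
  have sumint := sap_sumInt I.a I.P0 G ha0 g.adm0
  have i1 := l8zk_int_idx_le I.P0 G hy0.le (B := 1) fun v _ => hG1 _
  have i3 := l8zk_int_idx_le I.P0 G hw1 (B := 1) fun v _ => hG1 _
  have i4 := l8zk_int_idx_le I.P0 G hw3 tail
  have a1 := intervalIntegral.integral_add_adjacent_intervals (sap_idx_intble I.P0 G 0 y) (sap_idx_intble I.P0 G y I.p.ell)
  have a2 := intervalIntegral.integral_add_adjacent_intervals (sap_idx_intble I.P0 G 0 I.p.ell) (sap_idx_intble I.P0 G I.p.ell I.zvM)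
  have a3 := intervalIntegral.integral_add_adjacent_intervals (sap_idx_intble I.P0 G 0 I.zvM) (sap_idx_intble I.P0 G I.zvM I.a)
  have y5 : y ^ 5 ≤ y := by
    calc y ^ 5 ≤ y ^ 1 := pow_le_pow_of_le_one hy0.le hy1 (by norm_num)
      _ = y := pow_one _
  unfold L8In.ZD14
  have e0 : ∑ k ∈ range (I.n + 1), I.dv k * |I.S k - I.zq k| = ∫ v in (0 : ℝ)..I.a, G (saIdx I.P0 v) := by
    rw [sumint, hlen]
    rfl
  rw [e0, ← a3, ← a2, ← a1]
  have mid' : ∫ v in y..I.p.ell, G (saIdx I.P0 v) ≤ y * (I.p.ell - y) + 6 * y ^ 5 + 6 * y ^ 5 * I.p.M / y ^ 3 := mid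
  have h7 : y * (I.p.ell - y) ≤ 2 * y := by nlinarith
  have h8 : y * (I.a - I.zvM) ≤ 4 * y := by
    have : I.a - I.zvM ≤ 4 := by rw [ha4]; linarith
    nlinarith
  have h9 := N.m1
  linarith


theorem l8zk_yM : ∃ x1 : ℝ, 0 < x1 ∧ ∀ x : ℝ, 0 < x → x ≤ x1 → 6 * x ^ saA * Real.log (1 / x) ^ 3 ≤ 1 := by
  have t := tendsto_log_mul_rpow_nhdsGT_zero (r := saA / 3) (by norm_num [saA])
  have t3 := (t.pow 3).const_mul (-6)
  have ev := t3.eventually_le_const (u := 1) (by norm_num)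
  obtain ⟨x1, hx1, h⟩ := mem_nhdsGT_iff_exists_Ioc_subset.1 ev
  refine ⟨x1, hx1, fun x h0 hx => ?_⟩
  have h2 : -6 * (Real.log x * x ^ (saA / 3)) ^ 3 ≤ 1 := h ⟨h0, hx⟩
  have e1 : Real.log (1 / x) = -Real.log x := by rw [one_div, Real.log_inv]
  have e2 : (x ^ (saA / 3)) ^ 3 = x ^ saA := by
    rw [← Real.rpow_natCast, ← Real.rpow_mul h0.le]
    congr 1
    norm_num
  calc 6 * x ^ saA * Real.log (1 / x) ^ 3 = -6 * (Real.log x * x ^ (saA / 3)) ^ 3 := by rw [e1, mul_pow, e2]; ring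
    _ ≤ 1 := h2

/-- the numerical conditions hold for small `x`, uniformly in `p_* ≤ 1/40000` -/
theorem l8zk_num (c C C1 : ℝ) (hc : 0 < c) (hC : 0 < C) (hC1 : 0 ≤ C1) : ∃ x0 : ℝ, 0 < x0 ∧ ∀ x pS : ℝ, 0 < x → x ≤ x0 → 0 < pS → pS ≤ 1 / 40000 →
    L8zkNum c C C1 x (Real.log (1 / x) ^ 3) (x ^ pS) (x ^ (5 + 1 / 4 : ℝ)) := by
  obtain ⟨x1, hx1, hyM⟩ := l8zk_yM
  set A0 : ℝ := 8192 + 6 / c + 4 * (2 * C + (1 + C) / c) + 12 * C1 * (1 + C / c ^ 2) + 128 * C / c ^ 2 + 32 / c ^ 2 + (1 + C) / c ^ 2 + (1 + C) / c with hA0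
  have p1 : 0 ≤ 6 / c := by positivity
  have p2 : 0 ≤ 4 * (2 * C + (1 + C) / c) := by positivity
  have p3 : 0 ≤ 12 * C1 * (1 + C / c ^ 2) := by positivity
  have p4 : 0 ≤ 128 * C / c ^ 2 := by positivity
  have p5 : 0 ≤ 32 / c ^ 2 := by positivity
  have p6 : 0 ≤ (1 + C) / c ^ 2 := by positivity
  have p7 : 0 ≤ (1 + C) / c := by positivity
  have hA1 : 8192 ≤ A0 := by rw [hA0]; linarith
  have hApos : 0 < A0 := by linarith
  refine ⟨min x1 ((1 / A0) ^ 200), by positivity, ?_⟩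
  intro x pS hx0 hx hp0 hp1
  have hxa := hx.trans (min_le_left _ _)
  have hxb := hx.trans (min_le_right _ _)
  set y := x ^ saA with hy
  set M := Real.log (1 / x) ^ 3 with hM
  have hy0 : 0 < y := Real.rpow_pos_of_pos hx0 _
  have hpow : ∀ n : ℕ, y ^ n = x ^ (saA * n) := fun n => by rw [hy, ← Real.rpow_natCast, ← Real.rpow_mul hx0.le]
  have hxy : x = y ^ 200 := by
    rw [hpow]
    have : saA * ((200 : ℕ) : ℝ) = 1 := by norm_num [saA]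
    rw [this, Real.rpow_one]
  have hyA : y ≤ 1 / A0 := by
    have h1 : y ^ 200 ≤ (1 / A0) ^ 200 := by rw [← hxy]; exact hxb
    exact le_of_pow_le_pow_left₀ (by norm_num) (by positivity) h1
  have hAy : A0 * y ≤ 1 := by rw [le_div_iff₀ hApos] at hyA; linarith
  have h8y : 8192 * y ≤ 1 := (mul_le_mul_of_nonneg_right hA1 hy0.le).trans hAy
  have hy1 : y ≤ 1 := by linarith
  have hx1' : x ≤ 1 := by rw [hxy]; exact pow_le_one₀ hy0.le hy1
  have yle : ∀ {n m : ℕ}, m ≤ n → y ^ n ≤ y ^ m := fun h => pow_le_pow_of_le_one hy0.le hy1 h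
  have yle1 : ∀ {n : ℕ}, 1 ≤ n → y ^ n ≤ y := fun h => by simpa using yle h
  have sm : ∀ t : ℝ, t ≤ A0 → t * y ≤ 1 := fun t ht => (mul_le_mul_of_nonneg_right ht hy0.le).trans hAy
  have sm2 : ∀ t : ℝ, t * y ≤ 1 → t * y ^ 2 ≤ y := fun t ht => by
    calc t * y ^ 2 = (t * y) * y := by ring
      _ ≤ 1 * y := mul_le_mul_of_nonneg_right ht hy0.le
      _ = y := one_mul _
  have hL0 : 0 ≤ Real.log (1 / x) := Real.log_nonneg (by rw [le_div_iff₀ hx0]; linarith)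
  have hM0 : 0 ≤ M := by positivity
  have hyM' : 6 * y * M ≤ 1 := hyM x hx0 hxa
  have hyM1 : y * M ≤ 1 := by
    have : 0 ≤ y * M := by positivity
    linarith
  -- the small quantities
  have eε : x ^ 40 = y ^ 8000 := by
    calc x ^ 40 = (y ^ 200) ^ 40 := by rw [← hxy]
      _ = y ^ 8000 := by rw [← pow_mul]
  have hε : x ^ 40 ≤ y ^ 10 := by rw [eε]; exact yle (by norm_num)
  have hε0 : 0 < x ^ 40 := by positivity
  have hw : x ^ 3 * M ≤ y ^ 10 := by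
    calc x ^ 3 * M = (y ^ 200) ^ 3 * M := by rw [← hxy]
      _ = y ^ 599 * (y * M) := by rw [← pow_mul]; ring
      _ ≤ y ^ 599 * 1 := mul_le_mul_of_nonneg_left hyM1 (by positivity)
      _ ≤ y ^ 10 := by rw [mul_one]; exact yle (by norm_num)
  have hδ : x ^ 40 + C * x ^ 3 * M ≤ (1 + C) * y ^ 10 := by
    have h1 := mul_le_mul_of_nonneg_left hw hC.le
    have e : C * x ^ 3 * M = C * (x ^ 3 * M) := by ring
    rw [e]
    linarith
  have hx2 : x ≤ y ^ 2 := by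
    calc x = y ^ 200 := hxy
      _ ≤ y ^ 2 := yle (by norm_num)
  have hyy : 2 * y ^ 2 ≤ y := sm2 2 (by linarith)
  have hlam0 : 0 < x ^ pS := Real.rpow_pos_of_pos hx0 _
  have hlam : y ≤ x ^ pS := Real.rpow_le_rpow_of_exponent_ge hx0 hx1' (by norm_num [saA]; linarith)
  have y10_2 : y ^ 10 ≤ y ^ 2 := yle (by norm_num)
  have h5 : y ^ 5 ≤ y := yle1 (by norm_num)
  refine ⟨hx0, hx1', hM0, ?_, ?_, ?_, ?_, ?_, ?_, ?_, ?_, ?_, ?_, ?_, ?_, ?_, hlam0⟩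
  · -- a
    linarith
  · -- cc
    calc x ^ 40 ≤ y ^ 10 := hε
      _ = y ^ 5 * y ^ 5 := by ring
      _ ≤ y ^ 5 * (1 / 4) := mul_le_mul_of_nonneg_left (h5.trans (by linarith)) (by positivity)
      _ = y ^ 5 / 4 := by ring
  · -- d
    have := sm (6 / c) (by rw [hA0]; linarith)
    rw [div_mul_eq_mul_div, div_le_one hc] at this
    linarith
  · -- e
    have h3 : y ^ 3 ≤ y ^ 2 := yle (by norm_num)
    have t1 : (x ^ 40 + C * x ^ 3 * M) / c ≤ (1 + C) / c * y ^ 2 := by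
      rw [div_mul_eq_mul_div]
      exact div_le_div_of_nonneg_right (hδ.trans (mul_le_mul_of_nonneg_left y10_2 (by positivity))) hc.le
    have t2 : C * x ^ 40 ≤ C * y ^ 2 := mul_le_mul_of_nonneg_left (hε.trans y10_2) hC.le
    have t3 : C * y ^ 3 ≤ C * y ^ 2 := mul_le_mul_of_nonneg_left h3 hC.le
    have t4 := sm2 _ (sm _ (by rw [hA0]; linarith : 4 * (2 * C + (1 + C) / c) ≤ A0))
    linarith
  · -- f
    have e1 : y ^ 5 / (32 * y) = y ^ 4 / 32 := by field_simp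
    have h43 : y ^ 4 ≤ y ^ 3 := yle (by norm_num)
    have h103 : y ^ 10 ≤ y ^ 3 := yle (by norm_num)
    have h40 : 0 < y ^ 4 := by positivity
    have t1 : y ^ 3 + y ^ 5 / (32 * y) + x ^ 40 ≤ 3 * y ^ 3 := by
      rw [e1]
      linarith
    have t2 : 1 + C / c ^ 2 / y ≤ (1 + C / c ^ 2) / y := by
      rw [add_div]
      have : 1 ≤ 1 / y := by rw [le_div_iff₀ hy0]; linarith
      linarith
    have t3 := sm _ (by rw [hA0]; linarith : 12 * C1 * (1 + C / c ^ 2) ≤ A0)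
    have q0 : 0 ≤ 1 + C / c ^ 2 / y := by positivity
    calc C1 * (y ^ 3 + y ^ 5 / (32 * y) + x ^ 40) * (1 + C / c ^ 2 / y) ≤ C1 * (3 * y ^ 3) * ((1 + C / c ^ 2) / y) :=
          mul_le_mul (mul_le_mul_of_nonneg_left t1 hC1) t2 q0 (by positivity)
      _ = (12 * C1 * (1 + C / c ^ 2) * y) * (y / 4) := by field_simp; ring
      _ ≤ 1 * (y / 4) := mul_le_mul_of_nonneg_right t3 (by positivity)
      _ = y / 4 := one_mul _
  · -- gg
    have e4 : x ^ 4 = y ^ 800 := by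
      calc x ^ 4 = (y ^ 200) ^ 4 := by rw [← hxy]
        _ = y ^ 800 := by rw [← pow_mul]
    have e5 : x ^ (3 + 1 / 100 : ℝ) = y ^ 602 := by
      rw [hpow]
      congr 1
      norm_num [saA]
    rw [e4, e5]
    have e6 : y * y ^ 602 * (y ^ 5) ^ 2 = y ^ 613 := by ring
    have e7 : 512 * (4 * (2 * y ^ 800)) = (4096 * y ^ 187) * y ^ 613 := by ring
    rw [e6, e7]
    have h187 : y ^ 187 ≤ y := yle1 (by norm_num)
    have h1 : 4096 * y ^ 187 < 1 := by linarith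
    calc (4096 * y ^ 187) * y ^ 613 < 1 * y ^ 613 := mul_lt_mul_of_pos_right h1 (by positivity)
      _ = y ^ 613 := one_mul _
  · -- h
    have e5 : x ^ (1 / 4 : ℝ) = y ^ 50 := by
      rw [hpow]
      congr 1
      norm_num [saA]
    rw [e5]
    have t1 := sm _ (by rw [hA0]; linarith : 128 * C / c ^ 2 ≤ A0)
    have t2 := sm _ (by rw [hA0]; linarith : 32 / c ^ 2 ≤ A0)
    rw [div_mul_eq_mul_div, div_le_one (by positivity)] at t1 t2
    have h42 : y ^ 42 ≤ y := yle1 (by norm_num)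
    have s0 : 128 * C * y ^ 42 ≤ c ^ 2 := (mul_le_mul_of_nonneg_left h42 (by positivity)).trans t1
    have s1 : 128 * C * x ^ pS * y ^ 50 ≤ c ^ 2 * x ^ pS * y ^ 8 := by
      calc 128 * C * x ^ pS * y ^ 50 = (128 * C * y ^ 42) * (x ^ pS * y ^ 8) := by ring
        _ ≤ c ^ 2 * (x ^ pS * y ^ 8) := mul_le_mul_of_nonneg_right s0 (by positivity)
        _ = c ^ 2 * x ^ pS * y ^ 8 := by ring
    have s2 : 32 * x ^ 40 ≤ c ^ 2 * x ^ pS * y ^ 8 := by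
      calc 32 * x ^ 40 ≤ 32 * y ^ 10 := by linarith
        _ = (32 * y) * (y * y ^ 8) := by ring
        _ ≤ c ^ 2 * (x ^ pS * y ^ 8) :=
            mul_le_mul t2 (mul_le_mul_of_nonneg_right hlam (by positivity)) (by positivity) (by positivity)
        _ = c ^ 2 * x ^ pS * y ^ 8 := by ring
    have e8 : y * (c ^ 2 * x ^ pS * y ^ 2) * y ^ 5 = c ^ 2 * x ^ pS * y ^ 8 := by ring
    rw [e8]
    linarith
  · -- i
    linarith
  · -- j
    have t1 := sm _ (by rw [hA0]; linarith : (1 + C) / c ^ 2 ≤ A0)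
    rw [div_mul_eq_mul_div, div_le_one (by positivity)] at t1
    rw [div_le_iff₀ hc]
    calc x ^ 40 + C * x ^ 3 * M ≤ (1 + C) * y ^ 10 := hδ
      _ ≤ (1 + C) * y ^ 2 := mul_le_mul_of_nonneg_left y10_2 (by positivity)
      _ = ((1 + C) * y) * y := by ring
      _ ≤ c ^ 2 * y := mul_le_mul_of_nonneg_right t1 hy0.le
      _ = c * y * c := by ring
  · -- k
    have t1 := sm _ (by rw [hA0]; linarith : (1 + C) / c ≤ A0)
    rw [div_mul_eq_mul_div, div_le_one hc] at t1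
    rw [div_le_one hc]
    have h101 : y ^ 10 ≤ y := yle1 (by norm_num)
    have : (1 + C) * y ^ 10 ≤ (1 + C) * y := mul_le_mul_of_nonneg_left h101 (by positivity)
    linarith
  · -- m1
    have e : 6 * y ^ 5 * M / y ^ 3 = (6 * y * M) * y := by field_simp
    rw [e]
    calc (6 * y * M) * y ≤ 1 * y := mul_le_mul_of_nonneg_right hyM' hy0.le
      _ = y := one_mul _
  · -- m2
    have e5 : x ^ (5 + 1 / 4 : ℝ) = y ^ 1050 := by
      rw [hpow]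
      congr 1
      norm_num [saA]
    rw [e5]
    have e : 2 * (y ^ 1050 * M) = 2 * y ^ 1049 * (y * M) := by ring
    have h1049 : y ^ 1049 ≤ y ^ 2 := yle (by norm_num)
    rw [e]
    calc 2 * y ^ 1049 * (y * M) ≤ 2 * y ^ 1049 * 1 := mul_le_mul_of_nonneg_left hyM1 (by positivity)
      _ ≤ y := by linarith
  · -- m4
    linarith


/-- **Z2 = (D13) + (D14).**  OWNER: helper296.      TEX[LL:eq:D13] TEX[LL:eq:D14] l.1059-1190.
`l8z_d13_pf` (`bmin = c`, `zmax = 2`) gives `L8ZD13 a V L κ ε E C1 P0 (skClkH zPK) (saZ ..) S B`, `V = x^𝔞`, `L = ℓ`, `κ = x^(3𝔞)`, `E = 4 zE0 ≤ 8 x^4`.   `l8z_cell` with `q = I.zq`, `l = x^(5𝔞)`, `τ = Cτ x^𝔞`,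
`Lq = C` (`skClkH zPK u = I.KC (saIdx u)`, `G_pos`), `εd = C' x^3 M` (`d_le`, `same`, `mesh_c`), `Cb = C/c²` (`b_lam, h_K, K_low`; `db = 0` above `v2`), `η0 = x^(3+1/100)` (`h_lo`), `η1 = c² λ x^(2𝔞)` (`h_K`, `K_low`), `v1, v2` of the geometry,
`EDb ≤ 4 C λ x^(1/4) + x^30` (`b_lam`; `D2 (k+1) ≤ D2 k + B (k+1) - B k`, `ZD12`).   Numerics: `x^(3 + 1/100 + 11𝔞) ≫ x^4`, `λ x^(8𝔞) ≫ λ x^(1/4)`.   `l8z_d14in`, `l8z_sumInt`.
TAILS: `[0, V]` costs `V`; `[ℓ, v_M]` costs `ℓ ω M`; beyond `v_M`: `K_wall` + `ZFrz 1` + `q_sh`. -/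
theorem l8z_Z2 (c C v1 v2 : ℝ) (hc : 0 < c) :
    ∃ C14 x0 : ℝ, 0 < x0 ∧ ∀ I : L8In, I.ZStd c C v1 v2 → I.x ≤ x0 → I.zE0 ≤ 2 * I.x ^ 4 → I.ZD12 → I.ZFrz 1 → I.ZD14 C14 := by
  by_cases hC : 0 < C
  swap
  · exact ⟨0, 1, one_pos, fun I hI => absurd (l8zk_C_pos hI.geo) hC⟩
  obtain ⟨C1, hC1, h13⟩ := l8z_d13_pf c 2 hc (by norm_num)
  obtain ⟨x0, hx0, hnum⟩ := l8zk_num c C C1 hc hC hC1
  refine ⟨15, x0, hx0, fun I hI hx hE h12 hF => ?_⟩
  have g := hI.geo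
  have hxp := l8zk_x_pos hI.ok
  have hm := l8zk_m_pos hI.ok
  have ha4 : I.a = 4 := g.a4
  have ha0 : 0 < I.a := by rw [ha4]; norm_num
  have hlam : I.lam = I.x ^ I.F.pS := (hI.ok.pt.sm_fin hI.siz.1).1
  have N : L8zkNum c C C1 I.x I.p.M I.lam I.p.om := by
    rw [hlam]
    exact hnum I.x I.F.pS hxp hx hI.pS0 hI.pS
  have hy0 : 0 < I.x ^ saA := Real.rpow_pos_of_pos hxp _
  have hy1 : I.x ^ saA ≤ 1 := Real.rpow_le_one hxp.le N.x1 (by norm_num [saA])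
  obtain ⟨hl1, hl2⟩ := l8zk_ell hI.ok
  have hD13 : L8ZD13 I.a (I.x ^ saA) I.p.ell ((I.x ^ saA) ^ 3) (I.x ^ 40) (4 * (2 * I.x ^ 4)) C1 I.P0 (skClkH I.zPK)
      (saZ I.a I.P0 (skClkH I.zPK)) I.S I.B := by
    intro φ α β σ s hVα hαβ hβL hσ0 hσ1 hbump hosc hsign
    refine h13 I.m I.a α β ((I.x ^ saA) ^ 3) σ (I.x ^ 40) (2 * I.x ^ 4) I.P0 I.zPK φ s hm ha0 g.adm0 g.admK (l8zk_dbK I)
      (fun u hu h0 => absurd (g.clkB_pos u hu) (by rw [h0]; linarith)) hE (lt_of_lt_of_le hy0 hVα) hαβ (by rw [ha4]; linarith)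
      (by positivity) (pow_le_one₀ hy0.le hy1) hσ0 hσ1 (by positivity) (pow_le_one₀ hxp.le N.x1) hbump hosc ?_ ?_ hsign
    · intro e he h1 _
      obtain ⟨k, hk, e1, e2, e3⟩ := l8zk_mem I.a he
      rw [l8zk_len0] at hk
      have hv : 0 < I.v k := by
        show 0 < skMs I.a I.P0 k
        rw [e1]
        exact lt_of_lt_of_le hy0 (hVα.trans h1)
      rw [← e2, ← e3]
      exact ⟨(g.mesh_c k hk).2.2 hv, (g.mesh_c k hk).1⟩
    · intro k hk h1 _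
      rw [l8zk_len0] at hk
      have hyv : I.x ^ saA ≤ I.v k := hVα.trans h1
      have hxv : 2 * I.x ≤ I.v k := N.a.trans hyv
      refine ⟨g.b_lo k hk.le (lt_of_lt_of_le hy0 hyv), ?_⟩
      have hzb := abs_le.1 ((l8zk_z_bd hc g hxp hk hxv).trans N.k)
      have hq := l8zk_zq_mem g k
      rw [abs_le]
      constructor <;> linarith [hzb.1, hzb.2, hq.1, hq.2]
  exact l8zk_d14 hI N (l8zk_good hc hC1 hI N h12 hD13) hF

/-- arithmetic of the freezing step: `M = log³ (1/x)` beats every constant and every power -/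
theorem l8z3_arith (c C : ℝ) (hc : 0 < c) (K : ℕ) : ∃ x0 : ℝ, 0 < x0 ∧ ∀ x : ℝ, 0 < x → x ≤ x0 →
    x ≤ 1 ∧ C ≤ Real.log (1 / x) ^ 3 / 4 ∧ 2 * (C * x ^ 3 * Real.log (1 / x) ^ 3) ≤ 1 ∧
      Real.exp (-(c ^ 2 / 4) * (Real.log (1 / x) ^ 3 / 4 - 2 * C - 2)) ≤ x ^ K := by
  set A : ℝ := 16 / c ^ 2 * (K + c ^ 2 / 4 * (2 * |C| + 2)) with hA
  set L0 : ℝ := max 1 (max A (16 * |C|)) with hL0
  have hL01 : 1 ≤ L0 := le_max_left _ _
  refine ⟨Real.exp (-L0), Real.exp_pos _, fun x hx hxx => ?_⟩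
  set L := Real.log (1 / x) with hL
  have hLx : L = -Real.log x := by rw [hL, one_div, Real.log_inv]
  have hLL : L0 ≤ L := by
    have := Real.log_le_log hx hxx
    rw [Real.log_exp] at this
    linarith
  have hL1 : 1 ≤ L := hL01.trans hLL
  have hLA : A ≤ L := ((le_max_left _ _).trans (le_max_right _ _)).trans hLL
  have hLC : 16 * |C| ≤ L := ((le_max_right _ _).trans (le_max_right _ _)).trans hLL
  have hxe : x = Real.exp (-L) := by rw [hLx, neg_neg, Real.exp_log hx]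
  have hC := le_abs_self C
  have hC0 := abs_nonneg C
  have hL2 : L ≤ L ^ 2 := by nlinarith
  have hL3 : L ≤ L ^ 3 := by nlinarith
  refine ⟨?_, ?_, ?_, ?_⟩
  · rw [hxe]; exact Real.exp_le_one_iff.2 (by linarith)
  · linarith
  · -- `x L ≤ 2 / L`
    have h1 : L ^ 2 / 2 ≤ Real.exp L := by
      have := Real.quadratic_le_exp_of_nonneg (by linarith : 0 ≤ L)
      linarith
    have h2 : x * Real.exp L = 1 := by rw [hxe, ← Real.exp_add]; simp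
    have h3 : x * L ^ 2 ≤ 2 := by
      have := mul_le_mul_of_nonneg_left h1 hx.le
      rw [h2] at this
      linarith
    have h4 : 0 ≤ x * L := by positivity
    have hx1 : x ≤ 1 := by rw [hxe]; exact Real.exp_le_one_iff.2 (by linarith)
    -- `x³ L³ ≤ x L³ = (x L²) L`; instead: `x^3 L^3 * L ≤ (x L^2)^2 ≤ 4`
    have h5 : x ^ 3 * L ^ 3 * L ≤ 4 := by
      have e : x ^ 3 * L ^ 3 * L = x * (x * L ^ 2) ^ 2 := by ring
      rw [e]
      have h6 : (x * L ^ 2) ^ 2 ≤ 4 := by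
        have h7 : 0 ≤ x * L ^ 2 := by positivity
        nlinarith
      calc x * (x * L ^ 2) ^ 2 ≤ 1 * 4 := mul_le_mul hx1 h6 (by positivity) zero_le_one
        _ = 4 := by norm_num
    have h8 : 0 ≤ x ^ 3 * L ^ 3 := by positivity
    have h9 : |C| * (x ^ 3 * L ^ 3) * 16 ≤ 4 := by
      calc |C| * (x ^ 3 * L ^ 3) * 16 = (x ^ 3 * L ^ 3) * (16 * |C|) := by ring
        _ ≤ (x ^ 3 * L ^ 3) * L := mul_le_mul_of_nonneg_left hLC h8
        _ ≤ 4 := h5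
    have h10 : C * (x ^ 3 * L ^ 3) ≤ |C| * (x ^ 3 * L ^ 3) := mul_le_mul_of_nonneg_right hC h8
    have e2 : C * x ^ 3 * L ^ 3 = C * (x ^ 3 * L ^ 3) := by ring
    rw [e2]
    linarith
  · have e : x ^ K = Real.exp (-(K * L)) := by
      rw [hxe, ← Real.exp_nat_mul]
      congr 1
      ring
    rw [e]
    apply Real.exp_le_exp.2
    have hc2 : 0 < c ^ 2 := by positivity
    -- `c²/16 L³ ≥ (K + c²/4 (2|C|+2)) L`
    have h1 : (K + c ^ 2 / 4 * (2 * |C| + 2)) ≤ c ^ 2 / 16 * L ^ 2 := by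
      have h2 : A ≤ L ^ 2 := hLA.trans hL2
      have h3 : c ^ 2 / 16 * A = K + c ^ 2 / 4 * (2 * |C| + 2) := by
        rw [hA]; field_simp
      rw [← h3]
      exact mul_le_mul_of_nonneg_left h2 (by positivity)
    have hK0 : (0 : ℝ) ≤ K := Nat.cast_nonneg _
    have h4 : (K + c ^ 2 / 4 * (2 * |C| + 2)) * L ≤ c ^ 2 / 16 * L ^ 2 * L :=
      mul_le_mul_of_nonneg_right h1 (by linarith)
    have h5 : c ^ 2 / 4 * (2 * |C| + 2) ≤ c ^ 2 / 4 * (2 * |C| + 2) * L :=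
      le_mul_of_one_le_right (by positivity) hL1
    have h6 : c ^ 2 / 4 * (2 * C + 2) ≤ c ^ 2 / 4 * (2 * |C| + 2) :=
      mul_le_mul_of_nonneg_left (by linarith) (by positivity)
    nlinarith

/-- the stages after the cut `j0` have mass `≥ c` as soon as `C ≤ KC j0` -/
theorem l8z3_mass {I : L8In} {c C v1 v2 ε : ℝ} (g : I.ZGeo c C v1 v2 ε) (hKmono : Monotone I.KC) {j0 : ℕ} (hj0 : C ≤ I.KC j0) :
    ∀ e ∈ I.LP.drop j0, c ≤ e.m := by
  intro e he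
  obtain ⟨i, hi, rfl⟩ := List.getElem_of_mem he
  rw [List.length_drop] at hi
  have hlt : j0 + i < I.LP.length := by omega
  have h1 := g.frz_m (j0 + i) hlt (hj0.trans (hKmono (Nat.le_add_right _ _)))
  have h2 : I.v (j0 + i) = (I.LP[j0 + i]'hlt).m := by
    unfold L8In.v skMs L8In.P0 llMat
    rw [List.getD_eq_getElem _ _ (by simpa using hlt)]
    simp
  rw [List.getElem_drop]
  rwa [h2] at h1

/-- freezing of a step path made from the chain by `f`, after the cut `j0` -/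
theorem l8z3_frz {I : L8In} {c : ℝ} (hc : 0 < c) (n : ℕ) (hn : 0 < n) (f : LlInc → SkInc) (hfm : ∀ e, (f e).m = e.m)
    (hadm : SkAdm 4 (I.LP.map f)) {j0 k : ℕ} (h0 : j0 ≤ k) (hk : k ≤ I.n) (hm : ∀ e ∈ I.LP.drop j0, c ≤ e.m)
    (hfz : ∀ e ∈ I.LP, 0 < e.m → (f e).db ≤ saDel n ∧ (f e).dh ≤ saDel n) :
    1 - obS n 4 (I.LP.map f) 0 k ≤ Real.exp (-(c ^ 2 / 4) * (skCumH (I.LP.map f) k - skCumH (I.LP.map f) j0)) := by
  refine saDel_spec n hn c (I.LP.map f) j0 k 0 hc.le hadm h0 (by rw [List.length_map]; exact hk) (fun e he => ?_) (fun e he => ?_)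
  · rw [← List.map_drop] at he
    obtain ⟨e', he', rfl⟩ := List.mem_map.1 he
    rw [hfm]; exact hm e' he'
  · have he2 := List.mem_of_mem_take he
    rw [← List.map_drop] at he2
    obtain ⟨e', he', rfl⟩ := List.mem_map.1 he2
    exact hfz e' (List.mem_of_mem_drop he') (lt_of_lt_of_le hc (hm e' he'))

/-- **Z3 = freezing.**  OWNER: helper135.      `saDel_spec` twice (`a4`): at `n = I.m` on `I.P0`, at `n = 1` on `I.zPK` (`l8z_q_obS`).   `j0` = first cut with `C ≤ I.KC j0` (`I.KC j0 ≤ C + x^40`), `u = c` (`frz_m`, masses nondecreasing), meshes: `fz`.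
`hC k - hC j0 = (KC k - KC j0) - (bC k zq k - bC j0 zq j0) + (zdd k - zdd j0) ≥ (KC k - KC j0) - C - 1` (`b_hi`, `G_le`, `d_le`).   `exp (- (c²/4) (M/4 - 2 C - 2)) ≤ x^K` since `M = log³ (1/x)`. -/
theorem l8z_Z3 (c C v1 v2 : ℝ) (hc : 0 < c) (K : ℕ) : ∃ x0 : ℝ, 0 < x0 ∧ ∀ I : L8In, I.ZStd c C v1 v2 → I.x ≤ x0 → I.ZFrz K := by
  obtain ⟨x0, hx0, hA⟩ := l8z3_arith c C hc K
  refine ⟨x0, hx0, fun I hI hx k hk hMk => ?_⟩
  have g := hI.geo
  have hp := hI.ok.pt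
  have hxpos : 0 < I.x := by
    unfold L8In.x LlPt.x
    exact Real.rpow_pos_of_pos (by exact_mod_cast (by have := hp.N2; omega : 0 < I.p.N)) _
  obtain ⟨hx1, hCM, hd, hexp⟩ := hA I.x hxpos hx
  have hM : I.p.M = Real.log (1 / I.x) ^ 3 := rfl
  rw [← hM] at hCM hd hexp
  have hm0 : 0 < I.m := by have := hp.N2; have := hI.ok.m_lo; omega
  -- the chain times
  have hdK0 : ∀ k, 0 ≤ I.zdK k := fun k => l8i_dh_nonneg g.admK k
  have hsucc : ∀ k, I.KC (k + 1) = I.KC k + I.zdK k := fun k => l8z_cumK_succ I.LP k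
  have hKmono : Monotone I.KC := monotone_nat_of_le_succ fun k => by rw [hsucc]; linarith [hdK0 k]
  have hK0 : I.KC 0 = 0 := by simp [L8In.KC, llCumK]
  have hKnn : ∀ k, 0 ≤ I.KC k := fun k => hK0 ▸ hKmono (Nat.zero_le k)
  have hvn : I.v I.n = I.a := by
    unfold L8In.v skMs
    rw [List.getD_eq_default _ _ (by simp [L8In.n, L8In.P0, llMat])]
  have hCpos : 0 < C := by
    have h1 := g.b_lo I.n le_rfl (by rw [hvn, g.a4]; norm_num)
    exact lt_of_lt_of_le hc (h1.trans (g.b_hi I.n le_rfl))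
  -- the first cut after the time `C`
  have hex : ∃ j, C ≤ I.KC j := ⟨k, hCM.trans hMk⟩
  classical
  set j0 := Nat.find hex with hj0
  have hj0C : C ≤ I.KC j0 := Nat.find_spec hex
  have hj0k : j0 ≤ k := Nat.find_min' hex (hCM.trans hMk)
  have hj0pos : j0 ≠ 0 := by
    intro h
    rw [h, hK0] at hj0C
    linarith
  obtain ⟨j1, hj1⟩ := Nat.exists_eq_succ_of_ne_zero hj0pos
  have hj1C : I.KC j1 < C := not_le.1 (Nat.find_min hex (by rw [← hj0, hj1]; exact Nat.lt_succ_self j1))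
  have hx40 : I.x ^ 40 ≤ 1 := pow_le_one₀ hxpos.le hx1
  have hj0le : I.KC j0 ≤ C + 1 := by
    rw [hj1, Nat.succ_eq_add_one, hsucc]
    have := (g.mesh_c j1 (by omega)).2.1
    linarith
  have hmass := l8z3_mass g hKmono hj0C
  -- the response is in `[0,1]`
  have hG0 : ∀ t, 0 ≤ t → 0 ≤ I.zGam t := by
    intro t ht
    have e := g.G_ftc 0 t le_rfl ht
    have : 0 ≤ ∫ y in (0 : ℝ)..t, I.zGam1 y := intervalIntegral.integral_nonneg ht fun y hy => (g.G_pos y hy.1).1.le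
    rw [g.G_zero] at e
    linarith
  constructor
  · -- the matrix model
    have h1 := l8z3_frz hc I.m hm0 (fun e => ⟨e.m, e.db, e.dh⟩) (fun _ => rfl) (g.a4 ▸ g.adm0) hj0k hk hmass
      (fun e he hm => ⟨(hI.fz e he hm).1, (hI.fz e he hm).2.1⟩)
    have h2 : 1 - I.S k ≤ Real.exp (-(c ^ 2 / 4) * (I.hC k - I.hC j0)) := by
      unfold L8In.S
      rw [g.a4]
      exact h1
    refine h2.trans (le_trans (Real.exp_le_exp.2 ?_) hexp)
    have hbk : 0 ≤ I.bC j0 := by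
      have hv : 0 < I.v j0 := by
        rcases Nat.lt_or_ge j0 I.n with h | h
        · exact lt_of_lt_of_le hc (g.frz_m j0 h hj0C)
        · have : j0 = I.n := le_antisymm (hj0k.trans hk) h
          rw [this, hvn, g.a4]; norm_num
      exact hc.le.trans (g.b_lo j0 (hj0k.trans hk) hv)
    have e1 : I.hC k - I.hC j0 = (I.KC k - I.KC j0) - I.bC k * I.zq k + I.bC j0 * I.zq j0 + (I.zdd k - I.zdd j0) := by
      unfold L8In.zdd; ring
    have e2 : I.bC k * I.zq k ≤ C := by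
      calc I.bC k * I.zq k ≤ C * I.zq k := mul_le_mul_of_nonneg_right (g.b_hi k hk) (hG0 _ (hKnn k))
        _ ≤ C * 1 := mul_le_mul_of_nonneg_left (g.G_le _ (hKnn k)) hCpos.le
        _ = C := mul_one C
    have e3 : 0 ≤ I.bC j0 * I.zq j0 := mul_nonneg hbk (hG0 _ (hKnn j0))
    have e4 := abs_le.1 (g.d_le k hk)
    have e5 := abs_le.1 (g.d_le j0 (hj0k.trans hk))
    have e6 : I.p.M / 4 - 2 * C - 2 ≤ I.hC k - I.hC j0 := by rw [e1]; linarith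
    have hc2 : 0 ≤ c ^ 2 / 4 := by positivity
    have := mul_le_mul_of_nonneg_left e6 hc2
    linarith
  · -- the scalar model
    have h1 := l8z3_frz hc 1 one_pos (fun e => ⟨e.m, 0, e.dK⟩) (fun _ => rfl) (g.a4 ▸ g.admK) hj0k hk hmass
      (fun e he hm => ⟨(saDel_pos 1).le, (hI.fz e he hm).2.2⟩)
    have hcum : ∀ j, skCumH (llSc I.LP) j = I.KC j := by
      intro j
      simp [skCumH, llSc, L8In.KC, llCumK, ← List.map_take, Function.comp_def]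
    have h2 : 1 - I.q k ≤ Real.exp (-(c ^ 2 / 4) * (I.KC k - I.KC j0)) := by
      unfold L8In.q
      rw [l8z_q_obS I.a (by rw [g.a4]; norm_num) I.LP g.admK k hk, g.a4, ← hcum k, ← hcum j0]
      exact h1
    refine h2.trans (le_trans (Real.exp_le_exp.2 ?_) hexp)
    have e6 : I.p.M / 4 - 2 * C - 2 ≤ I.KC k - I.KC j0 := by linarith
    have hc2 : 0 ≤ c ^ 2 / 4 := by positivity
    have := mul_le_mul_of_nonneg_left e6 hc2
    linarith

/-- **Zl = the link at all times.**  OWNER: helper163.      `sc_ann_Gam`: on `[0, KC n]` the extension is invisible; `slk_llQs`: at the chain times `scGam .. (KC k) = I.q k`; `q_sh`.   Both responses are nondecreasing in `t`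
(`scm_Gam` + `0 ≤ scM2`; `G_ftc, G_pos`) and `zGam` is `C`-Lipschitz, `KC (k+1) - KC k ≤ x^40`: interpolation.   On `[KC n, T]`: both lie in `[1 - 2 x^11, 1]` (`ZFrz 11` at `k = n`, `K_wall`; `scGam ≤ 1`: `|u| ≤ 1`, `sc_Pt_abs_le`). -/
theorem l8z_Zl (c C v1 v2 : ℝ) (hc : 0 < c) : ∃ x0 : ℝ, 0 < x0 ∧ ∀ I : L8In, I.ZStd c C v1 v2 → I.x ≤ x0 → I.ZFrz 11 → I.ZLink := by
  refine ⟨min (1 / 2) (1 / (|C| + 2)), by positivity, ?_⟩
  intro I hI hx hFz T hT t h0 ht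
  have g := hI.geo
  have hx0 := I.x_nonneg
  have hx2 : I.x ≤ 1 / 2 := hx.trans (min_le_left _ _)
  have hxC : I.x * (|C| + 2) ≤ 1 := by
    have := hx.trans (min_le_right _ _)
    rwa [le_div_iff₀ (by positivity)] at this
  have ha : 0 < I.a := by rw [g.a4]; norm_num
  -- the profile
  have hadm : ScAdm I.a (saPi I.a T I.zPK) := by rw [← saExt_pi]; exact (l8zs_pi_adm (saExt_adm ha g.admK hT)).1
  have hlen : scLen (saPi I.a T I.zPK) = T := by rw [← saExt_pi, slk_len, saExt_tot]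
  have hmono : ∀ s s', 0 ≤ s → s ≤ s' → s' ≤ T → scGam (scLC I.a) (saPi I.a T I.zPK) s ≤ scGam (scLC I.a) (saPi I.a T I.zPK) s' :=
    fun s s' h1 h2 h3 => l8z_Gam_mono (sc_LC_BI I.a) hadm.pos h1 h2 (by rw [hlen]; exact h3)
  have hle1 : ∀ s, 0 ≤ s → s ≤ T → scGam (scLC I.a) (saPi I.a T I.zPK) s ≤ 1 := fun s h1 h2 => l8z_Gam_le_one ha hadm h1 (by rw [hlen]; exact h2)
  -- the chain times
  have hdK0 : ∀ k, 0 ≤ I.zdK k := fun k => l8i_dh_nonneg g.admK k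
  have hsucc : ∀ k, I.KC (k + 1) = I.KC k + I.zdK k := fun k => l8z_cumK_succ I.LP k
  have hKmono : Monotone I.KC := monotone_nat_of_le_succ fun k => by rw [hsucc]; linarith [hdK0 k]
  have hK0 : I.KC 0 = 0 := by simp [L8In.KC, llCumK]
  have hKnn : ∀ k, 0 ≤ I.KC k := fun k => hK0 ▸ hKmono (Nat.zero_le k)
  have htot : skTotH I.zPK = I.KC I.n := by
    simp [skTotH, L8In.zPK, L8In.KC, L8In.n, llCumK, llSc, Function.comp_def]
  have hKpos : ∀ e ∈ I.LP, 0 ≤ e.dK := fun e he => (g.admK.2 ⟨e.m, 0, e.dK⟩ (List.mem_map.2 ⟨e, he, rfl⟩)).2.2.2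
  have hq : ∀ k ≤ I.n, scGam (scLC I.a) (saPi I.a T I.zPK) (I.KC k) = I.q k := by
    intro k hk
    unfold saPi
    rw [sc_ann_Gam ha.ne' (sub_nonneg.2 hT) _ (hKnn k) (by rw [slk_len, htot]; exact hKmono hk)]
    exact (slk_llQs ha.ne' hKpos hk).symm
  -- the response of the path
  have hGint : ∀ s s', 0 ≤ s → s ≤ s' → IntervalIntegrable I.zGam1 volume s s' := fun s s' h1 h2 =>
    (g.G_cont.mono (by rw [uIcc_of_le h2]; exact fun y hy => h1.trans hy.1)).intervalIntegrable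
  have hGm : ∀ s s', 0 ≤ s → s ≤ s' → I.zGam s ≤ I.zGam s' := by
    intro s s' h1 h2
    have e := g.G_ftc s s' h1 h2
    have : 0 ≤ ∫ y in s..s', I.zGam1 y := intervalIntegral.integral_nonneg h2 fun y hy => (g.G_pos y (h1.trans hy.1)).1.le
    linarith
  have hGl : ∀ s s', 0 ≤ s → s ≤ s' → I.zGam s' - I.zGam s ≤ C * (s' - s) := by
    intro s s' h1 h2
    rw [g.G_ftc s s' h1 h2]
    have := intervalIntegral.integral_mono_on h2 (hGint s s' h1 h2) (intervalIntegrable_const (c := C)) fun y hy => (g.G_pos y (h1.trans hy.1)).2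
    simpa [mul_comm] using this
  have hp10 : 0 ≤ I.x ^ 10 := pow_nonneg hx0 _
  have hx1 : I.x ≤ 1 := hx2.trans (by norm_num)
  by_cases hcase : t ≤ I.KC I.n ∧ 0 < I.n
  · -- interpolation between two chain times
    obtain ⟨k, hk, hk1, hk2⟩ := l8z_ivt I.KC I.n t hcase.2 (by rw [hK0]; exact h0) hcase.1
    have hkT : I.KC (k + 1) ≤ T := (hKmono (by omega : k + 1 ≤ I.n)).trans (htot ▸ hT)
    have e1 := hmono _ _ (hKnn k) hk1 ht
    have e2 := hmono _ _ h0 hk2 hkT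
    rw [hq k hk.le] at e1
    rw [hq (k + 1) (by omega)] at e2
    have e3 := hGm _ _ (hKnn k) hk1
    have e4 := hGm _ _ h0 hk2
    have e5 := hGl _ _ (hKnn k) (hKmono (Nat.le_succ k))
    have e6 := abs_le.1 (g.q_sh k hk.le)
    have e7 := abs_le.1 (g.q_sh (k + 1) (by omega))
    have e8 : I.KC (k + 1) - I.KC k ≤ I.x ^ 40 := by rw [hsucc]; linarith [(g.mesh_c k hk).2.1]
    have e8' : 0 ≤ I.KC (k + 1) - I.KC k := by rw [hsucc]; linarith [hdK0 k]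
    have e9 : C * (I.KC (k + 1) - I.KC k) ≤ |C| * I.x ^ 40 :=
      (mul_le_mul_of_nonneg_right (le_abs_self C) e8').trans (mul_le_mul_of_nonneg_left e8 (abs_nonneg C))
    have e10 : (|C| + 1) * I.x ^ 40 ≤ I.x ^ 10 := by
      have h30 : I.x ^ 30 ≤ I.x := by
        calc I.x ^ 30 ≤ I.x ^ 1 := pow_le_pow_of_le_one hx0 hx1 (by norm_num)
          _ = I.x := pow_one _
      have : (|C| + 1) * I.x ^ 30 ≤ 1 := by nlinarith [abs_nonneg C]
      calc (|C| + 1) * I.x ^ 40 = ((|C| + 1) * I.x ^ 30) * I.x ^ 10 := by ring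
        _ ≤ 1 * I.x ^ 10 := mul_le_mul_of_nonneg_right this hp10
        _ = I.x ^ 10 := one_mul _
    unfold L8In.zq at e6 e7
    rw [abs_le]
    constructor <;> nlinarith
  · -- after the last chain time: both are frozen
    have htn : I.KC I.n ≤ t := by
      by_contra hcon
      rcases Nat.eq_zero_or_pos I.n with h1 | h1
      · rw [h1, hK0] at hcon; exact hcon h0
      · exact hcase ⟨(not_le.1 hcon).le, h1⟩
    have hp := hI.ok.pt
    have hM0 : 0 ≤ I.p.M := lkk_M_nonneg hp.N2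
    have hvn : I.v I.n = I.a := by
      unfold L8In.v skMs
      rw [List.getD_eq_default _ _ (by simp [L8In.P0, L8In.n, llMat])]
    have hwall : I.zvM ≤ I.v I.n := by
      rw [hvn, g.a4]
      unfold L8In.zvM
      have h1 := lkk_ell_le_two hp
      have h2 := lkk_omM hp.N2
      have h3 : 0 ≤ I.p.om * I.p.M := mul_nonneg (lkk_om_pos hp.N2).le hM0
      have h4 : 0 ≤ I.p.ell := by linarith [hp.ell1]
      nlinarith
    have hKw := g.K_wall I.n le_rfl hwall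
    have hf := (hFz I.n le_rfl (by linarith)).2
    have e1 := hmono _ _ (hKnn I.n) htn ht
    rw [hq I.n le_rfl] at e1
    have e2 := hle1 t h0 ht
    have e3 := hGm _ _ (hKnn I.n) htn
    have e4 := g.G_le t h0
    have e5 := abs_le.1 (g.q_sh I.n le_rfl)
    unfold L8In.zq at e5
    have e6 : I.x ^ 11 + I.x ^ 40 ≤ I.x ^ 10 := by
      have h30 : I.x ^ 30 ≤ I.x := by
        calc I.x ^ 30 ≤ I.x ^ 1 := pow_le_pow_of_le_one hx0 hx1 (by norm_num)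
          _ = I.x := pow_one _
      calc I.x ^ 11 + I.x ^ 40 = (I.x + I.x ^ 30) * I.x ^ 10 := by ring
        _ ≤ 1 * I.x ^ 10 := mul_le_mul_of_nonneg_right (by linarith) hp10
        _ = I.x ^ 10 := one_mul _
    rw [abs_le]
    constructor <;> linarith

theorem l8z4_KC (I : L8In) (k : ℕ) : I.KC k = skCumH I.zPK k := by
  simp [L8In.KC, L8In.zPK, skCumH, llCumK, llSc, List.map_take]
  rfl

theorem l8z4_len (I : L8In) : I.zPK.length = I.n ∧ I.P0.length = I.n := by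
  simp [L8In.zPK, L8In.P0, L8In.n, llSc, llMat]

theorem l8z4_zdK (I : L8In) {k : ℕ} (hk : k < I.n) : I.KC (k + 1) - I.KC k = I.zdK k := by
  rw [l8z4_KC, l8z4_KC, (l8zp_cum_succ I.zPK (by rw [(l8z4_len I).1]; exact hk)).2]
  unfold L8In.zdK
  ring

theorem l8z4_cumB_top (P : SkStp) {t : ℕ} (ht : P.length ≤ t) : skCumB P t = skCumB P P.length := by
  unfold skCumB
  rw [List.take_of_length_le ht, List.take_length]

theorem l8z4_ms (I : L8In) : I.zPK.map SkInc.m = I.P0.map SkInc.m := by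
  simp [L8In.zPK, L8In.P0, llSc, llMat]

theorem l8z4_ms' (I : L8In) : I.zPK.map SkInc.m = (llSc (l8zRef I.m I.a I.P0)).map SkInc.m := by
  rw [l8z4_ms]
  apply List.ext_getElem
  · simp [llSc, l8zRef]
  · intro i h1 h2
    simp [llSc, l8zRef]

theorem l8z4_gap (I : L8In) (k : ℕ) : skGap I.a I.zPK k = I.dv k := by
  unfold L8In.dv skGap skMs
  rw [l8z4_ms]

theorem l8z4_cumS (I : L8In) {k : ℕ} (hk : k ≤ I.n) : skCumH (llSc (l8zRef I.m I.a I.P0)) k = I.hC k + I.bC k * I.S k := by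
  have h := l8z_e_cumK I.m I.a I.P0 (u := k) (by rw [(l8z4_len I).2]; exact hk)
  have e : skCumH (llSc (l8zRef I.m I.a I.P0)) k = llCumK (l8zRef I.m I.a I.P0) k := by
    simp [skCumH, llCumK, llSc, List.map_take]
    rfl
  rw [e, h]
  rfl


theorem l8z4_tot (P : SkStp) : skCumH P P.length = skTotH P := by simp [skCumH, skTotH]

/-- (D11.d) + link at the reference `K_S` -/
theorem l8z4_stab {K : ℝ} (hK : ∀ (Q Q' : SkStp) (T : ℝ), SkAdm (4 : ℝ) Q → SkAdm 4 Q' → Q.map SkInc.m = Q'.map SkInc.m →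
      skTotH Q ≤ T → skTotH Q' ≤ T → ∀ (ε t : ℝ), ∑ k ∈ range (Q.length + 1), skGap 4 Q k * |skCumH Q k - skCumH Q' k| ≤ ε → 0 ≤ t → t ≤ T →
      |scGam (scLC 4) (saPi 4 T Q) t - scGam (scLC 4) (saPi 4 T Q') t| ≤ K * (1 + T) * (ε + Real.sqrt ε))
    (I : L8In) (hm : 0 < I.m) (a4 : I.a = 4) (adm0 : SkAdm I.a I.P0) (admK : SkAdm I.a I.zPK) (hlk : I.ZLink) {t : ℕ} (ht : t ≤ I.n) :
    |scGam (scLC I.a) (l8zPi I.m I.a I.P0) (I.hC t + I.bC t * I.S t) - I.zGam (I.hC t + I.bC t * I.S t)|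
      ≤ K * (1 + (I.KC I.n + (I.hC I.n + I.bC I.n * I.S I.n)))
        * ((∑ k ∈ range (I.n + 1), I.dv k * |I.hC k + I.bC k * I.S k - I.KC k|) + Real.sqrt (∑ k ∈ range (I.n + 1), I.dv k * |I.hC k + I.bC k * I.S k - I.KC k|))
        + I.x ^ 10 := by
  have ha : 0 < I.a := by rw [a4]; norm_num
  set QS : SkStp := llSc (l8zRef I.m I.a I.P0) with hQS
  have admS : SkAdm I.a QS := (l8z_e_ref_adm hm ha adm0).2
  have hlenS : QS.length = I.n := by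
    rw [hQS]
    simp only [llSc, List.length_map, l8z_e_ref_len]
    exact (l8z4_len I).2
  have htotK : skTotH I.zPK = I.KC I.n := by rw [← l8z4_tot, (l8z4_len I).1, l8z4_KC]
  have htotS : skTotH QS = I.hC I.n + I.bC I.n * I.S I.n := by rw [← l8z4_tot, hlenS, hQS, l8z4_cumS I le_rfl]
  have hKC0 : 0 ≤ I.KC I.n := by
    rw [l8z4_KC]
    have := l8z_e_cumH_mono admK (Nat.zero_le I.n)
    simpa [skCumH] using this
  have hKS0 : ∀ k, k ≤ I.n → 0 ≤ I.hC k + I.bC k * I.S k := by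
    intro k hk
    rw [← l8z4_cumS I hk]
    have := l8z_e_cumH_mono admS (Nat.zero_le k)
    simpa [skCumH] using this
  set T : ℝ := I.KC I.n + (I.hC I.n + I.bC I.n * I.S I.n) with hT
  have hTK : skTotH I.zPK ≤ T := by rw [htotK, hT]; linarith [hKS0 I.n le_rfl]
  have hTS : skTotH QS ≤ T := by rw [htotS, hT]; linarith
  set u : ℝ := I.hC t + I.bC t * I.S t with hu
  have hu0 : 0 ≤ u := hKS0 t ht
  have huS : u ≤ skTotH QS := by
    rw [htotS, hu, ← l8z4_cumS I ht, ← l8z4_cumS I le_rfl]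
    exact l8z_e_cumH_mono admS ht
  have huT : u ≤ T := huS.trans hTS
  -- annealed extension
  have e1 : scGam (scLC I.a) (l8zPi I.m I.a I.P0) u = scGam (scLC I.a) (saPi I.a T QS) u := by
    unfold saPi
    rw [sc_ann_Gam ha.ne' (sub_nonneg.mpr hTS) (slkPi QS) hu0 (by rw [slk_len]; exact huS)]
    rfl
  have h2 := hlk T hTK u hu0 huT
  have h3 := hK I.zPK QS T (a4 ▸ admK) (a4 ▸ admS) (l8z4_ms' I) hTK hTS
    (∑ k ∈ range (I.n + 1), I.dv k * |I.hC k + I.bC k * I.S k - I.KC k|) u (by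
      rw [(l8z4_len I).1]
      refine le_of_eq (Finset.sum_congr rfl fun k hk => ?_)
      have hk' : k ≤ I.n := by have := Finset.mem_range.1 hk; omega
      rw [← a4, l8z4_gap, ← l8z4_KC, hQS, l8z4_cumS I hk', abs_sub_comm]) hu0 huT
  rw [← a4] at h3
  rw [e1]
  have e : scGam (scLC I.a) (saPi I.a T QS) u - I.zGam u
      = -(scGam (scLC I.a) (saPi I.a T I.zPK) u - scGam (scLC I.a) (saPi I.a T QS) u) + (scGam (scLC I.a) (saPi I.a T I.zPK) u - I.zGam u) := by ring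
  rw [e]
  refine (abs_add_le _ _).trans ?_
  rw [abs_neg]
  exact add_le_add h3 h2


theorem l8z4_x (I : L8In) (hok : I.Ok) : 0 < I.x ∧ I.x ^ 6 = 1 / (I.p.N : ℝ) ∧ 0 < I.m ∧ 1 / (I.m : ℝ) ≤ 2 * I.x ^ 6 := by
  have hN2 := hok.pt.N2
  have hN : (0 : ℝ) < I.p.N := by exact_mod_cast (by omega : 0 < I.p.N)
  have hx : 0 < I.x := Real.rpow_pos_of_pos hN _
  have h6 : I.x ^ 6 = 1 / (I.p.N : ℝ) := by
    show ((I.p.N : ℝ) ^ (-(1 / 6) : ℝ)) ^ 6 = _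
    rw [← Real.rpow_natCast, ← Real.rpow_mul hN.le]
    norm_num
    rw [Real.rpow_neg_one]
  have hm : 0 < I.m := by have := hok.m_lo; omega
  have hm' : (0 : ℝ) < I.m := by exact_mod_cast hm
  refine ⟨hx, h6, hm, ?_⟩
  rw [h6, div_le_iff₀ hm']
  have : (I.p.N : ℝ) ≤ 2 * I.m := by exact_mod_cast hok.m_lo
  rw [show 2 * (1 / (I.p.N : ℝ)) * I.m = (2 * I.m) / I.p.N by ring, le_div_iff₀ hN]
  linarith

/-- **Z4 = from (D14) to the supremum of the means** (D11.d, e, f).      OWNER: helper171 (with SAf).      TEX[LL:prop:statistics-size-accuracy] l.1192-1242.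
`Q_S = llSc (l8zRef m a P0)` (SAe: `l8z_e_ref_adm`, `slkPi Q_S = l8zPi m a P0`, `skCumH Q_S k = l8zKS m a P0 k = hC k + bC k S k`), `T = 2 M`.   `l8z_stabT` with `Q = Q_S`, `Q' = I.zPK` (same masses), `ε = ∑ dv |b f + zdd| ≤ C C14 x^𝔞 + 4 C x^3 M`;   `sc_ann_Gam`, `ZLink`: `St ≲ M x^(𝔞/2)`.
`l8z_cav1` (SAe, PROVED; `M0 = C`); `ID = ∑ dv √D2 ≤ x^𝔞 + 2 x^(1/8) + 4 √2 x^(1/2)` (low part; `ZD12` + Cauchy-Schwarz; `D2 ≤ 1 - S² ≤ 2 (1 - S)` beyond the wall).   `l8z_f_res`, then `l8z_f_sup` with `Γ` = `I.zGam` on `[0,∞)` continued by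
`Γ'(0) t` for `t < 0`, `τ = I.KC`, `bb = I.bC`, `g = c λ x^(𝔞/5)` (`gap`; all arguments `KC + y b (S - q) ≥ 0` by `hS_nn`), `k0, kc` = first cuts of mass `≥ x^(𝔞/10), 2 x^(𝔞/10)` (room: `K_low`), `kF` = first cut with `KC ≥ M/4`, `k1 = n`, `d = x^(𝔞/8)`. -/
theorem l8z_Z4 (c C v1 v2 C14 : ℝ) (hc : 0 < c) : ∃ Cm x0 : ℝ, 0 < x0 ∧ ∀ I : L8In, I.ZStd c C v1 v2 → I.x ≤ x0 → I.ZD12 → I.ZD14 C14 → I.ZFrz 1 → I.ZLink → I.ZMean Cm := by
  by_cases hC : 0 < C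
  swap
  · exact ⟨0, 1, one_pos, fun I hI => absurd ((hI.geo.G_pos 0 le_rfl).1.trans_le (hI.geo.G_pos 0 le_rfl).2) hC⟩
  obtain ⟨Ce, hCe, hcav⟩ := l8z_cav1 C
  obtain ⟨Cs, hCs, hstab⟩ := l8z_stabT (a := 4) (by norm_num)
  obtain ⟨x0, hx0, hx01, hB⟩ := l8z_f_Z4b c C C14 Ce Cs hc hC hCe hCs
  obtain ⟨x1, hx1, hW⟩ := l8z_n_small 1 (5 + 1 / 4) 3 (by norm_num)
  refine ⟨3 * C + 3, min x0 x1, lt_min hx0 hx1, fun I hI hx h12 h14 hfz hlk k hk => ?_⟩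
  have g := hI.geo
  obtain ⟨hxp, hx6, hm, him⟩ := l8z4_x I hI.ok
  have hxx0 := hx.trans (min_le_left _ _)
  have hx1' : I.x ≤ 1 := hxx0.trans hx01
  have ha : 0 < I.a := by rw [g.a4]; norm_num
  have hlam : I.x ^ (1 / 40000 : ℝ) ≤ I.lam := by
    have e : I.lam = I.x ^ I.F.pS := (hI.ok.pt.sm_fin hI.siz.1).1
    rw [e]
    exact Real.rpow_le_rpow_of_exponent_ge hxp hx1' hI.pS
  obtain ⟨n1, n2, n3, n4, n5, n6, n7, n8, n9⟩ := hB I.x I.lam (1 / I.m) hxp hxx0 hlam him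
  have hokP := l8i_ok I.m hm I.a ha I.P0 g.adm0
  have hvn : I.v I.n = 4 := by
    have := hokP.v_term I.n (le_of_eq (l8z4_len I).2)
    rw [← g.a4]
    exact this
  have hKCm : Monotone I.KC := fun i j hij => by rw [l8z4_KC, l8z4_KC]; exact l8z_e_cumH_mono g.admK hij
  have hvM : I.zvM ≤ 4 := by
    have h1 := hW I.x hxp (hx.trans (min_le_right _ _))
    have h2 : I.p.om * I.p.M ≤ 1 := by
      have e : I.p.om * I.p.M = 1 * Real.log (1 / I.x) ^ 3 * I.x ^ (5 + 1 / 4 : ℝ) := by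
        show I.p.x ^ (5 + 1 / 4 : ℝ) * Real.log (1 / I.p.x) ^ 3 = _
        show I.x ^ (5 + 1 / 4 : ℝ) * Real.log (1 / I.x) ^ 3 = _
        ring
      rw [e]; exact h1
    have h3 : I.p.ell ≤ 2 := by
      refine hI.ok.pt.ell2.trans ?_
      calc (2 : ℝ) ^ (1 / 6 : ℝ) ≤ (2 : ℝ) ^ (1 : ℝ) := Real.rpow_le_rpow_of_exponent_le (by norm_num) (by norm_num)
        _ = 2 := Real.rpow_one 2
    have h4 : 0 ≤ I.p.ell := le_trans zero_le_one hI.ok.pt.ell1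
    unfold L8In.zvM
    nlinarith
  have hS := fun j => fd_S_range hm ha I.P0 g.adm0 0 j
  have hBr := fun j => fd_B_range hm ha I.P0 g.adm0 0 j
  have hbAll : ∀ t, I.bC t ≤ C := by
    intro t
    rcases le_total t I.n with h | h
    · exact g.b_hi t h
    · have : I.bC t = I.bC I.n := by
        show skCumB I.P0 t = skCumB I.P0 I.n
        rw [l8z4_cumB_top I.P0 (by rw [(l8z4_len I).2]; exact h), (l8z4_len I).2]
      rw [this]; exact g.b_hi _ le_rfl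
  have hfin := l8z_f_Z4a (n := I.n) (v := I.v) (dv := I.dv) (τ := I.KC) (hC := I.hC) (bC := I.bC) (S := I.S) (D2 := I.D2)
    (GS := fun t => scGam (scLC I.a) (l8zPi I.m I.a I.P0) (I.hC t + I.bC t * I.S t)) (G := I.zGam) (G1 := I.zGam1)
    (c := c) (C := C) (v1 := v1) (lam := I.lam) (x := I.x) (M := Real.log (1 / I.x) ^ 3) (X := I.x ^ ((1 / 200 : ℝ) / 10)) (d := I.x ^ ((1 / 200 : ℝ) / 8))
    (ε := I.x ^ 40) (V := I.x ^ (1 / 200 : ℝ)) (E12 := I.x ^ (1 / 4 : ℝ)) (fx := 2 * I.x) (vM := I.zvM) (Ce := Ce) (Cs := Cs) (im := 1 / I.m)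
    (lk := I.x ^ 10) (dmax := C * I.x ^ 3 * Real.log (1 / I.x) ^ 3) (F14 := C14 * I.x ^ (1 / 200 : ℝ))
    hc hCe hCs (lt_of_lt_of_le (Real.rpow_pos_of_pos hxp _) hlam) (Real.rpow_pos_of_pos hxp _) (Real.rpow_pos_of_pos hxp _) (by positivity)
    (Real.rpow_nonneg hxp.le _) (by positivity)
    (fun _ => rfl) hokP.v_mono hokP.v_nonneg hvn hKCm (by simp [L8In.KC, llCumK])
    g.mesh_v (fun j hj => by rw [l8z4_zdK I hj]; exact (g.mesh_c j hj).2.1)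
    (fun j hj hv => by rw [l8z4_zdK I hj]; exact g.K_low j hj hv)
    g.K_tot g.K_wall hvM g.frz_m (fun j => ll2_law_cumB_nonneg g.adm0 j) g.b_hi
    (fun j => by
      have h1 := l8z_e_cumH_mono g.adm0 (Nat.zero_le j)
      have h2 : skCumH I.P0 0 = 0 := by simp [skCumH]
      rw [h2] at h1
      exact h1)
    g.d_le g.hS_nn g.G_zero g.G_ftc g.G_cont g.G_pos g.G_le g.q_hi g.gap
    (fun i j hij => fd_S_mono hm ha I.P0 g.adm0 0 hij) (fun j => (hS j).1) (fun j => (hS j).2)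
    (fun j => sub_nonneg.mpr (hBr j).1)
    (fun j => by
      show obB I.m I.a I.P0 0 j - obS I.m I.a I.P0 0 j ^ 2 ≤ 1
      have := (hBr j).2
      nlinarith [sq_nonneg (obS I.m I.a I.P0 0 j)])
    (fun j => by
      show obB I.m I.a I.P0 0 j - obS I.m I.a I.P0 0 j ^ 2 ≤ 2 * (1 - obS I.m I.a I.P0 0 j)
      have h1 := (hBr j).2
      nlinarith [sq_nonneg (1 - obS I.m I.a I.P0 0 j)])
    (by
      have e : ∑ j ∈ (range I.n).filter (fun j => I.x ^ (1 / 200 : ℝ) ≤ I.v j), (I.KC (j + 1) - I.KC j) * I.D2 j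
          = ∑ j ∈ (range I.n).filter (fun j => I.x ^ (1 / 200 : ℝ) ≤ I.v j), I.zdK j * I.D2 j :=
        Finset.sum_congr rfl fun j hj => by rw [l8z4_zdK I (Finset.mem_range.1 (Finset.mem_filter.1 hj).1)]
      rw [e]
      exact h12)
    h14
    (fun j hj hM => by
      obtain ⟨f1, f2⟩ := hfz j hj hM
      have f3 := abs_le.mp (g.q_sh j hj)
      have f4 : I.x ^ 40 ≤ I.x := by
        calc I.x ^ 40 ≤ I.x ^ 1 := pow_le_pow_of_le_one hxp.le hx1' (by norm_num)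
          _ = I.x := pow_one _
      rw [pow_one] at f1 f2
      refine ⟨by linarith, ?_⟩
      show 1 - I.zq j ≤ 2 * I.x
      linarith [f3.1, f3.2])
    (fun t ht => hcav I hm ha (by rw [g.a4]) g.adm0 hbAll t ht)
    (fun t ht => l8z4_stab hstab I hm g.a4 g.adm0 g.admK hlk ht)
    n1 n2 n3 n4 (by have := g.vv; linarith) n5 n6 n7 n8 k
  exact hfin.trans n9

/-! ### kit of helper135 (`l8z5_`): Z5 = `l8z_d_all` (SAd) at `P = I.sp false`, all scales as integer powers of `y = x^(1/40000)` -/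

/-- the arithmetic of G1 + G2 in the variable `y = x^(1/40000)` -/
theorem l8z5_num (c c1 cR cpin KJ : ℝ) (r : ℕ) (hc : 0 < c) (hc1 : 0 ≤ c1) (hcR : 0 ≤ cR) (hcp : 0 ≤ cpin) (hKJ : 0 ≤ KJ) (hr : 1 ≤ r) :
    ∃ y0 : ℝ, 0 < y0 ∧ ∀ (y lam : ℝ) (m J : ℕ), 0 < y → y ≤ y0 → y ≤ 1 → y ≤ lam → 1 ≤ 2 * (m : ℝ) * y ^ 240000 → 1 ≤ 2 ^ J * y ^ 240000 →
      (J : ℝ) + 2 ≤ KJ / y →
      cpin * (l8zIW 4 m J r (1200 * r) c1 cR (y ^ 200) (c * lam * (y ^ 200) ^ 2) (y ^ 240000) (y ^ 1600000) (6 * y ^ 50) (y ^ 200)⁻¹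
        / (c * y ^ 210000 * (y ^ 50) ^ 2)) ^ r ≤ (y ^ 20) ^ (2 * r) := by
  obtain ⟨K1, hK1⟩ : ∃ K1 : ℝ, K1 = 8192 * (r : ℝ) ^ 2 * (c1 + 1) / c + 96 * (cR + 1) + 1024 * r := ⟨_, rfl⟩
  have hK10 : 0 ≤ K1 := by rw [hK1]; positivity
  obtain ⟨K3, hK3⟩ : ∃ K3 : ℝ, K3 = 4 * KJ ^ 3 * K1 / c := ⟨_, rfl⟩
  have hK30 : 0 ≤ K3 := by rw [hK3]; positivity
  refine ⟨1 / ((cpin + 1) * (K3 + 1)), by positivity, fun y lam m J hy hy0 hy1 hlam hm hJ hJK => ?_⟩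
  have hr0 : (r : ℝ) ≠ 0 := by exact_mod_cast (by omega : r ≠ 0)
  have hle : ∀ {a b : ℕ}, a ≤ b → y ^ b ≤ y ^ a := fun h => pow_le_pow_of_le_one hy.le hy1 h
  have hlam0 : 0 < lam := lt_of_lt_of_le hy hlam
  have hm0 : (0 : ℝ) < m := by
    by_contra hcon
    have h0 : (m : ℝ) = 0 := le_antisymm (not_lt.1 hcon) (Nat.cast_nonneg _)
    rw [h0] at hm
    norm_num at hm
  -- the denominator of the first term
  have hD0 : 0 < (y ^ 200) ^ 2 * (m : ℝ) * (c * lam * (y ^ 200) ^ 2) := by positivity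
  have hD : ((y ^ 200) ^ 2 * (m : ℝ) * (c * lam * (y ^ 200) ^ 2))⁻¹ ≤ 2 / c * y ^ 239199 := by
    rw [inv_le_comm₀ hD0 (by positivity)]
    have e1 : (2 / c * y ^ 239199)⁻¹ * (2 * (m : ℝ) * y ^ 240000) = (y ^ 200) ^ 2 * (m : ℝ) * (c * y * (y ^ 200) ^ 2) := by
      have : y ^ 240000 = y ^ 239199 * y ^ 801 := by ring
      rw [this]
      field_simp
    calc (2 / c * y ^ 239199)⁻¹ ≤ (2 / c * y ^ 239199)⁻¹ * (2 * (m : ℝ) * y ^ 240000) := le_mul_of_one_le_right (by positivity) hm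
      _ = (y ^ 200) ^ 2 * (m : ℝ) * (c * y * (y ^ 200) ^ 2) := e1
      _ ≤ (y ^ 200) ^ 2 * (m : ℝ) * (c * lam * (y ^ 200) ^ 2) := by gcongr
  have ha : y ^ 1600000 / y ^ 240000 ≤ 1 := div_le_one_of_le₀ (hle (by norm_num)) (by positivity)
  have hb : 6 * y ^ 50 / (2 ^ J * y ^ 240000) ≤ 6 := by
    rw [div_le_iff₀ (by positivity)]
    have : y ^ 50 ≤ 1 := pow_le_one₀ hy.le hy1
    nlinarith
  have hth : c1 + (y ^ 200)⁻¹ ≤ (c1 + 1) * (y ^ 200)⁻¹ := by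
    have : 1 ≤ (y ^ 200)⁻¹ := (one_le_inv₀ (by positivity)).2 (pow_le_one₀ hy.le hy1)
    nlinarith
  have t1 : 512 * (r : ℝ) ^ 2 * (1 + y ^ 1600000 / y ^ 240000 + 6 * y ^ 50 / (2 ^ J * y ^ 240000)) * (c1 + (y ^ 200)⁻¹)
      / ((y ^ 200) ^ 2 * (m : ℝ) * (c * lam * (y ^ 200) ^ 2)) ≤ 8192 * (r : ℝ) ^ 2 * (c1 + 1) / c * y ^ 238999 := by
    rw [div_eq_mul_inv]
    have hb0 : 0 ≤ 6 * y ^ 50 / (2 ^ J * y ^ 240000) := by positivity
    have ha0 : 0 ≤ y ^ 1600000 / y ^ 240000 := by positivity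
    calc 512 * (r : ℝ) ^ 2 * (1 + y ^ 1600000 / y ^ 240000 + 6 * y ^ 50 / (2 ^ J * y ^ 240000)) * (c1 + (y ^ 200)⁻¹)
          * ((y ^ 200) ^ 2 * (m : ℝ) * (c * lam * (y ^ 200) ^ 2))⁻¹
        ≤ 512 * (r : ℝ) ^ 2 * (1 + 1 + 6) * ((c1 + 1) * (y ^ 200)⁻¹) * (2 / c * y ^ 239199) := by gcongr
      _ = 8192 * (r : ℝ) ^ 2 * (c1 + 1) / c * y ^ 238999 := by
          have : y ^ 239199 = y ^ 238999 * y ^ 200 := by ring
          rw [this]
          field_simp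
          ring
  have t2 : 16 * (6 * y ^ 50) * (cR / ((y ^ 200)⁻¹) ^ (1200 * r)) ^ ((1 : ℝ) / r) ≤ 96 * (cR + 1) * y ^ 238999 := by
    have e1 : cR / ((y ^ 200)⁻¹) ^ (1200 * r) = cR * (y ^ 240000) ^ r := by
      rw [inv_pow, div_inv_eq_mul, ← pow_mul, ← pow_mul]
      congr 2
      ring
    rw [e1, Real.mul_rpow hcR (by positivity), one_div, Real.pow_rpow_inv_natCast (by positivity) (by omega)]
    have e2 : cR ^ ((r : ℝ)⁻¹) ≤ cR + 1 := by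
      calc cR ^ ((r : ℝ)⁻¹) ≤ (cR + 1) ^ ((r : ℝ)⁻¹) := Real.rpow_le_rpow hcR (by linarith) (by positivity)
        _ ≤ (cR + 1) ^ (1 : ℝ) := Real.rpow_le_rpow_of_exponent_le (by linarith) (inv_le_one_of_one_le₀ (by exact_mod_cast hr))
        _ = cR + 1 := Real.rpow_one _
    have e3 : y ^ 50 ≤ 1 := pow_le_one₀ hy.le hy1
    have e4 : y ^ 240000 ≤ y ^ 238999 := hle (by norm_num)
    have e5 : 0 ≤ cR ^ ((r : ℝ)⁻¹) := Real.rpow_nonneg hcR _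
    calc 16 * (6 * y ^ 50) * (cR ^ ((r : ℝ)⁻¹) * y ^ 240000) ≤ 16 * (6 * 1) * ((cR + 1) * y ^ 238999) := by gcongr
      _ = 96 * (cR + 1) * y ^ 238999 := by ring
  have t3 : 512 * (r : ℝ) * (y ^ 240000 + y ^ 1600000) ≤ 1024 * r * y ^ 238999 := by
    have e4 : y ^ 240000 ≤ y ^ 238999 := hle (by norm_num)
    have e5 : y ^ 1600000 ≤ y ^ 238999 := hle (by norm_num)
    have : (0:ℝ) ≤ r := Nat.cast_nonneg _
    nlinarith
  have hIW : l8zIW 4 m J r (1200 * r) c1 cR (y ^ 200) (c * lam * (y ^ 200) ^ 2) (y ^ 240000) (y ^ 1600000) (6 * y ^ 50) (y ^ 200)⁻¹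
      ≤ 4 * KJ ^ 3 * K1 * y ^ 238996 := by
    unfold l8zIW
    have hJ0 : (0:ℝ) ≤ (J : ℝ) + 2 := by positivity
    have hB : 512 * (r : ℝ) ^ 2 * (1 + y ^ 1600000 / y ^ 240000 + 6 * y ^ 50 / (2 ^ J * y ^ 240000)) * (c1 + (y ^ 200)⁻¹)
        / ((y ^ 200) ^ 2 * (m : ℝ) * (c * lam * (y ^ 200) ^ 2))
        + 16 * (6 * y ^ 50) * (cR / ((y ^ 200)⁻¹) ^ (1200 * r)) ^ ((1 : ℝ) / r) + 512 * (r : ℝ) * (y ^ 240000 + y ^ 1600000) ≤ K1 * y ^ 238999 := by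
      rw [hK1]
      linarith
    calc 4 * ((J : ℝ) + 2) ^ 3 * _ ≤ 4 * (KJ / y) ^ 3 * (K1 * y ^ 238999) := by
          gcongr
      _ = 4 * KJ ^ 3 * K1 * y ^ 238996 := by
          have : y ^ 238999 = y ^ 238996 * y ^ 3 := by ring
          rw [this]
          field_simp
  have hQ : l8zIW 4 m J r (1200 * r) c1 cR (y ^ 200) (c * lam * (y ^ 200) ^ 2) (y ^ 240000) (y ^ 1600000) (6 * y ^ 50) (y ^ 200)⁻¹
      / (c * y ^ 210000 * (y ^ 50) ^ 2) ≤ K3 * y ^ 28896 := by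
    rw [div_le_iff₀ (by positivity)]
    refine hIW.trans (le_of_eq ?_)
    rw [hK3]
    have : y ^ 238996 = y ^ 28896 * y ^ 210000 * (y ^ 50) ^ 2 := by ring
    rw [this]
    field_simp
  have hQ0 : 0 ≤ l8zIW 4 m J r (1200 * r) c1 cR (y ^ 200) (c * lam * (y ^ 200) ^ 2) (y ^ 240000) (y ^ 1600000) (6 * y ^ 50) (y ^ 200)⁻¹
      / (c * y ^ 210000 * (y ^ 50) ^ 2) := by
    refine div_nonneg (l8zIW_nonneg (by norm_num) hc1 hcR (by positivity) (by positivity) (by positivity) (by positivity) (by positivity) (by positivity)) (by positivity)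
  have hsm : (cpin + 1) * (K3 * y ^ 28896) ≤ y ^ 40 := by
    have e1 : (cpin + 1) * (K3 + 1) * y ≤ 1 := by
      have := mul_le_mul_of_nonneg_left hy0 (by positivity : 0 ≤ (cpin + 1) * (K3 + 1))
      rwa [mul_one_div_cancel (by positivity)] at this
    have e2 : y ^ 28896 = y * y ^ 28855 * y ^ 40 := by ring
    have e3 : y ^ 28855 ≤ 1 := pow_le_one₀ hy.le hy1
    have e4 : 0 < y ^ 40 := by positivity
    have e5 : (cpin + 1) * K3 * y ≤ 1 := by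
      refine le_trans ?_ e1
      gcongr
      linarith
    have e6 : 0 ≤ (cpin + 1) * K3 * y := by positivity
    calc (cpin + 1) * (K3 * y ^ 28896) = ((cpin + 1) * K3 * y) * y ^ 28855 * y ^ 40 := by rw [e2]; ring
      _ ≤ 1 * 1 * y ^ 40 := by gcongr
      _ = y ^ 40 := by ring
  calc cpin * _ ^ r ≤ (cpin + 1) ^ r * (K3 * y ^ 28896) ^ r := by
        gcongr
        exact (by linarith : cpin ≤ cpin + 1).trans (le_self_pow₀ (by linarith) (by omega))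
    _ = ((cpin + 1) * (K3 * y ^ 28896)) ^ r := (mul_pow _ _ _).symm
    _ ≤ (y ^ 40) ^ r := pow_le_pow_left₀ (by positivity) hsm r
    _ = (y ^ 20) ^ (2 * r) := by rw [← pow_mul, ← pow_mul]; congr 1; ring

/-- the number of doubling layers -/
theorem l8z5_J {y : ℝ} (hy : 0 < y) (hy1 : y ≤ 1) : ∃ J : ℕ, 1 ≤ 2 ^ J * y ^ 240000 ∧ 2 ^ J * y ^ 240000 ≤ 2 ∧ (J : ℝ) + 2 ≤ 480003 / y := by
  have hp : 0 < y ^ 240000 := by positivity
  have ht : 1 ≤ (y ^ 240000)⁻¹ := (one_le_inv₀ hp).2 (pow_le_one₀ hy.le hy1)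
  obtain ⟨n, h1, h2⟩ := exists_nat_pow_near ht (by norm_num : (1:ℝ) < 2)
  refine ⟨n + 1, ?_, ?_, ?_⟩
  · have := mul_le_mul_of_nonneg_right h2.le hp.le
    rwa [inv_mul_cancel₀ hp.ne'] at this
  · have := mul_le_mul_of_nonneg_right h1 hp.le
    rw [inv_mul_cancel₀ hp.ne'] at this
    rw [pow_succ]
    linarith
  · have e1 : (n : ℝ) * Real.log 2 ≤ 240000 * Real.log (y⁻¹) := by
      have := Real.log_le_log (by positivity) h1
      rw [Real.log_pow, ← inv_pow, Real.log_pow] at this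
      exact_mod_cast this
    have e2 : Real.log (y⁻¹) ≤ y⁻¹ := (Real.log_le_sub_one_of_pos (by positivity)).trans (by linarith)
    have e3 : (1:ℝ) / 2 < Real.log 2 := by have := Real.log_two_gt_d9; linarith
    have e4 : 1 ≤ y⁻¹ := (one_le_inv₀ hy).2 hy1
    have e5 : (n : ℝ) * (1 / 2) ≤ (n : ℝ) * Real.log 2 := mul_le_mul_of_nonneg_left e3.le (Nat.cast_nonneg _)
    rw [div_eq_mul_inv]
    push_cast
    linarith

/-- rational powers of `x` as powers of `y = x^(1/40000)` -/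
theorem l8z5_pw {x : ℝ} (hx : 0 ≤ x) (k : ℕ) (s : ℝ) (hs : s = k / 40000) : x ^ s = (x ^ (1 / 40000 : ℝ)) ^ k := by
  rw [← Real.rpow_natCast, ← Real.rpow_mul hx, hs]
  congr 1
  ring

theorem l8z5_KC_mono {I : L8In} (h : SkAdm I.a I.zPK) : Monotone I.KC := by
  refine monotone_nat_of_le_succ fun k => ?_
  have h1 : I.KC (k + 1) = I.KC k + saDh (llSc I.LP) k := l8z_cumK_succ I.LP k
  have h2 : 0 ≤ saDh (llSc I.LP) k := l8i_dh_nonneg h k
  linarith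

theorem l8z5_G_mono {I : L8In} {c C v1 v2 ε : ℝ} (g : I.ZGeo c C v1 v2 ε) {t t' : ℝ} (ht : 0 ≤ t) (htt : t ≤ t') : I.zGam t ≤ I.zGam t' := by
  have h := g.G_ftc t t' ht htt
  have : 0 ≤ ∫ s in t..t', I.zGam1 s := intervalIntegral.integral_nonneg htt fun s hs => (g.G_pos s (ht.trans hs.1)).1.le
  linarith

/-- the first cut at time distance `≥ d` overshoots by at most the mesh -/
theorem l8z5_next {I : L8In} {c C v1 v2 ε : ℝ} (g : I.ZGeo c C v1 v2 ε) {ka : ℕ} {d : ℝ} (hd : 0 < d) (hka : ka ≤ I.n) (hl : I.KC ka + d ≤ I.KC I.n) :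
    ka ≤ l8zNext I.KC ka d ∧ l8zNext I.KC ka d ≤ I.n ∧ I.KC ka + d ≤ I.KC (l8zNext I.KC ka d) ∧ I.KC (l8zNext I.KC ka d) ≤ I.KC ka + d + ε := by
  obtain ⟨a1, a2, a3⟩ := l8zNext_spec hka hl
  refine ⟨a1, a3, a2, ?_⟩
  have hne : ka ≠ l8zNext I.KC ka d := by
    intro h
    rw [← h] at a2
    linarith
  obtain ⟨j, hj⟩ : ∃ j, l8zNext I.KC ka d = j + 1 := ⟨l8zNext I.KC ka d - 1, by omega⟩
  have h1 : I.KC j < I.KC ka + d := l8zNext_lt (by omega) (by omega)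
  have hjn : j < I.n := by omega
  rw [hj, l8zk_KC_succ I hjn]
  have := (g.mesh_c j hjn).2.1
  linarith

theorem l8z5_v_top (I : L8In) : I.v I.n = I.a := by
  unfold L8In.v skMs
  rw [List.getD_eq_default]
  simp [l8zk_len0]

/-- the three cuts: `ka` (mass `≈ V`), `kc` (time `ρ` later), `kF` (time `≈ M/4`) -/
theorem l8z5_cuts {c C v1 v2 ε : ℝ} {I : L8In} (g : I.ZGeo c C v1 v2 ε) {V ρ : ℝ} (hV0 : 0 < V) (hVc : V ≤ c) (hV4 : V ≤ 4) (hρ0 : 0 < ρ) (hρ1 : ρ ≤ 1)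
    (hε0 : 0 ≤ ε) (hε1 : ε ≤ 1) (hMn : I.p.M / 2 ≤ I.KC I.n) (hMC : 4 * C + 28 ≤ I.p.M) :
    ∃ ka kc kF : ℕ, ka ≤ kc ∧ kc ≤ kF ∧ kF ≤ I.n ∧ V ≤ I.v ka ∧ I.v ka ≤ V + ε ∧ I.KC ka + ρ ≤ I.KC kc ∧ I.KC kc ≤ I.KC ka + ρ + ε ∧
      I.p.M / 4 ≤ I.KC kF ∧ I.KC kF ≤ I.p.M / 4 + ε := by
  classical
  have hC := l8zk_C_pos g
  have hex : ∃ k, V ≤ I.v k := ⟨I.n, by rw [l8z5_v_top, g.a4]; exact hV4⟩
  obtain ⟨ka, hka⟩ : ∃ ka, ka = Nat.find hex := ⟨_, rfl⟩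
  have hkan : ka ≤ I.n := by rw [hka]; exact Nat.find_min' hex (by rw [l8z5_v_top, g.a4]; exact hV4)
  have hkaV : V ≤ I.v ka := by rw [hka]; exact Nat.find_spec hex
  have hlt : ∀ j < ka, I.v j < V := fun j hj => not_le.1 (Nat.find_min hex (by rw [← hka]; exact hj))
  have hdv := g.mesh_v ka hkan
  have hva : I.v ka ≤ V + ε ∧ I.KC ka ≤ C + ε := by
    rcases Nat.eq_zero_or_pos ka with h0 | h0
    · constructor
      · have e : I.dv ka = I.v ka := by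
          unfold L8In.dv skGap
          rw [if_pos h0, sub_zero]
          rfl
        rw [e] at hdv
        linarith
      · rw [h0]
        have : I.KC 0 = 0 := by simp [L8In.KC, llCumK]
        rw [this]
        linarith
    · obtain ⟨j, rfl⟩ : ∃ j, ka = j + 1 := ⟨ka - 1, by omega⟩
      have hj := hlt j (Nat.lt_succ_self j)
      have hjn : j < I.n := by omega
      constructor
      · have e : I.dv (j + 1) = I.v (j + 1) - I.v j := by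
          unfold L8In.dv skGap
          rw [if_neg (Nat.succ_ne_zero j)]
          rfl
        rw [e] at hdv
        linarith
      · have h1 : I.KC j < C := by
          by_contra hcon
          have := g.frz_m j hjn (not_lt.1 hcon)
          linarith
        rw [l8zk_KC_succ I hjn]
        have := (g.mesh_c j hjn).2.1
        linarith
  obtain ⟨c1, c2, c3, c4⟩ := l8z5_next g hρ0 hkan (by linarith [hva.2])
  obtain ⟨f1, f2, f3, f4⟩ := l8z5_next g (d := I.p.M / 4 - I.KC ka) (by linarith [hva.2]) hkan (by linarith [hva.2])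
  refine ⟨ka, l8zNext I.KC ka ρ, l8zNext I.KC ka (I.p.M / 4 - I.KC ka), c1, ?_, f2, hkaV, hva.1, c3, c4, by linarith, by linarith⟩
  exact l8zNext_mono (by linarith [hva.2]) hkan (by linarith [hva.2])

theorem l8z5_ZT {c C v1 v2 : ℝ} (hc : 0 < c) {I : L8In} (hI : I.ZStd c C v1 v2) {V : ℝ} {ka : ℕ} (hV0 : 0 < V) (hVx : 2 * I.x ≤ V) (hka : V ≤ I.v ka)
    (hlam : 0 < I.lam) (hom : 0 < I.p.om) (hok : (I.sp false).Ok) :
    (I.sp false).ZT I.KC ka I.n V (c * I.lam * V ^ 2) (c * I.p.om) (I.x ^ 40) where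
  mono := l8z5_KC_mono hI.geo.admK
  kb_le := le_of_eq (l8zk_len0 I).symm
  V_pos := hV0
  e0_pos := by positivity
  om_pos := by positivity
  mass := hka
  field := fun k hk hkn => by
    rw [l8zk_KC_succ I hkn, add_sub_cancel_left]
    have hv : V ≤ I.v k := hka.trans (hok.v_mono hk)
    have h1 := hI.geo.h_K k hkn (hVx.trans hv)
    have h0 : 0 ≤ I.zdK k := l8i_dh_nonneg hI.geo.admK k
    refine le_trans ?_ h1
    gcongr
  dens := fun k hk hkn => by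
    rw [l8zk_KC_succ I hkn, add_sub_cancel_left]
    exact hI.geo.K_dens k hkn
  fine := fun k hk hkn => by
    rw [l8zk_KC_succ I hkn, add_sub_cancel_left]
    exact (hI.geo.mesh_c k hkn).2.1

/-- the dictionary `y = x^(1/40000)` at one instance -/
theorem l8z5_dict {c C v1 v2 : ℝ} {I : L8In} (hI : I.ZStd c C v1 v2) {y0 : ℝ} (hy00 : 0 < y0) (hy01 : y0 ≤ 1) (hx : I.x ≤ y0 ^ 40000) :
    ∃ y : ℝ, 0 < y ∧ y ≤ y0 ∧ I.x = y ^ 40000 ∧ I.x ^ saA = y ^ 200 ∧ I.x ^ (saA / 10) = y ^ 20 ∧ I.x ^ llDStar = y ^ 4 ∧ I.p.om = y ^ 210000 ∧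
      y ≤ I.lam ∧ 1 ≤ 2 * (I.m : ℝ) * y ^ 240000 := by
  have hx0 : 0 < I.x := l8zk_x_pos hI.ok
  obtain ⟨y, hy⟩ : ∃ y : ℝ, y = I.x ^ (1 / 40000 : ℝ) := ⟨_, rfl⟩
  have hy0 : 0 < y := by rw [hy]; exact Real.rpow_pos_of_pos hx0 _
  have hyy0 : y ≤ y0 := by
    have e := Real.pow_rpow_inv_natCast hy00.le (n := 40000) (by norm_num)
    rw [hy, ← e, one_div]
    exact Real.rpow_le_rpow hx0.le hx (by norm_num)
  have hy1' : y ≤ 1 := hyy0.trans hy01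
  have hxy : I.x = y ^ 40000 := by
    have := l8z5_pw hx0.le 40000 1 (by norm_num)
    rwa [Real.rpow_one, ← hy] at this
  have hx1 : I.x ≤ 1 := by rw [hxy]; exact pow_le_one₀ hy0.le hy1'
  have e6 : I.x ^ 6 = y ^ 240000 := by rw [hxy, ← pow_mul]
  have hlam : I.lam = I.x ^ I.F.pS := (hI.ok.pt.sm_fin hI.siz.1).1
  refine ⟨y, hy0, hyy0, hxy, ?_, ?_, ?_, ?_, ?_, ?_⟩
  · rw [hy]; exact l8z5_pw hx0.le 200 _ (by unfold saA; norm_num)
  · rw [hy]; exact l8z5_pw hx0.le 20 _ (by unfold saA; norm_num)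
  · rw [hy]; exact l8z5_pw hx0.le 4 _ (by unfold llDStar; norm_num)
  · rw [hy]; exact l8z5_pw hx0.le 210000 _ (by norm_num)
  · rw [hlam, hy]; exact Real.rpow_le_rpow_of_exponent_ge hx0 hx1 hI.pS
  · have hN : (0:ℝ) < I.p.N := by
      have := hI.ok.pt.N2
      exact_mod_cast (by omega : 0 < I.p.N)
    have e : I.x ^ 6 = ((I.p.N : ℝ))⁻¹ := by
      show ((I.p.N : ℝ) ^ (-(1 / 6) : ℝ)) ^ 6 = _
      rw [← Real.rpow_natCast, ← Real.rpow_mul hN.le, ← Real.rpow_neg_one]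
      norm_num
    rw [← e6, e]
    have h2 : (I.p.N : ℝ) ≤ 2 * I.m := by exact_mod_cast hI.ok.m_lo
    rw [← div_eq_mul_inv, le_div_iff₀ hN]
    linarith

/-- `M` is large, the scalar clock reaches `M/2` -/
theorem l8z5_M {c C v1 v2 : ℝ} {I : L8In} (hI : I.ZStd c C v1 v2) (hx1 : I.x ≤ 1) {L0 : ℝ} (hL1 : 1 ≤ L0) (hx : I.x ≤ Real.exp (-L0)) :
    L0 ≤ I.p.M ∧ I.p.M / 2 ≤ I.KC I.n := by
  have g := hI.geo
  have hx0 : 0 < I.x := l8zk_x_pos hI.ok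
  have hM0 := l8zk_M hx0 hx1
  constructor
  · have hL : L0 ≤ Real.log (1 / I.x) := by
      rw [one_div, Real.log_inv]
      have := Real.log_le_log hx0 hx
      rw [Real.log_exp] at this
      linarith
    have e : I.p.M = Real.log (1 / I.x) ^ 3 := rfl
    rw [e]
    exact hL.trans (le_self_pow₀ (hL1.trans hL) (by norm_num))
  · refine g.K_wall I.n le_rfl ?_
    rw [l8z5_v_top, g.a4]
    have h1 : I.p.ell ≤ 2 := hI.ok.pt.ell2.trans (by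
      calc (2:ℝ) ^ (1 / 6 : ℝ) ≤ (2:ℝ) ^ (1:ℝ) := Real.rpow_le_rpow_of_exponent_le (by norm_num) (by norm_num)
        _ = 2 := Real.rpow_one _)
    have h2 : I.p.om * I.p.M ≤ 1 := by
      refine le_trans ?_ hM0.2
      refine mul_le_mul_of_nonneg_right ?_ hM0.1
      show I.x ^ (5 + 1 / 4 : ℝ) ≤ I.x ^ 3
      rw [← Real.rpow_natCast]
      exact Real.rpow_le_rpow_of_exponent_ge hx0 hx1 (by norm_num)
    have h3 : 0 ≤ I.p.om * I.p.M := mul_nonneg (Real.rpow_nonneg hx0.le _) hM0.1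
    have h4 : 0 ≤ I.p.ell := by linarith [hI.ok.pt.ell1]
    unfold L8In.zvM
    nlinarith

/-- arithmetic of the projection error -/
theorem l8z5_pe {c cr y lam : ℝ} {m r : ℕ} (hc : 0 < c) (hcr : 0 ≤ cr) (hr : 1 ≤ r) (hy0 : 0 < y) (hy1 : y ≤ 1) (hyc : y ≤ c / 2) (hylam : y ≤ lam)
    (hm : 1 ≤ 2 * (m : ℝ) * y ^ 240000) :
    cr / ((y ^ 200) ^ 2 * (m : ℝ) * (c * lam * (y ^ 200) ^ 2 * y ^ 50)) ^ r ≤ ((cr + 1) * y ^ 40000) ^ (2 * r) := by
  have hlam0 : 0 < lam := lt_of_lt_of_le hy0 hylam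
  have hm0 : (0 : ℝ) < m := by
    by_contra hcon
    have h0 : (m : ℝ) = 0 := le_antisymm (not_lt.1 hcon) (Nat.cast_nonneg _)
    rw [h0] at hm
    norm_num at hm
  have hD0 : 0 < (y ^ 200) ^ 2 * (m : ℝ) * (c * lam * (y ^ 200) ^ 2 * y ^ 50) := by positivity
  have hD1 : 1 ≤ (y ^ 40000) ^ 2 * ((y ^ 200) ^ 2 * (m : ℝ) * (c * lam * (y ^ 200) ^ 2 * y ^ 50)) := by
    have e1 : y ^ 159149 ≤ c / 2 := (pow_le_pow_of_le_one hy0.le hy1 (by norm_num : 1 ≤ 159149)).trans (by rw [pow_one]; exact hyc)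
    calc 1 ≤ 2 * (m : ℝ) * y ^ 240000 := hm
      _ = 2 * (m : ℝ) * y ^ 80850 * y * y ^ 159149 := by ring
      _ ≤ 2 * (m : ℝ) * y ^ 80850 * lam * (c / 2) := by
          have hA : 0 ≤ 2 * (m : ℝ) * y ^ 80850 := by positivity
          exact mul_le_mul (mul_le_mul_of_nonneg_left hylam hA) e1 (by positivity) (mul_nonneg hA hlam0.le)
      _ = (y ^ 40000) ^ 2 * ((y ^ 200) ^ 2 * (m : ℝ) * (c * lam * (y ^ 200) ^ 2 * y ^ 50)) := by ring
  rw [div_le_iff₀ (pow_pos hD0 r)]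
  have e2 : cr ≤ (cr + 1) ^ (2 * r) := (by linarith : cr ≤ cr + 1).trans (le_self_pow₀ (by linarith) (by omega))
  have e3 : (0:ℝ) ≤ (cr + 1) ^ (2 * r) := by positivity
  calc cr ≤ (cr + 1) ^ (2 * r) * 1 := by rw [mul_one]; exact e2
    _ ≤ (cr + 1) ^ (2 * r) * ((y ^ 40000) ^ 2 * ((y ^ 200) ^ 2 * (m : ℝ) * (c * lam * (y ^ 200) ^ 2 * y ^ 50))) ^ r :=
        mul_le_mul_of_nonneg_left (one_le_pow₀ hD1) e3
    _ = ((cr + 1) * y ^ 40000) ^ (2 * r) * ((y ^ 200) ^ 2 * (m : ℝ) * (c * lam * (y ^ 200) ^ 2 * y ^ 50)) ^ r := by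
        rw [mul_pow ((y ^ 40000) ^ 2), mul_pow (cr + 1), ← pow_mul (y ^ 40000)]
        ring

/-- arithmetic of the square root of G4 -/
theorem l8z5_sq {C Cm η0 y : ℝ} (hC : 0 < C) (hy0 : 0 < y) (hy1 : y ≤ 1) (hη1 : η0 ≤ |Cm| * y ^ 20) :
    64 * (η0 + C * (6 * y ^ 50) + y ^ 20) ≤ (64 * (|Cm| + 6 * C + 1) * y ^ 10) ^ 2 := by
  have e1 : y ^ 50 ≤ y ^ 20 := pow_le_pow_of_le_one hy0.le hy1 (by norm_num)
  have hKs1 : 1 ≤ 64 * (|Cm| + 6 * C + 1) := by have := abs_nonneg Cm; linarith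
  have e2 : (64 * (|Cm| + 6 * C + 1) * y ^ 10) ^ 2 = (64 * (|Cm| + 6 * C + 1)) ^ 2 * y ^ 20 := by ring
  have e3 : 64 * (|Cm| + 6 * C + 1) ≤ (64 * (|Cm| + 6 * C + 1)) ^ 2 := le_self_pow₀ hKs1 (by norm_num)
  have e4 : 0 < y ^ 20 := by positivity
  rw [e2]
  have e5 : C * (6 * y ^ 50) ≤ C * (6 * y ^ 20) := by nlinarith
  calc 64 * (η0 + C * (6 * y ^ 50) + y ^ 20) ≤ 64 * (|Cm| * y ^ 20 + C * (6 * y ^ 20) + y ^ 20) := by linarith
    _ = 64 * (|Cm| + 6 * C + 1) * y ^ 20 := by ring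
    _ ≤ (64 * (|Cm| + 6 * C + 1)) ^ 2 * y ^ 20 := mul_le_mul_of_nonneg_right e3 e4.le

/-- the final sum -/
theorem l8z5_fin {C Cm Ks cr η0 y x40 x2r dq : ℝ} (hC : 0 < C) (hKs : 0 ≤ Ks) (hcr : 0 ≤ cr) (hy0 : 0 < y) (hy1 : y ≤ 1) (hη1 : η0 ≤ |Cm| * y ^ 20)
    (z6 : x40 ≤ y ^ 4) (z7 : x2r ≤ y ^ 4) (z8 : dq ≤ y ^ 4) :
    2 * (C * (y ^ 200 + x40) + C * (y ^ 50 + x40)) + 2 * C * y ^ 50 + 16 * (η0 + C * (6 * y ^ 50) + y ^ 20) + 2 * (Ks * y ^ 10)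
      + (Ks * y ^ 10) ^ 2 + 2 * ((cr + 1) * y ^ 40000) + 2 * y ^ 40000 + (x2r + x40) + dq
      ≤ (8 * C + 2 * C + 16 * (|Cm| + 6 * C + 1) + 2 * Ks + Ks ^ 2 + 2 * (cr + 1) + 2 + 2 + 1) * y ^ 4 := by
  have hle : ∀ {a b : ℕ}, a ≤ b → y ^ b ≤ y ^ a := fun h => pow_le_pow_of_le_one hy0.le hy1 h
  have z0 : 0 < y ^ 4 := by positivity
  have z1 : y ^ 200 ≤ y ^ 4 := hle (by norm_num)
  have z2 : y ^ 50 ≤ y ^ 4 := hle (by norm_num)
  have z3 : y ^ 20 ≤ y ^ 4 := hle (by norm_num)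
  have z4 : y ^ 10 ≤ y ^ 4 := hle (by norm_num)
  have z5 : y ^ 40000 ≤ y ^ 4 := hle (by norm_num)
  have z9 : (Ks * y ^ 10) ^ 2 ≤ Ks ^ 2 * y ^ 4 := by
    have : (Ks * y ^ 10) ^ 2 = Ks ^ 2 * y ^ 20 := by ring
    rw [this]
    exact mul_le_mul_of_nonneg_left z3 (sq_nonneg _)
  have z10 : η0 ≤ |Cm| * y ^ 4 := hη1.trans (mul_le_mul_of_nonneg_left z3 (abs_nonneg _))
  have w1 : C * (y ^ 200 + x40) ≤ C * (y ^ 4 + y ^ 4) := mul_le_mul_of_nonneg_left (by linarith) hC.le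
  have w2 : C * (y ^ 50 + x40) ≤ C * (y ^ 4 + y ^ 4) := mul_le_mul_of_nonneg_left (by linarith) hC.le
  have w3 : 2 * C * y ^ 50 ≤ 2 * C * y ^ 4 := mul_le_mul_of_nonneg_left z2 (by linarith)
  have w4 : C * (6 * y ^ 50) ≤ C * (6 * y ^ 4) := mul_le_mul_of_nonneg_left (by linarith) hC.le
  have w5 : Ks * y ^ 10 ≤ Ks * y ^ 4 := mul_le_mul_of_nonneg_left z4 hKs
  have w6 : (cr + 1) * y ^ 40000 ≤ (cr + 1) * y ^ 4 := mul_le_mul_of_nonneg_left z5 (by linarith)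
  calc _ ≤ 2 * (C * (y ^ 4 + y ^ 4) + C * (y ^ 4 + y ^ 4)) + 2 * C * y ^ 4 + 16 * (|Cm| * y ^ 4 + C * (6 * y ^ 4) + y ^ 4) + 2 * (Ks * y ^ 4)
        + Ks ^ 2 * y ^ 4 + 2 * ((cr + 1) * y ^ 4) + 2 * y ^ 4 + (y ^ 4 + y ^ 4) + y ^ 4 := by linarith
    _ = _ := by ring

/-- **Z5 = the all-moment upgrade, untilted.**  PROVED (helper135, 06:20Z; `V = x^𝔞`, `ρ = x^(𝔞/4)`, `l0 = x^6`, `ϑ = x^(-𝔞)`, `R = 1200 r`, `2^J l0 ∈ [1,2]`).      TEX[LL:prop:statistics-size-accuracy] l.1243-1303.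
`P = I.sp false`, `ZT` with `τ = I.KC`, `V = x^𝔞`.   Cuts of mass `≥ 4 x^(𝔞/10)` and time `≤ M/4 + 1`: `l8z_g_interior`, `ρ = x^(𝔞/4)`, `η0 = Cm x^(𝔞/10)`, `q = I.zq`;   smaller splits: `l8z_g_small` with the central cut of mass `≈ 8 x^(𝔞/10)`;
later cuts: `l8z_g_frozen` with `ZFrz (2 r)`.   `l8z_d_contr` for the projected endpoints, `q_sh` for `I.q`.   `x^(𝔞/20) ≤ x^(𝔞/50)` absorbs the square root of G4. -/
theorem l8z_Z5 (c C v1 v2 Cm : ℝ) (hc : 0 < c) (r : ℕ) (hr : 1 ≤ r) : ∃ C5 x0 : ℝ, 0 < x0 ∧ ∀ I : L8In, I.ZStd c C v1 v2 → I.x ≤ x0 → I.ZMean Cm → I.ZFrz (2 * r) → I.ZUnt r C5 := by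
  obtain ⟨c1, hc1, p1⟩ := l8i_proj 1 le_rfl
  obtain ⟨cR, hcR, pR⟩ := l8i_proj (1200 * r) (by omega)
  obtain ⟨cr, hcr, pr⟩ := l8i_proj r hr
  obtain ⟨cpin, hcpin⟩ : ∃ cpin : ℝ, cpin = (1 + (2 * r : ℝ) ^ 2 / 3) ^ r := ⟨_, rfl⟩
  have hcp0 : 0 ≤ cpin := by rw [hcpin]; positivity
  obtain ⟨y1, hy1, hnum⟩ := l8z5_num c c1 cR cpin 480003 r hc hc1.le hcR.le hcp0 (by norm_num) hr
  obtain ⟨y0, hy0def⟩ : ∃ y0 : ℝ, y0 = min (min (1 / 2) (c / 2)) y1 := ⟨_, rfl⟩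
  have hy00 : 0 < y0 := by rw [hy0def]; exact lt_min (lt_min (by norm_num) (by positivity)) hy1
  have hy0h : y0 ≤ 1 / 2 := by rw [hy0def]; exact (min_le_left _ _).trans (min_le_left _ _)
  obtain ⟨Ks, hKs⟩ : ∃ Ks : ℝ, Ks = 64 * (|Cm| + 6 * C + 1) := ⟨_, rfl⟩
  refine ⟨8 * C + 2 * C + 16 * (|Cm| + 6 * C + 1) + 2 * Ks + Ks ^ 2 + 2 * (cr + 1) + 2 + 2 + 1, min (Real.exp (-(max 1 (4 * C + 28)))) (y0 ^ 40000), by positivity,
    fun I hI hx hM hF => ?_⟩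
  have g := hI.geo
  have hC := l8zk_C_pos g
  have hx0 : 0 < I.x := l8zk_x_pos hI.ok
  obtain ⟨y, hy0, hyy0, hxy, eV, e20, e4, eom, hylam, hm⟩ := l8z5_dict hI hy00 (hy0h.trans (by norm_num)) (hx.trans (min_le_right _ _))
  have hyh : y ≤ 1 / 2 := hyy0.trans hy0h
  have hyc : y ≤ c / 2 := hyy0.trans (by rw [hy0def]; exact (min_le_left _ _).trans (min_le_right _ _))
  have hyy1 : y ≤ y1 := hyy0.trans (by rw [hy0def]; exact min_le_right _ _)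
  have hy1' : y ≤ 1 := hyh.trans (by norm_num)
  have hle : ∀ {a b : ℕ}, a ≤ b → y ^ b ≤ y ^ a := fun h => pow_le_pow_of_le_one hy0.le hy1' h
  have hx1 : I.x ≤ 1 := by rw [hxy]; exact pow_le_one₀ hy0.le hy1'
  have e40 : I.x ^ 40 = y ^ 1600000 := by rw [hxy, ← pow_mul]
  have hlam0 : 0 < I.lam := lt_of_lt_of_le hy0 hylam
  obtain ⟨hMC', hMn⟩ := l8z5_M hI hx1 (le_max_left 1 (4 * C + 28)) (hx.trans (min_le_left _ _))
  have hMC : 4 * C + 28 ≤ I.p.M := (le_max_right _ _).trans hMC'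
  obtain ⟨J, hJ1, hJ2, hJ3⟩ := l8z5_J hy0 hy1'
  have h40_0 : 0 ≤ I.x ^ 40 := by positivity
  have h40_1 : I.x ^ 40 ≤ 1 := pow_le_one₀ hx0.le hx1
  obtain ⟨ka, kc, kF, hkc, hcF, hFn, hVa, haV, hc3, hc4, hf3, hf4⟩ := l8z5_cuts g (V := y ^ 200) (ρ := y ^ 50) (by positivity)
    ((hle (by norm_num : 1 ≤ 200)).trans (by rw [pow_one]; linarith)) ((pow_le_one₀ hy0.le hy1').trans (by norm_num)) (by positivity)
    (pow_le_one₀ hy0.le hy1') h40_0 h40_1 hMn hMC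
  have hmpos : 1 ≤ I.m := l8zk_m_pos hI.ok
  have ha0 : 0 < I.a := by rw [g.a4]; norm_num
  have hok : (I.sp false).Ok := l8i_ok I.m hmpos I.a ha0 I.P0 g.adm0
  have hVx : 2 * I.x ≤ y ^ 200 := by
    rw [hxy]
    have e1 : y ^ 40000 = y * y ^ 39999 := by ring
    have h2 : y ^ 39999 ≤ y ^ 200 := hle (by norm_num)
    have h3 : 0 < y ^ 39999 := by positivity
    rw [e1]
    nlinarith [mul_le_mul_of_nonneg_right hyh h3.le]
  have hT := l8z5_ZT hc hI (V := y ^ 200) (ka := ka) (by positivity) hVx hVa hlam0 (by rw [eom]; positivity) hok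
  obtain ⟨q', hq'⟩ : ∃ q' : ℕ → ℝ, q' = fun k => I.zq (min k I.n) := ⟨_, rfl⟩
  have hq'n : ∀ k ≤ I.n, q' k = I.zq k := fun k hk => by rw [hq']; simp only [min_eq_left hk]
  have hτ := l8z5_KC_mono g.admK
  have hKC0 := l8zk_KC_nonneg I g.admK
  obtain ⟨η0, hη0def⟩ : ∃ η0 : ℝ, η0 = Cm * I.x ^ (saA / 10) := ⟨_, rfl⟩
  have hη0 : 0 ≤ η0 := by rw [hη0def]; exact (abs_nonneg _).trans (hM 0 (Nat.zero_le _))
  have hη1 : η0 ≤ |Cm| * y ^ 20 := by rw [hη0def, e20]; exact mul_le_mul_of_nonneg_right (le_abs_self _) (by positivity)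
  have hSP : ∀ l ≤ I.n, (I.sp false).S l = I.S l := fun l hl => l8i_S I.m I.a ha0 I.P0 g.adm0 l (by rw [l8zk_len0]; exact hl)
  have hKs0 : 0 ≤ Ks := by rw [hKs]; have := abs_nonneg Cm; linarith
  have hy50 : y ^ 50 ≤ 1 := pow_le_one₀ hy0.le hy1'
  have hroomR : I.KC kF + 4 * y ^ 50 + 2 ^ J * y ^ 240000 ≤ I.KC I.n := by linarith
  have hS : ∀ l, ka ≤ l → l ≤ I.n → |(I.sp false).S l - q' l| ≤ η0 := fun l _ hl => by
    rw [hSP l hl, hq'n l hl, hη0def]; exact hM l hl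
  have hq : ∀ l l', ka ≤ l → l ≤ l' → l' ≤ I.n → |q' l' - q' l| ≤ C * (I.KC l' - I.KC l) := fun l l' _ hll hl' => by
    rw [hq'n l' hl', hq'n l (hll.trans hl')]
    have := l8zk_G_lip g (hKC0 l') (hKC0 l)
    rwa [abs_of_nonneg (sub_nonneg.2 (hτ hll))] at this
  have hεb : cpin * (l8zIW (I.sp false).a I.m J r (1200 * r) c1 cR (y ^ 200) (c * I.lam * (y ^ 200) ^ 2) (y ^ 240000) (I.x ^ 40) (6 * y ^ 50) (y ^ 200)⁻¹
      / (c * I.p.om * (y ^ 50) ^ 2)) ^ r ≤ (y ^ 20) ^ (2 * r) := by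
    have := hnum y I.lam I.m J hy0 hyy1 hy1' hylam hm hJ1 hJ3
    rw [e40, eom]
    have ea : (I.sp false).a = 4 := g.a4
    rw [ea]
    exact this
  have hsq : 64 * (η0 + C * (6 * y ^ 50) + y ^ 20) ≤ (Ks * y ^ 10) ^ 2 := by rw [hKs]; exact l8z5_sq hC hy0 hy1' hη1
  have hpe : cr / ((y ^ 200) ^ 2 * (I.m : ℝ) * (c * I.lam * (y ^ 200) ^ 2 * y ^ 50)) ^ r ≤ ((cr + 1) * I.x) ^ (2 * r) := by
    rw [hxy]; exact l8z5_pe hc hcr.le hr hy0 hy1' hyc hylam hm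
  have hkcn : kc ≤ I.n := hcF.trans hFn
  have hql : ∀ k, k ≤ kc → |q' k| ≤ C * (y ^ 200 + I.x ^ 40) + C * (y ^ 50 + I.x ^ 40) := fun k hk => by
    rw [hq'n k (hk.trans hkcn), abs_of_nonneg (l8zk_zq_mem g k).1]
    have a1 : I.zq k ≤ I.zq kc := l8z5_G_mono g (hKC0 k) (hτ hk)
    have a2 := (abs_le.1 (hq ka kc le_rfl hkc hkcn)).2
    rw [hq'n kc hkcn, hq'n ka (hkc.trans hkcn)] at a2
    have a3 : I.zq ka ≤ C * (y ^ 200 + I.x ^ 40) := (g.q_hi ka (hkc.trans hkcn)).trans (mul_le_mul_of_nonneg_left haV hC.le)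
    have a4 : C * (I.KC kc - I.KC ka) ≤ C * (y ^ 50 + I.x ^ 40) := mul_le_mul_of_nonneg_left (by linarith) hC.le
    linarith
  have hfz : 1 - (I.sp false).S kF ≤ I.x ^ (2 * r) := by rw [hSP kF hFn]; exact (hF kF hFn hf3).1
  have hfq : ∀ k, kF ≤ k → |1 - q' k| ≤ I.x ^ (2 * r) + I.x ^ 40 := fun k hk => by
    have hk' : min k I.n ≤ I.n := min_le_right _ _
    have e : q' k = I.zq (min k I.n) := by rw [hq']
    have b1 := (hF (min k I.n) hk' (hf3.trans (hτ (le_min hk hFn)))).2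
    have b2 := abs_le.1 (g.q_sh (min k I.n) hk')
    have b3 := (l8zk_zq_mem g (min k I.n)).2
    rw [e, abs_of_nonneg (by linarith)]
    linarith [b2.1, b2.2]
  intro k hk k₁ k₂ hk1 hk2
  have main := (I.sp false).l8z_d_all hok hT r (1200 * r) J hr (by omega) hc1.le hcR.le hcr.le hcp0 (l0 := y ^ 240000) (ϑ := (y ^ 200)⁻¹)
    (hmin := c * I.lam * (y ^ 200) ^ 2 * y ^ 240000) (by positivity) (by positivity)
    (p1 I.m I.a I.P0 hmpos ha0 (by rw [g.a4]) g.adm0 _ _ (by positivity) (by positivity))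
    (pR I.m I.a I.P0 hmpos ha0 (by rw [g.a4]) g.adm0 _ _ (by positivity) (by positivity))
    (pr I.m I.a I.P0 hmpos ha0 (by rw [g.a4]) g.adm0 _ _ (by positivity) (by positivity))
    (hcpin ▸ l8i_pin I.m hmpos I.a ha0 I.P0 g.adm0 r hr) le_rfl q'
    (η0 := η0) (Lq := C) (ρ := y ^ 50) (ε := y ^ 20) (sq := Ks * y ^ 10) (e := (cr + 1) * I.x)
    (ql := C * (y ^ 200 + I.x ^ 40) + C * (y ^ 50 + I.x ^ 40)) (fz := I.x) (fq := I.x ^ (2 * r) + I.x ^ 40)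
    hη0 hC.le (by positivity) (hle (by norm_num)) h40_0 (by rw [e40]; exact hle (by norm_num)) (by positivity) (by positivity) hx0.le
    hkc hcF hFn hc3 hroomR hS hq hεb hsq hpe hql hfz hfq hk1 hk2
  have hprob := (I.sp false).l8s_fork_prob hok k
  have n1 := l8zN_of_le (ν := (I.sp false).fork k) (r := r) (((I.sp false).l8z_g_QX_bd hok k₁ k₂).sub (l8Bd_const (q' k))) (by positivity) main
  have z5 : I.x ≤ y ^ 4 := by rw [hxy]; exact hle (by norm_num)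
  have hfin := l8z5_fin (Cm := Cm) (x40 := I.x ^ 40) (x2r := I.x ^ (2 * r)) (dq := |q' k - I.q k|) hC hKs0 hcr.le hy0 hy1' hη1
    (by rw [e40]; exact hle (by norm_num)) ((pow_le_of_le_one hx0.le hx1 (by omega)).trans z5)
    (by rw [hq'n k hk, abs_sub_comm]; exact (g.q_sh k hk).trans (by rw [e40]; exact hle (by norm_num)))
  rw [← hxy, ← e4] at hfin
  have n2 := (n1.add hr (l8zN_const (ν := (I.sp false).fork k) r (q' k - I.q k))).le hfin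
  refine le_trans (le_of_eq ?_) n2.2.2
  unfold L8In.moF
  congr 1
  funext p
  ring_nf

/-! ## F. Glue (proved) -/

/-- **(D11), untilted, at one instance**: the steps chained -/
theorem l8z_unt (c C v1 v2 : ℝ) (hc : 0 < c) (r : ℕ) (hr : 1 ≤ r) :
    ∃ C5 x0 : ℝ, 0 < x0 ∧ ∀ I : L8In, I.ZStd c C v1 v2 → I.x ≤ x0 → I.p.trialGap I.F I.𝔹 I.m ≤ I.x ^ 4 → I.ZUnt r C5 := by
  obtain ⟨x1, hx1, Z1⟩ := l8z_Z1 c C v1 v2 hc
  obtain ⟨x2, hx2, Z2a⟩ := l8z_Z2a c C v1 v2 hc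
  obtain ⟨C14, x3, hx3, Z2⟩ := l8z_Z2 c C v1 v2 hc
  obtain ⟨x4, hx4, Z3a⟩ := l8z_Z3 c C v1 v2 hc 1
  obtain ⟨x5, hx5, Z3b⟩ := l8z_Z3 c C v1 v2 hc 11
  obtain ⟨x6, hx6, Z3c⟩ := l8z_Z3 c C v1 v2 hc (2 * r)
  obtain ⟨x7, hx7, Zl⟩ := l8z_Zl c C v1 v2 hc
  obtain ⟨Cm, x8, hx8, Z4⟩ := l8z_Z4 c C v1 v2 C14 hc
  obtain ⟨C5, x9, hx9, Z5⟩ := l8z_Z5 c C v1 v2 Cm hc r hr
  refine ⟨C5, min 1 (min x1 (min x2 (min x3 (min x4 (min x5 (min x6 (min x7 (min x8 x9)))))))), by positivity, ?_⟩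
  intro I hI hx hgap
  simp only [le_min_iff] at hx
  obtain ⟨h1, h2, h3, h4, h5, h6, h7, h8, h9, h10⟩ := hx
  have hx0 := I.x_nonneg
  have hD12 := Z1 I hI h2
  have hF1 := Z3a I hI h5
  have hE : I.zE0 ≤ 2 * I.x ^ 4 := by
    have e1 := Z2a I hI h3
    have e2 : I.x ^ 30 ≤ I.x ^ 4 := pow_le_pow_of_le_one hx0 h1 (by norm_num)
    linarith
  have hD14 := Z2 I hI h4 hE hD12 hF1
  have hL := Zl I hI h8 (Z3b I hI h6)
  exact Z5 I hI h10 (Z4 I hI h9 hD12 hD14 hF1 hL) (Z3c I hI h7)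

/-- (C2), second half, in the shape of the exits of LL 08 -/
theorem l8z_c2 (F : LlFix) (cC : ℝ) (hcC : 0 < cC) (hC2 : BtC2 llBase F cC) :
    ∃ N0 : ℕ, L8Ev F llBase N0 l8Siz fun I => I.p.trialGap I.F I.𝔹 I.m ≤ I.x ^ 4 := by
  obtain ⟨N0, h⟩ := hC2.gap
  refine ⟨N0, ?_⟩
  intro N s hN
  refine Eventually.of_forall fun Fs ell lam chiL chiE sm γ m hR hOk => ?_
  obtain ⟨hsm, hchi⟩ := hR
  have hsm' : sm = true := hsm
  have hchi' : chiL = 1 := hchi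
  subst hsm' hchi'
  obtain ⟨hlam, hchiE⟩ := hOk.pt.sm_fin rfl
  have hlam' : lam = skX N ^ F.pS := hlam
  have hchiE' : chiE = 0 := hchiE
  subst hlam' hchiE'
  have h1 := (h N hN ell ⟨hOk.pt.ell1, hOk.pt.ell2⟩ m hOk.m_lo hOk.m_hi γ).2
  refine h1.trans ?_
  have hN2 : 2 ≤ N := hOk.pt.N2
  have hx0 : 0 < skX N := Real.rpow_pos_of_pos (by exact_mod_cast (by omega : 0 < N)) _
  have hx1 : skX N ≤ 1 := Real.rpow_le_one_of_one_le_of_nonpos (by exact_mod_cast (by omega : 1 ≤ N)) (by norm_num)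
  show skX N ^ (4 + cC) ≤ skX N ^ 4
  rw [← Real.rpow_natCast (skX N) 4]
  exact Real.rpow_le_rpow_of_exponent_ge hx0 hx1 (by push_cast; linarith)

/-- `x ≤ x0` for large `N` -/
theorem l8z_x_small (x0 : ℝ) (hx0 : 0 < x0) : ∃ N1 : ℕ, ∀ I : L8In, N1 ≤ I.p.N → I.x ≤ x0 := by
  obtain ⟨N1, h⟩ := lkk_x_small hx0
  exact ⟨N1, fun I hI => h I.p hI⟩

/-- **THE BODY OF (D11)**: for one record of exponents -/
theorem l8z_core (T : ℝ) (hT : 1 < T) (hfine : L8gFine llBase T)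
    (F0 : LlFix) (hF : L8Fix llBase T F0) (pB : LLParB) (pS : ℝ) (h0 : 0 < pS) (h1 : pS ≤ 1 / 40000)
    (hK8 : LlK8 llBase (F0.wExp pB.sStar pB.eta pS)) (cC : ℝ) (hcC : 0 < cC) (hC2 : BtC2 llBase (F0.wExp pB.sStar pB.eta pS) cC)
    (εs qs : ℝ) (hTl : L8zTilt (F0.wExp pB.sStar pB.eta pS) εs qs) (r : ℕ) (hr : 1 ≤ r) :
    ∃ (C : ℝ) (N0 : ℕ), L8Ev (F0.wExp pB.sStar pB.eta pS) llBase N0 l8Siz fun I => ∀ tl : Bool, (tl = true → I.s = qs * I.x ^ (1 + εs) ∧ I.Stop (I.x ^ εs)) →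
      ∀ k, I.act tl k → ∀ k₁ k₂, k ≤ k₁ → k ≤ k₂ → I.moF tl k r (fun ω => (I.sp tl).QX k₁ k₂ ω - I.q k) ≤ (C * I.x ^ llDStar) ^ (2 * r) := by
  obtain ⟨c, C, v1, v2, Ng, hc, -, -, hgeo⟩ := l8z_geo T hT F0 hF pB pS h0 h1 hK8
  obtain ⟨Ca, xa, hxa, Ua⟩ := l8z_unt c C v1 v2 hc r hr
  obtain ⟨Cb, xb, hxb, Ub⟩ := l8z_unt c C v1 v2 hc (2 * r) (by omega)
  obtain ⟨Nx, hNx⟩ := l8z_x_small (min xa xb) (lt_min hxa hxb)
  obtain ⟨Nc, hc2⟩ := l8z_c2 _ cC hcC hC2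
  obtain ⟨CR, Nt, htl⟩ := hTl
  -- the untilted bounds at the orders `r`, `2 r`, at all fine instances
  obtain ⟨Nf, hU⟩ := L8Ev.of_fine' hfine hF pB h0 (h1.trans (by norm_num)) saEta saEta_pos (max Ng Nx) (R := l8Siz)
    (Φ := fun I => I.p.trialGap I.F I.𝔹 I.m ≤ I.x ^ 4 → I.ZUnt r Ca ∧ I.ZUnt (2 * r) Cb) (by
      intro I hIF hIB hN hR hOk hFine hgap
      have hstd : I.ZStd c C v1 v2 := by
        refine ⟨hOk, hR, hIB, by rw [hIF]; exact h0, by rw [hIF]; exact h1,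
          hgeo I hIF hIB ((le_max_left _ _).trans hN) hR hOk (hFine.mono (min_le_left _ _)), ?_⟩
        intro e he hm
        have hN1 : 1 ≤ 3 * I.p.N := by have := hOk.pt.N2; omega
        exact ⟨(hFine.db_le e he hm).trans (saEta_le_del _ _ hOk.m_hi), (hFine.dh_le e he).trans (saEta_le_del _ _ hOk.m_hi),
          (hFine.dK_le e he).trans (saEta_le_del _ _ hN1)⟩
      have hx := hNx I ((le_max_right _ _).trans hN)
      exact ⟨Ua I hstd (hx.trans (min_le_left _ _)) hgap, Ub I hstd (hx.trans (min_le_right _ _)) hgap⟩)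
  refine ⟨max |Ca| (max 1 |CR| * |Cb|), max (max Nf Nc) Nt, ?_⟩
  refine L8Ev.mono ((hU.and hc2).and htl) le_rfl ?_
  rintro I hOk ⟨⟨hU, hgap⟩, htl⟩ tl htil k hk k₁ k₂ hk1 hk2
  obtain ⟨hUa, hUb⟩ := hU hgap
  have hxd : 0 ≤ I.x ^ llDStar := Real.rpow_nonneg I.x_nonneg _
  cases tl with
  | false =>
    refine (hUa k hk.1 k₁ k₂ hk1 hk2).trans ?_
    rw [pow_mul, pow_mul]
    refine pow_le_pow_left₀ (sq_nonneg _) ?_ r
    rw [mul_pow, mul_pow]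
    refine mul_le_mul_of_nonneg_right ?_ (sq_nonneg _)
    rw [← sq_abs Ca]
    exact pow_le_pow_left₀ (abs_nonneg _) (le_max_left _ _) 2
  | true =>
    obtain ⟨hs, hst⟩ := htil rfl
    have t1 := htl hs hst r k k₁ k₂ (I.q k) hk hk1 hk2
    have t2 := hUb k hk.1 k₁ k₂ hk1 hk2
    set A := I.moF true k r (fun ω => (I.sp true).QX k₁ k₂ ω - I.q k) with hA
    set Bq := I.moF false k (2 * r) (fun ω => (I.sp false).QX k₁ k₂ ω - I.q k) with hB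
    have hB0 : 0 ≤ Bq := integral_nonneg fun ω => by
      show 0 ≤ _ ^ (2 * (2 * r))
      rw [pow_mul]; exact pow_nonneg (sq_nonneg _) _
    set D := max 1 |CR| * |Cb| * I.x ^ llDStar with hD
    have hD0 : 0 ≤ D := by positivity
    have t3 : A ^ 2 ≤ (D ^ (2 * r)) ^ 2 := by
      calc A ^ 2 ≤ CR * Bq := t1
        _ ≤ max 1 |CR| * Bq := mul_le_mul_of_nonneg_right ((le_abs_self _).trans (le_max_right _ _)) hB0
        _ ≤ max 1 |CR| * (Cb * I.x ^ llDStar) ^ (2 * (2 * r)) := mul_le_mul_of_nonneg_left t2 (by positivity)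
        _ = max 1 |CR| * (|Cb| * I.x ^ llDStar) ^ (2 * (2 * r)) := by
            congr 1
            rw [← (even_two_mul (2 * r)).pow_abs (Cb * _), abs_mul, abs_of_nonneg hxd]
        _ ≤ max 1 |CR| ^ (2 * (2 * r)) * (|Cb| * I.x ^ llDStar) ^ (2 * (2 * r)) := by
            refine mul_le_mul_of_nonneg_right ?_ (by positivity)
            exact le_self_pow₀ (le_max_left _ _) (by omega)
        _ = (D ^ (2 * r)) ^ 2 := by
            rw [hD, ← mul_pow, ← pow_mul, mul_assoc]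
            congr 1
            ring
    have t4 : A ≤ D ^ (2 * r) := abs_le_of_sq_le_sq' t3 (by positivity) |>.2
    refine t4.trans ?_
    refine pow_le_pow_left₀ hD0 ?_ _
    rw [hD]
    exact mul_le_mul_of_nonneg_right (le_max_right _ _) hxd

/-! ## G. The supplies as named leaves (owners OUTSIDE the unit SA) and the exit -/

/-- OWNER: helper272 / helper253 / helper267 + helper224 (NEW field of `LlcTop3`: then this is a projection of `hF.2.2`).   See `LlK8`. -/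
theorem l8z_sup_k8 (T : ℝ) (hT : 1 < T) (F0 : LlFix) (hF : L8Fix llBase T F0) (pB : LLParB) (pS : ℝ) (h0 : 0 < pS) (h1 : pS ≤ 1) :
    LlK8 llBase (F0.wExp pB.sStar pB.eta pS) :=
  (hF.2.2 pB.sStar pB.eta pS (llc_expOk pB h0 h1)).sec3.k8

/-- the supply (C2) in the form read by `l8z_d11`.      PROVED in `Exit/D11.lean` (`l8z_sup_c2`, 3 lines over `exit_c12`): so this file does NOT import the folder `Bud` (477 modules). -/
def L8zSupC2 (T : ℝ) : Prop :=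
  ∀ F0 : LlFix, L8Fix llBase T F0 → ∀ pB : LLParB, LlcStB llBase F0 pB →
    ∃ p0 : ℝ, 0 < p0 ∧ ∀ pS, 0 < pS → pS ≤ p0 → ∃ cC : ℝ, 0 < cC ∧ BtC2 llBase (F0.wExp pB.sStar pB.eta pS) cC

theorem l8z_sup_eqns_cite : True := by
  have := @L8zSupC2.eq_1
  trivial

/-- **the tilt bridge at one fine instance on the stop**, Cauchy-Schwarz form (`TlkLink` of 189, `E R² ≤ e`) -/
theorem l8z_tilt_I (εs qs : ℝ) (hε : 0 < εs) (hq : 0 < qs) : ∃ N0 : ℕ, ∀ I : L8In, N0 ≤ I.p.N → I.Ok → I.Fine 1 →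
    I.s = qs * I.x ^ (1 + εs) → I.Stop (I.x ^ εs) →
    ∀ (r k k₁ k₂ : ℕ) (q : ℝ), I.act true k → k ≤ k₁ → k ≤ k₂ →
      I.moF true k r (fun ω => (I.sp true).QX k₁ k₂ ω - q) ^ 2
        ≤ Real.exp 1 * I.moF false k (2 * r) (fun ω => (I.sp false).QX k₁ k₂ ω - q) := by
  obtain ⟨N1, hmom⟩ := tlk_I_mom εs qs 2 hε hq (by norm_num)
  refine ⟨N1, fun I hN hOk hf hs hstop r k k₁ k₂ q hact hk1 hk2 => ?_⟩
  have hlink := tlk_I_link hOk hf
  have hPu : (I.sp false).Ok := l8i_ok I.m (tlq_I_m_pos hOk) I.a (zero_lt_one.trans_le (tlq_I_a_one hOk)) _ hf.adm.1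
  obtain ⟨hRi, hRm⟩ := hmom I hN hOk hf hs hstop
  have hk0 : I.js + 1 ≤ k := hact.2 rfl
  have hl := ((tlk_QX (I.sp true) (I.sp false) (hk0.trans hk1) (hk0.trans hk2)).sub_const q).pow (2 * r)
  have hRm2 : Measurable fun ω => tlqR I.m I.a I.LP I.js ω ^ 2 := hlink.R_meas.pow_const 2
  have := (I.sp false).l8s_fork_prob hPu k
  have hQ : L8Bd ((I.sp false).QX k₁ k₂) := (I.sp false).l8z_g_QX_bd hPu k₁ k₂
  have hfu : Integrable (fun ω => (((I.sp false).QX k₁ k₂ ω - q) ^ (2 * r)) ^ 2) ((I.sp false).fork k) :=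
    l8k_bd_integrable (l8k_bd_pow (l8k_bd_pow (l8k_bd_sub hQ (l8k_bd_const q)) (2 * r)) 2) _
  have key := tlk_cs2 hlink hk0 hl (tlk_fork_fst_int _ hPu k hRm2 hRi) hfu
  rw [tlk_fork_fst _ hPu k hRm2] at key
  set a := ∫ ω, tlqR I.m I.a I.LP I.js ω ^ 2 ∂(I.sp false).μ with ha
  set b := ∫ ω, (((I.sp false).QX k₁ k₂ ω - q) ^ (2 * r)) ^ 2 ∂(I.sp false).fork k with hb
  have ha0 : 0 ≤ a := integral_nonneg fun ω => sq_nonneg _
  have hb0 : 0 ≤ b := integral_nonneg fun ω => sq_nonneg _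
  have e : I.moF false k (2 * r) (fun ω => (I.sp false).QX k₁ k₂ ω - q) = b := by
    unfold L8In.moF
    rw [hb]
    refine integral_congr_ae (Eventually.of_forall fun ω => ?_)
    simp only
    rw [← pow_mul]
    congr 1
    ring
  rw [e]
  unfold L8In.moF
  calc (∫ ω, ((I.sp true).QX k₁ k₂ ω - q) ^ (2 * r) ∂(I.sp true).fork k) ^ 2
      = |∫ ω, ((I.sp true).QX k₁ k₂ ω - q) ^ (2 * r) ∂(I.sp true).fork k| ^ 2 := (sq_abs _).symm
    _ ≤ (√a * √b) ^ 2 := pow_le_pow_left₀ (abs_nonneg _) key 2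
    _ = a * b := by rw [mul_pow, Real.sq_sqrt ha0, Real.sq_sqrt hb0]
    _ ≤ Real.exp 1 * b := mul_le_mul_of_nonneg_right hRm hb0

/-- OWNER: helper189 (`L08/TlLink.lean`, `L08/TlSk.lean`).      PROVED (helper77): `l8z_tilt_I` at all fine instances. -/
theorem l8z_sup_tilt (T : ℝ) (hT : 1 < T) (F0 : LlFix) (hF : L8Fix llBase T F0) (pB : LLParB) (pS : ℝ) (h0 : 0 < pS) (h1 : pS ≤ 1) (εs qs : ℝ) (hε : 0 < εs) (hq : 0 < qs) :
    L8zTilt (F0.wExp pB.sStar pB.eta pS) εs qs := by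
  obtain ⟨N1, hI⟩ := l8z_tilt_I εs qs hε hq
  obtain ⟨N0, hN0⟩ := L8Ev.of_fine' (l8g_fine T hT) hF pB h0 h1 (fun _ => 1) (fun _ _ => one_pos) N1 (R := l8Siz)
    (fun I _ _ hN _ hOk hf => hI I hN hOk hf)
  exact ⟨Real.exp 1, N0, hN0⟩

/-- **(D11)** -/
theorem l8z_d11 (T : ℝ) (hT : 1 < T) (hc2 : L8zSupC2 T) : L8xD11 llBase T := by
  intro F0 hF pB hSt
  obtain ⟨p0, hp0, hC2⟩ := hc2 F0 hF pB hSt
  refine ⟨min p0 (1 / 40000), lt_min hp0 (by norm_num), ?_⟩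
  intro pS h0 h1 εs qs hεs hqs r hr
  have h2 : pS ≤ 1 / 40000 := h1.trans (min_le_right _ _)
  have h3 : pS ≤ 1 := h2.trans (by norm_num)
  obtain ⟨cC, hcC, hC2⟩ := hC2 pS h0 (h1.trans (min_le_left _ _))
  exact l8z_core T hT (l8g_fine T hT) F0 hF pB pS h0 h2 (l8z_sup_k8 T hT F0 hF pB pS h0 h3) cC hcC hC2
    εs qs (l8z_sup_tilt T hT F0 hF pB pS h0 h3 εs qs hεs hqs) r hr

end

end Claimed.Agent.R286
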