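import Claimed.Agent.R286.L08.Glue
import Claimed.Agent.R286.Bud.TopKit
import Claimed.Agent.R286.Bud.PinPath
import Claimed.Agent.R286.Brg.Stat
import Claimed.Agent.R286.Brg.Path
import Claimed.Agent.R286.Exit.ClkStat
import Claimed.Agent.R286.Exit.BudWorld
import Claimed.Agent.R286.L09.IncGlue
import Claimed.Agent.R286.L02.SzInst
import Claimed.Agent.R286.Fd.Contract

/-!
# Row 286 (S0533), folder L08, file Brz : MISFIT M3 = PATH -> CHAIN FOR THE BUDGETS      (owner helper262; prefix `l8b_`, defs `l8bL`, `L8bH`)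

`l8b_main` = the statement `L8zBr llBase T` of `L08/GlueZ.lean` (leaf `l8z_br`), from `l8g_fine`.

* PART 0  Riemann sums on the cells `(v (k-1), v k)` of a nondecreasing sequence (`l8b_riem`), telescoping (`l8b_tel`).
* PART 1  chains: masses of `skCStp`, the cut of the mass `t` (`l8b_idx`), `I.Fine η ⟹ ghOsc ≤ η` (`l8b_osc_le`), modulus of the SK chain (`l8b_brgFine`).
* PART 2  ONE INSTANCE (`L8bH I η`: what is used of the point): `l8b_A_mem` (`0 ≤ A_k ≤ 4`), `l8b_SB` (`|S_k - S_t|, |B_k - B_t| ≤ 18 a² m η` for EVERY mass `t` of the open cell of the cut `k`: rate of 125's `brg_s_SB_lim`),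
          `l8b_A_le` (`A_k ≤ A_t + 54 a² m η + 4 η + 4 (q(v_k) - q(v_(k-1)))`; the reference overlap enters through its MONOTONICITY only: no modulus of `q` is needed), `l8b_int_le` (weighted sums over the cuts versus `p.wA`).
* PART 3  the point: `L8bH` from `LlSec3` (`LlAdm`, `LlAdmEnd`, `LlRef`), choice of the mesh, `l8b_main`.
-/

set_option autoImplicit false

namespace Claimed.Agent.R286

open MeasureTheory Set Filter Finset

noncomputable section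

/-! ## PART 0 -/

/-- left end of the cell `k` of the sequence `v` -/
def l8bL (v : ℕ → ℝ) (k : ℕ) : ℝ := if k = 0 then 0 else v (k - 1)

theorem l8b_eqns_cite : True := by
  have := @l8bL.eq_1
  trivial

theorem l8b_L_zero (v : ℕ → ℝ) : l8bL v 0 = 0 := by simp [l8bL]

theorem l8b_L_succ (v : ℕ → ℝ) (k : ℕ) : l8bL v (k + 1) = v k := by simp [l8bL]

theorem l8b_L_le {v : ℕ → ℝ} (hv : Monotone v) (hv0 : 0 ≤ v 0) (k : ℕ) : l8bL v k ≤ v k := by
  cases k with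
  | zero => rw [l8b_L_zero]; exact hv0
  | succ k => rw [l8b_L_succ]; exact hv (Nat.le_succ k)

theorem l8b_L_nonneg {v : ℕ → ℝ} (hv : Monotone v) (hv0 : 0 ≤ v 0) (k : ℕ) : 0 ≤ l8bL v k := by
  cases k with
  | zero => rw [l8b_L_zero]
  | succ k => rw [l8b_L_succ]; exact hv0.trans (hv (Nat.zero_le k))

theorem l8b_tel (v : ℕ → ℝ) (φ : ℝ → ℝ) (n : ℕ) : ∑ k ∈ range (n + 1), (φ (v k) - φ (l8bL v k)) = φ (v n) - φ 0 := by
  induction n with
  | zero => simp [l8b_L_zero]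
  | succ n ih => rw [sum_range_succ, ih, l8b_L_succ]; ring

theorem l8b_disj {v : ℕ → ℝ} (hv : Monotone v) {j k : ℕ} (h : j ≠ k) :
    Disjoint (Ioo (l8bL v j) (v j)) (Ioo (l8bL v k) (v k)) := by
  have key : ∀ j k : ℕ, j < k → Disjoint (Ioo (l8bL v j) (v j)) (Ioo (l8bL v k) (v k)) := by
    intro j k hjk
    obtain ⟨k, rfl⟩ : ∃ k', k = k' + 1 := ⟨k - 1, by omega⟩
    rw [l8b_L_succ, Set.disjoint_left]
    intro t h1 h2
    exact absurd (h1.2.trans_le (hv (by omega : j ≤ k))) (not_lt.2 h2.1.le)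
  rcases lt_or_gt_of_ne h with h | h
  · exact key j k h
  · exact (key k j h).symm

/-- the integrals over the cells of a nonnegative function add up to at most the integral over any set which contains the cells -/
theorem l8b_cells_le {v : ℕ → ℝ} (hv : Monotone v) (s : Finset ℕ) {f : ℝ → ℝ} {D : Set ℝ} (hD : MeasurableSet D) (hf : IntegrableOn f D)
    (h0 : ∀ t ∈ D, 0 ≤ f t) (hs : ∀ k ∈ s, Ioo (l8bL v k) (v k) ⊆ D) :
    ∑ k ∈ s, ∫ t in Ioo (l8bL v k) (v k), f t ≤ ∫ t in D, f t := by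
  rw [← integral_biUnion_finset s (fun k _ => measurableSet_Ioo) (fun j _ k _ h => l8b_disj hv h)
    (fun k hk => hf.mono_set (hs k hk))]
  exact setIntegral_mono_set hf ((ae_restrict_iff' hD).2 (Eventually.of_forall h0))
    (LE.le.eventuallyLE (iUnion₂_subset hs))

/-- **Riemann sums**: values `g k` on the cells which are dominated by `f + e k` -/
theorem l8b_riem {v : ℕ → ℝ} (hv : Monotone v) (hv0 : 0 ≤ v 0) (s : Finset ℕ) {f : ℝ → ℝ} {D : Set ℝ} (hD : MeasurableSet D)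
    (hf : IntegrableOn f D) (h0 : ∀ t ∈ D, 0 ≤ f t) (hs : ∀ k ∈ s, Ioo (l8bL v k) (v k) ⊆ D) (g e : ℕ → ℝ)
    (hg : ∀ k ∈ s, ∀ t ∈ Ioo (l8bL v k) (v k), g k ≤ f t + e k) :
    ∑ k ∈ s, (v k - l8bL v k) * g k ≤ (∫ t in D, f t) + ∑ k ∈ s, (v k - l8bL v k) * e k := by
  have hc : ∀ (k : ℕ) (c : ℝ), ∫ _ in Ioo (l8bL v k) (v k), c = (v k - l8bL v k) * c := by
    intro k c
    rw [setIntegral_const, Real.volume_real_Ioo_of_le (l8b_L_le hv hv0 k), smul_eq_mul]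
  have h1 : ∀ k ∈ s, (v k - l8bL v k) * g k ≤ (∫ t in Ioo (l8bL v k) (v k), f t) + (v k - l8bL v k) * e k := by
    intro k hk
    have hfk : IntegrableOn f (Ioo (l8bL v k) (v k)) := hf.mono_set (hs k hk)
    have hck : ∀ c : ℝ, IntegrableOn (fun _ => c) (Ioo (l8bL v k) (v k)) := fun c =>
      integrableOn_const (by simp)
    rw [← hc k (g k), ← hc k (e k), ← integral_add hfk (hck _)]
    exact setIntegral_mono_on (hck _) (hfk.add (hck _)) measurableSet_Ioo (hg k hk)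
  calc ∑ k ∈ s, (v k - l8bL v k) * g k
      ≤ ∑ k ∈ s, ((∫ t in Ioo (l8bL v k) (v k), f t) + (v k - l8bL v k) * e k) := sum_le_sum h1
    _ = (∑ k ∈ s, ∫ t in Ioo (l8bL v k) (v k), f t) + ∑ k ∈ s, (v k - l8bL v k) * e k := sum_add_distrib
    _ ≤ _ := by
        have := l8b_cells_le hv s hD hf h0 hs
        linarith

/-! ## PART 1 -/

theorem l8b_stp_m (a : ℝ) (b h : ℝ → ℝ) : ∀ (ps : List GhPos) (b0 h0 : ℝ),
    (skCStp a b h b0 h0 ps).map SkInc.m = ps.map GhPos.u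
  | [], _, _ => rfl
  | p :: ps, b0, h0 => by rw [skCStp, List.map_cons, List.map_cons, l8b_stp_m a b h ps]

theorem l8b_swap (a : ℝ) (b h : ℝ → ℝ) : ∀ (ps : List GhPos) (b0 h0 : ℝ),
    skCStp a h b h0 b0 ps = (skCStp a b h b0 h0 ps).map fun e => ⟨e.m, e.dh, e.db⟩
  | [], _, _ => rfl
  | p :: ps, b0, h0 => by rw [skCStp, skCStp, List.map_cons, l8b_swap a b h ps]

/-- small increments at the positive masses + nothing left at the end ⟹ small oscillation -/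
theorem l8b_osc_le {a η : ℝ} (ha : 0 ≤ a) {c : ℝ → ℝ} (hc : GhClk1 a c) (hη : 0 ≤ η) (h : ℝ → ℝ) :
    ∀ (ps : List GhPos) (c0 h0 : ℝ), 0 ≤ c0 → (∀ p ∈ ps, p.Ok a) →
      (∀ e ∈ skCStp a c h c0 h0 ps, 0 < e.m → e.db ≤ η) →
      c a - (c0 + ((skCStp a c h c0 h0 ps).map SkInc.db).sum) ≤ η → ghOsc a c c0 ps ≤ η
  | [], c0, h0, _, _, _, ht => by
      rw [ghOsc, gh_os_at_top a c ha]
      simpa [skCStp] using ht
  | p :: ps, c0, h0, hc0, hok, he, ht => by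
      rw [ghOsc]
      have hp := hok p List.mem_cons_self
      rw [skCStp] at he ht
      refine max_le ?_ (l8b_osc_le ha hc hη h ps _ _ (gh_os_at_nonneg ha hc hp.2.2.1)
        (fun q hq => hok q (List.mem_cons_of_mem _ hq)) (fun e h' => he e (List.mem_cons_of_mem _ h')) ?_)
      · rcases hp.1.eq_or_lt with h0' | h0'
        · rw [gh_os_left_zero a c h0'.symm.le]; linarith
        · have h1 := he _ List.mem_cons_self h0'
          have h2 := gh_os_at_ge_left ha hc hp.2.2.1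
          simp only at h1
          linarith
      · simp only [List.map_cons, List.sum_cons] at ht
        linarith

theorem l8b_filter_len {α : Type} (P : α → Bool) (l : List α) (k : ℕ) (hk : k ≤ l.length) (h1 : ∀ x ∈ l.take k, P x = true)
    (h2 : ∀ x ∈ l.drop k, P x = false) : (l.filter P).length = k := by
  have : l.filter P = l.take k := by
    conv_lhs => rw [← List.take_append_drop k l]
    rw [List.filter_append, List.filter_eq_self.2 h1, List.filter_eq_nil_iff.2 (fun x hx => by simp [h2 x hx]), List.append_nil]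
  rw [this, List.length_take, min_eq_left hk]

/-- the cut of a mass `t` of the open cell `k` is the cut `k` -/
theorem l8b_idx {ps : List GhPos} {v : ℕ → ℝ} (hvm : Monotone v) (hv : ∀ j (hj : j < ps.length), v j = (ps[j]).u) {k : ℕ}
    (hk : k ≤ ps.length) {t : ℝ} (ht : t ∈ Ioo (l8bL v k) (v k)) : ghIdx ps ((ghPosA t : GhPos) : WithTop GhPos) = k := by
  have hu : (ghPosA t).u = t := rfl
  rw [bst_idx_coe]
  refine l8b_filter_len _ ps k hk ?_ ?_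
  · intro x hx
    obtain ⟨j, hj, rfl⟩ := List.mem_take_iff_getElem.1 hx
    have hjk : j < k := (lt_min_iff.1 hj).1
    have hjl : j < ps.length := (lt_min_iff.1 hj).2
    have h1 : (ps[j]).u < t := by
      rw [← hv j hjl]
      obtain ⟨k', rfl⟩ : ∃ k', k = k' + 1 := ⟨k - 1, by omega⟩
      rw [l8b_L_succ] at ht
      exact (hvm (by omega : j ≤ k')).trans_lt ht.1
    simp only [decide_eq_true_eq]
    exact (gh_os_pos_le_iff _ _).2 (Or.inl (by rw [hu]; exact h1))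
  · intro x hx
    obtain ⟨j, hj, rfl⟩ := List.mem_drop_iff_getElem.1 hx
    have h1 : t < (ps[k + j]).u := by
      rw [← hv (k + j) (by omega)]
      exact ht.2.trans_le (hvm (by omega))
    simp only [decide_eq_false_iff_not]
    intro hle
    rcases (gh_os_pos_le_iff _ _).1 hle with h | h
    · rw [hu] at h; exact absurd h (not_lt.2 h1.le)
    · rw [hu] at h; exact absurd h.1 h1.ne'

/-- modulus of an SK chain with small oscillations -/
theorem l8b_brgFine {n : ℕ} (hn : 0 < n) (a : ℝ) (b h : ℝ → ℝ) (ps : List GhPos) {η : ℝ} (hb : ghOsc a b 0 ps ≤ η)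
    (hh : ghOsc a h 0 ps ≤ η) : BrgFine a (skPhi n) (skClk n b h) ps (n * (3 / 2 * η)) := by
  intro s
  have h1 := sk_pt_osc hn a b h ps s
  have e : ∑ i, ghOsc a (skClk n b h i) 0 ps * skPhi n s i ^ 2
      = ghKer (skPhi n) (fun i => ghOsc a (skClk n b h i) 0 ps) s s := by
    unfold ghKer
    exact Finset.sum_congr rfl fun i _ => by ring
  rw [e]
  refine h1.trans (mul_le_mul_of_nonneg_left ?_ (Nat.cast_nonneg n))
  linarith

/-! ## PART 2 : one instance -/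

/-- what is used of the point and of the chain -/
structure L8bH (I : L8In) (η : ℝ) : Prop where
  m_pos : 0 < I.m
  a_pos : 0 < I.a
  adm : CkAdm I.a (I.p.b I.F I.𝔹) (I.p.h I.F I.𝔹)
  q_mono : MonotoneOn (I.p.q I.F I.𝔹) (Icc 0 I.a)
  q_mem : ∀ v ∈ Icc 0 I.a, I.p.q I.F I.𝔹 v ∈ Icc (0 : ℝ) 1
  S_eq : ∀ v, I.p.S I.F I.𝔹 I.m v = skCS I.m I.a (I.p.b I.F I.𝔹) (I.p.h I.F I.𝔹) (ghPosA v)
  B_eq : ∀ v, I.p.B I.F I.𝔹 I.m v = skCB I.m I.a (I.p.b I.F I.𝔹) (I.p.h I.F I.𝔹) (ghPosA v)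
  eta : 0 ≤ η
  fine : I.Fine η

/-- the chain of the instance is the sorted list of the valid positions of a finite set      (THE ONLY PLACE where the definition of `L9I.ps` is unfolded) -/
theorem l8b_ps (I : L8In) : ∃ F : Finset GhPos, I.i9.ps I.p = ghPs I.a F := ⟨l9Fl I.Fs, rfl⟩

theorem l8b_P0 (I : L8In) : I.P0 = ckStp I.a (I.p.b I.F I.𝔹) (I.p.h I.F I.𝔹) (I.i9.ps I.p) :=
  l9g_mat I.a (I.p.b I.F I.𝔹) (I.p.h I.F I.𝔹) (I.p.K I.F I.𝔹) (I.i9.ps I.p) 0 0 0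

theorem l8b_n (I : L8In) : I.n = (I.i9.ps I.p).length :=
  l9g_stp_length I.a (I.p.b I.F I.𝔹) (I.p.h I.F I.𝔹) (I.p.K I.F I.𝔹) (I.i9.ps I.p) 0 0 0

theorem l8b_P0_len (I : L8In) : I.P0.length = I.n := by
  unfold L8In.P0 L8In.n llMat
  rw [List.length_map]

theorem l8b_dv (I : L8In) (k : ℕ) : I.dv k = I.v k - l8bL I.v k := by
  unfold L8In.dv skGap l8bL L8In.v
  rfl

variable {I : L8In} {η : ℝ}

theorem l8b_v_mono (h : L8bH I η) : Monotone I.v := bud_pp_ms_mono h.a_pos h.fine.adm.1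

theorem l8b_v_nonneg (h : L8bH I η) (k : ℕ) : 0 ≤ I.v k := bud_pp_ms_nonneg h.a_pos h.fine.adm.1 k

theorem l8b_v_le (h : L8bH I η) (k : ℕ) : I.v k ≤ I.a := bud_pp_ms_le h.a_pos h.fine.adm.1 k

theorem l8b_v_top (I : L8In) : I.v I.n = I.a := bud_pp_ms_top I.P0 (l8b_P0_len I).le

theorem l8b_v_u (I : L8In) (j : ℕ) (hj : j < (I.i9.ps I.p).length) : I.v j = ((I.i9.ps I.p)[j]).u := by
  unfold L8In.v skMs
  rw [l8b_P0, ckStp, l8b_stp_m, List.getD_eq_getElem _ _ (by rw [List.length_map]; exact hj), List.getElem_map]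

theorem l8b_cell_sub (h : L8bH I η) (k : ℕ) : Ioo (l8bL I.v k) (I.v k) ⊆ Ioo 0 I.a := fun _ ht =>
  ⟨(l8b_L_nonneg (l8b_v_mono h) (l8b_v_nonneg h 0) k).trans_lt ht.1, ht.2.trans_le (l8b_v_le h k)⟩

/-- the oscillations of the two clocks on a fine chain -/
theorem l8b_osc (h : L8bH I η) :
    ghOsc I.a (I.p.b I.F I.𝔹) 0 (I.i9.ps I.p) ≤ η ∧ ghOsc I.a (I.p.h I.F I.𝔹) 0 (I.i9.ps I.p) ≤ η := by
  have hok : ∀ p ∈ I.i9.ps I.p, p.Ok I.a := fun p hp => by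
    obtain ⟨F, hF⟩ := l8b_ps I
    rw [hF] at hp
    exact (gh_os_ps_mem.1 hp).2
  have hP : skCStp I.a (I.p.b I.F I.𝔹) (I.p.h I.F I.𝔹) 0 0 (I.i9.ps I.p) = I.P0 := (l8b_P0 I).symm
  have hmem : ∀ e ∈ I.P0, ∃ e' ∈ I.LP, e = ⟨e'.m, e'.db, e'.dh⟩ := by
    intro e he
    obtain ⟨e', he', rfl⟩ := List.mem_map.1 he
    exact ⟨e', he', rfl⟩
  have htk : I.P0.take I.n = I.P0 := List.take_of_length_le (l8b_P0_len I).le
  constructor
  · refine l8b_osc_le h.a_pos.le h.adm.1 h.eta (I.p.h I.F I.𝔹) _ 0 0 le_rfl hok ?_ ?_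
    · rw [hP]
      intro e he hm
      obtain ⟨e', he', rfl⟩ := hmem e he
      exact h.fine.db_le e' he' hm
    · rw [hP]
      have := h.fine.b_top
      unfold L8In.bC skCumB at this
      rw [htk] at this
      linarith
  · refine l8b_osc_le h.a_pos.le h.adm.2 h.eta (I.p.b I.F I.𝔹) _ 0 0 le_rfl hok ?_ ?_
    · rw [l8b_swap, hP]
      intro e he _
      obtain ⟨e1, he1, rfl⟩ := List.mem_map.1 he
      obtain ⟨e', he', rfl⟩ := hmem e1 he1
      exact h.fine.dh_le e' he'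
    · rw [l8b_swap, hP, List.map_map]
      have := h.fine.h_top
      unfold L8In.hC skCumH at this
      rw [htk] at this
      have e : (SkInc.db ∘ fun e : SkInc => (⟨e.m, e.dh, e.db⟩ : SkInc)) = SkInc.dh := rfl
      rw [e]
      linarith

/-- **chain statistics versus path statistics**, at EVERY mass of the open cell of the cut -/
theorem l8b_SB (h : L8bH I η) {k : ℕ} (hk : k ≤ I.n) {t : ℝ} (ht : t ∈ Ioo (l8bL I.v k) (I.v k)) :
    |I.S k - I.p.S I.F I.𝔹 I.m t| ≤ 18 * I.a ^ 2 * I.m * η ∧ |I.B k - I.p.B I.F I.𝔹 I.m t| ≤ 18 * I.a ^ 2 * I.m * η := by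
  have ht' := l8b_cell_sub h k ht
  have hidx := l8b_idx (l8b_v_mono h) (l8b_v_u I) (by rw [← l8b_n]; exact hk) ht
  have hpo : (ghPosA t).Ok I.a := gh_os_posA_ok ht'.1.le ht'.2.le
  obtain ⟨ob, oh⟩ := l8b_osc h
  obtain ⟨F, hF⟩ := l8b_ps I
  have key := (brg_s_SB_lim h.m_pos h.a_pos h.adm hpo).2.2 F _ (brg_s_fkP_lam F rfl)
    (l8b_brgFine h.m_pos I.a _ _ _ (hF ▸ ob) (hF ▸ oh))
  rw [← hF, hidx, ← l8b_P0] at key
  rw [h.S_eq, h.B_eq]
  have e : 12 * I.a ^ 2 * ((I.m : ℝ) * (3 / 2 * η)) = 18 * I.a ^ 2 * I.m * η := by ring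
  rw [e] at key
  exact key

/-- `0 ≤ A_k ≤ 4` -/
theorem l8b_A_mem (h : L8bH I η) (k : ℕ) : 0 ≤ I.A k ∧ I.A k ≤ 4 := by
  have hP : SkAdm I.a I.P0 := h.fine.adm.1
  obtain ⟨s0, s1⟩ := fd_S_range h.m_pos h.a_pos I.P0 hP 0 k
  obtain ⟨b0, b1⟩ := fd_B_range h.m_pos h.a_pos I.P0 hP 0 k
  obtain ⟨q0, q1⟩ := abs_le.1 (sz_i_q1 h.a_pos h.fine.adm k)
  have eS : I.S k = obS I.m I.a I.P0 0 k := rfl
  have eB : I.B k = obB I.m I.a I.P0 0 k := rfl
  have eq : I.q k = llQs I.a I.LP k := rfl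
  unfold L8In.A
  rw [eS, eB, eq]
  constructor
  · nlinarith [sq_nonneg (obS I.m I.a I.P0 0 k - llQs I.a I.LP k)]
  · nlinarith [mul_nonneg (by linarith : 0 ≤ llQs I.a I.LP k + 1) s0, mul_nonneg (by linarith : 0 ≤ 1 - llQs I.a I.LP k) (by linarith : 0 ≤ 1 + llQs I.a I.LP k)]

theorem l8b_mul_le {x y c r : ℝ} (hx : |x| ≤ c) (hy : |y| ≤ r) : x * y ≤ c * r :=
  (le_abs_self _).trans ((abs_mul x y).le.trans (mul_le_mul hx hy (abs_nonneg _) ((abs_nonneg _).trans hx)))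

/-- **the error term of the cut versus the error term of the path**; `q` enters through its monotonicity -/
theorem l8b_A_le (h : L8bH I η) {k : ℕ} (hk : k ≤ I.n) {t : ℝ} (ht : t ∈ Ioo (l8bL I.v k) (I.v k)) :
    I.A k ≤ I.p.Aerr I.F I.𝔹 I.m t
      + (54 * I.a ^ 2 * I.m * η + 4 * η + 4 * (I.p.q I.F I.𝔹 (I.v k) - I.p.q I.F I.𝔹 (l8bL I.v k))) := by
  have ht' := l8b_cell_sub h k ht
  obtain ⟨hS, hB⟩ := l8b_SB h hk ht
  have hP : SkAdm I.a I.P0 := h.fine.adm.1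
  obtain ⟨s0, s1⟩ := fd_S_range h.m_pos h.a_pos I.P0 hP 0 k
  have hq1 := sz_i_q1 h.a_pos h.fine.adm k
  have hql := h.fine.q_link k hk
  have hvk : I.v k ∈ Icc 0 I.a := ⟨l8b_v_nonneg h k, l8b_v_le h k⟩
  have hLk : l8bL I.v k ∈ Icc 0 I.a :=
    ⟨l8b_L_nonneg (l8b_v_mono h) (l8b_v_nonneg h 0) k, (l8b_L_le (l8b_v_mono h) (l8b_v_nonneg h 0) k).trans hvk.2⟩
  have htI : t ∈ Icc 0 I.a := Ioo_subset_Icc_self ht'
  have m1 := h.q_mono hLk htI ht.1.le
  have m2 := h.q_mono htI hvk ht.2.le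
  obtain ⟨t0, t1⟩ := h.q_mem t htI
  have eS : obS I.m I.a I.P0 0 k = I.S k := rfl
  have eq : llQs I.a I.LP k = I.q k := rfl
  rw [eS] at s0 s1
  rw [eq] at hq1
  set S := I.S k
  set B := I.B k
  set Q := I.q k
  set S' := I.p.S I.F I.𝔹 I.m t
  set B' := I.p.B I.F I.𝔹 I.m t
  set Q' := I.p.q I.F I.𝔹 t
  set δ := 18 * I.a ^ 2 * I.m * η
  set r := η + (I.p.q I.F I.𝔹 (I.v k) - I.p.q I.F I.𝔹 (l8bL I.v k)) with hr
  have hd : |Q - Q'| ≤ r := by
    rw [abs_le] at hql ⊢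
    constructor <;> linarith [hql.1, hql.2]
  have e1 : (-(2 * S)) * (Q - Q') ≤ 2 * r := l8b_mul_le (by rw [abs_neg, abs_of_nonneg (by linarith)]; linarith) hd
  have e2 : (-(2 * Q')) * (S - S') ≤ 2 * δ := l8b_mul_le (by rw [abs_neg, abs_of_nonneg (by linarith)]; linarith) hS
  have e3 : (Q + Q') * (Q - Q') ≤ 2 * r := l8b_mul_le (by
    rw [abs_le] at hq1 ⊢
    constructor <;> linarith [hq1.1, hq1.2]) hd
  have e4 : B - B' ≤ δ := (le_abs_self _).trans hB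
  have eA : I.A k = B - 2 * Q * S + Q ^ 2 := rfl
  have eA' : I.p.Aerr I.F I.𝔹 I.m t = B' - 2 * Q' * S' + Q' ^ 2 := rfl
  rw [eA, eA']
  have e5 : 54 * I.a ^ 2 * I.m * η = 3 * δ := by ring
  rw [e5]
  nlinarith [e1, e2, e3, e4]

theorem l8b_Aerr_nonneg (h : L8bH I η) {t : ℝ} (ht : t ∈ Ioo 0 I.a) : 0 ≤ I.p.Aerr I.F I.𝔹 I.m t := by
  have hpo : (ghPosA t).Ok I.a := gh_os_posA_ok ht.1.le ht.2.le
  obtain ⟨-, -, -, h4, -⟩ := exit_clk_SB h.m_pos h.a_pos h.adm hpo hpo le_rfl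
  unfold LlPt.Aerr
  rw [h.S_eq, h.B_eq]
  nlinarith [sq_nonneg (skCS I.m I.a (I.p.b I.F I.𝔹) (I.p.h I.F I.𝔹) (ghPosA t) - I.p.q I.F I.𝔹 t)]

theorem l8b_Aerr_int (h : L8bH I η) : IntegrableOn (I.p.Aerr I.F I.𝔹 I.m) (Ioo 0 I.a) := by
  obtain ⟨iS, iB, -⟩ := exit_clk_intble h.m_pos h.a_pos h.adm
  have iS' := (intervalIntegrable_iff_integrableOn_Ioo_of_le h.a_pos.le).1 iS
  have iB' := (intervalIntegrable_iff_integrableOn_Ioo_of_le h.a_pos.le).1 iB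
  have hm : MonotoneOn (I.p.q I.F I.𝔹) (Ioo 0 I.a) := h.q_mono.mono Ioo_subset_Icc_self
  have hb : ∀ v ∈ Ioo 0 I.a, |I.p.q I.F I.𝔹 v| ≤ 1 := fun v hv => by
    obtain ⟨q0, q1⟩ := h.q_mem v (Ioo_subset_Icc_self hv)
    rw [abs_of_nonneg q0]; exact q1
  have iq : IntegrableOn (I.p.q I.F I.𝔹) (Ioo 0 I.a) :=
    (h.q_mono.integrableOn_isCompact isCompact_Icc).mono_set Ioo_subset_Icc_self
  have i1 := bud_integrableOn_mul hm hb iS'
  have i2 := bud_integrableOn_mul hm hb iq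
  refine ((iB'.sub (i1.const_mul 2)).add i2).congr_fun (fun t _ => ?_) measurableSet_Ioo
  simp only [Pi.add_apply, Pi.sub_apply, LlPt.Aerr, h.S_eq, h.B_eq]
  ring

/-- **weighted sums over the cuts versus the weighted integrals of the path** -/
theorem l8b_int_le (h : L8bH I η) (lo hi W : ℝ) (w : ℕ → ℝ) (φ : ℝ → ℝ) (hw0 : ∀ k, 0 ≤ w k) (hwW : ∀ k ≤ I.n, w k ≤ W)
    (hφ0 : ∀ t ∈ Ioo 0 I.a, 0 ≤ φ t) (hφi : IntegrableOn (fun t => φ t * I.p.Aerr I.F I.𝔹 I.m t) (Ioo 0 I.a))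
    (hwφ : ∀ k ≤ I.n, lo ≤ I.v k → I.v k ≤ hi → ∀ t ∈ Ioo (l8bL I.v k) (I.v k), w k ≤ φ t) :
    I.int lo hi (fun k => w k * I.A k)
      ≤ I.p.wA I.F I.𝔹 I.m φ + W * (I.a * (54 * I.a ^ 2 * I.m * η + 4 * η) + 4 * η) := by
  have hvm := l8b_v_mono h
  have hv0 := l8b_v_nonneg h 0
  have hW : 0 ≤ W := (hw0 0).trans (hwW 0 (Nat.zero_le _))
  set E : ℝ := 54 * I.a ^ 2 * I.m * η + 4 * η with hE
  have hE0 : 0 ≤ E := by
    have := h.eta
    have := h.a_pos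
    positivity
  set q := I.p.q I.F I.𝔹 with hq
  have hdq : ∀ k, 0 ≤ q (I.v k) - q (l8bL I.v k) := fun k => by
    have hvk : I.v k ∈ Icc 0 I.a := ⟨l8b_v_nonneg h k, l8b_v_le h k⟩
    have hLk : l8bL I.v k ∈ Icc 0 I.a := ⟨l8b_L_nonneg hvm hv0 k, (l8b_L_le hvm hv0 k).trans hvk.2⟩
    exact sub_nonneg.2 (h.q_mono hLk hvk (l8b_L_le hvm hv0 k))
  set s := (range (I.n + 1)).filter (fun k => lo ≤ I.v k ∧ I.v k ≤ hi) with hs
  have hsk : ∀ k ∈ s, k ≤ I.n ∧ lo ≤ I.v k ∧ I.v k ≤ hi := fun k hk => by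
    rw [hs, Finset.mem_filter, Finset.mem_range] at hk
    exact ⟨by omega, hk.2⟩
  have h1 := l8b_riem hvm hv0 s measurableSet_Ioo hφi
    (fun t ht => mul_nonneg (hφ0 t ht) (l8b_Aerr_nonneg h ht)) (fun k _ => l8b_cell_sub h k)
    (fun k => w k * I.A k) (fun k => W * (E + 4 * (q (I.v k) - q (l8bL I.v k)))) (by
      intro k hk t ht
      obtain ⟨hkn, hlo, hhi⟩ := hsk k hk
      have a1 := l8b_A_le h hkn ht
      have a2 := l8b_Aerr_nonneg h (l8b_cell_sub h k ht)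
      have a3 := hwφ k hkn hlo hhi t ht
      have a4 : 0 ≤ E + 4 * (q (I.v k) - q (l8bL I.v k)) := by have := hdq k; linarith
      calc w k * I.A k ≤ w k * (I.p.Aerr I.F I.𝔹 I.m t + (E + 4 * (q (I.v k) - q (l8bL I.v k)))) :=
            mul_le_mul_of_nonneg_left (by rw [hE]; linarith) (hw0 k)
        _ = w k * I.p.Aerr I.F I.𝔹 I.m t + w k * (E + 4 * (q (I.v k) - q (l8bL I.v k))) := by ring
        _ ≤ φ t * I.p.Aerr I.F I.𝔹 I.m t + W * (E + 4 * (q (I.v k) - q (l8bL I.v k))) :=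
            add_le_add (mul_le_mul_of_nonneg_right a3 a2) (mul_le_mul_of_nonneg_right (hwW k hkn) a4))
  have h2 : ∑ k ∈ s, (I.v k - l8bL I.v k) * (W * (E + 4 * (q (I.v k) - q (l8bL I.v k)))) ≤ W * (I.a * E + 4 * η) := by
    have t1 : ∀ k ∈ range (I.n + 1), (I.v k - l8bL I.v k) * (W * (E + 4 * (q (I.v k) - q (l8bL I.v k))))
        ≤ W * E * (id (I.v k) - id (l8bL I.v k)) + W * (4 * η) * (q (I.v k) - q (l8bL I.v k)) := by
      intro k hk
      have hkn : k ≤ I.n := by rw [Finset.mem_range] at hk; omega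
      have d1 : I.v k - l8bL I.v k ≤ η := by rw [← l8b_dv]; exact h.fine.dv_le k hkn
      have d2 := mul_le_mul_of_nonneg_right d1 (hdq k)
      have d3 := mul_le_mul_of_nonneg_left d2 hW
      simp only [id]
      nlinarith [d3]
    have t0 : ∀ k ∈ range (I.n + 1), k ∉ s → 0 ≤ (I.v k - l8bL I.v k) * (W * (E + 4 * (q (I.v k) - q (l8bL I.v k)))) := by
      intro k _ _
      have := hdq k
      exact mul_nonneg (sub_nonneg.2 (l8b_L_le hvm hv0 k)) (mul_nonneg hW (by linarith))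
    refine (Finset.sum_le_sum_of_subset_of_nonneg (Finset.filter_subset _ _) t0).trans ((Finset.sum_le_sum t1).trans ?_)
    rw [Finset.sum_add_distrib, ← Finset.mul_sum, ← Finset.mul_sum, l8b_tel, l8b_tel, l8b_v_top]
    have hq1 := (h.q_mem I.a ⟨h.a_pos.le, le_rfl⟩).2
    have hq0 := (h.q_mem 0 ⟨le_rfl, h.a_pos.le⟩).1
    have : W * (4 * η) * (q I.a - q 0) ≤ W * (4 * η) * 1 :=
      mul_le_mul_of_nonneg_left (by linarith) (mul_nonneg hW (by have := h.eta; linarith))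
    simp only [id]
    nlinarith [this]
  have e0 : I.int lo hi (fun k => w k * I.A k) = ∑ k ∈ s, (I.v k - l8bL I.v k) * (w k * I.A k) := by
    unfold L8In.int
    exact Finset.sum_congr rfl fun k _ => by rw [l8b_dv]
  rw [e0]
  unfold LlPt.wA
  have ea : I.p.a = I.a := rfl
  rw [ea]
  linarith

theorem l8b_wA_nonneg (h : L8bH I η) {φ : ℝ → ℝ} (hφ0 : ∀ t ∈ Ioo 0 I.a, 0 ≤ φ t) : 0 ≤ I.p.wA I.F I.𝔹 I.m φ := by
  unfold LlPt.wA
  exact setIntegral_nonneg measurableSet_Ioo fun t ht => mul_nonneg (hφ0 t ht) (l8b_Aerr_nonneg h ht)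

/-- the dyadic budgets -/
theorem l8b_dy (h : L8bH I η) (ha1 : 1 ≤ I.a) {u : ℝ} (hu : 16 * η ≤ 3 * u) (hu4 : u ≤ 4) :
    u * I.int (u / 4) (4 * u) I.A
      ≤ 4 * (min u I.a * I.p.wA I.F I.𝔹 I.m (indicator (Icc (min u I.a / 16) (16 * min u I.a)) 1))
        + 4 * (I.a * (54 * I.a ^ 2 * I.m * η + 4 * η) + 4 * η) := by
  have hη := h.eta
  have hu0 : 0 ≤ u := by linarith
  set μ := min u I.a with hμ
  have hμu : μ ≤ u := min_le_left _ _
  have hu4μ : u ≤ 4 * μ := by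
    rcases le_total u I.a with hc | hc
    · rw [hμ, min_eq_left hc]; linarith
    · rw [hμ, min_eq_right hc]; linarith
  set φ : ℝ → ℝ := indicator (Icc (μ / 16) (16 * μ)) 1 with hφ
  have hφ0 : ∀ t ∈ Ioo 0 I.a, 0 ≤ φ t := fun t _ => indicator_nonneg (fun _ _ => zero_le_one) t
  have hφi : IntegrableOn (fun t => φ t * I.p.Aerr I.F I.𝔹 I.m t) (Ioo 0 I.a) := by
    have e : (fun t => φ t * I.p.Aerr I.F I.𝔹 I.m t) = indicator (Icc (μ / 16) (16 * μ)) (I.p.Aerr I.F I.𝔹 I.m) := by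
      funext t
      by_cases ht : t ∈ Icc (μ / 16) (16 * μ)
      · rw [hφ, indicator_of_mem ht, indicator_of_mem ht, Pi.one_apply, one_mul]
      · rw [hφ, indicator_of_notMem ht, indicator_of_notMem ht, zero_mul]
    rw [e]
    exact (l8b_Aerr_int h).indicator measurableSet_Icc
  have key := l8b_int_le h (u / 4) (4 * u) 1 (fun _ => 1) φ (fun _ => zero_le_one) (fun _ _ => le_rfl) hφ0 hφi (by
    intro k hk hlo hhi t ht
    have d1 : I.v k - l8bL I.v k ≤ η := by rw [← l8b_dv]; exact h.fine.dv_le k hk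
    have hva := l8b_v_le h k
    have hmem : t ∈ Icc (μ / 16) (16 * μ) := by
      constructor
      · linarith [ht.1]
      · rcases le_total u I.a with hc | hc
        · rw [hμ, min_eq_left hc]; linarith [ht.2]
        · rw [hμ, min_eq_right hc]; linarith [ht.2]
    rw [hφ, indicator_of_mem hmem, Pi.one_apply])
  simp only [one_mul] at key
  have hw := l8b_wA_nonneg h hφ0
  have hE : 0 ≤ I.a * (54 * I.a ^ 2 * I.m * η + 4 * η) + 4 * η := by
    have := h.a_pos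
    positivity
  have e1 : (fun k => I.A k) = I.A := rfl
  rw [e1] at key
  calc u * I.int (u / 4) (4 * u) I.A
      ≤ u * (I.p.wA I.F I.𝔹 I.m φ + (I.a * (54 * I.a ^ 2 * I.m * η + 4 * η) + 4 * η)) := mul_le_mul_of_nonneg_left key hu0
    _ = u * I.p.wA I.F I.𝔹 I.m φ + u * (I.a * (54 * I.a ^ 2 * I.m * η + 4 * η) + 4 * η) := by ring
    _ ≤ 4 * μ * I.p.wA I.F I.𝔹 I.m φ + 4 * (I.a * (54 * I.a ^ 2 * I.m * η + 4 * η) + 4 * η) :=
        add_le_add (mul_le_mul_of_nonneg_right hu4μ hw) (mul_le_mul_of_nonneg_right hu4 hE)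
    _ = _ := by ring

/-- the weighted budget -/
theorem l8b_wt (h : L8bH I η) {U : ℝ} (hU : 2 * I.a * η + η ^ 2 ≤ U ^ 2) :
    (I.int 0 I.a fun k => I.v k ^ 2 * I.A k)
      ≤ I.p.wA I.F I.𝔹 I.m (fun v => v ^ 2 + U ^ 2) + I.a ^ 2 * (I.a * (54 * I.a ^ 2 * I.m * η + 4 * η) + 4 * η) := by
  have hη := h.eta
  refine l8b_int_le h 0 I.a (I.a ^ 2) (fun k => I.v k ^ 2) (fun v => v ^ 2 + U ^ 2) (fun k => sq_nonneg _)
    (fun k _ => pow_le_pow_left₀ (l8b_v_nonneg h k) (l8b_v_le h k) 2) (fun t _ => by positivity) ?_ ?_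
  · refine Integrable.bdd_mul (c := I.a ^ 2 + U ^ 2) (l8b_Aerr_int h)
      (by fun_prop : Continuous fun t : ℝ => t ^ 2 + U ^ 2).aestronglyMeasurable ?_
    refine (ae_restrict_iff' measurableSet_Ioo).2 (Eventually.of_forall fun t ht => ?_)
    rw [Real.norm_eq_abs, abs_of_nonneg (by positivity)]
    have := pow_le_pow_left₀ ht.1.le ht.2.le 2
    linarith
  · intro k hk _ _ t ht
    have d1 : I.v k - l8bL I.v k ≤ η := by rw [← l8b_dv]; exact h.fine.dv_le k hk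
    have ht' := l8b_cell_sub h k ht
    have h1 : I.v k ≤ t + η := by linarith [ht.1]
    have h2 := pow_le_pow_left₀ (l8b_v_nonneg h k) h1 2
    have h3 : t * η ≤ I.a * η := mul_le_mul_of_nonneg_right ht'.2.le hη
    nlinarith [h2, h3]

/-! ## PART 3 : the point -/

/-- the facts of LL Sec. 3 which are used -/
theorem l8b_pt {F : LlFix} (h3 : LlSec3 llBase F) : LlUnif F fun p => ∀ m : ℕ,
    CkAdm p.a (p.b F llBase) (p.h F llBase) ∧ MonotoneOn (p.q F llBase) (Icc 0 p.a) ∧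
    (∀ v ∈ Icc 0 p.a, p.q F llBase v ∈ Icc (0 : ℝ) 1) ∧
    (∀ v, p.S F llBase m v = skCS m p.a (p.b F llBase) (p.h F llBase) (ghPosA v)) ∧
    (∀ v, p.B F llBase m v = skCB m p.a (p.b F llBase) (p.h F llBase) (ghPosA v)) := by
  obtain ⟨c, C, hc, hadm⟩ := h3.adm
  obtain ⟨c', C', v0, hc', hv0, href⟩ := h3.ref
  refine bt_unif_mono (bt_unif_and hadm (bt_unif_and href h3.admEnd)) ?_
  rintro p hp ⟨⟨mb, mh, -, -, mq, bd, -, -⟩, hr, eb, eh, -, -, -⟩ m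
  have ha := bt_a_pos hp
  have h0 : (0 : ℝ) ∈ Icc 0 p.a := ⟨le_rfl, ha.le⟩
  have cb : GhClk1 p.a (p.b F llBase) := ⟨mb, hc.le.trans (bd 0 h0).1⟩
  have ch : GhClk1 p.a (p.h F llBase) := ⟨mh, (bd 0 h0).2.2.1⟩
  have ib := llb_isClock ha cb
  have ih := llb_isClock ha ch
  have hG : ∀ t, 0 ≤ t → 0 ≤ p.Gam F llBase t := fun t ht => by
    have h1 := hr.gam_ftc 0 t le_rfl ht
    rw [hr.gam_zero, sub_zero] at h1
    rw [h1]
    exact intervalIntegral.integral_nonneg ht fun s hs => (hr.g1_pos s hs.1).le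
  refine ⟨⟨cb, ch⟩, mq, fun v hv => ⟨hG _ (bd v hv).2.2.2.2, hr.gam_le _ (bd v hv).2.2.2.2⟩, fun v => ?_, fun v => ?_⟩
  · exact bw_pS_eq m ha ib ih (bw_end_of_tendsto ha ib eb) (bw_end_of_tendsto ha ih eh) v
  · exact bw_pB_eq m ha ib ih (bw_end_of_tendsto ha ib eb) (bw_end_of_tendsto ha ih eh) v

/-- the mesh -/
def l8bEta (N : ℕ) : ℝ := ((N : ℝ) ^ (-(1 / 6) : ℝ)) ^ 8 / (200000 * ((N : ℝ) + 3) ^ 2)

theorem l8b_eta_eqns_cite : True := by
  have := @l8bEta.eq_1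
  trivial

theorem l8b_eta_pos (N : ℕ) (hN : 2 ≤ N) : 0 < l8bEta N := by
  have : (0 : ℝ) < N := by exact_mod_cast (by omega : 0 < N)
  unfold l8bEta
  have := Real.rpow_pos_of_pos this (-(1 / 6) : ℝ)
  positivity

/-- arithmetic of the mesh: `x ≤ U ≤ 1`, `1 ≤ a ≤ 4`, `1 ≤ m ≤ 3 N` -/
theorem l8b_arith {x U a m N η : ℝ} (hx0 : 0 < x) (hx1 : x ≤ 1) (hxU : x ≤ U) (ha0 : 0 < a) (ha4 : a ≤ 4) (hm1 : 1 ≤ m) (hmN : m ≤ 3 * N)
    (hη : η = x ^ 8 / (200000 * (N + 3) ^ 2)) :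
    0 ≤ η ∧ 16 * η ≤ 3 * U ∧ 2 * a * η + η ^ 2 ≤ U ^ 2 ∧
      4 * (a * (54 * a ^ 2 * m * η + 4 * η) + 4 * η) ≤ U ^ 4 / (N + 3) ∧
      a ^ 2 * (a * (54 * a ^ 2 * m * η + 4 * η) + 4 * η) ≤ x ^ 8 := by
  have hN0 : 0 < N := by linarith
  have hM : 0 < N + 3 := by linarith
  have hy0 : 0 < x ^ 8 := by positivity
  have hη0 : 0 < η := by rw [hη]; positivity
  -- `η (N+3)^2 200000 = x^8`
  have hk : η * (200000 * (N + 3) ^ 2) = x ^ 8 := by rw [hη]; field_simp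
  have hx8x : x ^ 8 ≤ x := by
    calc x ^ 8 = x * x ^ 7 := by ring
      _ ≤ x * 1 := mul_le_mul_of_nonneg_left (pow_le_one₀ hx0.le hx1) hx0.le
      _ = x := mul_one x
  have hx82 : x ^ 8 ≤ x ^ 2 := pow_le_pow_of_le_one hx0.le hx1 (by norm_num)
  have hx84 : x ^ 8 ≤ x ^ 4 := pow_le_pow_of_le_one hx0.le hx1 (by norm_num)
  have hM2 : 9 ≤ (N + 3) ^ 2 := by nlinarith
  have hηy : 1800000 * η ≤ x ^ 8 := by nlinarith
  have hη1 : η ≤ 1 := by
    have : x ^ 8 ≤ 1 := pow_le_one₀ hx0.le hx1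
    linarith
  have hU2 : x ^ 2 ≤ U ^ 2 := pow_le_pow_left₀ hx0.le hxU 2
  have hU4 : x ^ 4 ≤ U ^ 4 := pow_le_pow_left₀ hx0.le hxU 4
  -- the error
  have hErr : a * (54 * a ^ 2 * m * η + 4 * η) + 4 * η ≤ 10428 * N * η := by
    have a2 : a ^ 2 ≤ 16 := by nlinarith
    have hmη : 0 ≤ m * η := by positivity
    have t1 : 54 * a ^ 2 * m * η ≤ 864 * (m * η) := by nlinarith
    have t2 : a * (54 * a ^ 2 * m * η + 4 * η) ≤ 4 * (864 * (m * η) + 4 * η) := by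
      have : 0 ≤ 54 * a ^ 2 * m * η + 4 * η := by positivity
      nlinarith
    have t3 : η ≤ m * η := by nlinarith
    have t4 : m * η ≤ 3 * N * η := mul_le_mul_of_nonneg_right hmN hη0.le
    nlinarith
  have hNη : N * η * (200000 * (N + 3)) ≤ x ^ 8 := by
    have : N * η * (200000 * (N + 3)) ≤ η * (200000 * (N + 3) ^ 2) := by nlinarith [mul_pos hη0 hM]
    linarith
  refine ⟨hη0.le, by linarith, ?_, ?_, ?_⟩
  · have : η ^ 2 ≤ η := by nlinarith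
    nlinarith
  · rw [le_div_iff₀ hM]
    have : 4 * (10428 * N * η) * (N + 3) ≤ x ^ 8 := by nlinarith
    have h2 : 4 * (a * (54 * a ^ 2 * m * η + 4 * η) + 4 * η) * (N + 3) ≤ 4 * (10428 * N * η) * (N + 3) :=
      mul_le_mul_of_nonneg_right (by linarith) hM.le
    linarith
  · have a2 : a ^ 2 ≤ 16 := by nlinarith
    have hE0 : 0 ≤ a * (54 * a ^ 2 * m * η + 4 * η) + 4 * η := by positivity
    have h1 : a ^ 2 * (a * (54 * a ^ 2 * m * η + 4 * η) + 4 * η) ≤ 16 * (10428 * N * η) := by nlinarith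
    have h2 : 16 * (10428 * N * η) ≤ N * η * (200000 * (N + 3)) := by nlinarith [mul_pos hN0 hη0]
    linarith

/-- **= `L8zBr llBase T`** (`L08/GlueZ.lean`), from the fineness of the chains -/
theorem l8b_main (T : ℝ) (hf : L8gFine llBase T) :
    ∀ F0, L8Fix llBase T F0 → ∀ (pB : LLParB) (pS : ℝ), 0 < pS → pS ≤ 1 → ∃ N0 : ℕ,
      L8Ev (F0.wExp pB.sStar pB.eta pS) llBase N0 (fun _ => True) fun I =>
        (∀ k ≤ I.n, 0 ≤ I.A k ∧ I.A k ≤ 4) ∧
        (∀ u, I.U ≤ u → u ≤ 4 → u * I.int (u / 4) (4 * u) I.A ≤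
          4 * (min u I.a * I.p.wA I.F I.𝔹 I.m (indicator (Icc (min u I.a / 16) (16 * min u I.a)) 1)) + I.U ^ 4 / (I.p.N + 3)) ∧
        (I.int 0 I.a fun k => I.v k ^ 2 * I.A k) ≤ I.p.wA I.F I.𝔹 I.m (fun v => v ^ 2 + I.U ^ 2) + I.x ^ 8 := by
  intro F0 hF pB pS h0 h1
  have h3 : LlSec3 llBase (F0.wExp pB.sStar pB.eta pS) := (hF.2.2 _ _ _ (llc_expOk pB h0 h1)).sec3
  obtain ⟨N1, hN1⟩ := l8b_pt h3
  refine L8Ev.of_fine' hf hF pB h0 h1 l8bEta l8b_eta_pos N1 ?_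
  rintro ⟨F, 𝔹, p, m, s, Fs⟩ hIF hIB hN - hOk hfine
  simp only at hIF hIB hN
  subst hIF hIB
  set I : L8In := ⟨F0.wExp pB.sStar pB.eta pS, llBase, p, m, s, Fs⟩ with hI
  have hp : p.Ok (F0.wExp pB.sStar pB.eta pS) := hOk.pt
  obtain ⟨k1, k2, k3, k4, k5⟩ := hN1 p hp hN m
  have hm1 : 1 ≤ m := by
    have e1 := hp.N2
    have e2 : p.N ≤ 2 * m := hOk.m_lo
    omega
  have hmN : (m : ℝ) ≤ 3 * (p.N : ℝ) := by exact_mod_cast hOk.m_hi
  obtain ⟨a0, a1, a2, a3, a4⟩ := l8b_arith (x := p.x) (U := p.U (F0.wExp pB.sStar pB.eta pS)) (a := p.a) (m := m) (N := p.N)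
    (η := l8bEta p.N) (bt_x_pos hp) (bt_x_le_one hp) (bt_x_le_U h3.ok hp) (bt_a_pos hp) (bt_a_le hp) (by exact_mod_cast hm1) hmN rfl
  have H : L8bH I (l8bEta p.N) :=
    { m_pos := hm1, a_pos := bt_a_pos hp, adm := k1, q_mono := k2, q_mem := k3, S_eq := k4, B_eq := k5, eta := a0, fine := hfine }
  refine ⟨fun k _ => l8b_A_mem H k, fun u hu hu4 => ?_, ?_⟩
  · refine (l8b_dy H (bt_a_ge_one hp) (a1.trans (by have : p.U (F0.wExp pB.sStar pB.eta pS) ≤ u := hu; linarith)) hu4).trans ?_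
    exact add_le_add le_rfl a3
  · exact (l8b_wt H a2).trans (add_le_add le_rfl a4)

end

end Claimed.Agent.R286
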