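-- KEEP
import Claimed.Agent.R286.L08.SPC
import Claimed.Agent.R286.L08.SPD

/-!
# Row 286 (S0533), folder L08, file Cen : CENTERED POLYNOMIAL INTEGRALS (D10), ALIASES, TILT TRANSFER, LOW PROJECTION
OWNER helper187 (co-architect of the units IV / PC under helper228; section head helper75).     Prefix `l8c_` / `L8c`.

TeX = LL 08-statistics.tex l.842-925:  par. "Aliases and projected endpoints";  Lemma 8.6 `lem:statistics-centered` = (D10);
par. "Stopping, forests, and the order of truncation" `par:statistics-tilt-transfer`;  Cor. 8.7 `cor:statistics-low-projection`.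
(= S4, S5, S6 and ABS5, ABS6 of `origin/helper228:notes/R286/L11_helper228.md`.)

LEVEL: abstract single path `L8P` of helper75 (L08/SP, SPA-SPD), FINE grid, NON-asymptotic: explicit constants in, explicit constants out.
`∫ .. dv` over a band = `∑ k ∈ K, P.dv k * ..` over a finite set `K` of cuts;  `‖F‖_(2r) ≤ B` is written `∫ F ^ (2 r) ≤ B ^ (2 r)`.
The outputs of the other lemmas enter as NUMBERS:  (D7a) `∑ dv e^(2(j-1)) E W ≤ A`;  (D7b) `∑ dv E (XᵀCX + tr C²) ≤ A`;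
(D2) `∫ (2L - S)^(2q) ≤ (M e)^(2q)`;  (A2) = `P.Pin 1 c0`;  (A3) = `P.Proj r c vmin hmin`;  stop + (A4) = `L8cTilt` (moment `Rn` of the density).
In the wrappers: `T = x^(-ε')` (truncation), `M = C x^(-ε'')`, `ε'' ≤ ε'/2`, `q ≥ K/ε'`: then `(M/T)^(2q) ≤ C^(2q) x^K` (`l8c_arith_tail`).

PROTOCOL: every `sorry` is ONE LEAF.  Claim it in claim286 by its Lean name, replace ONLY your sorry, helpers just above it
(name = theorem name + suffix), land directly.  A statement found false or awkward: one line to helper187.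

MAP.  A kit (Mathlib only): polynomial class, Markov, Minkowski, Hölder-interpolation, truncation of products.
B (D10): `l8c_pin_shift` → `l8c_center` → `l8c_D10`; low linear `l8c_linear`.   C aliases: `l8c_fork_contract` → `l8c_alias_proj` → `l8c_ver_dist`
→ `l8c_ver_poly` → `l8c_ver_band`; exact linear averaging `l8c_ver_linear`.   D transfer: `l8c_D10_tilt`, `l8c_ver_band_tilt`, `l8c_test`, `l8c_forest`.
E low projection: `l8c_fork_proj_incr` → `l8c_low_step` → `l8c_low_proj`; scale sum `l8c_low_sum`.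
-/

set_option autoImplicit false

namespace Claimed.Agent.R286

open MeasureTheory ProbabilityTheory Finset
open scoped ENNReal

/-! ## A. Kit (Mathlib only) -/
section A

/-- TEX[LL:lem:statistics-centered] the polynomials of (D10): total degree `≤ j`, "the coefficient of degree `i` can be any deterministic
function bounded by `C e(v)^(j-i)`" -/
def L8cPoly (j : ℕ) (c e : ℝ) (p : Polynomial ℝ) : Prop :=
  p.natDegree ≤ j ∧ ∀ i ≤ j, |p.coeff i| ≤ c * e ^ (j - i)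

theorem l8c_poly_c_nonneg {j : ℕ} {c e : ℝ} {p : Polynomial ℝ} (hp : L8cPoly j c e p) : 0 ≤ c := by
  have := hp.2 j le_rfl
  simp only [Nat.sub_self, pow_zero, mul_one] at this
  exact (abs_nonneg _).trans this

/-- TEX[LL:lem:statistics-centered] size of the polynomial on `|t| ≤ b`, `e ≤ b` -/
theorem l8c_poly_eval_le {j : ℕ} {c e b t : ℝ} {p : Polynomial ℝ} (hp : L8cPoly j c e p) (he : 0 ≤ e) (heb : e ≤ b) (ht : |t| ≤ b) :
    |p.eval t| ≤ c * (j + 1) * b ^ j := by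
  have hc := l8c_poly_c_nonneg hp
  have hb : 0 ≤ b := he.trans heb
  rw [Polynomial.eval_eq_sum_range' (Nat.lt_succ_of_le hp.1)]
  calc |∑ i ∈ range (j + 1), p.coeff i * t ^ i| ≤ ∑ i ∈ range (j + 1), |p.coeff i * t ^ i| := abs_sum_le_sum_abs _ _
    _ ≤ ∑ i ∈ range (j + 1), c * b ^ j := by
        refine sum_le_sum fun i hi => ?_
        have hij : i ≤ j := Nat.lt_succ_iff.1 (mem_range.1 hi)
        rw [abs_mul, abs_pow]
        calc |p.coeff i| * |t| ^ i ≤ (c * e ^ (j - i)) * b ^ i :=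
              mul_le_mul (hp.2 i hij) (pow_le_pow_left₀ (abs_nonneg t) ht i) (by positivity) (by positivity)
          _ ≤ (c * b ^ (j - i)) * b ^ i :=
              mul_le_mul_of_nonneg_right (mul_le_mul_of_nonneg_left (pow_le_pow_left₀ he heb _) hc) (by positivity)
          _ = c * b ^ j := by rw [mul_assoc, ← pow_add, Nat.sub_add_cancel hij]
    _ = c * (j + 1) * b ^ j := by simp; ring

/-- TEX[LL:lem:statistics-centered] "differentiation gives `|P'_v| ≲ x^(-C ε') e^(j-1)`" (`b = T e`) -/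
theorem l8c_poly_deriv_le {j : ℕ} {c e b t : ℝ} {p : Polynomial ℝ} (hp : L8cPoly j c e p) (he : 0 ≤ e) (heb : e ≤ b) (ht : |t| ≤ b) :
    |p.derivative.eval t| ≤ c * j ^ 2 * b ^ (j - 1) := by
  have hc := l8c_poly_c_nonneg hp
  have hb : 0 ≤ b := he.trans heb
  rw [Polynomial.derivative_eval, Polynomial.sum_over_range' _ (by simp) (j + 1) (Nat.lt_succ_of_le hp.1)]
  calc |∑ i ∈ range (j + 1), p.coeff i * i * t ^ (i - 1)| ≤ ∑ i ∈ range (j + 1), |p.coeff i * i * t ^ (i - 1)| := abs_sum_le_sum_abs _ _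
    _ ≤ ∑ i ∈ range (j + 1), (if i = 0 then 0 else c * j * b ^ (j - 1)) := by
        refine sum_le_sum fun i hi => ?_
        have hij : i ≤ j := Nat.lt_succ_iff.1 (mem_range.1 hi)
        split_ifs with h0
        · simp [h0]
        rw [abs_mul, abs_mul, abs_pow, Nat.abs_cast]
        have h1 : (i : ℝ) ≤ j := by exact_mod_cast hij
        calc |p.coeff i| * i * |t| ^ (i - 1) ≤ (c * e ^ (j - i)) * j * b ^ (i - 1) :=
              mul_le_mul (mul_le_mul (hp.2 i hij) h1 (by positivity) (by positivity)) (pow_le_pow_left₀ (abs_nonneg t) ht _) (by positivity) (by positivity)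
          _ ≤ (c * b ^ (j - i)) * j * b ^ (i - 1) := by
              refine mul_le_mul_of_nonneg_right (mul_le_mul_of_nonneg_right (mul_le_mul_of_nonneg_left (pow_le_pow_left₀ he heb _) hc) (by positivity)) (by positivity)
          _ = c * j * b ^ (j - 1) := by
              have : j - 1 = (j - i) + (i - 1) := by omega
              rw [this, pow_add]; ring
    _ = c * j ^ 2 * b ^ (j - 1) := by
        rw [sum_range_succ', if_pos rfl, add_zero, sum_congr rfl fun i _ => if_neg (Nat.succ_ne_zero i)]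
        simp; ring

/-- mean value form (used for the aliases) -/
theorem l8c_poly_diff_le {j : ℕ} {c e b s t : ℝ} {p : Polynomial ℝ} (hp : L8cPoly j c e p) (he : 0 ≤ e) (heb : e ≤ b) (hs : |s| ≤ b)
    (ht : |t| ≤ b) : |p.eval s - p.eval t| ≤ c * j ^ 2 * b ^ (j - 1) * |s - t| := by
  have h := Convex.norm_image_sub_le_of_norm_hasDerivWithin_le (f := fun x => p.eval x) (f' := fun x => p.derivative.eval x)
    (s := Set.Icc (-b) b) (C := c * j ^ 2 * b ^ (j - 1)) (x := t) (y := s) (fun x _ => (p.hasDerivAt x).hasDerivWithinAt)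
    (fun x hx => by rw [Real.norm_eq_abs]; exact l8c_poly_deriv_le hp he heb (abs_le.2 hx)) (convex_Icc _ _) (abs_le.1 ht) (abs_le.1 hs)
  simpa [Real.norm_eq_abs] using h

/-- Markov with an even moment -/
theorem l8c_markov {α : Type*} [MeasurableSpace α] (ν : Measure α) [IsFiniteMeasure ν] {f : α → ℝ} (hf : Measurable f)
    (hfb : ∃ c, ∀ x, |f x| ≤ c) (q : ℕ) {B s : ℝ} (hs : 0 < s) (hB : ∫ x, f x ^ (2 * q) ∂ν ≤ B ^ (2 * q)) :
    ν.real {x | s < |f x|} ≤ (B / s) ^ (2 * q) := by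
  obtain ⟨c, hc⟩ := hfb
  have hint : Integrable (fun x => f x ^ (2 * q)) ν :=
    Integrable.of_bound (hf.pow_const _).aestronglyMeasurable (c ^ (2 * q)) (Filter.Eventually.of_forall fun x => by
      rw [norm_pow, Real.norm_eq_abs]; exact pow_le_pow_left₀ (abs_nonneg _) (hc x) _)
  have h1 := mul_meas_ge_le_integral_of_nonneg (μ := ν) (f := fun x => f x ^ (2 * q))
    (Filter.Eventually.of_forall fun x => (even_two_mul q).pow_nonneg _) hint (s ^ (2 * q))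
  have h2 : ν.real {x | s < |f x|} ≤ ν.real {x | s ^ (2 * q) ≤ f x ^ (2 * q)} := by
    refine measureReal_mono (fun x hx => ?_) (measure_ne_top _ _)
    have : s ^ (2 * q) ≤ |f x| ^ (2 * q) := pow_le_pow_left₀ hs.le (le_of_lt hx) _
    rwa [(even_two_mul q).pow_abs] at this
  rw [div_pow, le_div_iff₀ (by positivity), mul_comm]
  exact (mul_le_mul_of_nonneg_left h2 (by positivity)).trans (h1.trans hB)

theorem l8c_mink_pow {α : Type*} [MeasurableSpace α] (ν : Measure α) [IsFiniteMeasure ν] {f : α → ℝ} (hf : Measurable f)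
    (hfb : ∃ c, ∀ x, |f x| ≤ c) (r : ℕ) (hr : 1 ≤ r) :
    MemLp f ((2 * r : ℕ) : ℝ≥0∞) ν ∧ (eLpNorm f ((2 * r : ℕ) : ℝ≥0∞) ν).toReal ^ (2 * r) = ∫ x, f x ^ (2 * r) ∂ν := by
  obtain ⟨c, hc⟩ := hfb
  have hm : MemLp f ((2 * r : ℕ) : ℝ≥0∞) ν := MemLp.of_bound hf.aestronglyMeasurable c (Filter.Eventually.of_forall hc)
  refine ⟨hm, ?_⟩
  have hp0 : ((2 * r : ℕ) : ℝ≥0∞) ≠ 0 := by
    simp only [ne_eq, Nat.cast_eq_zero]; omega
  have h := hm.eLpNorm_eq_integral_rpow_norm hp0 (ENNReal.natCast_ne_top _)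
  have e : ∀ x, ‖f x‖ ^ (2 * r) = f x ^ (2 * r) := fun x => by rw [Real.norm_eq_abs, (even_two_mul r).pow_abs]
  have hnn : 0 ≤ ∫ x, f x ^ (2 * r) ∂ν := integral_nonneg fun x => (even_two_mul r).pow_nonneg _
  rw [h]
  simp only [ENNReal.toReal_natCast, Real.rpow_natCast, e]
  rw [ENNReal.toReal_ofReal (by positivity), ← Real.rpow_natCast, ← Real.rpow_mul hnn,
    inv_mul_cancel₀ (by positivity), Real.rpow_one]

/-- Minkowski in `L^(2r)`, bounded functions -/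
theorem l8c_mink {α : Type*} [MeasurableSpace α] (ν : Measure α) [IsFiniteMeasure ν] {ι : Type*} (s : Finset ι) (F : ι → α → ℝ)
    (B : ι → ℝ) (r : ℕ) (hr : 1 ≤ r) (hF : ∀ i ∈ s, Measurable (F i)) (hFb : ∀ i ∈ s, ∃ c, ∀ x, |F i x| ≤ c) (hB0 : ∀ i ∈ s, 0 ≤ B i)
    (hB : ∀ i ∈ s, ∫ x, F i x ^ (2 * r) ∂ν ≤ B i ^ (2 * r)) :
    ∫ x, (∑ i ∈ s, F i x) ^ (2 * r) ∂ν ≤ (∑ i ∈ s, B i) ^ (2 * r) := by
  classical
  have hSb : ∃ c, ∀ x, |∑ i ∈ s, F i x| ≤ c := by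
    choose! c hc using hFb
    exact ⟨∑ i ∈ s, c i, fun x => (abs_sum_le_sum_abs _ _).trans (sum_le_sum fun i hi => hc i hi x)⟩
  have hSm : Measurable (fun x => ∑ i ∈ s, F i x) := Finset.measurable_sum _ hF
  rw [← (l8c_mink_pow ν hSm hSb r hr).2]
  refine pow_le_pow_left₀ ENNReal.toReal_nonneg ?_ _
  have h1 : ∀ i ∈ s, (eLpNorm (F i) ((2 * r : ℕ) : ℝ≥0∞) ν).toReal ≤ B i := fun i hi => by
    refine le_of_pow_le_pow_left₀ (n := 2 * r) (by omega) (hB0 i hi) ?_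
    rw [(l8c_mink_pow ν (hF i hi) (hFb i hi) r hr).2]
    exact hB i hi
  have hne : ∀ i ∈ s, eLpNorm (F i) ((2 * r : ℕ) : ℝ≥0∞) ν ≠ ∞ := fun i hi => (l8c_mink_pow ν (hF i hi) (hFb i hi) r hr).1.eLpNorm_ne_top
  refine le_trans ?_ (sum_le_sum h1)
  rw [← ENNReal.toReal_sum hne]
  refine ENNReal.toReal_mono (ENNReal.sum_ne_top.2 hne) ?_
  have := eLpNorm_sum_le (μ := ν) (s := s) (f := F) (fun i hi => (hF i hi).aestronglyMeasurable) (p := ((2 * r : ℕ) : ℝ≥0∞))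
    (by exact_mod_cast (by omega : 1 ≤ 2 * r))
  convert this using 2
  funext a; simp

theorem l8c_transfer_tangent (p : ℕ) {x y : ℝ} (hx : 0 ≤ x) (hy : 0 ≤ y) :
    x ^ (p + 1) + (p + 1) * x ^ p * (y - x) ≤ y ^ (p + 1) := by
  induction p with
  | zero => simp
  | succ p ih =>
    have h1 : 0 ≤ x ^ p := pow_nonneg hx p
    have h2 : y ^ (p + 1 + 1) = y ^ (p + 1) * y := pow_succ _ _
    have h3 : (x ^ (p + 1) + (p + 1) * x ^ p * (y - x)) * y ≤ y ^ (p + 1) * y :=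
      mul_le_mul_of_nonneg_right ih hy
    have h4 : x ^ (p + 1 + 1) = x ^ p * x * x := by ring
    have h5 : x ^ (p + 1) = x ^ p * x := by ring
    push_cast
    rw [h2, h4, h5]
    rw [h5] at h3
    nlinarith [mul_nonneg h1 (sq_nonneg (y - x)), mul_nonneg (Nat.cast_nonneg p : (0:ℝ) ≤ p) (mul_nonneg h1 (sq_nonneg (y - x)))]

/-- TEX[LL:par:statistics-tilt-transfer] (ABS6) "Hölder transfers the integrated second moments.  The needed norm is slightly above `L²`.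
Interpolation between its `L²` bound and its deterministic bound loses an arbitrarily small power":
Hölder with exponents `n`, `n/(n-1)` and `|F|^(2n/(n-1)) ≤ M^(2/(n-1)) F²` -/
theorem l8c_transfer {α : Type*} [MeasurableSpace α] (ν : Measure α) [IsFiniteMeasure ν] (n : ℕ) (hn : 2 ≤ n) {R F : α → ℝ}
    (hR : Measurable R) (hR0 : ∀ x, 0 ≤ R x) (hRn : Integrable (fun x => R x ^ n) ν) (hF : Measurable F) {M A : ℝ}
    (hFM : ∀ x, |F x| ≤ M) (hA : ∫ x, F x ^ 2 ∂ν ≤ A) :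
    (∫ x, R x * F x ^ 2 ∂ν) ^ n ≤ (∫ x, R x ^ n ∂ν) * A ^ (n - 1) * M ^ 2 := by
  obtain ⟨p, rfl⟩ : ∃ p, n = p + 1 := ⟨n - 1, by omega⟩
  have hF2 : ∀ x, F x ^ 2 ≤ M ^ 2 := fun x => by
    rw [← sq_abs]; exact pow_le_pow_left₀ (abs_nonneg _) (hFM x) 2
  have hRint : Integrable R ν := by
    refine Integrable.mono' ((integrable_const (1:ℝ)).add hRn) hR.aestronglyMeasurable (Filter.Eventually.of_forall fun x => ?_)
    rw [Real.norm_eq_abs, abs_of_nonneg (hR0 x)]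
    rcases le_total (R x) 1 with h | h
    · have := pow_nonneg (hR0 x) (p + 1)
      simp only [Pi.add_apply]; linarith
    · have : R x ≤ R x ^ (p + 1) := le_self_pow₀ h (Nat.succ_ne_zero p)
      simp only [Pi.add_apply]; linarith
  have hmul : ∀ G : α → ℝ, Measurable G → (∀ x, 0 ≤ G x) → Integrable G ν → Integrable (fun x => G x * F x ^ 2) ν := by
    intro G hGm hG0 hG
    refine Integrable.mono' (hG.mul_const (M ^ 2)) (hGm.mul (hF.pow_const 2)).aestronglyMeasurable (Filter.Eventually.of_forall fun x => ?_)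
    rw [Real.norm_eq_abs, abs_of_nonneg (mul_nonneg (hG0 x) (sq_nonneg _))]
    exact mul_le_mul_of_nonneg_left (hF2 x) (hG0 x)
  have hI := hmul R hR hR0 hRint
  have hJ := hmul (fun x => R x ^ (p + 1)) (hR.pow_const _) (fun x => pow_nonneg (hR0 x) _) hRn
  have hS : Integrable (fun x => F x ^ 2) ν := by
    simpa using hmul (fun _ => 1) measurable_const (fun _ => zero_le_one) (integrable_const _)
  have hS0 : 0 ≤ ∫ x, F x ^ 2 ∂ν := integral_nonneg fun x => sq_nonneg _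
  have hI0 : 0 ≤ ∫ x, R x * F x ^ 2 ∂ν := integral_nonneg fun x => mul_nonneg (hR0 x) (sq_nonneg _)
  have hRn0 : 0 ≤ ∫ x, R x ^ (p + 1) ∂ν := integral_nonneg fun x => pow_nonneg (hR0 x) _
  have hJM : ∫ x, R x ^ (p + 1) * F x ^ 2 ∂ν ≤ (∫ x, R x ^ (p + 1) ∂ν) * M ^ 2 := by
    rw [← integral_mul_const]
    exact integral_mono hJ (hRn.mul_const _) fun x => mul_le_mul_of_nonneg_left (hF2 x) (pow_nonneg (hR0 x) _)
  have hSA : (∫ x, F x ^ 2 ∂ν) ^ p ≤ A ^ p := pow_le_pow_left₀ hS0 hA p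
  have key : (∫ x, R x * F x ^ 2 ∂ν) ^ (p + 1) ≤ (∫ x, R x ^ (p + 1) * F x ^ 2 ∂ν) * (∫ x, F x ^ 2 ∂ν) ^ p := by
    rcases hS0.eq_or_lt with h0 | h0
    · have hae : (fun x => F x ^ 2) =ᵐ[ν] 0 := (integral_eq_zero_iff_of_nonneg (fun x => sq_nonneg _) hS).1 h0.symm
      have : ∫ x, R x * F x ^ 2 ∂ν = 0 := by
        rw [integral_congr_ae (g := fun _ => (0:ℝ)) (hae.mono fun x hx => by simp only [Pi.zero_apply] at hx; simp [hx])]
        simp
      rw [this, zero_pow (Nat.succ_ne_zero p)]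
      exact mul_nonneg (integral_nonneg fun x => mul_nonneg (pow_nonneg (hR0 x) _) (sq_nonneg _)) (pow_nonneg hS0 p)
    · set S := ∫ x, F x ^ 2 ∂ν with hSdef
      set I := ∫ x, R x * F x ^ 2 ∂ν with hIdef
      set m := I / S with hm
      have hm0 : 0 ≤ m := div_nonneg hI0 h0.le
      have h1 : ∫ x, (m ^ (p + 1) - (p + 1) * m ^ p * m) * F x ^ 2 + (p + 1) * m ^ p * (R x * F x ^ 2) ∂ν ≤ ∫ x, R x ^ (p + 1) * F x ^ 2 ∂ν := by
        refine integral_mono ((hS.const_mul _).add (hI.const_mul _)) hJ fun x => ?_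
        have := mul_le_mul_of_nonneg_right (l8c_transfer_tangent p hm0 (hR0 x)) (sq_nonneg (F x))
        calc _ = (m ^ (p + 1) + (p + 1) * m ^ p * (R x - m)) * F x ^ 2 := by ring
          _ ≤ _ := this
      rw [integral_add (hS.const_mul _) (hI.const_mul _), integral_const_mul, integral_const_mul, ← hSdef, ← hIdef] at h1
      have hIm : I = m * S := by rw [hm]; field_simp
      have h2 : m ^ (p + 1) * S ≤ ∫ x, R x ^ (p + 1) * F x ^ 2 ∂ν := by
        rw [hIm] at h1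
        calc m ^ (p + 1) * S = (m ^ (p + 1) - (p + 1) * m ^ p * m) * S + (p + 1) * m ^ p * (m * S) := by ring
          _ ≤ _ := h1
      calc I ^ (p + 1) = (m ^ (p + 1) * S) * S ^ p := by rw [hIm]; ring
        _ ≤ _ := mul_le_mul_of_nonneg_right h2 (pow_nonneg h0.le p)
  calc _ ≤ _ := key
    _ ≤ ((∫ x, R x ^ (p + 1) ∂ν) * M ^ 2) * A ^ p :=
        mul_le_mul hJM hSA (pow_nonneg hS0 p) (mul_nonneg hRn0 (sq_nonneg M))
    _ = _ := by simp only [Nat.add_sub_cancel]; ring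

theorem l8c_transfer_sum_pm {ι : Type*} (s : Finset ι) (n : ℕ) (hn : 1 ≤ n) (u x : ι → ℝ) (hu : ∀ i ∈ s, 0 ≤ u i) (hx : ∀ i ∈ s, 0 ≤ x i) :
    (∑ i ∈ s, u i * x i) ^ n ≤ (∑ i ∈ s, u i) ^ (n - 1) * ∑ i ∈ s, u i * x i ^ n := by
  have hU0 : 0 ≤ ∑ i ∈ s, u i := sum_nonneg hu
  rcases hU0.eq_or_lt with h0 | h0
  · have hz := (sum_eq_zero_iff_of_nonneg hu).1 h0.symm
    have e1 : ∑ i ∈ s, u i * x i = 0 := sum_eq_zero fun i hi => by rw [hz i hi, zero_mul]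
    have e2 : ∑ i ∈ s, u i * x i ^ n = 0 := sum_eq_zero fun i hi => by rw [hz i hi, zero_mul]
    rw [e1, e2, zero_pow (by omega), mul_zero]
  · set U := ∑ i ∈ s, u i with hU
    have h := Real.pow_arith_mean_le_arith_mean_pow s (fun i => u i / U) x (fun i hi => div_nonneg (hu i hi) h0.le)
      (by rw [← sum_div, div_self h0.ne']) hx n
    have e1 : ∑ i ∈ s, u i / U * x i = (∑ i ∈ s, u i * x i) / U := by
      rw [sum_div]; exact sum_congr rfl fun i _ => by ring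
    have e2 : ∑ i ∈ s, u i / U * x i ^ n = (∑ i ∈ s, u i * x i ^ n) / U := by
      rw [sum_div]; exact sum_congr rfl fun i _ => by ring
    rw [e1, e2, div_pow, div_le_div_iff₀ (by positivity) h0] at h
    obtain ⟨p, rfl⟩ : ∃ p, n = p + 1 := ⟨n - 1, by omega⟩
    simp only [Nat.add_sub_cancel]
    have h' : (∑ i ∈ s, u i * x i) ^ (p + 1) * U ≤ (U ^ p * ∑ i ∈ s, u i * x i ^ (p + 1)) * U := by
      calc _ ≤ _ := h
        _ = _ := by ring
    exact le_of_mul_le_mul_right h' h0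

/-- TEX[LL:par:statistics-tilt-transfer] the transfer of mass-integrated second moments: Hölder per cut (the tree moves with the cut), THEN in the cut -/
theorem l8c_transfer_sum {ι : Type*} (s : Finset ι) (n : ℕ) (hn : 1 ≤ n) (w I A : ι → ℝ) {c : ℝ} (hc : 0 ≤ c) (hw : ∀ i ∈ s, 0 ≤ w i)
    (hI : ∀ i ∈ s, 0 ≤ I i) (hA : ∀ i ∈ s, 0 ≤ A i) (h : ∀ i ∈ s, I i ^ n ≤ c * A i ^ (n - 1)) :
    (∑ i ∈ s, w i * I i) ^ n ≤ c * (∑ i ∈ s, w i) * (∑ i ∈ s, w i * A i) ^ (n - 1) := by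
  rcases Nat.lt_or_ge n 2 with h1 | h2
  · obtain rfl : n = 1 := by omega
    simp only [pow_one, Nat.sub_self, pow_zero, mul_one] at h ⊢
    rw [mul_sum]
    exact sum_le_sum fun i hi => by rw [mul_comm c]; exact mul_le_mul_of_nonneg_left (h i hi) (hw i hi)
  · have hpm := l8c_transfer_sum_pm s n hn (fun i => w i * A i) (fun i => I i / A i) (fun i hi => mul_nonneg (hw i hi) (hA i hi))
      (fun i hi => div_nonneg (hI i hi) (hA i hi))
    have e1 : ∑ i ∈ s, w i * A i * (I i / A i) = ∑ i ∈ s, w i * I i := by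
      refine sum_congr rfl fun i hi => ?_
      rcases (hA i hi).eq_or_lt with h0 | h0
      · have : I i ^ n ≤ 0 := by
          have := h i hi
          rwa [← h0, zero_pow (by omega), mul_zero] at this
        have hI0 : I i = 0 := by
          have := le_antisymm this (pow_nonneg (hI i hi) n)
          exact pow_eq_zero_iff (by omega) |>.1 this
        rw [hI0]; simp
      · field_simp
    have e2 : ∑ i ∈ s, w i * A i * (I i / A i) ^ n ≤ ∑ i ∈ s, w i * c := by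
      refine sum_le_sum fun i hi => ?_
      rcases (hA i hi).eq_or_lt with h0 | h0
      · rw [← h0]; simpa using mul_nonneg (hw i hi) hc
      · rw [mul_assoc]
        refine mul_le_mul_of_nonneg_left ?_ (hw i hi)
        rw [div_pow, mul_div_assoc', div_le_iff₀ (by positivity)]
        have e : A i ^ n = A i * A i ^ (n - 1) := by
          rw [← pow_succ']; congr 1; omega
        rw [e]
        calc A i * I i ^ n ≤ A i * (c * A i ^ (n - 1)) := mul_le_mul_of_nonneg_left (h i hi) h0.le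
          _ = _ := by ring
    rw [e1] at hpm
    calc _ ≤ _ := hpm
      _ ≤ (∑ i ∈ s, w i * A i) ^ (n - 1) * ∑ i ∈ s, w i * c :=
          mul_le_mul_of_nonneg_left e2 (pow_nonneg (sum_nonneg fun i hi => mul_nonneg (hw i hi) (hA i hi)) _)
      _ = _ := by rw [← sum_mul]; ring

/-- Cauchy-Schwarz "in `dv / r`" -/
theorem l8c_cs_sum {ι : Type*} (s : Finset ι) (w a b : ι → ℝ) (hw : ∀ i ∈ s, 0 ≤ w i) (ha : ∀ i ∈ s, 0 ≤ a i) (hb : ∀ i ∈ s, 0 ≤ b i) :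
    ∑ i ∈ s, w i * √(a i * b i) ≤ √(∑ i ∈ s, w i * a i) * √(∑ i ∈ s, w i * b i) := by
  have h := Real.sum_sqrt_mul_sqrt_le s (f := fun i => |w i * a i|) (g := fun i => |w i * b i|) (fun i => abs_nonneg _) (fun i => abs_nonneg _)
  calc ∑ i ∈ s, w i * √(a i * b i) = ∑ i ∈ s, √|w i * a i| * √|w i * b i| := by
        refine sum_congr rfl fun i hi => ?_
        rw [abs_of_nonneg (mul_nonneg (hw i hi) (ha i hi)), abs_of_nonneg (mul_nonneg (hw i hi) (hb i hi)),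
          ← Real.sqrt_mul (mul_nonneg (hw i hi) (ha i hi)), show w i * a i * (w i * b i) = w i ^ 2 * (a i * b i) by ring,
          Real.sqrt_mul (sq_nonneg _), Real.sqrt_sq (hw i hi)]
    _ ≤ _ := h
    _ = _ := by
        rw [sum_congr rfl fun i hi => abs_of_nonneg (mul_nonneg (hw i hi) (ha i hi)),
          sum_congr rfl fun i hi => abs_of_nonneg (mul_nonneg (hw i hi) (hb i hi))]

/-- TEX[LL:par:statistics-tilt-transfer] "In a finite product, first truncate the other factors using their fixed moments; their deterministic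
envelope bounds then cost only the chosen small power loss, and their discarded tails are negligible" -/
theorem l8c_trunc {α : Type*} [MeasurableSpace α] (ν : Measure α) [IsProbabilityMeasure ν] {ι : Type*} (s : Finset ι) (F : ι → α → ℝ)
    (G : α → ℝ) (hF : ∀ i ∈ s, Measurable (F i)) (hG : Measurable G) (b B : ι → ℝ) (g : ℝ) (hb : ∀ i ∈ s, 0 ≤ b i)
    (hFB : ∀ i ∈ s, ∀ x, |F i x| ≤ B i) (hGg : ∀ x, |G x| ≤ g) :
    |∫ x, (∏ i ∈ s, F i x) * G x ∂ν|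
      ≤ (∏ i ∈ s, b i) * ∫ x, |G x| ∂ν + (∏ i ∈ s, B i) * g * ∑ i ∈ s, ν.real {x | b i < |F i x|} := by
  classical
  have hE : ∀ i ∈ s, MeasurableSet {x | b i < |F i x|} := fun i hi => measurableSet_lt measurable_const (hF i hi).abs
  have hGi : Integrable (fun x => |G x|) ν :=
    Integrable.of_bound hG.abs.aestronglyMeasurable g (Filter.Eventually.of_forall fun x => by simpa using hGg x)
  have hind : ∀ i ∈ s, Integrable ({x | b i < |F i x|}.indicator (fun _ => (1:ℝ))) ν := fun i hi =>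
    (integrable_const (1:ℝ)).indicator (hE i hi)
  have hpt : ∀ x, |(∏ i ∈ s, F i x) * G x|
      ≤ (∏ i ∈ s, b i) * |G x| + (∏ i ∈ s, B i) * g * ∑ i ∈ s, {x | b i < |F i x|}.indicator (fun _ => (1:ℝ)) x := by
    intro x
    have hB0 : ∀ i ∈ s, 0 ≤ B i := fun i hi => (abs_nonneg _).trans (hFB i hi x)
    have hg0 : 0 ≤ g := (abs_nonneg _).trans (hGg x)
    have hsum0 : ∀ i ∈ s, 0 ≤ {x | b i < |F i x|}.indicator (fun _ => (1:ℝ)) x := fun i _ =>
      Set.indicator_nonneg (fun _ _ => zero_le_one) x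
    rw [abs_mul, abs_prod]
    by_cases hall : ∀ i ∈ s, |F i x| ≤ b i
    · have h1 : ∏ i ∈ s, |F i x| ≤ ∏ i ∈ s, b i := prod_le_prod (fun i _ => abs_nonneg _) hall
      have h2 : 0 ≤ (∏ i ∈ s, B i) * g * ∑ i ∈ s, {x | b i < |F i x|}.indicator (fun _ => (1:ℝ)) x :=
        mul_nonneg (mul_nonneg (prod_nonneg hB0) hg0) (sum_nonneg hsum0)
      have := mul_le_mul_of_nonneg_right h1 (abs_nonneg (G x))
      linarith
    · push Not at hall
      obtain ⟨i0, hi0, hlt⟩ := hall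
      have h1 : ∏ i ∈ s, |F i x| ≤ ∏ i ∈ s, B i := prod_le_prod (fun i _ => abs_nonneg _) fun i hi => hFB i hi x
      have h2 : (1:ℝ) ≤ ∑ i ∈ s, {x | b i < |F i x|}.indicator (fun _ => (1:ℝ)) x := by
        refine le_trans ?_ (single_le_sum hsum0 hi0)
        rw [Set.indicator_of_mem (show x ∈ {x | b i0 < |F i0 x|} from hlt)]
      have h3 : (∏ i ∈ s, |F i x|) * |G x| ≤ (∏ i ∈ s, B i) * g := mul_le_mul h1 (hGg x) (abs_nonneg _) (prod_nonneg hB0)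
      have h4 : (∏ i ∈ s, B i) * g ≤ (∏ i ∈ s, B i) * g * ∑ i ∈ s, {x | b i < |F i x|}.indicator (fun _ => (1:ℝ)) x :=
        le_mul_of_one_le_right (mul_nonneg (prod_nonneg hB0) hg0) h2
      have h5 : 0 ≤ (∏ i ∈ s, b i) * |G x| := mul_nonneg (prod_nonneg hb) (abs_nonneg _)
      linarith
  have hR : Integrable (fun x => (∏ i ∈ s, b i) * |G x| + (∏ i ∈ s, B i) * g * ∑ i ∈ s, {x | b i < |F i x|}.indicator (fun _ => (1:ℝ)) x) ν :=
    (hGi.const_mul _).add ((integrable_finsetSum _ hind).const_mul _)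
  calc |∫ x, (∏ i ∈ s, F i x) * G x ∂ν| ≤ ∫ x, |(∏ i ∈ s, F i x) * G x| ∂ν := abs_integral_le_integral_abs
    _ ≤ ∫ x, ((∏ i ∈ s, b i) * |G x| + (∏ i ∈ s, B i) * g * ∑ i ∈ s, {x | b i < |F i x|}.indicator (fun _ => (1:ℝ)) x) ∂ν :=
        integral_mono_of_nonneg (Filter.Eventually.of_forall fun x => abs_nonneg _) hR (Filter.Eventually.of_forall hpt)
    _ = _ := by
        rw [integral_add (hGi.const_mul _) ((integrable_finsetSum _ hind).const_mul _), integral_const_mul, integral_const_mul,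
          integral_finsetSum _ hind]
        congr 2
        refine sum_congr rfl fun i hi => ?_
        rw [integral_indicator (hE i hi)]
        simp

/-- TEX[LL:lem:statistics-centered] polynomial of two versions `U, V` of the inserted value: truncation at `T e`, mean value theorem -/
theorem l8c_poly_alias {α : Type*} [MeasurableSpace α] (ν : Measure α) [IsFiniteMeasure ν] {U V : α → ℝ} (hU : Measurable U)
    (hV : Measurable V) (hUb : ∀ x, |U x| ≤ 4) (hVb : ∀ x, |V x| ≤ 4) {j : ℕ} {c e : ℝ} {p : Polynomial ℝ} (hp : L8cPoly j c e p)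
    (he0 : 0 ≤ e) (he4 : e ≤ 4) {T : ℝ} (hT : 1 ≤ T) :
    ∫ x, (p.eval (U x) - p.eval (V x)) ^ 2 ∂ν
      ≤ (c * j ^ 2) ^ 2 * ((T * e) ^ (2 * (j - 1)) * ∫ x, (U x - V x) ^ 2 ∂ν
          + 4 ^ (2 * (j - 1)) * 64 * (ν.real {x | T * e < |U x|} + ν.real {x | T * e < |V x|})) := by
  have hc := l8c_poly_c_nonneg hp
  have hEU : MeasurableSet {x | T * e < |U x|} := measurableSet_lt measurable_const hU.abs
  have hEV : MeasurableSet {x | T * e < |V x|} := measurableSet_lt measurable_const hV.abs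
  have hiU : Integrable ({x | T * e < |U x|}.indicator (fun _ => (1:ℝ))) ν := (integrable_const (1:ℝ)).indicator hEU
  have hiV : Integrable ({x | T * e < |V x|}.indicator (fun _ => (1:ℝ))) ν := (integrable_const (1:ℝ)).indicator hEV
  have hUV8 : ∀ x, |U x - V x| ≤ 8 := fun x => (abs_sub _ _).trans (by linarith [hUb x, hVb x])
  have hD : Integrable (fun x => (U x - V x) ^ 2) ν :=
    Integrable.of_bound ((hU.sub hV).pow_const 2).aestronglyMeasurable (8 ^ 2) (Filter.Eventually.of_forall fun x => by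
      rw [norm_pow, Real.norm_eq_abs]; exact pow_le_pow_left₀ (abs_nonneg _) (hUV8 x) 2)
  have hpt : ∀ x, (p.eval (U x) - p.eval (V x)) ^ 2
      ≤ (c * j ^ 2) ^ 2 * ((T * e) ^ (2 * (j - 1)) * (U x - V x) ^ 2
          + 4 ^ (2 * (j - 1)) * 64 * ({x | T * e < |U x|}.indicator (fun _ => (1:ℝ)) x + {x | T * e < |V x|}.indicator (fun _ => (1:ℝ)) x)) := by
    intro x
    have hi1 : 0 ≤ {x | T * e < |U x|}.indicator (fun _ => (1:ℝ)) x := Set.indicator_nonneg (fun _ _ => zero_le_one) x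
    have hi2 : 0 ≤ {x | T * e < |V x|}.indicator (fun _ => (1:ℝ)) x := Set.indicator_nonneg (fun _ _ => zero_le_one) x
    have hTe : 0 ≤ T * e := by positivity
    by_cases hgood : |U x| ≤ T * e ∧ |V x| ≤ T * e
    · have h1 := l8c_poly_diff_le hp he0 (le_mul_of_one_le_left he0 hT) hgood.1 hgood.2
      have h2 : (p.eval (U x) - p.eval (V x)) ^ 2 ≤ (c * j ^ 2 * (T * e) ^ (j - 1) * |U x - V x|) ^ 2 := by
        rw [← sq_abs]; exact pow_le_pow_left₀ (abs_nonneg _) h1 2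
      have h3 : (c * j ^ 2 * (T * e) ^ (j - 1) * |U x - V x|) ^ 2 = (c * j ^ 2) ^ 2 * ((T * e) ^ (2 * (j - 1)) * (U x - V x) ^ 2) := by
        rw [mul_pow, mul_pow, sq_abs, ← pow_mul, mul_comm (j - 1) 2]; ring
      rw [h3] at h2
      refine h2.trans (mul_le_mul_of_nonneg_left ?_ (sq_nonneg _))
      have : 0 ≤ (4:ℝ) ^ (2 * (j - 1)) * 64 * ({x | T * e < |U x|}.indicator (fun _ => (1:ℝ)) x + {x | T * e < |V x|}.indicator (fun _ => (1:ℝ)) x) := by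
        positivity
      linarith
    · have h1 := l8c_poly_diff_le hp he0 he4 (hUb x) (hVb x)
      have h1' : |p.eval (U x) - p.eval (V x)| ≤ c * j ^ 2 * 4 ^ (j - 1) * 8 :=
        h1.trans (mul_le_mul_of_nonneg_left (hUV8 x) (by positivity))
      have h2 : (p.eval (U x) - p.eval (V x)) ^ 2 ≤ (c * j ^ 2 * 4 ^ (j - 1) * 8) ^ 2 := by
        rw [← sq_abs]; exact pow_le_pow_left₀ (abs_nonneg _) h1' 2
      have h3 : (c * j ^ 2 * 4 ^ (j - 1) * 8) ^ 2 = (c * j ^ 2) ^ 2 * ((4:ℝ) ^ (2 * (j - 1)) * 64) := by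
        rw [mul_pow, mul_pow, ← pow_mul, mul_comm (j - 1) 2]; ring
      rw [h3] at h2
      refine h2.trans (mul_le_mul_of_nonneg_left ?_ (sq_nonneg _))
      have h4 : (1:ℝ) ≤ {x | T * e < |U x|}.indicator (fun _ => (1:ℝ)) x + {x | T * e < |V x|}.indicator (fun _ => (1:ℝ)) x := by
        rw [not_and_or, not_le, not_le] at hgood
        rcases hgood with h | h
        · rw [Set.indicator_of_mem (show x ∈ {x | T * e < |U x|} from h)]; linarith
        · rw [Set.indicator_of_mem (show x ∈ {x | T * e < |V x|} from h)]; linarith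
      have h5 : (4:ℝ) ^ (2 * (j - 1)) * 64 ≤ (4:ℝ) ^ (2 * (j - 1)) * 64 * ({x | T * e < |U x|}.indicator (fun _ => (1:ℝ)) x + {x | T * e < |V x|}.indicator (fun _ => (1:ℝ)) x) :=
        le_mul_of_one_le_right (by positivity) h4
      have h6 : 0 ≤ (T * e) ^ (2 * (j - 1)) * (U x - V x) ^ 2 := by positivity
      linarith
  have hR : Integrable (fun x => (c * j ^ 2) ^ 2 * ((T * e) ^ (2 * (j - 1)) * (U x - V x) ^ 2
      + 4 ^ (2 * (j - 1)) * 64 * ({x | T * e < |U x|}.indicator (fun _ => (1:ℝ)) x + {x | T * e < |V x|}.indicator (fun _ => (1:ℝ)) x))) ν :=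
    ((hD.const_mul _).add ((hiU.add hiV).const_mul _)).const_mul _
  calc _ ≤ ∫ x, (c * j ^ 2) ^ 2 * ((T * e) ^ (2 * (j - 1)) * (U x - V x) ^ 2
      + 4 ^ (2 * (j - 1)) * 64 * ({x | T * e < |U x|}.indicator (fun _ => (1:ℝ)) x + {x | T * e < |V x|}.indicator (fun _ => (1:ℝ)) x)) ∂ν :=
        integral_mono_of_nonneg (Filter.Eventually.of_forall fun x => sq_nonneg _) hR (Filter.Eventually.of_forall hpt)
    _ = _ := by
        have hiUV : Integrable (fun x => {x | T * e < |U x|}.indicator (fun _ => (1:ℝ)) x + {x | T * e < |V x|}.indicator (fun _ => (1:ℝ)) x) ν :=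
          hiU.add hiV
        rw [integral_const_mul, integral_add (hD.const_mul _) (hiUV.const_mul _), integral_const_mul, integral_const_mul,
          integral_add hiU hiV, integral_indicator hEU, integral_indicator hEV]
        simp

/-- TEX[LL:lem:statistics-centered] "first fix the allowed loss `ε'`, then a finite moment order large enough that (D2) makes the tail
negligible.  Choose the geometric slack in (D2) last, small enough for that moment order" -/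
theorem l8c_arith_tail {x ε' ε'' C K : ℝ} {q : ℕ} (hx0 : 0 < x) (hx1 : x ≤ 1) (hC : 0 ≤ C) (hε : ε'' ≤ ε' / 2) (hq : K ≤ ε' * q) :
    (C * x ^ (-ε'') / x ^ (-ε')) ^ (2 * q) ≤ C ^ (2 * q) * x ^ K := by
  rw [mul_div_assoc, ← Real.rpow_sub hx0, mul_pow]
  refine mul_le_mul_of_nonneg_left ?_ (by positivity)
  rw [← Real.rpow_natCast, ← Real.rpow_mul hx0.le]
  refine Real.rpow_le_rpow_of_exponent_ge hx0 hx1 ?_
  push_cast
  have hq0 : (0:ℝ) ≤ q := Nat.cast_nonneg q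
  nlinarith

end A

variable {Ω : Type} [mΩ : MeasurableSpace Ω] {m : ℕ}

/-- TEX[LL:par:aliases] the versions ("aliases") of the overlap of a pair split at a cut `k` -/
inductive L8cVer : Type
  /-- inner product of the posterior means of the two branches at the later cuts `k₁`, `k₂` (`n + 1` = terminal leaf) -/
  | pair (k₁ k₂ : ℕ)
  /-- the ancestor value `|X_k|²` -/
  | anc
  /-- `2 L_k` along the first branch -/
  | path

/-- the projection cuts are after the fork -/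
def L8cVer.Valid (k : ℕ) : L8cVer → Prop
  | .pair k₁ k₂ => k ≤ k₁ ∧ k ≤ k₂
  | .anc => True
  | .path => True

/-- TEX[LL:par:statistics-tilt-transfer] an initial density tilt ((A4) on the stop): only its `n`-th moment is used -/
structure L8cTilt (μ : Measure Ω) (n : ℕ) (Rn : ℝ) (R : Ω → ℝ) : Prop where
  meas : Measurable R
  nonneg : ∀ ω, 0 ≤ R ω
  int : Integrable (fun ω => R ω ^ n) μ
  mom : ∫ ω, R ω ^ n ∂μ ≤ Rn

namespace L8P

variable (P : L8P Ω m)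

/-! ## B. Centered polynomial integrals (D10) -/
section B

/-- TEX[LL:lem:statistics-centered] the centered inserted value `2 L_k - S_k` -/
noncomputable def l8cT (k : ℕ) (ω : Ω) : ℝ := 2 * P.L k ω - P.S k

/-- the centered polynomial integral over the band `K` -/
noncomputable def l8cI (K : Finset ℕ) (p : ℕ → Polynomial ℝ) (ω : Ω) : ℝ :=
  ∑ k ∈ K, P.dv k * ((p k).eval (P.l8cT k ω) - ∫ ω', (p k).eval (P.l8cT k ω') ∂P.μ)

theorem l8c_dv_nonneg (h : P.Ok) (k : ℕ) : 0 ≤ P.dv k := by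
  unfold L8P.dv
  split_ifs with hk
  · simpa using h.v_nonneg k
  · exact sub_nonneg.2 (h.v_mono (Nat.sub_le k 1))

theorem l8c_T_abs_le (h : P.Ok) (k : ℕ) (ω : Ω) : |P.l8cT k ω| ≤ 4 := by
  have h1 := abs_le.1 (P.l8s_L_abs_le h k ω)
  have h2 := P.l8s_S_nonneg k
  have h3 := P.l8s_S_le_one h k
  unfold L8P.l8cT
  rw [abs_le]; constructor <;> linarith [h1.1, h1.2]

theorem l8c_T_bd (h : P.Ok) (k : ℕ) : L8Bd (P.l8cT k) := by
  obtain ⟨hm, -⟩ := P.l8s_L_bd h k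
  exact ⟨(hm.const_mul 2).sub_const _, 4, P.l8c_T_abs_le h k⟩

theorem l8c_T_mean (h : P.Ok) (k : ℕ) : ∫ ω, P.l8cT k ω ∂P.μ = 0 := by
  have := h.prob
  have hi : Integrable (P.L k) P.μ := by
    obtain ⟨hm, c, hc⟩ := P.l8s_L_bd h k
    exact Integrable.of_bound hm.aestronglyMeasurable c (Filter.Eventually.of_forall hc)
  unfold L8P.l8cT
  rw [integral_sub (hi.const_mul 2) (integrable_const _), integral_const_mul, P.l8s_two_integral_L h k]
  simp

/-- TEX[LL:lem:statistics-centered] (A2) in the variable `2 L - S` ("the factors of two in the argument only change constants") -/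
theorem l8c_pin_shift {r : ℕ} {c0 : ℝ} (hp : P.Pin r c0) (w : ℕ → ℝ) (p : ℕ → Polynomial ℝ) :
    ∫ ω, (∑ k ∈ range (P.n + 1), P.dv k * w k *
        ((p k).eval (P.l8cT k ω) - ∫ ω', (p k).eval (P.l8cT k ω') ∂P.μ)) ^ (2 * r) ∂P.μ
      ≤ c0 * ∫ ω, (∑ k ∈ range (P.n + 1), P.dv k * w k ^ 2 * (2 * (p k).derivative.eval (P.l8cT k ω)) ^ 2 * P.W k ω) ^ r ∂P.μ := by
  have := hp w (fun k => (p k).comp (Polynomial.C 2 * Polynomial.X - Polynomial.C (P.S k)))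
  simp only [Polynomial.eval_comp, Polynomial.derivative_comp, Polynomial.eval_sub, Polynomial.eval_mul, Polynomial.eval_C,
    Polynomial.eval_X, Polynomial.derivative_sub, Polynomial.derivative_mul, Polynomial.derivative_C, Polynomial.derivative_X,
    zero_mul, mul_one, zero_add, sub_zero] at this
  simpa only [L8P.l8cT] using this

theorem l8c_center_pt (h : P.Ok) {k : ℕ} (hk : k ≤ P.n + 1) {j : ℕ} {c e : ℝ} {p : Polynomial ℝ} (hp : L8cPoly j c e p) (he0 : 0 ≤ e)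
    {T : ℝ} (hT : 1 ≤ T) (ω : Ω) :
    (p.derivative.eval (P.l8cT k ω)) ^ 2 * P.W k ω
      ≤ (c * j ^ 2) ^ 2 * (T ^ (2 * (j - 1)) * (e ^ (2 * (j - 1)) * P.W k ω)
          + 4 ^ (2 * (j - 1)) * (4 * P.a) * Set.indicator {ω | T * e < |P.l8cT k ω|} (fun _ => (1 : ℝ)) ω) := by
  have hW0 := P.l8s_W_nonneg h k ω
  have hW4 := P.l8s_W_le h hk ω
  have hc := l8c_poly_c_nonneg hp
  have ha := h.a_pos.le
  have hcj : 0 ≤ c * (j : ℝ) ^ 2 := by positivity
  by_cases hb : T * e < |P.l8cT k ω|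
  · have he4 : e ≤ 4 := by
      have := P.l8c_T_abs_le h k ω
      nlinarith
    have h1 := l8c_poly_deriv_le hp he0 he4 (P.l8c_T_abs_le h k ω)
    have h2 : (p.derivative.eval (P.l8cT k ω)) ^ 2 ≤ (c * j ^ 2 * 4 ^ (j - 1)) ^ 2 := by
      rw [← sq_abs]; exact pow_le_pow_left₀ (abs_nonneg _) h1 2
    have hi : Set.indicator {ω | T * e < |P.l8cT k ω|} (fun _ => (1 : ℝ)) ω = 1 := Set.indicator_of_mem (by exact hb) _
    rw [hi]
    have h3 : (p.derivative.eval (P.l8cT k ω)) ^ 2 * P.W k ω ≤ (c * j ^ 2 * 4 ^ (j - 1)) ^ 2 * (4 * P.a) :=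
      mul_le_mul h2 hW4 hW0 (by positivity)
    have h4 : 0 ≤ (c * (j : ℝ) ^ 2) ^ 2 * (T ^ (2 * (j - 1)) * (e ^ (2 * (j - 1)) * P.W k ω)) := by positivity
    calc _ ≤ (c * j ^ 2 * 4 ^ (j - 1)) ^ 2 * (4 * P.a) := h3
      _ = (c * (j : ℝ) ^ 2) ^ 2 * (4 ^ (2 * (j - 1)) * (4 * P.a) * 1) := by rw [mul_pow, pow_mul' (4 : ℝ) 2 (j - 1)]; ring
      _ ≤ _ := by rw [mul_add]; linarith
  · have hb' : |P.l8cT k ω| ≤ T * e := not_lt.1 hb
    have h1 := l8c_poly_deriv_le hp he0 (by nlinarith : e ≤ T * e) hb'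
    have h2 : (p.derivative.eval (P.l8cT k ω)) ^ 2 ≤ (c * j ^ 2 * (T * e) ^ (j - 1)) ^ 2 := by
      rw [← sq_abs]; exact pow_le_pow_left₀ (abs_nonneg _) h1 2
    have hi : Set.indicator {ω | T * e < |P.l8cT k ω|} (fun _ => (1 : ℝ)) ω = 0 := Set.indicator_of_notMem (by exact hb) _
    rw [hi]
    calc _ ≤ (c * j ^ 2 * (T * e) ^ (j - 1)) ^ 2 * P.W k ω := mul_le_mul_of_nonneg_right h2 hW0
      _ = _ := by rw [mul_pow, mul_pow T e, mul_pow, pow_mul' T 2 (j - 1), pow_mul' e 2 (j - 1)]; ring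

theorem l8c_bad_meas (h : P.Ok) (k : ℕ) (s : ℝ) : MeasurableSet {ω | s < |P.l8cT k ω|} :=
  measurableSet_lt measurable_const (P.l8c_T_bd h k).1.abs

theorem l8c_W_int (h : P.Ok) (k : ℕ) : Integrable (P.W k) P.μ := by
  have := h.prob
  obtain ⟨hm, c, hc⟩ := P.l8s_W_bd h k
  exact Integrable.of_bound hm.aestronglyMeasurable c (Filter.Eventually.of_forall hc)

/-- TEX[LL:lem:statistics-centered] (A2) + truncation on `|2L - S| ≤ T e`; off the event: `|2L - S| ≤ 4`, "`W` is bounded" -/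
theorem l8c_center (h : P.Ok) {c0 : ℝ} (hc0 : 0 ≤ c0) (hp : P.Pin 1 c0) {K : Finset ℕ} (hK : K ⊆ range (P.n + 1)) {j : ℕ} {c : ℝ}
    {e : ℕ → ℝ} (he0 : ∀ k ∈ K, 0 ≤ e k) {p : ℕ → Polynomial ℝ} (hpk : ∀ k ∈ K, L8cPoly j c (e k) (p k))
    {T : ℝ} (hT : 1 ≤ T) :
    ∫ ω, P.l8cI K p ω ^ 2 ∂P.μ
      ≤ 4 * c0 * (c * j ^ 2) ^ 2 * (T ^ (2 * (j - 1)) * ∑ k ∈ K, P.dv k * e k ^ (2 * (j - 1)) * ∫ ω, P.W k ω ∂P.μ
          + 4 ^ (2 * (j - 1)) * (4 * P.a) * ∑ k ∈ K, P.dv k * P.μ.real {ω | T * e k < |P.l8cT k ω|}) := by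
  classical
  have := h.prob
  have h1 := P.l8c_pin_shift hp (fun k => if k ∈ K then 1 else 0) p
  have e1 : ∀ ω, ∑ k ∈ range (P.n + 1), P.dv k * (if k ∈ K then (1 : ℝ) else 0) *
        ((p k).eval (P.l8cT k ω) - ∫ ω', (p k).eval (P.l8cT k ω') ∂P.μ) = P.l8cI K p ω := by
    intro ω
    unfold L8P.l8cI
    rw [← Finset.sum_subset hK (fun k _ hk => by simp [hk])]
    exact Finset.sum_congr rfl fun k hk => by simp [hk]
  have e2 : ∀ ω, ∑ k ∈ range (P.n + 1), P.dv k * (if k ∈ K then (1 : ℝ) else 0) ^ 2 * (2 * (p k).derivative.eval (P.l8cT k ω)) ^ 2 * P.W k ω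
      = ∑ k ∈ K, P.dv k * (4 * ((p k).derivative.eval (P.l8cT k ω) ^ 2 * P.W k ω)) := by
    intro ω
    rw [← Finset.sum_subset hK (fun k _ hk => by simp [hk])]
    exact Finset.sum_congr rfl fun k hk => by simp [hk]; ring
  simp only [e1, e2, mul_one, pow_one] at h1
  refine h1.trans ?_
  have hint : ∀ k ∈ K, Integrable (fun ω => P.dv k * (4 * ((c * j ^ 2) ^ 2 * (T ^ (2 * (j - 1)) * (e k ^ (2 * (j - 1)) * P.W k ω)
          + 4 ^ (2 * (j - 1)) * (4 * P.a) * Set.indicator {ω | T * e k < |P.l8cT k ω|} (fun _ => (1 : ℝ)) ω)))) P.μ := by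
    intro k _
    refine Integrable.const_mul (Integrable.const_mul (Integrable.const_mul (Integrable.add ?_ ?_) _) _) _
    · exact ((P.l8c_W_int h k).const_mul _).const_mul _
    · exact ((integrable_const (1 : ℝ)).indicator (P.l8c_bad_meas h k _)).const_mul _
  have h2 : ∫ ω, ∑ k ∈ K, P.dv k * (4 * ((p k).derivative.eval (P.l8cT k ω) ^ 2 * P.W k ω)) ∂P.μ
      ≤ ∫ ω, ∑ k ∈ K, P.dv k * (4 * ((c * j ^ 2) ^ 2 * (T ^ (2 * (j - 1)) * (e k ^ (2 * (j - 1)) * P.W k ω)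
          + 4 ^ (2 * (j - 1)) * (4 * P.a) * Set.indicator {ω | T * e k < |P.l8cT k ω|} (fun _ => (1 : ℝ)) ω))) ∂P.μ := by
    refine integral_mono_of_nonneg (Filter.Eventually.of_forall fun ω => ?_) (integrable_finsetSum _ hint)
      (Filter.Eventually.of_forall fun ω => ?_)
    · exact Finset.sum_nonneg fun k _ => mul_nonneg (P.l8c_dv_nonneg h k)
        (mul_nonneg (by norm_num) (mul_nonneg (sq_nonneg _) (P.l8s_W_nonneg h k ω)))
    · refine Finset.sum_le_sum fun k hk => mul_le_mul_of_nonneg_left (mul_le_mul_of_nonneg_left ?_ (by norm_num)) (P.l8c_dv_nonneg h k)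
      exact P.l8c_center_pt h (by have := Finset.mem_range.1 (hK hk); omega) (hpk k hk) (he0 k hk) hT ω
  have h3 : ∫ ω, ∑ k ∈ K, P.dv k * (4 * ((c * j ^ 2) ^ 2 * (T ^ (2 * (j - 1)) * (e k ^ (2 * (j - 1)) * P.W k ω)
          + 4 ^ (2 * (j - 1)) * (4 * P.a) * Set.indicator {ω | T * e k < |P.l8cT k ω|} (fun _ => (1 : ℝ)) ω))) ∂P.μ
      = 4 * (c * j ^ 2) ^ 2 * (T ^ (2 * (j - 1)) * ∑ k ∈ K, P.dv k * e k ^ (2 * (j - 1)) * ∫ ω, P.W k ω ∂P.μ
          + 4 ^ (2 * (j - 1)) * (4 * P.a) * ∑ k ∈ K, P.dv k * P.μ.real {ω | T * e k < |P.l8cT k ω|}) := by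
    rw [integral_finsetSum _ hint, Finset.mul_sum, Finset.mul_sum, ← Finset.sum_add_distrib, Finset.mul_sum]
    refine Finset.sum_congr rfl fun k _ => ?_
    rw [integral_const_mul, integral_const_mul, integral_const_mul, integral_add, integral_const_mul, integral_const_mul,
      integral_const_mul, integral_indicator (P.l8c_bad_meas h k _)]
    · simp only [integral_const, smul_eq_mul, mul_one, Measure.real, Measure.restrict_apply MeasurableSet.univ, Set.univ_inter]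
      ring
    · exact ((P.l8c_W_int h k).const_mul _).const_mul _
    · exact ((integrable_const (1 : ℝ)).indicator (P.l8c_bad_meas h k _)).const_mul _
  calc c0 * _ ≤ c0 * _ := mul_le_mul_of_nonneg_left (h2.trans_eq h3) hc0
    _ = _ := by ring

/-- TEX[LL:lem:statistics-centered] **(D10)**, abstract: `A` = (D7a) with `k = j - 1` (times `r`), `M` = (D2) at the moment order `2 q` -/
theorem l8c_D10 (h : P.Ok) {c0 : ℝ} (hc0 : 0 ≤ c0) (hp : P.Pin 1 c0) {K : Finset ℕ} (hK : K ⊆ range (P.n + 1)) {j : ℕ} {c : ℝ}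
    {e : ℕ → ℝ} (he0 : ∀ k ∈ K, 0 < e k) {p : ℕ → Polynomial ℝ} (hpk : ∀ k ∈ K, L8cPoly j c (e k) (p k))
    {T M A : ℝ} (hT : 1 ≤ T) (q : ℕ) (hW : ∑ k ∈ K, P.dv k * e k ^ (2 * (j - 1)) * ∫ ω, P.W k ω ∂P.μ ≤ A)
    (hM : ∀ k ∈ K, ∫ ω, P.l8cT k ω ^ (2 * q) ∂P.μ ≤ (M * e k) ^ (2 * q)) :
    ∫ ω, P.l8cI K p ω ^ 2 ∂P.μ
      ≤ 4 * c0 * (c * j ^ 2) ^ 2 * (T ^ (2 * (j - 1)) * A + 4 ^ (2 * (j - 1)) * (4 * P.a) * ((M / T) ^ (2 * q) * ∑ k ∈ K, P.dv k)) := by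
  have := h.prob
  have hT0 : 0 < T := by linarith
  refine (P.l8c_center h hc0 hp hK (fun k hk => (he0 k hk).le) hpk hT).trans ?_
  have ha := h.a_pos.le
  refine mul_le_mul_of_nonneg_left (add_le_add (mul_le_mul_of_nonneg_left hW (by positivity))
    (mul_le_mul_of_nonneg_left ?_ (by positivity))) (by positivity)
  rw [Finset.mul_sum]
  refine Finset.sum_le_sum fun k hk => ?_
  rw [mul_comm]
  refine mul_le_mul_of_nonneg_right ?_ (P.l8c_dv_nonneg h k)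
  have h1 := l8c_markov P.μ (P.l8c_T_bd h k).1 (P.l8c_T_bd h k).2 q (mul_pos hT0 (he0 k hk)) (hM k hk)
  rwa [mul_div_mul_right _ _ (he0 k hk).ne'] at h1

/-- deterministic bound of the centered integral ("the path observables are bounded") -/
theorem l8c_I_abs_le (h : P.Ok) {K : Finset ℕ} {j : ℕ} {c : ℝ} {e : ℕ → ℝ} (he0 : ∀ k ∈ K, 0 ≤ e k) (he4 : ∀ k ∈ K, e k ≤ 4)
    {p : ℕ → Polynomial ℝ} (hpk : ∀ k ∈ K, L8cPoly j c (e k) (p k)) (ω : Ω) :
    |P.l8cI K p ω| ≤ 2 * (c * (j + 1) * 4 ^ j) * ∑ k ∈ K, P.dv k := by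
  have := h.prob
  unfold L8P.l8cI
  rw [Finset.mul_sum]
  refine (Finset.abs_sum_le_sum_abs _ _).trans (Finset.sum_le_sum fun k hk => ?_)
  have hb : ∀ ω, |(p k).eval (P.l8cT k ω)| ≤ c * (j + 1) * 4 ^ j := fun ω =>
    l8c_poly_eval_le (hpk k hk) (he0 k hk) (he4 k hk) (P.l8c_T_abs_le h k ω)
  have h2 : |∫ ω', (p k).eval (P.l8cT k ω') ∂P.μ| ≤ c * (j + 1) * 4 ^ j := by
    have h3 : ‖∫ ω', (p k).eval (P.l8cT k ω') ∂P.μ‖ ≤ (c * (j + 1) * 4 ^ j) * P.μ.real Set.univ :=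
      norm_integral_le_of_norm_le_const (Filter.Eventually.of_forall fun ω => by rw [Real.norm_eq_abs]; exact hb ω)
    simpa using h3
  rw [abs_mul, abs_of_nonneg (P.l8c_dv_nonneg h k), mul_comm]
  refine mul_le_mul_of_nonneg_right ?_ (P.l8c_dv_nonneg h k)
  have := abs_sub ((p k).eval (P.l8cT k ω)) (∫ ω', (p k).eval (P.l8cT k ω') ∂P.μ)
  linarith [hb ω]

/-- the same for an envelope `e ≤ b`, `4 ≤ b` -/
theorem l8c_I_abs_le_gen (h : P.Ok) {K : Finset ℕ} {j : ℕ} {c b : ℝ} {e : ℕ → ℝ} (he0 : ∀ k ∈ K, 0 ≤ e k) (heb : ∀ k ∈ K, e k ≤ b) (hb4 : 4 ≤ b)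
    {p : ℕ → Polynomial ℝ} (hpk : ∀ k ∈ K, L8cPoly j c (e k) (p k)) (ω : Ω) :
    |P.l8cI K p ω| ≤ 2 * (c * (j + 1) * b ^ j) * ∑ k ∈ K, P.dv k := by
  have := h.prob
  unfold L8P.l8cI
  rw [Finset.mul_sum]
  refine (Finset.abs_sum_le_sum_abs _ _).trans (Finset.sum_le_sum fun k hk => ?_)
  have hb : ∀ ω, |(p k).eval (P.l8cT k ω)| ≤ c * (j + 1) * b ^ j := fun ω =>
    l8c_poly_eval_le (hpk k hk) (he0 k hk) (heb k hk) ((P.l8c_T_abs_le h k ω).trans hb4)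
  have h2 : |∫ ω', (p k).eval (P.l8cT k ω') ∂P.μ| ≤ c * (j + 1) * b ^ j := by
    have h3 : ‖∫ ω', (p k).eval (P.l8cT k ω') ∂P.μ‖ ≤ (c * (j + 1) * b ^ j) * P.μ.real Set.univ :=
      norm_integral_le_of_norm_le_const (Filter.Eventually.of_forall fun ω => by rw [Real.norm_eq_abs]; exact hb ω)
    simpa using h3
  rw [abs_mul, abs_of_nonneg (P.l8c_dv_nonneg h k), mul_comm]
  refine mul_le_mul_of_nonneg_right ?_ (P.l8c_dv_nonneg h k)
  have := abs_sub ((p k).eval (P.l8cT k ω)) (∫ ω', (p k).eval (P.l8cT k ω') ∂P.μ)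
  linarith [hb ω]

theorem l8c_peval_meas (h : P.Ok) (k : ℕ) (p : Polynomial ℝ) : Measurable fun ω => p.eval (P.l8cT k ω) :=
  p.continuous.measurable.comp (P.l8c_T_bd h k).1

theorem l8c_I_meas (h : P.Ok) (K : Finset ℕ) (p : ℕ → Polynomial ℝ) : Measurable (P.l8cI K p) := by
  unfold L8P.l8cI
  exact Finset.measurable_sum _ fun k _ => ((P.l8c_peval_meas h k (p k)).sub_const _).const_mul _

/-- TEX[LL:lem:statistics-centered] "At `x ≤ v ≤ C Y` a centered LINEAR integral of `2 L_v - S_v` with bounded coefficients costs `O(E_0)`,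
by (D9) and (A1)": the right side is `4 c0 ∫ E W dv` -/
theorem l8c_linear (h : P.Ok) {c0 : ℝ} (hc0 : 0 ≤ c0) (hp : P.Pin 1 c0) {K : Finset ℕ} (hK : K ⊆ range (P.n + 1)) (κ : ℕ → ℝ)
    (hκ : ∀ k ∈ K, |κ k| ≤ 1) :
    ∫ ω, (∑ k ∈ K, P.dv k * κ k * P.l8cT k ω) ^ 2 ∂P.μ ≤ 4 * c0 * ∑ k ∈ K, P.dv k * ∫ ω, P.W k ω ∂P.μ := by
  classical
  have := h.prob
  have h1 := P.l8c_pin_shift hp (fun k => if k ∈ K then κ k else 0) (fun _ => Polynomial.X)
  have e1 : ∀ ω, ∑ k ∈ range (P.n + 1), P.dv k * (if k ∈ K then κ k else 0) *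
        ((Polynomial.X : Polynomial ℝ).eval (P.l8cT k ω) - ∫ ω', (Polynomial.X : Polynomial ℝ).eval (P.l8cT k ω') ∂P.μ)
      = ∑ k ∈ K, P.dv k * κ k * P.l8cT k ω := by
    intro ω
    rw [← Finset.sum_subset hK (fun k _ hk => by simp [hk])]
    exact Finset.sum_congr rfl fun k hk => by simp [hk, P.l8c_T_mean h k]
  have e2 : ∀ ω, ∑ k ∈ range (P.n + 1), P.dv k * (if k ∈ K then κ k else 0) ^ 2 *
        (2 * (Polynomial.X : Polynomial ℝ).derivative.eval (P.l8cT k ω)) ^ 2 * P.W k ω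
      = ∑ k ∈ K, P.dv k * κ k ^ 2 * 4 * P.W k ω := by
    intro ω
    rw [← Finset.sum_subset hK (fun k _ hk => by simp [hk])]
    exact Finset.sum_congr rfl fun k hk => by simp [hk]; norm_num
  simp only [e1, e2, mul_one, pow_one] at h1
  refine h1.trans ?_
  have hWi : ∀ k, Integrable (P.W k) P.μ := fun k => by
    obtain ⟨hm, c, hc⟩ := P.l8s_W_bd h k
    exact Integrable.of_bound hm.aestronglyMeasurable c (Filter.Eventually.of_forall hc)
  rw [integral_finsetSum _ fun k _ => (hWi k).const_mul _, mul_assoc 4 c0, mul_comm 4, mul_assoc c0]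
  refine mul_le_mul_of_nonneg_left ?_ hc0
  rw [Finset.sum_mul]
  refine Finset.sum_le_sum fun k hk => ?_
  rw [integral_const_mul]
  have hk2 : κ k ^ 2 ≤ 1 := by rw [← sq_abs]; exact pow_le_one₀ (abs_nonneg _) (hκ k hk)
  have hW0 : 0 ≤ ∫ ω, P.W k ω ∂P.μ := integral_nonneg fun ω => P.l8s_W_nonneg h k ω
  have hd := P.l8c_dv_nonneg h k
  have : P.dv k * κ k ^ 2 ≤ P.dv k := by nlinarith
  nlinarith [mul_le_mul_of_nonneg_right this hW0]

end B

/-! ## C. Aliases and projected endpoints -/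
section C

/-- TEX[LL:par:aliases] the centered value of a version, as a function on the fork space (first branch, second branch) -/
noncomputable def l8cV (k : ℕ) : L8cVer → Ω × Ω → ℝ
  | .pair k₁ k₂ => fun p => P.QX k₁ k₂ p - P.S k
  | .anc => fun p => P.nX k p.1 - P.S k
  | .path => fun p => P.l8cT k p.1

/-- the terminal overlap is the version `pair (n+1) (n+1)` -/
theorem l8c_ver_term (h : P.Ok) (k : ℕ) (p : Ω × Ω) : P.l8cV k (.pair (P.n + 1) (P.n + 1)) p = P.Q p - P.S k := by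
  simp only [l8cV, QX, Q, P.l8s_X_term h (Nat.lt_succ_self P.n)]

theorem l8c_ver_meas (h : P.Ok) (k : ℕ) (a : L8cVer) : Measurable (P.l8cV k a) := by
  have hX : ∀ k i, Measurable (P.X k i) := fun k i => (P.l8s_X_bd h k i).1
  cases a with
  | pair k₁ k₂ =>
    unfold l8cV QX
    exact (Finset.measurable_sum _ fun i _ =>
      ((hX k₁ i).comp measurable_fst).mul ((hX k₂ i).comp measurable_snd)).sub_const _
  | anc => exact ((P.l8s_W_bd_nX h k).1.comp measurable_fst).sub_const _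
  | path => exact (P.l8c_T_bd h k).1.comp measurable_fst
theorem l8c_ver_abs_le_aux (h : P.Ok) (k₁ k₂ : ℕ) (p : Ω × Ω) : |P.QX k₁ k₂ p| ≤ 1 := by
  rw [← sq_le_one_iff_abs_le_one]
  unfold QX
  calc (∑ i, P.X k₁ i p.1 * P.X k₂ i p.2) ^ 2 ≤ (∑ i, P.X k₁ i p.1 ^ 2) * ∑ i, P.X k₂ i p.2 ^ 2 :=
        Finset.sum_mul_sq_le_sq_mul_sq _ _ _
    _ ≤ 1 * 1 := mul_le_mul (P.l8s_nX_le_one h k₁ p.1) (P.l8s_nX_le_one h k₂ p.2)
        (Finset.sum_nonneg fun _ _ => sq_nonneg _) zero_le_one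
    _ = 1 := one_mul 1

theorem l8c_ver_abs_le (h : P.Ok) (k : ℕ) (a : L8cVer) (p : Ω × Ω) : |P.l8cV k a p| ≤ 4 := by
  have hS0 := P.l8s_S_nonneg k
  have hS1 := P.l8s_S_le_one h k
  cases a with
  | pair k₁ k₂ =>
    have := abs_le.1 (P.l8c_ver_abs_le_aux h k₁ k₂ p)
    simp only [l8cV]
    rw [abs_le]
    constructor <;> linarith [this.1, this.2]
  | anc =>
    have h1 := P.l8s_nX_le_one h k p.1
    have h0 : 0 ≤ P.nX k p.1 := Finset.sum_nonneg fun _ _ => sq_nonneg _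
    simp only [l8cV]
    rw [abs_le]
    constructor <;> linarith
  | path =>
    have := abs_le.1 (P.l8s_L_abs_le h k p.1)
    simp only [l8cV, l8cT]
    rw [abs_le]
    constructor <;> linarith [this.1, this.2]

/-- conditional expectation on the two separate branches, tested against products -/
theorem l8c_fork_cond_prod (h : P.Ok) {k k₁ k₂ : ℕ} (h1 : k ≤ k₁) (h2 : k ≤ k₂) {a b f g : Ω → ℝ} (ha : Measurable[P.ℱ k₁] a)
    (hab : L8Bd a) (hb : Measurable[P.ℱ k₂] b) (hbb : L8Bd b) (hf : L8Bd f) (hg : L8Bd g) :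
    ∫ p, a p.1 * b p.2 * (f p.1 * g p.2) ∂(P.fork k) = ∫ p, a p.1 * b p.2 * (P.E k₁ f p.1 * P.E k₂ g p.2) ∂(P.fork k) := by
  have hF : L8Bd (fun ω => a ω * f ω) := hab.mul hf
  have hG : L8Bd (fun ω => b ω * g ω) := hbb.mul hg
  have hF' : L8Bd (fun ω => a ω * P.E k₁ f ω) := hab.mul (P.l8s_E_bd h k₁ hf)
  have hG' : L8Bd (fun ω => b ω * P.E k₂ g ω) := hbb.mul (P.l8s_E_bd h k₂ hg)
  have e1 : ∀ p : Ω × Ω, a p.1 * b p.2 * (f p.1 * g p.2) = (a p.1 * f p.1) * (b p.2 * g p.2) := fun p => by ring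
  have e2 : ∀ p : Ω × Ω, a p.1 * b p.2 * (P.E k₁ f p.1 * P.E k₂ g p.2)
      = (a p.1 * P.E k₁ f p.1) * (b p.2 * P.E k₂ g p.2) := fun p => by ring
  simp only [e1, e2]
  rw [P.l8s_fork_prod h k hF hG, P.l8s_fork_prod h k hF' hG']
  have t1 : ∀ ω, P.E k (fun ω => a ω * f ω) ω = P.E k (fun ω => a ω * P.E k₁ f ω) ω := fun ω => by
    rw [← P.l8s_E_tower h h1 hF]
    exact P.l8s_E_congr k (fun ω' => P.l8s_E_pull h k₁ ha ω') ω
  have t2 : ∀ ω, P.E k (fun ω => b ω * g ω) ω = P.E k (fun ω => b ω * P.E k₂ g ω) ω := fun ω => by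
    rw [← P.l8s_E_tower h h2 hG]
    exact P.l8s_E_congr k (fun ω' => P.l8s_E_pull h k₂ hb ω') ω
  simp only [t1, t2]

theorem _root_.Claimed.Agent.R286.l8c_bd_fst {f : Ω → ℝ} (hf : L8Bd f) : L8Bd (fun p : Ω × Ω => f p.1) :=
  ⟨hf.1.comp measurable_fst, hf.2.choose, fun p => hf.2.choose_spec p.1⟩

theorem _root_.Claimed.Agent.R286.l8c_bd_snd {f : Ω → ℝ} (hf : L8Bd f) : L8Bd (fun p : Ω × Ω => f p.2) :=
  ⟨hf.1.comp measurable_snd, hf.2.choose, fun p => hf.2.choose_spec p.2⟩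

/-- contraction without the prefix term -/
theorem l8c_fork_contract_aux (h : P.Ok) {k k₁ k₂ : ℕ} (h1 : k ≤ k₁) (h2 : k ≤ k₂) {ι : Type} (s : Finset ι) (f g : ι → Ω → ℝ)
    (hf : ∀ i ∈ s, L8Bd (f i)) (hg : ∀ i ∈ s, L8Bd (g i)) :
    ∫ p, (∑ i ∈ s, P.E k₁ (f i) p.1 * P.E k₂ (g i) p.2) ^ 2 ∂(P.fork k)
      ≤ ∫ p, (∑ i ∈ s, f i p.1 * g i p.2) ^ 2 ∂(P.fork k) := by
  have := P.l8s_fork_prob h k
  have hU : L8Bd (fun p : Ω × Ω => ∑ i ∈ s, f i p.1 * g i p.2) :=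
    L8Bd.sum s fun i hi => (l8c_bd_fst (hf i hi)).mul (l8c_bd_snd (hg i hi))
  have hV : L8Bd (fun p : Ω × Ω => ∑ i ∈ s, P.E k₁ (f i) p.1 * P.E k₂ (g i) p.2) :=
    L8Bd.sum s fun i hi => (l8c_bd_fst (P.l8s_E_bd h k₁ (hf i hi))).mul (l8c_bd_snd (P.l8s_E_bd h k₂ (hg i hi)))
  have key : ∫ p, (∑ i ∈ s, P.E k₁ (f i) p.1 * P.E k₂ (g i) p.2) * (∑ i ∈ s, f i p.1 * g i p.2) ∂(P.fork k)
      = ∫ p, (∑ i ∈ s, P.E k₁ (f i) p.1 * P.E k₂ (g i) p.2) * (∑ i ∈ s, P.E k₁ (f i) p.1 * P.E k₂ (g i) p.2)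
          ∂(P.fork k) := by
    simp only [Finset.sum_mul_sum]
    rw [integral_finsetSum, integral_finsetSum]
    · refine Finset.sum_congr rfl fun j hj => ?_
      rw [integral_finsetSum, integral_finsetSum]
      · refine Finset.sum_congr rfl fun i hi => ?_
        exact P.l8c_fork_cond_prod h h1 h2 (P.l8s_E_sm h k₁ (hf j hj)).measurable (P.l8s_E_bd h k₁ (hf j hj))
          (P.l8s_E_sm h k₂ (hg j hj)).measurable (P.l8s_E_bd h k₂ (hg j hj)) (hf i hi) (hg i hi)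
      · exact fun i hi => (((l8c_bd_fst (P.l8s_E_bd h k₁ (hf j hj))).mul (l8c_bd_snd (P.l8s_E_bd h k₂ (hg j hj)))).mul
          ((l8c_bd_fst (P.l8s_E_bd h k₁ (hf i hi))).mul (l8c_bd_snd (P.l8s_E_bd h k₂ (hg i hi))))).integrable _
      · exact fun i hi => (((l8c_bd_fst (P.l8s_E_bd h k₁ (hf j hj))).mul (l8c_bd_snd (P.l8s_E_bd h k₂ (hg j hj)))).mul
          ((l8c_bd_fst (hf i hi)).mul (l8c_bd_snd (hg i hi)))).integrable _
    · exact fun j hj => (L8Bd.sum s fun i hi =>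
        ((l8c_bd_fst (P.l8s_E_bd h k₁ (hf j hj))).mul (l8c_bd_snd (P.l8s_E_bd h k₂ (hg j hj)))).mul
          ((l8c_bd_fst (P.l8s_E_bd h k₁ (hf i hi))).mul (l8c_bd_snd (P.l8s_E_bd h k₂ (hg i hi))))).integrable _
    · exact fun j hj => (L8Bd.sum s fun i hi =>
        ((l8c_bd_fst (P.l8s_E_bd h k₁ (hf j hj))).mul (l8c_bd_snd (P.l8s_E_bd h k₂ (hg j hj)))).mul
          ((l8c_bd_fst (hf i hi)).mul (l8c_bd_snd (hg i hi)))).integrable _
  have h0 : 0 ≤ ∫ p, ((∑ i ∈ s, f i p.1 * g i p.2) - ∑ i ∈ s, P.E k₁ (f i) p.1 * P.E k₂ (g i) p.2) ^ 2 ∂(P.fork k) :=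
    integral_nonneg fun _ => sq_nonneg _
  have e : ∀ p : Ω × Ω, ((∑ i ∈ s, f i p.1 * g i p.2) - ∑ i ∈ s, P.E k₁ (f i) p.1 * P.E k₂ (g i) p.2) ^ 2
      = (∑ i ∈ s, f i p.1 * g i p.2) ^ 2
        - 2 * ((∑ i ∈ s, P.E k₁ (f i) p.1 * P.E k₂ (g i) p.2) * (∑ i ∈ s, f i p.1 * g i p.2))
        + (∑ i ∈ s, P.E k₁ (f i) p.1 * P.E k₂ (g i) p.2) * (∑ i ∈ s, P.E k₁ (f i) p.1 * P.E k₂ (g i) p.2) :=
    fun p => by ring
  simp only [e] at h0
  rw [integral_add (((hU.pow 2).sub ((hV.mul hU).const_mul 2)).integrable _) ((hV.mul hV).integrable _),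
    integral_sub ((hU.pow 2).integrable _) (((hV.mul hU).const_mul 2).integrable _), integral_const_mul, key] at h0
  have e2 : ∀ p : Ω × Ω, (∑ i ∈ s, P.E k₁ (f i) p.1 * P.E k₂ (g i) p.2) ^ 2
      = (∑ i ∈ s, P.E k₁ (f i) p.1 * P.E k₂ (g i) p.2) * (∑ i ∈ s, P.E k₁ (f i) p.1 * P.E k₂ (g i) p.2) :=
    fun p => sq _
  simp only [e2]
  linarith

/-- TEX[LL:par:aliases] "Projecting either endpoint to a later cut is conditional expectation on an already separate branch, so conditional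
contraction only reduces these bounds" (`L²` form: orthogonality, from `l8c_fork_cond_prod`) -/
theorem l8c_fork_contract (h : P.Ok) {k k₁ k₂ : ℕ} (h1 : k ≤ k₁) (h2 : k ≤ k₂) {ι : Type} (s : Finset ι) (f g : ι → Ω → ℝ)
    (hf : ∀ i ∈ s, L8Bd (f i)) (hg : ∀ i ∈ s, L8Bd (g i)) {c : Ω → ℝ} (hc : Measurable[P.ℱ k] c) (hcb : L8Bd c) :
    ∫ p, (∑ i ∈ s, P.E k₁ (f i) p.1 * P.E k₂ (g i) p.2 - c p.1) ^ 2 ∂(P.fork k)
      ≤ ∫ p, (∑ i ∈ s, f i p.1 * g i p.2 - c p.1) ^ 2 ∂(P.fork k) := by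
  classical
  have hcm : Measurable[P.ℱ k₁] fun ω => - c ω := (hc.mono (P.ℱ.mono h1) le_rfl).neg
  have key := P.l8c_fork_contract_aux h h1 h2 (Finset.insertNone s)
    (fun o => o.elim (fun ω => - c ω) f) (fun o => o.elim (fun _ => 1) g)
    (fun o ho => by
      cases o with
      | none => exact hcb.neg
      | some i => exact hf i (Finset.some_mem_insertNone.1 ho))
    (fun o ho => by
      cases o with
      | none => exact l8Bd_const 1
      | some i => exact hg i (Finset.some_mem_insertNone.1 ho))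
  simp only [Finset.sum_insertNone, Option.elim_none, Option.elim_some] at key
  have e1 : ∀ p : Ω × Ω, P.E k₁ (fun ω => - c ω) p.1 * P.E k₂ (fun _ => 1) p.2
      + ∑ i ∈ s, P.E k₁ (f i) p.1 * P.E k₂ (g i) p.2 = ∑ i ∈ s, P.E k₁ (f i) p.1 * P.E k₂ (g i) p.2 - c p.1 := fun p => by
    rw [P.l8s_E_self h k₁ hcm, P.l8s_E_const h]
    ring
  have e2 : ∀ p : Ω × Ω, - c p.1 * 1 + ∑ i ∈ s, f i p.1 * g i p.2 = ∑ i ∈ s, f i p.1 * g i p.2 - c p.1 := fun p => by ring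
  simp only [e1, e2] at key
  exact key

/-- TEX[LL:par:aliases] projected pair against the ancestor value -/
theorem l8c_alias_proj (h : P.Ok) {k k₁ k₂ : ℕ} (h1 : k ≤ k₁) (h2 : k ≤ k₂) :
    ∫ p, (P.QX k₁ k₂ p - P.nX k p.1) ^ 2 ∂(P.fork k) ≤ 2 * ∫ ω, P.xCx k ω ∂P.μ + ∫ ω, P.trC2 k ω ∂P.μ := by
  have key := P.l8c_fork_contract h h1 h2 Finset.univ P.y P.y (fun i _ => P.l8s_y_bd h i) (fun i _ => P.l8s_y_bd h i)
    (P.l8s_nX_meas_aux h k) (P.l8s_nX_bd_aux h k)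
  rw [← P.l8s_fork_alias_Q h k]
  exact key

theorem l8c_xCx_nonneg (h : P.Ok) (k : ℕ) : 0 ≤ ∫ ω, P.xCx k ω ∂P.μ := by
  exact integral_nonneg fun ω => P.l8s_C_psd h k (fun i => P.X k i ω) ω
theorem l8c_trC2_nonneg (k : ℕ) : 0 ≤ ∫ ω, P.trC2 k ω ∂P.μ := by
  exact integral_nonneg fun ω => Finset.sum_nonneg fun _ _ => Finset.sum_nonneg fun _ _ => sq_nonneg _

theorem l8c_fork_fst_aux (h : P.Ok) (k : ℕ) {F : Ω → ℝ} (hF : Measurable F) :
    ∫ p, F p.1 ∂(P.fork k) = ∫ ω, F ω ∂P.μ := by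
  have e := P.l8s_fork_fst h k
  calc ∫ p, F p.1 ∂(P.fork k) = ∫ ω, F ω ∂((P.fork k).map Prod.fst) :=
        (integral_map measurable_fst.aemeasurable hF.aestronglyMeasurable).symm
    _ = ∫ ω, F ω ∂P.μ := by rw [e]

/-- every version against the ancestor value -/
theorem l8c_ver_dist_anc (h : P.Ok) {k : ℕ} {a : L8cVer} (ha : a.Valid k) :
    ∫ p, (P.l8cV k a p - P.l8cV k .anc p) ^ 2 ∂(P.fork k) ≤ 4 * ∫ ω, P.xCx k ω ∂P.μ + ∫ ω, P.trC2 k ω ∂P.μ := by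
  have hx := P.l8c_xCx_nonneg h k
  have ht := P.l8c_trC2_nonneg k
  cases a with
  | pair k₁ k₂ =>
    have e : ∀ p : Ω × Ω, (P.l8cV k (.pair k₁ k₂) p - P.l8cV k .anc p) ^ 2 = (P.QX k₁ k₂ p - P.nX k p.1) ^ 2 := fun p => by
      simp only [l8cV]; ring
    simp only [e]
    have := P.l8c_alias_proj h ha.1 ha.2
    linarith
  | anc =>
    simp only [sub_self, ne_eq, OfNat.ofNat_ne_zero, not_false_eq_true, zero_pow, integral_zero]
    linarith
  | path =>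
    have e : ∀ p : Ω × Ω, (P.l8cV k .path p - P.l8cV k .anc p) ^ 2 = (2 * P.L k p.1 - P.nX k p.1) ^ 2 := fun p => by
      simp only [l8cV, l8cT]; ring
    simp only [e]
    rw [P.l8c_fork_fst_aux h k (F := fun ω => (2 * P.L k ω - P.nX k ω) ^ 2)
      ((((P.l8s_L_bd h k).const_mul 2).sub (P.l8s_nX_bd_aux h k)).pow 2).1, P.l8s_alias_L h k]
    linarith

theorem l8c_ver_bd_aux (h : P.Ok) (k : ℕ) (a : L8cVer) : L8Bd (P.l8cV k a) :=
  ⟨P.l8c_ver_meas h k a, 4, P.l8c_ver_abs_le h k a⟩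

/-- TEX[LL:par:aliases] "The error replacing any such overlap by `|X_v|²`, or `|X_v|²` by `2 L_v` along a single path through the fork, has
squared `L²` norm bounded by `C E[XᵀC_vX + tr C_v²]`" -/
theorem l8c_ver_dist (h : P.Ok) {k : ℕ} {a b : L8cVer} (ha : a.Valid k) (hb : b.Valid k) :
    ∫ p, (P.l8cV k a p - P.l8cV k b p) ^ 2 ∂(P.fork k) ≤ 16 * (∫ ω, P.xCx k ω ∂P.μ + ∫ ω, P.trC2 k ω ∂P.μ) := by
  have := P.l8s_fork_prob h k
  have hx := P.l8c_xCx_nonneg h k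
  have ht := P.l8c_trC2_nonneg k
  have h1 := P.l8c_ver_dist_anc h ha
  have h2 := P.l8c_ver_dist_anc h hb
  have i1 := ((((P.l8c_ver_bd_aux h k a).sub (P.l8c_ver_bd_aux h k .anc)).pow 2).const_mul 2).integrable (P.fork k)
  have i2 := ((((P.l8c_ver_bd_aux h k b).sub (P.l8c_ver_bd_aux h k .anc)).pow 2).const_mul 2).integrable (P.fork k)
  have h3 : ∫ p, (P.l8cV k a p - P.l8cV k b p) ^ 2 ∂(P.fork k)
      ≤ ∫ p, (2 * (P.l8cV k a p - P.l8cV k .anc p) ^ 2 + 2 * (P.l8cV k b p - P.l8cV k .anc p) ^ 2) ∂(P.fork k) :=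
    integral_mono ((((P.l8c_ver_bd_aux h k a).sub (P.l8c_ver_bd_aux h k b)).pow 2).integrable _) (i1.add i2)
      fun p => by
        show (P.l8cV k a p - P.l8cV k b p) ^ 2
          ≤ 2 * (P.l8cV k a p - P.l8cV k .anc p) ^ 2 + 2 * (P.l8cV k b p - P.l8cV k .anc p) ^ 2
        nlinarith [sq_nonneg (P.l8cV k a p + P.l8cV k b p - 2 * P.l8cV k .anc p)]
  rw [integral_add i1 i2, integral_const_mul, integral_const_mul] at h3
  linarith

/-- TEX[LL:lem:statistics-centered] alias error of a polynomial at ONE fork -/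
theorem l8c_ver_poly (h : P.Ok) {k : ℕ} {a b : L8cVer} (ha : a.Valid k) (hb : b.Valid k) {j : ℕ} {c e : ℝ} {p : Polynomial ℝ}
    (hp : L8cPoly j c e p) (he0 : 0 ≤ e) (he4 : e ≤ 4) {T : ℝ} (hT : 1 ≤ T) :
    ∫ x, (p.eval (P.l8cV k a x) - p.eval (P.l8cV k b x)) ^ 2 ∂(P.fork k)
      ≤ (c * j ^ 2) ^ 2 * ((T * e) ^ (2 * (j - 1)) * (16 * (∫ ω, P.xCx k ω ∂P.μ + ∫ ω, P.trC2 k ω ∂P.μ))
          + 4 ^ (2 * (j - 1)) * 64 * ((P.fork k).real {x | T * e < |P.l8cV k a x|} + (P.fork k).real {x | T * e < |P.l8cV k b x|})) := by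
  have := P.l8s_fork_prob h k
  have h1 := l8c_poly_alias (P.fork k) (P.l8c_ver_meas h k a) (P.l8c_ver_meas h k b) (P.l8c_ver_abs_le h k a)
    (P.l8c_ver_abs_le h k b) hp he0 he4 hT
  have h2 := P.l8c_ver_dist h ha hb
  refine h1.trans ?_
  have hpw : 0 ≤ (T * e) ^ (2 * (j - 1)) := by rw [pow_mul]; positivity
  exact mul_le_mul_of_nonneg_left (add_le_add (mul_le_mul_of_nonneg_left h2 hpw) le_rfl) (sq_nonneg _)

/-- the arithmetic of one cut: square root of the alias bound -/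
theorem _root_.Claimed.Agent.R286.l8c_ver_band_aux {I cj t e2 a f4 r κ : ℝ} (hcj : 0 ≤ cj) (ht : 0 ≤ t) (he2 : 0 ≤ e2) (ha : 0 ≤ a)
    (hf4 : 0 ≤ f4) (hr : 0 ≤ r) (hκ : 0 ≤ κ) (hI : I ≤ cj ^ 2 * (t ^ 2 * e2 * (κ ^ 2 * a) + f4 ^ 2 * 64 * (r ^ 2 + r ^ 2))) :
    √I ≤ cj * (κ * t * √(e2 * a) + f4 * 12 * r) := by
  have hs0 : 0 ≤ √(e2 * a) := Real.sqrt_nonneg _
  have hs : √(e2 * a) ^ 2 = e2 * a := Real.sq_sqrt (mul_nonneg he2 ha)
  have hZ : 0 ≤ cj * (κ * t * √(e2 * a) + f4 * 12 * r) := by positivity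
  refine Real.sqrt_le_iff.2 ⟨hZ, hI.trans ?_⟩
  have e : (cj * (κ * t * √(e2 * a) + f4 * 12 * r)) ^ 2
      = cj ^ 2 * (κ ^ 2 * t ^ 2 * √(e2 * a) ^ 2 + 24 * (κ * t * √(e2 * a) * (f4 * r)) + 144 * (f4 * r) ^ 2) := by ring
  rw [e, hs]
  refine mul_le_mul_of_nonneg_left ?_ (sq_nonneg _)
  have h1 : 0 ≤ κ * t * √(e2 * a) * (f4 * r) := by positivity
  nlinarith [sq_nonneg (f4 * r)]

/-- TEX[LL:lem:statistics-centered] "The same truncation of the other factors at a fork, followed by Cauchy-Schwarz in `dv/r`, bounds its alias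
errors by the same expression" (closed form = S4(alias) of 228: for each cut its own two-leaf tree).
`A` = (D7b) times `r`, `E2 = ∫ e^(2(j-1)) dv` -/
theorem l8c_ver_band (h : P.Ok) {K : Finset ℕ} (a b : ℕ → L8cVer) (ha : ∀ k ∈ K, (a k).Valid k) (hb : ∀ k ∈ K, (b k).Valid k) {j : ℕ}
    {c : ℝ} {e : ℕ → ℝ} (he0 : ∀ k ∈ K, 0 < e k) (he4 : ∀ k ∈ K, e k ≤ 4) {p : ℕ → Polynomial ℝ}
    (hpk : ∀ k ∈ K, L8cPoly j c (e k) (p k)) (hc : 0 ≤ c) {T M A E2 : ℝ} (hT : 1 ≤ T) (hM0 : 0 ≤ M) (q : ℕ)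
    (hMa : ∀ k ∈ K, ∫ x, P.l8cV k (a k) x ^ (2 * q) ∂(P.fork k) ≤ (M * e k) ^ (2 * q))
    (hMb : ∀ k ∈ K, ∫ x, P.l8cV k (b k) x ^ (2 * q) ∂(P.fork k) ≤ (M * e k) ^ (2 * q))
    (hA : ∑ k ∈ K, P.dv k * (∫ ω, P.xCx k ω ∂P.μ + ∫ ω, P.trC2 k ω ∂P.μ) ≤ A) (hE : ∑ k ∈ K, P.dv k * e k ^ (2 * (j - 1)) ≤ E2) :
    ∑ k ∈ K, P.dv k * √(∫ x, ((p k).eval (P.l8cV k (a k) x) - (p k).eval (P.l8cV k (b k) x)) ^ 2 ∂(P.fork k))
      ≤ c * j ^ 2 * (4 * T ^ (j - 1) * (√E2 * √A) + 4 ^ (j - 1) * 12 * ((M / T) ^ q * ∑ k ∈ K, P.dv k)) := by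
  have hd : ∀ k, 0 ≤ P.dv k := P.l8c_dv_nonneg h
  have hT0 : 0 < T := lt_of_lt_of_le one_pos hT
  have hr : 0 ≤ (M / T) ^ q := pow_nonneg (div_nonneg hM0 hT0.le) _
  have hcj : 0 ≤ c * (j : ℝ) ^ 2 := by positivity
  have ha0 : ∀ k, 0 ≤ ∫ ω, P.xCx k ω ∂P.μ + ∫ ω, P.trC2 k ω ∂P.μ := fun k =>
    add_nonneg (P.l8c_xCx_nonneg h k) (P.l8c_trC2_nonneg k)
  have step : ∀ k ∈ K, √(∫ x, ((p k).eval (P.l8cV k (a k) x) - (p k).eval (P.l8cV k (b k) x)) ^ 2 ∂(P.fork k))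
      ≤ c * (j : ℝ) ^ 2 * (4 * T ^ (j - 1) * √(e k ^ (2 * (j - 1)) * (∫ ω, P.xCx k ω ∂P.μ + ∫ ω, P.trC2 k ω ∂P.μ))
          + 4 ^ (j - 1) * 12 * (M / T) ^ q) := by
    intro k hk
    have := P.l8s_fork_prob h k
    have hs : 0 < T * e k := mul_pos hT0 (he0 k hk)
    have hdiv : M * e k / (T * e k) = M / T := mul_div_mul_right _ _ (he0 k hk).ne'
    have ta := l8c_markov (P.fork k) (P.l8c_ver_meas h k (a k)) ⟨4, P.l8c_ver_abs_le h k (a k)⟩ q hs (hMa k hk)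
    have tb := l8c_markov (P.fork k) (P.l8c_ver_meas h k (b k)) ⟨4, P.l8c_ver_abs_le h k (b k)⟩ q hs (hMb k hk)
    rw [hdiv, pow_mul'] at ta tb
    have h1 := P.l8c_ver_poly h (ha k hk) (hb k hk) (hpk k hk) (he0 k hk).le (he4 k hk) hT
    refine l8c_ver_band_aux hcj (pow_nonneg hT0.le _) (by rw [pow_mul]; positivity) (ha0 k) (by positivity) hr
      (by norm_num : (0 : ℝ) ≤ 4) (h1.trans ?_)
    refine mul_le_mul_of_nonneg_left ?_ (sq_nonneg _)
    refine add_le_add (le_of_eq ?_) ?_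
    · rw [mul_pow, pow_mul' T]; ring
    · rw [pow_mul' (4 : ℝ)]
      exact mul_le_mul_of_nonneg_left (add_le_add ta tb) (by positivity)
  calc ∑ k ∈ K, P.dv k * √(∫ x, ((p k).eval (P.l8cV k (a k) x) - (p k).eval (P.l8cV k (b k) x)) ^ 2 ∂(P.fork k))
      ≤ ∑ k ∈ K, P.dv k * (c * (j : ℝ) ^ 2 * (4 * T ^ (j - 1) *
          √(e k ^ (2 * (j - 1)) * (∫ ω, P.xCx k ω ∂P.μ + ∫ ω, P.trC2 k ω ∂P.μ)) + 4 ^ (j - 1) * 12 * (M / T) ^ q)) :=
        Finset.sum_le_sum fun k hk => mul_le_mul_of_nonneg_left (step k hk) (hd k)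
    _ = c * (j : ℝ) ^ 2 * (4 * T ^ (j - 1) *
          (∑ k ∈ K, P.dv k * √(e k ^ (2 * (j - 1)) * (∫ ω, P.xCx k ω ∂P.μ + ∫ ω, P.trC2 k ω ∂P.μ)))
          + 4 ^ (j - 1) * 12 * ((M / T) ^ q * ∑ k ∈ K, P.dv k)) := by
        simp only [Finset.mul_sum, mul_add, Finset.sum_add_distrib]
        congr 1 <;> exact Finset.sum_congr rfl fun k _ => by ring
    _ ≤ _ := by
        refine mul_le_mul_of_nonneg_left (add_le_add (mul_le_mul_of_nonneg_left ?_ (by positivity)) le_rfl) hcj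
        refine (l8c_cs_sum K P.dv _ _ (fun k _ => hd k) (fun k _ => by rw [pow_mul]; positivity) fun k _ => ha0 k).trans ?_
        exact mul_le_mul (Real.sqrt_le_sqrt hE) (Real.sqrt_le_sqrt hA) (Real.sqrt_nonneg _) (Real.sqrt_nonneg _)

/-- (integrable in the first branch) × (bounded) is integrable under the fork law -/
theorem l8c_ver_linear_int (h : P.Ok) (k : ℕ) {R : Ω → ℝ} (hRm : Measurable R) (hRi : Integrable R P.μ) {F : Ω × Ω → ℝ}
    (hF : L8Bd F) : Integrable (fun p : Ω × Ω => R p.1 * F p) (P.fork k) := by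
  obtain ⟨hFm, C, hC⟩ := hF
  have h1 : Integrable (fun p : Ω × Ω => R p.1) (P.fork k) := by
    have h2 : Integrable R ((P.fork k).map Prod.fst) := by rw [P.l8s_fork_fst h k]; exact hRi
    exact (integrable_map_measure hRm.aestronglyMeasurable measurable_fst.aemeasurable).mp h2
  refine (h1.abs.const_mul C).mono' ((hRm.comp measurable_fst).mul hFm).aestronglyMeasurable (ae_of_all _ fun p => ?_)
  rw [Real.norm_eq_abs, abs_mul, mul_comm]
  exact mul_le_mul_of_nonneg_right (hC p) (abs_nonneg _)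

/-- disintegration of the fork law against an integrable multiplier of the first branch -/
theorem l8c_ver_linear_dis (h : P.Ok) (k : ℕ) {R : Ω → ℝ} (hRm : Measurable R) (hRi : Integrable R P.μ) {F : Ω × Ω → ℝ}
    (hF : L8Bd F) : ∫ p, R p.1 * F p ∂(P.fork k) = ∫ ω, R ω * ∫ ω', F (ω, ω') ∂(P.κ k ω) ∂P.μ := by
  have := h.prob
  have := h.markov k
  have hint := P.l8c_ver_linear_int h k hRm hRi hF
  unfold L8P.fork at hint ⊢
  rw [Measure.integral_compProd hint]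
  refine integral_congr_ae (ae_of_all _ fun ω => ?_)
  simp only
  rw [integral_const_mul]

/-- duality against an INTEGRABLE prefix-measurable multiplier -/
theorem l8c_ver_linear_dual (h : P.Ok) (k : ℕ) {R : Ω → ℝ} (hR : Measurable[P.ℱ k] R) (hRi : Integrable R P.μ) {f : Ω → ℝ}
    (hf : L8Bd f) : ∫ ω, R ω * f ω ∂P.μ = ∫ ω, R ω * P.E k f ω ∂P.μ := by
  have hRm : Measurable R := hR.mono (P.ℱ.le k) le_rfl
  have hF : L8Bd (fun p : Ω × Ω => f p.2) := ⟨hf.1.comp measurable_snd, hf.2.choose, fun p => hf.2.choose_spec p.2⟩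
  have h1 := P.l8c_ver_linear_dis h k hRm hRi hF
  have h2 : ∫ p, R p.1 * f p.2 ∂(P.fork k) = ∫ p, (fun ω => R ω * f ω) p.2 ∂(P.fork k) := by
    refine integral_congr_ae ?_
    filter_upwards [P.l8s_fork_prefix h k hR] with p hp
    simp only [hp]
  have h3 := integral_map (μ := P.fork k) (φ := Prod.snd) measurable_snd.aemeasurable (f := fun ω => R ω * f ω)
    (hRm.mul hf.1).aestronglyMeasurable
  rw [P.l8s_fork_snd h k] at h3
  rw [h3, ← h2, h1]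
  rfl

/-- `|X_k|² - S_k` against `2 L_k - S_k` -/
theorem l8c_ver_linear_anc (h : P.Ok) (k : ℕ) {R : Ω → ℝ} (hR : Measurable[P.ℱ k] R) (hRi : Integrable R P.μ) :
    ∫ ω, R ω * (P.nX k ω - P.S k) ∂P.μ = ∫ ω, R ω * P.l8cT k ω ∂P.μ := by
  rw [P.l8c_ver_linear_dual h k hR hRi (P.l8c_T_bd h k)]
  refine integral_congr_ae (ae_of_all _ fun ω => ?_)
  simp only
  congr 1
  have e : P.l8cT k = fun ω' => 2 * P.L k ω' - P.S k := rfl
  rw [e, P.l8s_E_sub h k ((P.l8s_L_bd h k).const_mul 2) (l8Bd_const _), P.l8s_E_const_mul, P.l8s_E_const h,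
    P.l8s_E_L_future h le_rfl, P.l8s_E_self h k (P.l8s_nX_meas_aux h k)]

/-- TEX[LL:lem:statistics-centered] "When there are no other random factors in the expectation of that linear term, no alias error is required even
with an initial density tilt: conditional averaging reduces the overlap to `|X_v|²` and then `2 L_v` exactly" -/
theorem l8c_ver_linear (h : P.Ok) {k : ℕ} {a : L8cVer} (ha : a.Valid k) {R : Ω → ℝ} (hR : Measurable[P.ℱ k] R) (hRi : Integrable R P.μ) :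
    ∫ p, R p.1 * P.l8cV k a p ∂(P.fork k) = ∫ ω, R ω * P.l8cT k ω ∂P.μ := by
  have hRm : Measurable R := hR.mono (P.ℱ.le k) le_rfl
  cases a with
  | pair k₁ k₂ =>
    rw [P.l8c_ver_linear_dis h k hRm hRi (P.l8c_ver_bd_aux h k (.pair k₁ k₂)), ← P.l8c_ver_linear_anc h k hR hRi]
    -- inner integral
    have hin : ∀ ω, ∫ ω', P.l8cV k (.pair k₁ k₂) (ω, ω') ∂(P.κ k ω) = (∑ i, P.X k i ω * P.X k₁ i ω) - P.S k := by
      intro ω
      have e1 : (fun ω' => P.l8cV k (.pair k₁ k₂) (ω, ω')) = fun ω' => (∑ i, P.X k₁ i ω * P.X k₂ i ω') - P.S k := rfl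
      have e2 : ∫ ω', P.l8cV k (.pair k₁ k₂) (ω, ω') ∂(P.κ k ω)
          = P.E k (fun ω' => (∑ i, P.X k₁ i ω * P.X k₂ i ω') - P.S k) ω := by rw [e1]; rfl
      rw [e2, P.l8s_E_sub h k (L8Bd.sum _ fun i _ => (P.l8s_X_bd h k₂ i).const_mul _) (l8Bd_const _), P.l8s_E_const h,
        P.l8s_E_sum h k _ fun i _ => (P.l8s_X_bd h k₂ i).const_mul _]
      congr 1
      refine Finset.sum_congr rfl fun i _ => ?_
      rw [P.l8s_E_const_mul, P.l8s_X_mart h ha.2, mul_comm]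
    simp only [hin]
    have hg : L8Bd (fun ω => (∑ i, P.X k i ω * P.X k₁ i ω) - P.S k) :=
      (L8Bd.sum _ fun i _ => (P.l8s_X_bd h k i).mul (P.l8s_X_bd h k₁ i)).sub (l8Bd_const _)
    rw [P.l8c_ver_linear_dual h k hR hRi hg]
    refine integral_congr_ae (ae_of_all _ fun ω => ?_)
    simp only
    congr 1
    rw [P.l8s_E_sub h k (L8Bd.sum _ fun i _ => (P.l8s_X_bd h k i).mul (P.l8s_X_bd h k₁ i)) (l8Bd_const _), P.l8s_E_const h,
      P.l8s_E_sum h k _ fun i _ => (P.l8s_X_bd h k i).mul (P.l8s_X_bd h k₁ i)]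
    congr 1
    unfold L8P.nX
    refine Finset.sum_congr rfl fun i _ => ?_
    rw [P.l8s_E_pull h k (P.l8s_X_sm h k i).measurable, P.l8s_X_mart h ha.1, sq]
  | anc =>
    rw [← P.l8c_ver_linear_anc h k hR hRi]
    exact P.l8c_fork_fst_aux h k (F := fun ω => R ω * (P.nX k ω - P.S k))
      (hRm.mul ((P.l8s_nX_bd_aux h k).1.sub measurable_const))
  | path =>
    exact P.l8c_fork_fst_aux h k (F := fun ω => R ω * P.l8cT k ω) (hRm.mul (P.l8c_T_bd h k).1)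

end C

/-! ## D. Stopping, forests, order of truncation -/
section D

/-- the density on the fork space -/
theorem l8c_tilt_fork (h : P.Ok) (k : ℕ) {n : ℕ} {Rn : ℝ} {R : Ω → ℝ} (hR : L8cTilt P.μ n Rn R) :
    L8cTilt (P.fork k) n Rn (fun p => R p.1) := by
  have e := P.l8s_fork_fst h k
  have hm : Measurable fun ω => R ω ^ n := hR.meas.pow_const n
  refine ⟨hR.meas.comp measurable_fst, fun p => hR.nonneg p.1, ?_, ?_⟩
  · have h1 : Integrable (fun ω => R ω ^ n) ((P.fork k).map Prod.fst) := by rw [e]; exact hR.int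
    exact (integrable_map_measure hm.aestronglyMeasurable measurable_fst.aemeasurable).1 h1
  · show ∫ p : Ω × Ω, R p.1 ^ n ∂(P.fork k) ≤ Rn
    rw [P.l8c_fork_fst_aux h k hm]
    exact hR.mom

/-- TEX[LL:par:statistics-tilt-transfer] **(D10) under the tilt** -/
theorem l8c_D10_tilt (h : P.Ok) {K : Finset ℕ} {j : ℕ} {c : ℝ} {e : ℕ → ℝ} (he0 : ∀ k ∈ K, 0 ≤ e k) (he4 : ∀ k ∈ K, e k ≤ 4)
    {p : ℕ → Polynomial ℝ} (hpk : ∀ k ∈ K, L8cPoly j c (e k) (p k)) {A : ℝ} (hA : ∫ ω, P.l8cI K p ω ^ 2 ∂P.μ ≤ A) {n : ℕ} (hn : 2 ≤ n)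
    {Rn : ℝ} {R : Ω → ℝ} (hR : L8cTilt P.μ n Rn R) :
    (∫ ω, R ω * P.l8cI K p ω ^ 2 ∂P.μ) ^ n ≤ Rn * A ^ (n - 1) * (2 * (c * (j + 1) * 4 ^ j) * ∑ k ∈ K, P.dv k) ^ 2 := by
  have := h.prob
  have hA0 : 0 ≤ A := (integral_nonneg fun _ => sq_nonneg _).trans hA
  have h1 := l8c_transfer P.μ n hn hR.meas hR.nonneg hR.int (P.l8c_I_meas h K p) (P.l8c_I_abs_le h he0 he4 hpk) hA
  exact h1.trans (mul_le_mul_of_nonneg_right (mul_le_mul_of_nonneg_right hR.mom (pow_nonneg hA0 _)) (sq_nonneg _))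

/-- TEX[LL:par:statistics-tilt-transfer] the low linear centered integral under the tilt ("The same observation applies to the low linear centered integral") -/
theorem l8c_linear_tilt (h : P.Ok) {K : Finset ℕ} (κ : ℕ → ℝ) (hκ : ∀ k ∈ K, |κ k| ≤ 1) {A : ℝ}
    (hA : ∫ ω, (∑ k ∈ K, P.dv k * κ k * P.l8cT k ω) ^ 2 ∂P.μ ≤ A) {n : ℕ} (hn : 2 ≤ n) {Rn : ℝ} {R : Ω → ℝ} (hR : L8cTilt P.μ n Rn R) :
    (∫ ω, R ω * (∑ k ∈ K, P.dv k * κ k * P.l8cT k ω) ^ 2 ∂P.μ) ^ n ≤ Rn * A ^ (n - 1) * (4 * ∑ k ∈ K, P.dv k) ^ 2 := by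
  have := h.prob
  have hA0 : 0 ≤ A := (integral_nonneg fun _ => sq_nonneg _).trans hA
  have hm : Measurable fun ω => ∑ k ∈ K, P.dv k * κ k * P.l8cT k ω :=
    Finset.measurable_sum _ fun k _ => (P.l8c_T_bd h k).1.const_mul _
  have hb : ∀ ω, |∑ k ∈ K, P.dv k * κ k * P.l8cT k ω| ≤ 4 * ∑ k ∈ K, P.dv k := by
    intro ω
    rw [Finset.mul_sum]
    refine (Finset.abs_sum_le_sum_abs _ _).trans (Finset.sum_le_sum fun k hk => ?_)
    rw [abs_mul, abs_mul, abs_of_nonneg (P.l8c_dv_nonneg h k)]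
    have h1 := hκ k hk
    have h2 := P.l8c_T_abs_le h k ω
    have h3 := P.l8c_dv_nonneg h k
    calc P.dv k * |κ k| * |P.l8cT k ω| ≤ P.dv k * 1 * 4 :=
          mul_le_mul (mul_le_mul_of_nonneg_left h1 h3) h2 (abs_nonneg _) (by positivity)
      _ = 4 * P.dv k := by ring
  have h1 := l8c_transfer P.μ n hn hR.meas hR.nonneg hR.int hm hb hA
  exact h1.trans (mul_le_mul_of_nonneg_right (mul_le_mul_of_nonneg_right hR.mom (pow_nonneg hA0 _)) (sq_nonneg _))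

/-- TEX[LL:par:statistics-tilt-transfer] tilted integrated second moment of an alias error: Hölder per cut, then in the cut -/
theorem l8c_ver_dist_tilt (h : P.Ok) {K : Finset ℕ} (a b : ℕ → L8cVer) (ha : ∀ k ∈ K, (a k).Valid k) (hb : ∀ k ∈ K, (b k).Valid k) {A : ℝ}
    (hA : ∑ k ∈ K, P.dv k * (∫ ω, P.xCx k ω ∂P.μ + ∫ ω, P.trC2 k ω ∂P.μ) ≤ A) {n : ℕ} (hn : 2 ≤ n) {Rn : ℝ} {R : Ω → ℝ}
    (hR : L8cTilt P.μ n Rn R) :
    (∑ k ∈ K, P.dv k * ∫ x, R x.1 * (P.l8cV k (a k) x - P.l8cV k (b k) x) ^ 2 ∂(P.fork k)) ^ n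
      ≤ Rn * 64 * (∑ k ∈ K, P.dv k) * (16 * A) ^ (n - 1) := by
  have hd := P.l8c_dv_nonneg h
  have hRn0 : 0 ≤ Rn := (integral_nonneg fun ω => pow_nonneg (hR.nonneg ω) n).trans hR.mom
  have ha0 : ∀ k, 0 ≤ ∫ ω, P.xCx k ω ∂P.μ + ∫ ω, P.trC2 k ω ∂P.μ := fun k =>
    add_nonneg (P.l8c_xCx_nonneg h k) (P.l8c_trC2_nonneg k)
  have step : ∀ k ∈ K, (∫ x, R x.1 * (P.l8cV k (a k) x - P.l8cV k (b k) x) ^ 2 ∂(P.fork k)) ^ n
      ≤ Rn * 64 * (16 * (∫ ω, P.xCx k ω ∂P.μ + ∫ ω, P.trC2 k ω ∂P.μ)) ^ (n - 1) := by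
    intro k hk
    have := P.l8s_fork_prob h k
    have hRk := P.l8c_tilt_fork h k hR
    have h1 := l8c_transfer (P.fork k) n hn hRk.meas hRk.nonneg hRk.int
      ((P.l8c_ver_meas h k (a k)).sub (P.l8c_ver_meas h k (b k))) (M := 8)
      (fun x => by
        have h1 := abs_le.1 (P.l8c_ver_abs_le h k (a k) x)
        have h2 := abs_le.1 (P.l8c_ver_abs_le h k (b k) x)
        simp only [Pi.sub_apply]
        rw [abs_le]
        constructor <;> linarith [h1.1, h1.2, h2.1, h2.2])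
      (P.l8c_ver_dist h (ha k hk) (hb k hk))
    simp only [Pi.sub_apply] at h1
    refine h1.trans ?_
    have h2 : 0 ≤ (16 * (∫ ω, P.xCx k ω ∂P.μ + ∫ ω, P.trC2 k ω ∂P.μ)) ^ (n - 1) :=
      pow_nonneg (mul_nonneg (by norm_num) (ha0 k)) _
    calc (∫ x : Ω × Ω, R x.1 ^ n ∂(P.fork k)) * (16 * (∫ ω, P.xCx k ω ∂P.μ + ∫ ω, P.trC2 k ω ∂P.μ)) ^ (n - 1) * 8 ^ 2
        ≤ Rn * (16 * (∫ ω, P.xCx k ω ∂P.μ + ∫ ω, P.trC2 k ω ∂P.μ)) ^ (n - 1) * 8 ^ 2 :=
          mul_le_mul_of_nonneg_right (mul_le_mul_of_nonneg_right hRk.mom h2) (by norm_num)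
      _ = _ := by ring
  have h2 := l8c_transfer_sum K n (by omega) P.dv
    (fun k => ∫ x, R x.1 * (P.l8cV k (a k) x - P.l8cV k (b k) x) ^ 2 ∂(P.fork k))
    (fun k => 16 * (∫ ω, P.xCx k ω ∂P.μ + ∫ ω, P.trC2 k ω ∂P.μ)) (c := Rn * 64) (by positivity) (fun k _ => hd k)
    (fun k _ => integral_nonneg fun x => mul_nonneg (hR.nonneg _) (sq_nonneg _))
    (fun k _ => mul_nonneg (by norm_num) (ha0 k)) step
  refine h2.trans ?_
  refine mul_le_mul_of_nonneg_left ?_ (mul_nonneg (by positivity) (Finset.sum_nonneg fun k _ => hd k))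
  refine pow_le_pow_left₀ (Finset.sum_nonneg fun k _ => mul_nonneg (hd k) (mul_nonneg (by norm_num) (ha0 k))) ?_ _
  calc ∑ k ∈ K, P.dv k * (16 * (∫ ω, P.xCx k ω ∂P.μ + ∫ ω, P.trC2 k ω ∂P.μ))
      = 16 * ∑ k ∈ K, P.dv k * (∫ ω, P.xCx k ω ∂P.μ + ∫ ω, P.trC2 k ω ∂P.μ) := by
        rw [Finset.mul_sum]; exact Finset.sum_congr rfl fun k _ => by ring
    _ ≤ 16 * A := mul_le_mul_of_nonneg_left hA (by norm_num)

/-- TEX[LL:par:statistics-tilt-transfer] tilted tail of a version -/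
theorem l8c_ver_tail_tilt (h : P.Ok) {k : ℕ} (a : L8cVer) {M e T : ℝ} (he : 0 < e) (hT : 0 < T) (q : ℕ)
    (hM : ∫ x, P.l8cV k a x ^ (2 * q) ∂(P.fork k) ≤ (M * e) ^ (2 * q)) {n : ℕ} (hn : 2 ≤ n) {Rn : ℝ} {R : Ω → ℝ} (hR : L8cTilt P.μ n Rn R) :
    (∫ x in {x | T * e < |P.l8cV k a x|}, R x.1 ∂(P.fork k)) ^ n ≤ Rn * ((M / T) ^ (2 * q)) ^ (n - 1) := by
  have := P.l8s_fork_prob h k
  have hRk := P.l8c_tilt_fork h k hR
  have hS : MeasurableSet {x | T * e < |P.l8cV k a x|} :=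
    measurableSet_lt measurable_const (P.l8c_ver_meas h k a).abs
  have hdiv : M * e / (T * e) = M / T := mul_div_mul_right _ _ he.ne'
  have ta := l8c_markov (P.fork k) (P.l8c_ver_meas h k a) ⟨4, P.l8c_ver_abs_le h k a⟩ q (mul_pos hT he) hM
  rw [hdiv] at ta
  have hA0 : 0 ≤ (M / T) ^ (2 * q) := by rw [pow_mul]; positivity
  have e1 : ∀ x : Ω × Ω, ({x | T * e < |P.l8cV k a x|}.indicator (fun _ => (1 : ℝ)) x) ^ 2
      = {x | T * e < |P.l8cV k a x|}.indicator (fun _ => (1 : ℝ)) x := by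
    intro x
    by_cases hx : x ∈ {x | T * e < |P.l8cV k a x|}
    · rw [Set.indicator_of_mem hx]; norm_num
    · rw [Set.indicator_of_notMem hx]; norm_num
  have h1 := l8c_transfer (P.fork k) n hn hRk.meas hRk.nonneg hRk.int
    (F := {x | T * e < |P.l8cV k a x|}.indicator (fun _ => (1 : ℝ))) (measurable_const.indicator hS) (M := 1)
    (A := (M / T) ^ (2 * q))
    (fun x => by
      by_cases hx : x ∈ {x | T * e < |P.l8cV k a x|}
      · rw [Set.indicator_of_mem hx]; norm_num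
      · rw [Set.indicator_of_notMem hx]; norm_num)
    (by
      simp only [e1]
      rw [integral_indicator hS, setIntegral_const, smul_eq_mul, mul_one]
      exact ta)
  simp only [e1] at h1
  have e2 : ∀ x : Ω × Ω, R x.1 * {x | T * e < |P.l8cV k a x|}.indicator (fun _ => (1 : ℝ)) x
      = {x | T * e < |P.l8cV k a x|}.indicator (fun x : Ω × Ω => R x.1) x := by
    intro x
    by_cases hx : x ∈ {x | T * e < |P.l8cV k a x|}
    · rw [Set.indicator_of_mem hx, Set.indicator_of_mem hx, mul_one]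
    · rw [Set.indicator_of_notMem hx, Set.indicator_of_notMem hx, mul_zero]
  simp only [e2] at h1
  rw [integral_indicator hS] at h1
  refine h1.trans ?_
  rw [one_pow, mul_one]
  exact mul_le_mul_of_nonneg_right hRk.mom (pow_nonneg hA0 _)

/-- a nonnegative density with an integrable power `n ≥ 1` is integrable under a finite measure -/
theorem l8c_tilt_int_aux {α : Type*} [MeasurableSpace α] (ν : Measure α) [IsFiniteMeasure ν] {R : α → ℝ} (hRm : Measurable R)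
    (hR0 : ∀ x, 0 ≤ R x) {n : ℕ} (hn : 1 ≤ n) (hRn : Integrable (fun x => R x ^ n) ν) : Integrable R ν := by
  refine Integrable.mono' ((integrable_const (1 : ℝ)).add hRn) hRm.aestronglyMeasurable
    (Filter.Eventually.of_forall fun x => ?_)
  rw [Real.norm_eq_abs, abs_of_nonneg (hR0 x)]
  simp only [Pi.add_apply]
  rcases le_total (R x) 1 with h1 | h1
  · have := pow_nonneg (hR0 x) n
    linarith
  · have := le_self_pow₀ h1 (by omega : n ≠ 0)
    linarith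

/-- integrals against the tilted measure -/
theorem l8c_tilt_wd_aux {α : Type*} [MeasurableSpace α] (ν : Measure α) {R : α → ℝ} (hRm : Measurable R)
    (hR0 : ∀ x, 0 ≤ R x) (g : α → ℝ) :
    ∫ x, g x ∂(ν.withDensity fun x => ENNReal.ofReal (R x)) = ∫ x, R x * g x ∂ν := by
  rw [integral_withDensity_eq_integral_toReal_smul hRm.ennreal_ofReal
    (Filter.Eventually.of_forall fun x => ENNReal.ofReal_lt_top)]
  refine integral_congr_ae (Filter.Eventually.of_forall fun x => ?_)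
  simp only [ENNReal.toReal_ofReal (hR0 x), smul_eq_mul]

/-- `l8c_poly_alias` under a density -/
theorem l8c_poly_alias_tilt {α : Type*} [MeasurableSpace α] (ν : Measure α) [IsFiniteMeasure ν] {R U V : α → ℝ}
    (hRm : Measurable R) (hR0 : ∀ x, 0 ≤ R x) (hRi : Integrable R ν) (hU : Measurable U)
    (hV : Measurable V) (hUb : ∀ x, |U x| ≤ 4) (hVb : ∀ x, |V x| ≤ 4) {j : ℕ} {c e : ℝ} {p : Polynomial ℝ} (hp : L8cPoly j c e p)
    (he0 : 0 ≤ e) (he4 : e ≤ 4) {T : ℝ} (hT : 1 ≤ T) :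
    ∫ x, R x * (p.eval (U x) - p.eval (V x)) ^ 2 ∂ν
      ≤ (c * j ^ 2) ^ 2 * ((T * e) ^ (2 * (j - 1)) * ∫ x, R x * (U x - V x) ^ 2 ∂ν
          + 4 ^ (2 * (j - 1)) * 64 * ((∫ x in {x | T * e < |U x|}, R x ∂ν) + ∫ x in {x | T * e < |V x|}, R x ∂ν)) := by
  have hfin : IsFiniteMeasure (ν.withDensity fun x => ENNReal.ofReal (R x)) :=
    isFiniteMeasure_withDensity_ofReal hRi.2
  have hreal : ∀ S : Set α, MeasurableSet S → (ν.withDensity fun x => ENNReal.ofReal (R x)).real S = ∫ x in S, R x ∂ν := by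
    intro S hS
    have h1 : ∫ x, S.indicator (fun _ => (1 : ℝ)) x ∂(ν.withDensity fun x => ENNReal.ofReal (R x))
        = (ν.withDensity fun x => ENNReal.ofReal (R x)).real S := by
      rw [integral_indicator hS, setIntegral_const, smul_eq_mul, mul_one]
    rw [← h1, l8c_tilt_wd_aux ν hRm hR0, ← integral_indicator hS]
    refine integral_congr_ae (Filter.Eventually.of_forall fun x => ?_)
    by_cases hx : x ∈ S
    · simp only [Set.indicator_of_mem hx, mul_one]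
    · simp only [Set.indicator_of_notMem hx, mul_zero]
  have key := l8c_poly_alias (ν.withDensity fun x => ENNReal.ofReal (R x)) hU hV hUb hVb hp he0 he4 hT
  rw [l8c_tilt_wd_aux ν hRm hR0, l8c_tilt_wd_aux ν hRm hR0, hreal _ (measurableSet_lt measurable_const hU.abs),
    hreal _ (measurableSet_lt measurable_const hV.abs)] at key
  exact key

/-- TEX[LL:par:statistics-tilt-transfer] **alias errors of a polynomial over a band, under the tilt**.  `J`, `τ` = `n`-th roots of the transferred bounds -/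
theorem l8c_ver_band_tilt (h : P.Ok) {K : Finset ℕ} (a b : ℕ → L8cVer) (ha : ∀ k ∈ K, (a k).Valid k) (hb : ∀ k ∈ K, (b k).Valid k) {j : ℕ}
    {c : ℝ} {e : ℕ → ℝ} (he0 : ∀ k ∈ K, 0 < e k) (he4 : ∀ k ∈ K, e k ≤ 4) {p : ℕ → Polynomial ℝ}
    (hpk : ∀ k ∈ K, L8cPoly j c (e k) (p k)) (hc : 0 ≤ c) {T M A E2 : ℝ} (hT : 1 ≤ T) (hM0 : 0 ≤ M) (q : ℕ)
    (hMa : ∀ k ∈ K, ∫ x, P.l8cV k (a k) x ^ (2 * q) ∂(P.fork k) ≤ (M * e k) ^ (2 * q))
    (hMb : ∀ k ∈ K, ∫ x, P.l8cV k (b k) x ^ (2 * q) ∂(P.fork k) ≤ (M * e k) ^ (2 * q))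
    (hA : ∑ k ∈ K, P.dv k * (∫ ω, P.xCx k ω ∂P.μ + ∫ ω, P.trC2 k ω ∂P.μ) ≤ A) (hE : ∑ k ∈ K, P.dv k * e k ^ (2 * (j - 1)) ≤ E2)
    {n : ℕ} (hn : 2 ≤ n) {Rn : ℝ} {R : Ω → ℝ} (hR : L8cTilt P.μ n Rn R) {J τ : ℝ} (hJ0 : 0 ≤ J) (hτ0 : 0 ≤ τ)
    (hJ : Rn * 64 * (∑ k ∈ K, P.dv k) * (16 * A) ^ (n - 1) ≤ J ^ n) (hτ : Rn * ((M / T) ^ (2 * q)) ^ (n - 1) ≤ τ ^ n) :
    ∑ k ∈ K, P.dv k * √(∫ x, R x.1 * ((p k).eval (P.l8cV k (a k) x) - (p k).eval (P.l8cV k (b k) x)) ^ 2 ∂(P.fork k))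
      ≤ c * j ^ 2 * (T ^ (j - 1) * (√E2 * √J) + 4 ^ (j - 1) * 12 * (√τ * ∑ k ∈ K, P.dv k)) := by
  have hd : ∀ k, 0 ≤ P.dv k := P.l8c_dv_nonneg h
  have hT0 : 0 < T := lt_of_lt_of_le one_pos hT
  have hn0 : n ≠ 0 := by omega
  have hcj : 0 ≤ c * (j : ℝ) ^ 2 := by positivity
  have hD0 : ∀ k, 0 ≤ ∫ x, R x.1 * (P.l8cV k (a k) x - P.l8cV k (b k) x) ^ 2 ∂(P.fork k) := fun k =>
    integral_nonneg fun x => mul_nonneg (hR.nonneg _) (sq_nonneg _)
  have hsτ : √τ ^ 2 = τ := Real.sq_sqrt hτ0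
  have step : ∀ k ∈ K, √(∫ x, R x.1 * ((p k).eval (P.l8cV k (a k) x) - (p k).eval (P.l8cV k (b k) x)) ^ 2 ∂(P.fork k))
      ≤ c * (j : ℝ) ^ 2 * (1 * T ^ (j - 1) * √(e k ^ (2 * (j - 1)) *
          ∫ x, R x.1 * (P.l8cV k (a k) x - P.l8cV k (b k) x) ^ 2 ∂(P.fork k)) + 4 ^ (j - 1) * 12 * √τ) := by
    intro k hk
    have := P.l8s_fork_prob h k
    have hRk := P.l8c_tilt_fork h k hR
    have hRi := l8c_tilt_int_aux (P.fork k) hRk.meas hRk.nonneg (by omega : 1 ≤ n) hRk.int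
    have ta : ∫ x in {x | T * e k < |P.l8cV k (a k) x|}, R x.1 ∂(P.fork k) ≤ τ :=
      le_of_pow_le_pow_left₀ hn0 hτ0 ((P.l8c_ver_tail_tilt h (a k) (he0 k hk) hT0 q (hMa k hk) hn hR).trans hτ)
    have tb : ∫ x in {x | T * e k < |P.l8cV k (b k) x|}, R x.1 ∂(P.fork k) ≤ τ :=
      le_of_pow_le_pow_left₀ hn0 hτ0 ((P.l8c_ver_tail_tilt h (b k) (he0 k hk) hT0 q (hMb k hk) hn hR).trans hτ)
    have h1 := l8c_poly_alias_tilt (P.fork k) hRk.meas hRk.nonneg hRi (P.l8c_ver_meas h k (a k)) (P.l8c_ver_meas h k (b k))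
      (P.l8c_ver_abs_le h k (a k)) (P.l8c_ver_abs_le h k (b k)) (hpk k hk) (he0 k hk).le (he4 k hk) hT
    refine l8c_ver_band_aux hcj (pow_nonneg hT0.le _) (by rw [pow_mul]; positivity) (hD0 k) (by positivity)
      (Real.sqrt_nonneg τ) zero_le_one (h1.trans ?_)
    refine mul_le_mul_of_nonneg_left ?_ (sq_nonneg _)
    refine add_le_add (le_of_eq ?_) ?_
    · rw [mul_pow, pow_mul' T]; ring
    · rw [pow_mul' (4 : ℝ), hsτ]
      exact mul_le_mul_of_nonneg_left (add_le_add ta tb) (by positivity)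
  have hsum : ∑ k ∈ K, P.dv k * ∫ x, R x.1 * (P.l8cV k (a k) x - P.l8cV k (b k) x) ^ 2 ∂(P.fork k) ≤ J :=
    le_of_pow_le_pow_left₀ hn0 hJ0 ((P.l8c_ver_dist_tilt h a b ha hb hA hn hR).trans hJ)
  calc ∑ k ∈ K, P.dv k * √(∫ x, R x.1 * ((p k).eval (P.l8cV k (a k) x) - (p k).eval (P.l8cV k (b k) x)) ^ 2 ∂(P.fork k))
      ≤ ∑ k ∈ K, P.dv k * (c * (j : ℝ) ^ 2 * (1 * T ^ (j - 1) * √(e k ^ (2 * (j - 1)) *
          ∫ x, R x.1 * (P.l8cV k (a k) x - P.l8cV k (b k) x) ^ 2 ∂(P.fork k)) + 4 ^ (j - 1) * 12 * √τ)) :=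
        Finset.sum_le_sum fun k hk => mul_le_mul_of_nonneg_left (step k hk) (hd k)
    _ = c * (j : ℝ) ^ 2 * (T ^ (j - 1) *
          (∑ k ∈ K, P.dv k * √(e k ^ (2 * (j - 1)) * ∫ x, R x.1 * (P.l8cV k (a k) x - P.l8cV k (b k) x) ^ 2 ∂(P.fork k)))
          + 4 ^ (j - 1) * 12 * (√τ * ∑ k ∈ K, P.dv k)) := by
        simp only [Finset.mul_sum, mul_add, Finset.sum_add_distrib]
        congr 1 <;> exact Finset.sum_congr rfl fun k _ => by ring
    _ ≤ _ := by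
        refine mul_le_mul_of_nonneg_left (add_le_add (mul_le_mul_of_nonneg_left ?_ (by positivity)) le_rfl) hcj
        refine (l8c_cs_sum K P.dv _ _ (fun k _ => hd k) (fun k _ => by rw [pow_mul]; positivity) fun k _ => hD0 k).trans ?_
        exact mul_le_mul (Real.sqrt_le_sqrt hE) (Real.sqrt_le_sqrt hsum) (Real.sqrt_nonneg _) (Real.sqrt_nonneg _)

end D

end L8P

section D'

/-- Cauchy-Schwarz for bounded measurable functions under a finite measure -/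
theorem l8c_test_cs_aux {α : Type*} [MeasurableSpace α] (ν : Measure α) [IsFiniteMeasure ν] {f g : α → ℝ} (hf : Measurable f)
    (hg : Measurable g) {cf cg : ℝ} (hfb : ∀ x, |f x| ≤ cf) (hgb : ∀ x, |g x| ≤ cg) :
    ∫ x, |f x * g x| ∂ν ≤ √(∫ x, f x ^ 2 ∂ν) * √(∫ x, g x ^ 2 ∂ν) := by
  have hfL : MemLp f (ENNReal.ofReal 2) ν :=
    MemLp.of_bound hf.aestronglyMeasurable cf (Filter.Eventually.of_forall fun x => by simpa using hfb x)
  have hgL : MemLp g (ENNReal.ofReal 2) ν :=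
    MemLp.of_bound hg.aestronglyMeasurable cg (Filter.Eventually.of_forall fun x => by simpa using hgb x)
  have key := integral_mul_norm_le_Lp_mul_Lq (μ := ν) (f := f) (g := g) Real.HolderConjugate.two_two hfL hgL
  simp only [Real.norm_eq_abs, Real.rpow_two, sq_abs] at key
  rw [Real.sqrt_eq_rpow, Real.sqrt_eq_rpow]
  simpa only [abs_mul] using key

/-- TEX[LL:par:statistics-tilt-transfer] "`|E[P R I]| ≤ M_R ‖P‖₂ ‖I‖₂`": first realize the centered integral `I` and the retained factors under ONE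
fixed marginal law `ν`, apply the unconditional centered estimate, truncate the product of the earlier factors, only then Cauchy-Schwarz -/
theorem l8c_test {α : Type*} [MeasurableSpace α] (ν : Measure α) [IsProbabilityMeasure ν] {ι : Type*} (s : Finset ι) (F : ι → α → ℝ)
    (Pt I : α → ℝ) (hF : ∀ i ∈ s, Measurable (F i)) (hP : Measurable Pt) (hI : Measurable I) (b B : ι → ℝ) (gP gI : ℝ)
    (hb : ∀ i ∈ s, 0 ≤ b i) (hFB : ∀ i ∈ s, ∀ x, |F i x| ≤ B i) (hPg : ∀ x, |Pt x| ≤ gP) (hIg : ∀ x, |I x| ≤ gI) :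
    |∫ x, (∏ i ∈ s, F i x) * (Pt x * I x) ∂ν|
      ≤ (∏ i ∈ s, b i) * (√(∫ x, Pt x ^ 2 ∂ν) * √(∫ x, I x ^ 2 ∂ν)) + (∏ i ∈ s, B i) * (gP * gI) * ∑ i ∈ s, ν.real {x | b i < |F i x|} := by
  have h1 := l8c_trunc ν s F (fun x => Pt x * I x) hF (hP.mul hI) b B (gP * gI) hb hFB (fun x => by
    rw [abs_mul]
    exact mul_le_mul (hPg x) (hIg x) (abs_nonneg _) ((abs_nonneg _).trans (hPg x)))
  refine h1.trans (add_le_add (mul_le_mul_of_nonneg_left ?_ (Finset.prod_nonneg hb)) le_rfl)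
  exact l8c_test_cs_aux ν hP hI hPg hIg

/-- TEX[LL:par:statistics-tilt-transfer] "For a forest, apply the change of measure separately on each active component.  A bounded number of component
densities has every required fixed moment on the stop, so Hölder handles their product" -/
theorem l8c_forest {α : Type*} [MeasurableSpace α] (ν : Measure α) {ι : Type*} (s : Finset ι) (hs : s.Nonempty) (R : ι → α → ℝ) (n : ℕ)
    (hm : ∀ i ∈ s, Measurable (R i)) (h0 : ∀ i ∈ s, ∀ x, 0 ≤ R i x) (hi : ∀ i ∈ s, Integrable (fun x => R i x ^ (n * s.card)) ν) :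
    Integrable (fun x => (∏ i ∈ s, R i x) ^ n) ν ∧
    (∫ x, (∏ i ∈ s, R i x) ^ n ∂ν) ^ s.card ≤ ∏ i ∈ s, ∫ x, R i x ^ (n * s.card) ∂ν := by
  have hN : 0 < s.card := Finset.card_pos.2 hs
  have hNr : (0 : ℝ) < s.card := by exact_mod_cast hN
  have hP0 : ∀ x, 0 ≤ (∏ i ∈ s, R i x) ^ n := fun x => pow_nonneg (Finset.prod_nonneg fun i hi' => h0 i hi' x) n
  have hPm : Measurable fun x => (∏ i ∈ s, R i x) ^ n := (Finset.measurable_prod s hm).pow_const n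
  have ha0 : ∀ i ∈ s, 0 ≤ ∫ x, R i x ^ (n * s.card) ∂ν := fun i hi' => integral_nonneg fun x => pow_nonneg (h0 i hi' x) _
  -- Hoelder in `ENNReal`
  have hol := ENNReal.lintegral_prod_norm_pow_le (μ := ν) s (f := fun i x => ENNReal.ofReal (R i x ^ (n * s.card)))
    (fun i hi' => ((hm i hi').pow_const _).ennreal_ofReal.aemeasurable) (p := fun _ => 1 / (s.card : ℝ))
    (by rw [Finset.sum_const, nsmul_eq_mul]; field_simp) (fun _ _ => by positivity)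
  have e1 : ∀ x, ∏ i ∈ s, ENNReal.ofReal (R i x ^ (n * s.card)) ^ (1 / (s.card : ℝ)) = ENNReal.ofReal ((∏ i ∈ s, R i x) ^ n) := by
    intro x
    rw [← Finset.prod_pow, ENNReal.ofReal_prod_of_nonneg fun i hi' => pow_nonneg (h0 i hi' x) n]
    refine Finset.prod_congr rfl fun i hi' => ?_
    rw [ENNReal.ofReal_rpow_of_nonneg (pow_nonneg (h0 i hi' x) _) (by positivity), pow_mul, one_div,
      Real.pow_rpow_inv_natCast (pow_nonneg (h0 i hi' x) n) hN.ne']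
  have e2 : ∀ i ∈ s, ∫⁻ x, ENNReal.ofReal (R i x ^ (n * s.card)) ∂ν = ENNReal.ofReal (∫ x, R i x ^ (n * s.card) ∂ν) :=
    fun i hi' => (ofReal_integral_eq_lintegral_ofReal (hi i hi')
      (Filter.Eventually.of_forall fun x => pow_nonneg (h0 i hi' x) _)).symm
  simp only [e1] at hol
  rw [Finset.prod_congr rfl fun i hi' => by rw [e2 i hi']] at hol
  have hfin : ∏ i ∈ s, ENNReal.ofReal (∫ x, R i x ^ (n * s.card) ∂ν) ^ (1 / (s.card : ℝ)) < ⊤ :=
    ENNReal.prod_lt_top fun i _ => ENNReal.rpow_lt_top_of_nonneg (by positivity) ENNReal.ofReal_ne_top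
  have hint : Integrable (fun x => (∏ i ∈ s, R i x) ^ n) ν :=
    ⟨hPm.aestronglyMeasurable, (hasFiniteIntegral_iff_ofReal (Filter.Eventually.of_forall hP0)).2 (hol.trans_lt hfin)⟩
  refine ⟨hint, ?_⟩
  rw [← ofReal_integral_eq_lintegral_ofReal hint (Filter.Eventually.of_forall hP0)] at hol
  have h2 := pow_le_pow_left₀ zero_le hol s.card
  rw [← ENNReal.ofReal_pow (integral_nonneg hP0), ← Finset.prod_pow] at h2
  have e3 : ∀ i ∈ s, (ENNReal.ofReal (∫ x, R i x ^ (n * s.card) ∂ν) ^ (1 / (s.card : ℝ))) ^ s.card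
      = ENNReal.ofReal (∫ x, R i x ^ (n * s.card) ∂ν) := by
    intro i _
    rw [← ENNReal.rpow_natCast, ← ENNReal.rpow_mul, one_div, inv_mul_cancel₀ hNr.ne', ENNReal.rpow_one]
  rw [Finset.prod_congr rfl e3, ← ENNReal.ofReal_prod_of_nonneg ha0] at h2
  exact (ENNReal.ofReal_le_ofReal_iff (Finset.prod_nonneg ha0)).1 h2

end D'

namespace L8P

variable (P : L8P Ω m)

/-! ## E. Projection to a common low cut (Cor. 8.7) -/
section E

theorem l8c_nX_nonneg (k : ℕ) (ω : Ω) : 0 ≤ P.nX k ω := Finset.sum_nonneg fun _ _ => sq_nonneg _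

theorem l8c_nX_bd (h : P.Ok) (k : ℕ) : L8Bd (P.nX k) :=
  ⟨Finset.measurable_sum _ fun i _ => (P.l8s_X_bd h k i).1.pow_const 2, 1, fun ω => by
    rw [abs_of_nonneg (P.l8c_nX_nonneg k ω)]; exact P.l8s_nX_le_one h k ω⟩

theorem l8c_bd_pow {α : Type} [MeasurableSpace α] {f : α → ℝ} (hf : L8Bd f) (r : ℕ) : L8Bd fun x => f x ^ r := by
  obtain ⟨hm, c, hc⟩ := hf
  exact ⟨hm.pow_const r, c ^ r, fun x => by rw [abs_pow]; exact pow_le_pow_left₀ (abs_nonneg _) (hc x) r⟩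

theorem l8c_bd_int {α : Type} [MeasurableSpace α] {f : α → ℝ} (hf : L8Bd f) (ν : Measure α) [IsFiniteMeasure ν] : Integrable f ν := by
  obtain ⟨hm, c, hc⟩ := hf
  exact Integrable.of_bound hm.aestronglyMeasurable c (Filter.Eventually.of_forall hc)

/-- moments of `|X_k|²` increase along the path (submartingale + Jensen) -/
theorem l8c_nX_pow_mono (h : P.Ok) (r : ℕ) {k l : ℕ} (hkl : k ≤ l) : ∫ ω, P.nX k ω ^ r ∂P.μ ≤ ∫ ω, P.nX l ω ^ r ∂P.μ := by
  have := h.prob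
  have hb := l8c_bd_pow (P.l8c_nX_bd h l) r
  rw [← P.l8s_integral_E h k hb]
  refine integral_mono (l8c_bd_int (l8c_bd_pow (P.l8c_nX_bd h k) r) _) (l8c_bd_int (P.l8s_E_bd h k hb) _) fun ω => ?_
  have h1 := P.l8s_nX_le_E h hkl ω
  have h2 := P.l8s_E_pow_le h k (P.l8c_nX_bd h l) r ω
  have h3 : P.E k (fun ω' => |P.nX l ω'| ^ r) ω = P.E k (fun ω' => P.nX l ω' ^ r) ω :=
    P.l8s_E_congr k (fun ω' => by rw [abs_of_nonneg (P.l8c_nX_nonneg l ω')]) ω
  calc P.nX k ω ^ r ≤ (P.E k (P.nX l) ω) ^ r := pow_le_pow_left₀ (P.l8c_nX_nonneg k ω) h1 r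
    _ ≤ |P.E k (P.nX l) ω| ^ r := pow_le_pow_left₀ ((P.l8c_nX_nonneg k ω).trans h1) (le_abs_self _) r
    _ ≤ _ := h2.trans_eq h3

/-- TEX[LL:cor:statistics-low-projection] (A3) on the fork for an INCREMENT of the second branch (same proof as `l8s_fork_proj`, from `l8s_proj_incr`):
"hitting the later layer in each product via (A3) with a full gap after the fork (also for projected rather than terminal ends)" -/
theorem l8c_fork_proj_incr (h : P.Ok) {r : ℕ} {c vmin hmin : ℝ} (hp : P.Proj r c vmin hmin) {k k₁ k₂ k₃ : ℕ} (hk : k ≤ k₁) (h12 : k₁ < k₂)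
    (h23 : k₂ ≤ k₃) (h2 : k₂ ≤ P.n + 1) (hv : vmin ≤ P.v k₁) (hh : hmin ≤ P.hlen k₁ k₂) (V : Fin m → Ω × Ω → ℝ)
    (hV : ∀ i, Measurable[mΩ.prod (P.ℱ k₁)] (V i)) (hVb : ∀ i, ∃ c', ∀ p, |V i p| ≤ c') :
    ∫ p, (∑ i, V i p * P.XX k₂ k₃ i p.2) ^ (2 * r) ∂(P.fork k)
      ≤ c / (P.v k₁ ^ 2 * m * P.hlen k₁ k₂) ^ r * ∫ p, (∑ i, V i p ^ 2) ^ r ∂(P.fork k) := by
  have := h.prob
  have := h.markov k
  set D : ℝ := (P.v k₁ ^ 2 * m * P.hlen k₁ k₂) ^ r with hD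
  have hR : ∀ i, L8Bd (P.XX k₂ k₃ i) := fun i => (P.l8s_X_bd h k₃ i).sub (P.l8s_X_bd h k₂ i)
  have hVm : ∀ i, Measurable (V i) := fun i =>
    (hV i).mono (sup_le_sup le_rfl (MeasurableSpace.comap_mono (P.ℱ.le k₁))) le_rfl
  have hVs : ∀ i ω, Measurable[P.ℱ k₁] (fun ω' => V i (ω, ω')) := fun i ω =>
    @Measurable.comp Ω (Ω × Ω) ℝ (P.ℱ k₁) (mΩ.prod (P.ℱ k₁)) _ (V i) (fun ω' => (ω, ω')) (hV i)
      (@measurable_prodMk_left Ω Ω mΩ (P.ℱ k₁) ω)
  have hVB : ∀ i, @L8Bd (Ω × Ω) _ (V i) := fun i => ⟨hVm i, hVb i⟩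
  have hRB : ∀ i, @L8Bd (Ω × Ω) _ (fun p => P.XX k₂ k₃ i p.2) := fun i =>
    ⟨(hR i).1.comp measurable_snd, (hR i).2.choose, fun p => (hR i).2.choose_spec p.2⟩
  have hG : @L8Bd (Ω × Ω) _ (fun p => (∑ i, V i p * P.XX k₂ k₃ i p.2) ^ (2 * r)) :=
    (L8Bd.sum _ fun i _ => (hVB i).mul (hRB i)).pow _
  have hG2 : @L8Bd (Ω × Ω) _ (fun p => (∑ i, V i p ^ 2) ^ r) :=
    (L8Bd.sum _ fun i _ => (hVB i).pow 2).pow _
  obtain ⟨hGm, cG, hGc⟩ := hG
  obtain ⟨hG2m, cG2, hG2c⟩ := hG2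
  rw [P.l8s_fork_integral h k hGm hGc, P.l8s_fork_integral h k hG2m hG2c, ← integral_const_mul]
  refine integral_mono ((P.l8s_fork_inner_bd_aux h k hGm hGc).integrable _)
    (((P.l8s_fork_inner_bd_aux h k hG2m hG2c).const_mul _).integrable _) fun ω => ?_
  simp only
  have hg : L8Bd (fun ω' => (∑ i, V i (ω, ω') * P.XX k₂ k₃ i ω') ^ (2 * r)) :=
    ⟨hGm.comp measurable_prodMk_left, cG, fun ω' => hGc (ω, ω')⟩
  have hg2 : L8Bd (fun ω' => (∑ i, V i (ω, ω') ^ 2) ^ r) :=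
    ⟨hG2m.comp measurable_prodMk_left, cG2, fun ω' => hG2c (ω, ω')⟩
  have t1 := P.l8s_E_tower h hk hg ω
  have t2 : ∀ ω'', P.E k₁ (fun ω' => (∑ i, V i (ω, ω') * P.XX k₂ k₃ i ω') ^ (2 * r)) ω''
      ≤ c / D * (∑ i, V i (ω, ω'') ^ 2) ^ r := by
    intro ω''
    have e1 : P.E k₁ (fun ω' => (∑ i, V i (ω, ω') * P.XX k₂ k₃ i ω') ^ (2 * r)) ω''
        = ∫ ω', (∑ i, V i (ω, ω'') * P.XX k₂ k₃ i ω') ^ (2 * r) ∂(P.κ k₁ ω'') := by
      unfold L8P.E
      refine integral_congr_ae ?_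
      have hall : ∀ᵐ ω' ∂(P.κ k₁ ω''), ∀ i, V i (ω, ω') = V i (ω, ω'') := by
        rw [ae_all_iff]
        exact fun i => P.l8s_proper_ae h k₁ (hVs i ω) ω''
      filter_upwards [hall] with ω' hω'
      simp only [hω']
    rw [e1]
    have := P.l8s_proj_incr h hp h12 h23 h2 hv hh ω'' (fun i => V i (ω, ω''))
    calc _ ≤ c * (∑ i, V i (ω, ω'') ^ 2) ^ r / D := this
      _ = c / D * (∑ i, V i (ω, ω'') ^ 2) ^ r := by ring
  have t3 : P.E k (P.E k₁ (fun ω' => (∑ i, V i (ω, ω') * P.XX k₂ k₃ i ω') ^ (2 * r))) ω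
      ≤ P.E k (fun ω'' => c / D * (∑ i, V i (ω, ω'') ^ 2) ^ r) ω :=
    P.l8s_E_mono h k (P.l8s_E_bd h k₁ hg) (hg2.const_mul _) t2 ω
  rw [t1, P.l8s_E_const_mul] at t3
  exact t3

theorem l8c_fork_int_fst (h : P.Ok) (k : ℕ) {f : Ω → ℝ} (hf : Measurable f) : ∫ p, f p.1 ∂(P.fork k) = ∫ ω, f ω ∂P.μ := by
  rw [← P.l8s_fork_fst h k, integral_map measurable_fst.aemeasurable hf.aestronglyMeasurable]

theorem l8c_fork_int_swap (h : P.Ok) (k : ℕ) {F : Ω × Ω → ℝ} (hF : Measurable F) : ∫ p, F p.swap ∂(P.fork k) = ∫ p, F p ∂(P.fork k) := by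
  conv_rhs => rw [← P.l8s_fork_swap h k]
  rw [integral_map measurable_swap.aemeasurable hF.aestronglyMeasurable]

/-- TEX[LL:cor:statistics-low-projection] one layer: increment of one branch on `[t, t']` after the gap `[g, t]`, anchor = posterior mean of the OTHER branch at any cut `l` -/
theorem l8c_low_step (h : P.Ok) {r : ℕ} {c vmin hmin : ℝ} (hp : P.Proj r c vmin hmin) {k g t t' : ℕ} (l : ℕ) (hk : k ≤ g) (hgt : g < t)
    (htt : t ≤ t') (ht : t ≤ P.n + 1) (hv : vmin ≤ P.v g) (hh : hmin ≤ P.hlen g t) :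
    ∫ p, (∑ i, P.X l i p.1 * P.XX t t' i p.2) ^ (2 * r) ∂(P.fork k)
        ≤ c / (P.v g ^ 2 * m * P.hlen g t) ^ r * ∫ ω, P.nX l ω ^ r ∂P.μ ∧
    ∫ p, (∑ i, P.XX t t' i p.1 * P.X l i p.2) ^ (2 * r) ∂(P.fork k)
        ≤ c / (P.v g ^ 2 * m * P.hlen g t) ^ r * ∫ ω, P.nX l ω ^ r ∂P.μ := by
  have hX : ∀ i, Measurable (P.X l i) := fun i => (P.l8s_X_bd h l i).1
  have hXX : ∀ i, Measurable (P.XX t t' i) := fun i => (P.l8s_X_bd h t' i).1.sub (P.l8s_X_bd h t i).1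
  have h1 := P.l8c_fork_proj_incr h hp hk hgt htt ht hv hh (fun i p => P.X l i p.1)
    (fun i => @Measurable.comp (Ω × Ω) Ω ℝ (mΩ.prod (P.ℱ g)) mΩ _ (P.X l i) Prod.fst (hX i) (@measurable_fst Ω Ω mΩ (P.ℱ g)))
    (fun i => ⟨(P.l8s_X_bd h l i).2.choose, fun p => (P.l8s_X_bd h l i).2.choose_spec p.1⟩)
  have h2 : ∫ p : Ω × Ω, (∑ i, P.X l i p.1 ^ 2) ^ r ∂(P.fork k) = ∫ ω, P.nX l ω ^ r ∂P.μ :=
    P.l8c_fork_int_fst h k (f := fun ω => (∑ i, P.X l i ω ^ 2) ^ r) ((Finset.measurable_sum _ fun i _ => (hX i).pow_const 2).pow_const r)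
  rw [h2] at h1
  refine ⟨h1, ?_⟩
  have h3 := P.l8c_fork_int_swap h k (F := fun p => (∑ i, P.X l i p.1 * P.XX t t' i p.2) ^ (2 * r))
    ((Finset.measurable_sum _ fun i _ => ((hX i).comp measurable_fst).mul ((hXX i).comp measurable_snd)).pow_const _)
  rw [← h3] at h1
  refine le_trans (le_of_eq ?_) h1
  refine integral_congr_ae (Filter.Eventually.of_forall fun p => ?_)
  simp only [Prod.fst_swap, Prod.snd_swap]
  congr 1
  exact Finset.sum_congr rfl fun i _ => mul_comm _ _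

/-- telescoping of the projected pair along the layers `t 0 ≤ .. ≤ t b` -/
theorem l8c_low_tele (b : ℕ) (t : ℕ → ℕ) {u₁ u₂ : ℕ} (hu₁ : t 0 ≤ u₁) (hu₁' : u₁ ≤ t b) (hu₂ : t 0 ≤ u₂) (hu₂' : u₂ ≤ t b) (p : Ω × Ω) :
    P.QX u₁ u₂ p - P.QX (t 0) (t 0) p
      = ∑ i ∈ range b, ((∑ a, P.XX (min (t i) u₁) (min (t (i + 1)) u₁) a p.1 * P.X (min (t (i + 1)) u₂) a p.2)
          + ∑ a, P.X (min (t i) u₁) a p.1 * P.XX (min (t i) u₂) (min (t (i + 1)) u₂) a p.2) := by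
  have h1 := Finset.sum_range_sub (fun i => P.QX (min (t i) u₁) (min (t i) u₂) p) b
  simp only [min_eq_right hu₁', min_eq_right hu₂', min_eq_left hu₁, min_eq_left hu₂] at h1
  rw [← h1]
  refine Finset.sum_congr rfl fun i _ => ?_
  unfold L8P.QX L8P.XX
  rw [← Finset.sum_add_distrib, ← Finset.sum_sub_distrib]
  exact Finset.sum_congr rfl fun a _ => by ring

theorem l8c_mink2 {α : Type*} [MeasurableSpace α] (ν : Measure α) [IsFiniteMeasure ν] {F G : α → ℝ} {A B : ℝ} (r : ℕ) (hr : 1 ≤ r)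
    (hF : Measurable F) (hG : Measurable G) (hFb : ∃ c, ∀ x, |F x| ≤ c) (hGb : ∃ c, ∀ x, |G x| ≤ c) (hA : 0 ≤ A) (hB : 0 ≤ B)
    (h1 : ∫ x, F x ^ (2 * r) ∂ν ≤ A ^ (2 * r)) (h2 : ∫ x, G x ^ (2 * r) ∂ν ≤ B ^ (2 * r)) :
    ∫ x, (F x + G x) ^ (2 * r) ∂ν ≤ (A + B) ^ (2 * r) := by
  have := l8c_mink ν (Finset.univ : Finset Bool) (fun i => if i then F else G) (fun i => if i then A else B) r hr
    (by intro i _; cases i <;> simpa) (by intro i _; cases i <;> simpa) (by intro i _; cases i <;> simpa)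
    (by intro i _; cases i <;> simpa)
  simpa [add_comm] using this

theorem l8c_bd_fst {f : Ω → ℝ} (hf : L8Bd f) : @L8Bd (Ω × Ω) _ (fun p => f p.1) :=
  ⟨hf.1.comp measurable_fst, hf.2.choose, fun p => hf.2.choose_spec p.1⟩

theorem l8c_bd_snd {f : Ω → ℝ} (hf : L8Bd f) : @L8Bd (Ω × Ω) _ (fun p => f p.2) :=
  ⟨hf.1.comp measurable_snd, hf.2.choose, fun p => hf.2.choose_spec p.2⟩

theorem l8c_XX_bd (h : P.Ok) (k l : ℕ) (i : Fin m) : L8Bd (P.XX k l i) := (P.l8s_X_bd h l i).sub (P.l8s_X_bd h k i)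

theorem l8c_low_layer (h : P.Ok) {r : ℕ} (hr : 1 ≤ r) {c vmin hmin : ℝ} (hp : P.Proj r c vmin hmin) {k g s s' u l L : ℕ} (hk : k ≤ g)
    (hgs : g < s) (hss : s ≤ s') (hs : s ≤ P.n + 1) (hv : vmin ≤ P.v g) (hh : hmin ≤ P.hlen g s) (hl : l ≤ L) {κ N : ℝ} (hκ0 : 0 ≤ κ)
    (hκ : c / (P.v g ^ 2 * m * P.hlen g s) ^ r ≤ κ ^ (2 * r)) (hN0 : 0 ≤ N) (hN : ∫ ω, P.nX L ω ^ r ∂P.μ ≤ N ^ (2 * r)) :
    ∫ p, (∑ a, P.X l a p.1 * P.XX (min s u) (min s' u) a p.2) ^ (2 * r) ∂(P.fork k) ≤ (κ * N) ^ (2 * r) ∧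
    ∫ p, (∑ a, P.XX (min s u) (min s' u) a p.1 * P.X l a p.2) ^ (2 * r) ∂(P.fork k) ≤ (κ * N) ^ (2 * r) := by
  have hpos : (0 : ℝ) ≤ (κ * N) ^ (2 * r) := by positivity
  rcases le_or_gt u s with hus | hus
  · have e1 : min s u = u := min_eq_right hus
    have e2 : min s' u = u := min_eq_right (hus.trans hss)
    have hz : ∀ a ω, P.XX u u a ω = 0 := fun a ω => by simp [L8P.XX]
    have h0 : (2 * r) ≠ 0 := by omega
    simp only [e1, e2, hz, mul_zero, zero_mul, Finset.sum_const_zero, zero_pow h0, integral_zero]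
    exact ⟨hpos, hpos⟩
  · have e1 : min s u = s := min_eq_left hus.le
    rw [e1]
    have h1 := P.l8c_low_step h hp (t' := min s' u) l hk hgs (le_min hss hus.le) hs hv hh
    have h2 : ∫ ω, P.nX l ω ^ r ∂P.μ ≤ N ^ (2 * r) := (P.l8c_nX_pow_mono h r hl).trans hN
    have h3 : 0 ≤ ∫ ω, P.nX l ω ^ r ∂P.μ := integral_nonneg fun ω => pow_nonneg (P.l8c_nX_nonneg l ω) r
    have h4 : c / (P.v g ^ 2 * m * P.hlen g s) ^ r * ∫ ω, P.nX l ω ^ r ∂P.μ ≤ (κ * N) ^ (2 * r) := by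
      rw [mul_pow κ N]; exact mul_le_mul hκ h2 h3 (by positivity)
    exact ⟨h1.1.trans h4, h1.2.trans h4⟩

/-- TEX[LL:cor:statistics-low-projection] **Cor. 8.7**, abstract.  Fork at the cut `k`; layers `t 0 (= the common low cut c') ≤ .. ≤ t b`; before the layer `i` a gap
`[g i, t i]` after the fork (`g 0` = a cut of mass `≥ c'/8`, `g i = t (i-1)`); `κ i` = (A3) coefficient of the gap, `N i ≥ ‖ |X_(t i)| ‖_(2r)` ((D2) line 1) -/
theorem l8c_low_proj (h : P.Ok) {r : ℕ} (hr : 1 ≤ r) {c vmin hmin : ℝ} (hp : P.Proj r c vmin hmin) {k b : ℕ} (t g : ℕ → ℕ) (ht : Monotone t)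
    (htb : t b ≤ P.n + 1) (hg : ∀ i < b, k ≤ g i ∧ g i < t i) (hgv : ∀ i < b, vmin ≤ P.v (g i)) (hgh : ∀ i < b, hmin ≤ P.hlen (g i) (t i))
    {u₁ u₂ : ℕ} (hu₁ : t 0 ≤ u₁) (hu₁' : u₁ ≤ t b) (hu₂ : t 0 ≤ u₂) (hu₂' : u₂ ≤ t b) (κ N : ℕ → ℝ) (hκ0 : ∀ i < b, 0 ≤ κ i)
    (hκ : ∀ i < b, c / (P.v (g i) ^ 2 * m * P.hlen (g i) (t i)) ^ r ≤ κ i ^ (2 * r)) (hN0 : ∀ i ≤ b, 0 ≤ N i)
    (hN : ∀ i ≤ b, ∫ ω, P.nX (t i) ω ^ r ∂P.μ ≤ N i ^ (2 * r)) :
    ∫ p, (P.QX u₁ u₂ p - P.QX (t 0) (t 0) p) ^ (2 * r) ∂(P.fork k) ≤ (∑ i ∈ range b, κ i * (N (i + 1) + N i)) ^ (2 * r) := by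
  have := P.l8s_fork_prob h k
  simp only [P.l8c_low_tele b t hu₁ hu₁' hu₂ hu₂']
  have hb1 : ∀ i, @L8Bd (Ω × Ω) _ (fun p => ∑ a, P.XX (min (t i) u₁) (min (t (i + 1)) u₁) a p.1 * P.X (min (t (i + 1)) u₂) a p.2) :=
    fun i => L8Bd.sum _ fun a _ => (l8c_bd_fst (P.l8c_XX_bd h _ _ a)).mul (l8c_bd_snd (P.l8s_X_bd h _ a))
  have hb2 : ∀ i, @L8Bd (Ω × Ω) _ (fun p => ∑ a, P.X (min (t i) u₁) a p.1 * P.XX (min (t i) u₂) (min (t (i + 1)) u₂) a p.2) :=
    fun i => L8Bd.sum _ fun a _ => (l8c_bd_fst (P.l8s_X_bd h _ a)).mul (l8c_bd_snd (P.l8c_XX_bd h _ _ a))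
  refine l8c_mink (P.fork k) (range b) _ (fun i => κ i * (N (i + 1) + N i)) r hr (fun i _ => ((hb1 i).add (hb2 i)).1)
    (fun i _ => ((hb1 i).add (hb2 i)).2) (fun i hi => ?_) (fun i hi => ?_)
  · have hi' := Finset.mem_range.1 hi
    exact mul_nonneg (hκ0 i hi') (add_nonneg (hN0 _ (by omega)) (hN0 _ (by omega)))
  · have hi' := Finset.mem_range.1 hi
    have hti : t i ≤ P.n + 1 := (ht (by omega : i ≤ b)).trans htb
    have hA := (P.l8c_low_layer h hr hp (u := u₁) (l := min (t (i + 1)) u₂) (L := t (i + 1)) (hg i hi').1 (hg i hi').2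
      (ht (Nat.le_succ i)) hti (hgv i hi') (hgh i hi') (min_le_left _ _) (hκ0 i hi') (hκ i hi') (hN0 _ (by omega)) (hN _ (by omega))).2
    have hB := (P.l8c_low_layer h hr hp (u := u₂) (l := min (t i) u₁) (L := t i) (hg i hi').1 (hg i hi').2
      (ht (Nat.le_succ i)) hti (hgv i hi') (hgh i hi') (min_le_left _ _) (hκ0 i hi') (hκ i hi') (hN0 _ (by omega)) (hN _ (by omega))).1
    rw [mul_add]
    exact l8c_mink2 (P.fork k) r hr (hb1 i).1 (hb2 i).1 (hb1 i).2 (hb2 i).2 (mul_nonneg (hκ0 i hi') (hN0 _ (by omega)))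
      (mul_nonneg (hκ0 i hi') (hN0 _ (by omega))) hA hB

end E

end L8P

theorem l8c_geom4 (b : ℕ) : ∑ i ∈ range b, (1 / 4 : ℝ) ^ i = 4 / 3 * (1 - (1 / 4) ^ b) := by
  induction b with
  | zero => simp
  | succ b ih => rw [Finset.sum_range_succ, ih, pow_succ]; ring

/-- TEX[LL:cor:statistics-low-projection] the sum over doubling layers `ρ i = 2^i c'`: coefficient `κ i ≤ κ0 ρ_i^(-5/2)` (gap of mass and length `≍ ρ i`, (D3)),
anchor `N i ≤ N0 ρ_i^(1/2)`: the cost `κ0 N0 ρ_i^(-2) = z⁰(ρ_i) ρ_i` decreases geometrically -/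
theorem l8c_low_sum (b : ℕ) {c' κ0 N0 : ℝ} (hc : 0 < c') (hκ0 : 0 ≤ κ0) (hN0 : 0 ≤ N0) (κ N : ℕ → ℝ) (hN : ∀ i ≤ b, 0 ≤ N i)
    (hκ : ∀ i < b, κ i ≤ κ0 / (√(2 ^ i * c') * (2 ^ i * c') ^ 2)) (hN' : ∀ i ≤ b, N i ≤ N0 * √(2 ^ i * c')) :
    ∑ i ∈ range b, κ i * (N (i + 1) + N i) ≤ 4 * κ0 * N0 / c' ^ 2 := by
  have hterm : ∀ i ∈ range b, κ i * (N (i + 1) + N i) ≤ (5 / 2 * κ0 * N0 / c' ^ 2) * (1 / 4 : ℝ) ^ i := by
    intro i hi
    have hi' := Finset.mem_range.1 hi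
    set ρ : ℝ := 2 ^ i * c' with hρ
    have hρ0 : 0 < ρ := by positivity
    have hs : 0 < √ρ := Real.sqrt_pos.2 hρ0
    have h2 : √(2 ^ (i + 1) * c') = √2 * √ρ := by
      rw [← Real.sqrt_mul (by norm_num)]; congr 1; rw [hρ, pow_succ]; ring
    have hs2 : √2 ≤ 3 / 2 := by
      rw [show (3 / 2 : ℝ) = √((3 / 2) ^ 2) by rw [Real.sqrt_sq (by norm_num)]]
      exact Real.sqrt_le_sqrt (by norm_num)
    have hNN : N (i + 1) + N i ≤ N0 * (5 / 2 * √ρ) := by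
      have a1 := hN' (i + 1) (by omega)
      have a2 := hN' i (by omega)
      rw [h2] at a1
      have : N0 * (√2 * √ρ) ≤ N0 * (3 / 2 * √ρ) := by gcongr
      nlinarith
    have hNN0 : 0 ≤ N (i + 1) + N i := add_nonneg (hN _ (by omega)) (hN _ (by omega))
    calc κ i * (N (i + 1) + N i) ≤ κ0 / (√ρ * ρ ^ 2) * (N (i + 1) + N i) := mul_le_mul_of_nonneg_right (hκ i hi') hNN0
      _ ≤ κ0 / (√ρ * ρ ^ 2) * (N0 * (5 / 2 * √ρ)) := mul_le_mul_of_nonneg_left hNN (by positivity)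
      _ = 5 / 2 * κ0 * N0 / ρ ^ 2 := by field_simp
      _ = (5 / 2 * κ0 * N0 / c' ^ 2) * (1 / 4 : ℝ) ^ i := by
          rw [hρ, mul_pow, ← pow_mul, mul_comm i 2, pow_mul, one_div, inv_pow]; norm_num; field_simp
  refine (Finset.sum_le_sum hterm).trans ?_
  rw [← Finset.mul_sum, l8c_geom4]
  have h4 : (0 : ℝ) ≤ (1 / 4) ^ b := by positivity
  have hA : 0 ≤ κ0 * N0 / c' ^ 2 := by positivity
  have e : 5 / 2 * κ0 * N0 / c' ^ 2 = 5 / 2 * (κ0 * N0 / c' ^ 2) := by ring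
  have e' : 4 * κ0 * N0 / c' ^ 2 = 4 * (κ0 * N0 / c' ^ 2) := by ring
  rw [e, e']
  nlinarith [mul_nonneg hA h4]

end Claimed.Agent.R286
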