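-- KEEP
import Claimed.Agent.R286.L08.FineA
import Claimed.Agent.R286.LL.PathsClkE

/-!
# Row 286 (S0533), folder L08, file FineC : THE CLOCK PART OF `I.Fine`, SEC. C = FROM LL SEC. 3 TO THE CHAIN      (owner helper214; prefix `l8f_`, `L8f`)

INPUT: `LlSec3 𝔹 F` (fields `equi` = equicontinuity at fixed `N` of 253, `adm`, `ref`, `p4`, `p9`).      OUTPUT (no `L8In`: light imports; `I.LP`, `I.js`, `I.v`, `I.bC`.. unfold to the terms below by `rfl`):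
* `l8f_ph`   : at fixed `N ≥ N0` ONE bound `Jm` of the total clocks, `K 0 = 0`, admissibility (`L8fPh`);
* `l8f_mods` : the three moduli of the clamped clocks (`b` off `{0, x}`, `h` off `{x}`, `K` off `{x}`) with ONE `δ` for all the points of the dyad `N`;
* `L8fVal`   : exact values `ghAt a c q = c q.u` (`b`: `q.u ≠ 0` or `q.lam = 1`;  `h`: `q.u ≠ x` or `q.lam = 1`;  `K`: always);
* **`l8f_main`**  (GENERIC chains `ghPs p.a Fs`, `Fs ⊇ R`; the jump of `b` at `0` and the jump of `h` at `x` are split in `M` pieces)  and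
  **`l8f_main0`** (chains whose only position of mass `0` is `(0,1)`: `ghPs p.a (l9Fl Fs)`):   `∃ N0, ∀ N ≥ N0, ∀ s η, 0 < η → ∃ R, ∀ Fs ⊇ R, ∀ p Ok, p.N = N, 0 < s < x : L8fPt 𝔹 F p s η (ghPs p.a Fs)`
  = ALL the clock fields of `L8In.Fine` (`adm dv_le db_le dh_le dK_le b_top h_top K_top js_lt js_m js_next low`), `a4 : LlTiltA4`, and the exact values `b_eq K_eq h_eq h_jump` at the stages.      0 sorry
-/

set_option autoImplicit false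

namespace Claimed.Agent.R286

open Set Filter

/-! ## C1. from a modulus on `[0,a]` to the modulus of the clamped clock -/

theorem l8f_mod_of {a δ η : ℝ} {c : ℝ → ℝ} {J : Finset ℝ} (ha : 0 ≤ a) (hη : 0 ≤ η) (h0 : c 0 = 0 ∨ (0 : ℝ) ∈ J)
    (hc : ∀ v v', 0 ≤ v → v ≤ v' → v' ≤ a → v' - v ≤ δ → (∀ j ∈ J, ¬ (v < j ∧ j ≤ v')) → c v' - c v ≤ η) :
    L8fMod (ghClamp a c) J δ η := by
  intro w w' hww hd hJ
  unfold ghClamp
  by_cases hw' : w' < 0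
  · rw [if_pos hw', if_pos (lt_of_le_of_lt hww hw')]; simpa using hη
  · push Not at hw'
    rw [if_neg (not_lt.2 hw')]
    by_cases hw : w < 0
    · rw [if_pos hw, sub_zero]
      rcases h0 with h0 | h0
      · have := hc 0 (min w' a) le_rfl (le_min hw' ha) (min_le_right _ _) (by linarith [min_le_left w' a])
          (fun j hj h => hJ j hj ⟨by linarith [h.1], h.2.trans (min_le_left _ _)⟩)
        rw [h0, sub_zero] at this
        exact this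
      · exact absurd ⟨hw, hw'⟩ (hJ 0 h0)
    · push Not at hw
      rw [if_neg (not_lt.2 hw)]
      refine hc (min w a) (min w' a) (le_min hw ha) (min_le_min_right _ hww) (min_le_right _ _) ?_ ?_
      · rcases le_total w a with h | h
        · rw [min_eq_left h]; linarith [min_le_left w' a]
        · rw [min_eq_right h, min_eq_right (h.trans hww)]; linarith
      · intro j hj h
        rcases le_total w a with h' | h'
        · rw [min_eq_left h'] at h; exact hJ j hj ⟨h.1, h.2.trans (min_le_left _ _)⟩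
        · rw [min_eq_right h'] at h; linarith [h.1, h.2, min_le_right w' a]

/-- chaining a modulus -/
theorem l8f_iter {c : ℝ → ℝ} {δ η u : ℝ} (hδ : 0 < δ) (hη : 0 ≤ η) : ∀ (n : ℕ) (u' : ℝ), u ≤ u' → u' - u ≤ n * δ →
    (∀ v v', u ≤ v → v ≤ v' → v' ≤ u' → v' - v ≤ δ → c v' - c v ≤ η) → c u' - c u ≤ n * η
  | 0, u', h1, h2, _ => by
      have : u' = u := le_antisymm (by simpa using h2) h1
      rw [this]; simp
  | n + 1, u', h1, h2, h => by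
      have hm : u ≤ max u (u' - δ) := le_max_left _ _
      have hm' : max u (u' - δ) ≤ u' := max_le h1 (by linarith)
      have a1 := h (max u (u' - δ)) u' hm hm' le_rfl (by linarith [le_max_right u (u' - δ)])
      have a2 := l8f_iter hδ hη n (max u (u' - δ)) hm (by
        rcases le_total u (u' - δ) with h' | h'
        · rw [max_eq_right h']; push_cast at h2; linarith
        · rw [max_eq_left h', sub_self]; positivity) (fun v v' b1 b2 b3 b4 => h v v' b1 b2 (b3.trans hm') b4)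
      push_cast
      linarith

/-! ## C2. the facts of LL Sec. 3 at the points of one dyad -/

/-- what the chain lemma needs at one point, besides the moduli -/
structure L8fPh (𝔹 : LlBase) (F : LlFix) (p : LlPt) (Jm : ℝ) : Prop where
  a1 : 1 ≤ p.a
  a4 : p.a ≤ 4
  x0 : 0 < p.x
  x1 : p.x < 1
  cb : GhClk1 p.a (p.b F 𝔹)
  ch : GhClk1 p.a (p.h F 𝔹)
  cK : GhClk1 p.a (p.K F 𝔹)
  K0 : p.K F 𝔹 0 = 0
  bx : ∀ v ∈ Icc 0 p.x, p.b F 𝔹 v = p.b F 𝔹 0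
  mq : MonotoneOn (p.q F 𝔹) (Icc 0 p.a)
  gam0 : p.Gam F 𝔹 0 = 0
  jb : p.b F 𝔹 p.a ≤ Jm
  jh : p.h F 𝔹 p.a ≤ Jm
  jK : p.K F 𝔹 p.a ≤ Jm

theorem l8f_h_low (𝔹 : LlBase) (F : LlFix) (p : LlPt) {v : ℝ} (hv : v < p.x) : p.h F 𝔹 v = 0 := by
  unfold LlPt.h
  rw [if_pos hv]

theorem l8f_ell_le_two {F : LlFix} {p : LlPt} (hp : p.Ok F) : p.ell ≤ 2 := by
  refine le_trans hp.ell2 ?_
  calc (2 : ℝ) ^ (1 / 6 : ℝ) ≤ (2 : ℝ) ^ (1 : ℝ) := Real.rpow_le_rpow_of_exponent_le (by norm_num) (by norm_num)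
    _ = 2 := Real.rpow_one 2

theorem l8f_abs_mul_le {C t B : ℝ} (h0 : 0 ≤ t) (h1 : t ≤ B) : C * t ≤ |C| * B :=
  (mul_le_mul_of_nonneg_right (le_abs_self C) h0).trans (mul_le_mul_of_nonneg_left h1 (abs_nonneg C))

/-- the jump of the field clock at the mask `v = x` is bounded -/
theorem l8f_hx_le {𝔹 : LlBase} {F : LlFix} (h3 : LlSec3 𝔹 F) : ∃ (C : ℝ) (N0 : ℕ), 0 ≤ C ∧ ∀ p : LlPt, p.Ok F → N0 ≤ p.N → p.h F 𝔹 p.x ≤ C := by
  obtain ⟨c4, C4, v4, _, hv4, N4, h4⟩ := h3.p4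
  obtain ⟨κ, hκ, h9⟩ := h3.p9
  obtain ⟨C9, N9, h9⟩ := h9 (1 / 2) (by norm_num)
  obtain ⟨ca, Ca, _, Na, hadm⟩ := h3.adm
  obtain ⟨Nx, hx⟩ := lce_x_small v4 hv4
  refine ⟨|C9| * 1 + |C4| * 2 + 1, max (max N4 N9) (max Na Nx), by positivity, fun p hp hN => ?_⟩
  have hN4 : N4 ≤ p.N := ((le_max_left _ _).trans (le_max_left _ _)).trans hN
  have hN9 : N9 ≤ p.N := ((le_max_right _ _).trans (le_max_left _ _)).trans hN
  have hNa : Na ≤ p.N := ((le_max_left _ _).trans (le_max_right _ _)).trans hN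
  have hNx : Nx ≤ p.N := ((le_max_right _ _).trans (le_max_right _ _)).trans hN
  have hx0 := lce_x_pos hp.N2
  have hx1 := lce_x_lt_one hp.N2
  have hl1 := hp.ell1
  have hl0 : 0 < p.ell := by linarith
  have hA9 := abs_nonneg C9
  have hA4 := abs_nonneg C4
  cases hsm : p.sm
  · -- direct: (P9)
    have hw : p.x / p.ell ∈ Ioo (0 : ℝ) 1 := ⟨div_pos hx0 hl0, by rw [div_lt_one hl0]; linarith⟩
    have hl2 := l8f_ell_le_two hp
    have hw2 : 1 / 2 * p.x ≤ p.x / p.ell := by rw [le_div_iff₀ hl0]; nlinarith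
    have h := ((h9 p hp hN9).2 hsm _ hw hw2).2
    rw [mul_div_cancel₀ _ hl0.ne'] at h
    have hxa : p.x ∈ Icc 0 p.a := ⟨hx0.le, by linarith [(lce_a_mem hp).1]⟩
    have hnn : 0 ≤ p.h F 𝔹 p.x := ((hadm p hp hNa).2.2.2.2.2.1 _ hxa).2.2.1
    have e1 : 0 ≤ p.x ^ κ := Real.rpow_nonneg hx0.le _
    have e2 : p.x ^ κ ≤ 1 := Real.rpow_le_one hx0.le hx1.le hκ.le
    have e3 : 0 ≤ (p.x / p.ell) ^ 3 := pow_nonneg hw.1.le _
    have e4 : (p.x / p.ell) ^ 3 ≤ 1 := pow_le_one₀ hw.1.le hw.2.le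
    have e5 : C9 * p.x ^ κ * (p.x / p.ell) ^ 3 ≤ |C9| * 1 := by
      rw [mul_assoc]
      exact l8f_abs_mul_le (mul_nonneg e1 e3) (by nlinarith)
    have e6 : p.h F 𝔹 p.x ≤ p.ell ^ 2 * p.h F 𝔹 p.x := by
      have : (1 : ℝ) ≤ p.ell ^ 2 := one_le_pow₀ hl1
      exact le_mul_of_one_le_left hnn this
    linarith [le_abs_self (p.ell ^ 2 * p.h F 𝔹 p.x)]
  · -- smoothed: explicit
    obtain ⟨_, hchi⟩ := hp.sm_fin hsm
    have hS := (h4 p hp hN4).2 p.x ⟨hx0, hx p hNx⟩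
    have hlam0 := lce_lam_pos hp
    have hlam1 := lce_lam_le_one hp h3.ok.pS0.le
    have hU0 := lce_U_pos (F := F) hp
    have hU1 : p.U F ≤ 1 := lce_U_le_one
    have hmin : min p.x p.ell = p.x := min_eq_left (by linarith)
    have hlo : p.Hlo F p.x = 0 := by
      unfold LlPt.Hlo
      rw [hmin, div_self hx0.ne', Real.log_one, mul_zero]
    have hlin0 : 0 ≤ p.Hlin F p.x := by
      unfold LlPt.Hlin
      exact mul_nonneg (pow_nonneg hx0.le _) (le_max_left _ _)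
    have hlin : p.Hlin F p.x ≤ 1 := by
      unfold LlPt.Hlin
      rw [hmin]
      have h1 : max 0 (p.x - 4 * F.vb) ≤ 1 := max_le zero_le_one (by linarith [h3.ok.vb0])
      have h2 : p.x ^ 3 ≤ 1 := pow_le_one₀ hx0.le hx1.le
      calc p.x ^ 3 * max 0 (p.x - 4 * F.vb) ≤ 1 * 1 := mul_le_mul h2 h1 (le_max_left _ _) zero_le_one
        _ = 1 := one_mul 1
    have hcl : p.chiL * p.Hlin F p.x ≤ 1 := by nlinarith [hp.chiL.1, hp.chiL.2]
    have e5 : C4 * p.lam * (p.x ^ 3 + p.x * p.U F ^ 2) ≤ |C4| * 2 := by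
      rw [mul_assoc]
      have t1 : p.x ^ 3 ≤ 1 := pow_le_one₀ hx0.le hx1.le
      have t2 : p.U F ^ 2 ≤ 1 := pow_le_one₀ hU0.le hU1
      have t3 : p.x * p.U F ^ 2 ≤ 1 := by nlinarith [sq_nonneg (p.U F)]
      have t4 : 0 ≤ p.x ^ 3 + p.x * p.U F ^ 2 := by positivity
      exact l8f_abs_mul_le (mul_nonneg hlam0.le t4) (by nlinarith)
    unfold LlPt.h
    rw [if_neg (lt_irrefl _), hchi, zero_mul, add_zero, hlo, add_zero]
    linarith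

/-- **the facts at fixed `N`** -/
theorem l8f_ph {𝔹 : LlBase} {F : LlFix} (h3 : LlSec3 𝔹 F) : ∃ N0 : ℕ, ∀ N : ℕ, N0 ≤ N → ∃ Jm : ℝ, 0 ≤ Jm ∧ ∀ p : LlPt, p.Ok F → p.N = N → L8fPh 𝔹 F p Jm := by
  obtain ⟨ca, Ca, _, Na, hadm⟩ := h3.adm
  obtain ⟨cr, Cr, v0, _, hv0, Nr, href⟩ := h3.ref
  obtain ⟨Ne, he⟩ := h3.equi
  obtain ⟨Ch, Nh, hCh, hhx⟩ := l8f_hx_le h3
  refine ⟨max (max Na Nr) (max Ne Nh), fun N hN => ?_⟩
  have hNa : Na ≤ N := ((le_max_left _ _).trans (le_max_left _ _)).trans hN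
  have hNr : Nr ≤ N := ((le_max_right _ _).trans (le_max_left _ _)).trans hN
  have hNe : Ne ≤ N := ((le_max_left _ _).trans (le_max_right _ _)).trans hN
  have hNh : Nh ≤ N := ((le_max_right _ _).trans (le_max_right _ _)).trans hN
  obtain ⟨δ, hδ, hmod⟩ := he N hNe 1 one_pos
  obtain ⟨n, hn⟩ := exists_nat_ge (4 / δ)
  have hn4 : 4 ≤ (n : ℝ) * δ := by rwa [div_le_iff₀ hδ] at hn
  refine ⟨|Ca| + n + Ch, by positivity, fun p hp hpN => ?_⟩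
  subst hpN
  obtain ⟨mb, mh, _, mK, mq, hbd, _, hbx⟩ := hadm p hp hNa
  have hR := href p hp hNr
  obtain ⟨ha1, ha4⟩ := lce_a_mem hp
  have hx0 := lce_x_pos hp.N2
  have hx1 := lce_x_lt_one hp.N2
  have h0a : (0 : ℝ) ∈ Icc 0 p.a := ⟨le_rfl, by linarith⟩
  have haa : p.a ∈ Icc 0 p.a := ⟨by linarith, le_rfl⟩
  have hK0 : p.K F 𝔹 0 = 0 := by
    refine le_antisymm (le_of_forall_pos_le_add fun ε hε => ?_) (hbd 0 h0a).2.2.2.2
    -- `K 0 ≤ K v ≤ C v`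
    have hC0 : 0 < |Cr| + 1 := by positivity
    set v : ℝ := min (min v0 1) (ε / (|Cr| + 1)) with hv
    have hvp : 0 < v := lt_min (lt_min hv0 one_pos) (div_pos hε hC0)
    have h1 := hR.K_hi0 v hvp ((min_le_left _ _).trans (min_le_left _ _))
    have hv1 : v ≤ p.a := ((min_le_left _ _).trans (min_le_right _ _)).trans ha1
    have h2 := mK h0a ⟨hvp.le, hv1⟩ hvp.le
    have h3' : Cr * v ≤ ε := by
      have : v ≤ ε / (|Cr| + 1) := min_le_right _ _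
      have h4 : (|Cr| + 1) * v ≤ ε := by rwa [le_div_iff₀ hC0, mul_comm] at this
      nlinarith [le_abs_self Cr]
    linarith
  have hKa : p.K F 𝔹 p.a ≤ n := by
    have := l8f_iter (c := p.K F 𝔹) (u := 0) hδ zero_le_one n p.a (by linarith) (by linarith)
      (fun v v' b1 b2 b3 b4 => (hmod p hp rfl v v' b1 b2 b3 b4).1)
    rw [hK0] at this
    linarith
  have hha : p.h F 𝔹 p.a ≤ n + Ch := by
    have := l8f_iter (c := p.h F 𝔹) (u := p.x) hδ zero_le_one n p.a (by linarith) (by linarith)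
      (fun v v' b1 b2 b3 b4 => (hmod p hp rfl v v' (by linarith) b2 b3 b4).2.2.2.2 (Or.inr b1))
    linarith [hhx p hp hNh]
  have hnn : (0 : ℝ) ≤ n := Nat.cast_nonneg _
  exact
  { a1 := ha1
    a4 := ha4
    x0 := hx0
    x1 := hx1
    cb := ⟨mb, by linarith [(hbd 0 h0a).1]⟩
    ch := ⟨mh, (hbd 0 h0a).2.2.1⟩
    cK := ⟨mK, (hbd 0 h0a).2.2.2.2⟩
    K0 := hK0
    bx := hbx
    mq := mq
    gam0 := hR.gam_zero
    jb := by linarith [(hbd _ haa).2.1, le_abs_self Ca]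
    jh := by linarith [abs_nonneg Ca]
    jK := by linarith [abs_nonneg Ca] }

/-! ## C3. the moduli of the clamped clocks, exact values -/

/-- the modulus of `LlEqui` at one point -/
def L8fEq (𝔹 : LlBase) (F : LlFix) (p : LlPt) (δ η : ℝ) : Prop :=
  ∀ v v' : ℝ, 0 ≤ v → v ≤ v' → v' ≤ p.a → v' - v ≤ δ →
    p.K F 𝔹 v' - p.K F 𝔹 v ≤ η ∧ p.q F 𝔹 v' - p.q F 𝔹 v ≤ η ∧ p.b F 𝔹 v' - p.b F 𝔹 v ≤ η ∧ p.hS F 𝔹 v' - p.hS F 𝔹 v ≤ η ∧
      ((v' < p.x ∨ p.x ≤ v) → p.h F 𝔹 v' - p.h F 𝔹 v ≤ η)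

theorem l8f_mods {𝔹 : LlBase} {F : LlFix} {p : LlPt} {Jm δ η : ℝ} (hP : L8fPh 𝔹 F p Jm) (hη : 0 ≤ η) (hE : L8fEq 𝔹 F p δ η) :
    L8fMod (ghClamp p.a (p.b F 𝔹)) {0} δ η ∧ L8fMod (ghClamp p.a (p.h F 𝔹)) {p.x} δ η ∧ L8fMod (ghClamp p.a (p.K F 𝔹)) ∅ δ η := by
  have ha : 0 ≤ p.a := by linarith [hP.a1]
  refine ⟨l8f_mod_of ha hη (Or.inr (Finset.mem_singleton_self _)) fun v v' a1 a2 a3 a4 _ => (hE v v' a1 a2 a3 a4).2.2.1,
    l8f_mod_of ha hη (Or.inl (l8f_h_low 𝔹 F p hP.x0)) fun v v' a1 a2 a3 a4 a5 => (hE v v' a1 a2 a3 a4).2.2.2.2 ?_,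
    l8f_mod_of ha hη (Or.inl hP.K0) fun v v' a1 a2 a3 a4 _ => (hE v v' a1 a2 a3 a4).1⟩
  have := a5 p.x (Finset.mem_singleton_self _)
  rcases lt_or_ge v p.x with h | h
  · exact Or.inl (by by_contra hc; exact this ⟨h, not_lt.1 hc⟩)
  · exact Or.inr h

/-- exact values of the clocks at the positions -/
structure L8fVal (𝔹 : LlBase) (F : LlFix) (p : LlPt) : Prop where
  b : ∀ q : GhPos, q.Ok p.a → (q.u ≠ 0 ∨ q.lam = 1) → ghAt p.a (p.b F 𝔹) q = p.b F 𝔹 q.u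
  h : ∀ q : GhPos, q.Ok p.a → (q.u ≠ p.x ∨ q.lam = 1) → ghAt p.a (p.h F 𝔹) q = p.h F 𝔹 q.u
  K : ∀ q : GhPos, q.Ok p.a → ghAt p.a (p.K F 𝔹) q = p.K F 𝔹 q.u
  b' : ∀ q : GhPos, q.Ok p.a → 0 ≤ ghAt p.a (p.b F 𝔹) q ∧ ghAt p.a (p.b F 𝔹) q ≤ p.b F 𝔹 q.u
  h' : ∀ q : GhPos, q.Ok p.a → 0 ≤ ghAt p.a (p.h F 𝔹) q ∧ ghAt p.a (p.h F 𝔹) q ≤ p.h F 𝔹 q.u

theorem l8f_vals {𝔹 : LlBase} {F : LlFix} {p : LlPt} {Jm : ℝ} (hP : L8fPh 𝔹 F p Jm) (hE : ∀ η > 0, ∃ δ > 0, L8fEq 𝔹 F p δ η) : L8fVal 𝔹 F p := by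
  have ha : 0 ≤ p.a := by linarith [hP.a1]
  have mb : ∀ η > 0, ∃ δ > 0, L8fMod (ghClamp p.a (p.b F 𝔹)) {0} δ η := fun η hη => by
    obtain ⟨δ, hδ, h⟩ := hE η hη
    exact ⟨δ, hδ, (l8f_mods hP hη.le h).1⟩
  have mh : ∀ η > 0, ∃ δ > 0, L8fMod (ghClamp p.a (p.h F 𝔹)) {p.x} δ η := fun η hη => by
    obtain ⟨δ, hδ, h⟩ := hE η hη
    exact ⟨δ, hδ, (l8f_mods hP hη.le h).2.1⟩
  have mK : ∀ η > 0, ∃ δ > 0, L8fMod (ghClamp p.a (p.K F 𝔹)) ∅ δ η := fun η hη => by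
    obtain ⟨δ, hδ, h⟩ := hE η hη
    exact ⟨δ, hδ, (l8f_mods hP hη.le h).2.2⟩
  exact
  { b := fun q hq h => l8f_at_cont ha hP.cb mb hq (h.imp (fun h' hm => h' (Finset.mem_singleton.1 hm)) id)
    h := fun q hq h => l8f_at_cont ha hP.ch mh hq (h.imp (fun h' hm => h' (Finset.mem_singleton.1 hm)) id)
    K := fun q hq => l8f_at_cont ha hP.cK mK hq (Or.inl (Finset.notMem_empty _))
    b' := fun q hq => l8f_at_mem ha hP.cb mb hq
    h' := fun q hq => l8f_at_mem ha hP.ch mh hq }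

/-! ## C4. everything on one chain at one point -/

/-- the fine path of the point `p` on the chain `ps`   (`I.LP = l8fLP I.𝔹 I.F I.p (I.i9.ps I.p)` by `rfl`) -/
noncomputable abbrev l8fLP (𝔹 : LlBase) (F : LlFix) (p : LlPt) (ps : List GhPos) : LlStp := l9Stp p.a (p.b F 𝔹) (p.h F 𝔹) (p.K F 𝔹) 0 0 0 ps

/-- **the clock part of `L8In.Fine`** (+ (A4), + exact values at the stages) -/
structure L8fPt (𝔹 : LlBase) (F : LlFix) (p : LlPt) (s η : ℝ) (ps : List GhPos) : Prop where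
  adm : LlStpAdm p.a (l8fLP 𝔹 F p ps)
  dv_le : ∀ k ≤ (l8fLP 𝔹 F p ps).length, skGap p.a (llMat (l8fLP 𝔹 F p ps)) k ≤ η
  db_le : ∀ e ∈ l8fLP 𝔹 F p ps, 0 < e.m → e.db ≤ η
  dh_le : ∀ e ∈ l8fLP 𝔹 F p ps, e.dh ≤ η
  dK_le : ∀ e ∈ l8fLP 𝔹 F p ps, e.dK ≤ η
  b_top : p.b F 𝔹 p.a - skCumB (llMat (l8fLP 𝔹 F p ps)) (l8fLP 𝔹 F p ps).length ≤ η
  h_top : p.h F 𝔹 p.a - skCumH (llMat (l8fLP 𝔹 F p ps)) (l8fLP 𝔹 F p ps).length ≤ η
  K_top : p.K F 𝔹 p.a - llCumK (l8fLP 𝔹 F p ps) (l8fLP 𝔹 F p ps).length ≤ η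
  js_lt : l9Js s ps < (l8fLP 𝔹 F p ps).length
  js_m : skMs p.a (llMat (l8fLP 𝔹 F p ps)) (l9Js s ps) = s
  js_next : s < skMs p.a (llMat (l8fLP 𝔹 F p ps)) (l9Js s ps + 1)
  low : ∀ e ∈ l8fLP 𝔹 F p ps, e.m < p.x → e.dh = 0 ∧ (e.db = 0 ∨ e.m = 0)
  a4 : LlTiltA4 p.a (l8fLP 𝔹 F p ps) (l9Js s ps)
  b_eq : ∀ k < (l8fLP 𝔹 F p ps).length, 0 < skMs p.a (llMat (l8fLP 𝔹 F p ps)) k →
    skCumB (llMat (l8fLP 𝔹 F p ps)) (k + 1) = p.b F 𝔹 (skMs p.a (llMat (l8fLP 𝔹 F p ps)) k)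
  b_zero : ∀ k < (l8fLP 𝔹 F p ps).length, skMs p.a (llMat (l8fLP 𝔹 F p ps)) k = 0 →
    0 ≤ skCumB (llMat (l8fLP 𝔹 F p ps)) (k + 1) ∧ skCumB (llMat (l8fLP 𝔹 F p ps)) (k + 1) ≤ p.b F 𝔹 0
  K_eq : ∀ k < (l8fLP 𝔹 F p ps).length, llCumK (l8fLP 𝔹 F p ps) (k + 1) = p.K F 𝔹 (skMs p.a (llMat (l8fLP 𝔹 F p ps)) k)
  h_eq : ∀ k < (l8fLP 𝔹 F p ps).length, skMs p.a (llMat (l8fLP 𝔹 F p ps)) k ≠ p.x →
    skCumH (llMat (l8fLP 𝔹 F p ps)) (k + 1) = p.h F 𝔹 (skMs p.a (llMat (l8fLP 𝔹 F p ps)) k)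
  h_jump : ∀ k < (l8fLP 𝔹 F p ps).length, skMs p.a (llMat (l8fLP 𝔹 F p ps)) k = p.x →
    0 ≤ skCumH (llMat (l8fLP 𝔹 F p ps)) (k + 1) ∧ skCumH (llMat (l8fLP 𝔹 F p ps)) (k + 1) ≤ p.h F 𝔹 p.x
  /-- the masses of the stages -/
  v_zero : skMs p.a (llMat (l8fLP 𝔹 F p ps)) 0 = 0
  v_mem : ∀ k, skMs p.a (llMat (l8fLP 𝔹 F p ps)) k ∈ Icc 0 p.a
  v_mono : ∀ k, skMs p.a (llMat (l8fLP 𝔹 F p ps)) k ≤ skMs p.a (llMat (l8fLP 𝔹 F p ps)) (k + 1)
  /-- the mass cells are shorter than the window of the modulus `η` of ALL the path functions `K, q, b, h_*, h` -/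
  mesh : ∃ δ : ℝ, (∀ k ≤ (l8fLP 𝔹 F p ps).length, skGap p.a (llMat (l8fLP 𝔹 F p ps)) k ≤ δ) ∧ L8fEq 𝔹 F p δ η
  /-- `Γ` at the scalar time of the cut `k` against `q` at the mass of the stage `k` (with the Q-LINK of 120, `L9vV.q`, this is `q_link`) -/
  q_step : ∀ k ≤ (l8fLP 𝔹 F p ps).length, |p.q F 𝔹 (skMs p.a (llMat (l8fLP 𝔹 F p ps)) k) - p.Gam F 𝔹 (llCumK (l8fLP 𝔹 F p ps) k)| ≤ η

/-- below the mask nothing is revealed but the jump of the matrix clock at the mass `0` -/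
theorem l8f_below {𝔹 : LlBase} {F : LlFix} {p : LlPt} {Jm : ℝ} {ps : List GhPos} (hP : L8fPh 𝔹 F p Jm) (hV : L8fVal 𝔹 F p)
    (hlt : ps.Pairwise (· < ·)) (hok : ∀ q ∈ ps, q.Ok p.a) (h0 : ghPosA 0 ∈ ps) :
    ∀ e ∈ l8fLP 𝔹 F p ps, e.m < p.x → e.dh = 0 ∧ (e.db = 0 ∨ e.m = 0) := by
  intro e he hm
  have hh0 : ∀ q : GhPos, q.Ok p.a → q.u < p.x → ghAt p.a (p.h F 𝔹) q = 0 := fun q hq hu => by
    rw [hV.h q hq (Or.inl hu.ne), l8f_h_low 𝔹 F p hu]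
  rcases l8f_stp_mem p.a (p.b F 𝔹) (p.h F 𝔹) (p.K F 𝔹) ps 0 0 0 e he with ⟨q, l, rfl, rfl⟩ | ⟨l1, q, q', l2, rfl, rfl⟩
  · have hq := hok q (by simp)
    refine ⟨by simp only [sub_zero]; exact hh0 q hq hm, Or.inr ?_⟩
    have h2 : q ≤ ghPosA 0 := by
      rcases List.mem_cons.1 h0 with h | h
      · exact h.ge
      · exact ((List.pairwise_cons.1 hlt).1 _ h).le
    have h3 : q.u ≤ 0 := by
      rcases (gh_os_pos_le_iff _ _).1 h2 with h | h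
      · exact h.le
      · exact h.1.le
    exact le_antisymm h3 hq.1
  · have hn := l8f_next_of_append hlt
    have hq := hok q hn.1
    have hq' := hok q' hn.2.1
    have hm' : q'.u < p.x := hm
    have hu : q.u ≤ q'.u := by
      rcases (gh_os_pos_lt_iff _ _).1 hn.2.2.1 with h | h
      · exact h.le
      · exact h.1.le
    refine ⟨?_, ?_⟩
    · show ghAt p.a (p.h F 𝔹) q' - ghAt p.a (p.h F 𝔹) q = 0
      rw [hh0 q' hq' hm', hh0 q hq (lt_of_le_of_lt hu hm'), sub_zero]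
    · rcases hq'.1.eq_or_lt with h | h
      · exact Or.inr h.symm
      · left
        show ghAt p.a (p.b F 𝔹) q' - ghAt p.a (p.b F 𝔹) q = 0
        have e1 : ghAt p.a (p.b F 𝔹) q' = p.b F 𝔹 0 := by
          rw [hV.b q' hq' (Or.inl h.ne'), hP.bx _ ⟨hq'.1, hm'.le⟩]
        have e2 : ghAt p.a (p.b F 𝔹) q = p.b F 𝔹 0 := by
          rw [hV.b q hq ?_, hP.bx _ ⟨hq.1, (lt_of_le_of_lt hu hm').le⟩]
          rcases hq.1.eq_or_lt with h' | h'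
          · right
            rcases hn.2.2.2 _ h0 with h'' | h''
            · rcases (gh_os_pos_le_iff _ _).1 h'' with h3 | h3
              · exact absurd h3 (by rw [← h']; exact lt_irrefl _)
              · exact le_antisymm hq.2.2.2 h3.2
            · rcases (gh_os_pos_le_iff _ _).1 h'' with h3 | h3
              · exact absurd h3 (not_lt.2 h.le)
              · exact absurd h3.1 h.ne'
          · exact Or.inl h'.ne'
        rw [e1, e2, sub_self]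

/-- the true mesh of a fine chain -/
theorem l8f_mesh {a δ : ℝ} {M : ℕ} {J : Finset ℝ} {ps : List GhPos} (b h K : ℝ → ℝ) (hδ : 0 < δ) (hM : 0 < M) (hf : L8fFine a δ M J ps)
    (h0 : ghPosA 0 ∈ ps) : ∀ k ≤ ps.length, skGap a (llMat (l9Stp a b h K 0 0 0 ps)) k ≤ δ := by
  intro k hk
  unfold skGap
  rw [l8f_ms, l8f_ms]
  refine l8f_gap hf.lt (fun p p' hn => l8f_next_mass hf hM hδ.le hn) (fun p l hpl => ?_) (fun p hp hmx => ?_) (List.ne_nil_of_mem h0) k hk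
  · subst hpl
    have h2 : p ≤ ghPosA 0 := by
      rcases List.mem_cons.1 h0 with h | h
      · exact h.ge
      · exact ((List.pairwise_cons.1 hf.lt).1 _ h).le
    rcases (gh_os_pos_le_iff _ _).1 h2 with h | h
    · exact h.le.trans hδ.le
    · exact h.1.le.trans hδ.le
  · by_contra hc
    push Not at hc
    obtain ⟨g, h1, _, h3⟩ := hf.grid p.u a (hf.ok p hp).1 le_rfl hc
    exact absurd (hmx _ h3) (not_le.2 ((gh_os_pos_lt_iff _ _).2 (Or.inl h1)))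

theorem L8fEq.mono {𝔹 : LlBase} {F : LlFix} {p : LlPt} {δ δ' η : ℝ} (h : L8fEq 𝔹 F p δ η) (hδ : δ' ≤ δ) : L8fEq 𝔹 F p δ' η :=
  fun v v' a1 a2 a3 a4 => h v v' a1 a2 a3 (a4.trans hδ)

/-- from the chain lemma (either form) to the full record -/
theorem l8f_pt_of {𝔹 : LlBase} {F : LlFix} {p : LlPt} {Jm s η : ℝ} {ps : List GhPos} (hP : L8fPh 𝔹 F p Jm) (hV : L8fVal 𝔹 F p)
    (hlt : ps.Pairwise (· < ·)) (hok : ∀ q ∈ ps, q.Ok p.a) (h0 : ghPosA 0 ∈ ps) (hsx : s < p.x) {δ : ℝ}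
    (hmesh : ∀ k ≤ ps.length, skGap p.a (llMat (l8fLP 𝔹 F p ps)) k ≤ δ) (hE : L8fEq 𝔹 F p δ η)
    (H : L8fClk p.a η (p.b F 𝔹) (p.h F 𝔹) (p.K F 𝔹) s ps ∨ L8fClk0 p.a η (p.b F 𝔹) (p.h F 𝔹) (p.K F 𝔹) s ps) : L8fPt 𝔹 F p s η ps := by
  have hlen : (l8fLP 𝔹 F p ps).length = ps.length := l8f_stp_length p.a (p.b F 𝔹) (p.h F 𝔹) (p.K F 𝔹) ps 0 0 0
  have adm : LlStpAdm p.a (l8fLP 𝔹 F p ps) := H.elim (·.adm) (·.adm)
  have js_lt : l9Js s ps < (l8fLP 𝔹 F p ps).length := H.elim (·.js_lt) (·.js_lt)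
  have js_m : skMs p.a (llMat (l8fLP 𝔹 F p ps)) (l9Js s ps) = s := H.elim (·.js_m) (·.js_m)
  have low := l8f_below hP hV hlt hok h0
  have hms : ∀ k (hk : k < ps.length), skMs p.a (llMat (l8fLP 𝔹 F p ps)) k = ps[k].u :=
    fun k hk => l8f_ms_lt p.a (p.b F 𝔹) (p.h F 𝔹) (p.K F 𝔹) ps k hk
  have hcum := fun k (hk : k < ps.length) => l8f_cum p.a (p.b F 𝔹) (p.h F 𝔹) (p.K F 𝔹) ps k hk
  have h_eq : ∀ k < (l8fLP 𝔹 F p ps).length, skMs p.a (llMat (l8fLP 𝔹 F p ps)) k ≠ p.x →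
      skCumH (llMat (l8fLP 𝔹 F p ps)) (k + 1) = p.h F 𝔹 (skMs p.a (llMat (l8fLP 𝔹 F p ps)) k) := fun k hk hne => by
    rw [hlen] at hk
    rw [hms k hk] at hne ⊢
    rw [(hcum k hk).2.1]
    exact hV.h _ (hok _ (List.getElem_mem _)) (Or.inl hne)
  have a4 : LlTiltA4 p.a (l8fLP 𝔹 F p ps) (l9Js s ps) := by
    refine ⟨adm, ⟨js_lt, ?_⟩, fun l hl e he => ?_⟩
    · rw [h_eq _ js_lt (by rw [js_m]; exact hsx.ne), js_m, l8f_h_low 𝔹 F p hsx]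
    · refine low e (List.mem_of_getElem? he) ?_
      have hj : l9Js s ps < ps.length := hlen ▸ js_lt
      have hl' : l < ps.length := lt_of_le_of_lt hl hj
      have e1 : skMs p.a (llMat (l8fLP 𝔹 F p ps)) l = e.m := by
        unfold skMs llMat
        simp [List.getD_eq_getElem?_getD, he]
      have e2 : ps[l].u ≤ ps[l9Js s ps].u := by
        rcases hl.eq_or_lt with h | h
        · simp only [h]; exact le_rfl
        · rcases (gh_os_pos_lt_iff _ _).1 (List.pairwise_iff_getElem.1 hlt l _ hl' hj h) with h' | h'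
          · exact h'.le
          · exact h'.1.le
      rw [← e1, hms l hl']
      rw [hms _ hj] at js_m
      linarith
  have ha0 : 0 ≤ p.a := by linarith [hP.a1]
  have hne : ps ≠ [] := List.ne_nil_of_mem h0
  have hpos : 0 < ps.length := List.length_pos_iff.2 hne
  have v_zero : skMs p.a (llMat (l8fLP 𝔹 F p ps)) 0 = 0 := by
    rw [hms 0 hpos]
    obtain ⟨j, hj, hj0⟩ := List.getElem_of_mem h0
    have h2 : ps[0] ≤ ghPosA 0 := by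
      rw [← hj0]
      rcases Nat.eq_zero_or_pos j with rfl | hjp
      · exact le_rfl
      · exact (List.pairwise_iff_getElem.1 hlt 0 j hpos hj hjp).le
    have h3 : ps[0].u ≤ 0 := by
      rcases (gh_os_pos_le_iff _ _).1 h2 with h | h
      · exact h.le
      · exact h.1.le
    exact le_antisymm h3 (hok _ (List.getElem_mem _)).1
  have hms' : ∀ k, ps.length ≤ k → skMs p.a (llMat (l8fLP 𝔹 F p ps)) k = p.a := fun k hk => by
    rw [l8f_ms, List.getD_eq_default _ _ (by simpa using hk)]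
  have v_mem : ∀ k, skMs p.a (llMat (l8fLP 𝔹 F p ps)) k ∈ Icc 0 p.a := fun k => by
    rcases Nat.lt_or_ge k ps.length with hk | hk
    · rw [hms k hk]
      exact ⟨(hok _ (List.getElem_mem _)).1, (hok _ (List.getElem_mem _)).2.1⟩
    · rw [hms' k hk]
      exact ⟨ha0, le_rfl⟩
  have v_mono : ∀ k, skMs p.a (llMat (l8fLP 𝔹 F p ps)) k ≤ skMs p.a (llMat (l8fLP 𝔹 F p ps)) (k + 1) := fun k => by
    rcases Nat.lt_or_ge (k + 1) ps.length with hk | hk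
    · rw [hms k (by omega), hms (k + 1) hk]
      rcases (gh_os_pos_lt_iff _ _).1 (List.pairwise_iff_getElem.1 hlt k (k + 1) (by omega) hk (Nat.lt_succ_self k)) with h' | h'
      · exact h'.le
      · exact h'.1.le
    · rw [hms' (k + 1) hk]
      exact (v_mem k).2
  have K_eq : ∀ k < (l8fLP 𝔹 F p ps).length, llCumK (l8fLP 𝔹 F p ps) (k + 1) = p.K F 𝔹 (skMs p.a (llMat (l8fLP 𝔹 F p ps)) k) := fun k hk => by
    rw [hlen] at hk
    rw [hms k hk, (hcum k hk).2.2]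
    exact hV.K _ (hok _ (List.getElem_mem _))
  have hη : 0 ≤ η := by
    have := (hE 0 0 le_rfl le_rfl ha0 (by
      have := hmesh 0 (Nat.zero_le _)
      unfold skGap at this
      rw [if_pos rfl, v_zero] at this
      linarith)).1
    linarith
  have q_step : ∀ k ≤ (l8fLP 𝔹 F p ps).length,
      |p.q F 𝔹 (skMs p.a (llMat (l8fLP 𝔹 F p ps)) k) - p.Gam F 𝔹 (llCumK (l8fLP 𝔹 F p ps) k)| ≤ η := fun k hk => by
    cases k with
    | zero =>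
      have e1 : llCumK (l8fLP 𝔹 F p ps) 0 = 0 := by simp [llCumK]
      have e2 : p.q F 𝔹 0 = p.Gam F 𝔹 0 := by unfold LlPt.q; rw [hP.K0]
      rw [v_zero, e1, e2, sub_self, abs_zero]
      exact hη
    | succ j =>
      rw [K_eq j hk]
      have hg := hmesh (j + 1) (hlen ▸ hk)
      unfold skGap at hg
      rw [if_neg (Nat.succ_ne_zero j), Nat.add_sub_cancel] at hg
      have h1 := (hE _ _ (v_mem j).1 (v_mono j) (v_mem (j + 1)).2 hg).2.1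
      have h2 := hP.mq (v_mem j) (v_mem (j + 1)) (v_mono j)
      have e : p.Gam F 𝔹 (p.K F 𝔹 (skMs p.a (llMat (l8fLP 𝔹 F p ps)) j)) = p.q F 𝔹 (skMs p.a (llMat (l8fLP 𝔹 F p ps)) j) := rfl
      rw [e, abs_of_nonneg (sub_nonneg.2 h2)]
      exact h1
  exact
  { v_zero := v_zero
    v_mem := v_mem
    v_mono := v_mono
    mesh := ⟨δ, fun k hk => hmesh k (hlen ▸ hk), hE⟩
    q_step := q_step
    adm := adm
    dv_le := H.elim (·.dv_le) (·.dv_le)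
    db_le := H.elim (fun H e he _ => H.db_le e he) (·.db_le)
    dh_le := H.elim (·.dh_le) (·.dh_le)
    dK_le := H.elim (·.dK_le) (·.dK_le)
    b_top := H.elim (·.b_top) (·.b_top)
    h_top := H.elim (·.h_top) (·.h_top)
    K_top := H.elim (·.K_top) (·.K_top)
    js_lt := js_lt
    js_m := js_m
    js_next := H.elim (·.js_next) (·.js_next)
    low := low
    a4 := a4
    b_eq := fun k hk hpos => by
      rw [hlen] at hk
      rw [hms k hk] at hpos ⊢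
      rw [(hcum k hk).1]
      exact hV.b _ (hok _ (List.getElem_mem _)) (Or.inl hpos.ne')
    b_zero := fun k hk hz => by
      rw [hlen] at hk
      rw [hms k hk] at hz
      rw [(hcum k hk).1]
      have := hV.b' _ (hok _ (List.getElem_mem hk))
      rwa [hz] at this
    K_eq := K_eq
    h_eq := h_eq
    h_jump := fun k hk hz => by
      rw [hlen] at hk
      rw [hms k hk] at hz
      rw [(hcum k hk).2.1]
      have := hV.h' _ (hok _ (List.getElem_mem hk))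
      rwa [hz] at this }

/-! ## C5. the exits -/

/-- constants of the chain at fixed `N`, `η` -/
theorem l8f_consts {𝔹 : LlBase} {F : LlFix} (h3 : LlSec3 𝔹 F) : ∃ N0 : ℕ, ∀ N : ℕ, N0 ≤ N → ∀ η : ℝ, 0 < η →
    ∃ (δ Jm : ℝ) (n M : ℕ), 0 < δ ∧ δ ≤ η ∧ 4 ≤ (n : ℝ) * δ ∧ 0 < M ∧ 0 ≤ Jm ∧ Jm ≤ M * η ∧
      ∀ p : LlPt, p.Ok F → p.N = N → L8fPh 𝔹 F p Jm ∧ L8fVal 𝔹 F p ∧ L8fEq 𝔹 F p (2 * δ) η := by
  obtain ⟨N1, h1⟩ := l8f_ph h3
  obtain ⟨Ne, he⟩ := h3.equi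
  refine ⟨max N1 Ne, fun N hN η hη => ?_⟩
  obtain ⟨Jm, hJm, hph⟩ := h1 N ((le_max_left _ _).trans hN)
  have heN := he N ((le_max_right _ _).trans hN)
  obtain ⟨δ0, hδ0, hE⟩ := heN η hη
  have hδ : 0 < min (δ0 / 2) η := lt_min (by linarith) hη
  obtain ⟨n, hn⟩ := exists_nat_ge (4 / min (δ0 / 2) η)
  obtain ⟨M, hM⟩ := exists_nat_ge (Jm / η)
  refine ⟨min (δ0 / 2) η, Jm, n, M + 1, hδ, min_le_right _ _, by rwa [div_le_iff₀ hδ] at hn, Nat.succ_pos _, hJm, ?_, fun p hp hpN => ?_⟩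
  · rw [div_le_iff₀ hη] at hM
    push_cast
    linarith
  · refine ⟨hph p hp hpN, l8f_vals (hph p hp hpN) fun η' hη' => ?_, fun v v' a1 a2 a3 a4 => hE p hp hpN v v' a1 a2 a3 ?_⟩
    · obtain ⟨δ', hδ', hE'⟩ := heN η' hη'
      exact ⟨δ', hδ', hE' p hp hpN⟩
    · linarith [min_le_left (δ0 / 2) η]

/-- **EXIT, generic chains** `ghPs p.a Fs`: the jumps of `b` at `0` and of `h` at `x` are split in `M` pieces by the required positions -/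
theorem l8f_main {𝔹 : LlBase} {F : LlFix} (h3 : LlSec3 𝔹 F) : ∃ N0 : ℕ, ∀ N : ℕ, N0 ≤ N → ∀ s η : ℝ, 0 < η → ∃ R : Finset GhPos,
    ∀ Fs : Finset GhPos, R ⊆ Fs → ∀ p : LlPt, p.Ok F → p.N = N → 0 < s → s < p.x → L8fPt 𝔹 F p s η (ghPs p.a Fs) := by
  classical
  obtain ⟨N0, h⟩ := l8f_consts h3
  refine ⟨N0, fun N hN s η hη => ?_⟩
  obtain ⟨δ, Jm, n, M, hδ, hδη, hn, hM, hJm, hMη, hpt⟩ := h N hN η hη
  refine ⟨l8fReq δ n M {0, (N : ℝ) ^ (-(1 / 6) : ℝ)} s, fun Fs hFs p hp hpN hs0 hsx => ?_⟩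
  obtain ⟨hP, hV, hE⟩ := hpt p hp hpN
  have hx : (N : ℝ) ^ (-(1 / 6) : ℝ) = p.x := by rw [← hpN]; rfl
  rw [hx] at hFs
  have ha : 0 < p.a := by linarith [hP.a1]
  have hf := l8f_fine_of_req (a := p.a) hδ hn hP.a4 hFs
  obtain ⟨mb, mh, mK⟩ := l8f_mods hP hη.le hE
  have hsa : s < p.a := by linarith [hP.x1, hP.a1]
  refine l8f_pt_of hP hV hf.lt hf.ok (l8f_req_zero ha.le hFs) hsx (l8f_mesh _ _ _ hδ hM hf (l8f_req_zero ha.le hFs))
    (hE.mono (by linarith)) (Or.inl ?_)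
  exact l8f_clk ha hδ hδη hM (by simp) hf hsa (l8f_req_s hs0.le hsa.le hFs) hP.cb hP.ch hP.cK
    (mb.mono (by simp) le_rfl le_rfl) (mh.mono (by simp) le_rfl le_rfl) (mK.mono (by simp) le_rfl le_rfl) hP.jb hP.jh hP.jK hJm hMη

/-- extras on the chains whose only position of mass `0` is `(0,1)` -/
structure L8fPt0 (𝔹 : LlBase) (F : LlFix) (p : LlPt) (ps : List GhPos) : Prop where
  m0 : llMs p.a (l8fLP 𝔹 F p ps) 0 = 0
  m_pos : ∀ k, 0 < k → 0 < skMs p.a (llMat (l8fLP 𝔹 F p ps)) k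
  b_eq : ∀ k < (l8fLP 𝔹 F p ps).length, skCumB (llMat (l8fLP 𝔹 F p ps)) (k + 1) = p.b F 𝔹 (skMs p.a (llMat (l8fLP 𝔹 F p ps)) k)

/-- **EXIT, chains which do not split the initial matrix revelation** (`Fs := l9Fl Fs'`: `R ⊆ Fs'` gives `R ⊆ l9Fl Fs'` by the first clause) -/
theorem l8f_main0 {𝔹 : LlBase} {F : LlFix} (h3 : LlSec3 𝔹 F) : ∃ N0 : ℕ, ∀ N : ℕ, N0 ≤ N → ∀ s η : ℝ, 0 < η → ∃ R : Finset GhPos,
    (∀ q ∈ R, q.u = 0 → q.lam = 1) ∧ ∀ Fs : Finset GhPos, R ⊆ Fs → (∀ q ∈ Fs, q.u = 0 → q.lam = 1) →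
      ∀ p : LlPt, p.Ok F → p.N = N → 0 < s → s < p.x → L8fPt 𝔹 F p s η (ghPs p.a Fs) ∧ L8fPt0 𝔹 F p (ghPs p.a Fs) := by
  classical
  obtain ⟨N0, h⟩ := l8f_consts h3
  refine ⟨max N0 2, fun N hN s η hη => ?_⟩
  obtain ⟨δ, Jm, n, M, hδ, hδη, hn, hM, hJm, hMη, hpt⟩ := h N ((le_max_left _ _).trans hN) η hη
  have hN2 : 2 ≤ N := (le_max_right _ _).trans hN
  have hxN : (0 : ℝ) < (N : ℝ) ^ (-(1 / 6) : ℝ) := Real.rpow_pos_of_pos (by exact_mod_cast (by omega : 0 < N)) _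
  have h0J : (0 : ℝ) ∉ ({(N : ℝ) ^ (-(1 / 6) : ℝ)} : Finset ℝ) := fun h => hxN.ne (Finset.mem_singleton.1 h)
  refine ⟨l8fReq δ n M {(N : ℝ) ^ (-(1 / 6) : ℝ)} s, l8f_req_fl h0J, fun Fs hFs hfl p hp hpN hs0 hsx => ?_⟩
  obtain ⟨hP, hV, hE⟩ := hpt p hp hpN
  have hx : (N : ℝ) ^ (-(1 / 6) : ℝ) = p.x := by rw [← hpN]; rfl
  rw [hx] at hFs h0J
  have ha : 0 < p.a := by linarith [hP.a1]
  have hf := l8f_fine_of_req (a := p.a) hδ hn hP.a4 hFs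
  obtain ⟨mb, mh, mK⟩ := l8f_mods hP hη.le hE
  have hsa : s < p.a := by linarith [hP.x1, hP.a1]
  have h01 : ∀ q ∈ ghPs p.a Fs, q.u = 0 → q.lam = 1 := fun q hq => hfl q (gh_os_ps_mem.1 hq).1
  have H := l8f_clk0 ha hδ hδη hM h0J hf (l8f_req_zero ha.le hFs) h01 hsa (l8f_req_s hs0.le hsa.le hFs) hP.cb hP.ch hP.cK
    (mb.mono (by simp) le_rfl le_rfl) mh (mK.mono (by simp) le_rfl le_rfl) hP.jb hP.jh hP.jK hJm hMη
  have hlen : (l8fLP 𝔹 F p (ghPs p.a Fs)).length = (ghPs p.a Fs).length := l8f_stp_length p.a (p.b F 𝔹) (p.h F 𝔹) (p.K F 𝔹) _ 0 0 0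
  refine ⟨l8f_pt_of hP hV hf.lt hf.ok (l8f_req_zero ha.le hFs) hsx (l8f_mesh _ _ _ hδ hM hf (l8f_req_zero ha.le hFs))
    (hE.mono (by linarith)) (Or.inr H), H.m0, H.m_pos, fun k hk => ?_⟩
  rw [hlen] at hk
  rw [l8f_ms_lt p.a (p.b F 𝔹) (p.h F 𝔹) (p.K F 𝔹) _ k hk, (l8f_cum p.a (p.b F 𝔹) (p.h F 𝔹) (p.K F 𝔹) _ k hk).1]
  have hmem : (ghPs p.a Fs)[k] ∈ ghPs p.a Fs := List.getElem_mem _
  refine hV.b _ (hf.ok _ hmem) ?_
  by_cases hu : (ghPs p.a Fs)[k].u = 0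
  · exact Or.inr (h01 _ hmem hu)
  · exact Or.inl hu

theorem l8fC_eqns_cite : True := by
  have := @L8fEq.eq_1
  have := @l8fLP.eq_1
  trivial

end Claimed.Agent.R286
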