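-- KEEP
import Claimed.Agent.R286.L08.Defs
import Claimed.Agent.R286.L08.FineC
import Claimed.Agent.R286.LL.PathsBase
import Claimed.Agent.R286.LL.PathsClkE2
import Claimed.Agent.R286.L09.GridE6

/-!
# Row 286 (S0533), folder L08, file Fine : `l8g_fine` = ALL SUFFICIENTLY FINE CHAINS ARE FINE AT EVERY POINT, UNIFORMLY      (OWNER helper118, second owner helper262; names `L8f*`, `l8f_*`)

THE ONLY PLACE OF LL 08-10 WHERE THE NET OF CHAINS IS USED.      `L8In.FineC`, `L8In.Fine` (v2), `L8gFine` live HERE; `L08/Glue.lean` IMPORTS this file (no consumer changes its imports).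

    l8g_fine  <=  l8f_asm (PROVED glue)  <=  (A) l8f_chain   clock part = adapter of `l8f_main0` + `l8f_ph` (`L08/FineC.lean`, 214, 0 sorry)      PROVED (118)
                                             (C) l8f_mod     facts at one point, from `l8f_ph`, `l8f_consts` (214)                            PROVED (118)
                                             (Q) l8f_q       Q-LINK at one chain (adapter of `l9v_evF`, L09/GridE6, 120)                      PROVED (296)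
                  l8f_fine_of (PROVED): clock part + Q-LINK at the chain times ⟹ `q_link, q_left, d_left, d_jump, d_bd`
    dd (derivative of the defect in the path parameter): NOT here: `L08/DdLink.lean` (226, 167).

WHY IT IS TRUE.      At fixed `N` the parameters `(ℓ, λ, χ, γ)` run over a compact set and `x`, `s` are FIXED before the chain.   `b` is Lipschitz, `K = ℓ⁻² Â⁻¹(v/ℓ)` has a modulus of continuity which does not depend on the point
(smoothed: `1/ω`-Lipschitz; direct: `2/c_a`-Lipschitz below `z_0`, the ONE function `A_0⁻¹` above), `h = K - b q + seeds` on `[x,a]`, `h = 0` on `[0,x)`: the only jumps are `b` at `0` and `h` at `x`.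
A chain which contains the dyadic grid `ghGrid 4 k` (`a ≤ 4`: the SAME grid serves all terminal masses `a = ℓ`; the last cell `[v_{n-1}, a]` is shorter than the mesh), the position `(s,1)` and `M + 1` equidistant positions inside the jump at `x`
has all its increments `≤ η`.
-/

set_option autoImplicit false

namespace Claimed.Agent.R286

open MeasureTheory Set Filter Finset

noncomputable section

/-! ## 0. the definitions      (moved from `L08/Glue.lean`; v2) -/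

namespace L8In

variable (I : L8In)

/-- **the chain is `η`-fine at the point, CLOCK PART** (v2, helper118 = owner of `l8g_fine`, 15 Oct; agreed with 75).
THE CUT `k` READS THE CLOCKS AT ITS LEFT END: `bC k, hC k, KC k` = values after the stage `k - 1` (mass `v (k-1)`), while `v k` is the RIGHT end of the mass cell of the cut.
The clocks `b, K` are continuous on `[0,a]` (`b` jumps at the mass `0` from `0` to `b(0+)`), `h` vanishes on `[0,x)`, JUMPS at `v = x` and is continuous on `[x,a]`;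
the chain contains many positions `(x, t)` INSIDE the jump of `h` (this is why `dh_le` holds at the mass `x`); all of them are stages of mass `x`.      So the values on the chain are EXACT (`b_eq, K_eq, h_eq`).
Contract v5 (216): the chain is `ghPs a (l9Fl Fs)`: `(0,1)` is the only position of mass `0`, so `b_eq` holds at ALL the stages. -/
structure FineC (η : ℝ) : Prop where
  adm : LlStpAdm I.a I.LP
  /-- mass mesh -/
  dv_le : ∀ k ≤ I.n, I.dv k ≤ η
  /-- clock meshes (the matrix clock jumps at the mass `0` only) -/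
  db_le : ∀ e ∈ I.LP, 0 < e.m → e.db ≤ η
  dh_le : ∀ e ∈ I.LP, e.dh ≤ η
  dK_le : ∀ e ∈ I.LP, e.dK ≤ η
  /-- nothing is left unrevealed at the end -/
  b_top : I.p.b I.F I.𝔹 I.a - I.bC I.n ≤ η
  h_top : I.p.h I.F I.𝔹 I.a - I.hC I.n ≤ η
  K_top : I.p.K I.F I.𝔹 I.a - I.KC I.n ≤ η
  top_nn : I.bC I.n ≤ I.p.b I.F I.𝔹 I.a ∧ I.hC I.n ≤ I.p.h I.F I.𝔹 I.a ∧ I.KC I.n ≤ I.p.K I.F I.𝔹 I.a
  /-- the tilt stage has the mass `s`, and it is the last stage of that mass -/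
  js_lt : I.js < I.n
  js_m : I.v I.js = I.s
  js_next : I.s < I.v (I.js + 1)
  /-- below the mass `x` nothing is revealed but the jump of the matrix clock at the mass `0` (`h = 0` on `[0,x)`, `b` constant on `(0,x]`, `(0,1)` in the chain)      [189, for the tilt link; `LlTiltA4`: `tlk_I_a4`] -/
  low : ∀ e ∈ I.LP, e.m < I.x → e.dh = 0 ∧ (e.db = 0 ∨ e.m = 0)
  /-- the first stage is at the mass `0` (so the cell of the cut `0` is empty)      [246] -/
  v_zero : I.v 0 = 0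
  /-- the hypotheses of (A4)      [187, 189] -/
  a4 : LlTiltA4 I.a I.LP I.js
  /-- EXACT values after the stage `k` -/
  b_nn : ∀ k < I.n, 0 ≤ I.bC (k + 1)
  b_le : ∀ k < I.n, I.bC (k + 1) ≤ I.p.b I.F I.𝔹 (I.v k)
  b_eq : ∀ k < I.n, I.bC (k + 1) = I.p.b I.F I.𝔹 (I.v k)
  K_eq : ∀ k < I.n, I.KC (k + 1) = I.p.K I.F I.𝔹 (I.v k)
  h_eq : ∀ k < I.n, I.v k ≠ I.x → I.hC (k + 1) = I.p.h I.F I.𝔹 (I.v k)
  /-- inside the jump of `h` -/
  h_jump : ∀ k < I.n, I.v k = I.x → 0 ≤ I.hC (k + 1) ∧ I.hC (k + 1) ≤ I.p.h I.F I.𝔹 I.x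
  /-- `Γ` at the scalar time of the cut `k` against `q` at the mass of the stage `k`      [214] -/
  q_step : ∀ k ≤ I.n, |I.p.q I.F I.𝔹 (I.v k) - I.p.Gam I.F I.𝔹 (I.KC k)| ≤ η

/-- **the chain is `η`-fine at the point**: what "sufficiently fine" means at one instance = clock part + Q-LINK.      v2 (118): `d_link` (false at the cuts whose cell ends at `v = x` and inside the jump: 199, 167) is REPLACED by
`d_left` (LEFT-end reading), `d_jump` and `d_bd` (sup bound: what the two users of `d_link` need);   exact identity behind them: `d (k+1) = hC (k+1) - h_*(v k) + b(v k) (q (k+1) - p.q (v k))`.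
The derivative `dd` in the path parameter: `L08/DdLink.lean` (226). -/
structure Fine (η : ℝ) : Prop extends FineC I η where
  /-- the reference overlap on the chain is the PATH function up to `η` (Q-LINK), at the right end and at the left end of the cell -/
  q_link : ∀ k ≤ I.n, |I.q k - I.p.q I.F I.𝔹 (I.v k)| ≤ η
  q_left : ∀ k < I.n, |I.q (k + 1) - I.p.q I.F I.𝔹 (I.v k)| ≤ η
  /-- the defect after the stage `k` -/
  d_left : ∀ k < I.n, I.v k ≠ I.x → |I.d (k + 1) - I.p.d I.F I.𝔹 (I.v k)| ≤ η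
  d_jump : ∀ k < I.n, I.v k = I.x → -I.p.hS I.F I.𝔹 I.x - η ≤ I.d (k + 1) ∧ I.d (k + 1) ≤ I.p.d I.F I.𝔹 I.x + η
  /-- the defect on the chain is bounded by the sup of the defect of the path -/
  d_bd : ∀ t ≤ I.n, ∃ v ∈ Icc 0 I.a, |I.d t| ≤ |I.p.d I.F I.𝔹 v| + η

variable {I}

/-- fineness is monotone -/
theorem FineC.mono {η η' : ℝ} (h : I.FineC η) (hη : η ≤ η') : I.FineC η' :=
  { h with
    dv_le := fun k hk => (h.dv_le k hk).trans hη
    db_le := fun e he h0 => (h.db_le e he h0).trans hη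
    dh_le := fun e he => (h.dh_le e he).trans hη
    dK_le := fun e he => (h.dK_le e he).trans hη
    b_top := h.b_top.trans hη
    h_top := h.h_top.trans hη
    K_top := h.K_top.trans hη
    q_step := fun k hk => (h.q_step k hk).trans hη }

theorem Fine.mono {η η' : ℝ} (h : I.Fine η) (hη : η ≤ η') : I.Fine η' :=
  { toFineC := h.toFineC.mono hη
    q_link := fun k hk => (h.q_link k hk).trans hη
    q_left := fun k hk => (h.q_left k hk).trans hη
    d_left := fun k hk hx => (h.d_left k hk hx).trans hη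
    d_jump := fun k hk hx => ⟨by linarith [(h.d_jump k hk hx).1], by linarith [(h.d_jump k hk hx).2]⟩
    d_bd := fun t ht => by
      obtain ⟨v, hv, h1⟩ := h.d_bd t ht
      exact ⟨v, hv, by linarith⟩ }

/-- what the users of the old `d_link` need -/
theorem Fine.d_abs {η D : ℝ} (h : I.Fine η) (hD : ∀ v ∈ Icc 0 I.a, |I.p.d I.F I.𝔹 v| ≤ D) : ∀ t ≤ I.n, |I.d t| ≤ D + η := by
  intro t ht
  obtain ⟨v, hv, h1⟩ := h.d_bd t ht
  linarith [hD v hv]

end L8In

/-- **FINE**: at fixed `N` the chains are eventually `η N`-fine, uniformly in the point and in `m`, for ANY positive sequence `η` (163: the freezing lemma `l12g_frz_cut` needs a mesh `δ(m)` which is exponentially small in `m ≤ 3 N`;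
the route of `l8g_fine` does not see the size of `η N`) -/
def L8gFine (𝔹 : LlBase) (T : ℝ) : Prop :=
  ∀ F0, L8Fix 𝔹 T F0 → ∀ (pB : LLParB) (pS : ℝ), 0 < pS → pS ≤ 1 → ∀ η : ℕ → ℝ, (∀ N, 2 ≤ N → 0 < η N) →
    ∃ N0 : ℕ, L8Ev (F0.wExp pB.sStar pB.eta pS) 𝔹 N0 (fun _ => True) fun I => I.Fine (η I.p.N)

/-- any finite set of positions which depends on `(N, s)` only belongs to `Fs`, eventually (22, 75: fixed masses asked IN the chain: dyads, `x`, ...; combine with `.and`) -/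
theorem L8Ev.has (F : LlFix) (𝔹 : LlBase) (R : LlPt → Prop) (G : ℕ → ℝ → Finset GhPos) : L8Ev F 𝔹 0 R fun I => G I.p.N I.s ⊆ I.Fs := by
  intro N s _
  filter_upwards [eventually_ge_atTop (G N s)] with Fs hFs ell lam chiL chiE sm γ m _ _
  exact hFs

/-! ## G0. small lemmas -/

end

theorem l8f_cumK_succ (P : LlStp) {k : ℕ} (hk : k < P.length) : llCumK P (k + 1) = llCumK P k + P[k].dK := by
  unfold llCumK
  rw [List.take_succ_eq_append_getElem hk, List.map_append, List.sum_append]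
  simp

theorem l8f_cumK_nonneg {a : ℝ} {P : LlStp} (hP : LlStpAdm a P) (k : ℕ) : 0 ≤ llCumK P k := by
  unfold llCumK
  refine List.sum_nonneg fun y hy => ?_
  obtain ⟨e, he, rfl⟩ := List.mem_map.1 hy
  have := hP.2.2 ⟨e.m, 0, e.dK⟩ (List.mem_map.2 ⟨e, List.mem_of_mem_take he, rfl⟩)
  exact this.2.2.2

theorem l8f_v_mem {I : L8In} (hP : LlStpAdm I.a I.LP) {k : ℕ} (hk : k < I.n) : I.v k ∈ Icc 0 I.a := by
  have hk' : k < I.LP.length := hk
  have e : I.v k = (I.LP[k]).m := by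
    unfold L8In.v skMs L8In.P0 llMat
    simp [hk']
  have := hP.1.2 ⟨I.LP[k].m, I.LP[k].db, I.LP[k].dh⟩ (List.mem_map.2 ⟨I.LP[k], List.getElem_mem hk', rfl⟩)
  rw [e]
  exact ⟨this.1, this.2.1⟩

theorem l8f_v_top (I : L8In) : I.v I.n = I.a := by
  unfold L8In.v skMs L8In.P0 llMat L8In.n
  simp

theorem l8f_d_zero (I : L8In) : I.d 0 = 0 := by
  simp [L8In.d, L8In.hC, L8In.KC, L8In.bC, skCumB, skCumH, llCumK]

/-- **the value of the defect at the cut `k` against the path at the LEFT end of its cell** (`l8pVl I k` of `PM/Inst.lean` is the `if` below, by `rfl`): the `d` half of `L8pDefLk` (247), at ONE fine instance -/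
theorem L8In.Fine.d_val {I : L8In} {η B : ℝ} (h : I.Fine η) {k : ℕ} (hk : k ≤ I.n) (hB : |I.p.d I.F I.𝔹 (if k = 0 then 0 else I.v (k - 1))| ≤ B)
    (hx : (if k = 0 then 0 else I.v (k - 1)) = I.x → |I.p.hS I.F I.𝔹 I.x| ≤ B) : |I.d k| ≤ B + η := by
  have hη : 0 ≤ η := (abs_nonneg _).trans (h.q_link 0 (Nat.zero_le _))
  rcases Nat.eq_zero_or_pos k with rfl | hk0
  · rw [l8f_d_zero, abs_zero]
    exact add_nonneg ((abs_nonneg _).trans hB) hη
  obtain ⟨j, rfl⟩ : ∃ j, k = j + 1 := ⟨k - 1, by omega⟩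
  have hj : j < I.n := hk
  rw [if_neg (Nat.succ_ne_zero j), Nat.add_sub_cancel] at hB hx
  by_cases hvx : I.v j = I.x
  · obtain ⟨j0, j1⟩ := h.d_jump j hj hvx
    have h1 := abs_le.1 (hx hvx)
    rw [hvx] at hB
    have h2 := abs_le.1 hB
    exact abs_le.2 ⟨by linarith [h1.2], by linarith [h2.2]⟩
  · have t0 := h.d_left j hj hvx
    have t1 := abs_add_le (I.d (j + 1) - I.p.d I.F I.𝔹 (I.v j)) (I.p.d I.F I.𝔹 (I.v j))
    rw [sub_add_cancel] at t1
    linarith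

noncomputable section

/-! ## A. the clock part      (214: `L08/FineA.lean`, `L08/FineC.lean`) -/

/-- at fixed `N`, `s`: every chain which contains a finite set `R` of positions is `η`-fine (clock part) at every point -/
def L8fCk (𝔹 : LlBase) (F : LlFix) : Prop :=
  ∃ N0 : ℕ, ∀ N : ℕ, N0 ≤ N → ∀ s η : ℝ, 0 < η → ∃ R : Finset GhPos,
    ∀ I : L8In, I.F = F → I.𝔹 = 𝔹 → I.p.N = N → I.s = s → I.Ok → R ⊆ I.Fs → I.FineC η

/-- **(A)** (PROVED, 118).      ADAPTER of `l8f_main0 h3` (`L8fPt 𝔹 F p s η (ghPs p.a (l9Fl Fs))`: the fields are those of `FineC` after unfolding `I.LP, I.js, I.v, I.dv, I.bC ..`, by `rfl`) and of `l8f_ph h3`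
(`GhClk1`: monotonicity, for `top_nn`, `b_nn`). -/
theorem l8f_chain {𝔹 : LlBase} {F : LlFix} (h3 : LlSec3 𝔹 F) : L8fCk 𝔹 F := by
  obtain ⟨N0, h0⟩ := l8f_main0 h3
  obtain ⟨N1, h1⟩ := l8f_ph h3
  refine ⟨max N0 N1, fun N hN s η hη => ?_⟩
  obtain ⟨R, hR1, hR⟩ := h0 N ((le_max_left _ _).trans hN) s η hη
  obtain ⟨Jm, -, hP⟩ := h1 N ((le_max_right _ _).trans hN)
  refine ⟨R, ?_⟩
  rintro I rfl rfl rfl rfl hOk hRF
  have hsub : R ⊆ l9Fl I.Fs := fun q hq => l9_fl_mem.2 ⟨hRF hq, hR1 q hq⟩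
  obtain ⟨hp, hp0⟩ := hR (l9Fl I.Fs) hsub (fun q hq => (l9_fl_mem.1 hq).2) I.p hOk.pt rfl hOk.s_pos hOk.s_lt
  have hPh := hP I.p hOk.pt rfl
  have hadm : LlStpAdm I.a I.LP := hp.adm
  have hbeq : ∀ k < I.n, I.bC (k + 1) = I.p.b I.F I.𝔹 (I.v k) := hp0.b_eq
  have hKeq : ∀ k < I.n, I.KC (k + 1) = I.p.K I.F I.𝔹 (I.v k) := hp.K_eq
  have hheq : ∀ k < I.n, I.v k ≠ I.x → I.hC (k + 1) = I.p.h I.F I.𝔹 (I.v k) := hp.h_eq
  have hhj : ∀ k < I.n, I.v k = I.x → 0 ≤ I.hC (k + 1) ∧ I.hC (k + 1) ≤ I.p.h I.F I.𝔹 I.x := hp.h_jump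
  have hjs : I.js < I.n := hp.js_lt
  have ha0 : (0 : ℝ) ≤ I.a := by
    have : (1 : ℝ) ≤ I.a := hPh.a1
    linarith
  have haa : I.a ∈ Icc 0 I.a := ⟨ha0, le_rfl⟩
  have h00 : (0 : ℝ) ∈ Icc 0 I.a := ⟨le_rfl, ha0⟩
  have hxa : I.x ∈ Icc 0 I.a := by
    have h1 : (1 : ℝ) ≤ I.a := hPh.a1
    have h2 : 0 < I.x := hPh.x0
    have h3 : I.x < 1 := hPh.x1
    exact ⟨h2.le, by linarith⟩
  have mb : MonotoneOn (I.p.b I.F I.𝔹) (Icc 0 I.a) := hPh.cb.1
  have mh : MonotoneOn (I.p.h I.F I.𝔹) (Icc 0 I.a) := hPh.ch.1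
  have mK : MonotoneOn (I.p.K I.F I.𝔹) (Icc 0 I.a) := hPh.cK.1
  obtain ⟨k0, hk0⟩ : ∃ k0, I.n = k0 + 1 := ⟨I.n - 1, by omega⟩
  have hk0' : k0 < I.n := by omega
  have hv0 := l8f_v_mem hadm hk0'
  exact
  { adm := hadm
    dv_le := hp.dv_le
    db_le := hp.db_le
    dh_le := hp.dh_le
    dK_le := hp.dK_le
    b_top := hp.b_top
    h_top := hp.h_top
    K_top := hp.K_top
    top_nn := by
      rw [hk0, hbeq k0 hk0', hKeq k0 hk0']
      refine ⟨mb hv0 haa hv0.2, ?_, mK hv0 haa hv0.2⟩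
      by_cases hx : I.v k0 = I.x
      · exact (hhj k0 hk0' hx).2.trans (mh hxa haa hxa.2)
      · rw [hheq k0 hk0' hx]
        exact mh hv0 haa hv0.2
    js_lt := hjs
    js_m := hp.js_m
    js_next := hp.js_next
    low := hp.low
    v_zero := hp.v_zero
    a4 := hp.a4
    b_nn := fun k hk => by
      rw [hbeq k hk]
      exact hPh.cb.2.trans (mb h00 (l8f_v_mem hadm hk) (l8f_v_mem hadm hk).1)
    b_le := fun k hk => (hbeq k hk).le
    b_eq := hbeq
    K_eq := hKeq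
    h_eq := hheq
    h_jump := hhj
    q_step := hp.q_step }

/-! ## C. facts at one point -/

/-- what the glue `l8f_fine_of` needs at one point besides the chain -/
structure L8In.Mod (I : L8In) (η Cb : ℝ) : Prop where
  K_zero : I.p.K I.F I.𝔹 0 = 0
  x_pos : 0 < I.x
  h_zero : I.p.h I.F I.𝔹 0 = 0
  /-- `h_*` is continuous at `x`, and `d = - h_*` on `[0,x)` -/
  hS_pre : ∃ v' ∈ Icc 0 I.a, I.p.hS I.F I.𝔹 I.x - η ≤ -I.p.d I.F I.𝔹 v'
  b_le : ∀ v ∈ Icc 0 I.a, 0 ≤ I.p.b I.F I.𝔹 v ∧ I.p.b I.F I.𝔹 v ≤ Cb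

def L8fMd (𝔹 : LlBase) (F : LlFix) : Prop :=
  ∃ N0 : ℕ, ∀ N : ℕ, N0 ≤ N → ∃ Cb : ℝ, 0 ≤ Cb ∧ ∀ η : ℝ, 0 < η → ∀ I : L8In, I.F = F → I.𝔹 = 𝔹 → I.p.N = N → I.Ok → I.Mod η Cb

/-- **(C)** (PROVED, 118).      From `l8f_ph`, `l8f_consts` (214): `L8fPh` (`K0`, `x0`, `cb`, `jb`), `l8f_h_low`, `L8fEq` (the increment of `h_*` on `[x - δ, x]`). -/
theorem l8f_mod {𝔹 : LlBase} {F : LlFix} (h3 : LlSec3 𝔹 F) : L8fMd 𝔹 F := by
  obtain ⟨N0, h0⟩ := l8f_consts h3
  obtain ⟨N1, h1⟩ := l8f_ph h3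
  refine ⟨max N0 N1, fun N hN => ?_⟩
  obtain ⟨Jm, hJm, hP⟩ := h1 N ((le_max_right _ _).trans hN)
  refine ⟨Jm, hJm, fun η hη => ?_⟩
  obtain ⟨δ, Jm', _, _, hδ, -, -, -, -, -, hpt⟩ := h0 N ((le_max_left _ _).trans hN) η hη
  rintro I rfl rfl rfl hOk
  obtain ⟨-, -, hE⟩ := hpt I.p hOk.pt rfl
  have hPh := hP I.p hOk.pt rfl
  have hx0 : 0 < I.p.x := hPh.x0
  have hxa : I.p.x ≤ I.p.a := by linarith [hPh.x1, hPh.a1]
  have ha0 : 0 ≤ I.p.a := by linarith [hPh.a1]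
  refine ⟨hPh.K0, hx0, l8f_h_low _ _ _ hx0, ?_, fun v hv => ?_⟩
  · have hv0 : 0 ≤ max 0 (I.p.x - δ) := le_max_left _ _
    have hvx : max 0 (I.p.x - δ) < I.p.x := max_lt hx0 (by linarith)
    have h4 := (hE (max 0 (I.p.x - δ)) I.p.x hv0 hvx.le hxa (by linarith [le_max_right 0 (I.p.x - δ)])).2.2.2.1
    refine ⟨max 0 (I.p.x - δ), ⟨hv0, hvx.le.trans hxa⟩, ?_⟩
    show I.p.hS I.F I.𝔹 I.p.x - η ≤ _
    unfold LlPt.d
    rw [l8f_h_low _ _ _ hvx]
    linarith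
  · exact ⟨hPh.cb.2.trans (hPh.cb.1 ⟨le_rfl, ha0⟩ hv hv.1), (hPh.cb.1 hv ⟨ha0, le_rfl⟩ hv.2).trans hPh.jb⟩

/-! ## Q. the scalar link at the chain times      (120) -/

/-- the reference overlap of the chain is `Γ` of the PATH at the chain time `KC j`, up to any `η`, for all sufficiently fine chains, uniformly in the point -/
def L8fQ (𝔹 : LlBase) (F : LlFix) : Prop :=
  ∃ N0 : ℕ, ∀ N : ℕ, N0 ≤ N → ∀ η : ℝ, 0 < η → ∀ᶠ Fs : Finset GhPos in atTop, ∀ I : L8In, I.F = F → I.𝔹 = 𝔹 → I.p.N = N → I.Fs = Fs → I.Ok →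
    ∀ j ≤ I.n, |I.q j - I.p.Gam I.F I.𝔹 (I.KC j)| ≤ η

/-- **(Q)** (PROVED, 296).      ADAPTER of `l9v_ev` (`L09/GridE6.lean`, 0 sorry): `∀ᶠ Fs, ∀ p, p.N = N → p.Ok F → LpqProf (p.Aprof F llBase) (if p.sm then p.M else llBase.xiS F.T) (p.a / p.ell) → L9vV p F (ghPs p.a Fs) η`,
field `q` of `L9vV`: `∀ k ≤ length, |llQs p.a P k - p.Gam F llBase (llCumK P k)| ≤ η`.      `LpqProf` of the profiles: from `LlSec3` (`lce_unif_prof`; field `dens` asked by 226 from 253). -/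
theorem l8f_q {F : LlFix} (hB : LlBaseProfile llBase F.T) (h3 : LlSec3 llBase F) : L8fQ llBase F := by
  obtain ⟨ca, Ca, ξ1, hb, hz⟩ := h3.prof
  obtain ⟨N0, hp⟩ := lce_unif_prof (𝔹 := llBase) h3.ok hb hz
  refine ⟨N0, fun N hN η hη => ?_⟩
  filter_upwards [l9v_evF F N hη] with Fs hFs I hIF hIB hIN hIFs hOk j hj
  obtain ⟨F', 𝔹', p, m, s, Fs'⟩ := I
  simp only at hIF hIB hIN hIFs
  subst hIF hIB hIFs
  exact (hFs p hIN hOk.pt (hp p hOk.pt (by omega)).1).q j hj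

end

/-! ## G. glue (PROVED, helper118) -/

/-- **GLUE at one instance (proved)**: clock part + Q-LINK at the chain times ⟹ fine -/
theorem l8f_fine_of {I : L8In} {η η1 η2 Cb : ℝ} (hC : I.FineC η1) (hM : I.Mod η1 Cb)
    (hq : ∀ j ≤ I.n, |I.q j - I.p.Gam I.F I.𝔹 (I.KC j)| ≤ η2) (h1 : η1 ≤ η) (h2 : η2 + η1 ≤ η) (h3 : η1 + Cb * η2 ≤ η) :
    I.Fine η := by
  have hB := hM
  have hη2 : 0 ≤ η2 := (abs_nonneg _).trans (hq 0 (Nat.zero_le _))
  have hη1 : 0 ≤ η1 := (abs_nonneg _).trans (hC.q_step 0 (Nat.zero_le _))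
  have h3' : Cb * η2 ≤ η := by linarith
  have hql : ∀ k < I.n, |I.q (k + 1) - I.p.q I.F I.𝔹 (I.v k)| ≤ η2 := by
    intro k hk
    have := hq (k + 1) hk
    rwa [hC.K_eq k hk] at this
  have hbq2 : ∀ k < I.n, |I.p.b I.F I.𝔹 (I.v k) * (I.q (k + 1) - I.p.q I.F I.𝔹 (I.v k))| ≤ Cb * η2 := by
    intro k hk
    obtain ⟨b0, b1⟩ := hB.b_le _ (l8f_v_mem hC.adm hk)
    rw [abs_mul, abs_of_nonneg b0]
    exact mul_le_mul b1 (hql k hk) (abs_nonneg _) (b0.trans b1)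
  have hbq : ∀ k < I.n, |I.p.b I.F I.𝔹 (I.v k) * (I.q (k + 1) - I.p.q I.F I.𝔹 (I.v k))| ≤ η := fun k hk => (hbq2 k hk).trans h3'
  have hd : ∀ k < I.n, I.d (k + 1) = I.hC (k + 1) - I.p.hS I.F I.𝔹 (I.v k)
      + I.p.b I.F I.𝔹 (I.v k) * (I.q (k + 1) - I.p.q I.F I.𝔹 (I.v k)) := by
    intro k hk
    unfold L8In.d LlPt.hS
    rw [hC.K_eq k hk, hC.b_eq k hk]
    ring
  have hleft : ∀ k < I.n, I.v k ≠ I.x → |I.d (k + 1) - I.p.d I.F I.𝔹 (I.v k)| ≤ Cb * η2 := by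
    intro k hk hx
    have e : I.d (k + 1) - I.p.d I.F I.𝔹 (I.v k) = I.p.b I.F I.𝔹 (I.v k) * (I.q (k + 1) - I.p.q I.F I.𝔹 (I.v k)) := by
      rw [hd k hk, hC.h_eq k hk hx]
      unfold LlPt.d
      ring
    rw [e]
    exact hbq2 k hk
  have hjump : ∀ k < I.n, I.v k = I.x → -I.p.hS I.F I.𝔹 I.x - Cb * η2 ≤ I.d (k + 1) ∧ I.d (k + 1) ≤ I.p.d I.F I.𝔹 I.x + Cb * η2 := by
    intro k hk hx
    have hb := abs_le.1 (hbq2 k hk)
    obtain ⟨j0, j1⟩ := hC.h_jump k hk hx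
    rw [hd k hk, hx] at *
    constructor
    · linarith [hb.1]
    · unfold LlPt.d
      linarith [hb.2]
  refine { toFineC := hC.mono h1, q_link := ?_, q_left := ?_, d_left := ?_, d_jump := ?_, d_bd := ?_ }
  · intro k hk
    have e : I.q k - I.p.q I.F I.𝔹 (I.v k)
        = (I.q k - I.p.Gam I.F I.𝔹 (I.KC k)) - (I.p.q I.F I.𝔹 (I.v k) - I.p.Gam I.F I.𝔹 (I.KC k)) := by
      ring
    rw [e]
    exact (abs_sub _ _).trans ((add_le_add (hq k hk) (hC.q_step k hk)).trans h2)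
  · intro k hk
    exact (hql k hk).trans (by linarith)
  · intro k hk hx
    exact (hleft k hk hx).trans h3'
  · intro k hk hx
    obtain ⟨j0, j1⟩ := hjump k hk hx
    exact ⟨by linarith, by linarith⟩
  · intro t ht
    have hn : 0 < I.n := lt_of_le_of_lt (Nat.zero_le _) hC.js_lt
    have ha : (0 : ℝ) ≤ I.a := (l8f_v_mem hC.adm hn).1.trans (l8f_v_mem hC.adm hn).2
    have hηn : 0 ≤ η := hη1.trans h1
    rcases Nat.eq_zero_or_pos t with rfl | ht0
    · refine ⟨0, ⟨le_rfl, ha⟩, ?_⟩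
      rw [l8f_d_zero, abs_zero]
      exact add_nonneg (abs_nonneg _) hηn
    obtain ⟨k, rfl⟩ : ∃ k, t = k + 1 := ⟨t - 1, by omega⟩
    have hk : k < I.n := ht
    have hvk := l8f_v_mem hC.adm hk
    by_cases hx : I.v k = I.x
    · obtain ⟨j0, j1⟩ := hjump k hk hx
      rcases le_total 0 (I.d (k + 1)) with hs | hs
      · refine ⟨I.v k, hvk, ?_⟩
        rw [abs_of_nonneg hs, hx]
        linarith [le_abs_self (I.p.d I.F I.𝔹 I.x)]
      · obtain ⟨v', hv', h4⟩ := hM.hS_pre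
        refine ⟨v', hv', ?_⟩
        rw [abs_of_nonpos hs]
        linarith [neg_le_abs (I.p.d I.F I.𝔹 v')]
    · refine ⟨I.v k, hvk, ?_⟩
      have := hleft k hk hx
      have t1 := abs_add_le (I.d (k + 1) - I.p.d I.F I.𝔹 (I.v k)) (I.p.d I.F I.𝔹 (I.v k))
      rw [sub_add_cancel] at t1
      linarith

/-- **ASSEMBLY (proved)** -/
theorem l8f_asm {𝔹 : LlBase} {F : LlFix} (hA : L8fCk 𝔹 F) (hE : L8fMd 𝔹 F) (hQ : L8fQ 𝔹 F)
    (η : ℕ → ℝ) (hη : ∀ N, 2 ≤ N → 0 < η N) : ∃ N0 : ℕ, L8Ev F 𝔹 N0 (fun _ => True) fun I => I.Fine (η I.p.N) := by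
  obtain ⟨N0, hA⟩ := hA
  obtain ⟨N1, hE⟩ := hE
  obtain ⟨N2, hQ⟩ := hQ
  refine ⟨max (max N0 N1) (max N2 2), ?_⟩
  intro N s hN
  have hN0 : N0 ≤ N := ((le_max_left _ _).trans (le_max_left _ _)).trans hN
  have hN1 : N1 ≤ N := ((le_max_right _ _).trans (le_max_left _ _)).trans hN
  have hN2 : N2 ≤ N := ((le_max_left _ _).trans (le_max_right _ _)).trans hN
  have hN4 : 2 ≤ N := ((le_max_right _ _).trans (le_max_right _ _)).trans hN
  have he : 0 < η N := hη N hN4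
  obtain ⟨Cb, hCb, hE⟩ := hE N hN1
  obtain ⟨η2, hη2d⟩ : ∃ η2 : ℝ, η2 = η N / (2 * (Cb + 1)) := ⟨_, rfl⟩
  have hη1 : 0 < η N / 2 := by positivity
  have hη2 : 0 < η2 := by rw [hη2d]; positivity
  have a2 : (Cb + 1) * η2 = η N / 2 := by rw [hη2d]; field_simp
  have b2 : Cb * η2 + η2 = η N / 2 := by rw [← a2]; ring
  have b4 : 0 ≤ Cb * η2 := mul_nonneg hCb hη2.le
  obtain ⟨R, hR⟩ := hA N hN0 s (η N / 2) hη1
  filter_upwards [eventually_ge_atTop R, hQ N hN2 η2 hη2] with Fs hFs hQs ell lam chiL chiE sm γ m _ hOk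
  have hMod := hE (η N / 2) hη1 ⟨F, 𝔹, ll04Pt N ell lam chiL chiE sm γ, m, s, Fs⟩ rfl rfl rfl hOk
  have hC := hR ⟨F, 𝔹, ll04Pt N ell lam chiL chiE sm γ, m, s, Fs⟩ rfl rfl rfl rfl hOk hFs
  refine l8f_fine_of (η1 := η N / 2) (η2 := η2) hC hMod (hQs _ rfl rfl rfl rfl hOk) ?_ ?_ ?_
  · show η N / 2 ≤ η N
    linarith
  · show η2 + η N / 2 ≤ η N
    linarith
  · show η N / 2 + Cb * η2 ≤ η N
    linarith

/-- **all sufficiently fine chains are fine at every point, uniformly** -/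
theorem l8g_fine (T : ℝ) (hT : 1 < T) : L8gFine llBase T := by
  intro F0 hF pB pS h0 h1 η hη
  have h3 : LlSec3 llBase (F0.wExp pB.sStar pB.eta pS) := (hF.2.2 _ _ _ (llc_expOk pB h0 h1)).sec3
  have hB : LlBaseProfile llBase (F0.wExp pB.sStar pB.eta pS).T := by
    have : (F0.wExp pB.sStar pB.eta pS).T = T := hF.1
    rw [this]
    exact hF.2.1
  exact l8f_asm (l8f_chain h3) (l8f_mod h3) (l8f_q hB h3) η hη

end Claimed.Agent.R286
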