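-- KEEP
import Claimed.Agent.R286.L08.Defs
import Claimed.Agent.R286.L08.Fine
import Claimed.Agent.R286.LL.PathsBase

/-!
# Row 286 (S0533), folder L08, file Glue : COMPILED GLUE OF `Exit/DDir`, `Exit/DLow`      (owner helper75, deputy helper22; names `L8g*`, `l8g_*`)

    exit_ddir  <=  l8g_core_dir (37: W instance + PM;  228/298: (D7)-(D9), (D8))  +  l8g_cen (187)  +  l8g_til (187)
    exit_dlow  <=  l8g_core_low (37, 228/298;  163: cap from (D11))              +  l8g_cen        +  l8g_til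

* `I.RndC tl`  the CORE random fields of `I.Rnd tl`: (D2) raw + refined, (D7) lines 1-2 + transferred line 3, (D9);      `I.Cen tl` the three fields which are consequences: (D10), low linear, Cor. 8.7;
* `I.Core`  = `Env + Num + RndC false`      (ONE envelope `e`);      `I.Full` = `Env + Num + Rnd false`;      `I.All` (L08/Defs) = `Full` + `Rnd true` on the stop.
* ORDER OF LOSSES (187): a consequence at the orders `(pm, jm)` and loss `x^(-ε)` needs its source at LARGER orders `(pm0, jm0)` and SMALLER loss `x^(-ε0)`, for the SAME envelope: the forms `L8gCen`, `L8gTil` are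
  "for all targets there is a source"; each of them re-exports the fields of its source at the target (monotonicity in `A`, `pm`, `jm`: `l8g_*_mono` below, free leaves).
* `lw : Bool`  `false` = direct strength sweep (`Y = I.Y`, `Z_h = I.Z`, `vt = I.a`),  `true` = low-region variant on the smoothed size path (`Y = I.Yc δ_*`, `Z_h = 1`, `vt = v0`).
* FINENESS.  `I.Fine η` = what "sufficiently fine chain" means at ONE instance;   `l8g_fine` = the chains are eventually fine UNIFORMLY in the point (equicontinuity of the clocks at fixed `N`; the ONLY place where the net is used);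
  `L8Ev.of_fine` (mesh `x^K`), `L8Ev.of_fine'` (ANY positive mesh `η N`): a statement proved for all fine instances is an `L8Ev`.   PROVERS: work at ONE instance with `I.Fine η`, `η` of your choice.
-/

set_option autoImplicit false

namespace Claimed.Agent.R286

open MeasureTheory Set Filter Finset

noncomputable section

namespace L8In

variable (I : L8In)

/-- low scale / `Z_h` / top of the refined region of the variant `lw` -/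
def Yv : Bool → ℝ
  | false => I.Y
  | true => I.Yc llDStar
def Zv : Bool → ℝ
  | false => I.Z
  | true => 1
def vv : Bool → ℝ → ℝ
  | false, _ => I.a
  | true, v0 => v0

/-- the CORE random fields (same names and statements as in `I.Rnd`) -/
structure RndC (tl : Bool) (e : ℕ → ℝ) (A Y Zh vt : ℝ) (pm jm : ℕ) : Prop where
  raw_X : ∀ r, 1 ≤ r → r ≤ pm → ∀ k, I.act tl k → I.mo tl r ((I.sp tl).nX k) ≤ (A * (I.v k + Y)) ^ (2 * r)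
  raw_L : ∀ r, 1 ≤ r → r ≤ pm → ∀ k, I.act tl k → I.mo tl r ((I.sp tl).L k) ≤ (A * (I.v k + Y)) ^ (2 * r)
  raw_Q : ∀ r, 1 ≤ r → r ≤ pm → ∀ k, I.act tl k → ∀ k₁ k₂, k ≤ k₁ → k ≤ k₂ → I.moF tl k r ((I.sp tl).QX k₁ k₂) ≤ (A * (I.v k + Y)) ^ (2 * r)
  ref_X : ∀ r, 1 ≤ r → r ≤ pm → ∀ k, I.act tl k → I.v k ≤ vt → I.mo tl r (fun ω => (I.sp tl).nX k ω - I.q k) ≤ (A * e k) ^ (2 * r)
  ref_L : ∀ r, 1 ≤ r → r ≤ pm → ∀ k, I.act tl k → I.v k ≤ vt → I.mo tl r (fun ω => 2 * (I.sp tl).L k ω - I.q k) ≤ (A * e k) ^ (2 * r)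
  ref_Q : ∀ r, 1 ≤ r → r ≤ pm → ∀ k, I.act tl k → I.v k ≤ vt → ∀ k₁ k₂, k ≤ k₁ → k ≤ k₂ →
    I.moF tl k r (fun ω => (I.sp tl).QX k₁ k₂ ω - I.q k) ≤ (A * e k) ^ (2 * r)
  d7_W : ∀ r, Y ≤ r → r ≤ vt → ∀ j ≤ jm, I.band r (fun k => I.ex tl ((I.sp tl).W k) * e k ^ (2 * j)) ≤
    A * r * (I.z0 r ^ 2 * Zh ^ 2 * r ^ 3 * (if j = 0 then 1 else (Y ^ 2 / r) ^ 2 * r ^ (2 * j - 2)))
  d7_C : ∀ r, Y ≤ r → r ≤ vt → I.band r (fun k => I.ex tl fun ω => (I.sp tl).xCx k ω + (I.sp tl).trC2 k ω) ≤ A * r * (I.z0 r ^ 2 * Zh ^ 2 * r ^ 2)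
  d7_Q : ∀ r, Y ≤ r → r ≤ vt → I.band r (fun k => I.moF tl k 1 fun ω => (I.sp tl).Q ω - I.S k) ≤ A * r * (I.z0 r * Zh * r ^ 2)
  d9_W : ∀ w, 0 < w → w ≤ 2 * Y → I.int (max w I.x) (2 * w) (fun k => I.ex tl ((I.sp tl).W k)) ≤ A * I.epsw Y w ^ 2
  d9_Q : ∀ w, 0 < w → w ≤ 2 * Y → I.int (max w I.x) (2 * w) (fun k => I.moF tl k 1 fun ω => (I.sp tl).Q ω - I.S k) ≤ A * Y * I.epsw Y w

/-- the consequences (same names and statements as in `I.Rnd`) -/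
structure Cen (tl : Bool) (e : ℕ → ℝ) (A Y Zh vt vp : ℝ) (pm jm : ℕ) : Prop where
  d10 : ∀ r, Y ≤ r → r ≤ vt → ∀ j, 1 ≤ j → j ≤ jm → ∀ c : ℕ → ℕ → ℝ, (∀ i ≤ j, ∀ k ≤ I.n, |c i k| ≤ e k ^ (j - i)) →
    I.ex tl (fun ω => (I.band r fun k => I.pol tl c j k ω - I.ex false (I.pol false c j k)) ^ 2) ≤
      (A * r * (I.z0 r * r * Zh * (if j = 1 then 1 else Y ^ 2 / r * r ^ (j - 2)))) ^ 2
  d10_low : ∀ c : ℕ → ℝ, (∀ k, |c k| ≤ 1) → I.ex tl (fun ω => (I.int I.x (2 * Y) fun k => c k * (2 * (I.sp tl).L k ω - I.S k)) ^ 2) ≤ (A * I.E0 Y) ^ 2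
  proj : ∀ r, 1 ≤ r → r ≤ pm → ∀ c', Y ≤ c' → c' ≤ vp → ∀ k kc, I.act tl k → I.v k ≤ c' / 8 → c' ≤ I.v kc → I.v kc ≤ 2 * c' → ∀ k₁ k₂, kc ≤ k₁ → kc ≤ k₂ →
    I.moF tl k r (fun ω => (I.sp tl).QX k₁ k₂ ω - (I.sp tl).QX kc kc ω) ≤ (A * (I.z0 c' * c')) ^ (2 * r)

variable {I}

theorem Rnd.of {tl : Bool} {e : ℕ → ℝ} {A Y Zh vt vp : ℝ} {pm jm : ℕ} (h : I.RndC tl e A Y Zh vt pm jm) (h' : I.Cen tl e A Y Zh vt vp pm jm) :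
    I.Rnd tl e A Y Zh vt vp pm jm :=
  ⟨h.raw_X, h.raw_L, h.raw_Q, h.ref_X, h.ref_L, h.ref_Q, h.d7_W, h.d7_C, h.d7_Q, h.d9_W, h.d9_Q, h'.d10, h'.d10_low, h'.proj⟩

theorem Rnd.core {tl : Bool} {e : ℕ → ℝ} {A Y Zh vt vp : ℝ} {pm jm : ℕ} (h : I.Rnd tl e A Y Zh vt vp pm jm) : I.RndC tl e A Y Zh vt pm jm :=
  ⟨h.raw_X, h.raw_L, h.raw_Q, h.ref_X, h.ref_L, h.ref_Q, h.d7_W, h.d7_C, h.d7_Q, h.d9_W, h.d9_Q⟩

theorem Rnd.cen {tl : Bool} {e : ℕ → ℝ} {A Y Zh vt vp : ℝ} {pm jm : ℕ} (h : I.Rnd tl e A Y Zh vt vp pm jm) : I.Cen tl e A Y Zh vt vp pm jm :=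
  ⟨h.d10, h.d10_low, h.proj⟩

variable (I)

/-- envelope + numbers + core random fields, untilted -/
structure Core (e : ℕ → ℝ) (A Y Zh vt cE : ℝ) (pm jm : ℕ) : Prop where
  env : I.Env e A Y vt cE
  num : I.Num A Y Zh vt
  rnd : I.RndC false e A Y Zh vt pm jm

/-- everything untilted -/
structure Full (e : ℕ → ℝ) (A Y Zh vt vp cE : ℝ) (pm jm : ℕ) : Prop where
  env : I.Env e A Y vt cE
  num : I.Num A Y Zh vt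
  unt : I.Rnd false e A Y Zh vt vp pm jm

-- `I.FineC η`, `I.Fine η` (v2), `Fine.mono`, `Fine.d_abs`, `L8gFine`, `L8Ev.has`, `l8g_fine` : `L08/Fine.lean` (helper118), imported here

end L8In

/-- class of points of the variant -/
def l8Cls : Bool → LlPt → Prop
  | false => l8Dir
  | true => l8Siz

/-! ### calculus of the shape -/

theorem L8Ev.mono {F : LlFix} {𝔹 : LlBase} {N0 N1 : ℕ} {R : LlPt → Prop} {Φ Ψ : L8In → Prop} (h : L8Ev F 𝔹 N0 R Φ) (hN : N0 ≤ N1)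
    (hi : ∀ I : L8In, I.Ok → Φ I → Ψ I) : L8Ev F 𝔹 N1 R Ψ := by
  intro N s hN'
  filter_upwards [h N s (hN.trans hN')] with Fs hFs ell lam chiL chiE sm γ m hR hOk
  exact hi _ hOk (hFs ell lam chiL chiE sm γ m hR hOk)

theorem L8Ev.and {F : LlFix} {𝔹 : LlBase} {N0 N1 : ℕ} {R : LlPt → Prop} {Φ Ψ : L8In → Prop} (h : L8Ev F 𝔹 N0 R Φ) (h' : L8Ev F 𝔹 N1 R Ψ) :
    L8Ev F 𝔹 (max N0 N1) R fun I => Φ I ∧ Ψ I := by
  intro N s hN'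
  filter_upwards [h N s ((le_max_left _ _).trans hN'), h' N s ((le_max_right _ _).trans hN')] with Fs h1 h2 ell lam chiL chiE sm γ m hR hOk
  exact ⟨h1 ell lam chiL chiE sm γ m hR hOk, h2 ell lam chiL chiE sm γ m hR hOk⟩

/-! ### the forms of the leaves -/

/-- **CORE, direct** -/
def L8gCoreDir (𝔹 : LlBase) (T : ℝ) : Prop :=
  ∀ F0, L8Fix 𝔹 T F0 → ∀ (pB : LLParB) (pS : ℝ), 0 < pS → pS ≤ 1 → ∃ C0 δ0 cE : ℝ, 1 ≤ C0 ∧ 0 < δ0 ∧ 0 < cE ∧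
    ∀ κ : ℝ, 0 < κ → ∀ (pm jm : ℕ) (ε δ' : ℝ), 0 < ε → 0 < δ' → δ' ≤ δ0 → ∃ (C : ℝ) (N0 : ℕ),
      L8Ev (F0.wExp pB.sStar pB.eta pS) 𝔹 N0 l8Dir fun I => I.Y ≤ I.x ^ κ →
        ∃ e : ℕ → ℝ, I.Core e (C * I.x ^ (-ε)) I.Y I.Z I.a cE pm jm ∧ I.D8 e (C * I.x ^ (-ε)) C0 δ'

/-- **CORE, low region of the size paths** (with the cap) -/
def L8gCoreLow (𝔹 : LlBase) (T : ℝ) : Prop :=
  ∀ F0, L8Fix 𝔹 T F0 → ∀ pB : LLParB, LlcStB 𝔹 F0 pB → ∃ p0 cE : ℝ, 0 < p0 ∧ p0 ≤ 1 ∧ 0 < cE ∧ ∀ pS, 0 < pS → pS ≤ p0 → ∃ v0 : ℝ, 0 < v0 ∧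
    ∀ (pm jm : ℕ) (ε : ℝ), 0 < ε → ∃ (C : ℝ) (N0 : ℕ),
      L8Ev (F0.wExp pB.sStar pB.eta pS) 𝔹 N0 l8Siz fun I => 1 ≤ I.Zc llDStar ∧ ∃ e : ℕ → ℝ, I.Core e (C * I.x ^ (-ε)) (I.Yc llDStar) 1 v0 cE pm jm

/-- **CEN**: (D10), low linear integral, Cor. 8.7 from the core, same envelope.      The SOURCE lives on the DOUBLE range `vv lw (2 v0)` (187, approved by 75): the band `[r/2, 2r]` of (D10) at `r ≤ v0` reaches the mass `2 v0`. -/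
def L8gCen (𝔹 : LlBase) (T : ℝ) : Prop :=
  ∀ F0, L8Fix 𝔹 T F0 → ∀ (pB : LLParB) (pS : ℝ), 0 < pS → pS ≤ 1 → ∃ v1 : ℝ, 0 < v1 ∧ ∀ (lw : Bool) (κ cE v0 : ℝ), 0 < κ → 0 < cE → 0 < v0 →
    ∀ (pm jm : ℕ) (ε : ℝ), 0 < ε → ∃ (pm0 jm0 : ℕ) (ε0 : ℝ), 0 < ε0 ∧ ∀ C0 : ℝ, ∃ (C : ℝ) (N0 : ℕ),
      L8Ev (F0.wExp pB.sStar pB.eta pS) 𝔹 N0 (l8Cls lw) fun I => (lw = false → I.Y ≤ I.x ^ κ) → C0 * I.x ^ (-ε0) ≤ C * I.x ^ (-ε) ∧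
        ∀ e : ℕ → ℝ, I.Core e (C0 * I.x ^ (-ε0)) (I.Yv lw) (I.Zv lw) (I.vv lw (2 * v0)) cE pm0 jm0 → I.Full e (C * I.x ^ (-ε)) (I.Yv lw) (I.Zv lw) (I.vv lw v0) v1 cE pm jm

/-- **TIL**: the transfer to the tilted active ensemble on the stop, same envelope -/
def L8gTil (𝔹 : LlBase) (T : ℝ) : Prop :=
  ∀ F0, L8Fix 𝔹 T F0 → ∀ (pB : LLParB) (pS : ℝ), 0 < pS → pS ≤ 1 → ∀ (lw : Bool) (κ cE v0 v1 εs qs : ℝ), 0 < κ → 0 < cE → 0 < v0 → 0 < v1 → 0 < εs → 0 < qs →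
    ∀ (pm jm : ℕ) (ε : ℝ), 0 < ε → ∃ (pm0 jm0 : ℕ) (ε0 : ℝ), 0 < ε0 ∧ ∀ C0 : ℝ, ∃ (C : ℝ) (N0 : ℕ),
      L8Ev (F0.wExp pB.sStar pB.eta pS) 𝔹 N0 (l8Cls lw) fun I => (lw = false → I.Y ≤ I.x ^ κ) → C0 * I.x ^ (-ε0) ≤ C * I.x ^ (-ε) ∧
        ∀ e : ℕ → ℝ, I.Full e (C0 * I.x ^ (-ε0)) (I.Yv lw) (I.Zv lw) (I.vv lw v0) v1 cE pm0 jm0 → I.All e (C * I.x ^ (-ε)) (I.Yv lw) (I.Zv lw) (I.vv lw v0) v1 cE εs qs pm jm ∧
          (lw = false → ∀ C8 δ' : ℝ, 0 ≤ C8 * δ' → I.D8 e (C0 * I.x ^ (-ε0)) C8 δ' → I.s = qs * I.x ^ (1 + εs) → I.Stop (I.x ^ εs) → I.D8t e (C * I.x ^ (-ε)) C8 δ')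

end

/-! ### glue (proved) -/

theorem L8In.x_nonneg (I : L8In) : 0 ≤ I.x := Real.rpow_nonneg (Nat.cast_nonneg _) _

/-- (D8) is monotone in the loss -/
theorem L8In.D8.mono {I : L8In} {e : ℕ → ℝ} {A A' C0 δ' : ℝ} (h : I.D8 e A C0 δ') (hA : A ≤ A') : I.D8 e A' C0 δ' := by
  have hx := I.x_nonneg
  have h1 : 0 ≤ I.x ^ (-(C0 * δ')) := Real.rpow_nonneg hx _
  have h2 : 0 ≤ I.z0 1 := div_nonneg (pow_nonneg hx _) (mul_nonneg (Real.sqrt_nonneg _) (by norm_num))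
  refine le_trans h ?_
  have : A * I.x ^ (-(C0 * δ')) ≤ A' * I.x ^ (-(C0 * δ')) := mul_le_mul_of_nonneg_right hA h1
  exact mul_le_mul_of_nonneg_right (mul_le_mul_of_nonneg_right (mul_le_mul_of_nonneg_right this h2) (sq_nonneg _)) (sq_nonneg _)

/-- a statement proved at all `x^K`-fine instances has the shape `L8Ev` -/
theorem L8Ev.of_fine {𝔹 : LlBase} {T : ℝ} (hf : L8gFine 𝔹 T) {F0 : LlFix} (hF : L8Fix 𝔹 T F0) (pB : LLParB) {pS : ℝ} (h0 : 0 < pS) (h1 : pS ≤ 1) (K : ℝ) (N1 : ℕ)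
    {R : LlPt → Prop} {Φ : L8In → Prop}
    (h : ∀ I : L8In, I.F = F0.wExp pB.sStar pB.eta pS → I.𝔹 = 𝔹 → N1 ≤ I.p.N → R I.p → I.Ok → I.Fine (I.x ^ K) → Φ I) :
    ∃ N0 : ℕ, L8Ev (F0.wExp pB.sStar pB.eta pS) 𝔹 N0 R Φ := by
  obtain ⟨N0, hN0⟩ := hf F0 hF pB pS h0 h1 (fun N => ((N : ℝ) ^ (-(1 / 6) : ℝ)) ^ K)
    (fun N hN => Real.rpow_pos_of_pos (Real.rpow_pos_of_pos (by exact_mod_cast (by omega : 0 < N)) _) _)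
  refine ⟨max N0 N1, ?_⟩
  intro N s hN
  filter_upwards [hN0 N s ((le_max_left _ _).trans hN)] with Fs hFs ell lam chiL chiE sm γ m hR hOk
  exact h _ rfl rfl ((le_max_right _ _).trans hN) hR hOk (hFs ell lam chiL chiE sm γ m trivial hOk)

/-- the same with an arbitrary positive mesh `η N` -/
theorem L8Ev.of_fine' {𝔹 : LlBase} {T : ℝ} (hf : L8gFine 𝔹 T) {F0 : LlFix} (hF : L8Fix 𝔹 T F0) (pB : LLParB) {pS : ℝ} (h0 : 0 < pS) (h1 : pS ≤ 1)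
    (η : ℕ → ℝ) (hη : ∀ N, 2 ≤ N → 0 < η N) (N1 : ℕ) {R : LlPt → Prop} {Φ : L8In → Prop}
    (h : ∀ I : L8In, I.F = F0.wExp pB.sStar pB.eta pS → I.𝔹 = 𝔹 → N1 ≤ I.p.N → R I.p → I.Ok → I.Fine (η I.p.N) → Φ I) :
    ∃ N0 : ℕ, L8Ev (F0.wExp pB.sStar pB.eta pS) 𝔹 N0 R Φ := by
  obtain ⟨N0, hN0⟩ := hf F0 hF pB pS h0 h1 η hη
  refine ⟨max N0 N1, ?_⟩
  intro N s hN
  filter_upwards [hN0 N s ((le_max_left _ _).trans hN)] with Fs hFs ell lam chiL chiE sm γ m hR hOk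
  exact h _ rfl rfl ((le_max_right _ _).trans hN) hR hOk (hFs ell lam chiL chiE sm γ m trivial hOk)

/-- **GLUE of `Exit/DDir`** -/
theorem l8g_ddir {𝔹 : LlBase} {T : ℝ} (hcore : L8gCoreDir 𝔹 T) (hcen : L8gCen 𝔹 T) (htil : L8gTil 𝔹 T) : L8xDir 𝔹 T := by
  intro F0 hF pB pS h0 h1
  obtain ⟨C0, δ0, cE, hC0, hδ0, hcE, hco⟩ := hcore F0 hF pB pS h0 h1
  obtain ⟨v1, hv1, hce⟩ := hcen F0 hF pB pS h0 h1
  refine ⟨C0, δ0, v1, cE, hC0, hδ0, hv1, hcE, ?_⟩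
  intro κ εs qs hκ hεs hqs pm jm ε δ' hε hδ' hδ''
  obtain ⟨pm1, jm1, ε1, hε1, ht⟩ := htil F0 hF pB pS h0 h1 false κ cE 1 v1 εs qs hκ hcE one_pos hv1 hεs hqs pm jm ε hε
  obtain ⟨pm0, jm0, ε0, hε0, hc⟩ := hce false κ cE 1 hκ hcE one_pos pm1 jm1 ε1 hε1
  obtain ⟨Ca, Na, ha⟩ := hco κ hκ pm0 jm0 ε0 δ' hε0 hδ' hδ''
  obtain ⟨Cb, Nb, hb⟩ := hc Ca
  obtain ⟨Cc, Nc, hcc⟩ := ht Cb
  refine ⟨Cc, max (max Na Nb) Nc, ?_⟩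
  refine L8Ev.mono ((ha.and hb).and hcc) le_rfl ?_
  rintro I - ⟨⟨h1, h2⟩, h3⟩ hY
  obtain ⟨e, hcore, hd8⟩ := h1 hY
  obtain ⟨hA, h2⟩ := h2 fun _ => hY
  obtain ⟨hA', h3⟩ := h3 fun _ => hY
  obtain ⟨h4, h5⟩ := h3 e (h2 e hcore)
  exact ⟨e, h4, hd8.mono (hA.trans hA'), h5 rfl C0 δ' (mul_nonneg (zero_le_one.trans hC0) hδ'.le) (hd8.mono hA)⟩

/-- **GLUE of `Exit/DLow`** -/
theorem l8g_dlow {𝔹 : LlBase} {T : ℝ} (hcore : L8gCoreLow 𝔹 T) (hcen : L8gCen 𝔹 T) (htil : L8gTil 𝔹 T) : L8xLow 𝔹 T := by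
  intro F0 hF pB hpB
  obtain ⟨p0, cE, hp0, hp1, hcE, hco⟩ := hcore F0 hF pB hpB
  refine ⟨p0, cE, hp0, hcE, ?_⟩
  intro pS h0 h1
  obtain ⟨v0, hv0, hco⟩ := hco pS h0 h1
  obtain ⟨v1, hv1, hce⟩ := hcen F0 hF pB pS h0 (h1.trans hp1)
  have hv0' : 0 < v0 / 2 := by positivity
  refine ⟨v0 / 2, v1, hv0', hv1, ?_⟩
  intro εs qs hεs hqs pm jm ε hε
  obtain ⟨pm1, jm1, ε1, hε1, ht⟩ := htil F0 hF pB pS h0 (h1.trans hp1) true 1 cE (v0 / 2) v1 εs qs one_pos hcE hv0' hv1 hεs hqs pm jm ε hε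
  obtain ⟨pm0, jm0, ε0, hε0, hc⟩ := hce true 1 cE (v0 / 2) one_pos hcE hv0' pm1 jm1 ε1 hε1
  rw [show 2 * (v0 / 2) = v0 by ring] at hc
  obtain ⟨Ca, Na, ha⟩ := hco pm0 jm0 ε0 hε0
  obtain ⟨Cb, Nb, hb⟩ := hc Ca
  obtain ⟨Cc, Nc, hcc⟩ := ht Cb
  refine ⟨Cc, max (max Na Nb) Nc, ?_⟩
  refine L8Ev.mono ((ha.and hb).and hcc) le_rfl ?_
  rintro I - ⟨⟨⟨hZ, e, hcore⟩, h2⟩, h3⟩
  obtain ⟨-, h2⟩ := h2 (by simp)
  obtain ⟨-, h3⟩ := h3 (by simp)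
  exact ⟨hZ, e, (h3 e (h2 e hcore)).1⟩

/-! ### the leaves -/

-- `l8g_fine : L8gFine llBase T` = L08/Fine.lean (helper118: compiled glue over the clock part of 214, the Q-LINK of 120)
-- `l8p_core_dir : L8gCoreDir llBase T`, `l8q_core_low : L8gCoreLow llBase T` = PM/InstZ.lean (helper37);   `l8x_cen : L8gCen llBase T` = L08/CenX.lean (helper148)
-- `l8g_til : L8gTil llBase T` = L08/TlTil.lean (helper189)

end Claimed.Agent.R286
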