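-- KEEP
import Claimed.Agent.R286.L08.Glue
import Claimed.Agent.R286.L08.Cen
import Claimed.Agent.R286.L08.SPKitC
import Claimed.Agent.R286.L09.ChDPsi
import Claimed.Agent.R286.Brg.Osc
import Claimed.Agent.R286.LL.PathsClkE

/-!
# Row 286 (S0533), folder L08, file CenX : (D10), THE LOW LINEAR INTEGRAL AND COR. 8.7 AT THE INSTANCE `I : L8In`      (skeleton helper187, OWNER helper148; prefix `l8x_`, `L8x*` is taken by the exits: defs `l8x*`, `L8In.Slope`, `L8gSlope`)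

TARGET: `l8x_cen : L8gCen llBase T` (leaf `l8g_cen` of `L08/Glue.lean`): `I.Core` at the loss `C0 x^(-ε0)` and the orders `(pm0, jm0)`  ⟹  `I.Full` at `C x^(-ε)`, `(pm, jm)`, SAME envelope.
    l8x_cen  <=  l8x_cen_of  <=  l8g_fine (Glue)  +  l8x_slope_gen ((D3) in mass form on the chain  <=  l8x_slope_path (LlSec3: (P2), (P4), `H_e = 0` below the ramp)  +  l8x_slope_of_path)  +  l8x_inst
    l8x_inst <=  §4 monotonicity (`Env`, `Num`, `RndC`)  +  §1 `l8x_d10`  +  §2 `l8x_low`  +  §3 `l8x_proj`  +  §5 arithmetic of the exponents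
§0 dictionary `I ↔ I.sp false : L8P`;   §1-§3 are the abstract theorems of `L08/Cen.lean` (`l8c_D10`, `l8c_linear`, `l8c_low_proj`) at `I.sp false`, with the analytic inputs `l8i_pin`, `l8i_proj` (L08/SPI).
TEX[LL:lem:statistics-centered] TEX[LL:cor:statistics-low-projection]

HANDOVER (187 -> 148, 15 Oct 05:40Z).   Every statement below was checked on paper against `Defs.lean` v2 / `Glue.lean` (80f8d60100).   CONSTANTS:
* (A1) = `l8i_pin` at `r = 1` gives `Pin 1 (7/3)`;   (A3) = `l8i_proj r` gives ONE `c` for all `vmin, hmin > 0` (take `cp := max 1 c`, so `c ≤ cp^(2r)`).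
* (D10): `l8c_D10` (no bound `e ≤ 4` any more) with the envelope `e k`, truncation `T = x^(-ε')`: `ε' = ε / (2 jm + 2)`, `ε0 ≤ ε' / 2`, `q ε' ≥ 2 jm + 6`; the tail is compared with the polynomial lower bound `x^(jm+3) / 16` of the target
  (`l8x_d10_lower`).   Bands with `r > a` are empty (trivial); so `r ≤ a ≤ 4` in `l8x_d10_lower`.
* low linear: `nd = Nat.clog 2 N` dyads (`Y ≤ 1 ≤ 2^nd x`, as `x = N^(-1/6) ≥ 1/N`), `10 (nd + 1) A0 ≤ A²` by `l8x_arith_log`.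
* Cor. 8.7: layers `ρ_i = 4^i c'`, `κ_i ≤ κ0 / (√ρ_i ρ_i²)` with `κ0 = 4 cp / √(m cH λ₁)`, anchors `N_i ≤ N0 √ρ_i`, `N0 = √(3 A0)` (`v + Y ≤ 3 ρ_i`; the terminal anchor: `nX ≤ 1 ≤ 3 A0 vs < 3 A0 · 4^b c'`, hypothesis `hA0'` of `l8x_proj`),
  `1/√m ≤ √2 x³` (`l8x_m_inv`): total `4 κ0 N0 / c'² ≤ 16 cp √(6 A0 / cH) · x³ / (√λ₁ c'²) = A z0(c') c'`.
* `l8x_inst`: work at `C1 := max |C0| (1 / (3 vs))` (source lifted by the §4 mono lemmas), `pm0 = max pm q`, `jm0 = 2 jm` (the weights `e^(2(j-1))` of (D7)), `ε0` from `l8x_arith_d10`.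
-/

set_option autoImplicit false

namespace Claimed.Agent.R286

open MeasureTheory ProbabilityTheory Finset

noncomputable section

namespace L8In

variable (I : L8In)

/-! ## §0 dictionary -/

/-- the cuts with mass in `[lo, hi]` -/
def l8xK (lo hi : ℝ) : Finset ℕ := (range (I.n + 1)).filter fun k => lo ≤ I.v k ∧ I.v k ≤ hi

/-- **(D3) in mass form on the chain**: a gap from a mass `≤ ρ/2` to a mass `≥ ρ` has field length `≳ λ₁ ρ³` -/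
def Slope (cH vs : ℝ) : Prop :=
  ∀ ρ, 2 * I.x ≤ ρ → ρ ≤ vs → ∀ k₁ k₂, k₁ ≤ k₂ → k₂ ≤ I.n → I.v k₁ ≤ ρ / 2 → ρ ≤ I.v k₂ → cH * I.lam1 * ρ ^ 3 ≤ I.hC k₂ - I.hC k₁

/-- signs of the exponents (`λ₁ ≤ 1`, `x ≤ U ≤ 1` need all three) -/
def Ex : Prop := 0 ≤ I.F.eta ∧ 0 ≤ I.F.sS ∧ 0 ≤ I.F.pS

theorem l8x_int_eq (lo hi : ℝ) (g : ℕ → ℝ) : I.int lo hi g = ∑ k ∈ I.l8xK lo hi, I.dv k * g k := rfl

theorem l8x_K_sub (lo hi : ℝ) : I.l8xK lo hi ⊆ range (I.n + 1) := Finset.filter_subset _ _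

theorem l8x_K_mem {lo hi : ℝ} {k : ℕ} : k ∈ I.l8xK lo hi ↔ k ≤ I.n ∧ lo ≤ I.v k ∧ I.v k ≤ hi := by
  simp [l8xK]

/-- both ensembles live on the same stages and masses -/
theorem l8x_ms (tl : Bool) : (I.P tl).map SkInc.m = I.P0.map SkInc.m := by
  cases tl with
  | false => rfl
  | true =>
    show (llMvAt I.js I.LP).map SkInc.m = (llMat I.LP).map SkInc.m
    unfold llMvAt llMat
    refine List.ext_getElem (by simp) fun i h1 h2 => ?_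
    simp

theorem l8x_n (tl : Bool) : (I.sp tl).n = I.n := by
  show (I.P tl).length = I.LP.length
  have := congrArg List.length (I.l8x_ms tl)
  simpa [P0, llMat] using this

theorem l8x_v (tl : Bool) (k : ℕ) : (I.sp tl).v k = I.v k := by
  show skMs I.a (I.P tl) k = skMs I.a I.P0 k
  unfold skMs
  rw [I.l8x_ms tl]

theorem l8x_dv (tl : Bool) (k : ℕ) : (I.sp tl).dv k = I.dv k := by
  unfold L8P.dv dv skGap
  rw [I.l8x_v tl, I.l8x_v tl]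
  rfl

theorem l8x_a_mem (h : I.Ok) : 1 ≤ I.a ∧ I.a ≤ 4 := by
  unfold a LlPt.a
  split_ifs
  · norm_num
  · refine ⟨h.pt.ell1, h.pt.ell2.trans ?_⟩
    calc (2 : ℝ) ^ (1 / 6 : ℝ) ≤ (2 : ℝ) ^ (1 : ℝ) := Real.rpow_le_rpow_of_exponent_le (by norm_num) (by norm_num)
      _ ≤ 4 := by norm_num

theorem l8x_m_pos (h : I.Ok) : 1 ≤ I.m := by
  have := h.pt.N2
  have := h.m_lo
  omega

theorem l8x_x_mem (h : I.Ok) : 0 < I.x ∧ I.x < 1 := by
  have hN : (1 : ℝ) < I.p.N := by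
    have := h.pt.N2
    exact_mod_cast (by omega : 1 < I.p.N)
  exact ⟨Real.rpow_pos_of_pos (by linarith) _, Real.rpow_lt_one_of_one_lt_of_neg hN (by norm_num)⟩

/-- `m ≥ N / 2 = x^(-6) / 2` -/
theorem l8x_m_inv (h : I.Ok) : 1 / (I.m : ℝ) ≤ 2 * I.x ^ 6 := by
  have hN : (0 : ℝ) < I.p.N := by
    have := h.pt.N2
    exact_mod_cast (by omega : 0 < I.p.N)
  have hm : (0 : ℝ) < I.m := by exact_mod_cast I.l8x_m_pos h
  have e : I.x ^ 6 = (I.p.N : ℝ)⁻¹ := by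
    show ((I.p.N : ℝ) ^ (-(1 / 6) : ℝ)) ^ 6 = _
    rw [← Real.rpow_natCast, ← Real.rpow_mul hN.le]
    norm_num
    exact Real.rpow_neg_one _
  have h2 : (I.p.N : ℝ) ≤ 2 * I.m := by exact_mod_cast h.m_lo
  rw [e, div_le_iff₀ hm]
  have : 1 ≤ (I.p.N : ℝ)⁻¹ * (2 * I.m) := by
    rw [inv_mul_eq_div, le_div_iff₀ hN]
    linarith
  linarith

theorem l8x_lam_mem (h : I.Ok) (hE : I.Ex) : 0 < I.p.lam ∧ I.p.lam ≤ 1 := by
  obtain ⟨hx0, hx1⟩ := I.l8x_x_mem h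
  exact ⟨(Real.rpow_pos_of_pos hx0 _).trans_le h.pt.lam_lo, h.pt.lam_hi.trans (Real.rpow_le_one hx0.le hx1.le hE.2.2)⟩

theorem l8x_lam1_mem (h : I.Ok) (hE : I.Ex) : 0 < I.lam1 ∧ I.lam1 ≤ 1 := by
  obtain ⟨h0, h1⟩ := I.l8x_lam_mem h hE
  exact ⟨Real.rpow_pos_of_pos h0 _, Real.rpow_le_one h0.le h1 (by linarith [hE.1])⟩

theorem l8x_U_mem (h : I.Ok) (hE : I.Ex) : I.x ≤ I.U ∧ I.U ≤ 1 := by
  obtain ⟨hx0, hx1⟩ := I.l8x_x_mem h
  obtain ⟨h0, h1⟩ := I.l8x_lam_mem h hE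
  refine ⟨le_min hx1.le ?_, min_le_left _ _⟩
  have : 1 ≤ I.p.lam ^ (-(I.F.sS / 2)) := Real.one_le_rpow_of_pos_of_le_one_of_nonpos h0 h1 (by linarith [hE.2.1])
  show I.p.x ≤ I.p.x * _
  have hx0' : 0 < I.p.x := hx0
  nlinarith

/-- `U ≥ x^(1 - p_* s_* / 2)` (or `U = 1`): `U / x → ∞` -/
theorem l8x_U_ge (h : I.Ok) (hE : I.Ex) : min 1 (I.x ^ (1 - I.F.pS * I.F.sS / 2)) ≤ I.U := by
  obtain ⟨hx0, hx1⟩ := I.l8x_x_mem h
  obtain ⟨h0, h1⟩ := I.l8x_lam_mem h hE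
  refine min_le_min le_rfl ?_
  have hx0' : 0 < I.p.x := hx0
  have e : I.x ^ (1 - I.F.pS * I.F.sS / 2) = I.p.x * (I.p.x ^ I.F.pS) ^ (-(I.F.sS / 2)) := by
    show I.p.x ^ (1 - I.F.pS * I.F.sS / 2) = _
    rw [← Real.rpow_mul hx0'.le]
    nth_rewrite 2 [← Real.rpow_one I.p.x]
    rw [← Real.rpow_add hx0']
    congr 1; ring
  rw [e]
  refine mul_le_mul_of_nonneg_left ?_ hx0'.le
  exact Real.rpow_le_rpow_of_nonpos h0 h.pt.lam_hi (by linarith [hE.2.1])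

theorem l8x_rpow_quarter (t : ℝ) : 0 ≤ t ^ (1 / 4 : ℝ) := by
  rcases lt_or_ge t 0 with ht | ht
  · rw [Real.rpow_def_of_neg ht]
    refine mul_nonneg (Real.exp_pos _).le (Real.cos_nonneg_of_mem_Icc ⟨?_, ?_⟩)
    · have := Real.pi_pos; linarith
    · have := Real.pi_pos; linarith
  · exact Real.rpow_nonneg ht _

theorem l8x_Z_ge : 1 ≤ I.Z := by
  unfold Z
  have := l8x_rpow_quarter (I.bud / I.U ^ 4)
  linarith

theorem l8x_ok (h : I.Ok) (hadm : LlStpAdm I.a I.LP) : (I.sp false).Ok :=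
  l8i_ok I.m (I.l8x_m_pos h) I.a (lt_of_lt_of_le one_pos (I.l8x_a_mem h).1) _ hadm.1

theorem l8x_S (h : I.Ok) (hadm : LlStpAdm I.a I.LP) {k : ℕ} (hk : k ≤ I.n) : (I.sp false).S k = I.S k :=
  l8i_S I.m I.a (lt_of_lt_of_le one_pos (I.l8x_a_mem h).1) _ hadm.1 k (by simpa [llMat, n] using hk)

theorem l8x_sum_getD (L : List ℝ) : ∀ j : ℕ, ∑ k ∈ Finset.range j, L.getD k 0 = (L.take j).sum := by
  induction L with
  | nil => intro j; simp
  | cons x L ih =>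
    intro j
    cases j with
    | zero => simp
    | succ j =>
      rw [Finset.sum_range_succ', List.take_succ_cons, List.sum_cons, ← ih j]
      simp [add_comm]

theorem l8x_hlen {k₁ k₂ : ℕ} (h12 : k₁ ≤ k₂) : (I.sp false).hlen k₁ k₂ = I.hC k₂ - I.hC k₁ := by
  show ∑ j ∈ Ico k₁ k₂, (I.P0.map SkInc.dh).getD j 0 = skCumH I.P0 k₂ - skCumH I.P0 k₁
  rw [Finset.sum_Ico_eq_sub _ h12, l8x_sum_getD, l8x_sum_getD, skCumH, skCumH, List.map_take, List.map_take]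

theorem l8x_dv_nonneg (h : I.Ok) (hadm : LlStpAdm I.a I.LP) (k : ℕ) : 0 ≤ I.dv k := by
  rw [← I.l8x_dv false]; exact (I.sp false).l8c_dv_nonneg (I.l8x_ok h hadm) k

theorem l8x_v_mono (h : I.Ok) (hadm : LlStpAdm I.a I.LP) : Monotone I.v := by
  intro k l hkl
  rw [← I.l8x_v false, ← I.l8x_v false]; exact (I.l8x_ok h hadm).v_mono hkl

theorem l8x_v_top {k : ℕ} (hk : I.n ≤ k) : I.v k = I.a := by
  unfold v skMs
  rw [List.getD_eq_default _ _ (by simpa [P0, llMat, n] using hk)]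

theorem l8x_dv_tel (k : ℕ) : ∑ j ∈ range (k + 1), I.dv j = I.v k := by
  induction k with
  | zero => simp [dv, skGap, v]
  | succ k ih =>
    rw [Finset.sum_range_succ, ih]
    simp [dv, skGap, v]

theorem l8x_dv_pos {k : ℕ} (hk : k ≠ 0) : I.dv k = I.v k - I.v (k - 1) := by
  unfold dv skGap v
  rw [if_neg hk]

/-- total mass of a set of cuts -/
theorem l8x_dv_sum (h : I.Ok) (hadm : LlStpAdm I.a I.LP) (lo hi : ℝ) : ∑ k ∈ I.l8xK lo hi, I.dv k ≤ I.a := by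
  calc ∑ k ∈ I.l8xK lo hi, I.dv k ≤ ∑ k ∈ range (I.n + 1), I.dv k :=
        Finset.sum_le_sum_of_subset_of_nonneg (I.l8x_K_sub lo hi) fun k _ _ => I.l8x_dv_nonneg h hadm k
    _ = I.a := by rw [I.l8x_dv_tel, I.l8x_v_top le_rfl]

/-- the first cut of mass `≥ ρ` -/
theorem l8x_cut (h : I.Ok) (hadm : LlStpAdm I.a I.LP) {η : ℝ} (hmesh : ∀ k ≤ I.n, I.dv k ≤ η) {ρ : ℝ} (hρ : ρ ≤ I.a) :
    ∃ k ≤ I.n, ρ ≤ I.v k ∧ I.v k ≤ max ρ 0 + η := by
  classical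
  have hex : ∃ k, ρ ≤ I.v k := ⟨I.n, by rw [I.l8x_v_top le_rfl]; exact hρ⟩
  have hle : Nat.find hex ≤ I.n := Nat.find_min' hex (by rw [I.l8x_v_top le_rfl]; exact hρ)
  refine ⟨Nat.find hex, hle, Nat.find_spec hex, ?_⟩
  have hd := hmesh _ hle
  rcases Nat.eq_zero_or_pos (Nat.find hex) with h0 | h0
  · rw [h0] at hd ⊢
    have e : I.dv 0 = I.v 0 := by simp [dv, skGap, v]
    rw [e] at hd
    linarith [le_max_right ρ 0]
  · have h1 : I.v (Nat.find hex - 1) < ρ := not_le.1 (Nat.find_min hex (by omega))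
    have e : I.dv (Nat.find hex) = I.v (Nat.find hex) - I.v (Nat.find hex - 1) := I.l8x_dv_pos (Nat.pos_iff_ne_zero.1 h0)
    rw [e] at hd
    linarith [le_max_left ρ 0]

/-! ## §1 (D10) -/

end L8In

/-- the polynomial `P_v` of (D10) at the cut `k` -/
def l8xP (c : ℕ → ℕ → ℝ) (j k : ℕ) : Polynomial ℝ := ∑ i ∈ range (j + 1), Polynomial.C (c i k) * Polynomial.X ^ i

theorem l8x_P_eval (c : ℕ → ℕ → ℝ) (j k : ℕ) (t : ℝ) : (l8xP c j k).eval t = ∑ i ∈ range (j + 1), c i k * t ^ i := by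
  simp [l8xP, Polynomial.eval_finsetSum]

theorem l8x_P_poly {c : ℕ → ℕ → ℝ} {j k : ℕ} {e : ℝ} (hc : ∀ i ≤ j, |c i k| ≤ e ^ (j - i)) : L8cPoly j 1 e (l8xP c j k) := by
  constructor
  · unfold l8xP
    refine Polynomial.natDegree_sum_le_of_forall_le _ _ fun i hi => ?_
    exact (Polynomial.natDegree_C_mul_X_pow_le _ _).trans (Nat.lt_succ_iff.1 (Finset.mem_range.1 hi))
  · intro i hi
    have : (l8xP c j k).coeff i = c i k := by
      unfold l8xP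
      rw [Polynomial.finsetSum_coeff]
      simp only [Polynomial.coeff_C_mul_X_pow]
      rw [Finset.sum_ite_eq (range (j + 1)) i]
      simp [Nat.lt_succ_iff.2 hi]
    rw [this, one_mul]
    exact hc i hi

namespace L8In

variable (I : L8In)

/-- the centred band integral of `L08/Defs.lean` is `l8cI` of `L08/Cen.lean` -/
theorem l8x_band_I (h : I.Ok) (hadm : LlStpAdm I.a I.LP) (lo hi : ℝ) (c : ℕ → ℕ → ℝ) (j : ℕ) (ω : SkOm I.m) :
    I.int lo hi (fun k => I.pol false c j k ω - I.ex false (I.pol false c j k)) = (I.sp false).l8cI (I.l8xK lo hi) (l8xP c j) ω := by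
  rw [I.l8x_int_eq]
  unfold L8P.l8cI
  refine Finset.sum_congr rfl fun k hk => ?_
  have hk' := (I.l8x_K_mem.1 hk).1
  have hS := I.l8x_S h hadm hk'
  have e : ∀ ω, (l8xP c j k).eval ((I.sp false).l8cT k ω) = I.pol false c j k ω := by
    intro ω
    rw [l8x_P_eval]; unfold L8In.pol L8P.l8cT; rw [hS]
  simp only [e]
  rw [I.l8x_dv false]
  rfl

/-- (D2), second line, about the mean `S` instead of `q` -/
theorem l8x_T_mom (h : I.Ok) (hadm : LlStpAdm I.a I.LP) {k q : ℕ} (hk : k ≤ I.n) (hq : 1 ≤ q) {B : ℝ} (hB : 0 ≤ B) (hf : |I.f k| ≤ B)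
    (hL : I.mo false q (fun ω => 2 * (I.sp false).L k ω - I.q k) ≤ B ^ (2 * q)) :
    ∫ ω, (I.sp false).l8cT k ω ^ (2 * q) ∂(I.sp false).μ ≤ (2 * B) ^ (2 * q) := by
  have hok := I.l8x_ok h hadm
  have := hok.prob
  have hS := I.l8x_S h hadm hk
  have e : ∀ ω, (I.sp false).l8cT k ω = (2 * (I.sp false).L k ω - I.q k) + (-(I.f k)) := by
    intro ω; unfold L8P.l8cT L8In.f; rw [hS]; ring
  simp only [e]
  have hLb : L8Bd fun ω => 2 * (I.sp false).L k ω - I.q k := (((I.sp false).l8s_L_bd hok k).const_mul 2).sub (l8Bd_const _)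
  have hc : ∫ _ω, (-(I.f k)) ^ (2 * q) ∂(I.sp false).μ ≤ B ^ (2 * q) := by
    rw [integral_const, probReal_univ, one_smul, (even_two_mul q).neg_pow, ← (even_two_mul q).pow_abs]
    exact pow_le_pow_left₀ (abs_nonneg _) hf _
  have := L8P.l8c_mink2 (I.sp false).μ q hq (F := fun ω => 2 * (I.sp false).L k ω - I.q k) (G := fun _ => -(I.f k)) (A := B) (B := B)
    hLb.1 measurable_const hLb.2 ⟨|I.f k|, fun _ => by simp⟩ hB hB hL hc
  rw [two_mul B]; exact this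

theorem l8x_pin (h : I.Ok) (hadm : LlStpAdm I.a I.LP) : (I.sp false).Pin 1 (7 / 3) := by
  have h' := l8i_pin I.m (I.l8x_m_pos h) I.a (lt_of_lt_of_le one_pos (I.l8x_a_mem h).1) (I.P false) hadm.1 1 le_rfl
  have e : ((1 + (2 * ((1 : ℕ) : ℝ)) ^ 2 / 3) ^ 1 : ℝ) = 7 / 3 := by norm_num
  rwa [e] at h'

theorem _root_.Claimed.Agent.R286.l8x_d10_arith {X J Tp A0 A t2 F a Qq Sd : ℝ} (hJ : 0 ≤ J) (ht2 : 0 ≤ t2) (hF : 0 ≤ F) (hQ : 0 ≤ Qq) (hSd : Sd ≤ a)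
    (hX : X ≤ 4 * (7 / 3) * J * (Tp * (A0 * t2) + F * (Qq * Sd))) (h1 : 19 * J * Tp * A0 ≤ A ^ 2) (h2 : 19 * J * F * (Qq * a) ≤ A ^ 2 * t2) :
    X ≤ A ^ 2 * t2 := by
  have a1 : 19 * J * Tp * A0 * t2 ≤ A ^ 2 * t2 := mul_le_mul_of_nonneg_right h1 ht2
  have a2 : J * F * (Qq * Sd) ≤ J * F * (Qq * a) := mul_le_mul_of_nonneg_left (mul_le_mul_of_nonneg_left hSd hQ) (mul_nonneg hJ hF)
  have a3 : 0 ≤ A ^ 2 * t2 := mul_nonneg (sq_nonneg _) ht2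
  have e : 4 * (7 / 3) * J * (Tp * (A0 * t2) + F * (Qq * Sd)) = 28 / 57 * (19 * J * Tp * A0 * t2) + 28 / 3 * (J * F * (Qq * Sd)) := by ring
  rw [e] at hX
  linarith

/-- TEX[LL:lem:statistics-centered] **(D10) at the instance**, one band, one degree.   `T = x^(-ε')` the truncation, `q` the moment order of the tail; `h1`, `h2`: arithmetic (§5) -/
theorem l8x_d10 (h : I.Ok) (hadm : LlStpAdm I.a I.LP) {e : ℕ → ℝ} {A0 A Y Zh T r : ℝ} {j q : ℕ} (hj : 1 ≤ j) (hq : 1 ≤ q) (hA0 : 0 ≤ A0) (hT : 1 ≤ T)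
    (he : ∀ k ≤ I.n, 0 < e k)
    (hf : ∀ k ≤ I.n, r ≤ I.v k → I.v k ≤ 2 * r → |I.f k| ≤ A0 * e k)
    (hL : ∀ k ≤ I.n, r ≤ I.v k → I.v k ≤ 2 * r → I.mo false q (fun ω => 2 * (I.sp false).L k ω - I.q k) ≤ (A0 * e k) ^ (2 * q))
    (hW : I.band r (fun k => I.ex false ((I.sp false).W k) * e k ^ (2 * (j - 1))) ≤
      A0 * r * (I.z0 r ^ 2 * Zh ^ 2 * r ^ 3 * (if j - 1 = 0 then 1 else (Y ^ 2 / r) ^ 2 * r ^ (2 * (j - 1) - 2))))
    (c : ℕ → ℕ → ℝ) (hc : ∀ i ≤ j, ∀ k ≤ I.n, |c i k| ≤ e k ^ (j - i))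
    (h1 : 19 * (j : ℝ) ^ 4 * T ^ (2 * (j - 1)) * A0 ≤ A ^ 2)
    (h2 : 19 * (j : ℝ) ^ 4 * 4 ^ (2 * (j - 1)) * (4 * I.a) * ((2 * A0 / T) ^ (2 * q) * I.a)
      ≤ A ^ 2 * (r * (I.z0 r * r * Zh * (if j = 1 then 1 else Y ^ 2 / r * r ^ (j - 2)))) ^ 2) :
    I.ex false (fun ω => (I.band r fun k => I.pol false c j k ω - I.ex false (I.pol false c j k)) ^ 2) ≤
      (A * r * (I.z0 r * r * Zh * (if j = 1 then 1 else Y ^ 2 / r * r ^ (j - 2)))) ^ 2 := by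
  have hok := I.l8x_ok h hadm
  have hpin := I.l8x_pin h hadm
  have hK : I.l8xK r (2 * r) ⊆ range ((I.sp false).n + 1) := by rw [I.l8x_n false]; exact I.l8x_K_sub _ _
  obtain ⟨t, ht⟩ : ∃ t, t = r * (I.z0 r * r * Zh * (if j = 1 then 1 else Y ^ 2 / r * r ^ (j - 2))) := ⟨_, rfl⟩
  have hite : (if j - 1 = 0 then (1 : ℝ) else (Y ^ 2 / r) ^ 2 * r ^ (2 * (j - 1) - 2)) = (if j = 1 then 1 else Y ^ 2 / r * r ^ (j - 2)) ^ 2 := by
    by_cases hj1 : j = 1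
    · subst hj1; simp
    · rw [if_neg (by omega), if_neg hj1, mul_pow, ← pow_mul]; congr 2; omega
  have hW' : ∑ k ∈ I.l8xK r (2 * r), (I.sp false).dv k * e k ^ (2 * (j - 1)) * ∫ ω, (I.sp false).W k ω ∂(I.sp false).μ ≤ A0 * t ^ 2 := by
    refine le_trans (le_of_eq ?_) (hW.trans (le_of_eq ?_))
    · unfold L8In.band; rw [I.l8x_int_eq]
      exact Finset.sum_congr rfl fun k _ => by rw [I.l8x_dv false]; unfold L8In.ex; ring
    · rw [hite, ht]; ring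
  have hM : ∀ k ∈ I.l8xK r (2 * r), ∫ ω, (I.sp false).l8cT k ω ^ (2 * q) ∂(I.sp false).μ ≤ (2 * A0 * e k) ^ (2 * q) := by
    intro k hk
    obtain ⟨hk1, hk2, hk3⟩ := I.l8x_K_mem.1 hk
    have := I.l8x_T_mom h hadm hk1 hq (mul_nonneg hA0 (he k hk1).le) (hf k hk1 hk2 hk3) (hL k hk1 hk2 hk3)
    rwa [← mul_assoc] at this
  have hD := (I.sp false).l8c_D10 hok (by norm_num) hpin hK (j := j) (c := 1) (e := e) (fun k hk => he k (I.l8x_K_mem.1 hk).1) (p := l8xP c j)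
    (fun k hk => l8x_P_poly fun i hi => hc i hi k (I.l8x_K_mem.1 hk).1) hT q hW' hM
  have e1 : I.ex false (fun ω => (I.band r fun k => I.pol false c j k ω - I.ex false (I.pol false c j k)) ^ 2)
      = ∫ ω, (I.sp false).l8cI (I.l8xK r (2 * r)) (l8xP c j) ω ^ 2 ∂(I.sp false).μ := by
    have e0 : ∀ ω, (I.band r fun k => I.pol false c j k ω - I.ex false (I.pol false c j k)) = (I.sp false).l8cI (I.l8xK r (2 * r)) (l8xP c j) ω :=
      fun ω => I.l8x_band_I h hadm r (2 * r) c j ω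
    simp only [e0]
    rfl
  have e2 : (A * r * (I.z0 r * r * Zh * (if j = 1 then 1 else Y ^ 2 / r * r ^ (j - 2)))) ^ 2 = A ^ 2 * t ^ 2 := by rw [ht]; ring
  rw [e1, e2]
  rw [← ht] at h2
  have ha0 : 0 ≤ I.a := by linarith [(I.l8x_a_mem h).1]
  have hSd : ∑ k ∈ I.l8xK r (2 * r), (I.sp false).dv k ≤ I.a := by
    simp only [I.l8x_dv false]; exact I.l8x_dv_sum h hadm _ _
  refine l8x_d10_arith (J := (j : ℝ) ^ 4) (Tp := T ^ (2 * (j - 1))) (A0 := A0) (F := 4 ^ (2 * (j - 1)) * (4 * I.a)) (a := I.a) (Qq := (2 * A0 / T) ^ (2 * q))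
    (by positivity) (sq_nonneg t) (by positivity) ((even_two_mul q).pow_nonneg _) hSd (hD.trans (le_of_eq ?_)) h1 (le_trans (le_of_eq ?_) h2)
  · have ea : (I.sp false).a = I.a := rfl
    rw [ea]
    ring
  · ring

theorem _root_.Claimed.Agent.R286.l8x_d10_lower_aux {x lam Y Zh r : ℝ} {j jm : ℕ} (hx0 : 0 < x) (hx1 : x ≤ 1) (hl0 : 0 < lam) (hl1 : lam ≤ 1) (hj : 1 ≤ j)
    (hjm : j ≤ jm) (hY : x ≤ Y) (hYr : Y ≤ r) (hr : r ≤ 4) (hZ : 1 ≤ Zh) :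
    x ^ (jm + 3) / 16 ≤ r * (x ^ 3 / (√lam * r ^ 3) * r * Zh * (if j = 1 then 1 else Y ^ 2 / r * r ^ (j - 2))) := by
  have hr0 : 0 < r := by linarith
  have hs0 : 0 < √lam := Real.sqrt_pos.2 hl0
  have hs1 : √lam ≤ 1 := Real.sqrt_le_one.2 hl1
  have h1 : x ^ 3 / 4 ≤ r * (x ^ 3 / (√lam * r ^ 3) * r) := by
    have e : r * (x ^ 3 / (√lam * r ^ 3) * r) = x ^ 3 / (√lam * r) := by field_simp
    rw [e]
    exact div_le_div_of_nonneg_left (by positivity) (by positivity) (by nlinarith)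
  have h2 : x ^ j / 4 ≤ (if j = 1 then 1 else Y ^ 2 / r * r ^ (j - 2)) := by
    split_ifs with hj1
    · subst hj1; linarith
    · have e : x ^ j = x ^ 2 * x ^ (j - 2) := by rw [← pow_add]; congr 1; omega
      have a1 : x ^ 2 ≤ Y ^ 2 := pow_le_pow_left₀ hx0.le hY 2
      have a2 : x ^ (j - 2) ≤ r ^ (j - 2) := pow_le_pow_left₀ hx0.le (hY.trans hYr) _
      have a3 : x ^ 2 / 4 ≤ Y ^ 2 / r := by
        rw [div_le_div_iff₀ (by norm_num) hr0]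
        nlinarith [sq_nonneg x, sq_nonneg Y]
      calc x ^ j / 4 = x ^ 2 / 4 * x ^ (j - 2) := by rw [e]; ring
        _ ≤ Y ^ 2 / r * r ^ (j - 2) := mul_le_mul a3 a2 (by positivity) (by positivity)
  have h3 : x ^ (jm + 3) ≤ x ^ (j + 3) := pow_le_pow_of_le_one hx0.le hx1 (by omega)
  have h4 : x ^ 3 / 4 * (x ^ j / 4) ≤ r * (x ^ 3 / (√lam * r ^ 3) * r) * (if j = 1 then 1 else Y ^ 2 / r * r ^ (j - 2)) :=
    mul_le_mul h1 h2 (by positivity) (by positivity)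
  have h5 : 0 ≤ r * (x ^ 3 / (√lam * r ^ 3) * r) * (if j = 1 then 1 else Y ^ 2 / r * r ^ (j - 2)) := le_trans (by positivity) h4
  calc x ^ (jm + 3) / 16 ≤ x ^ (j + 3) / 16 := by linarith
    _ = x ^ 3 / 4 * (x ^ j / 4) := by rw [pow_add]; ring
    _ ≤ _ := h4
    _ ≤ r * (x ^ 3 / (√lam * r ^ 3) * r) * (if j = 1 then 1 else Y ^ 2 / r * r ^ (j - 2)) * Zh := le_mul_of_one_le_right h5 hZ
    _ = _ := by ring

/-- polynomial lower bound of the target of (D10) -/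
theorem l8x_d10_lower (h : I.Ok) (hE : I.Ex) {Y Zh r : ℝ} {j jm : ℕ} (hj : 1 ≤ j) (hjm : j ≤ jm) (hY : I.x ≤ Y) (hYr : Y ≤ r) (hr : r ≤ 4) (hZ : 1 ≤ Zh) :
    I.x ^ (jm + 3) / 16 ≤ r * (I.z0 r * r * Zh * (if j = 1 then 1 else Y ^ 2 / r * r ^ (j - 2))) := by
  obtain ⟨hx0, hx1⟩ := I.l8x_x_mem h
  obtain ⟨hl0, hl1⟩ := I.l8x_lam1_mem h hE
  exact l8x_d10_lower_aux hx0 hx1.le hl0 hl1 hj hjm hY hYr hr hZ

/-! ## §2 the low linear centred integral -/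

theorem l8x_epsw_le (h : I.Ok) (hE : I.Ex) {Y : ℝ} (hY : 0 ≤ Y) (w : ℝ) : 0 ≤ I.epsw Y w ∧ I.epsw Y w ≤ I.E0 Y := by
  obtain ⟨hx0, hx1⟩ := I.l8x_x_mem h
  obtain ⟨hl0, hl1⟩ := I.l8x_lam1_mem h hE
  obtain ⟨hU0, hU1⟩ := I.l8x_U_mem h hE
  have hU : 0 < I.U := lt_of_lt_of_le hx0 hU0
  have hs0 : 0 < √I.lam1 := Real.sqrt_pos.2 hl0
  have hm : 0 < max w I.U := lt_of_lt_of_le hU (le_max_right _ _)
  constructor
  · unfold L8In.epsw
    have := Real.rpow_pos_of_pos hm (3 / 2 : ℝ)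
    positivity
  · unfold L8In.E0 L8In.epsw
    rw [max_self]
    have h1 : I.U ^ (3 / 2 : ℝ) ≤ max w I.U ^ (3 / 2 : ℝ) := Real.rpow_le_rpow hU.le (le_max_right _ _) (by norm_num)
    have h2 := Real.rpow_pos_of_pos hU (3 / 2 : ℝ)
    exact div_le_div_of_nonneg_left (by positivity) (by positivity) (mul_le_mul_of_nonneg_left h1 hs0.le)

theorem _root_.Claimed.Agent.R286.l8x_dy_cover {x v : ℝ} (nd : ℕ) : ∀ {Y : ℝ}, x ≤ v → v ≤ 2 * Y → Y ≤ 2 ^ nd * x → ∃ i ≤ nd, Y / 2 ^ i ≤ v ∧ v ≤ 2 * (Y / 2 ^ i) := by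
  induction nd with
  | zero =>
    intro Y h1 h2 h3
    exact ⟨0, le_rfl, by simpa using (by simpa using h3 : Y ≤ x).trans h1, by simpa using h2⟩
  | succ nd ih =>
    intro Y h1 h2 h3
    by_cases hY : Y ≤ v
    · exact ⟨0, Nat.zero_le _, by simpa using hY, by simpa using h2⟩
    · have hY' : v < Y := not_le.1 hY
      obtain ⟨i, hi, a1, a2⟩ := ih (Y := Y / 2) h1 (by linarith) (by rw [pow_succ] at h3; linarith)
      have e : Y / 2 ^ (i + 1) = Y / 2 / 2 ^ i := by rw [pow_succ, mul_comm, ← div_div]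
      exact ⟨i + 1, by omega, by rwa [e], by rwa [e]⟩

/-- dyadic cover of `[x, 2 Y]` -/
theorem l8x_low_cover (h : I.Ok) (hadm : LlStpAdm I.a I.LP) {Y : ℝ} {nd : ℕ} (hY : 0 < Y) (hnd : Y ≤ 2 ^ nd * I.x) (g : ℕ → ℝ) (hg : ∀ k, 0 ≤ g k) :
    I.int I.x (2 * Y) g ≤ ∑ i ∈ range (nd + 1), I.int (max (Y / 2 ^ i) I.x) (2 * (Y / 2 ^ i)) g := by
  classical
  simp only [L8In.int, Finset.sum_filter]
  rw [Finset.sum_comm]
  refine Finset.sum_le_sum fun k _ => ?_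
  have h0 : 0 ≤ I.dv k * g k := mul_nonneg (I.l8x_dv_nonneg h hadm k) (hg k)
  split_ifs with hk
  · obtain ⟨i, hi, a1, a2⟩ := l8x_dy_cover nd hk.1 hk.2 hnd
    have := Finset.single_le_sum (f := fun i => if max (Y / 2 ^ i) I.x ≤ I.v k ∧ I.v k ≤ 2 * (Y / 2 ^ i) then I.dv k * g k else 0)
      (fun i _ => by split_ifs <;> simp [h0]) (Finset.mem_range.2 (Nat.lt_succ_iff.2 hi))
    rwa [if_pos ⟨max_le a1 hk.1, a2⟩] at this
  · exact Finset.sum_nonneg fun i _ => by split_ifs <;> simp [h0]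

/-- TEX[LL:lem:statistics-centered] **the low linear centred integral at the instance**: (A1) + (D9) on `≲ log (1/x)` dyads -/
theorem l8x_low (h : I.Ok) (hadm : LlStpAdm I.a I.LP) (hE : I.Ex) {A0 A Y : ℝ} {nd : ℕ} (hY : 0 < Y) (hnd : Y ≤ 2 ^ nd * I.x) (hA0 : 0 ≤ A0)
    (hW : ∀ w, 0 < w → w ≤ 2 * Y → I.int (max w I.x) (2 * w) (fun k => I.ex false ((I.sp false).W k)) ≤ A0 * I.epsw Y w ^ 2)
    (h1 : 10 * ((nd : ℝ) + 1) * A0 ≤ A ^ 2) (c : ℕ → ℝ) (hc : ∀ k, |c k| ≤ 1) :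
    I.ex false (fun ω => (I.int I.x (2 * Y) fun k => c k * (2 * (I.sp false).L k ω - I.S k)) ^ 2) ≤ (A * I.E0 Y) ^ 2 := by
  have hok := I.l8x_ok h hadm
  have hpin := I.l8x_pin h hadm
  have hK : I.l8xK I.x (2 * Y) ⊆ range ((I.sp false).n + 1) := by rw [I.l8x_n false]; exact I.l8x_K_sub _ _
  have hlin := (I.sp false).l8c_linear hok (by norm_num) hpin hK c (fun k _ => hc k)
  have e1 : I.ex false (fun ω => (I.int I.x (2 * Y) fun k => c k * (2 * (I.sp false).L k ω - I.S k)) ^ 2)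
      = ∫ ω, (∑ k ∈ I.l8xK I.x (2 * Y), (I.sp false).dv k * c k * (I.sp false).l8cT k ω) ^ 2 ∂(I.sp false).μ := by
    unfold L8In.ex
    refine integral_congr_ae (Filter.Eventually.of_forall fun ω => ?_)
    simp only [I.l8x_int_eq]
    congr 1
    refine Finset.sum_congr rfl fun k hk => ?_
    rw [I.l8x_dv false, L8P.l8cT, I.l8x_S h hadm (I.l8x_K_mem.1 hk).1]; ring
  rw [e1]
  refine hlin.trans ?_
  have hW0 : ∀ k, 0 ≤ I.ex false ((I.sp false).W k) := fun k => integral_nonneg fun ω => (I.sp false).l8s_W_nonneg hok k ω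
  have e2 : ∑ k ∈ I.l8xK I.x (2 * Y), (I.sp false).dv k * ∫ ω, (I.sp false).W k ω ∂(I.sp false).μ = I.int I.x (2 * Y) (fun k => I.ex false ((I.sp false).W k)) := by
    rw [I.l8x_int_eq]
    exact Finset.sum_congr rfl fun k _ => by rw [I.l8x_dv false]; rfl
  rw [e2]
  have h2 := I.l8x_low_cover h hadm hY hnd _ hW0
  have h3 : ∑ i ∈ range (nd + 1), I.int (max (Y / 2 ^ i) I.x) (2 * (Y / 2 ^ i)) (fun k => I.ex false ((I.sp false).W k)) ≤ ∑ _i ∈ range (nd + 1), A0 * I.E0 Y ^ 2 := by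
    refine Finset.sum_le_sum fun i _ => ?_
    have hp : (0 : ℝ) < 2 ^ i := by positivity
    have hp1 : (1 : ℝ) ≤ 2 ^ i := one_le_pow₀ (by norm_num)
    have hw0 : 0 < Y / 2 ^ i := div_pos hY hp
    have hw1 : Y / 2 ^ i ≤ 2 * Y := (div_le_self hY.le hp1).trans (by linarith)
    refine (hW _ hw0 hw1).trans (mul_le_mul_of_nonneg_left ?_ hA0)
    obtain ⟨a1, a2⟩ := I.l8x_epsw_le h hE hY.le (Y / 2 ^ i)
    exact pow_le_pow_left₀ a1 a2 2
  rw [Finset.sum_const, Finset.card_range, nsmul_eq_mul] at h3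
  have h4 := h2.trans h3
  have h5 : 0 ≤ I.E0 Y ^ 2 := sq_nonneg _
  have h6 := mul_le_mul_of_nonneg_right h1 h5
  have h7 : 0 ≤ ((nd : ℝ) + 1) * A0 * I.E0 Y ^ 2 := by positivity
  push_cast at h4
  rw [mul_pow]
  nlinarith

/-! ## §3 Cor. 8.7 -/

/-- cuts after the terminal draw -/
theorem l8x_QX_min (h : I.Ok) (hadm : LlStpAdm I.a I.LP) (k₁ k₂ : ℕ) (p : SkOm I.m × SkOm I.m) :
    (I.sp false).QX k₁ k₂ p = (I.sp false).QX (min k₁ (I.n + 1)) (min k₂ (I.n + 1)) p := by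
  have hok := I.l8x_ok h hadm
  have hn := I.l8x_n false
  have hX : ∀ (k : ℕ) (i : Fin I.m) (ω : SkOm I.m), (I.sp false).X k i ω = (I.sp false).X (min k (I.n + 1)) i ω := by
    intro k i ω
    rcases le_total k (I.n + 1) with hk | hk
    · rw [min_eq_left hk]
    · rw [min_eq_right hk, (I.sp false).l8s_X_term hok (by omega), (I.sp false).l8s_X_term hok (by omega)]
  unfold L8P.QX
  exact Finset.sum_congr rfl fun i _ => by rw [hX k₁, hX k₂]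

/-- (D2), first line, in the form used for the anchors -/
theorem l8x_anchor (h : I.Ok) (hadm : LlStpAdm I.a I.LP) {k r : ℕ} {B : ℝ} (hB : 0 ≤ B) (hX : I.mo false r ((I.sp false).nX k) ≤ B ^ (2 * r)) :
    ∫ ω, (I.sp false).nX k ω ^ r ∂(I.sp false).μ ≤ √B ^ (2 * r) := by
  have hok := I.l8x_ok h hadm
  have := hok.prob
  have hb := L8P.l8c_bd_pow ((I.sp false).l8c_nX_bd hok k) r
  have hi1 : Integrable (fun ω => (I.sp false).nX k ω ^ r) (I.sp false).μ := hb.integrable _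
  have hi2 : Integrable (fun ω => ((I.sp false).nX k ω ^ r) ^ 2) (I.sp false).μ := (hb.pow 2).integrable _
  obtain ⟨M, hM⟩ : ∃ M, M = ∫ ω, (I.sp false).nX k ω ^ r ∂(I.sp false).μ := ⟨_, rfl⟩
  have hM0 : 0 ≤ M := by rw [hM]; exact integral_nonneg fun ω => pow_nonneg ((I.sp false).l8c_nX_nonneg k ω) r
  have h1 : 0 ≤ ∫ ω, ((I.sp false).nX k ω ^ r - M) ^ 2 ∂(I.sp false).μ := integral_nonneg fun ω => sq_nonneg _
  have h2 : ∫ ω, ((I.sp false).nX k ω ^ r - M) ^ 2 ∂(I.sp false).μ = ∫ ω, ((I.sp false).nX k ω ^ r) ^ 2 ∂(I.sp false).μ - M ^ 2 := by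
    have e : ∀ ω, ((I.sp false).nX k ω ^ r - M) ^ 2 = ((I.sp false).nX k ω ^ r) ^ 2 - 2 * M * (I.sp false).nX k ω ^ r + M ^ 2 := fun ω => by ring
    simp only [e]
    have hi3 : Integrable (fun ω => 2 * M * (I.sp false).nX k ω ^ r) (I.sp false).μ := hi1.const_mul _
    have hi4 : Integrable (fun ω => ((I.sp false).nX k ω ^ r) ^ 2 - 2 * M * (I.sp false).nX k ω ^ r) (I.sp false).μ := hi2.sub hi3
    rw [integral_add hi4 (integrable_const _), integral_sub hi2 hi3, integral_const_mul, ← hM,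
      integral_const, probReal_univ, one_smul]
    ring
  have h3 : ∫ ω, ((I.sp false).nX k ω ^ r) ^ 2 ∂(I.sp false).μ ≤ B ^ (2 * r) := by
    refine le_trans (le_of_eq ?_) hX
    unfold L8In.mo
    exact integral_congr_ae (Filter.Eventually.of_forall fun ω => by simp only [← pow_mul, mul_comm r 2])
  have h4 : M ^ 2 ≤ (B ^ r) ^ 2 := by rw [← pow_mul, mul_comm r 2]; linarith
  have h5 : M ≤ B ^ r := abs_le_of_sq_le_sq' h4 (by positivity) |>.2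
  rw [← hM, pow_mul, Real.sq_sqrt hB]
  exact h5

/-- TEX[LL:cor:statistics-low-projection] "future doubling layers up to a small macroscopic mass before the long terminal block, with a full gap after the fork": layers `ρ_i = 4^i c'`, `i < b`; `t 0 = kc`,
`t i` = first cut of mass `≥ ρ_i`, `t b` = the terminal leaf; gaps `g 0` = first cut of mass `≥ c'/4`, `g i = t (i - 1)` -/
theorem l8x_layers (h : I.Ok) (hadm : LlStpAdm I.a I.LP) {η cH vs c' : ℝ} (hmesh : ∀ k ≤ I.n, I.dv k ≤ η) (hη : η ≤ I.x / 4) (hsl : I.Slope cH vs) (hvs : vs ≤ 1 / 4)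
    (hc1 : 2 * I.x ≤ c') (hc2 : c' ≤ vs) {k kc : ℕ} (hk : I.v k ≤ c' / 8) (hkc1 : c' ≤ I.v kc) (hkc2 : I.v kc ≤ 2 * c') :
    ∃ (b : ℕ) (t g : ℕ → ℕ), 1 ≤ b ∧ Monotone t ∧ t 0 = kc ∧ t b = I.n + 1 ∧ (∀ i < b, k ≤ g i ∧ g i < t i) ∧ (∀ i < b, 4 ^ i * c' / 4 ≤ I.v (g i)) ∧
      (∀ i < b, cH * I.lam1 * (4 ^ i * c') ^ 3 ≤ I.hC (t i) - I.hC (g i)) ∧ (∀ i < b, t i ≤ I.n ∧ I.v (t i) ≤ 2 * (4 ^ i * c')) ∧ vs < 4 ^ b * c' := by
  classical
  have hx := (I.l8x_x_mem h).1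
  have hmono := I.l8x_v_mono h hadm
  have ha := (I.l8x_a_mem h).1
  have hc0 : 0 < c' := by linarith
  have hlt : ∀ {i j : ℕ}, I.v i < I.v j → i < j := by
    intro i j hij
    by_contra hc
    have := hmono (not_lt.1 hc)
    linarith
  have hkcn : kc < I.n := hlt (by rw [I.l8x_v_top le_rfl]; linarith)
  have hex : ∃ b : ℕ, vs < 4 ^ b * c' := by
    obtain ⟨b, hb⟩ := pow_unbounded_of_one_lt (vs / c') (by norm_num : (1 : ℝ) < 4)
    exact ⟨b, by rwa [div_lt_iff₀ hc0] at hb⟩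
  set b := Nat.find hex with hbdef
  have hb : vs < 4 ^ b * c' := Nat.find_spec hex
  have hbm : ∀ i < b, 4 ^ i * c' ≤ vs := fun i hi => not_lt.1 (Nat.find_min hex hi)
  have hb1 : 1 ≤ b := by
    by_contra hc
    have : b = 0 := by omega
    rw [this] at hb
    simp at hb
    linarith
  have hρ : ∀ i : ℕ, c' ≤ 4 ^ i * c' := fun i => by
    have : (1 : ℝ) ≤ 4 ^ i := one_le_pow₀ (by norm_num)
    nlinarith
  have H : ∀ i : ℕ, ∃ k', (i < b → k' ≤ I.n ∧ 4 ^ i * c' ≤ I.v k' ∧ I.v k' ≤ 2 * (4 ^ i * c')) ∧ (i = 0 → k' = kc) ∧ (b ≤ i → k' = I.n + 1) := by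
    intro i
    rcases Nat.eq_zero_or_pos i with h0 | h0
    · subst h0
      exact ⟨kc, fun _ => ⟨hkcn.le, by simpa using hkc1, by simpa using hkc2⟩, fun _ => rfl, fun hc => by omega⟩
    · rcases lt_or_ge i b with hi | hi
      · obtain ⟨k', h1, h2, h3⟩ := I.l8x_cut h hadm hmesh (ρ := 4 ^ i * c') (by linarith [hbm i hi])
        have := hρ i
        rw [max_eq_left (by linarith)] at h3
        exact ⟨k', fun _ => ⟨h1, h2, by linarith⟩, fun hc => by omega, fun hc => by omega⟩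
      · exact ⟨I.n + 1, fun hc => by omega, fun hc => by omega, fun _ => rfl⟩
  choose t ht using H
  obtain ⟨g0, hg0n, hg0a, hg0b⟩ := I.l8x_cut h hadm hmesh (ρ := c' / 4) (by linarith)
  rw [max_eq_left (by linarith)] at hg0b
  have ht0 : t 0 = kc := (ht 0).2.1 rfl
  have hstep : ∀ i, i + 1 < b → t i < t (i + 1) := by
    intro i hi
    apply hlt
    have h1 := ((ht i).1 (by omega)).2.2
    have h2 := ((ht (i + 1)).1 hi).2.1
    have := hρ i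
    rw [pow_succ] at h2
    linarith
  have htmono : Monotone t := by
    apply monotone_nat_of_le_succ
    intro i
    rcases lt_or_ge (i + 1) b with hi | hi
    · exact (hstep i hi).le
    · rw [(ht (i + 1)).2.2 hi]
      rcases lt_or_ge i b with hi' | hi'
      · exact ((ht i).1 hi').1.trans (Nat.le_succ _)
      · rw [(ht i).2.2 hi']
  obtain ⟨g, hgz, hgs⟩ : ∃ g : ℕ → ℕ, g 0 = g0 ∧ ∀ i, 0 < i → g i = t (i - 1) :=
    ⟨fun i => if i = 0 then g0 else t (i - 1), by simp, fun i hi => by simp [Nat.pos_iff_ne_zero.1 hi]⟩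
  refine ⟨b, t, g, hb1, htmono, ht0, (ht b).2.2 le_rfl, ?_, ?_, ?_, ?_, hb⟩
  · intro i hi
    rcases Nat.eq_zero_or_pos i with h0 | h0
    · subst h0
      rw [hgz, ht0]
      exact ⟨(hlt (by linarith)).le, hlt (by linarith)⟩
    · rw [hgs i h0]
      have h1 := ((ht (i - 1)).1 (by omega)).2.1
      have := hρ (i - 1)
      refine ⟨(hlt (by linarith)).le, ?_⟩
      have := hstep (i - 1) (by omega)
      rwa [Nat.sub_add_cancel h0] at this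
  · intro i hi
    rcases Nat.eq_zero_or_pos i with h0 | h0
    · subst h0
      rw [hgz]
      simpa using hg0a
    · rw [hgs i h0]
      have h1 := ((ht (i - 1)).1 (by omega)).2.1
      have e : (4 : ℝ) ^ i = 4 ^ (i - 1) * 4 := by rw [← pow_succ, Nat.sub_add_cancel h0]
      rw [e]; linarith
  · intro i hi
    have hti := (ht i).1 hi
    have hρi := hρ i
    rcases Nat.eq_zero_or_pos i with h0 | h0
    · subst h0
      rw [hgz]
      refine hsl _ (by linarith) (hbm 0 hi) g0 (t 0) ?_ hti.1 (by simp; linarith) hti.2.1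
      rw [ht0]; exact (hlt (by linarith)).le
    · rw [hgs i h0]
      have h1 := ((ht (i - 1)).1 (by omega)).2.2
      have e : (4 : ℝ) ^ i = 4 ^ (i - 1) * 4 := by rw [← pow_succ, Nat.sub_add_cancel h0]
      refine hsl _ (by linarith) (hbm i hi) (t (i - 1)) (t i) (htmono (by omega)) hti.1 (by rw [e]; linarith) hti.2.1
  · intro i hi
    exact ⟨((ht i).1 hi).1, ((ht i).1 hi).2.2⟩

end L8In

theorem l8x_geom16 (b : ℕ) : ∑ i ∈ range b, (1 / 16 : ℝ) ^ i = 16 / 15 * (1 - (1 / 16) ^ b) := by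
  induction b with
  | zero => simp
  | succ b ih => rw [Finset.sum_range_succ, ih, pow_succ]; ring

/-- the sum over the layers `ρ_i = 4^i c'` -/
theorem l8x_low_sum4 (b : ℕ) {c' κ0 N0 : ℝ} (hc : 0 < c') (hκ0 : 0 ≤ κ0) (hN0 : 0 ≤ N0) (κ N : ℕ → ℝ) (hN : ∀ i ≤ b, 0 ≤ N i)
    (hκ : ∀ i < b, κ i ≤ κ0 / (√(4 ^ i * c') * (4 ^ i * c') ^ 2)) (hN' : ∀ i ≤ b, N i ≤ N0 * √(4 ^ i * c')) :
    ∑ i ∈ range b, κ i * (N (i + 1) + N i) ≤ 4 * κ0 * N0 / c' ^ 2 := by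
  have hterm : ∀ i ∈ range b, κ i * (N (i + 1) + N i) ≤ (3 * κ0 * N0 / c' ^ 2) * (1 / 16 : ℝ) ^ i := by
    intro i hi
    have hi' := Finset.mem_range.1 hi
    set ρ : ℝ := 4 ^ i * c' with hρ
    have hρ0 : 0 < ρ := by positivity
    have hs : 0 < √ρ := Real.sqrt_pos.2 hρ0
    have h2 : √(4 ^ (i + 1) * c') = 2 * √ρ := by
      have : (4 : ℝ) ^ (i + 1) * c' = 2 ^ 2 * ρ := by rw [hρ, pow_succ]; ring
      rw [this, Real.sqrt_mul (by norm_num), Real.sqrt_sq (by norm_num)]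
    have hNN : N (i + 1) + N i ≤ N0 * (3 * √ρ) := by
      have a1 := hN' (i + 1) (by omega)
      have a2 := hN' i (by omega)
      rw [h2] at a1
      nlinarith
    have hNN0 : 0 ≤ N (i + 1) + N i := add_nonneg (hN _ (by omega)) (hN _ (by omega))
    calc κ i * (N (i + 1) + N i) ≤ κ0 / (√ρ * ρ ^ 2) * (N (i + 1) + N i) := mul_le_mul_of_nonneg_right (hκ i hi') hNN0
      _ ≤ κ0 / (√ρ * ρ ^ 2) * (N0 * (3 * √ρ)) := mul_le_mul_of_nonneg_left hNN (by positivity)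
      _ = 3 * κ0 * N0 / ρ ^ 2 := by field_simp
      _ = (3 * κ0 * N0 / c' ^ 2) * (1 / 16 : ℝ) ^ i := by
          rw [hρ, mul_pow, ← pow_mul, mul_comm i 2, pow_mul, one_div, inv_pow]; norm_num; field_simp
  refine (Finset.sum_le_sum hterm).trans ?_
  rw [← Finset.mul_sum, l8x_geom16]
  have h4 : (0 : ℝ) ≤ (1 / 16) ^ b := by positivity
  have hA : 0 ≤ κ0 * N0 / c' ^ 2 := by positivity
  have e : 3 * κ0 * N0 / c' ^ 2 = 3 * (κ0 * N0 / c' ^ 2) := by ring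
  have e' : 4 * κ0 * N0 / c' ^ 2 = 4 * (κ0 * N0 / c' ^ 2) := by ring
  rw [e, e']
  nlinarith [mul_nonneg hA h4]

namespace L8In

variable (I : L8In)

theorem _root_.Claimed.Agent.R286.l8x_proj_kap {c cp m cH lam ρ vg hl : ℝ} {r : ℕ} (hc : c ≤ cp ^ (2 * r)) (hm : 0 < m) (hcH : 0 < cH)
    (hl0 : 0 < lam) (hρ : 0 < ρ) (hvg : ρ / 4 ≤ vg) (hhl : cH * lam * ρ ^ 3 ≤ hl) :
    c / (vg ^ 2 * m * hl) ^ r ≤ (4 * cp / √(m * cH * lam) / (√ρ * ρ ^ 2)) ^ (2 * r) := by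
  have hD0 : 0 < (ρ / 4) ^ 2 * m * (cH * lam * ρ ^ 3) := by positivity
  have hD : (ρ / 4) ^ 2 * m * (cH * lam * ρ ^ 3) ≤ vg ^ 2 * m * hl := by
    have a1 : (ρ / 4) ^ 2 ≤ vg ^ 2 := pow_le_pow_left₀ (by positivity) hvg 2
    have a2 : 0 ≤ vg ^ 2 * m := by positivity
    calc (ρ / 4) ^ 2 * m * (cH * lam * ρ ^ 3) ≤ vg ^ 2 * m * (cH * lam * ρ ^ 3) :=
          mul_le_mul_of_nonneg_right (mul_le_mul_of_nonneg_right a1 hm.le) (by positivity)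
      _ ≤ _ := mul_le_mul_of_nonneg_left hhl a2
  have e : (4 * cp / √(m * cH * lam) / (√ρ * ρ ^ 2)) ^ 2 = cp ^ 2 / ((ρ / 4) ^ 2 * m * (cH * lam * ρ ^ 3)) := by
    rw [div_pow, div_pow, mul_pow √ρ, Real.sq_sqrt hρ.le, Real.sq_sqrt (by positivity)]
    field_simp
  rw [pow_mul, e, div_pow, ← pow_mul]
  calc c / (vg ^ 2 * m * hl) ^ r ≤ cp ^ (2 * r) / (vg ^ 2 * m * hl) ^ r := div_le_div_of_nonneg_right hc (pow_nonneg (hD0.le.trans hD) r)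
    _ ≤ _ := div_le_div_of_nonneg_left ((even_two_mul r).pow_nonneg _) (by positivity) (pow_le_pow_left₀ hD0.le hD r)

theorem _root_.Claimed.Agent.R286.l8x_proj_fin {cp m cH lam A0 A x c' : ℝ} (hcp : 0 ≤ cp) (hm : 0 < m) (hminv : 1 / m ≤ 2 * x ^ 6) (hcH : 0 < cH) (hl0 : 0 < lam)
    (hA0 : 0 ≤ A0) (hx : 0 ≤ x) (hc' : 0 < c') (h1 : 16 * cp * √(6 * A0 / cH) ≤ A) :
    4 * (4 * cp / √(m * cH * lam)) * √(3 * A0) / c' ^ 2 ≤ A * (x ^ 3 / (√lam * c' ^ 3) * c') := by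
  have hsm : 0 < √m := Real.sqrt_pos.2 hm
  have hsH : 0 < √cH := Real.sqrt_pos.2 hcH
  have hsl : 0 < √lam := Real.sqrt_pos.2 hl0
  have e1 : √(m * cH * lam) = √m * √cH * √lam := by rw [Real.sqrt_mul (by positivity), Real.sqrt_mul hm.le]
  have e2 : √(6 * A0 / cH) = √2 * √(3 * A0) / √cH := by
    rw [← Real.sqrt_mul (by norm_num), ← Real.sqrt_div (by positivity)]; congr 1; ring
  have h2 : 1 / √m ≤ √2 * x ^ 3 := by
    have a1 : √(1 / m) ≤ √(2 * x ^ 6) := Real.sqrt_le_sqrt hminv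
    have a2 : √(2 * x ^ 6) = √2 * x ^ 3 := by
      rw [Real.sqrt_mul (by norm_num), show x ^ 6 = (x ^ 3) ^ 2 by ring, Real.sqrt_sq (by positivity)]
    rw [Real.sqrt_div (by norm_num), Real.sqrt_one, a2] at a1
    exact a1
  have h3 : 0 ≤ 16 * cp * √(3 * A0) / (√cH * √lam * c' ^ 2) := by positivity
  have h4 : 0 ≤ x ^ 3 / (√lam * c' ^ 2) := by positivity
  rw [e2] at h1
  calc 4 * (4 * cp / √(m * cH * lam)) * √(3 * A0) / c' ^ 2 = 16 * cp * √(3 * A0) / (√cH * √lam * c' ^ 2) * (1 / √m) := by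
        rw [e1]; field_simp; ring
    _ ≤ 16 * cp * √(3 * A0) / (√cH * √lam * c' ^ 2) * (√2 * x ^ 3) := mul_le_mul_of_nonneg_left h2 h3
    _ = 16 * cp * (√2 * √(3 * A0) / √cH) * (x ^ 3 / (√lam * c' ^ 2)) := by field_simp
    _ ≤ A * (x ^ 3 / (√lam * c' ^ 2)) := mul_le_mul_of_nonneg_right h1 h4
    _ = _ := by field_simp

/-- TEX[LL:cor:statistics-low-projection] **Cor. 8.7 at the instance**, one moment order.   `c` = the constant of (A3) at the order `2 r` (`l8i_proj`), `c ≤ cp^(2r)` -/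
theorem l8x_proj (h : I.Ok) (hadm : LlStpAdm I.a I.LP) (hE : I.Ex) {η cH vs A0 A Y c cp : ℝ} {r : ℕ} (hr : 1 ≤ r) (hmesh : ∀ k ≤ I.n, I.dv k ≤ η) (hη : η ≤ I.x / 4)
    (hcH : 0 < cH) (hsl : I.Slope cH vs) (hvs0 : 0 < vs) (hvs : vs ≤ 1 / 4) (hp : ∀ vmin hmin : ℝ, 0 < vmin → 0 < hmin → (I.sp false).Proj r c vmin hmin)
    (hc : c ≤ cp ^ (2 * r)) (hcp : 0 ≤ cp) (hA0 : 0 ≤ A0) (hA0' : 1 ≤ 3 * A0 * vs) (hY : 2 * I.x ≤ Y)
    (hX : ∀ k ≤ I.n, I.mo false r ((I.sp false).nX k) ≤ (A0 * (I.v k + Y)) ^ (2 * r))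
    (h1 : 16 * cp * √(6 * A0 / cH) ≤ A) :
    ∀ c', Y ≤ c' → c' ≤ vs → ∀ k kc, I.act false k → I.v k ≤ c' / 8 → c' ≤ I.v kc → I.v kc ≤ 2 * c' → ∀ k₁ k₂, kc ≤ k₁ → kc ≤ k₂ →
      I.moF false k r (fun ω => (I.sp false).QX k₁ k₂ ω - (I.sp false).QX kc kc ω) ≤ (A * (I.z0 c' * c')) ^ (2 * r) := by
  intro c' hYc hc'vs k kc hact hk hkc1 hkc2 k₁ k₂ hk₁ hk₂
  have hok := I.l8x_ok h hadm
  have := hok.prob
  obtain ⟨hx0, hx1⟩ := I.l8x_x_mem h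
  obtain ⟨hl0, hl1⟩ := I.l8x_lam1_mem h hE
  have hm : (0 : ℝ) < I.m := by exact_mod_cast I.l8x_m_pos h
  have hc0 : 0 < c' := by linarith
  obtain ⟨b, t, g, hb1, htm, ht0, htb, hg, hgv, hgh, htn, hbv⟩ := I.l8x_layers h hadm hmesh hη hsl hvs (hY.trans hYc) hc'vs hk hkc1 hkc2
  have hρ0 : ∀ i : ℕ, 0 < 4 ^ i * c' := fun i => by positivity
  have hρ : ∀ i : ℕ, c' ≤ 4 ^ i * c' := fun i => le_mul_of_one_le_left hc0.le (one_le_pow₀ (by norm_num))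
  obtain ⟨κ0, hκ0⟩ : ∃ κ0, κ0 = 4 * cp / √(I.m * cH * I.lam1) := ⟨_, rfl⟩
  obtain ⟨N0, hN0⟩ : ∃ N0, N0 = √(3 * A0) := ⟨_, rfl⟩
  have hκ00 : 0 ≤ κ0 := by rw [hκ0]; positivity
  have hN00 : 0 ≤ N0 := by rw [hN0]; positivity
  have hn := I.l8x_n false
  have hkcn : kc ≤ I.n := by have := (htn 0 (by omega)).1; rwa [ht0] at this
  have hNN : ∀ i : ℕ, (N0 * √(4 ^ i * c')) ^ (2 * r) = (3 * A0 * (4 ^ i * c')) ^ r := by
    intro i
    rw [pow_mul, mul_pow, hN0, Real.sq_sqrt (by positivity), Real.sq_sqrt (hρ0 i).le]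
  have hN : ∀ i ≤ b, ∫ ω, (I.sp false).nX (t i) ω ^ r ∂(I.sp false).μ ≤ (N0 * √(4 ^ i * c')) ^ (2 * r) := by
    intro i hi
    rw [hNN]
    rcases lt_or_eq_of_le hi with hi' | rfl
    · obtain ⟨a1, a2⟩ := htn i hi'
      have hv0 : 0 ≤ I.v (t i) := by rw [← I.l8x_v false]; exact hok.v_nonneg _
      have hB : 0 ≤ A0 * (I.v (t i) + Y) := mul_nonneg hA0 (by linarith)
      have h2 := I.l8x_anchor h hadm hB (hX (t i) a1)
      rw [pow_mul, Real.sq_sqrt hB] at h2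
      refine h2.trans (pow_le_pow_left₀ hB ?_ r)
      have := hρ i
      rw [mul_assoc]
      rw [mul_left_comm]
      exact mul_le_mul_of_nonneg_left (by linarith) hA0
    · have h2 : ∫ ω, (I.sp false).nX (t i) ω ^ r ∂(I.sp false).μ ≤ ∫ _ω, (1 : ℝ) ∂(I.sp false).μ := by
        refine integral_mono ((L8P.l8c_bd_pow ((I.sp false).l8c_nX_bd hok _) r).integrable _) (integrable_const _) fun ω => ?_
        exact pow_le_one₀ ((I.sp false).l8c_nX_nonneg _ ω) ((I.sp false).l8s_nX_le_one hok _ ω)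
      rw [integral_const, probReal_univ, one_smul] at h2
      refine h2.trans (one_le_pow₀ ?_)
      have : 3 * A0 * vs ≤ 3 * A0 * (4 ^ i * c') := mul_le_mul_of_nonneg_left hbv.le (by positivity)
      linarith
  have hmain := (I.sp false).l8c_low_proj hok hr (hp (c' / 4) (cH * I.lam1 * c' ^ 3) (by positivity) (by positivity)) (k := k) (b := b) t g htm
    (by rw [htb, hn]) hg
    (fun i hi => by rw [I.l8x_v false]; exact le_trans (by have := hρ i; linarith) (hgv i hi))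
    (fun i hi => by
      rw [I.l8x_hlen (hg i hi).2.le]
      refine le_trans ?_ (hgh i hi)
      exact mul_le_mul_of_nonneg_left (pow_le_pow_left₀ hc0.le (hρ i) 3) (by positivity))
    (u₁ := min k₁ (I.n + 1)) (u₂ := min k₂ (I.n + 1))
    (by rw [ht0]; exact le_min hk₁ (by omega)) (by rw [htb]; exact min_le_right _ _)
    (by rw [ht0]; exact le_min hk₂ (by omega)) (by rw [htb]; exact min_le_right _ _)
    (fun i => κ0 / (√(4 ^ i * c') * (4 ^ i * c') ^ 2)) (fun i => N0 * √(4 ^ i * c'))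
    (fun i _ => by positivity)
    (fun i hi => by
      rw [I.l8x_v false, I.l8x_hlen (hg i hi).2.le, hκ0]
      exact l8x_proj_kap hc hm hcH hl0 (hρ0 i) (hgv i hi) (hgh i hi))
    (fun i _ => by positivity) hN
  have hsum := l8x_low_sum4 b hc0 hκ00 hN00 (fun i => κ0 / (√(4 ^ i * c') * (4 ^ i * c') ^ 2)) (fun i => N0 * √(4 ^ i * c'))
    (fun i _ => by positivity) (fun i _ => le_rfl) (fun i _ => le_rfl)
  have hsum0 : 0 ≤ ∑ i ∈ range b, κ0 / (√(4 ^ i * c') * (4 ^ i * c') ^ 2) * (N0 * √(4 ^ (i + 1) * c') + N0 * √(4 ^ i * c')) :=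
    Finset.sum_nonneg fun i _ => by positivity
  have hfin := l8x_proj_fin hcp hm (I.l8x_m_inv h) hcH hl0 hA0 hx0.le hc0 h1
  rw [← hκ0, ← hN0] at hfin
  unfold L8In.moF
  simp only [I.l8x_QX_min h hadm k₁ k₂]
  rw [ht0] at hmain
  exact hmain.trans (pow_le_pow_left₀ hsum0 (hsum.trans hfin) _)

/-! ## §4 monotonicity in the loss, the orders and the top of the refined region -/

variable {I}

theorem l8x_v_nonneg (I : L8In) (h : I.Ok) (hadm : LlStpAdm I.a I.LP) (k : ℕ) : 0 ≤ I.v k := by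
  rw [← I.l8x_v false]; exact (I.l8x_ok h hadm).v_nonneg k

theorem l8x_z0_nonneg (I : L8In) {r : ℝ} (hr : 0 ≤ r) : 0 ≤ I.z0 r :=
  div_nonneg (pow_nonneg I.x_nonneg _) (mul_nonneg (Real.sqrt_nonneg _) (pow_nonneg hr _))

theorem l8x_epsw_nonneg (I : L8In) (h : I.Ok) (hE : I.Ex) (Y w : ℝ) : 0 ≤ I.epsw Y w := by
  have hU : 0 ≤ I.U := I.x_nonneg.trans (I.l8x_U_mem h hE).1
  exact div_nonneg (mul_nonneg (pow_nonneg I.x_nonneg _) (Real.sqrt_nonneg _))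
    (mul_nonneg (Real.sqrt_nonneg _) (Real.rpow_nonneg (hU.trans (le_max_right _ _)) _))

theorem l8x_pow_mono {A A' t : ℝ} (hA : |A| ≤ A') (ht : 0 ≤ t) (r : ℕ) : (A * t) ^ (2 * r) ≤ (A' * t) ^ (2 * r) := by
  rw [← (even_two_mul r).pow_abs (A * t), abs_mul, abs_of_nonneg ht]
  exact pow_le_pow_left₀ (mul_nonneg (abs_nonneg _) ht) (mul_le_mul_of_nonneg_right hA ht) _

theorem Env.mono {e : ℕ → ℝ} {A A' Y vt vt' cE : ℝ} (h : I.Env e A Y vt cE) (hOk : I.Ok) (hadm : LlStpAdm I.a I.LP) (hY : 0 ≤ Y) (hA : A ≤ A') (hvt : vt' ≤ vt) :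
    I.Env e A' Y vt' cE := by
  have he : ∀ k ≤ I.n, 0 ≤ e k := fun k hk => (Real.rpow_nonneg I.x_nonneg cE).trans (h.lo k hk)
  have hlam : 0 ≤ I.lam := (Real.rpow_nonneg I.x_nonneg _).trans hOk.pt.lam_lo
  refine ⟨h.lo, h.low, fun k hk hYk => ?_, fun r h1 h2 => ?_, fun k hk hv => ?_, fun k hk hv => ?_⟩
  · exact (h.hi k hk hYk).trans (mul_le_mul_of_nonneg_right hA (hY.trans hYk))
  · exact (h.bud r h1 (h2.trans hvt)).trans
      (mul_le_mul_of_nonneg_right (mul_le_mul_of_nonneg_right hA (hY.trans h1)) (sq_nonneg _))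
  · exact (h.f_le k hk (hv.trans hvt)).trans (mul_le_mul_of_nonneg_right hA (he k hk))
  · exact (h.d_le k hk (hv.trans hvt)).trans
      (mul_le_mul_of_nonneg_right (mul_le_mul_of_nonneg_right (mul_le_mul_of_nonneg_right hA hlam) (sq_nonneg _)) (he k hk))

theorem Num.mono {A A' Y Zh vt vt' : ℝ} (h : I.Num A Y Zh vt) (hOk : I.Ok) (hadm : LlStpAdm I.a I.LP) (hE : I.Ex) (hY : 0 ≤ Y) (hZ : 0 ≤ Zh) (hA : A ≤ A')
    (hvt : vt' ≤ vt) : I.Num A' Y Zh vt' := by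
  have hU : 0 ≤ I.U := I.x_nonneg.trans (I.l8x_U_mem hOk hE).1
  refine ⟨fun r h1 h2 => ?_, fun k hk => ?_, fun r h1 h2 => ?_, fun w h1 h2 => ?_⟩
  · exact (h.d1 r h1 h2).trans
      (mul_le_mul_of_nonneg_right (mul_le_mul_of_nonneg_right hA (hU.trans h1)) (by positivity))
  · exact (h.s_le k hk).trans (mul_le_mul_of_nonneg_right hA (add_nonneg (I.l8x_v_nonneg hOk hadm k) hY))
  · have hr : 0 ≤ r := hY.trans h1
    exact (h.d7 r h1 (h2.trans hvt)).trans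
      (mul_le_mul_of_nonneg_right (mul_le_mul_of_nonneg_right hA hr) (mul_nonneg (mul_nonneg (I.l8x_z0_nonneg hr) hZ) (sq_nonneg _)))
  · exact (h.d9 w h1 h2).trans
      (mul_le_mul_of_nonneg_right (mul_le_mul_of_nonneg_right hA hY) (I.l8x_epsw_nonneg hOk hE Y w))

theorem RndC.mono {tl : Bool} {e : ℕ → ℝ} {A A' Y Zh vt vt' : ℝ} {pm pm' jm jm' : ℕ} (h : I.RndC tl e A Y Zh vt pm jm) (hOk : I.Ok) (hadm : LlStpAdm I.a I.LP)
    (hE : I.Ex) (he : ∀ k ≤ I.n, 0 ≤ e k) (hY : 0 ≤ Y) (hZ : 0 ≤ Zh) (hA : |A| ≤ A') (hvt : vt' ≤ vt) (hpm : pm' ≤ pm) (hjm : jm' ≤ jm) :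
    I.RndC tl e A' Y Zh vt' pm' jm' := by
  have hA' : A ≤ A' := (le_abs_self A).trans hA
  have hvY : ∀ k, 0 ≤ I.v k + Y := fun k => add_nonneg (I.l8x_v_nonneg hOk hadm k) hY
  refine ⟨fun r h1 h2 k hk => ?_, fun r h1 h2 k hk => ?_, fun r h1 h2 k hk k₁ k₂ h3 h4 => ?_, fun r h1 h2 k hk hv => ?_, fun r h1 h2 k hk hv => ?_,
    fun r h1 h2 k hk hv k₁ k₂ h3 h4 => ?_, fun r h1 h2 j hj => ?_, fun r h1 h2 => ?_, fun r h1 h2 => ?_, fun w h1 h2 => ?_, fun w h1 h2 => ?_⟩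
  · exact (h.raw_X r h1 (h2.trans hpm) k hk).trans (l8x_pow_mono hA (hvY k) r)
  · exact (h.raw_L r h1 (h2.trans hpm) k hk).trans (l8x_pow_mono hA (hvY k) r)
  · exact (h.raw_Q r h1 (h2.trans hpm) k hk k₁ k₂ h3 h4).trans (l8x_pow_mono hA (hvY k) r)
  · exact (h.ref_X r h1 (h2.trans hpm) k hk (hv.trans hvt)).trans (l8x_pow_mono hA (he k hk.1) r)
  · exact (h.ref_L r h1 (h2.trans hpm) k hk (hv.trans hvt)).trans (l8x_pow_mono hA (he k hk.1) r)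
  · exact (h.ref_Q r h1 (h2.trans hpm) k hk (hv.trans hvt) k₁ k₂ h3 h4).trans (l8x_pow_mono hA (he k hk.1) r)
  · have hr : 0 ≤ r := hY.trans h1
    refine (h.d7_W r h1 (h2.trans hvt) j (hj.trans hjm)).trans
      (mul_le_mul_of_nonneg_right (mul_le_mul_of_nonneg_right hA' hr) ?_)
    refine mul_nonneg (mul_nonneg (mul_nonneg (sq_nonneg _) (sq_nonneg _)) (pow_nonneg hr _)) ?_
    split_ifs
    · exact zero_le_one
    · exact mul_nonneg (sq_nonneg _) (pow_nonneg hr _)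
  · have hr : 0 ≤ r := hY.trans h1
    exact (h.d7_C r h1 (h2.trans hvt)).trans
      (mul_le_mul_of_nonneg_right (mul_le_mul_of_nonneg_right hA' hr) (by positivity))
  · have hr : 0 ≤ r := hY.trans h1
    exact (h.d7_Q r h1 (h2.trans hvt)).trans
      (mul_le_mul_of_nonneg_right (mul_le_mul_of_nonneg_right hA' hr) (mul_nonneg (mul_nonneg (I.l8x_z0_nonneg hr) hZ) (sq_nonneg _)))
  · exact (h.d9_W w h1 h2).trans (mul_le_mul_of_nonneg_right hA' (sq_nonneg _))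
  · exact (h.d9_Q w h1 h2).trans
      (mul_le_mul_of_nonneg_right (mul_le_mul_of_nonneg_right hA' hY) (I.l8x_epsw_nonneg hOk hE Y w))

end L8In

/-! ## §5 arithmetic of the exponents -/

/-- `log₂ N`-many dyads cost a subpower -/
theorem l8x_arith_log (ε : ℝ) (hε : 0 < ε) : ∃ C : ℝ, 0 < C ∧ ∀ N : ℕ, 2 ≤ N → ((Nat.clog 2 N : ℕ) : ℝ) + 1 ≤ C * ((N : ℝ) ^ (-(1 / 6) : ℝ)) ^ (-ε) := by
  have hl2 : 0 < Real.log 2 := Real.log_pos (by norm_num)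
  have hδ : 0 < ε / 6 := by positivity
  refine ⟨1 / (ε / 6 * Real.log 2) + 2, by positivity, ?_⟩
  intro N hN
  have hN0 : (0 : ℝ) < N := by positivity
  have hN1 : (1 : ℝ) ≤ N := by exact_mod_cast (by omega : 1 ≤ N)
  have e1 : ((N : ℝ) ^ (-(1 / 6) : ℝ)) ^ (-ε) = (N : ℝ) ^ (ε / 6) := by
    rw [← Real.rpow_mul hN0.le]; congr 1; ring
  rw [e1]
  have h1 : (1 : ℝ) ≤ (N : ℝ) ^ (ε / 6) := Real.one_le_rpow hN1 hδ.le
  have h2 : Real.log N ≤ (N : ℝ) ^ (ε / 6) / (ε / 6) := Real.log_le_rpow_div hN0.le hδ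
  have h3 : 2 ^ (Nat.clog 2 N).pred < N := Nat.pow_pred_clog_lt_self (by norm_num) (by omega)
  have h4 : ((2 : ℝ) ^ (Nat.clog 2 N).pred) < N := by exact_mod_cast h3
  have h5 : ((Nat.clog 2 N).pred : ℝ) * Real.log 2 < Real.log N := by
    have := Real.log_lt_log (by positivity) h4
    rwa [Real.log_pow] at this
  have h6 : ((Nat.clog 2 N : ℕ) : ℝ) ≤ ((Nat.clog 2 N).pred : ℝ) + 1 := by
    have : Nat.clog 2 N ≤ (Nat.clog 2 N).pred + 1 := by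
      simp only [Nat.pred_eq_sub_one]; omega
    exact_mod_cast this
  have h7 : ((Nat.clog 2 N).pred : ℝ) ≤ (N : ℝ) ^ (ε / 6) / (ε / 6) / Real.log 2 := by
    rw [le_div_iff₀ hl2]; linarith
  have h8 : (N : ℝ) ^ (ε / 6) / (ε / 6) / Real.log 2 = 1 / (ε / 6 * Real.log 2) * (N : ℝ) ^ (ε / 6) := by
    field_simp
  rw [h8] at h7
  nlinarith


/-- TEX[LL:lem:statistics-centered] "first fix the allowed loss `ε'`, then a finite moment order large enough that (D2) makes the tail negligible; choose the geometric slack in (D2) last":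
the two arithmetic hypotheses of `l8x_d10` for `T = x^(-ε')`, `A0 = C0 x^(-ε0)`, `A = C x^(-ε)` -/
theorem l8x_arith_d10 (jm : ℕ) (ε : ℝ) (hε : 0 < ε) : ∃ (q : ℕ) (ε' ε0 : ℝ), 1 ≤ q ∧ 0 < ε' ∧ 0 < ε0 ∧ ε0 ≤ ε ∧ ∀ C0 : ℝ, 0 ≤ C0 → ∃ C : ℝ, C0 ≤ C ∧ 1 ≤ C ∧
    ∀ x a t : ℝ, 0 < x → x ≤ 1 → 0 ≤ a → a ≤ 4 → x ^ (jm + 3) / 16 ≤ t → ∀ C' : ℝ, C ≤ C' → ∀ j : ℕ, 1 ≤ j → j ≤ jm →
      19 * (j : ℝ) ^ 4 * (x ^ (-ε')) ^ (2 * (j - 1)) * (C0 * x ^ (-ε0)) ≤ (C' * x ^ (-ε)) ^ 2 ∧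
      19 * (j : ℝ) ^ 4 * 4 ^ (2 * (j - 1)) * (4 * a) * ((2 * (C0 * x ^ (-ε0)) / x ^ (-ε')) ^ (2 * q) * a) ≤ (C' * x ^ (-ε)) ^ 2 * t ^ 2 := by
  have hjm0 : (0 : ℝ) < 2 * (jm : ℝ) + 2 := by positivity
  set ε' : ℝ := ε / (2 * (jm : ℝ) + 2) with hε'
  have hε'0 : 0 < ε' := by positivity
  obtain ⟨q0, hq0⟩ := exists_nat_ge ((2 * (jm : ℝ) + 6) / ε')
  set q : ℕ := q0 + 1 with hq
  have hqε : 2 * (jm : ℝ) + 6 ≤ (q : ℝ) * ε' := by
    have : (2 * (jm : ℝ) + 6) / ε' ≤ (q : ℝ) := by rw [hq]; push_cast; linarith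
    rwa [div_le_iff₀ hε'0] at this
  have hε'ε : ε' * (2 * (jm : ℝ) + 2) = ε := by rw [hε']; field_simp
  have hε'le : ε' ≤ ε := by
    have : ε' * 1 ≤ ε' * (2 * (jm : ℝ) + 2) := by
      apply mul_le_mul_of_nonneg_left _ hε'0.le
      have : (0 : ℝ) ≤ jm := by positivity
      linarith
    linarith
  refine ⟨q, ε', ε' / 2, by omega, hε'0, by positivity, by linarith, ?_⟩
  intro C0 hC0
  set K1 : ℝ := 19 * (jm : ℝ) ^ 4 * C0 with hK1
  set K2 : ℝ := 19 * (jm : ℝ) ^ 4 * 4 ^ (2 * jm) * 64 * (2 * C0) ^ (2 * q) * 256 with hK2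
  have hK10 : 0 ≤ K1 := by positivity
  have hK20 : 0 ≤ K2 := by positivity
  refine ⟨1 + C0 + K1 + K2, by linarith, by linarith, ?_⟩
  intro x a t hx hx1 ha ha4 ht C' hC' j hj hjm
  have hC'1 : 1 ≤ C' := by linarith
  have hC'sq : C' ≤ C' ^ 2 := by nlinarith
  have hjR : (j : ℝ) ≤ jm := by exact_mod_cast hjm
  have hj0 : (0 : ℝ) ≤ j := by positivity
  have hj4 : (j : ℝ) ^ 4 ≤ (jm : ℝ) ^ 4 := pow_le_pow_left₀ hj0 hjR 4
  have hxε : (1 : ℝ) ≤ x ^ (-ε) := Real.one_le_rpow_of_pos_of_le_one_of_nonpos hx hx1 (by linarith)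
  have hsq : (C' * x ^ (-ε)) ^ 2 = C' ^ 2 * x ^ (-(2 * ε)) := by
    rw [mul_pow, ← Real.rpow_natCast (x ^ (-ε)) 2, ← Real.rpow_mul hx.le]; congr 2; push_cast; ring
  have hj1R : ((j - 1 : ℕ) : ℝ) = (j : ℝ) - 1 := by rw [Nat.cast_sub hj]; simp
  constructor
  · -- first
    have e1 : (x ^ (-ε')) ^ (2 * (j - 1)) * x ^ (-(ε' / 2)) = x ^ (-(ε' * (2 * ((j : ℝ) - 1)) + ε' / 2)) := by
      rw [← Real.rpow_natCast (x ^ (-ε')), ← Real.rpow_mul hx.le, ← Real.rpow_add hx]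
      congr 1; push_cast; rw [hj1R]; ring
    have e2 : x ^ (-(ε' * (2 * ((j : ℝ) - 1)) + ε' / 2)) ≤ x ^ (-(2 * ε)) := by
      apply Real.rpow_le_rpow_of_exponent_ge hx hx1
      have : ε' * (2 * ((j : ℝ) - 1)) ≤ ε' * (2 * ((jm : ℝ) - 1)) := by
        apply mul_le_mul_of_nonneg_left _ hε'0.le; linarith
      nlinarith
    have hp : 0 ≤ x ^ (-(2 * ε)) := (Real.rpow_pos_of_pos hx _).le
    calc 19 * (j : ℝ) ^ 4 * (x ^ (-ε')) ^ (2 * (j - 1)) * (C0 * x ^ (-(ε' / 2)))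
        = (19 * (j : ℝ) ^ 4 * C0) * ((x ^ (-ε')) ^ (2 * (j - 1)) * x ^ (-(ε' / 2))) := by ring
      _ ≤ K1 * x ^ (-(2 * ε)) := by
          rw [e1]
          apply mul_le_mul _ e2 (Real.rpow_pos_of_pos hx _).le hK10
          rw [hK1]; gcongr
      _ ≤ C' ^ 2 * x ^ (-(2 * ε)) := by
          apply mul_le_mul_of_nonneg_right _ hp; linarith
      _ = (C' * x ^ (-ε)) ^ 2 := hsq.symm
  · -- second
    have e1 : 2 * (C0 * x ^ (-(ε' / 2))) / x ^ (-ε') = 2 * C0 * x ^ (ε' / 2) := by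
      have : x ^ (-(ε' / 2)) / x ^ (-ε') = x ^ (ε' / 2) := by
        rw [← Real.rpow_sub hx]; congr 1; ring
      rw [← this]; ring
    have e2 : (x ^ (ε' / 2)) ^ (2 * q) = x ^ ((q : ℝ) * ε') := by
      rw [← Real.rpow_natCast (x ^ (ε' / 2)), ← Real.rpow_mul hx.le]; congr 1; push_cast; ring
    have e3 : x ^ ((q : ℝ) * ε') ≤ (x ^ (jm + 3)) ^ 2 := by
      have : (x ^ (jm + 3)) ^ 2 = x ^ (2 * (jm : ℝ) + 6) := by
        rw [← pow_mul, ← Real.rpow_natCast]; congr 1; push_cast; ring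
      rw [this]
      exact Real.rpow_le_rpow_of_exponent_ge hx hx1 hqε
    have hxp : 0 ≤ x ^ (jm + 3) := by positivity
    have ht0 : 0 ≤ t := le_trans (by positivity) ht
    have e4 : (x ^ (jm + 3)) ^ 2 ≤ 256 * t ^ 2 := by
      have : x ^ (jm + 3) ≤ 16 * t := by linarith
      calc (x ^ (jm + 3)) ^ 2 ≤ (16 * t) ^ 2 := pow_le_pow_left₀ hxp this 2
        _ = 256 * t ^ 2 := by ring
    have e5 : (4 : ℝ) ^ (2 * (j - 1)) ≤ 4 ^ (2 * jm) := pow_le_pow_right₀ (by norm_num) (by omega)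
    have e6 : 4 * a * a ≤ 64 := by nlinarith
    have e7 : 0 ≤ 4 * a * a := by positivity
    have hP : 0 ≤ (2 * C0) ^ (2 * q) := by positivity
    have hsq1 : C' ^ 2 ≤ (C' * x ^ (-ε)) ^ 2 := by
      apply pow_le_pow_left₀ (by linarith)
      nlinarith
    rw [e1, mul_pow, e2]
    calc 19 * (j : ℝ) ^ 4 * 4 ^ (2 * (j - 1)) * (4 * a) * ((2 * C0) ^ (2 * q) * x ^ ((q : ℝ) * ε') * a)
        = (19 * (j : ℝ) ^ 4 * 4 ^ (2 * (j - 1)) * (4 * a * a) * (2 * C0) ^ (2 * q)) * x ^ ((q : ℝ) * ε') := by ring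
      _ ≤ (19 * (jm : ℝ) ^ 4 * 4 ^ (2 * jm) * 64 * (2 * C0) ^ (2 * q)) * (256 * t ^ 2) := by
          apply mul_le_mul _ (e3.trans e4) (Real.rpow_pos_of_pos hx _).le (by positivity)
          gcongr
      _ = K2 * t ^ 2 := by rw [hK2]; ring
      _ ≤ (C' * x ^ (-ε)) ^ 2 * t ^ 2 := by
          apply mul_le_mul_of_nonneg_right _ (by positivity)
          linarith


/-! ## §6 assembly      (helper148; no open goal in this section) -/

/-- (D3) in mass form ON THE PATH -/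
def L8In.SlopeP (I : L8In) (cP vs : ℝ) : Prop :=
  ∀ v v', I.x ≤ v → v ≤ v' → v' ≤ vs → cP * I.lam1 * v ^ 2 * (v' - v) ≤ I.p.h I.F I.𝔹 v' - I.p.h I.F I.𝔹 v

namespace L8In

variable (I : L8In)

theorem l8x_ps_len : (I.i9.ps I.p).length = I.n := (l9d_stp_length _ _ _ _ _ 0 0 0).symm

theorem l8x_v_ps {t : ℕ} (ht : t < (I.i9.ps I.p).length) : I.v t = ((I.i9.ps I.p)[t]).u := by
  have e : I.P0.map SkInc.m = (I.i9.ps I.p).map GhPos.u := by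
    rw [← l9d_stp_m I.p.a (I.p.b I.F I.𝔹) (I.p.h I.F I.𝔹) (I.p.K I.F I.𝔹) (I.i9.ps I.p) 0 0 0]
    simp only [L8In.P0, llMat, List.map_map]
    rfl
  unfold L8In.v skMs
  rw [e, List.getD_eq_getElem _ _ (by simpa using ht)]
  simp

theorem l8x_hC_ps {t : ℕ} (ht : t < (I.i9.ps I.p).length) : I.hC (t + 1) = ghAt I.a (I.p.h I.F I.𝔹) ((I.i9.ps I.p)[t]) := by
  have e : I.P0 = skCStp I.p.a (I.p.b I.F I.𝔹) (I.p.h I.F I.𝔹) 0 0 (I.i9.ps I.p) := l9d_stp_mat _ _ _ _ _ 0 0 0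
  unfold L8In.hC
  rw [e, (l9d_chain_cum _ _ _ _ 0 0 t ht).2, sub_zero]
  rfl

theorem l8x_ps_ok {t : ℕ} (ht : t < (I.i9.ps I.p).length) : ((I.i9.ps I.p)[t]).Ok I.a :=
  (gh_os_ps_mem.1 (List.getElem_mem ht)).2

/-- the revealed field clock after the stage `t` dominates the clock at every smaller mass -/
theorem l8x_hC_ge (ha : 0 ≤ I.a) (hclk : GhClk1 I.a (I.p.h I.F I.𝔹)) {t : ℕ} (ht : t < I.n) {w : ℝ} (hw0 : 0 ≤ w) (hw : w < I.v t) :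
    I.p.h I.F I.𝔹 w ≤ I.hC (t + 1) := by
  have ht' : t < (I.i9.ps I.p).length := by rw [I.l8x_ps_len]; exact ht
  have hok := I.l8x_ps_ok ht'
  rw [I.l8x_hC_ps ht']
  rw [I.l8x_v_ps ht'] at hw
  refine le_trans ?_ (gh_os_at_ge_left ha hclk hok.2.2.1)
  refine le_trans (le_of_eq ?_) ((gh_os_clamp_mono ha hclk).le_leftLim hw)
  unfold ghClamp
  rw [if_neg (not_lt.2 hw0), min_eq_left (hw.le.trans hok.2.1)]

/-- and is dominated by the clock at every larger mass -/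
theorem l8x_hC_le (ha : 0 ≤ I.a) (hclk : GhClk1 I.a (I.p.h I.F I.𝔹)) {t : ℕ} (ht : t < I.n) {w : ℝ} (hw : I.v t < w) (hwa : w ≤ I.a) :
    I.hC (t + 1) ≤ I.p.h I.F I.𝔹 w := by
  have ht' : t < (I.i9.ps I.p).length := by rw [I.l8x_ps_len]; exact ht
  have hok := I.l8x_ps_ok ht'
  rw [I.l8x_hC_ps ht']
  rw [I.l8x_v_ps ht'] at hw
  refine le_trans (gh_os_at_le_right ha hclk hok.2.2.2) ?_
  refine le_trans ((gh_os_clamp_mono ha hclk).rightLim_le hw) (le_of_eq ?_)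
  unfold ghClamp
  rw [if_neg (not_lt.2 (hok.1.trans hw.le)), min_eq_left hwa]

/-- path ⟹ chain -/
theorem l8x_slope_of_path (h : I.Ok) (hadm : LlStpAdm I.a I.LP) {η cP vs : ℝ} (hcP : 0 ≤ cP) (hη0 : 0 < η) (hmesh : ∀ k ≤ I.n, I.dv k ≤ η) (hη : η ≤ I.x / 6)
    (hclk : GhClk1 I.a (I.p.h I.F I.𝔹)) (hvs : vs ≤ 1) (hl : 0 ≤ I.lam1) (hP : I.SlopeP cP vs) : I.Slope (cP / 16) vs := by
  intro ρ hρ hρv k₁ k₂ h12 h2n hv1 hv2
  have ha1 := (I.l8x_a_mem h).1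
  have ha : 0 ≤ I.a := by linarith
  have hx := (I.l8x_x_mem h).1
  have hlt : k₁ < k₂ := by
    rcases h12.lt_or_eq with h' | h'
    · exact h'
    · subst h'; linarith
  obtain ⟨t, rfl⟩ : ∃ t, k₂ = t + 1 := ⟨k₂ - 1, by omega⟩
  have hdv : I.v (t + 1) - I.v t ≤ η := by
    have := hmesh (t + 1) h2n
    simpa [L8In.dv, skGap, L8In.v] using this
  have hup : I.p.h I.F I.𝔹 (ρ - 2 * η) ≤ I.hC (t + 1) := I.l8x_hC_ge ha hclk (by omega) (by linarith) (by linarith)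
  have hlo : I.hC k₁ ≤ I.p.h I.F I.𝔹 (ρ / 2 + η) := by
    rcases Nat.eq_zero_or_pos k₁ with h0 | h0
    · subst h0
      have e0 : I.hC 0 = 0 := by simp [L8In.hC, skCumH]
      rw [e0]
      exact hclk.2.trans (hclk.1 ⟨le_rfl, ha⟩ ⟨by linarith, by linarith⟩ (by linarith))
    · obtain ⟨s, rfl⟩ : ∃ s, k₁ = s + 1 := ⟨k₁ - 1, by omega⟩
      have hm := I.l8x_v_mono h hadm (Nat.le_succ s)
      exact I.l8x_hC_le ha hclk (by omega) (by linarith) (by linarith)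
  have hs := hP (ρ / 2 + η) (ρ - 2 * η) (by linarith) (by linarith) (by linarith)
  have h1 : cP / 16 * I.lam1 * ρ ^ 3 ≤ cP * I.lam1 * (ρ / 2 + η) ^ 2 * (ρ - 2 * η - (ρ / 2 + η)) := by
    have hc : 0 ≤ cP * I.lam1 := mul_nonneg hcP hl
    have a1 : (ρ / 2) ^ 2 ≤ (ρ / 2 + η) ^ 2 := pow_le_pow_left₀ (by linarith) (by linarith) 2
    have a2 : ρ / 4 ≤ ρ - 2 * η - (ρ / 2 + η) := by linarith
    have a3 : (ρ / 2) ^ 2 * (ρ / 4) ≤ (ρ / 2 + η) ^ 2 * (ρ - 2 * η - (ρ / 2 + η)) := mul_le_mul a1 a2 (by linarith) (by positivity)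
    calc cP / 16 * I.lam1 * ρ ^ 3 = cP * I.lam1 * ((ρ / 2) ^ 2 * (ρ / 4)) := by ring
      _ ≤ cP * I.lam1 * ((ρ / 2 + η) ^ 2 * (ρ - 2 * η - (ρ / 2 + η))) := mul_le_mul_of_nonneg_left a3 hc
      _ = _ := by ring
  linarith

end L8In


/-- TEX[LL:eq:D3] **the lower field slope at low mass, in the mass variable, ON THE PATH**: (P4) + `K' ≥ c` ((P2)) + `H_lo`, `H_lin` nondecreasing + `H_e = 0` below the ramp
(`χ_e = 0` on the size paths; on a direct path the ramp lives at macroscopic mass as soon as `U ≤ U1`: `LccBase` with `E1 = min 1 (ξ_*/2)`) -/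
theorem l8x_slope_path {𝔹 : LlBase} {F : LlFix} (hB : LlBaseProfile 𝔹 F.T) (h3 : LlSec3 𝔹 F) :
    ∃ c vs U1 : ℝ, 0 < c ∧ 0 < vs ∧ vs ≤ 1 / 4 ∧ 0 < U1 ∧ LlUnif F fun p => (p.chiE = 0 ∨ (p.sm = false ∧ p.U F ≤ U1)) →
      ∀ v v', p.x ≤ v → v ≤ v' → v' ≤ vs → c * p.lam * v ^ 2 * (v' - v) ≤ p.h F 𝔹 v' - p.h F 𝔹 v := by
  obtain ⟨cr, Cr, v0r, hcr, hv0r, href⟩ := h3.ref
  obtain ⟨c4, C4, v4, hc4, hv4, hp4⟩ := h3.p4
  have hxi := hB.xi_pos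
  obtain ⟨E1, hE1⟩ : ∃ E1, E1 = lceE1 (𝔹.xiS F.T) := ⟨_, rfl⟩
  have hE10 : 0 < E1 := by rw [hE1]; exact lt_min one_pos (by linarith)
  have hE1x : E1 < 𝔹.xiS F.T := by rw [hE1]; exact lt_of_le_of_lt (min_le_right _ _) (by linarith)
  have hE11 : E1 ≤ 1 := by rw [hE1]; exact min_le_left _ _
  obtain ⟨V1, hV1⟩ : ∃ V1, V1 = 𝔹.A0 F.T (𝔹.xiS F.T - E1) := ⟨_, rfl⟩
  have hV10 : 0 < V1 := by
    have := hB.strict (a := 0) (b := 𝔹.xiS F.T - E1) ⟨le_rfl, hxi.le⟩ ⟨by linarith, by linarith⟩ (by linarith)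
    rwa [hB.zero 0 le_rfl, ← hV1] at this
  have hV1p : V1 < 𝔹.pTop F.T := by rw [hV1]; exact hB.lt_top _ (by linarith)
  have hδ : 0 < E1 ^ 2 * (𝔹.pTop F.T - V1) := mul_pos (pow_pos hE10 2) (by linarith)
  refine ⟨c4 * cr, min (1 / 4) (min v0r (V1 / 2)), min 1 (E1 ^ 2 * (𝔹.pTop F.T - V1)), by positivity,
    lt_min (by norm_num) (lt_min hv0r (by linarith)), min_le_left _ _, lt_min one_pos hδ, ?_⟩
  refine (href.and hp4).mono ?_
  rintro p hp ⟨hR, hP4, -⟩ hcond v v' hv hvv hv'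
  have hx0 := lcc_x_pos hp.N2
  have hell : 0 < p.ell := lt_of_lt_of_le one_pos hp.ell1
  have hlam : 0 < p.lam := lt_of_lt_of_le (Real.rpow_pos_of_pos hx0 _) hp.lam_lo
  have ha1 := lcc_one_le_a hp.ell1
  have hv0 : 0 < v := lt_of_lt_of_le hx0 hv
  have hv4' : v' ≤ 1 / 4 := hv'.trans (min_le_left _ _)
  have hvr : v' ≤ v0r := hv'.trans ((min_le_right _ _).trans (min_le_left _ _))
  have hvV : v' ≤ V1 / 2 := hv'.trans ((min_le_right _ _).trans (min_le_right _ _))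
  have hU : 0 ≤ p.U F := le_min zero_le_one (mul_nonneg hx0.le (Real.rpow_nonneg hlam.le _))
  have hl1 : 0 ≤ p.lam1 F := Real.rpow_nonneg hlam.le _
  have hLo : p.Hlo F v ≤ p.Hlo F v' := by
    unfold LlPt.Hlo
    refine mul_le_mul_of_nonneg_left ?_ (by positivity)
    refine Real.log_le_log (div_pos (lt_min hv0 hell) hx0) ?_
    exact div_le_div_of_nonneg_right (min_le_min_right _ hvv) hx0.le
  have hLin : p.Hlin F v ≤ p.Hlin F v' := by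
    unfold LlPt.Hlin
    refine mul_le_mul_of_nonneg_left ?_ (by positivity)
    exact max_le_max le_rfl (sub_le_sub_right (min_le_min_right _ hvv) _)
  have hHe : p.chiE * p.He F 𝔹 v' - p.chiE * p.He F 𝔹 v = 0 := by
    rcases hcond with h0 | ⟨hsm, hU1⟩
    · rw [h0]; ring
    · have hUt0 : 0 < p.Ut F := lt_min h3.ok.U00 (lce_U_pos hp)
      have hUtU : p.Ut F ≤ p.U F := min_le_right _ _
      have hUt1 : p.Ut F ≤ 1 := hUtU.trans (hU1.trans (min_le_left _ _))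
      have hH : LccBase F 𝔹 p E1 :=
        { pT0 := hB.pTop_mem.1
          pT1 := hB.pTop_mem.2
          A0mono := hB.mono.monotoneOn _
          A0cont := lce_A0_cont hB
          Ut0 := hUt0
          E10 := hE10
          E1x := hE1x
          E11 := hE11
          E1mem := by
            rw [div_le_iff₀ (pow_pos hE10 2), ← hV1]
            have h1 : p.Ut F ^ 4 ≤ p.Ut F := by
              calc p.Ut F ^ 4 ≤ p.Ut F ^ 1 := pow_le_pow_of_le_one hUt0.le hUt1 (by norm_num)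
                _ = p.Ut F := pow_one _
            have h2 := hU1.trans (min_le_right _ _)
            linarith
          lam0 := hlam
          Ups := h3.ok.Ups_rg _ }
      have hPn : 0 ≤ F.P (𝔹.xiS F.T - p.Eb F 𝔹) := (h3.ok.P_nn _ (by linarith [lcc_Eb_lt_xiS hH])).1
      have hz : ∀ w, 0 < w → w ≤ V1 / 2 → p.He F 𝔹 w = 0 := by
        intro w hw0 hw
        refine lcc_He_zero hH w ?_ ?_
        · have : w / p.ell ≤ w := div_le_self hw0.le hp.ell1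
          linarith
        · by_contra hcon
          have := lcc_ramp_mass hH hsm hPn hp.ell1 w hw0.le (not_le.1 hcon)
          rw [← hV1] at this
          linarith
      rw [hz v hv0 (hvv.trans hvV), hz v' (hv0.trans_le hvv) hvV]; ring
  have hK := hR.K_lo v v' hv0 hvv hvr
  have hS := hP4 v ⟨hv0, by linarith⟩ v' ⟨hv0.trans_le hvv, by linarith⟩ hvv
  have hS' : c4 * cr * p.lam * v ^ 2 * (v' - v) ≤ c4 * p.lam * (v ^ 2 + p.U F ^ 2) * (p.K F 𝔹 v' - p.K F 𝔹 v) := by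
    have a1 : c4 * p.lam * v ^ 2 ≤ c4 * p.lam * (v ^ 2 + p.U F ^ 2) := mul_le_mul_of_nonneg_left (by nlinarith [sq_nonneg (p.U F)]) (by positivity)
    have a2 : 0 ≤ cr * (v' - v) := mul_nonneg hcr.le (by linarith)
    calc c4 * cr * p.lam * v ^ 2 * (v' - v) = c4 * p.lam * v ^ 2 * (cr * (v' - v)) := by ring
      _ ≤ c4 * p.lam * (v ^ 2 + p.U F ^ 2) * (p.K F 𝔹 v' - p.K F 𝔹 v) := mul_le_mul a1 hK a2 (by positivity)
  have e1 : p.h F 𝔹 v = p.hS F 𝔹 v + p.Hlo F v + p.chiL * p.Hlin F v + p.chiE * p.He F 𝔹 v := by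
    unfold LlPt.h; rw [if_neg (not_lt.2 hv)]
  have e2 : p.h F 𝔹 v' = p.hS F 𝔹 v' + p.Hlo F v' + p.chiL * p.Hlin F v' + p.chiE * p.He F 𝔹 v' := by
    unfold LlPt.h; rw [if_neg (not_lt.2 (hv.trans hvv))]
  have hL2 := mul_le_mul_of_nonneg_left hLin hp.chiL.1
  rw [e1, e2]
  linarith


/-- one bound for the constants of (A3) at all the orders `r ≤ pm` -/
theorem l8x_cP (pm : ℕ) : ∃ cp : ℝ, 1 ≤ cp ∧ ∀ r, 1 ≤ r → r ≤ pm → ∃ c : ℝ, c ≤ cp ∧ ∀ (n : ℕ) (a : ℝ) (P : SkStp), 1 ≤ n → 0 < a → a ≤ 4 → SkAdm a P →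
    ∀ vmin hmin : ℝ, 0 < vmin → 0 < hmin → (skSP n a P).Proj r c vmin hmin := by
  induction pm with
  | zero => exact ⟨1, le_rfl, fun r h1 h2 => by omega⟩
  | succ pm ih =>
    obtain ⟨cp, hcp, h⟩ := ih
    obtain ⟨c, -, hc⟩ := l8i_proj (pm + 1) (by omega)
    refine ⟨max cp c, hcp.trans (le_max_left _ _), fun r h1 h2 => ?_⟩
    rcases Nat.lt_or_ge r (pm + 1) with h3 | h3
    · obtain ⟨c', hc', h'⟩ := h r h1 (by omega)
      exact ⟨c', hc'.trans (le_max_left _ _), h'⟩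
    · obtain rfl : r = pm + 1 := by omega
      exact ⟨c, le_max_right _ _, hc⟩

/-- `1 ≤ 2^(clog₂ N) x` -/
theorem l8x_clog (p : LlPt) (hN : 2 ≤ p.N) : 1 ≤ (2 : ℝ) ^ (Nat.clog 2 p.N) * p.x := by
  have hN0 : (0 : ℝ) < p.N := by exact_mod_cast (by omega : 0 < p.N)
  have hN1 : (1 : ℝ) ≤ p.N := by exact_mod_cast (by omega : 1 ≤ p.N)
  have h1 : (p.N : ℝ) ≤ (2 : ℝ) ^ (Nat.clog 2 p.N) := by exact_mod_cast Nat.le_pow_clog (by norm_num) p.N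
  have h2 : (p.N : ℝ) ^ (-1 : ℝ) ≤ p.x := by
    unfold LlPt.x
    exact Real.rpow_le_rpow_of_exponent_le hN1 (by norm_num)
  have hx0 : 0 < p.x := lcc_x_pos hN
  calc (1 : ℝ) = p.N * (p.N : ℝ) ^ (-1 : ℝ) := by rw [Real.rpow_neg_one]; field_simp
    _ ≤ p.N * p.x := mul_le_mul_of_nonneg_left h2 hN0.le
    _ ≤ (2 : ℝ) ^ (Nat.clog 2 p.N) * p.x := mul_le_mul_of_nonneg_right h1 hx0.le

theorem L8In.l8x_v_le_a (I : L8In) (h : I.Ok) (hadm : LlStpAdm I.a I.LP) {k : ℕ} (hk : k ≤ I.n) : I.v k ≤ I.a := by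
  have := I.l8x_v_mono h hadm hk
  rwa [I.l8x_v_top le_rfl] at this

/-- a band above the terminal mass is empty -/
theorem L8In.l8x_band_empty (I : L8In) (h : I.Ok) (hadm : LlStpAdm I.a I.LP) {r : ℝ} (hr : I.a < r) (g : ℕ → ℝ) : I.band r g = 0 := by
  have hK : I.l8xK r (2 * r) = ∅ := by
    refine Finset.eq_empty_of_forall_notMem fun k hk => ?_
    obtain ⟨h1, h2, -⟩ := I.l8x_K_mem.1 hk
    linarith [I.l8x_v_le_a h hadm h1]
  unfold L8In.band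
  rw [I.l8x_int_eq, hK, Finset.sum_empty]

/-- arithmetic of the low linear integral -/
theorem l8x_num_low {Cl C1 C u0 u b : ℝ} (hCl : 0 ≤ Cl) (hC1 : 0 ≤ C1) (hC : 10 * Cl * C1 + 1 ≤ C) (hu0 : 0 ≤ u0) (hu : u0 ≤ u) (hb : b ≤ Cl * u) :
    10 * b * (C1 * u0) ≤ (C * u) ^ 2 := by
  have hK : 0 ≤ 10 * Cl * C1 := by positivity
  have a1 : 10 * b * (C1 * u0) ≤ 10 * (Cl * u) * (C1 * u) :=
    mul_le_mul (by linarith) (mul_le_mul_of_nonneg_left hu hC1) (mul_nonneg hC1 hu0) (by have := hu0.trans hu; positivity)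
  have a2 : 10 * Cl * C1 ≤ C ^ 2 := by nlinarith
  calc _ ≤ 10 * (Cl * u) * (C1 * u) := a1
    _ = 10 * Cl * C1 * u ^ 2 := by ring
    _ ≤ C ^ 2 * u ^ 2 := mul_le_mul_of_nonneg_right a2 (by positivity)
    _ = _ := by ring

/-- arithmetic of Cor. 8.7 -/
theorem l8x_num_proj {cp cH C1 C u0 u : ℝ} (hcH : 0 < cH) (hC1 : 0 ≤ C1) (hC0 : 0 ≤ C) (hC : 16 * cp * √(6 * C1 / cH) ≤ C) (hu0 : 1 ≤ u0) (hu : u0 ≤ u) :
    16 * cp * √(6 * (C1 * u0) / cH) ≤ C * u := by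
  have e1 : 6 * (C1 * u0) / cH = 6 * C1 / cH * u0 := by ring
  have e2 : √u0 ≤ u0 := Real.sqrt_le_self_iff.2 (Or.inr hu0)
  rw [e1, Real.sqrt_mul (by positivity)]
  calc 16 * cp * (√(6 * C1 / cH) * √u0) = 16 * cp * √(6 * C1 / cH) * √u0 := by ring
    _ ≤ C * u := mul_le_mul hC (e2.trans hu) (Real.sqrt_nonneg _) hC0

theorem l8x_inst (cH vs cE : ℝ) (hcH : 0 < cH) (hvs0 : 0 < vs) (hvs : vs ≤ 1 / 4) (pm jm : ℕ) (ε : ℝ) (hε : 0 < ε) :
    ∃ (pm0 jm0 : ℕ) (ε0 : ℝ), 0 < ε0 ∧ ∀ C0 : ℝ, ∃ (C : ℝ) (N0 : ℕ), ∀ I : L8In, N0 ≤ I.p.N → I.Ok → I.Ex → I.Fine (I.x ^ (2 : ℝ)) → I.Slope cH vs →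
      C0 * I.x ^ (-ε0) ≤ C * I.x ^ (-ε) ∧
      ∀ (Y Zh vt vt2 : ℝ), 2 * I.x ≤ Y → Y ≤ 1 → 1 ≤ Zh → vt ≤ vt2 → (∀ k ≤ I.n, I.v k ≤ 2 * vt → I.v k ≤ vt2) →
        ∀ e : ℕ → ℝ, I.Core e (C0 * I.x ^ (-ε0)) Y Zh vt2 cE pm0 jm0 → I.Full e (C * I.x ^ (-ε)) Y Zh vt vs cE pm jm := by
  obtain ⟨q, ε', ε0, hq, hε', hε0, hε0ε, har⟩ := l8x_arith_d10 jm ε hε
  obtain ⟨Cl, hCl, hlog⟩ := l8x_arith_log ε hε
  obtain ⟨cp, hcp1, hcp⟩ := l8x_cP pm
  refine ⟨max pm q, jm, ε0, hε0, ?_⟩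
  intro C0
  obtain ⟨C1, hC1⟩ : ∃ C1, C1 = max |C0| (1 / (3 * vs)) := ⟨_, rfl⟩
  have hC1a : |C0| ≤ C1 := by rw [hC1]; exact le_max_left _ _
  have hC1b : 1 / (3 * vs) ≤ C1 := by rw [hC1]; exact le_max_right _ _
  have hC10 : 0 ≤ C1 := (abs_nonneg _).trans hC1a
  obtain ⟨Ca, hCa1, hCa2, hCa⟩ := har C1 hC10
  obtain ⟨C, hC⟩ : ∃ C, C = max Ca (max (10 * Cl * C1 + 1) (16 * cp * √(6 * C1 / cH))) := ⟨_, rfl⟩
  have hCCa : Ca ≤ C := by rw [hC]; exact le_max_left _ _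
  have hCCb : 10 * Cl * C1 + 1 ≤ C := by rw [hC]; exact (le_max_left _ _).trans (le_max_right _ _)
  have hCCc : 16 * cp * √(6 * C1 / cH) ≤ C := by rw [hC]; exact (le_max_right _ _).trans (le_max_right _ _)
  have hC0 : 0 ≤ C := by linarith
  have hCC1 : C1 ≤ C := hCa1.trans hCCa
  obtain ⟨N0, hN0⟩ := lce_x_small (1 / 4) (by norm_num)
  refine ⟨C, N0, ?_⟩
  intro I hN hOk hEx hfine hSl
  have hadm := hfine.adm
  obtain ⟨hx0, hx1'⟩ := I.l8x_x_mem hOk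
  have hx1 : I.x ≤ 1 := hx1'.le
  have hx4 : I.x ≤ 1 / 4 := hN0 I.p hN
  obtain ⟨ha1, ha4⟩ := I.l8x_a_mem hOk
  obtain ⟨u, hu⟩ : ∃ u, u = I.x ^ (-ε) := ⟨_, rfl⟩
  obtain ⟨u0, hu0⟩ : ∃ u0, u0 = I.x ^ (-ε0) := ⟨_, rfl⟩
  have hu01 : 1 ≤ u0 := by rw [hu0]; exact Real.one_le_rpow_of_pos_of_le_one_of_nonpos hx0 hx1 (by linarith)
  have hu0u : u0 ≤ u := by rw [hu0, hu]; exact Real.rpow_le_rpow_of_exponent_ge hx0 hx1 (by linarith)
  have hu1 : 1 ≤ u := hu01.trans hu0u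
  rw [← hu, ← hu0]
  have hA0A : C1 * u0 ≤ C * u := mul_le_mul hCC1 hu0u (by linarith) hC0
  have hsA0 : C0 * u0 ≤ C1 * u0 := mul_le_mul_of_nonneg_right ((le_abs_self _).trans hC1a) (by linarith)
  have habs0 : |C0 * u0| ≤ C1 * u0 := by
    rw [abs_mul, abs_of_nonneg (by linarith : (0 : ℝ) ≤ u0)]
    exact mul_le_mul_of_nonneg_right hC1a (by linarith)
  have hA00 : 0 ≤ C1 * u0 := mul_nonneg hC10 (by linarith)
  refine ⟨hsA0.trans hA0A, ?_⟩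
  intro Y Zh vt vt2 hY hY1 hZh hvt hvt2 e hcore
  have hY0 : 0 < Y := by linarith
  have hZ0 : 0 ≤ Zh := by linarith
  have he0 : ∀ k ≤ I.n, 0 < e k := fun k hk => lt_of_lt_of_le (Real.rpow_pos_of_pos hx0 _) (hcore.env.lo k hk)
  have envS : I.Env e (C1 * u0) Y vt2 cE := hcore.env.mono hOk hadm hY0.le hsA0 le_rfl
  have rndS : I.RndC false e (C1 * u0) Y Zh vt2 (max pm q) jm :=
    hcore.rnd.mono hOk hadm hEx (fun k hk => (he0 k hk).le) hY0.le hZ0 habs0 le_rfl le_rfl le_rfl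
  have envT : I.Env e (C * u) Y vt cE := hcore.env.mono hOk hadm hY0.le (hsA0.trans hA0A) hvt
  have numT : I.Num (C * u) Y Zh vt := hcore.num.mono hOk hadm hEx hY0.le hZ0 (hsA0.trans hA0A) hvt
  have rndT : I.RndC false e (C * u) Y Zh vt pm jm :=
    hcore.rnd.mono hOk hadm hEx (fun k hk => (he0 k hk).le) hY0.le hZ0 (habs0.trans hA0A) hvt (le_max_left _ _) le_rfl
  refine ⟨envT, numT, L8In.Rnd.of rndT ⟨?_, ?_, ?_⟩⟩
  · -- (D10)
    intro r hYr hrvt j hj1 hjm c hc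
    rcases le_or_gt r I.a with hra | hra
    · have hlow := I.l8x_d10_lower hOk hEx hj1 hjm (by linarith : I.x ≤ Y) hYr (hra.trans ha4) hZh
      obtain ⟨n1, n2⟩ := hCa I.x I.a _ hx0 hx1 (by linarith) ha4 hlow C hCCa j hj1 hjm
      rw [← hu, ← hu0] at n1 n2
      exact I.l8x_d10 hOk hadm hj1 hq hA00 (Real.one_le_rpow_of_pos_of_le_one_of_nonpos hx0 hx1 (by linarith)) he0
        (fun k hk _ h2 => envS.f_le k hk (hvt2 k hk (by linarith)))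
        (fun k hk _ h2 => rndS.ref_L q hq (le_max_right _ _) k ⟨hk, by simp⟩ (hvt2 k hk (by linarith)))
        (rndS.d7_W r hYr (hrvt.trans hvt) (j - 1) (by omega)) c hc n1 n2
    · have : (fun ω => (I.band r fun k => I.pol false c j k ω - I.ex false (I.pol false c j k)) ^ 2) = fun _ => (0 : ℝ) := by
        funext ω
        rw [I.l8x_band_empty hOk hadm hra]; simp
      rw [this]
      simp only [L8In.ex, integral_zero]
      positivity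
  · -- the low linear integral
    intro c hc
    have hnd : Y ≤ 2 ^ (Nat.clog 2 I.p.N) * I.x := hY1.trans (l8x_clog I.p hOk.pt.N2)
    have hl := hlog I.p.N hOk.pt.N2
    have hl' : ((Nat.clog 2 I.p.N : ℕ) : ℝ) + 1 ≤ Cl * u := by rw [hu]; exact hl
    have h1 : 10 * (((Nat.clog 2 I.p.N : ℕ) : ℝ) + 1) * (C1 * u0) ≤ (C * u) ^ 2 :=
      l8x_num_low hCl.le hC10 hCCb (by linarith) hu0u hl'
    exact I.l8x_low hOk hadm hEx hY0 hnd hA00 rndS.d9_W h1 c hc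
  · -- Cor. 8.7
    intro r hr1 hrpm
    obtain ⟨c, hc, hP⟩ := hcp r hr1 hrpm
    have hη : I.x ^ (2 : ℝ) ≤ I.x / 4 := by
      rw [Real.rpow_two, sq]
      have := mul_le_mul_of_nonneg_left hx4 hx0.le
      linarith
    have hccp : c ≤ cp ^ (2 * r) := hc.trans (le_self_pow₀ hcp1 (by omega))
    have hA0' : 1 ≤ 3 * (C1 * u0) * vs := by
      have h3 : 1 ≤ C1 * (3 * vs) := by rwa [div_le_iff₀ (by positivity)] at hC1b
      have h4 : C1 * (3 * vs) ≤ C1 * (3 * vs) * u0 := le_mul_of_one_le_right (by positivity) hu01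
      linarith
    have h1 : 16 * cp * √(6 * (C1 * u0) / cH) ≤ C * u := l8x_num_proj hcH hC10 hC0 hCCc hu01 hu0u
    exact I.l8x_proj hOk hadm hEx hr1 hfine.dv_le hη hcH hSl hvs0 hvs
      (fun vmin hmin h1 h2 => hP I.m I.a (I.P false) (I.l8x_m_pos hOk) (by linarith) ha4 hadm.1 vmin hmin h1 h2) hccp (by linarith) hA00 hA0' hY
      (fun k hk => rndS.raw_X r hr1 (hrpm.trans (le_max_left _ _)) k ⟨hk, by simp⟩) h1


/-- `4 x ≤ U` for large `N` (`λ ≤ x^(p_*) → 0`) -/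
theorem l8x_U4 (F : LlFix) (hs : 0 < F.sS) (hp : 0 < F.pS) : LlUnif F fun p => 4 * p.x ≤ p.U F := by
  have u1 := lce_unif_x F (1 / 4) (by norm_num)
  have u2 := lce_unif_lam F hp ((1 / 4 : ℝ) ^ (2 / F.sS)) (by positivity)
  refine (u1.and u2).mono ?_
  rintro p hp' ⟨h1, h2⟩
  have hx0 := lcc_x_pos hp'.N2
  have hl0 : 0 < p.lam := lce_lam_pos hp'
  unfold LlPt.U
  refine le_min (by linarith) ?_
  have h3 : p.lam ^ (F.sS / 2) ≤ 1 / 4 := by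
    have := Real.rpow_le_rpow hl0.le h2 (by positivity : 0 ≤ F.sS / 2)
    rwa [← Real.rpow_mul (by norm_num), show 2 / F.sS * (F.sS / 2) = 1 by field_simp, Real.rpow_one] at this
  have h4 : 4 ≤ p.lam ^ (-(F.sS / 2)) := by
    rw [Real.rpow_neg hl0.le]
    have h5 : 0 < p.lam ^ (F.sS / 2) := Real.rpow_pos_of_pos hl0 _
    rw [le_inv_comm₀ (by norm_num) h5]
    linarith
  nlinarith

theorem l8x_x4 (F : LlFix) : LlUnif F fun p => 4 * p.x ≤ p.x ^ (llDStar / 3) := by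
  have hd : 0 < 1 - llDStar / 3 := by unfold llDStar; norm_num
  refine (lce_unif_xpow F (1 - llDStar / 3) hd (1 / 4) (by norm_num)).mono ?_
  intro p hp h
  have hx0 := lcc_x_pos hp.N2
  have e : p.x = p.x ^ (llDStar / 3) * p.x ^ (1 - llDStar / 3) := by
    rw [← Real.rpow_add hx0]; simp
  have h0 : 0 < p.x ^ (llDStar / 3) := Real.rpow_pos_of_pos hx0 _
  calc 4 * p.x = 4 * (p.x ^ (llDStar / 3) * p.x ^ (1 - llDStar / 3)) := by rw [← e]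
    _ ≤ 4 * (p.x ^ (llDStar / 3) * (1 / 4)) := by gcongr
    _ = p.x ^ (llDStar / 3) := by ring

/-- the low scales of the two variants are `≥ 2 x` and `≤ 1` for large `N` -/
theorem l8x_Yv (F : LlFix) (hs : 0 < F.sS) (hp : 0 < F.pS) : ∃ N0 : ℕ, ∀ I : L8In, I.F = F → N0 ≤ I.p.N → I.Ok → ∀ (lw : Bool) (κ : ℝ), 0 < κ →
    (lw = false → I.Y ≤ I.x ^ κ) → 2 * I.x ≤ I.Yv lw ∧ I.Yv lw ≤ 1 ∧ 1 ≤ I.Zv lw ∧ I.U ≤ I.Y := by
  obtain ⟨N0, hN0⟩ := (l8x_U4 F hs hp).and (l8x_x4 F)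
  refine ⟨N0, ?_⟩
  intro I hIF hN hOk lw κ hκ hY
  obtain ⟨h1, h2⟩ := hN0 I.p (hIF ▸ hOk.pt) hN
  obtain ⟨hx0, hx1⟩ := I.l8x_x_mem hOk
  have hU4 : 4 * I.x ≤ I.U := by rw [L8In.U, hIF]; exact h1
  have hU0 : 0 < I.U := by linarith
  have hZ := I.l8x_Z_ge
  have hUY : I.U ≤ I.Y := by unfold L8In.Y; exact le_mul_of_one_le_right hU0.le hZ
  cases lw with
  | false =>
    exact ⟨by show 2 * I.x ≤ I.Y; linarith, (hY rfl).trans (Real.rpow_le_one hx0.le hx1.le hκ.le), hZ, hUY⟩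
  | true =>
    have e : I.Yc llDStar = min I.Y (I.x ^ (llDStar / 3)) := by
      unfold L8In.Yc L8In.Zc L8In.Y
      rw [mul_min_of_nonneg _ _ hU0.le, mul_div_cancel₀ _ hU0.ne']
    refine ⟨?_, ?_, le_rfl, hUY⟩
    · show 2 * I.x ≤ I.Yc llDStar
      rw [e]
      exact le_min (by linarith) (by have : 4 * I.x ≤ I.x ^ (llDStar / 3) := h2; linarith)
    · show I.Yc llDStar ≤ 1
      rw [e]
      exact (min_le_right _ _).trans (Real.rpow_le_one hx0.le hx1.le (by unfold llDStar; norm_num))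

/-- **SLOPE**: (D3) in mass form on the `x²`-fine chains.   (148) The edge term `H_e` vanishes at low mass if `χ_e = 0` (size paths) or if `U ≤ U1` (direct paths with `Y ≤ x^κ`); `L8Fix` gives no smallness of `F.U0` -/
def L8gSlope (𝔹 : LlBase) (T : ℝ) : Prop :=
  ∀ F0, L8Fix 𝔹 T F0 → ∀ (pB : LLParB) (pS : ℝ), 0 < pS → pS ≤ 1 → ∃ cH vs U1 : ℝ, 0 < cH ∧ 0 < vs ∧ vs ≤ 1 / 4 ∧ 0 < U1 ∧
    ∃ N0 : ℕ, ∀ I : L8In, I.F = F0.wExp pB.sStar pB.eta pS → I.𝔹 = 𝔹 → N0 ≤ I.p.N → I.Ok → I.Fine (I.x ^ (2 : ℝ)) →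
      (I.p.chiE = 0 ∨ (I.p.sm = false ∧ I.U ≤ U1)) → I.Slope cH vs

theorem l8x_slope_gen (𝔹 : LlBase) (T : ℝ) : L8gSlope 𝔹 T := by
  intro F0 hF pB pS h0 h1
  have hexp : LlExpOk pB.sStar pB.eta pS := llc_expOk pB h0 h1
  have h3 : LlSec3 𝔹 (F0.wExp pB.sStar pB.eta pS) := (hF.2.2 _ _ _ hexp).sec3
  have hB : LlBaseProfile 𝔹 (F0.wExp pB.sStar pB.eta pS).T := by
    have : (F0.wExp pB.sStar pB.eta pS).T = T := hF.1
    rw [this]; exact hF.2.1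
  obtain ⟨c, vs, U1, hc, hvs0, hvs, hU1, hsl⟩ := l8x_slope_path hB h3
  obtain ⟨cA, CA, hcA, hadm⟩ := h3.adm
  obtain ⟨N1, hN1⟩ := (hsl.and hadm).and (lce_unif_x (F0.wExp pB.sStar pB.eta pS) (1 / 6) (by norm_num))
  refine ⟨c / 16, vs, U1, by positivity, hvs0, hvs, hU1, N1, ?_⟩
  rintro ⟨F, 𝔹', p, m, s, Fs⟩ hIF hIB hN hOk hfine hcond
  simp only at hIF hIB
  subst hIF hIB
  obtain ⟨⟨s1, s2⟩, s3⟩ := hN1 p hOk.pt hN
  have hx0 : 0 < p.x := lcc_x_pos hOk.pt.N2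
  have hx1 : p.x < 1 := lcc_x_lt_one hOk.pt.N2
  have ha : (0 : ℝ) ≤ p.a := by linarith [lcc_one_le_a hOk.pt.ell1]
  have hl0 : 0 < p.lam := lce_lam_pos hOk.pt
  have hl1 : p.lam ≤ 1 := lce_lam_le_one hOk.pt h3.ok.pS0.le
  have hm1 : p.lam1 (F0.wExp pB.sStar pB.eta pS) ≤ p.lam := by
    unfold LlPt.lam1
    calc p.lam ^ (1 + (F0.wExp pB.sStar pB.eta pS).eta) ≤ p.lam ^ (1 : ℝ) :=
          Real.rpow_le_rpow_of_exponent_ge hl0 hl1 (by linarith [h3.ok.eta0])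
      _ = p.lam := Real.rpow_one _
  have hm0 : 0 ≤ p.lam1 (F0.wExp pB.sStar pB.eta pS) := Real.rpow_nonneg hl0.le _
  refine L8In.l8x_slope_of_path _ hOk hfine.adm hc.le (Real.rpow_pos_of_pos hx0 2) hfine.dv_le ?_ ⟨s2.2.1, (s2.2.2.2.2.2.1 0 ⟨le_rfl, ha⟩).2.2.1⟩
    (by linarith) hm0 ?_
  · show p.x ^ (2 : ℝ) ≤ p.x / 6
    rw [Real.rpow_two, sq]
    have := mul_le_mul_of_nonneg_left s3 hx0.le
    linarith
  · intro v v' hv hvv hv'
    refine le_trans ?_ (s1 hcond v v' hv hvv hv')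
    have : c * p.lam1 (F0.wExp pB.sStar pB.eta pS) ≤ c * p.lam := mul_le_mul_of_nonneg_left hm1 hc.le
    exact mul_le_mul_of_nonneg_right (mul_le_mul_of_nonneg_right this (sq_nonneg _)) (by linarith)

/-- **CEN from FINE and SLOPE** -/
theorem l8x_cen_of {𝔹 : LlBase} {T : ℝ} (hf : L8gFine 𝔹 T) (hs : L8gSlope 𝔹 T) : L8gCen 𝔹 T := by
  intro F0 hF pB pS h0 h1
  have hexp : LlExpOk pB.sStar pB.eta pS := llc_expOk pB h0 h1
  have h3 : LlSec3 𝔹 (F0.wExp pB.sStar pB.eta pS) := (hF.2.2 _ _ _ hexp).sec3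
  obtain ⟨cH, vs, U1, hcH, hvs0, hvs, hU1, Ns, hsl⟩ := hs F0 hF pB pS h0 h1
  refine ⟨vs, hvs0, ?_⟩
  intro lw κ cE v0 hκ hcE hv0 pm jm ε hε
  obtain ⟨pm0, jm0, ε0, hε0, hin⟩ := l8x_inst cH vs cE hcH hvs0 hvs pm jm ε hε
  refine ⟨pm0, jm0, ε0, hε0, ?_⟩
  intro C0
  obtain ⟨C, Ni, hin⟩ := hin C0
  obtain ⟨Ny, hy⟩ := l8x_Yv _ h3.ok.sS0 h3.ok.pS0
  obtain ⟨Nu, hu⟩ := lce_unif_xpow (F0.wExp pB.sStar pB.eta pS) κ hκ U1 hU1
  obtain ⟨N0, hN0⟩ := L8Ev.of_fine hf hF pB h0 h1 2 (max (max Ns Ni) (max Ny Nu)) (R := l8Cls lw)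
    (Φ := fun I => (lw = false → I.Y ≤ I.x ^ κ) → C0 * I.x ^ (-ε0) ≤ C * I.x ^ (-ε) ∧
        ∀ e : ℕ → ℝ, I.Core e (C0 * I.x ^ (-ε0)) (I.Yv lw) (I.Zv lw) (I.vv lw (2 * v0)) cE pm0 jm0 → I.Full e (C * I.x ^ (-ε)) (I.Yv lw) (I.Zv lw) (I.vv lw v0) vs cE pm jm)
    (by
      intro I hIF hIB hN hR hOk hfine hY
      have hNs : Ns ≤ I.p.N := ((le_max_left _ _).trans (le_max_left _ _)).trans hN
      have hNi : Ni ≤ I.p.N := ((le_max_right _ _).trans (le_max_left _ _)).trans hN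
      have hNy : Ny ≤ I.p.N := ((le_max_left _ _).trans (le_max_right _ _)).trans hN
      have hNu : Nu ≤ I.p.N := ((le_max_right _ _).trans (le_max_right _ _)).trans hN
      have hEx : I.Ex := by
        unfold L8In.Ex
        rw [hIF]
        exact ⟨h3.ok.eta0.le, h3.ok.sS0.le, h3.ok.pS0.le⟩
      obtain ⟨y1, y2, y3, y4⟩ := hy I hIF hNy hOk lw κ hκ hY
      have hcond : I.p.chiE = 0 ∨ (I.p.sm = false ∧ I.U ≤ U1) := by
        cases lw with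
        | false => exact Or.inr ⟨hR.1, y4.trans ((hY rfl).trans (hu I.p (hIF ▸ hOk.pt) hNu))⟩
        | true => exact Or.inl (hOk.pt.sm_fin hR.1).2
      obtain ⟨c1, c2⟩ := hin I hNi hOk hEx hfine (hsl I hIF hIB hNs hOk hfine hcond)
      refine ⟨c1, fun e hc => c2 (I.Yv lw) (I.Zv lw) (I.vv lw v0) (I.vv lw (2 * v0)) y1 y2 y3 ?_ ?_ e hc⟩
      · cases lw with
        | false => exact le_rfl
        | true => show v0 ≤ 2 * v0; linarith
      · intro k hk hk2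
        cases lw with
        | false => exact I.l8x_v_le_a hOk hfine.adm hk
        | true => exact hk2)
  exact ⟨C, N0, hN0⟩

/-- **the leaf `l8g_cen` of `L08/Glue.lean`** -/
theorem l8x_cen (T : ℝ) (hT : 1 < T) : L8gCen llBase T := l8x_cen_of (l8g_fine T hT) (l8x_slope_gen llBase T)

theorem l8x_eqns_cite : True := by
  have := @L8In.l8xK.eq_1
  have := @L8In.Slope.eq_1
  have := @L8In.Ex.eq_1
  have := @l8xP.eq_1
  have := @L8In.SlopeP.eq_1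
  have := @L8gSlope.eq_1
  trivial

end

end Claimed.Agent.R286
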