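import Claimed.Agent.R286.L08.SP

/-!
# Row 286 (S0533), folder L08, file IvKit : CALCULUS ON THE ABSTRACT SINGLE PATH, private kit of unit IV      (owner helper189; prefix `ivk_`, `IvBd`, `IvPsd`)

Everything here follows from `L8P.Ok` alone (no analytic input); 0 open leaves.  Test functions are BOUNDED MEASURABLE (`IvBd`).
It duplicates part of SPA/SPB (written in parallel); it is kept so that `L08/IvP.lean` (step embedding `L8P -> L11Mass, L11Cut`) has a closed import closure.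
NO exported statement of unit IV mentions `IvBd`.

* Part A: the operator `P.E k`: constants, linearity, monotonicity, measurability (also w.r.t. `ℱ k`), tower, pull-out, root, terminal cut,
  Cauchy-Schwarz.
* Part B: `X, R, dX, C, H`: bounds, martingale property, orthogonality, quadratic forms, `v C ≤ H ≤ a C`, trace inequalities,
  `E W = E tr C H`, `v E W ≤ E tr H²`, `v E tr C² ≤ E W`, `S` monotone, the `D²` identity.
-/

set_option autoImplicit false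

namespace Claimed.Agent.R286

open MeasureTheory ProbabilityTheory Finset
open scoped ENNReal

/-- bounded measurable test function -/
structure IvBd {Ω : Type} [MeasurableSpace Ω] (f : Ω → ℝ) : Prop where
  meas : Measurable f
  bdd : ∃ C, ∀ ω, |f ω| ≤ C

section bd
variable {Ω : Type} [MeasurableSpace Ω] {f g : Ω → ℝ}

theorem IvBd.const (c : ℝ) : IvBd (fun _ : Ω => c) := ⟨measurable_const, |c|, fun _ => le_rfl⟩

theorem IvBd.add (hf : IvBd f) (hg : IvBd g) : IvBd (fun ω => f ω + g ω) := by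
  obtain ⟨C, hC⟩ := hf.bdd
  obtain ⟨D, hD⟩ := hg.bdd
  exact ⟨hf.meas.add hg.meas, C + D, fun ω => (abs_add_le _ _).trans (add_le_add (hC ω) (hD ω))⟩

theorem IvBd.neg (hf : IvBd f) : IvBd (fun ω => - f ω) := by
  obtain ⟨C, hC⟩ := hf.bdd
  exact ⟨hf.meas.neg, C, fun ω => by rw [abs_neg]; exact hC ω⟩

theorem IvBd.sub (hf : IvBd f) (hg : IvBd g) : IvBd (fun ω => f ω - g ω) := by
  simpa [sub_eq_add_neg] using hf.add hg.neg

theorem IvBd.mul (hf : IvBd f) (hg : IvBd g) : IvBd (fun ω => f ω * g ω) := by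
  obtain ⟨C, hC⟩ := hf.bdd
  obtain ⟨D, hD⟩ := hg.bdd
  refine ⟨hf.meas.mul hg.meas, C * D, fun ω => ?_⟩
  rw [abs_mul]
  exact mul_le_mul (hC ω) (hD ω) (abs_nonneg _) ((abs_nonneg _).trans (hC ω))

theorem IvBd.const_mul (c : ℝ) (hf : IvBd f) : IvBd (fun ω => c * f ω) := (IvBd.const c).mul hf

theorem IvBd.mul_const (c : ℝ) (hf : IvBd f) : IvBd (fun ω => f ω * c) := hf.mul (IvBd.const c)

theorem IvBd.div_const (c : ℝ) (hf : IvBd f) : IvBd (fun ω => f ω / c) := by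
  simpa [div_eq_mul_inv] using hf.mul_const c⁻¹

theorem IvBd.pow (hf : IvBd f) (n : ℕ) : IvBd (fun ω => f ω ^ n) := by
  induction n with
  | zero => simpa using IvBd.const (Ω := Ω) 1
  | succ n ih => simpa [pow_succ] using ih.mul hf

theorem IvBd.sum {ι : Type} (s : Finset ι) {F : ι → Ω → ℝ} (hF : ∀ i ∈ s, IvBd (F i)) :
    IvBd (fun ω => ∑ i ∈ s, F i ω) := by
  classical
  induction s using Finset.induction_on with
  | empty => simpa using IvBd.const (Ω := Ω) 0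
  | insert a s ha ih =>
    simp only [Finset.sum_insert ha]
    exact (hF a (Finset.mem_insert_self a s)).add (ih fun i hi => hF i (Finset.mem_insert_of_mem hi))

theorem IvBd.integrable (hf : IvBd f) (ν : Measure Ω) [IsFiniteMeasure ν] : Integrable f ν := by
  obtain ⟨C, hC⟩ := hf.bdd
  exact Integrable.of_bound hf.meas.aestronglyMeasurable C (Filter.Eventually.of_forall fun ω => by
    rw [Real.norm_eq_abs]; exact hC ω)

theorem IvBd.eval (p : Polynomial ℝ) (hf : IvBd f) : IvBd (fun ω => p.eval (f ω)) := by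
  simp only [Polynomial.eval_eq_sum_range]
  exact IvBd.sum _ fun i _ => (hf.pow i).const_mul _

end bd

variable {Ω : Type} [mΩ : MeasurableSpace Ω] {m : ℕ} {P : L8P Ω m}

/-! ### Part A : the operator `E k` -/

theorem ivk_int (hP : P.Ok) {f : Ω → ℝ} (hf : IvBd f) (k : ℕ) (ω : Ω) : Integrable f (P.κ k ω) := by
  have := hP.markov k
  exact hf.integrable _

theorem ivk_intμ (hP : P.Ok) {f : Ω → ℝ} (hf : IvBd f) : Integrable f P.μ := by
  have := hP.prob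
  exact hf.integrable _

theorem ivk_E_const (hP : P.Ok) (k : ℕ) (c : ℝ) (ω : Ω) : P.E k (fun _ => c) ω = c := by
  have := hP.markov k
  simp [L8P.E]

theorem ivk_E_add (hP : P.Ok) {f g : Ω → ℝ} (hf : IvBd f) (hg : IvBd g) (k : ℕ) (ω : Ω) :
    P.E k (fun ω' => f ω' + g ω') ω = P.E k f ω + P.E k g ω :=
  integral_add (ivk_int hP hf k ω) (ivk_int hP hg k ω)

theorem ivk_E_sub (hP : P.Ok) {f g : Ω → ℝ} (hf : IvBd f) (hg : IvBd g) (k : ℕ) (ω : Ω) :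
    P.E k (fun ω' => f ω' - g ω') ω = P.E k f ω - P.E k g ω :=
  integral_sub (ivk_int hP hf k ω) (ivk_int hP hg k ω)

theorem ivk_E_const_mul (k : ℕ) (c : ℝ) (f : Ω → ℝ) (ω : Ω) :
    P.E k (fun ω' => c * f ω') ω = c * P.E k f ω :=
  integral_const_mul c f

theorem ivk_E_mul_const (k : ℕ) (c : ℝ) (f : Ω → ℝ) (ω : Ω) :
    P.E k (fun ω' => f ω' * c) ω = P.E k f ω * c :=
  integral_mul_const c f

theorem ivk_E_sum (hP : P.Ok) {ι : Type} (s : Finset ι) {F : ι → Ω → ℝ} (hF : ∀ i ∈ s, IvBd (F i))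
    (k : ℕ) (ω : Ω) : P.E k (fun ω' => ∑ i ∈ s, F i ω') ω = ∑ i ∈ s, P.E k (F i) ω :=
  integral_finsetSum s fun i hi => ivk_int hP (hF i hi) k ω

theorem ivk_E_mono (hP : P.Ok) {f g : Ω → ℝ} (hf : IvBd f) (hg : IvBd g) (h : ∀ ω, f ω ≤ g ω)
    (k : ℕ) (ω : Ω) : P.E k f ω ≤ P.E k g ω :=
  integral_mono (ivk_int hP hf k ω) (ivk_int hP hg k ω) h

theorem ivk_E_nonneg {f : Ω → ℝ} (h : ∀ ω, 0 ≤ f ω) (k : ℕ) (ω : Ω) : 0 ≤ P.E k f ω :=
  integral_nonneg h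

theorem ivk_E_abs_le (hP : P.Ok) {f : Ω → ℝ} {C : ℝ} (h : ∀ ω, |f ω| ≤ C) (k : ℕ) (ω : Ω) :
    |P.E k f ω| ≤ C := by
  have := hP.markov k
  have := norm_integral_le_of_norm_le_const (μ := P.κ k ω) (f := f) (C := C)
    (Filter.Eventually.of_forall fun ω => by rw [Real.norm_eq_abs]; exact h ω)
  simpa [L8P.E, Real.norm_eq_abs] using this

theorem ivk_E_meas {f : Ω → ℝ} (hf : IvBd f) (k : ℕ) : Measurable (P.E k f) :=
  (hf.meas.stronglyMeasurable.integral_kernel (κ := P.κ k)).measurable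

theorem ivk_E_bd (hP : P.Ok) {f : Ω → ℝ} (hf : IvBd f) (k : ℕ) : IvBd (P.E k f) := by
  obtain ⟨C, hC⟩ := hf.bdd
  exact ⟨ivk_E_meas hf k, C, ivk_E_abs_le hP hC k⟩

/-- `E k f` depends on the prefix only -/
theorem ivk_E_measF (hP : P.Ok) {f : Ω → ℝ} (hf : IvBd f) (k : ℕ) : Measurable[P.ℱ k] (P.E k f) := by
  let κ' : @Kernel Ω Ω (P.ℱ k) mΩ :=
    @Kernel.mk Ω Ω (P.ℱ k) mΩ (fun ω => P.κ k ω)
      (@Measure.measurable_of_measurable_coe Ω Ω mΩ (P.ℱ k) _ (hP.adapted k))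
  have h := @StronglyMeasurable.integral_kernel Ω Ω (P.ℱ k) mΩ κ' ℝ _ _ f hf.meas.stronglyMeasurable
  exact h.measurable

/-- the tower property as an identity of kernels -/
theorem ivk_comp (hP : P.Ok) {k l : ℕ} (hkl : k ≤ l) : P.κ l ∘ₖ P.κ k = P.κ k := by
  ext ω s hs
  rw [Kernel.comp_apply' _ _ _ hs]
  exact hP.tower k l hkl ω s hs

/-- **tower** -/
theorem ivk_tower (hP : P.Ok) {f : Ω → ℝ} (hf : IvBd f) {k l : ℕ} (hkl : k ≤ l) (ω : Ω) :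
    P.E k (P.E l f) ω = P.E k f ω := by
  have h := Kernel.integral_comp (η := P.κ l) (κ := P.κ k) (a := ω) (f := f)
    (by rw [ivk_comp hP hkl]; exact ivk_int hP hf k ω)
  rw [ivk_comp hP hkl] at h
  exact h.symm

/-- at the root `E 0` is the expectation -/
theorem ivk_E_zero (hP : P.Ok) (f : Ω → ℝ) (ω : Ω) : P.E 0 f ω = ∫ ω', f ω' ∂P.μ := by
  unfold L8P.E; rw [hP.root]

/-- the expectation of a conditional expectation -/
theorem ivk_integral_E (hP : P.Ok) {f : Ω → ℝ} (hf : IvBd f) (k : ℕ) :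
    ∫ ω, P.E k f ω ∂P.μ = ∫ ω, f ω ∂P.μ := by
  by_cases hΩ : Nonempty Ω
  · obtain ⟨ω⟩ := hΩ
    rw [← ivk_E_zero hP (P.E k f) ω, ← ivk_E_zero hP f ω]
    exact ivk_tower hP hf (Nat.zero_le k) ω
  · have : IsEmpty Ω := not_nonempty_iff.1 hΩ
    simp [integral_of_isEmpty]

/-- after the terminal draw everything is known -/
theorem ivk_E_term (hP : P.Ok) {f : Ω → ℝ} (hf : IvBd f) {k : ℕ} (hk : P.n < k) (ω : Ω) :
    P.E k f ω = f ω := by
  unfold L8P.E; rw [hP.term k hk]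
  exact integral_dirac' f ω hf.meas.stronglyMeasurable

/-- a function of the prefix is constant under `κ k ω` -/
theorem ivk_ae_eq (hP : P.Ok) {g : Ω → ℝ} (k : ℕ) (hg : Measurable[P.ℱ k] g) (ω : Ω) :
    ∀ᵐ ω' ∂(P.κ k ω), g ω' = g ω := by
  have := hP.markov k
  have hA : MeasurableSet[P.ℱ k] (g ⁻¹' {g ω}) := hg (measurableSet_singleton _)
  have h1 : P.κ k ω (g ⁻¹' {g ω}) = 1 := by
    rw [hP.proper k ω _ hA]; simp
  have h2 : MeasurableSet (g ⁻¹' {g ω}) := P.ℱ.le k _ hA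
  have h3 := (prob_compl_eq_zero_iff (μ := P.κ k ω) h2).2 h1
  rw [ae_iff]
  exact h3

/-- **pull-out** -/
theorem ivk_pull (hP : P.Ok) {g : Ω → ℝ} (k : ℕ) (hg : Measurable[P.ℱ k] g) (f : Ω → ℝ) (ω : Ω) :
    P.E k (fun ω' => g ω' * f ω') ω = g ω * P.E k f ω := by
  unfold L8P.E
  rw [← integral_const_mul]
  refine integral_congr_ae ?_
  filter_upwards [ivk_ae_eq hP k hg ω] with ω' h
  rw [h]

/-- a function of the prefix is its own conditional expectation -/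
theorem ivk_E_self (hP : P.Ok) {g : Ω → ℝ} (k : ℕ) (hg : Measurable[P.ℱ k] g) (ω : Ω) :
    P.E k g ω = g ω := by
  have h := ivk_pull hP k hg (fun _ => 1) ω
  rw [ivk_E_const hP] at h
  simpa using h

/-- conditional Cauchy-Schwarz -/
theorem ivk_E_cs (hP : P.Ok) {f g : Ω → ℝ} (hf : IvBd f) (hg : IvBd g) (k : ℕ) (ω : Ω) :
    P.E k (fun ω' => f ω' * g ω') ω ^ 2 ≤ P.E k (fun ω' => f ω' ^ 2) ω * P.E k (fun ω' => g ω' ^ 2) ω := by
  have key : ∀ t : ℝ, 0 ≤ P.E k (fun ω' => f ω' ^ 2) ω * (t * t)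
      + (2 * P.E k (fun ω' => f ω' * g ω') ω) * t + P.E k (fun ω' => g ω' ^ 2) ω := by
    intro t
    have h0 : 0 ≤ P.E k (fun ω' => (f ω' * t + g ω') ^ 2) ω := ivk_E_nonneg (fun _ => sq_nonneg _) k ω
    have e : (fun ω' => (f ω' * t + g ω') ^ 2)
        = fun ω' => (f ω' ^ 2 * (t * t) + (f ω' * g ω') * (2 * t)) + g ω' ^ 2 := by
      funext ω'; ring
    rw [e, ivk_E_add hP (((hf.pow 2).mul_const _).add ((hf.mul hg).mul_const _)) (hg.pow 2),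
      ivk_E_add hP ((hf.pow 2).mul_const _) ((hf.mul hg).mul_const _), ivk_E_mul_const,
      ivk_E_mul_const] at h0
    linarith
  have hd := discrim_le_zero key
  unfold discrim at hd
  nlinarith

/-- conditional Jensen for the square -/
theorem ivk_E_sq_le (hP : P.Ok) {f : Ω → ℝ} (hf : IvBd f) (k : ℕ) (ω : Ω) :
    P.E k f ω ^ 2 ≤ P.E k (fun ω' => f ω' ^ 2) ω := by
  have h := ivk_E_cs hP hf (IvBd.const 1) k ω
  simp only [mul_one, one_pow] at h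
  rw [ivk_E_const hP, mul_one] at h
  exact h

/-- Cauchy-Schwarz under `μ` -/
theorem ivk_cs (hP : P.Ok) {f g : Ω → ℝ} (hf : IvBd f) (hg : IvBd g) :
    (∫ ω, f ω * g ω ∂P.μ) ^ 2 ≤ (∫ ω, f ω ^ 2 ∂P.μ) * ∫ ω, g ω ^ 2 ∂P.μ := by
  by_cases hΩ : Nonempty Ω
  · obtain ⟨ω⟩ := hΩ
    have h := ivk_E_cs hP hf hg 0 ω
    simpa only [ivk_E_zero hP] using h
  · have : IsEmpty Ω := not_nonempty_iff.1 hΩ
    simp [integral_of_isEmpty]

/-- Cauchy-Schwarz under `μ` in the form `k² ≤ f g` -/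
theorem ivk_cs' (hP : P.Ok) {k f g : Ω → ℝ} (hk : IvBd k) (hf : IvBd f) (hg : IvBd g)
    (hf0 : ∀ ω, 0 ≤ f ω) (hg0 : ∀ ω, 0 ≤ g ω) (hkfg : ∀ ω, k ω ^ 2 ≤ f ω * g ω) :
    (∫ ω, k ω ∂P.μ) ^ 2 ≤ (∫ ω, f ω ∂P.μ) * ∫ ω, g ω ∂P.μ := by
  have key : ∀ t : ℝ, 0 ≤ (∫ ω, f ω ∂P.μ) * (t * t) + (2 * ∫ ω, k ω ∂P.μ) * t + ∫ ω, g ω ∂P.μ := by
    intro t
    have h0 : 0 ≤ ∫ ω, ((f ω * (t * t) + k ω * (2 * t)) + g ω) ∂P.μ := by
      refine integral_nonneg fun ω => ?_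
      have a1 := hf0 ω
      have a2 := hg0 ω
      have a3 := hkfg ω
      rcases a1.eq_or_lt with h | h
      · have hk0 : k ω = 0 := by
          have : k ω ^ 2 ≤ 0 := by rw [← h] at a3; simpa using a3
          exact pow_eq_zero_iff (two_ne_zero) |>.1 (le_antisymm this (sq_nonneg _))
        show 0 ≤ (f ω * (t * t) + k ω * (2 * t)) + g ω
        rw [← h, hk0]; simpa using a2
      · have : 0 ≤ f ω * ((f ω * (t * t) + k ω * (2 * t)) + g ω) := by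
          nlinarith [sq_nonneg (f ω * t + k ω)]
        exact nonneg_of_mul_nonneg_right this h
    rw [integral_add (ivk_intμ hP ((hf.mul_const _).add (hk.mul_const _))) (ivk_intμ hP hg),
      integral_add (ivk_intμ hP (hf.mul_const _)) (ivk_intμ hP (hk.mul_const _)),
      integral_mul_const, integral_mul_const] at h0
    linarith
  have hd := discrim_le_zero key
  unfold discrim at hd
  nlinarith

/-! ### Part B : `y, X, R, dX` -/

theorem ivk_y_abs (hP : P.Ok) (i : Fin m) (ω : Ω) : |P.y i ω| ≤ 1 := by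
  have h := hP.y_sq ω
  have h1 : P.y i ω ^ 2 ≤ ∑ j, P.y j ω ^ 2 :=
    Finset.single_le_sum (f := fun j => P.y j ω ^ 2) (fun j _ => sq_nonneg _) (Finset.mem_univ i)
  rw [h] at h1
  exact abs_le_one_iff_mul_self_le_one.2 (by nlinarith)

theorem ivk_y_bd (hP : P.Ok) (i : Fin m) : IvBd (P.y i) := ⟨hP.y_meas i, 1, ivk_y_abs hP i⟩

theorem ivk_X_bd (hP : P.Ok) (k : ℕ) (i : Fin m) : IvBd (P.X k i) := ivk_E_bd hP (ivk_y_bd hP i) k

theorem ivk_X_abs (hP : P.Ok) (k : ℕ) (i : Fin m) (ω : Ω) : |P.X k i ω| ≤ 1 :=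
  ivk_E_abs_le hP (ivk_y_abs hP i) k ω

theorem ivk_X_measF (hP : P.Ok) {k l : ℕ} (hkl : k ≤ l) (i : Fin m) : Measurable[P.ℱ l] (P.X k i) :=
  (ivk_E_measF hP (ivk_y_bd hP i) k).mono (P.ℱ.mono hkl) le_rfl

theorem ivk_X_term (hP : P.Ok) {k : ℕ} (hk : P.n < k) (i : Fin m) (ω : Ω) : P.X k i ω = P.y i ω :=
  ivk_E_term hP (ivk_y_bd hP i) hk ω

/-- martingale property -/
theorem ivk_E_X (hP : P.Ok) {k l : ℕ} (hkl : k ≤ l) (i : Fin m) (ω : Ω) :
    P.E k (P.X l i) ω = P.X k i ω := ivk_tower hP (ivk_y_bd hP i) hkl ω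

theorem ivk_R_bd (hP : P.Ok) (k : ℕ) (i : Fin m) : IvBd (P.R k i) := (ivk_y_bd hP i).sub (ivk_X_bd hP k i)

theorem ivk_dX_bd (hP : P.Ok) (k : ℕ) (i : Fin m) : IvBd (P.dX k i) :=
  (ivk_X_bd hP (k + 1) i).sub (ivk_X_bd hP k i)

theorem ivk_XX_bd (hP : P.Ok) (k l : ℕ) (i : Fin m) : IvBd (P.XX k l i) :=
  (ivk_X_bd hP l i).sub (ivk_X_bd hP k i)

theorem ivk_dX_measF (hP : P.Ok) {k l : ℕ} (hkl : k + 1 ≤ l) (i : Fin m) : Measurable[P.ℱ l] (P.dX k i) :=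
  (ivk_X_measF hP hkl i).sub (ivk_X_measF hP (by omega) i)

theorem ivk_XX_measF (hP : P.Ok) {k l l' : ℕ} (hk : k ≤ l') (hl : l ≤ l') (i : Fin m) :
    Measurable[P.ℱ l'] (P.XX k l i) :=
  (ivk_X_measF hP hl i).sub (ivk_X_measF hP hk i)

theorem ivk_nX_nonneg (k : ℕ) (ω : Ω) : 0 ≤ P.nX k ω := Finset.sum_nonneg fun _ _ => sq_nonneg _

theorem ivk_nX_bd (hP : P.Ok) (k : ℕ) : IvBd (P.nX k) := IvBd.sum _ fun i _ => (ivk_X_bd hP k i).pow 2

theorem ivk_nX_measF (hP : P.Ok) {k l : ℕ} (hkl : k ≤ l) : Measurable[P.ℱ l] (P.nX k) :=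
  Finset.measurable_fun_sum _ fun i _ => (ivk_X_measF hP hkl i).pow_const 2

theorem ivk_nX_le (hP : P.Ok) (k : ℕ) (ω : Ω) : P.nX k ω ≤ 1 := by
  have h1 : P.nX k ω ≤ ∑ i, P.E k (fun ω' => P.y i ω' ^ 2) ω :=
    Finset.sum_le_sum fun i _ => ivk_E_sq_le hP (ivk_y_bd hP i) k ω
  rw [← ivk_E_sum hP _ fun i _ => (ivk_y_bd hP i).pow 2] at h1
  simp only [hP.y_sq] at h1
  rwa [ivk_E_const hP] at h1

/-- `E_k R_k = 0` -/
theorem ivk_E_R (hP : P.Ok) (k : ℕ) (i : Fin m) (ω : Ω) : P.E k (P.R k i) ω = 0 := by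
  have h := ivk_E_sub hP (ivk_y_bd hP i) (ivk_X_bd hP k i) k ω
  rw [ivk_E_X hP le_rfl] at h
  have e : P.E k (P.y i) ω = P.X k i ω := rfl
  rw [e, sub_self] at h
  exact h

/-- `E_k (X_l - X_k') = X_k - X_k'` type identity: increments after the cut are centred -/
theorem ivk_E_dX (hP : P.Ok) {k l : ℕ} (hkl : k ≤ l) (i : Fin m) (ω : Ω) : P.E k (P.dX l i) ω = 0 := by
  have h := ivk_E_sub hP (ivk_X_bd hP (l + 1) i) (ivk_X_bd hP l i) k ω
  rw [ivk_E_X hP hkl, ivk_E_X hP (by omega)] at h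
  rw [sub_self] at h
  exact h

/-- the residual is the sum of the future increments -/
theorem ivk_R_eq_sum (hP : P.Ok) (k : ℕ) (i : Fin m) (ω : Ω) :
    P.R k i ω = ∑ l ∈ Ico k (P.n + 1), P.dX l i ω := by
  by_cases hk : k ≤ P.n + 1
  · have h := Finset.sum_Ico_sub (fun l => P.X l i ω) hk
    unfold L8P.dX L8P.R
    rw [h, ivk_X_term hP (Nat.lt_succ_self _)]
  · rw [Finset.Ico_eq_empty (by omega), Finset.sum_empty]
    unfold L8P.R
    rw [ivk_X_term hP (by omega), sub_self]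

/-- increments between two cuts as sums -/
theorem ivk_XX_eq_sum {k l : ℕ} (hkl : k ≤ l) (i : Fin m) (ω : Ω) :
    P.XX k l i ω = ∑ j ∈ Ico k l, P.dX j i ω := by
  have h := Finset.sum_Ico_sub (fun l => P.X l i ω) hkl
  unfold L8P.dX L8P.XX
  rw [h]

/-! ### covariances of the increments -/

/-- conditional covariance of the increment number `l` seen from the cut `k` -/
noncomputable def ivkG (P : L8P Ω m) (k l : ℕ) (i j : Fin m) (ω : Ω) : ℝ :=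
  P.E k (fun ω' => P.dX l i ω' * P.dX l j ω') ω

/-- positive semidefinite table -/
def IvPsd (M : Fin m → Fin m → ℝ) : Prop := ∀ u : Fin m → ℝ, 0 ≤ ∑ i, ∑ j, u i * M i j * u j

/-- orthogonality of the increments -/
theorem ivk_orth (hP : P.Ok) {k l l' : ℕ} (hkl : k ≤ l) (hll : l < l') (i j : Fin m) (ω : Ω) :
    P.E k (fun ω' => P.dX l i ω' * P.dX l' j ω') ω = 0 := by
  rw [← ivk_tower hP ((ivk_dX_bd hP l i).mul (ivk_dX_bd hP l' j)) (show k ≤ l' by omega) ω]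
  have e : P.E l' (fun ω' => P.dX l i ω' * P.dX l' j ω') = fun _ => 0 := by
    funext ω'
    rw [ivk_pull hP l' (ivk_dX_measF hP hll i), ivk_E_dX hP le_rfl, mul_zero]
  rw [e, ivk_E_const hP]

/-- more generally: a function of the prefix at `l` is orthogonal to the increment number `l` -/
theorem ivk_orth' (hP : P.Ok) {k l : ℕ} (hkl : k ≤ l) {g : Ω → ℝ} (hg : IvBd g)
    (hgm : Measurable[P.ℱ l] g) (j : Fin m) (ω : Ω) :
    P.E k (fun ω' => g ω' * P.dX l j ω') ω = 0 := by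
  rw [← ivk_tower hP (hg.mul (ivk_dX_bd hP l j)) hkl ω]
  have e : P.E l (fun ω' => g ω' * P.dX l j ω') = fun _ => 0 := by
    funext ω'
    rw [ivk_pull hP l hgm, ivk_E_dX hP le_rfl, mul_zero]
  rw [e, ivk_E_const hP]

theorem ivk_G_symm (k l : ℕ) (i j : Fin m) (ω : Ω) : ivkG P k l i j ω = ivkG P k l j i ω := by
  unfold ivkG; congr 1; funext ω'; ring

/-- sums of increments: conditional covariance = sum of the covariances -/
theorem ivk_E_sum_sum (hP : P.Ok) {k : ℕ} (a b : ℕ) (hka : k ≤ a) (i j : Fin m) (ω : Ω) :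
    P.E k (fun ω' => (∑ l ∈ Ico a b, P.dX l i ω') * ∑ l ∈ Ico a b, P.dX l j ω') ω
      = ∑ l ∈ Ico a b, ivkG P k l i j ω := by
  have e : (fun ω' => (∑ l ∈ Ico a b, P.dX l i ω') * ∑ l ∈ Ico a b, P.dX l j ω')
      = fun ω' => ∑ l ∈ Ico a b, ∑ l' ∈ Ico a b, P.dX l i ω' * P.dX l' j ω' := by
    funext ω'; rw [Finset.sum_mul_sum]
  rw [e, ivk_E_sum hP _ fun l _ => IvBd.sum _ fun l' _ => (ivk_dX_bd hP l i).mul (ivk_dX_bd hP l' j)]
  refine Finset.sum_congr rfl fun l hl => ?_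
  rw [ivk_E_sum hP _ fun l' _ => (ivk_dX_bd hP l i).mul (ivk_dX_bd hP l' j)]
  rw [Finset.sum_eq_single l]
  · rfl
  · intro l' hl' hne
    have hl1 := (Finset.mem_Ico.1 hl).1
    have hl2 := (Finset.mem_Ico.1 hl').1
    rcases lt_or_gt_of_ne hne with h | h
    · have := ivk_orth hP (show k ≤ l' by omega) h j i ω
      rw [← this]; congr 1; funext ω'; ring
    · exact ivk_orth hP (show k ≤ l by omega) h i j ω
  · intro h; exact absurd hl h

/-- `C_k = E_k R_k R_kᵀ` -/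
theorem ivk_C_eq (hP : P.Ok) (k : ℕ) (i j : Fin m) (ω : Ω) :
    P.C k i j ω = P.E k (fun ω' => P.R k i ω' * P.R k j ω') ω := by
  have hyi := ivk_y_bd hP i
  have hyj := ivk_y_bd hP j
  have hXi := ivk_X_bd hP k i
  have hXj := ivk_X_bd hP k j
  have e : (fun ω' => P.R k i ω' * P.R k j ω')
      = fun ω' => ((P.y i ω' * P.y j ω' - P.X k j ω' * P.y i ω') - P.X k i ω' * P.y j ω')
          + P.X k i ω' * P.X k j ω' := by
    funext ω'; unfold L8P.R; ring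
  rw [e, ivk_E_add hP (((hyi.mul hyj).sub (hXj.mul hyi)).sub (hXi.mul hyj)) (hXi.mul hXj),
    ivk_E_sub hP ((hyi.mul hyj).sub (hXj.mul hyi)) (hXi.mul hyj),
    ivk_E_sub hP (hyi.mul hyj) (hXj.mul hyi),
    ivk_pull hP k (ivk_X_measF hP le_rfl j), ivk_pull hP k (ivk_X_measF hP le_rfl i),
    ivk_pull hP k (ivk_X_measF hP le_rfl i), ivk_E_X hP le_rfl]
  have e1 : P.E k (P.y i) ω = P.X k i ω := rfl
  have e2 : P.E k (P.y j) ω = P.X k j ω := rfl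
  rw [e1, e2]
  unfold L8P.C
  ring

/-- `C_k` = sum of the future increment covariances -/
theorem ivk_C_eq_sum (hP : P.Ok) (k : ℕ) (i j : Fin m) (ω : Ω) :
    P.C k i j ω = ∑ l ∈ Ico k (P.n + 1), ivkG P k l i j ω := by
  rw [ivk_C_eq hP, ← ivk_E_sum_sum hP k (P.n + 1) le_rfl]
  congr 1; funext ω'
  rw [ivk_R_eq_sum hP, ivk_R_eq_sum hP]

/-- `H_k` = mass weighted sum of the future increment covariances -/
theorem ivk_H_eq_sum (hP : P.Ok) (k : ℕ) (i j : Fin m) (ω : Ω) :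
    P.H k i j ω = ∑ l ∈ Ico k (P.n + 1), P.v l * ivkG P k l i j ω := by
  unfold L8P.H
  rw [ivk_E_sum hP _ fun l _ => ((ivk_dX_bd hP l i).mul (ivk_dX_bd hP l j)).const_mul _]
  refine Finset.sum_congr rfl fun l _ => ?_
  rw [ivk_E_const_mul]; rfl

theorem ivk_C_symm (hP : P.Ok) (k : ℕ) (i j : Fin m) (ω : Ω) : P.C k i j ω = P.C k j i ω := by
  rw [ivk_C_eq_sum hP, ivk_C_eq_sum hP]
  exact Finset.sum_congr rfl fun l _ => ivk_G_symm k l i j ω

theorem ivk_H_symm (hP : P.Ok) (k : ℕ) (i j : Fin m) (ω : Ω) : P.H k i j ω = P.H k j i ω := by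
  rw [ivk_H_eq_sum hP, ivk_H_eq_sum hP]
  exact Finset.sum_congr rfl fun l _ => by rw [ivk_G_symm k l i j ω]

/-- pairing of an increment covariance with a table -/
theorem ivk_G_pair (hP : P.Ok) (k l : ℕ) (M : Fin m → Fin m → ℝ) (ω : Ω) :
    ∑ i, ∑ j, ivkG P k l i j ω * M i j
      = P.E k (fun ω' => ∑ i, ∑ j, P.dX l i ω' * M i j * P.dX l j ω') ω := by
  rw [ivk_E_sum hP _ fun i _ => IvBd.sum _ fun j _ =>
    ((ivk_dX_bd hP l i).mul_const _).mul (ivk_dX_bd hP l j)]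
  refine Finset.sum_congr rfl fun i _ => ?_
  rw [ivk_E_sum hP _ fun j _ => ((ivk_dX_bd hP l i).mul_const _).mul (ivk_dX_bd hP l j)]
  refine Finset.sum_congr rfl fun j _ => ?_
  unfold ivkG
  rw [← ivk_E_mul_const]
  congr 1; funext ω'; ring

theorem ivk_G_pair_nonneg (hP : P.Ok) (k l : ℕ) {M : Fin m → Fin m → ℝ} (hM : IvPsd M) (ω : Ω) :
    0 ≤ ∑ i, ∑ j, ivkG P k l i j ω * M i j := by
  rw [ivk_G_pair hP]
  exact ivk_E_nonneg (fun ω' => hM fun i => P.dX l i ω') k ω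

/-- quadratic form of an increment covariance -/
theorem ivk_G_quad (hP : P.Ok) (k l : ℕ) (u : Fin m → ℝ) (ω : Ω) :
    ∑ i, ∑ j, u i * ivkG P k l i j ω * u j = P.E k (fun ω' => (∑ i, u i * P.dX l i ω') ^ 2) ω := by
  have h := ivk_G_pair hP k l (fun i j => u i * u j) ω
  have e1 : ∑ i, ∑ j, u i * ivkG P k l i j ω * u j = ∑ i, ∑ j, ivkG P k l i j ω * (u i * u j) :=
    Finset.sum_congr rfl fun i _ => Finset.sum_congr rfl fun j _ => by ring
  rw [e1, h]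
  congr 1; funext ω'
  rw [sq, Finset.sum_mul_sum]
  exact Finset.sum_congr rfl fun i _ => Finset.sum_congr rfl fun j _ => by ring

theorem ivk_G_psd (hP : P.Ok) (k l : ℕ) (ω : Ω) : IvPsd fun i j => ivkG P k l i j ω := by
  intro u
  rw [ivk_G_quad hP]
  exact ivk_E_nonneg (fun _ => sq_nonneg _) k ω

theorem IvPsd.add {M N : Fin m → Fin m → ℝ} (hM : IvPsd M) (hN : IvPsd N) :
    IvPsd fun i j => M i j + N i j := by
  intro u
  have e : ∑ i, ∑ j, u i * (M i j + N i j) * u j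
      = (∑ i, ∑ j, u i * M i j * u j) + ∑ i, ∑ j, u i * N i j * u j := by
    rw [← Finset.sum_add_distrib]
    refine Finset.sum_congr rfl fun i _ => ?_
    rw [← Finset.sum_add_distrib]
    exact Finset.sum_congr rfl fun j _ => by ring
  rw [e]
  exact add_nonneg (hM u) (hN u)

theorem IvPsd.smul {M : Fin m → Fin m → ℝ} (hM : IvPsd M) {c : ℝ} (hc : 0 ≤ c) :
    IvPsd fun i j => c * M i j := by
  intro u
  have e : ∑ i, ∑ j, u i * (c * M i j) * u j = c * ∑ i, ∑ j, u i * M i j * u j := by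
    rw [Finset.mul_sum]
    refine Finset.sum_congr rfl fun i _ => ?_
    rw [Finset.mul_sum]
    exact Finset.sum_congr rfl fun j _ => by ring
  rw [e]
  exact mul_nonneg hc (hM u)

theorem IvPsd.sum {ι : Type} (s : Finset ι) {M : ι → Fin m → Fin m → ℝ} (hM : ∀ l ∈ s, IvPsd (M l)) :
    IvPsd fun i j => ∑ l ∈ s, M l i j := by
  classical
  induction s using Finset.induction_on with
  | empty => intro u; simp
  | insert a s ha ih =>
    simp only [Finset.sum_insert ha]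
    exact (hM a (Finset.mem_insert_self a s)).add (ih fun l hl => hM l (Finset.mem_insert_of_mem hl))

/-- nonnegative combinations of the increment covariances are positive semidefinite -/
theorem ivk_comb_psd (hP : P.Ok) (k : ℕ) (s : Finset ℕ) (c : ℕ → ℝ) (hc : ∀ l ∈ s, 0 ≤ c l) (ω : Ω) :
    IvPsd fun i j => ∑ l ∈ s, c l * ivkG P k l i j ω :=
  IvPsd.sum s fun l hl => (ivk_G_psd hP k l ω).smul (hc l hl)

/-- pairing of a nonnegative combination with a positive semidefinite table -/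
theorem ivk_comb_pair_nonneg (hP : P.Ok) (k : ℕ) (s : Finset ℕ) (c : ℕ → ℝ) (hc : ∀ l ∈ s, 0 ≤ c l)
    {M : Fin m → Fin m → ℝ} (hM : IvPsd M) (ω : Ω) :
    0 ≤ ∑ i, ∑ j, (∑ l ∈ s, c l * ivkG P k l i j ω) * M i j := by
  have e : ∑ i, ∑ j, (∑ l ∈ s, c l * ivkG P k l i j ω) * M i j
      = ∑ l ∈ s, c l * ∑ i, ∑ j, ivkG P k l i j ω * M i j := by
    calc ∑ i, ∑ j, (∑ l ∈ s, c l * ivkG P k l i j ω) * M i j
        = ∑ i, ∑ j, ∑ l ∈ s, c l * (ivkG P k l i j ω * M i j) := by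
          refine Finset.sum_congr rfl fun i _ => Finset.sum_congr rfl fun j _ => ?_
          rw [Finset.sum_mul]; exact Finset.sum_congr rfl fun l _ => by ring
      _ = ∑ i, ∑ l ∈ s, ∑ j, c l * (ivkG P k l i j ω * M i j) :=
          Finset.sum_congr rfl fun i _ => Finset.sum_comm
      _ = ∑ l ∈ s, ∑ i, ∑ j, c l * (ivkG P k l i j ω * M i j) := Finset.sum_comm
      _ = _ := by
          refine Finset.sum_congr rfl fun l _ => ?_
          rw [Finset.mul_sum]; exact Finset.sum_congr rfl fun i _ => by rw [Finset.mul_sum]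
  rw [e]
  exact Finset.sum_nonneg fun l hl => mul_nonneg (hc l hl) (ivk_G_pair_nonneg hP k l hM ω)

/-! ### `v C ≤ H ≤ a C` and the trace inequalities -/

theorem ivk_C_psd (hP : P.Ok) (k : ℕ) (ω : Ω) : IvPsd fun i j => P.C k i j ω := by
  have e : (fun i j => P.C k i j ω) = fun i j => ∑ l ∈ Ico k (P.n + 1), 1 * ivkG P k l i j ω := by
    funext i j; rw [ivk_C_eq_sum hP]; simp
  rw [e]
  exact ivk_comb_psd hP k _ _ (fun _ _ => zero_le_one) ω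

theorem ivk_H_psd (hP : P.Ok) (k : ℕ) (ω : Ω) : IvPsd fun i j => P.H k i j ω := by
  have e : (fun i j => P.H k i j ω) = fun i j => ∑ l ∈ Ico k (P.n + 1), P.v l * ivkG P k l i j ω := by
    funext i j; rw [ivk_H_eq_sum hP]
  rw [e]
  exact ivk_comb_psd hP k _ _ (fun l _ => hP.v_nonneg l) ω

theorem ivk_v_le_a (hP : P.Ok) (l : ℕ) : P.v l ≤ P.a := by
  rw [← hP.v_term (max l P.n) (le_max_right _ _)]
  exact hP.v_mono (le_max_left _ _)

/-- `H_k - v_k C_k ⪰ 0` -/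
theorem ivk_HvC_psd (hP : P.Ok) (k : ℕ) (ω : Ω) : IvPsd fun i j => P.H k i j ω - P.v k * P.C k i j ω := by
  have e : (fun i j => P.H k i j ω - P.v k * P.C k i j ω)
      = fun i j => ∑ l ∈ Ico k (P.n + 1), (P.v l - P.v k) * ivkG P k l i j ω := by
    funext i j
    rw [ivk_H_eq_sum hP, ivk_C_eq_sum hP, Finset.mul_sum, ← Finset.sum_sub_distrib]
    exact Finset.sum_congr rfl fun l _ => by ring
  rw [e]
  exact ivk_comb_psd hP k _ _ (fun l hl => sub_nonneg.2 (hP.v_mono (Finset.mem_Ico.1 hl).1)) ω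

/-- `a C_k - H_k ⪰ 0` -/
theorem ivk_aCH_psd (hP : P.Ok) (k : ℕ) (ω : Ω) : IvPsd fun i j => P.a * P.C k i j ω - P.H k i j ω := by
  have e : (fun i j => P.a * P.C k i j ω - P.H k i j ω)
      = fun i j => ∑ l ∈ Ico k (P.n + 1), (P.a - P.v l) * ivkG P k l i j ω := by
    funext i j
    rw [ivk_H_eq_sum hP, ivk_C_eq_sum hP, Finset.mul_sum, ← Finset.sum_sub_distrib]
    exact Finset.sum_congr rfl fun l _ => by ring
  rw [e]
  exact ivk_comb_psd hP k _ _ (fun l _ => sub_nonneg.2 (ivk_v_le_a hP l)) ω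

/-- pairing of `C_k` with a positive semidefinite table -/
theorem ivk_C_pair_nonneg (hP : P.Ok) (k : ℕ) {M : Fin m → Fin m → ℝ} (hM : IvPsd M) (ω : Ω) :
    0 ≤ ∑ i, ∑ j, P.C k i j ω * M i j := by
  have h := ivk_comb_pair_nonneg hP k (Ico k (P.n + 1)) (fun _ => 1) (fun _ _ => zero_le_one) hM ω
  simp only [one_mul] at h
  simpa only [ivk_C_eq_sum hP] using h

/-- pairing of `H_k` with a positive semidefinite table -/
theorem ivk_H_pair_nonneg (hP : P.Ok) (k : ℕ) {M : Fin m → Fin m → ℝ} (hM : IvPsd M) (ω : Ω) :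
    0 ≤ ∑ i, ∑ j, P.H k i j ω * M i j := by
  have h := ivk_comb_pair_nonneg hP k (Ico k (P.n + 1)) P.v (fun l _ => hP.v_nonneg l) hM ω
  simpa only [ivk_H_eq_sum hP] using h

/-- `v tr C² ≤ tr C H` -/
theorem ivk_trC2_le (hP : P.Ok) (k : ℕ) (ω : Ω) : P.v k * P.trC2 k ω ≤ P.trCH k ω := by
  have h := ivk_C_pair_nonneg hP k (ivk_HvC_psd hP k ω) ω
  have e : ∑ i, ∑ j, P.C k i j ω * (P.H k i j ω - P.v k * P.C k i j ω)
      = P.trCH k ω - P.v k * P.trC2 k ω := by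
    unfold L8P.trCH L8P.trC2
    rw [Finset.mul_sum, ← Finset.sum_sub_distrib]
    refine Finset.sum_congr rfl fun i _ => ?_
    rw [Finset.mul_sum, ← Finset.sum_sub_distrib]
    exact Finset.sum_congr rfl fun j _ => by ring
  rw [e] at h
  linarith

/-- `v tr C H ≤ tr H²` -/
theorem ivk_trCH_le (hP : P.Ok) (k : ℕ) (ω : Ω) : P.v k * P.trCH k ω ≤ P.trH2 k ω := by
  have h := ivk_H_pair_nonneg hP k (ivk_HvC_psd hP k ω) ω
  have e : ∑ i, ∑ j, P.H k i j ω * (P.H k i j ω - P.v k * P.C k i j ω)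
      = P.trH2 k ω - P.v k * P.trCH k ω := by
    unfold L8P.trCH L8P.trH2
    rw [Finset.mul_sum, ← Finset.sum_sub_distrib]
    refine Finset.sum_congr rfl fun i _ => ?_
    rw [Finset.mul_sum, ← Finset.sum_sub_distrib]
    exact Finset.sum_congr rfl fun j _ => by ring
  rw [e] at h
  linarith

/-- `tr C H ≤ a tr C²` -/
theorem ivk_trCH_le_a (hP : P.Ok) (k : ℕ) (ω : Ω) : P.trCH k ω ≤ P.a * P.trC2 k ω := by
  have h := ivk_C_pair_nonneg hP k (ivk_aCH_psd hP k ω) ω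
  have e : ∑ i, ∑ j, P.C k i j ω * (P.a * P.C k i j ω - P.H k i j ω)
      = P.a * P.trC2 k ω - P.trCH k ω := by
    unfold L8P.trCH L8P.trC2
    rw [Finset.mul_sum, ← Finset.sum_sub_distrib]
    refine Finset.sum_congr rfl fun i _ => ?_
    rw [Finset.mul_sum, ← Finset.sum_sub_distrib]
    exact Finset.sum_congr rfl fun j _ => by ring
  rw [e] at h
  linarith

/-- `tr H² ≤ a tr C H` -/
theorem ivk_trH2_le_a (hP : P.Ok) (k : ℕ) (ω : Ω) : P.trH2 k ω ≤ P.a * P.trCH k ω := by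
  have h := ivk_H_pair_nonneg hP k (ivk_aCH_psd hP k ω) ω
  have e : ∑ i, ∑ j, P.H k i j ω * (P.a * P.C k i j ω - P.H k i j ω)
      = P.a * P.trCH k ω - P.trH2 k ω := by
    unfold L8P.trCH L8P.trH2
    rw [Finset.mul_sum, ← Finset.sum_sub_distrib]
    refine Finset.sum_congr rfl fun i _ => ?_
    rw [Finset.mul_sum, ← Finset.sum_sub_distrib]
    exact Finset.sum_congr rfl fun j _ => by ring
  rw [e] at h
  linarith

/-! ### boundedness and measurability of the derived objects -/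

theorem ivk_C_bd (hP : P.Ok) (k : ℕ) (i j : Fin m) : IvBd (P.C k i j) :=
  (ivk_E_bd hP ((ivk_y_bd hP i).mul (ivk_y_bd hP j)) k).sub ((ivk_X_bd hP k i).mul (ivk_X_bd hP k j))

theorem ivk_C_measF (hP : P.Ok) (k : ℕ) (i j : Fin m) : Measurable[P.ℱ k] (P.C k i j) :=
  (ivk_E_measF hP ((ivk_y_bd hP i).mul (ivk_y_bd hP j)) k).sub
    ((ivk_X_measF hP le_rfl i).mul (ivk_X_measF hP le_rfl j))

theorem ivk_Hin_bd (hP : P.Ok) (k : ℕ) (i j : Fin m) :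
    IvBd (fun ω' => ∑ l ∈ Ico k (P.n + 1), P.v l * (P.dX l i ω' * P.dX l j ω')) :=
  IvBd.sum _ fun l _ => ((ivk_dX_bd hP l i).mul (ivk_dX_bd hP l j)).const_mul _

theorem ivk_H_bd (hP : P.Ok) (k : ℕ) (i j : Fin m) : IvBd (P.H k i j) := ivk_E_bd hP (ivk_Hin_bd hP k i j) k

theorem ivk_H_measF (hP : P.Ok) (k : ℕ) (i j : Fin m) : Measurable[P.ℱ k] (P.H k i j) :=
  ivk_E_measF hP (ivk_Hin_bd hP k i j) k

theorem ivk_L_bd (hP : P.Ok) (k : ℕ) : IvBd (P.L k) :=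
  (IvBd.sum _ fun i _ => (ivk_y_bd hP i).mul (ivk_X_bd hP k i)).sub ((ivk_nX_bd hP k).div_const 2)

theorem ivk_W_bd (hP : P.Ok) (k : ℕ) : IvBd (P.W k) :=
  IvBd.sum _ fun i _ => IvBd.sum _ fun j _ => ((ivk_R_bd hP k i).mul (ivk_H_bd hP k i j)).mul (ivk_R_bd hP k j)

theorem ivk_trH2_bd (hP : P.Ok) (k : ℕ) : IvBd (P.trH2 k) :=
  IvBd.sum _ fun i _ => IvBd.sum _ fun j _ => (ivk_H_bd hP k i j).pow 2

theorem ivk_trC2_bd (hP : P.Ok) (k : ℕ) : IvBd (P.trC2 k) :=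
  IvBd.sum _ fun i _ => IvBd.sum _ fun j _ => (ivk_C_bd hP k i j).pow 2

theorem ivk_trCH_bd (hP : P.Ok) (k : ℕ) : IvBd (P.trCH k) :=
  IvBd.sum _ fun i _ => IvBd.sum _ fun j _ => (ivk_C_bd hP k i j).mul (ivk_H_bd hP k i j)

theorem ivk_xCx_bd (hP : P.Ok) (k : ℕ) : IvBd (P.xCx k) :=
  IvBd.sum _ fun i _ => IvBd.sum _ fun j _ => ((ivk_X_bd hP k i).mul (ivk_C_bd hP k i j)).mul (ivk_X_bd hP k j)

theorem ivk_trC2_nonneg (k : ℕ) (ω : Ω) : 0 ≤ P.trC2 k ω :=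
  Finset.sum_nonneg fun _ _ => Finset.sum_nonneg fun _ _ => sq_nonneg _

theorem ivk_trH2_nonneg (k : ℕ) (ω : Ω) : 0 ≤ P.trH2 k ω :=
  Finset.sum_nonneg fun _ _ => Finset.sum_nonneg fun _ _ => sq_nonneg _

theorem ivk_W_nonneg (hP : P.Ok) (k : ℕ) (ω : Ω) : 0 ≤ P.W k ω := ivk_H_psd hP k ω fun i => P.R k i ω

theorem ivk_xCx_nonneg (hP : P.Ok) (k : ℕ) (ω : Ω) : 0 ≤ P.xCx k ω := ivk_C_psd hP k ω fun i => P.X k i ω

/-! ### `E W = E tr C H` and the source inequalities -/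

/-- `E_k W_k = tr C_k H_k` -/
theorem ivk_E_W (hP : P.Ok) (k : ℕ) (ω : Ω) : P.E k (P.W k) ω = P.trCH k ω := by
  unfold L8P.W L8P.trCH
  rw [ivk_E_sum hP _ fun i _ => IvBd.sum _ fun j _ =>
    ((ivk_R_bd hP k i).mul (ivk_H_bd hP k i j)).mul (ivk_R_bd hP k j)]
  refine Finset.sum_congr rfl fun i _ => ?_
  rw [ivk_E_sum hP _ fun j _ => ((ivk_R_bd hP k i).mul (ivk_H_bd hP k i j)).mul (ivk_R_bd hP k j)]
  refine Finset.sum_congr rfl fun j _ => ?_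
  have e : (fun ω' => P.R k i ω' * P.H k i j ω' * P.R k j ω')
      = fun ω' => P.H k i j ω' * (P.R k i ω' * P.R k j ω') := by funext ω'; ring
  rw [e, ivk_pull hP k (ivk_H_measF hP k i j), ← ivk_C_eq hP, mul_comm]

/-- `E W_k = E tr C_k H_k` -/
theorem ivk_int_W (hP : P.Ok) (k : ℕ) : ∫ ω, P.W k ω ∂P.μ = ∫ ω, P.trCH k ω ∂P.μ := by
  rw [← ivk_integral_E hP (ivk_W_bd hP k) k]
  exact integral_congr_ae (Filter.Eventually.of_forall fun ω => ivk_E_W hP k ω)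

/-- `v E W ≤ E tr H²` -/
theorem ivk_v_int_W_le (hP : P.Ok) (k : ℕ) : P.v k * ∫ ω, P.W k ω ∂P.μ ≤ ∫ ω, P.trH2 k ω ∂P.μ := by
  rw [ivk_int_W hP, ← integral_const_mul]
  exact integral_mono (ivk_intμ hP ((ivk_trCH_bd hP k).const_mul _)) (ivk_intμ hP (ivk_trH2_bd hP k))
    fun ω => ivk_trCH_le hP k ω

/-- `v E tr C² ≤ E W` -/
theorem ivk_v_int_trC2_le (hP : P.Ok) (k : ℕ) : P.v k * ∫ ω, P.trC2 k ω ∂P.μ ≤ ∫ ω, P.W k ω ∂P.μ := by
  rw [ivk_int_W hP, ← integral_const_mul]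
  exact integral_mono (ivk_intμ hP ((ivk_trC2_bd hP k).const_mul _)) (ivk_intμ hP (ivk_trCH_bd hP k))
    fun ω => ivk_trC2_le hP k ω

theorem ivk_int_W_nonneg (hP : P.Ok) (k : ℕ) : 0 ≤ ∫ ω, P.W k ω ∂P.μ := integral_nonneg (ivk_W_nonneg hP k)

/-! ### the mixed term -/

/-- `(Xᵀ C X)² ≤ |X|⁴ tr C²` -/
theorem ivk_xCx_sq_le (k : ℕ) (ω : Ω) : P.xCx k ω ^ 2 ≤ P.nX k ω ^ 2 * P.trC2 k ω := by
  have h := Finset.sum_mul_sq_le_sq_mul_sq (Finset.univ : Finset (Fin m × Fin m))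
    (fun p => P.X k p.1 ω * P.X k p.2 ω) (fun p => P.C k p.1 p.2 ω)
  have e1 : ∑ p : Fin m × Fin m, P.X k p.1 ω * P.X k p.2 ω * P.C k p.1 p.2 ω = P.xCx k ω := by
    rw [Fintype.sum_prod_type]
    exact Finset.sum_congr rfl fun i _ => Finset.sum_congr rfl fun j _ => by ring
  have e2 : ∑ p : Fin m × Fin m, (P.X k p.1 ω * P.X k p.2 ω) ^ 2 = P.nX k ω ^ 2 := by
    rw [Fintype.sum_prod_type]
    unfold L8P.nX
    rw [sq (∑ i, P.X k i ω ^ 2), Finset.sum_mul_sum]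
    exact Finset.sum_congr rfl fun i _ => Finset.sum_congr rfl fun j _ => by ring
  have e3 : ∑ p : Fin m × Fin m, P.C k p.1 p.2 ω ^ 2 = P.trC2 k ω := by
    rw [Fintype.sum_prod_type]; rfl
  rw [e1, e2, e3] at h
  exact h

/-- `(E Xᵀ C X)² ≤ E|X|⁴ E tr C²` -/
theorem ivk_int_xCx_sq_le (hP : P.Ok) (k : ℕ) :
    (∫ ω, P.xCx k ω ∂P.μ) ^ 2 ≤ (∫ ω, P.nX k ω ^ 2 ∂P.μ) * ∫ ω, P.trC2 k ω ∂P.μ :=
  ivk_cs' hP (ivk_xCx_bd hP k) ((ivk_nX_bd hP k).pow 2) (ivk_trC2_bd hP k) (fun _ => sq_nonneg _)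
    (ivk_trC2_nonneg k) (ivk_xCx_sq_le k)

/-! ### `S` -/

theorem ivk_S_nonneg (k : ℕ) : 0 ≤ P.S k := integral_nonneg (ivk_nX_nonneg k)

theorem ivk_S_le_one (hP : P.Ok) (k : ℕ) : P.S k ≤ 1 := by
  have := hP.prob
  have h := integral_mono (ivk_intμ hP (ivk_nX_bd hP k)) (ivk_intμ hP (IvBd.const 1)) (ivk_nX_le hP k)
  simpa [L8P.S] using h

/-- `E_k |X_l - X_k|² = E_k |X_l|² - |X_k|²` -/
theorem ivk_E_XX_sq (hP : P.Ok) {k l : ℕ} (hkl : k ≤ l) (ω : Ω) :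
    P.E k (fun ω' => ∑ i, P.XX k l i ω' ^ 2) ω = P.E k (P.nX l) ω - P.nX k ω := by
  unfold L8P.nX
  rw [ivk_E_sum hP _ fun i _ => (ivk_XX_bd hP k l i).pow 2, ivk_E_sum hP _ fun i _ => (ivk_X_bd hP l i).pow 2,
    ← Finset.sum_sub_distrib]
  refine Finset.sum_congr rfl fun i _ => ?_
  have hl := ivk_X_bd hP l i
  have hk := ivk_X_bd hP k i
  have e : (fun ω' => P.XX k l i ω' ^ 2)
      = fun ω' => (P.X l i ω' ^ 2 - P.X k i ω' * (2 * P.X l i ω')) + P.X k i ω' * P.X k i ω' := by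
    funext ω'; unfold L8P.XX; ring
  rw [e, ivk_E_add hP ((hl.pow 2).sub (hk.mul (hl.const_mul 2))) (hk.mul hk),
    ivk_E_sub hP (hl.pow 2) (hk.mul (hl.const_mul 2)), ivk_pull hP k (ivk_X_measF hP le_rfl i),
    ivk_pull hP k (ivk_X_measF hP le_rfl i), ivk_E_const_mul, ivk_E_X hP hkl, ivk_E_X hP le_rfl]
  ring

/-- `|X_k|² ≤ E_k |X_l|²` for `k ≤ l` -/
theorem ivk_nX_le_E (hP : P.Ok) {k l : ℕ} (hkl : k ≤ l) (ω : Ω) : P.nX k ω ≤ P.E k (P.nX l) ω := by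
  have h := ivk_E_XX_sq hP hkl ω
  have h0 : 0 ≤ P.E k (fun ω' => ∑ i, P.XX k l i ω' ^ 2) ω :=
    ivk_E_nonneg (fun _ => Finset.sum_nonneg fun _ _ => sq_nonneg _) k ω
  linarith

/-- `E |X_l - X_k|² = S_l - S_k` -/
theorem ivk_int_XX_sq (hP : P.Ok) {k l : ℕ} (hkl : k ≤ l) :
    ∫ ω, ∑ i, P.XX k l i ω ^ 2 ∂P.μ = P.S l - P.S k := by
  rw [← ivk_integral_E hP (IvBd.sum _ fun i _ => (ivk_XX_bd hP k l i).pow 2) k]
  simp only [ivk_E_XX_sq hP hkl]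
  rw [integral_sub (ivk_intμ hP (ivk_E_bd hP (ivk_nX_bd hP l) k)) (ivk_intμ hP (ivk_nX_bd hP k)),
    ivk_integral_E hP (ivk_nX_bd hP l)]
  rfl

theorem ivk_S_mono (hP : P.Ok) : Monotone P.S := by
  intro k l hkl
  have h := ivk_int_XX_sq hP hkl
  have h0 : 0 ≤ ∫ ω, ∑ i, P.XX k l i ω ^ 2 ∂P.μ :=
    integral_nonneg fun _ => Finset.sum_nonneg fun _ _ => sq_nonneg _
  linarith

theorem ivk_S_term (hP : P.Ok) {k : ℕ} (hk : P.n < k) : P.S k = 1 := by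
  have := hP.prob
  unfold L8P.S L8P.nX
  simp only [ivk_X_term hP hk, hP.y_sq]
  simp

/-! ### the `D²` identity -/

/-- `‖E_k y yᵀ‖² = |X|⁴ + 2 Xᵀ C X + tr C²` -/
theorem ivk_HS_eq (k : ℕ) (ω : Ω) :
    ∑ i, ∑ j, P.E k (fun ω' => P.y i ω' * P.y j ω') ω ^ 2
      = P.nX k ω ^ 2 + 2 * P.xCx k ω + P.trC2 k ω := by
  have e : ∀ i j, P.E k (fun ω' => P.y i ω' * P.y j ω') ω = P.C k i j ω + P.X k i ω * P.X k j ω := by
    intro i j; unfold L8P.C; ring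
  simp only [e]
  unfold L8P.nX L8P.xCx L8P.trC2
  rw [sq (∑ i, P.X k i ω ^ 2), Finset.sum_mul_sum, Finset.mul_sum, ← Finset.sum_add_distrib,
    ← Finset.sum_add_distrib]
  refine Finset.sum_congr rfl fun i _ => ?_
  rw [Finset.mul_sum, ← Finset.sum_add_distrib, ← Finset.sum_add_distrib]
  exact Finset.sum_congr rfl fun j _ => by ring

/-- variance of `|X_k|²` -/
noncomputable def ivkVar (P : L8P Ω m) (k : ℕ) : ℝ := ∫ ω, (P.nX k ω - P.S k) ^ 2 ∂P.μ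

theorem ivk_Var_eq (hP : P.Ok) (k : ℕ) : ivkVar P k = (∫ ω, P.nX k ω ^ 2 ∂P.μ) - P.S k ^ 2 := by
  have := hP.prob
  have hn := ivk_nX_bd hP k
  have e : (fun ω => (P.nX k ω - P.S k) ^ 2)
      = fun ω => (P.nX k ω ^ 2 - (2 * P.S k) * P.nX k ω) + P.S k ^ 2 := by funext ω; ring
  unfold ivkVar
  rw [e, integral_add (ivk_intμ hP ((hn.pow 2).sub (hn.const_mul _))) (ivk_intμ hP (IvBd.const _)),
    integral_sub (ivk_intμ hP (hn.pow 2)) (ivk_intμ hP (hn.const_mul _)), integral_const_mul]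
  have e2 : ∫ ω, P.nX k ω ∂P.μ = P.S k := rfl
  rw [e2]
  simp
  ring

/-- **the exact conditional covariance identity** `D² = Var |X|² + 2 E Xᵀ C X + E tr C²` -/
theorem ivk_D2_eq (hP : P.Ok) (k : ℕ) :
    P.D2 k = ivkVar P k + 2 * ∫ ω, P.xCx k ω ∂P.μ + ∫ ω, P.trC2 k ω ∂P.μ := by
  unfold L8P.D2 L8P.B
  simp only [ivk_HS_eq]
  rw [integral_add (ivk_intμ hP (((ivk_nX_bd hP k).pow 2).add ((ivk_xCx_bd hP k).const_mul 2)))
      (ivk_intμ hP (ivk_trC2_bd hP k)),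
    integral_add (ivk_intμ hP ((ivk_nX_bd hP k).pow 2)) (ivk_intμ hP ((ivk_xCx_bd hP k).const_mul 2)),
    integral_const_mul, ivk_Var_eq hP]
  ring

/-! ### Part C : `L`, brackets, quadratic forms with random anchors -/

theorem ivk_yX_bd (hP : P.Ok) (l : ℕ) : IvBd (fun ω' => ∑ i, P.y i ω' * P.X l i ω') :=
  IvBd.sum Finset.univ fun i _ => (ivk_y_bd hP i).mul (ivk_X_bd hP l i)

/-- `E_k (y · X_l) = E_k |X_l|²` for `k ≤ l` -/
theorem ivk_E_yX_fut (hP : P.Ok) {k l : ℕ} (hkl : k ≤ l) (ω : Ω) :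
    P.E k (fun ω' => ∑ i, P.y i ω' * P.X l i ω') ω = P.E k (P.nX l) ω := by
  rw [← ivk_tower hP (ivk_yX_bd hP l) hkl ω]
  congr 1; funext ω'
  rw [ivk_E_sum hP _ fun i _ => (ivk_y_bd hP i).mul (ivk_X_bd hP l i)]
  unfold L8P.nX
  refine Finset.sum_congr rfl fun i _ => ?_
  have e : (fun x => P.y i x * P.X l i x) = fun x => P.X l i x * P.y i x := by funext x; ring
  rw [e, ivk_pull hP l (ivk_X_measF hP le_rfl i)]
  have e1 : P.E l (P.y i) ω' = P.X l i ω' := rfl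
  rw [e1]; ring

/-- `2 E_k L_l = E_k |X_l|²` for `k ≤ l` -/
theorem ivk_E_L_fut (hP : P.Ok) {k l : ℕ} (hkl : k ≤ l) (ω : Ω) :
    2 * P.E k (P.L l) ω = P.E k (P.nX l) ω := by
  have h := ivk_E_sub hP (ivk_yX_bd hP l) ((ivk_nX_bd hP l).div_const 2) k ω
  have e : P.E k (P.L l) ω = P.E k (fun ω' => (∑ i, P.y i ω' * P.X l i ω') - P.nX l ω' / 2) ω := rfl
  rw [e, h, ivk_E_yX_fut hP hkl]
  have e2 : P.E k (fun ω' => P.nX l ω' / 2) ω = P.E k (P.nX l) ω / 2 := by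
    simp only [div_eq_mul_inv]; exact ivk_E_mul_const k _ _ ω
  rw [e2]; ring

/-- `2 E_k L_l = |X_k|² - |X_k - X_l|²` for `l ≤ k` -/
theorem ivk_E_L_past (hP : P.Ok) {k l : ℕ} (hlk : l ≤ k) (ω : Ω) :
    2 * P.E k (P.L l) ω = P.nX k ω - ∑ i, P.XX l k i ω ^ 2 := by
  have h := ivk_E_sub hP (ivk_yX_bd hP l) ((ivk_nX_bd hP l).div_const 2) k ω
  have e : P.E k (P.L l) ω = P.E k (fun ω' => (∑ i, P.y i ω' * P.X l i ω') - P.nX l ω' / 2) ω := rfl
  rw [e, h, ivk_E_sum hP _ fun i _ => (ivk_y_bd hP i).mul (ivk_X_bd hP l i)]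
  have e2 : P.E k (fun ω' => P.nX l ω' / 2) ω = P.nX l ω / 2 :=
    ivk_E_self hP k ((ivk_nX_measF hP hlk).div_const 2) ω
  have e3 : ∀ i, P.E k (fun x => P.y i x * P.X l i x) ω = P.X l i ω * P.X k i ω := by
    intro i
    have e : (fun x => P.y i x * P.X l i x) = fun x => P.X l i x * P.y i x := by funext x; ring
    rw [e, ivk_pull hP k (ivk_X_measF hP hlk i)]; rfl
  simp only [e3]
  rw [e2]
  unfold L8P.nX L8P.XX
  rw [mul_sub, Finset.mul_sum, ← Finset.sum_sub_distrib]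
  have : 2 * ((∑ i, P.X l i ω ^ 2) / 2) = ∑ i, P.X l i ω ^ 2 := by ring
  rw [this, ← Finset.sum_sub_distrib]
  exact Finset.sum_congr rfl fun i _ => by ring

/-- `2 E_k L_l ≤ |X_k|²` for `l ≤ k` -/
theorem ivk_E_L_past_le (hP : P.Ok) {k l : ℕ} (hlk : l ≤ k) (ω : Ω) : 2 * P.E k (P.L l) ω ≤ P.nX k ω := by
  rw [ivk_E_L_past hP hlk]
  have : 0 ≤ ∑ i, P.XX l k i ω ^ 2 := Finset.sum_nonneg fun _ _ => sq_nonneg _
  linarith

/-- `|X_k|² ≤ 2 E_k L_l` for `k ≤ l` -/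
theorem ivk_E_L_fut_ge (hP : P.Ok) {k l : ℕ} (hkl : k ≤ l) (ω : Ω) : P.nX k ω ≤ 2 * P.E k (P.L l) ω := by
  rw [ivk_E_L_fut hP hkl]; exact ivk_nX_le_E hP hkl ω

/-- `2 E L_k = S_k` -/
theorem ivk_two_int_L (hP : P.Ok) (k : ℕ) : 2 * ∫ ω, P.L k ω ∂P.μ = P.S k := by
  rw [← ivk_integral_E hP (ivk_L_bd hP k) k, ← integral_const_mul]
  simp only [ivk_E_L_fut hP (le_refl k)]
  rw [ivk_integral_E hP (ivk_nX_bd hP k)]; rfl

/-- quadratic form of `C_k` -/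
theorem ivk_C_quad (hP : P.Ok) (k : ℕ) (u : Fin m → ℝ) (ω : Ω) :
    ∑ i, ∑ j, u i * P.C k i j ω * u j = P.E k (fun ω' => (∑ i, u i * P.R k i ω') ^ 2) ω := by
  have e : (fun ω' => (∑ i, u i * P.R k i ω') ^ 2)
      = fun ω' => ∑ i, ∑ j, (u i * u j) * (P.R k i ω' * P.R k j ω') := by
    funext ω'
    rw [sq, Finset.sum_mul_sum]
    exact Finset.sum_congr rfl fun i _ => Finset.sum_congr rfl fun j _ => by ring
  rw [e, ivk_E_sum hP _ fun i _ => IvBd.sum _ fun j _ => ((ivk_R_bd hP k i).mul (ivk_R_bd hP k j)).const_mul _]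
  refine Finset.sum_congr rfl fun i _ => ?_
  rw [ivk_E_sum hP _ fun j _ => ((ivk_R_bd hP k i).mul (ivk_R_bd hP k j)).const_mul _]
  refine Finset.sum_congr rfl fun j _ => ?_
  rw [ivk_E_const_mul, ← ivk_C_eq hP]; ring

/-- `E_k |R_k|² = 1 - |X_k|²` -/
theorem ivk_E_R_sq (hP : P.Ok) (k : ℕ) (ω : Ω) :
    P.E k (fun ω' => ∑ i, P.R k i ω' ^ 2) ω = 1 - P.nX k ω := by
  have e : (fun ω' => ∑ i, P.R k i ω' ^ 2)
      = fun ω' => (1 - 2 * ∑ i, P.y i ω' * P.X k i ω') + P.nX k ω' := by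
    funext ω'
    rw [← hP.y_sq ω']
    unfold L8P.R L8P.nX
    rw [Finset.mul_sum, ← Finset.sum_sub_distrib, ← Finset.sum_add_distrib]
    exact Finset.sum_congr rfl fun i _ => by ring
  rw [e, ivk_E_add hP ((IvBd.const 1).sub ((ivk_yX_bd hP k).const_mul 2)) (ivk_nX_bd hP k),
    ivk_E_sub hP (IvBd.const 1) ((ivk_yX_bd hP k).const_mul 2), ivk_E_const hP, ivk_E_const_mul,
    ivk_E_yX_fut hP le_rfl, ivk_E_self hP k (ivk_nX_measF hP le_rfl)]
  ring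

/-- `uᵀ C_k u ≤ |u|²` -/
theorem ivk_C_quad_le (hP : P.Ok) (k : ℕ) (u : Fin m → ℝ) (ω : Ω) :
    ∑ i, ∑ j, u i * P.C k i j ω * u j ≤ ∑ i, u i ^ 2 := by
  rw [ivk_C_quad hP]
  have h1 : P.E k (fun ω' => (∑ i, u i * P.R k i ω') ^ 2) ω
      ≤ P.E k (fun ω' => (∑ i, u i ^ 2) * ∑ i, P.R k i ω' ^ 2) ω :=
    ivk_E_mono hP ((IvBd.sum Finset.univ fun i _ => (ivk_R_bd hP k i).const_mul (u i)).pow 2)
      ((IvBd.sum Finset.univ fun i _ => (ivk_R_bd hP k i).pow 2).const_mul _)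
      (fun ω' => Finset.sum_mul_sq_le_sq_mul_sq _ _ _) k ω
  rw [ivk_E_const_mul, ivk_E_R_sq hP] at h1
  have h2 := ivk_nX_nonneg (P := P) k ω
  have h3 : 0 ≤ ∑ i, u i ^ 2 := Finset.sum_nonneg fun _ _ => sq_nonneg _
  nlinarith

/-- freezing of anchors which depend on the prefix only -/
theorem ivk_freeze (hP : P.Ok) (k : ℕ) {A : Fin m → Ω → ℝ} (hA : ∀ i, Measurable[P.ℱ k] (A i))
    (F : (Fin m → ℝ) → Ω → ℝ) (ω : Ω) :
    P.E k (fun ω' => F (fun i => A i ω') ω') ω = P.E k (fun ω' => F (fun i => A i ω) ω') ω := by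
  unfold L8P.E
  refine integral_congr_ae ?_
  have h : ∀ᵐ ω' ∂(P.κ k ω), ∀ i, A i ω' = A i ω := ae_all_iff.2 fun i => ivk_ae_eq hP k (hA i) ω
  filter_upwards [h] with ω' h'
  have : (fun i => A i ω') = fun i => A i ω := funext h'
  rw [this]

/-- `E (A · R_k)² = E Aᵀ C_k A` for an anchor which depends on the prefix at `k` only -/
theorem ivk_int_anchor (hP : P.Ok) (k : ℕ) {A : Fin m → Ω → ℝ} (hA : ∀ i, Measurable[P.ℱ k] (A i))
    (hAb : ∀ i, IvBd (A i)) :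
    ∫ ω, (∑ i, A i ω * P.R k i ω) ^ 2 ∂P.μ = ∫ ω, ∑ i, ∑ j, A i ω * P.C k i j ω * A j ω ∂P.μ := by
  rw [← ivk_integral_E hP ((IvBd.sum Finset.univ fun i _ => (hAb i).mul (ivk_R_bd hP k i)).pow 2) k]
  refine integral_congr_ae (Filter.Eventually.of_forall fun ω => ?_)
  show P.E k (fun ω' => (∑ i, A i ω' * P.R k i ω') ^ 2) ω = _
  rw [ivk_freeze hP k hA (fun u ω' => (∑ i, u i * P.R k i ω') ^ 2) ω, ← ivk_C_quad hP]

/-- `E Xᵀ C X = E (X_k · R_k)²` -/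
theorem ivk_int_xCx (hP : P.Ok) (k : ℕ) :
    ∫ ω, P.xCx k ω ∂P.μ = ∫ ω, (∑ i, P.X k i ω * P.R k i ω) ^ 2 ∂P.μ :=
  (ivk_int_anchor hP k (fun i => ivk_X_measF hP le_rfl i) (fun i => ivk_X_bd hP k i)).symm

/-- raw bound: `E (A · R_k)² ≤ E |A|²` -/
theorem ivk_int_anchor_le (hP : P.Ok) (k : ℕ) {A : Fin m → Ω → ℝ} (hA : ∀ i, Measurable[P.ℱ k] (A i))
    (hAb : ∀ i, IvBd (A i)) :
    ∫ ω, (∑ i, A i ω * P.R k i ω) ^ 2 ∂P.μ ≤ ∫ ω, ∑ i, A i ω ^ 2 ∂P.μ := by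
  rw [ivk_int_anchor hP k hA hAb]
  exact integral_mono
    (ivk_intμ hP (IvBd.sum Finset.univ fun i _ => IvBd.sum Finset.univ fun j _ =>
      ((hAb i).mul (ivk_C_bd hP k i j)).mul (hAb j)))
    (ivk_intμ hP (IvBd.sum Finset.univ fun i _ => (hAb i).pow 2))
    fun ω => ivk_C_quad_le hP k (fun i => A i ω) ω

/-- **(A3) for `p = 2` with a random anchor** which depends on the prefix at the cut `k₁` only -/
theorem ivk_proj_anchor (hP : P.Ok) {c vmin hmin : ℝ} (hp : P.Proj 1 c vmin hmin) {k₁ k₂ : ℕ}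
    (h12 : k₁ < k₂) (h2 : k₂ ≤ P.n + 1) (hv : vmin ≤ P.v k₁) (hh : hmin ≤ P.hlen k₁ k₂)
    {A : Fin m → Ω → ℝ} (hA : ∀ i, Measurable[P.ℱ k₁] (A i)) (hAb : ∀ i, IvBd (A i)) :
    ∫ ω, (∑ i, A i ω * P.R k₂ i ω) ^ 2 ∂P.μ
      ≤ c / (P.v k₁ ^ 2 * m * P.hlen k₁ k₂) * ∫ ω, ∑ i, A i ω ^ 2 ∂P.μ := by
  rw [← ivk_integral_E hP ((IvBd.sum Finset.univ fun i _ => (hAb i).mul (ivk_R_bd hP k₂ i)).pow 2) k₁,
    ← integral_const_mul]
  refine integral_mono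
    (ivk_intμ hP (ivk_E_bd hP ((IvBd.sum Finset.univ fun i _ => (hAb i).mul (ivk_R_bd hP k₂ i)).pow 2) k₁))
    (ivk_intμ hP ((IvBd.sum Finset.univ fun i _ => (hAb i).pow 2).const_mul _)) fun ω => ?_
  show P.E k₁ (fun ω' => (∑ i, A i ω' * P.R k₂ i ω') ^ 2) ω ≤ _
  rw [ivk_freeze hP k₁ hA (fun u ω' => (∑ i, u i * P.R k₂ i ω') ^ 2) ω]
  have h := hp k₁ k₂ h12 h2 hv hh ω (fun i => A i ω)
  simp only [mul_one, pow_one] at h
  calc P.E k₁ (fun ω' => (∑ i, A i ω * P.R k₂ i ω') ^ 2) ω ≤ _ := h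
    _ = _ := by ring

/-! ### Part D : mass averaging (ABS2, pointwise form) on the grid -/

theorem ivk_dv_nonneg (hP : P.Ok) (l : ℕ) : 0 ≤ P.dv l := by
  unfold L8P.dv
  split_ifs with h
  · simpa using hP.v_nonneg l
  · exact sub_nonneg.2 (hP.v_mono (Nat.sub_le l 1))

/-- centred weighted mass average of `L` -/
noncomputable def ivkA (P : L8P Ω m) (w : ℕ → ℝ) (ω : Ω) : ℝ :=
  ∑ l ∈ range (P.n + 1), P.dv l * w l * (P.L l ω - ∫ ω', P.L l ω' ∂P.μ)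

theorem ivk_A_bd (hP : P.Ok) (w : ℕ → ℝ) : IvBd (ivkA P w) :=
  IvBd.sum _ fun l _ => ((ivk_L_bd hP l).sub (IvBd.const _)).const_mul _

/-- the pinned inequality for linear observables -/
theorem ivk_A_var (hP : P.Ok) {c0 : ℝ} (hpin : P.Pin 1 c0) (w : ℕ → ℝ) :
    ∫ ω, ivkA P w ω ^ 2 ∂P.μ ≤ c0 * ∑ l ∈ range (P.n + 1), P.dv l * w l ^ 2 * ∫ ω, P.W l ω ∂P.μ := by
  have h := hpin w (fun _ => Polynomial.X)
  simp only [Polynomial.eval_X, Polynomial.derivative_X, Polynomial.eval_one, one_pow, mul_one, pow_one] at h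
  have e : ∫ ω, ∑ l ∈ range (P.n + 1), P.dv l * w l ^ 2 * P.W l ω ∂P.μ
      = ∑ l ∈ range (P.n + 1), P.dv l * w l ^ 2 * ∫ ω, P.W l ω ∂P.μ := by
    rw [integral_finsetSum _ fun l _ => ivk_intμ hP ((ivk_W_bd hP l).const_mul _)]
    exact Finset.sum_congr rfl fun l _ => integral_const_mul _ _
  rw [e] at h
  exact h

/-- conditional Jensen -/
theorem ivk_A_cond (hP : P.Ok) (w : ℕ → ℝ) (k : ℕ) :
    ∫ ω, P.E k (ivkA P w) ω ^ 2 ∂P.μ ≤ ∫ ω, ivkA P w ω ^ 2 ∂P.μ := by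
  rw [← ivk_integral_E hP ((ivk_A_bd hP w).pow 2) k]
  exact integral_mono (ivk_intμ hP ((ivk_E_bd hP (ivk_A_bd hP w) k).pow 2))
    (ivk_intμ hP (ivk_E_bd hP ((ivk_A_bd hP w).pow 2) k)) fun ω => ivk_E_sq_le hP (ivk_A_bd hP w) k ω

theorem ivk_A_E (hP : P.Ok) (w : ℕ → ℝ) (k : ℕ) (ω : Ω) :
    2 * P.E k (ivkA P w) ω = ∑ l ∈ range (P.n + 1), P.dv l * w l * (2 * P.E k (P.L l) ω - P.S l) := by
  unfold ivkA
  rw [ivk_E_sum hP _ fun l _ => ((ivk_L_bd hP l).sub (IvBd.const _)).const_mul _, Finset.mul_sum]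
  refine Finset.sum_congr rfl fun l _ => ?_
  rw [ivk_E_const_mul, ivk_E_sub hP (ivk_L_bd hP l) (IvBd.const _), ivk_E_const hP, ← ivk_two_int_L hP l]
  ring

/-- **ABS2, pointwise form on the grid**: `wp` = weights of a future window, `wm` = weights of a past window (w.r.t. `dv`) -/
theorem ivk_slide (hP : P.Ok) {c0 : ℝ} (hpin : P.Pin 1 c0) (k : ℕ) (wp wm : ℕ → ℝ)
    (hwp : ∀ l, 0 ≤ wp l) (hwm : ∀ l, 0 ≤ wm l)
    (hsp : ∀ l ∈ range (P.n + 1), l < k → P.dv l * wp l = 0)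
    (hsm : ∀ l ∈ range (P.n + 1), k < l → P.dv l * wm l = 0)
    (h1p : ∑ l ∈ range (P.n + 1), P.dv l * wp l = 1)
    (h1m : ∑ l ∈ range (P.n + 1), P.dv l * wm l = 1) :
    ivkVar P k ≤ 8 * c0 * (∑ l ∈ range (P.n + 1), P.dv l * wp l ^ 2 * ∫ ω, P.W l ω ∂P.μ)
      + 8 * c0 * (∑ l ∈ range (P.n + 1), P.dv l * wm l ^ 2 * ∫ ω, P.W l ω ∂P.μ)
      + 2 * ((∑ l ∈ range (P.n + 1), P.dv l * wp l * P.S l) - P.S k) ^ 2
      + 2 * (P.S k - ∑ l ∈ range (P.n + 1), P.dv l * wm l * P.S l) ^ 2 := by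
  have := hP.prob
  set ap := ∑ l ∈ range (P.n + 1), P.dv l * wp l * P.S l with hap
  set am := ∑ l ∈ range (P.n + 1), P.dv l * wm l * P.S l with ham
  -- upper bracket
  have hup : ∀ ω, P.nX k ω - P.S k ≤ 2 * P.E k (ivkA P wp) ω + (ap - P.S k) := by
    intro ω
    rw [ivk_A_E hP]
    have h1 : ∑ l ∈ range (P.n + 1), P.dv l * wp l * (P.nX k ω - P.S l)
        ≤ ∑ l ∈ range (P.n + 1), P.dv l * wp l * (2 * P.E k (P.L l) ω - P.S l) := by
      refine Finset.sum_le_sum fun l hl => ?_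
      by_cases hlk : l < k
      · rw [hsp l hl hlk]; simp
      · have := ivk_E_L_fut_ge hP (not_lt.1 hlk) ω
        exact mul_le_mul_of_nonneg_left (by linarith) (mul_nonneg (ivk_dv_nonneg hP l) (hwp l))
    have h2 : ∑ l ∈ range (P.n + 1), P.dv l * wp l * (P.nX k ω - P.S l) = P.nX k ω - ap := by
      simp only [mul_sub]
      rw [Finset.sum_sub_distrib, ← Finset.sum_mul, h1p, one_mul]
    linarith
  -- lower bracket
  have hlo : ∀ ω, 2 * P.E k (ivkA P wm) ω - (P.S k - am) ≤ P.nX k ω - P.S k := by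
    intro ω
    rw [ivk_A_E hP]
    have h1 : ∑ l ∈ range (P.n + 1), P.dv l * wm l * (2 * P.E k (P.L l) ω - P.S l)
        ≤ ∑ l ∈ range (P.n + 1), P.dv l * wm l * (P.nX k ω - P.S l) := by
      refine Finset.sum_le_sum fun l hl => ?_
      by_cases hlk : k < l
      · rw [hsm l hl hlk]; simp
      · have := ivk_E_L_past_le hP (not_lt.1 hlk) ω
        exact mul_le_mul_of_nonneg_left (by linarith) (mul_nonneg (ivk_dv_nonneg hP l) (hwm l))
    have h2 : ∑ l ∈ range (P.n + 1), P.dv l * wm l * (P.nX k ω - P.S l) = P.nX k ω - am := by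
      simp only [mul_sub]
      rw [Finset.sum_sub_distrib, ← Finset.sum_mul, h1m, one_mul]
    linarith
  -- pointwise square
  have hsq : ∀ ω, (P.nX k ω - P.S k) ^ 2 ≤ (8 * P.E k (ivkA P wp) ω ^ 2 + 8 * P.E k (ivkA P wm) ω ^ 2)
      + (2 * (ap - P.S k) ^ 2 + 2 * (P.S k - am) ^ 2) := by
    intro ω
    have a1 := hup ω
    have a2 := hlo ω
    set T := P.nX k ω - P.S k
    set U := P.E k (ivkA P wp) ω
    set V := P.E k (ivkA P wm) ω
    set dp := ap - P.S k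
    set dm := P.S k - am
    rcases le_total 0 T with hT | hT
    · have : T ^ 2 ≤ (2 * U + dp) ^ 2 := by nlinarith
      nlinarith [sq_nonneg (2 * U - dp), sq_nonneg V, sq_nonneg dm]
    · have : T ^ 2 ≤ (2 * V - dm) ^ 2 := by nlinarith
      nlinarith [sq_nonneg (2 * V + dm), sq_nonneg U, sq_nonneg dp]
  have bU := (ivk_E_bd hP (ivk_A_bd hP wp) k).pow 2
  have bV := (ivk_E_bd hP (ivk_A_bd hP wm) k).pow 2
  have hint := integral_mono (ivk_intμ hP (((ivk_nX_bd hP k).sub (IvBd.const (P.S k))).pow 2))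
    (ivk_intμ hP (((bU.const_mul 8).add (bV.const_mul 8)).add
      (IvBd.const (2 * (ap - P.S k) ^ 2 + 2 * (P.S k - am) ^ 2)))) hsq
  rw [integral_add (ivk_intμ hP ((bU.const_mul 8).add (bV.const_mul 8))) (ivk_intμ hP (IvBd.const _)),
    integral_add (ivk_intμ hP (bU.const_mul 8)) (ivk_intμ hP (bV.const_mul 8)),
    integral_const_mul, integral_const_mul] at hint
  simp only [integral_const, probReal_univ, smul_eq_mul, one_mul] at hint
  have v1 := (ivk_A_cond hP wp k).trans (ivk_A_var hP hpin wp)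
  have v2 := (ivk_A_cond hP wm k).trans (ivk_A_var hP hpin wm)
  unfold ivkVar
  linarith

/-! ### Part E : backward telescoping of the mixed term (ABS4) on the grid -/

theorem ivk_sq_three (N : ℕ) (a e : ℝ) (b : ℕ → ℝ) :
    (a + ∑ i ∈ range N, b i + e) ^ 2 ≤ ((N : ℝ) + 2) * (a ^ 2 + ∑ i ∈ range N, b i ^ 2 + e ^ 2) := by
  set f : ℕ → ℝ := fun j => if j = 0 then a else if j ≤ N then b (j - 1) else e with hf
  have h := sq_sum_le_card_mul_sum_sq (s := range (N + 2)) (f := f)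
  have e1 : ∀ g : ℝ → ℝ, ∑ j ∈ range (N + 2), g (f j) = g a + ∑ i ∈ range N, g (b i) + g e := by
    intro g
    rw [Finset.sum_range_succ, Finset.sum_range_succ']
    have h0 : f 0 = a := by simp [hf]
    have h1 : f (N + 1) = e := by simp [hf]
    have h2 : ∀ i ∈ range N, g (f (i + 1)) = g (b i) := by
      intro i hi
      have : i + 1 ≤ N := Finset.mem_range.1 hi
      simp [hf, this]
    rw [h0, h1, Finset.sum_congr rfl h2]
    ring
  have e2 := e1 id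
  have e3 := e1 (fun x => x ^ 2)
  simp only [id] at e2
  rw [e2, e3] at h
  simpa using h

/-- **ABS4 on the grid**: cuts `c 0 ≤ .. ≤ c N ≤ k`; `q j` = squared projection coefficient of the gap `[c j, k]` -/
theorem ivk_chain (hP : P.Ok) (k N : ℕ) (c : ℕ → ℕ) (hc : ∀ i < N, c i ≤ c (i + 1)) (hck : c N ≤ k) (q : ℕ → ℝ)
    (hq : ∀ j ≤ N, ∀ A : Fin m → Ω → ℝ, (∀ i, Measurable[P.ℱ (c j)] (A i)) → (∀ i, IvBd (A i)) →
      ∫ ω, (∑ i, A i ω * P.R k i ω) ^ 2 ∂P.μ ≤ q j * ∫ ω, ∑ i, A i ω ^ 2 ∂P.μ) :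
    ∫ ω, P.xCx k ω ∂P.μ ≤ ((N : ℝ) + 2) * (q 0 * P.S (c 0)
      + ∑ i ∈ range N, q (i + 1) * (P.S (c (i + 1)) - P.S (c i)) + (P.S k - P.S (c N))) := by
  rw [ivk_int_xCx hP]
  -- the three kinds of terms
  set ta : Ω → ℝ := fun ω => ∑ i, P.X (c 0) i ω * P.R k i ω with hta
  set tb : ℕ → Ω → ℝ := fun j ω => ∑ i, P.XX (c j) (c (j + 1)) i ω * P.R k i ω with htb
  set te : Ω → ℝ := fun ω => ∑ i, P.XX (c N) k i ω * P.R k i ω with hte
  have bta : IvBd ta := IvBd.sum Finset.univ fun i _ => (ivk_X_bd hP _ i).mul (ivk_R_bd hP k i)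
  have btb : ∀ j, IvBd (tb j) := fun j => IvBd.sum Finset.univ fun i _ => (ivk_XX_bd hP _ _ i).mul (ivk_R_bd hP k i)
  have bte : IvBd te := IvBd.sum Finset.univ fun i _ => (ivk_XX_bd hP _ _ i).mul (ivk_R_bd hP k i)
  have hdec : ∀ ω, ∑ i, P.X k i ω * P.R k i ω = ta ω + ∑ j ∈ range N, tb j ω + te ω := by
    intro ω
    simp only [hta, htb, hte]
    rw [Finset.sum_comm, ← Finset.sum_add_distrib, ← Finset.sum_add_distrib]
    refine Finset.sum_congr rfl fun i _ => ?_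
    rw [← Finset.sum_mul, ← add_mul, ← add_mul]
    congr 1
    unfold L8P.XX
    rw [Finset.sum_range_sub (fun j => P.X (c j) i ω)]
    ring
  have hpt : ∀ ω, (∑ i, P.X k i ω * P.R k i ω) ^ 2
      ≤ ((N : ℝ) + 2) * (ta ω ^ 2 + ∑ j ∈ range N, tb j ω ^ 2 + te ω ^ 2) := by
    intro ω; rw [hdec]; exact ivk_sq_three N _ _ _
  have bsum : IvBd (fun ω => ∑ j ∈ range N, tb j ω ^ 2) := IvBd.sum _ fun j _ => (btb j).pow 2
  have hint := integral_mono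
    (ivk_intμ hP ((IvBd.sum Finset.univ fun i _ => (ivk_X_bd hP k i).mul (ivk_R_bd hP k i)).pow 2))
    (ivk_intμ hP ((((bta.pow 2).add bsum).add (bte.pow 2)).const_mul ((N : ℝ) + 2))) hpt
  rw [integral_const_mul, integral_add (ivk_intμ hP ((bta.pow 2).add bsum)) (ivk_intμ hP (bte.pow 2)),
    integral_add (ivk_intμ hP (bta.pow 2)) (ivk_intμ hP bsum),
    integral_finsetSum _ fun j _ => ivk_intμ hP ((btb j).pow 2)] at hint
  refine hint.trans (mul_le_mul_of_nonneg_left ?_ (by positivity))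
  -- monotonicity of the chain
  have hcm : ∀ i j, i ≤ j → j ≤ N → c i ≤ c j := by
    intro i j hij
    induction j, hij using Nat.le_induction with
    | base => intro _; exact le_rfl
    | succ j _ ih => intro hj; exact (ih (by omega)).trans (hc j (by omega))
  have h1 : ∫ ω, ta ω ^ 2 ∂P.μ ≤ q 0 * P.S (c 0) :=
    hq 0 (Nat.zero_le _) (fun i => P.X (c 0) i) (fun i => ivk_X_measF hP le_rfl i) (fun i => ivk_X_bd hP _ i)
  have h2 : ∑ j ∈ range N, ∫ ω, tb j ω ^ 2 ∂P.μ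
      ≤ ∑ i ∈ range N, q (i + 1) * (P.S (c (i + 1)) - P.S (c i)) := by
    refine Finset.sum_le_sum fun j hj => ?_
    have hj' := Finset.mem_range.1 hj
    have := hq (j + 1) hj' (fun i => P.XX (c j) (c (j + 1)) i)
      (fun i => ivk_XX_measF hP (hc j hj') le_rfl i) (fun i => ivk_XX_bd hP _ _ i)
    rwa [ivk_int_XX_sq hP (hc j hj')] at this
  have h3 : ∫ ω, te ω ^ 2 ∂P.μ ≤ P.S k - P.S (c N) := by
    have := ivk_int_anchor_le hP k (A := fun i => P.XX (c N) k i)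
      (fun i => ivk_XX_measF hP hck le_rfl i) (fun i => ivk_XX_bd hP _ _ i)
    rwa [ivk_int_XX_sq hP hck] at this
  linarith

end Claimed.Agent.R286
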