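import Claimed.Agent.R286.L08.Glue
import Claimed.Agent.R286.L08.TlLink
import Claimed.Agent.R286.L08.IvKit
import Claimed.Agent.R286.L08.SPC
import Claimed.Agent.R286.L08.TlSk

/-!
# Row 286 (S0533), folder L08, file TlTil : THE LEAF `l8g_til` = TRANSFER TO THE TILTED ACTIVE ENSEMBLE      (owner helper189; prefix `tlk_`, `Tlk`)

TEX[LL:par:statistics-tilt-transfer] (LL 08 l.889-915).      `l8g_til : L8gTil llBase T` (form in `L08/Glue.lean`): `Full` at a smaller loss `⟹ All` = `Full` + `Rnd true` on the stop, SAME envelope, SAME orders.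

ROUTE (no Hölder, no interpolation: TRUNCATION OF THE DENSITY).      `Pt = I.sp true`, `Pu = I.sp false`, `k0 = I.js + 1`.
 (1) `tlk_I_tr` [189: L08/TlSpi + (A4) + `ll04_stop_x`]: on the stop, for `N ≥ N0(ε_s, q_s, ε₁, K)`:   `TlkTr Pt Pu k0 (x^(-ε₁)) (x^K)`, i.e. for every LINKED pair `(ft, fu)` (L08/TlLink) with `0 ≤ fu ≤ G`:
        `∫ ft ∂Pt.μ ≤ x^(-ε₁) ∫ fu ∂Pu.μ + G x^K`      (same on the forks at the cuts `≥ k0`);      `K` is ARBITRARY: the error is below every target, because all targets are `≥` a fixed power of `x`.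
 (2) two generic lemmas: `tlk_mom1/2` (moments of order `2r`; also the squares (D10)), `tlk_sum1/2` (integrated first moments);
 (3) 14 FIELD LEAVES `tlk_f_*`: linkedness (calculus of TlLink), sup bound of the untilted observable (L08/IvKit), lower bound of the unit target by a power of `x`.      FORM: `∃ K0, ∀ K ≥ K0, TlkHyp .. K → field`.
 (4) `tlk_mono`: monotonicity of `Env, Num, Rnd false` in the loss;      (5) assembly `l8g_til` (compiled).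
-/

set_option autoImplicit false

namespace Claimed.Agent.R286

open MeasureTheory Set Filter Finset

noncomputable section

/-- the hypotheses of the field leaves at ONE instance.      `A0` = loss of the source, `A` = loss of the target, `M, δ` = loss and error of the transfer, `K` = the exponent of the error -/
structure TlkHyp (I : L8In) (e : ℕ → ℝ) (A0 A Y Zh vt vp cE M δ : ℝ) (pm jm K : ℕ) : Prop where
  ok : I.Ok
  fok : I.F.Ok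
  fine : I.Fine 1
  tr : TlkTr (I.sp true) (I.sp false) (I.js + 1) M δ
  full : I.Full e A0 Y Zh vt vp cE pm jm
  M1 : 1 ≤ M
  hA : M * (|A0| + 1) ≤ A
  A0x : |A0| ≤ I.x⁻¹
  Yx : I.x ≤ Y
  Y1 : Y ≤ 1
  Zh1 : 1 ≤ Zh
  cE0 : 0 < cE
  Kx : (K : ℝ) * I.x ≤ 1
  δ0 : 0 ≤ δ
  δK : δ ≤ I.x ^ K

theorem TlkHyp.mono {I : L8In} {e : ℕ → ℝ} {A0 A Y Zh vt vp cE M δ : ℝ} {pm jm K K' : ℕ}
    (h : TlkHyp I e A0 A Y Zh vt vp cE M δ pm jm K) (hK : K' ≤ K) (hx1 : I.x ≤ 1) : TlkHyp I e A0 A Y Zh vt vp cE M δ pm jm K' :=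
  { h with
    Kx := le_trans (mul_le_mul_of_nonneg_right (by exact_mod_cast hK) I.x_nonneg) h.Kx
    δK := h.δK.trans (pow_le_pow_of_le_one I.x_nonneg hx1 hK) }

/-! ### (2) generic lemmas -/

section generic

variable {Ω : Type} [MeasurableSpace Ω] {m : ℕ} {Pt Pu : L8P Ω m} {k0 : ℕ} {M δ : ℝ}

theorem tlk_add_one_pow {t : ℝ} (ht : 0 ≤ t) {n : ℕ} (hn : 1 ≤ n) : t ^ n + 1 ≤ (t + 1) ^ n := by
  induction n, hn using Nat.le_induction with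
  | base => simp
  | succ n _ ih =>
    have h1 : 0 ≤ t ^ n := pow_nonneg ht n
    calc t ^ (n + 1) + 1 ≤ (t ^ n + 1) * (t + 1) := by rw [pow_succ]; nlinarith
      _ ≤ (t + 1) ^ n * (t + 1) := mul_le_mul_of_nonneg_right ih (by linarith)
      _ = (t + 1) ^ (n + 1) := (pow_succ _ _).symm

/-- arithmetic of the moment transfer -/
theorem tlk_mom_arith {M A0 A B E : ℝ} {r : ℕ} (hr : 1 ≤ r) (hM : 1 ≤ M) (hA : M * (|A0| + 1) ≤ A) (hB : 0 ≤ B) (hE : E ≤ B ^ (2 * r)) :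
    M * (A0 * B) ^ (2 * r) + E ≤ (A * B) ^ (2 * r) := by
  have h2r : 1 ≤ 2 * r := by omega
  have hB2 : 0 ≤ B ^ (2 * r) := pow_nonneg hB _
  have ha : 0 ≤ |A0| := abs_nonneg _
  have e1 : (A0 * B) ^ (2 * r) = |A0| ^ (2 * r) * B ^ (2 * r) := by
    rw [mul_pow, ← (even_two_mul r).pow_abs A0]
  have h1 : M * (|A0| ^ (2 * r) + 1) ≤ A ^ (2 * r) := by
    calc M * (|A0| ^ (2 * r) + 1) ≤ M ^ (2 * r) * (|A0| + 1) ^ (2 * r) :=
          mul_le_mul (le_self_pow₀ hM (by omega)) (tlk_add_one_pow ha h2r) (by positivity) (by positivity)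
      _ = (M * (|A0| + 1)) ^ (2 * r) := (mul_pow _ _ _).symm
      _ ≤ A ^ (2 * r) := pow_le_pow_left₀ (by positivity) hA _
  calc M * (A0 * B) ^ (2 * r) + E ≤ M * (|A0| ^ (2 * r) * B ^ (2 * r)) + M * B ^ (2 * r) := by
        rw [e1]
        have : B ^ (2 * r) ≤ M * B ^ (2 * r) := le_mul_of_one_le_left hB2 hM
        linarith
    _ = M * (|A0| ^ (2 * r) + 1) * B ^ (2 * r) := by ring
    _ ≤ A ^ (2 * r) * B ^ (2 * r) := mul_le_mul_of_nonneg_right h1 hB2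
    _ = (A * B) ^ (2 * r) := (mul_pow _ _ _).symm

/-- moments of order `2 r` on the single path -/
theorem tlk_mom1 (htr : TlkTr Pt Pu k0 M δ) {gt gu : Ω → ℝ} (hl : TlkLk Pt Pu k0 gt gu) {G0 A0 A B : ℝ} {r : ℕ} (hr : 1 ≤ r)
    (hb : ∀ ω, |gu ω| ≤ G0) (hsrc : ∫ ω, gu ω ^ (2 * r) ∂Pu.μ ≤ (A0 * B) ^ (2 * r)) (hM : 1 ≤ M) (hA : M * (|A0| + 1) ≤ A) (hB : 0 ≤ B)
    (herr : G0 ^ (2 * r) * δ ≤ B ^ (2 * r)) : ∫ ω, gt ω ^ (2 * r) ∂Pt.μ ≤ (A * B) ^ (2 * r) := by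
  have h1 := htr.one _ _ (G0 ^ (2 * r)) (hl.pow (2 * r)) (fun ω => (even_two_mul r).pow_nonneg _) (fun ω => by
    rw [← (even_two_mul r).pow_abs]; exact pow_le_pow_left₀ (abs_nonneg _) (hb ω) _)
  have h2 := mul_le_mul_of_nonneg_left hsrc (zero_le_one.trans hM)
  exact (h1.trans (by linarith)).trans (tlk_mom_arith hr hM hA hB herr)

/-- moments of order `2 r` on a fork -/
theorem tlk_mom2 (htr : TlkTr Pt Pu k0 M δ) {k : ℕ} (hk : k0 ≤ k) {gt gu : Ω × Ω → ℝ} (hl : TlkLk2 Pt Pu k0 gt gu) {G0 A0 A B : ℝ} {r : ℕ}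
    (hr : 1 ≤ r) (hb : ∀ ω, |gu ω| ≤ G0) (hsrc : ∫ ω, gu ω ^ (2 * r) ∂Pu.fork k ≤ (A0 * B) ^ (2 * r)) (hM : 1 ≤ M)
    (hA : M * (|A0| + 1) ≤ A) (hB : 0 ≤ B) (herr : G0 ^ (2 * r) * δ ≤ B ^ (2 * r)) : ∫ ω, gt ω ^ (2 * r) ∂Pt.fork k ≤ (A * B) ^ (2 * r) := by
  have h1 := htr.two k hk _ _ (G0 ^ (2 * r)) (hl.pow (2 * r)) (fun ω => (even_two_mul r).pow_nonneg _) (fun ω => by
    rw [← (even_two_mul r).pow_abs]; exact pow_le_pow_left₀ (abs_nonneg _) (hb ω) _)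
  have h2 := mul_le_mul_of_nonneg_left hsrc (zero_le_one.trans hM)
  exact (h1.trans (by linarith)).trans (tlk_mom_arith hr hM hA hB herr)

/-- integrated first moments: `s` = the cuts, `w` = the weights, `Et k`, `Eu k` = the two expectations at the cut `k`, `G` = the common sup bound, `T1` = the unit target -/
theorem tlk_sum (s : Finset ℕ) (w Et Eu : ℕ → ℝ) {G A0 A T1 : ℝ} (hw : ∀ k ∈ s, 0 ≤ w k) (hE : ∀ k ∈ s, Et k ≤ M * Eu k + G * δ)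
    (hsrc : ∑ k ∈ s, w k * Eu k ≤ A0 * T1) (hM : 1 ≤ M) (hA : M * (|A0| + 1) ≤ A) (hT : 0 ≤ T1) (herr : (∑ k ∈ s, w k) * (G * δ) ≤ T1) :
    ∑ k ∈ s, w k * Et k ≤ A * T1 := by
  have h1 : ∑ k ∈ s, w k * Et k ≤ M * (∑ k ∈ s, w k * Eu k) + (∑ k ∈ s, w k) * (G * δ) := by
    rw [Finset.mul_sum, Finset.sum_mul, ← Finset.sum_add_distrib]
    refine Finset.sum_le_sum fun k hk => ?_
    have := mul_le_mul_of_nonneg_left (hE k hk) (hw k hk)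
    linarith
  have h2 : M * (∑ k ∈ s, w k * Eu k) ≤ M * (|A0| * T1) :=
    mul_le_mul_of_nonneg_left (hsrc.trans (mul_le_mul_of_nonneg_right (le_abs_self _) hT)) (by linarith)
  have h3 : T1 ≤ M * T1 := le_mul_of_one_le_left hT hM
  calc ∑ k ∈ s, w k * Et k ≤ M * (|A0| * T1) + M * T1 := by linarith
    _ = M * (|A0| + 1) * T1 := by ring
    _ ≤ A * T1 := mul_le_mul_of_nonneg_right hA hT

end generic

/-! ### (1) the transfer at one instance      [189] -/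

/-- **the transfer on the stop**.      ROUTE: `TlkLink` (L08/TlSpi: law of (field at the cut `js + 1`, tail); the stages `≤ js` are neutral by `Fine.low`), `∫ R^n = exp (K(ns) - n K(s))` (`ll2t_R_norm`),
`K(ns) ≤ 1` on the stop (`ll04_stop_x` on the merged path without its empty stages), `tlk_tr`. -/
theorem tlk_I_tr (εs qs ε1 : ℝ) (K : ℕ) (hεs : 0 < εs) (hqs : 0 < qs) (hε1 : 0 < ε1) : ∃ N0 : ℕ, ∀ I : L8In, N0 ≤ I.p.N → I.Ok → I.F.Ok → I.Fine 1 →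
    I.s = qs * I.x ^ (1 + εs) → I.Stop (I.x ^ εs) → TlkTr (I.sp true) (I.sp false) (I.js + 1) (I.x ^ (-ε1)) (I.x ^ K) := by
  obtain ⟨N0, h⟩ := tlk_I_tr0 εs qs ε1 K hεs hqs hε1
  exact ⟨N0, fun I hN hOk _ hf hs hst => h I hN hOk hf hs hst⟩

/-! ### helpers of the moment fields (helper16) -/

theorem tlk_h_a_pos {I : L8In} (hOk : I.Ok) : 0 < I.a := by
  show 0 < I.p.a
  unfold LlPt.a
  split_ifs
  · norm_num
  · linarith [hOk.pt.ell1]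

theorem tlk_h_sp_ok {I : L8In} (hOk : I.Ok) (hf : I.Fine 1) : (I.sp false).Ok := by
  have hm : 1 ≤ I.m := by have := hOk.pt.N2; have := hOk.m_lo; omega
  exact l8i_ok I.m hm I.a (tlk_h_a_pos hOk) _ hf.adm.1

theorem tlk_h_v_nonneg {I : L8In} (hOk : I.Ok) (hf : I.Fine 1) (k : ℕ) : 0 ≤ I.v k :=
  (tlk_h_sp_ok hOk hf).v_nonneg k

theorem tlk_h_q_abs {I : L8In} (hOk : I.Ok) (hf : I.Fine 1) (k : ℕ) : |I.q k| ≤ 1 := by
  unfold L8In.q llQs llNuS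
  refine tcb_nu_abs_le (obt_base_ok 1 (tlk_h_a_pos hOk)) (l8i_adm hf.adm.2) _ _ _ fun σ => ?_
  unfold jtSp
  beta_reduce
  split_ifs <;> norm_num

theorem tlk_h_x_pos {I : L8In} (hOk : I.Ok) : 0 < I.x := by
  have : (0 : ℝ) < I.p.N := by have := hOk.pt.N2; exact_mod_cast (by omega : 0 < I.p.N)
  exact Real.rpow_pos_of_pos this _

section sup
variable {Ω : Type} [MeasurableSpace Ω] {m : ℕ} {P : L8P Ω m}

theorem tlk_h_cs (u w : Fin m → ℝ) (hu : ∑ i, u i ^ 2 ≤ 1) (hw : ∑ i, w i ^ 2 ≤ 1) : |∑ i, u i * w i| ≤ 1 := by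
  have h := Finset.sum_mul_sq_le_sq_mul_sq Finset.univ u w
  have h0 : 0 ≤ ∑ i, u i ^ 2 := Finset.sum_nonneg fun _ _ => sq_nonneg _
  have h1 : (∑ i, u i * w i) ^ 2 ≤ 1 := h.trans (by nlinarith [Finset.sum_nonneg fun (i : Fin m) (_ : i ∈ Finset.univ) => sq_nonneg (w i)])
  exact abs_le_one_iff_mul_self_le_one.2 (by nlinarith)

theorem tlk_h_nX_abs (hP : P.Ok) (k : ℕ) (ω : Ω) : |P.nX k ω| ≤ 1 := by
  rw [abs_of_nonneg (ivk_nX_nonneg k ω)]; exact ivk_nX_le hP k ω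

theorem tlk_h_L_abs (hP : P.Ok) (k : ℕ) (ω : Ω) : |P.L k ω| ≤ 3 / 2 := by
  unfold L8P.L
  have h1 := tlk_h_cs (fun i => P.y i ω) (fun i => P.X k i ω) (hP.y_sq ω).le (ivk_nX_le hP k ω)
  have h2 := tlk_h_nX_abs hP k ω
  have h3 := abs_sub (∑ i, P.y i ω * P.X k i ω) (P.nX k ω / 2)
  rw [abs_div, abs_of_pos (by norm_num : (0:ℝ) < 2)] at h3
  linarith

theorem tlk_h_QX_abs (hP : P.Ok) (k₁ k₂ : ℕ) (ω : Ω × Ω) : |P.QX k₁ k₂ ω| ≤ 1 :=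
  tlk_h_cs (fun i => P.X k₁ i ω.1) (fun i => P.X k₂ i ω.2) (ivk_nX_le hP k₁ ω.1) (ivk_nX_le hP k₂ ω.2)

end sup

/-- the error is below the `2 r`-th power of `x ^ d` -/
theorem tlk_h_err {x : ℝ} {K r c d : ℕ} (hx0 : 0 ≤ x) (hx1 : x ≤ 1) (hKx : (K : ℝ) * x ≤ 1) (hc : c ≤ K) (hK : (d + 1) * (2 * r) ≤ K) :
    (c : ℝ) ^ (2 * r) * x ^ K ≤ (x ^ d) ^ (2 * r) := by
  have h1 : (c : ℝ) * x ≤ 1 := (mul_le_mul_of_nonneg_right (by exact_mod_cast hc) hx0).trans hKx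
  have h2 : x ^ K ≤ x ^ ((d + 1) * (2 * r)) := pow_le_pow_of_le_one hx0 hx1 hK
  have e : x ^ ((d + 1) * (2 * r)) = x ^ (2 * r) * (x ^ d) ^ (2 * r) := by
    rw [← pow_mul, ← pow_add]; congr 1; ring
  calc (c : ℝ) ^ (2 * r) * x ^ K ≤ (c : ℝ) ^ (2 * r) * (x ^ (2 * r) * (x ^ d) ^ (2 * r)) := by
        rw [← e]; exact mul_le_mul_of_nonneg_left h2 (by positivity)
    _ = ((c : ℝ) * x) ^ (2 * r) * (x ^ d) ^ (2 * r) := by rw [mul_pow]; ring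
    _ ≤ 1 * (x ^ d) ^ (2 * r) := mul_le_mul_of_nonneg_right (pow_le_one₀ (by positivity) h1) (by positivity)
    _ = _ := one_mul _

section fld
variable {I : L8In} {e : ℕ → ℝ} {A0 A Y Zh vt vp cE M δ : ℝ} {pm jm K : ℕ}

theorem TlkHyp.x1 (h : TlkHyp I e A0 A Y Zh vt vp cE M δ pm jm K) : I.x ≤ 1 := h.Yx.trans h.Y1

/-- one moment field on the single path: sup bound `c`, unit target `B ≥ x ^ d` -/
theorem tlk_h_fld1 (h : TlkHyp I e A0 A Y Zh vt vp cE M δ pm jm K) {gt gu : SkOm I.m → ℝ}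
    (hl : TlkLk (I.sp true) (I.sp false) (I.js + 1) gt gu) {B : ℝ} {r c d : ℕ} (hr : 1 ≤ r) (hb : ∀ ω, |gu ω| ≤ c)
    (hsrc : I.mo false r gu ≤ (A0 * B) ^ (2 * r)) (hB : I.x ^ d ≤ B) (hc : c ≤ K) (hK : (d + 1) * (2 * r) ≤ K) :
    I.mo true r gt ≤ (A * B) ^ (2 * r) := by
  have hx0 := I.x_nonneg
  have hB0 : 0 ≤ B := (pow_nonneg hx0 d).trans hB
  refine tlk_mom1 h.tr hl hr hb hsrc h.M1 h.hA hB0 ?_
  calc (c : ℝ) ^ (2 * r) * δ ≤ (c : ℝ) ^ (2 * r) * I.x ^ K := mul_le_mul_of_nonneg_left h.δK (by positivity)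
    _ ≤ (I.x ^ d) ^ (2 * r) := tlk_h_err hx0 h.x1 h.Kx hc hK
    _ ≤ B ^ (2 * r) := pow_le_pow_left₀ (pow_nonneg hx0 d) hB _

/-- one moment field on a fork -/
theorem tlk_h_fld2 (h : TlkHyp I e A0 A Y Zh vt vp cE M δ pm jm K) {k : ℕ} (hk : I.js + 1 ≤ k) {gt gu : SkOm I.m × SkOm I.m → ℝ}
    (hl : TlkLk2 (I.sp true) (I.sp false) (I.js + 1) gt gu) {B : ℝ} {r c d : ℕ} (hr : 1 ≤ r) (hb : ∀ ω, |gu ω| ≤ c)
    (hsrc : I.moF false k r gu ≤ (A0 * B) ^ (2 * r)) (hB : I.x ^ d ≤ B) (hc : c ≤ K) (hK : (d + 1) * (2 * r) ≤ K) :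
    I.moF true k r gt ≤ (A * B) ^ (2 * r) := by
  have hx0 := I.x_nonneg
  have hB0 : 0 ≤ B := (pow_nonneg hx0 d).trans hB
  refine tlk_mom2 h.tr hk hl hr hb hsrc h.M1 h.hA hB0 ?_
  calc (c : ℝ) ^ (2 * r) * δ ≤ (c : ℝ) ^ (2 * r) * I.x ^ K := mul_le_mul_of_nonneg_left h.δK (by positivity)
    _ ≤ (I.x ^ d) ^ (2 * r) := tlk_h_err hx0 h.x1 h.Kx hc hK
    _ ≤ B ^ (2 * r) := pow_le_pow_left₀ (pow_nonneg hx0 d) hB _

/-- the raw unit target -/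
theorem tlk_h_raw_lo (h : TlkHyp I e A0 A Y Zh vt vp cE M δ pm jm K) (k : ℕ) : I.x ^ 1 ≤ I.v k + Y := by
  rw [pow_one]
  linarith [tlk_h_v_nonneg h.ok h.fine k, h.Yx]

/-- the refined unit target -/
theorem tlk_h_ref_lo (h : TlkHyp I e A0 A Y Zh vt vp cE M δ pm jm K) {k : ℕ} (hk : k ≤ I.n) : I.x ^ ⌈cE⌉₊ ≤ e k := by
  refine le_trans ?_ (h.full.env.lo k hk)
  rw [← Real.rpow_natCast]
  exact Real.rpow_le_rpow_of_exponent_ge (tlk_h_x_pos h.ok) h.x1 (Nat.le_ceil cE)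

theorem tlk_h_act {k : ℕ} (hk : I.act true k) : I.act false k ∧ I.js + 1 ≤ k :=
  ⟨⟨hk.1, fun h => absurd h (by simp)⟩, hk.2 rfl⟩

end fld

/-! ### kit of the field leaves: scales, active cuts, sup bounds, lower bounds      [268] -/

/-- the elementary ranges of the scales at one instance -/
theorem tlk_sc {I : L8In} (hOk : I.Ok) (hF : I.F.Ok) : 0 < I.x ∧ I.x ≤ 1 ∧ 0 < I.lam ∧ I.lam ≤ 1 ∧ 0 < I.lam1 ∧ I.lam1 ≤ 1 ∧ I.x ≤ I.U ∧ I.U ≤ 1 ∧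
    1 ≤ I.a ∧ I.a ≤ 4 ∧ 1 ≤ I.m := by
  have hN : (2 : ℝ) ≤ I.p.N := by exact_mod_cast hOk.pt.N2
  have hx0 : 0 < I.x := Real.rpow_pos_of_pos (by linarith) _
  have hx1 : I.x ≤ 1 := Real.rpow_le_one_of_one_le_of_nonpos (by linarith) (by norm_num)
  have hl0 : 0 < I.lam := lt_of_lt_of_le (Real.rpow_pos_of_pos hx0 _) hOk.pt.lam_lo
  have hl1 : I.lam ≤ 1 := hOk.pt.lam_hi.trans (Real.rpow_le_one hx0.le hx1 hF.pS0.le)
  have hU : I.x ≤ I.U := by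
    refine le_min hx1 ?_
    have : 1 ≤ I.p.lam ^ (-(I.F.sS / 2)) := Real.one_le_rpow_of_pos_of_le_one_of_nonpos hl0 hl1 (by linarith [hF.sS0])
    calc I.x = I.p.x * 1 := (mul_one _).symm
      _ ≤ _ := mul_le_mul_of_nonneg_left this hx0.le
  have ha : 1 ≤ I.a ∧ I.a ≤ 4 := by
    show 1 ≤ (if I.p.sm then (4 : ℝ) else I.p.ell) ∧ (if I.p.sm then (4 : ℝ) else I.p.ell) ≤ 4
    split_ifs
    · norm_num
    · refine ⟨hOk.pt.ell1, hOk.pt.ell2.trans ?_⟩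
      calc (2 : ℝ) ^ (1 / 6 : ℝ) ≤ (2 : ℝ) ^ (1 : ℝ) := Real.rpow_le_rpow_of_exponent_le (by norm_num) (by norm_num)
        _ ≤ 4 := by norm_num
  refine ⟨hx0, hx1, hl0, hl1, Real.rpow_pos_of_pos hl0 _, Real.rpow_le_one hl0.le hl1 (by linarith [hF.eta0]), hU, min_le_left _ _, ha.1, ha.2, ?_⟩
  have := hOk.m_lo
  have := hOk.pt.N2
  omega

theorem tlk_m1 {A0 A B : ℝ} (hA : |A0| ≤ A) (hB : 0 ≤ B) : A0 * B ≤ A * B :=
  mul_le_mul_of_nonneg_right ((le_abs_self A0).trans hA) hB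

theorem tlk_m2 {A0 A B : ℝ} (hA : |A0| ≤ A) (hB : 0 ≤ B) (n : ℕ) : (A0 * B) ^ (2 * n) ≤ (A * B) ^ (2 * n) := by
  rw [← (even_two_mul n).pow_abs, abs_mul, abs_of_nonneg hB]
  exact pow_le_pow_left₀ (mul_nonneg (abs_nonneg _) hB) (mul_le_mul_of_nonneg_right hA hB) _

theorem tlk_m3 {A0 A B : ℝ} (hA : |A0| ≤ A) (hB : 0 ≤ B) : (A0 * B) ^ 2 ≤ (A * B) ^ 2 := by
  simpa using tlk_m2 hA hB 1

theorem tlk_m4 {A0 A r X : ℝ} (hA : |A0| ≤ A) (hr : 0 ≤ r) (hX : 0 ≤ X) : A0 * r * X ≤ A * r * X :=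
  mul_le_mul_of_nonneg_right (tlk_m1 hA hr) hX

theorem tlk_m5 {A0 A r X : ℝ} (hA : |A0| ≤ A) (hr : 0 ≤ r) (hX : 0 ≤ X) : (A0 * r * X) ^ 2 ≤ (A * r * X) ^ 2 := by
  rw [mul_assoc, mul_assoc]; exact tlk_m3 hA (mul_nonneg hr hX)

/-- ranges of the masses of the chain -/
theorem tlk_v_rg {I : L8In} (hOk : I.Ok) (hfine : I.Fine 1) (k : ℕ) : 0 ≤ I.v k ∧ I.v k ≤ I.a ∧ 0 ≤ I.dv k := by
  have ha : 0 < I.a := by
    show 0 < (if I.p.sm then (4 : ℝ) else I.p.ell)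
    split_ifs
    · norm_num
    · linarith [hOk.pt.ell1]
  exact ⟨(pin_ms_bd ha _ hfine.adm.1 k).1, (pin_ms_bd ha _ hfine.adm.1 k).2, pin_gap_nonneg ha _ hfine.adm.1 k⟩

theorem tlk_z0_nonneg (I : L8In) {r : ℝ} (hr : 0 ≤ r) : 0 ≤ I.z0 r :=
  div_nonneg (pow_nonneg I.x_nonneg 3) (mul_nonneg (Real.sqrt_nonneg _) (pow_nonneg hr 3))

theorem tlk_U_nonneg {I : L8In} (hOk : I.Ok) : 0 ≤ I.U :=
  le_min zero_le_one (mul_nonneg I.x_nonneg (Real.rpow_nonneg ((Real.rpow_nonneg I.x_nonneg _).trans hOk.pt.lam_lo) _))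

theorem tlk_epsw_nonneg {I : L8In} (hOk : I.Ok) (Y w : ℝ) : 0 ≤ I.epsw Y w :=
  div_nonneg (mul_nonneg (pow_nonneg I.x_nonneg 3) (Real.sqrt_nonneg _))
    (mul_nonneg (Real.sqrt_nonneg _) (Real.rpow_nonneg ((tlk_U_nonneg hOk).trans (le_max_right w I.U)) _))

/-! ### helpers of the integrated fields (helper16) -/

theorem tlk_h_v_mono {I : L8In} (hOk : I.Ok) (hf : I.Fine 1) : Monotone I.v := (tlk_h_sp_ok hOk hf).v_mono

theorem tlk_h_v_le {I : L8In} (hOk : I.Ok) (hF : I.F.Ok) (hf : I.Fine 1) (k : ℕ) : I.v k ≤ 4 :=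
  (ivk_v_le_a (tlk_h_sp_ok hOk hf) k).trans (tlk_sc hOk hF).2.2.2.2.2.2.2.2.2.1

theorem tlk_h_dv_nonneg {I : L8In} (hOk : I.Ok) (hf : I.Fine 1) (k : ℕ) : 0 ≤ I.dv k := ivk_dv_nonneg (tlk_h_sp_ok hOk hf) k

theorem tlk_h_dv_sum (I : L8In) (N : ℕ) : ∑ k ∈ range (N + 1), I.dv k = I.v N := by
  induction N with
  | zero => simp [L8In.dv, L8In.v, skGap]
  | succ N ih =>
    rw [Finset.sum_range_succ, ih]
    simp [L8In.dv, L8In.v, skGap]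

/-- a cut of mass `≥ x` is active -/
theorem tlk_h_js_lt {I : L8In} (hOk : I.Ok) (hf : I.Fine 1) {k : ℕ} (hk : I.x ≤ I.v k) : I.js + 1 ≤ k := by
  by_contra hc
  have h1 : I.v k ≤ I.v I.js := tlk_h_v_mono hOk hf (by omega)
  rw [hf.js_m] at h1
  linarith [hOk.s_lt]

theorem tlk_h_int_abs {I : L8In} (hOk : I.Ok) (hF : I.F.Ok) (hf : I.Fine 1) (lo hi : ℝ) (g : ℕ → ℝ) {G : ℝ} (hG0 : 0 ≤ G)
    (hg : ∀ k ≤ I.n, |g k| ≤ G) : |I.int lo hi g| ≤ 4 * G := by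
  unfold L8In.int
  calc |∑ k ∈ (range (I.n + 1)).filter (fun k => lo ≤ I.v k ∧ I.v k ≤ hi), I.dv k * g k|
      ≤ ∑ k ∈ (range (I.n + 1)).filter (fun k => lo ≤ I.v k ∧ I.v k ≤ hi), I.dv k * G := by
        refine (Finset.abs_sum_le_sum_abs _ _).trans (Finset.sum_le_sum fun k hk => ?_)
        rw [abs_mul, abs_of_nonneg (tlk_h_dv_nonneg hOk hf k)]
        exact mul_le_mul_of_nonneg_left (hg k (by have := Finset.mem_range.1 (Finset.mem_filter.1 hk).1; omega)) (tlk_h_dv_nonneg hOk hf k)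
    _ ≤ ∑ k ∈ range (I.n + 1), I.dv k * G :=
        Finset.sum_le_sum_of_subset_of_nonneg (Finset.filter_subset _ _) fun k _ _ => mul_nonneg (tlk_h_dv_nonneg hOk hf k) hG0
    _ = I.v I.n * G := by rw [← Finset.sum_mul, tlk_h_dv_sum]
    _ ≤ 4 * G := mul_le_mul_of_nonneg_right (tlk_h_v_le hOk hF hf _) hG0

theorem tlk_h_int_lk {I : L8In} (hOk : I.Ok) (hf : I.Fine 1) {lo : ℝ} (hi : ℝ) (hlo : I.x ≤ lo) {gt gu : ℕ → SkOm I.m → ℝ}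
    (hl : ∀ k, I.js + 1 ≤ k → TlkLk (I.sp true) (I.sp false) (I.js + 1) (gt k) (gu k)) :
    TlkLk (I.sp true) (I.sp false) (I.js + 1) (fun ω => I.int lo hi fun k => gt k ω) (fun ω => I.int lo hi fun k => gu k ω) := by
  unfold L8In.int
  refine TlkLk.sum _ fun k hk => (hl k ?_).const_mul _
  exact tlk_h_js_lt hOk hf (hlo.trans (Finset.mem_filter.1 hk).2.1)

theorem tlk_h_S_abs {I : L8In} (hOk : I.Ok) (hf : I.Fine 1) {k : ℕ} (hk : k ≤ I.n) : |I.S k| ≤ 1 := by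
  have hP := tlk_h_sp_ok hOk hf
  have e : (I.sp false).S k = I.S k :=
    l8i_S I.m I.a (tlk_h_a_pos hOk) _ hf.adm.1 k (by simpa [L8In.n, llMat] using hk)
  rw [← e, abs_of_nonneg (ivk_S_nonneg k)]
  exact ivk_S_le_one hP k

/-- the error is below the `2 r`-th power of `x ^ d`; sup bound `c x^(-p)` -/
theorem tlk_h_errp {x : ℝ} {K r c d p : ℕ} (hx0 : 0 < x) (hx1 : x ≤ 1) (hKx : (K : ℝ) * x ≤ 1) (hc : c ≤ K) (hK : (d + p + 1) * (2 * r) ≤ K) :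
    ((c : ℝ) * x⁻¹ ^ p) ^ (2 * r) * x ^ K ≤ (x ^ d) ^ (2 * r) := by
  have h1 := tlk_h_err (c := c) (d := d + p) (r := r) hx0.le hx1 hKx hc hK
  have e1 : (x ^ (d + p)) ^ (2 * r) = (x ^ d) ^ (2 * r) * (x ^ p) ^ (2 * r) := by rw [pow_add, mul_pow]
  have e2 : (x⁻¹ ^ p) ^ (2 * r) * (x ^ p) ^ (2 * r) = 1 := by
    rw [← mul_pow, ← mul_pow, inv_mul_cancel₀ hx0.ne', one_pow, one_pow]
  have h3 : 0 ≤ (x⁻¹ ^ p) ^ (2 * r) := by positivity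
  calc ((c : ℝ) * x⁻¹ ^ p) ^ (2 * r) * x ^ K = (x⁻¹ ^ p) ^ (2 * r) * ((c : ℝ) ^ (2 * r) * x ^ K) := by rw [mul_pow]; ring
    _ ≤ (x⁻¹ ^ p) ^ (2 * r) * ((x ^ d) ^ (2 * r) * (x ^ p) ^ (2 * r)) := by rw [← e1]; exact mul_le_mul_of_nonneg_left h1 h3
    _ = (x ^ d) ^ (2 * r) * ((x⁻¹ ^ p) ^ (2 * r) * (x ^ p) ^ (2 * r)) := by ring
    _ = _ := by rw [e2, mul_one]

section fld
variable {I : L8In} {e : ℕ → ℝ} {A0 A Y Zh vt vp cE M δ : ℝ} {pm jm K : ℕ}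

/-- one SQUARE on the single path: sup bound `c x^(-p)`, unit target `B ≥ x ^ d` -/
theorem tlk_h_sq (h : TlkHyp I e A0 A Y Zh vt vp cE M δ pm jm K) {gt gu : SkOm I.m → ℝ}
    (hl : TlkLk (I.sp true) (I.sp false) (I.js + 1) gt gu) {B : ℝ} {c d p : ℕ} (hb : ∀ ω, |gu ω| ≤ c * I.x⁻¹ ^ p)
    (hsrc : I.ex false (fun ω => gu ω ^ 2) ≤ (A0 * B) ^ 2) (hB : I.x ^ d ≤ B) (hc : c ≤ K) (hK : (d + p + 1) * 2 ≤ K) :
    I.ex true (fun ω => gt ω ^ 2) ≤ (A * B) ^ 2 := by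
  have hx0 := tlk_h_x_pos h.ok
  have hB0 : 0 ≤ B := (pow_nonneg hx0.le d).trans hB
  refine tlk_mom1 (r := 1) h.tr hl le_rfl hb hsrc h.M1 h.hA hB0 ?_
  calc ((c : ℝ) * I.x⁻¹ ^ p) ^ (2 * 1) * δ ≤ ((c : ℝ) * I.x⁻¹ ^ p) ^ (2 * 1) * I.x ^ K :=
        mul_le_mul_of_nonneg_left h.δK (by positivity)
    _ ≤ (I.x ^ d) ^ (2 * 1) := tlk_h_errp hx0 h.x1 h.Kx hc (by omega)
    _ ≤ B ^ (2 * 1) := pow_le_pow_left₀ (pow_nonneg hx0.le d) hB _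

/-- `x^3 / 64 ≤ z_r^0` for `0 < r ≤ 4` -/
theorem tlk_h_z0_lo (hOk : I.Ok) (hF : I.F.Ok) {r : ℝ} (hr0 : 0 < r) (hr4 : r ≤ 4) : I.x ^ 3 / 64 ≤ I.z0 r := by
  obtain ⟨hx0, -, -, -, hl0, hl1, -⟩ := tlk_sc hOk hF
  unfold L8In.z0
  have h1 : Real.sqrt I.lam1 ≤ 1 := Real.sqrt_le_one.2 hl1
  have h2 : 0 < Real.sqrt I.lam1 := Real.sqrt_pos.2 hl0
  have h3 : r ^ 3 ≤ 64 := by
    calc r ^ 3 ≤ 4 ^ 3 := pow_le_pow_left₀ hr0.le hr4 3
      _ = 64 := by norm_num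
  have h4 : Real.sqrt I.lam1 * r ^ 3 ≤ 64 := by
    calc Real.sqrt I.lam1 * r ^ 3 ≤ 1 * 64 := mul_le_mul h1 h3 (by positivity) (by norm_num)
      _ = 64 := by norm_num
  exact div_le_div_of_nonneg_left (by positivity) (by positivity) h4

/-- `c x ≤ 1` for `c ≤ K` -/
theorem TlkHyp.cx (h : TlkHyp I e A0 A Y Zh vt vp cE M δ pm jm K) {c : ℕ} (hc : c ≤ K) : (c : ℝ) * I.x ≤ 1 :=
  (mul_le_mul_of_nonneg_right (by exact_mod_cast hc) I.x_nonneg).trans h.Kx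

end fld

section fld
variable {I : L8In} {e : ℕ → ℝ} {A0 A Y Zh vt vp cE M δ : ℝ} {pm jm K : ℕ}

/-- the envelope is between `0` and `4 / x` -/
theorem tlk_h_e_rg (h : TlkHyp I e A0 A Y Zh vt vp cE M δ pm jm K) {k : ℕ} (hk : k ≤ I.n) : 0 ≤ e k ∧ e k ≤ 4 * I.x⁻¹ := by
  have hx0 := tlk_h_x_pos h.ok
  have hx1 := h.x1
  have hinv : 1 ≤ I.x⁻¹ := (one_le_inv₀ hx0).2 hx1
  refine ⟨(Real.rpow_nonneg hx0.le _).trans (h.full.env.lo k hk), ?_⟩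
  rcases le_total (I.v k) Y with hv | hv
  · rw [h.full.env.low k hk hv]
    linarith [h.Y1]
  · have h1 := h.full.env.hi k hk hv
    have h2 := tlk_h_v_le h.ok h.fok h.fine k
    have h3 := tlk_h_v_nonneg h.ok h.fine k
    calc e k ≤ A0 * I.v k := h1
      _ ≤ |A0| * I.v k := mul_le_mul_of_nonneg_right (le_abs_self _) h3
      _ ≤ I.x⁻¹ * 4 := mul_le_mul h.A0x h2 h3 (by positivity)
      _ = 4 * I.x⁻¹ := mul_comm _ _

/-- sup bound of the polynomials of (D10) -/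
theorem tlk_h_pol_abs (h : TlkHyp I e A0 A Y Zh vt vp cE M δ pm jm K) {j : ℕ} {c : ℕ → ℕ → ℝ} (hc : ∀ i ≤ j, ∀ k ≤ I.n, |c i k| ≤ e k ^ (j - i))
    {k : ℕ} (hk : k ≤ I.n) (ω : SkOm I.m) : |I.pol false c j k ω| ≤ (j + 1) * (4 * I.x⁻¹) ^ j := by
  have hx0 := tlk_h_x_pos h.ok
  have hinv : 1 ≤ I.x⁻¹ := (one_le_inv₀ hx0).2 h.x1
  obtain ⟨he0, he1⟩ := tlk_h_e_rg h hk
  have hP := tlk_h_sp_ok h.ok h.fine
  have hL : |2 * (I.sp false).L k ω - I.S k| ≤ 4 * I.x⁻¹ := by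
    have a1 := tlk_h_L_abs hP k ω
    have a2 := tlk_h_S_abs h.ok h.fine hk
    have a3 := abs_sub (2 * (I.sp false).L k ω) (I.S k)
    rw [abs_mul 2, abs_of_pos (by norm_num : (0:ℝ) < 2)] at a3
    linarith
  unfold L8In.pol
  calc |∑ i ∈ range (j + 1), c i k * (2 * (I.sp false).L k ω - I.S k) ^ i|
      ≤ ∑ _i ∈ range (j + 1), (4 * I.x⁻¹) ^ j := by
        refine (Finset.abs_sum_le_sum_abs _ _).trans (Finset.sum_le_sum fun i hi => ?_)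
        have hij : i ≤ j := by have := Finset.mem_range.1 hi; omega
        rw [abs_mul, abs_pow]
        calc |c i k| * |2 * (I.sp false).L k ω - I.S k| ^ i ≤ (4 * I.x⁻¹) ^ (j - i) * (4 * I.x⁻¹) ^ i :=
              mul_le_mul ((hc i hij k hk).trans (pow_le_pow_left₀ he0 he1 _)) (pow_le_pow_left₀ (abs_nonneg _) hL _) (by positivity) (by positivity)
          _ = (4 * I.x⁻¹) ^ j := by rw [← pow_add, Nat.sub_add_cancel hij]
    _ = (j + 1) * (4 * I.x⁻¹) ^ j := by simp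

end fld

section sup2
variable {Ω : Type} [MeasurableSpace Ω] {m : ℕ} {P : L8P Ω m}

theorem tlk_k_W_le (hP : P.Ok) (k : ℕ) (ω : Ω) : P.W k ω ≤ 4 * P.a := by
  have h1 := ivk_aCH_psd hP k ω (fun i => P.R k i ω)
  have h2 := ivk_C_quad_le hP k (fun i => P.R k i ω) ω
  have h3 : ∑ i, P.R k i ω ^ 2 ≤ 4 := by
    have : ∀ i, P.R k i ω ^ 2 ≤ 2 * P.y i ω ^ 2 + 2 * P.X k i ω ^ 2 := fun i => by
      unfold L8P.R; nlinarith [sq_nonneg (P.y i ω + P.X k i ω)]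
    calc ∑ i, P.R k i ω ^ 2 ≤ ∑ i, (2 * P.y i ω ^ 2 + 2 * P.X k i ω ^ 2) := Finset.sum_le_sum fun i _ => this i
      _ = 2 * ∑ i, P.y i ω ^ 2 + 2 * P.nX k ω := by rw [Finset.sum_add_distrib, ← Finset.mul_sum, ← Finset.mul_sum]; rfl
      _ ≤ 4 := by rw [hP.y_sq]; linarith [ivk_nX_le hP k ω]
  have e : ∑ i, ∑ j, P.R k i ω * (P.a * P.C k i j ω - P.H k i j ω) * P.R k j ω
      = P.a * (∑ i, ∑ j, P.R k i ω * P.C k i j ω * P.R k j ω) - P.W k ω := by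
    unfold L8P.W
    rw [Finset.mul_sum, ← Finset.sum_sub_distrib]
    refine Finset.sum_congr rfl fun i _ => ?_
    rw [Finset.mul_sum, ← Finset.sum_sub_distrib]
    exact Finset.sum_congr rfl fun j _ => by ring
  rw [e] at h1
  have := mul_le_mul_of_nonneg_left (h2.trans h3) hP.a_pos.le
  linarith

theorem tlk_k_CC_le (hP : P.Ok) (k : ℕ) (ω : Ω) : P.xCx k ω + P.trC2 k ω ≤ 1 := by
  have h1 := ivk_HS_eq (P := P) k ω
  have h2 : ∑ i, ∑ j, P.E k (fun ω' => P.y i ω' * P.y j ω') ω ^ 2 ≤ 1 := by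
    have hb : ∀ i j, IvBd (fun ω' => P.y i ω' * P.y j ω') := fun i j => (ivk_y_bd hP i).mul (ivk_y_bd hP j)
    calc ∑ i, ∑ j, P.E k (fun ω' => P.y i ω' * P.y j ω') ω ^ 2
        ≤ ∑ i, ∑ j, P.E k (fun ω' => (P.y i ω' * P.y j ω') ^ 2) ω :=
          Finset.sum_le_sum fun i _ => Finset.sum_le_sum fun j _ => ivk_E_sq_le hP (hb i j) k ω
      _ = P.E k (fun ω' => ∑ i, ∑ j, (P.y i ω' * P.y j ω') ^ 2) ω := by
          rw [ivk_E_sum hP _ fun i _ => IvBd.sum _ fun j _ => (hb i j).pow 2]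
          exact Finset.sum_congr rfl fun i _ => (ivk_E_sum hP _ (fun j _ => (hb i j).pow 2) k ω).symm
      _ = P.E k (fun _ => 1) ω := by
          congr 1
          funext ω'
          simp_rw [mul_pow, ← Finset.mul_sum, hP.y_sq, mul_one, hP.y_sq]
      _ = 1 := ivk_E_const hP k 1 ω
  nlinarith [ivk_xCx_nonneg hP k ω, sq_nonneg (P.nX k ω)]

theorem tlk_k_Q_abs (hP : P.Ok) (ω : Ω × Ω) : |P.Q ω| ≤ 1 :=
  tlk_h_cs (fun i => P.y i ω.1) (fun i => P.y i ω.2) (hP.y_sq ω.1).le (hP.y_sq ω.2).le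

end sup2

/-- the total mass of the cells -/
theorem tlk_k_dv_sum (I : L8In) : ∑ k ∈ range (I.n + 1), I.dv k = I.a := by
  have h : ∀ N : ℕ, ∑ j ∈ Finset.range (N + 1), skGap I.a I.P0 j = skMs I.a I.P0 N := by
    intro N
    induction N with
    | zero => simp [skGap]
    | succ N ih => rw [Finset.sum_range_succ, ih]; simp [skGap]
  show ∑ j ∈ Finset.range (I.n + 1), skGap I.a I.P0 j = I.a
  rw [h]
  exact pin_ms_ge I.a I.P0 (by simp [L8In.P0, L8In.n, llMat])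

/-- the cuts of mass `≥ x` are active -/
theorem tlk_k_act {I : L8In} (hOk : I.Ok) (hf : I.Fine 1) {k : ℕ} (hk : I.x ≤ I.v k) : I.js + 1 ≤ k := by
  by_contra hc
  have h1 : I.v k ≤ I.v I.js := (tlk_h_sp_ok hOk hf).v_mono (by omega : k ≤ I.js)
  rw [hf.js_m] at h1
  linarith [hOk.s_lt]

theorem tlk_k_S_abs {I : L8In} (hOk : I.Ok) (hf : I.Fine 1) {k : ℕ} (hk : k ≤ I.n) : |I.S k| ≤ 1 := by
  have hP := tlk_h_sp_ok hOk hf
  have e : (I.sp false).S k = I.S k := l8i_S I.m I.a (tlk_h_a_pos hOk) _ hf.adm.1 k (by simpa [L8In.n, llMat] using hk)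
  rw [← e, abs_of_nonneg (ivk_S_nonneg k)]
  exact ivk_S_le_one hP k

section lo
variable {x s t : ℝ} {a b : ℕ}

theorem tlk_lo_mul (hx : 0 ≤ x) (hs : x ^ a ≤ s) (ht : x ^ b ≤ t) : x ^ (a + b) ≤ s * t := by
  rw [pow_add]; exact mul_le_mul hs ht (pow_nonneg hx _) ((pow_nonneg hx _).trans hs)

theorem tlk_lo_pow (hx : 0 ≤ x) (hs : x ^ a ≤ s) (n : ℕ) : x ^ (a * n) ≤ s ^ n := by
  rw [pow_mul]; exact pow_le_pow_left₀ (pow_nonneg hx _) hs n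

theorem tlk_lo_mono (hx : 0 ≤ x) (hx1 : x ≤ 1) (hab : a ≤ b) (hs : x ^ a ≤ s) : x ^ b ≤ s :=
  (pow_le_pow_of_le_one hx hx1 hab).trans hs

end lo

section ifld
variable {I : L8In} {e : ℕ → ℝ} {A0 A Y Zh vt vp cE M δ : ℝ} {pm jm K : ℕ}

/-- **one integrated field**: extra weight `w k ≤ x^(-p)`, sup bound `c`, unit target `T1 ≥ x^d` (if the range of the cuts is not empty) -/
theorem tlk_k_int (h : TlkHyp I e A0 A Y Zh vt vp cE M δ pm jm K) {lo hi T1 : ℝ} (hlo : I.x ≤ lo) (w Et Eu : ℕ → ℝ) {c p d : ℕ}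
    (hw : ∀ k ≤ I.n, lo ≤ I.v k → 0 ≤ w k ∧ w k * I.x ^ p ≤ 1) (hE : ∀ k ≤ I.n, I.js + 1 ≤ k → Et k ≤ M * Eu k + c * δ)
    (hsrc : I.int lo hi (fun k => Eu k * w k) ≤ A0 * T1) (hT0 : 0 ≤ T1) (hT : ∀ k ≤ I.n, lo ≤ I.v k → I.x ^ d ≤ T1)
    (hc : c ≤ K) (h4 : 4 ≤ K) (hK : p + d + 2 ≤ K) : I.int lo hi (fun k => Et k * w k) ≤ A * T1 := by
  obtain ⟨hx0, hx1, -, -, -, -, -, -, -, ha4, -⟩ := tlk_sc h.ok h.fok
  unfold L8In.int at hsrc ⊢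
  obtain ⟨s, hs⟩ : ∃ s : Finset ℕ, s = (range (I.n + 1)).filter (fun k => lo ≤ I.v k ∧ I.v k ≤ hi) := ⟨_, rfl⟩
  rw [← hs] at hsrc ⊢
  have hmem : ∀ k ∈ s, k ≤ I.n ∧ lo ≤ I.v k := fun k hk => by
    rw [hs, Finset.mem_filter, Finset.mem_range] at hk
    exact ⟨by omega, hk.2.1⟩
  have hdv : ∀ k, 0 ≤ I.dv k := fun k => (tlk_v_rg h.ok h.fine k).2.2
  have key := tlk_sum (M := M) (δ := δ) s (fun k => I.dv k * w k) Et Eu (G := c) (A0 := A0) (A := A) (T1 := T1)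
    (fun k hk => mul_nonneg (hdv k) (hw k (hmem k hk).1 (hmem k hk).2).1)
    (fun k hk => hE k (hmem k hk).1 (tlk_k_act h.ok h.fine (hlo.trans (hmem k hk).2)))
    (by
      refine le_trans (le_of_eq ?_) hsrc
      exact Finset.sum_congr rfl fun k _ => by ring)
    h.M1 h.hA hT0 ?_
  · refine le_trans (le_of_eq ?_) key
    exact Finset.sum_congr rfl fun k _ => by ring
  · rcases s.eq_empty_or_nonempty with h0 | ⟨k0, hk0⟩
    · rw [h0]; simpa using hT0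
    · have hTd := hT k0 (hmem k0 hk0).1 (hmem k0 hk0).2
      have h1 : (∑ k ∈ s, I.dv k * w k) * I.x ^ p ≤ 4 := by
        rw [Finset.sum_mul]
        calc ∑ k ∈ s, I.dv k * w k * I.x ^ p ≤ ∑ k ∈ s, I.dv k := Finset.sum_le_sum fun k hk => by
              have := mul_le_mul_of_nonneg_left (hw k (hmem k hk).1 (hmem k hk).2).2 (hdv k)
              linarith
          _ ≤ ∑ k ∈ range (I.n + 1), I.dv k :=
              Finset.sum_le_sum_of_subset_of_nonneg (by rw [hs]; exact Finset.filter_subset _ _) fun k _ _ => hdv k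
          _ = I.a := tlk_k_dv_sum I
          _ ≤ 4 := ha4
      have hS0 : 0 ≤ ∑ k ∈ s, I.dv k * w k :=
        Finset.sum_nonneg fun k hk => mul_nonneg (hdv k) (hw k (hmem k hk).1 (hmem k hk).2).1
      have hcx : (c : ℝ) * I.x ≤ 1 := (mul_le_mul_of_nonneg_right (by exact_mod_cast hc) hx0.le).trans h.Kx
      have h4x : (4 : ℝ) * I.x ≤ 1 := (mul_le_mul_of_nonneg_right (by exact_mod_cast h4) hx0.le).trans h.Kx
      have hδ : δ ≤ I.x ^ p * I.x ^ d * I.x ^ 2 := by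
        rw [← pow_add, ← pow_add]
        exact h.δK.trans (pow_le_pow_of_le_one hx0.le hx1 hK)
      have hd0 : 0 ≤ I.x ^ d := pow_nonneg hx0.le _
      calc (∑ k ∈ s, I.dv k * w k) * ((c : ℝ) * δ) ≤ (∑ k ∈ s, I.dv k * w k) * ((c : ℝ) * (I.x ^ p * I.x ^ d * I.x ^ 2)) :=
            mul_le_mul_of_nonneg_left (mul_le_mul_of_nonneg_left hδ (Nat.cast_nonneg c)) hS0
        _ = ((∑ k ∈ s, I.dv k * w k) * I.x ^ p) * I.x * (((c : ℝ) * I.x) * I.x ^ d) := by ring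
        _ ≤ 4 * I.x * (1 * I.x ^ d) := by
            refine mul_le_mul (mul_le_mul_of_nonneg_right h1 hx0.le) (mul_le_mul_of_nonneg_right hcx hd0)
              (mul_nonneg (mul_nonneg (Nat.cast_nonneg c) hx0.le) hd0) (by positivity)
        _ ≤ 1 * (1 * I.x ^ d) := mul_le_mul_of_nonneg_right h4x (by positivity)
        _ = I.x ^ d := by ring
        _ ≤ T1 := hTd

/-- lower bounds of the factors of the unit targets of (D7) -/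
theorem tlk_k_base (h : TlkHyp I e A0 A Y Zh vt vp cE M δ pm jm K) (h4 : 4 ≤ K) {r : ℝ} (hr : Y ≤ r) (hr4 : r ≤ 4) :
    I.x ^ 1 ≤ r ∧ I.x ^ 6 ≤ I.z0 r ∧ I.x ^ 3 ≤ Y ^ 2 / r ∧ I.x ^ 0 ≤ Zh := by
  obtain ⟨hx0, hx1, -, -, hl0, hl1, -, -, -, -, -⟩ := tlk_sc h.ok h.fok
  have h4x : (4 : ℝ) * I.x ≤ 1 := (mul_le_mul_of_nonneg_right (by exact_mod_cast h4) hx0.le).trans h.Kx
  have hxr : I.x ≤ r := h.Yx.trans hr
  have hr0 : 0 < r := hx0.trans_le hxr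
  have hrx : r * I.x ≤ 1 := (mul_le_mul_of_nonneg_right hr4 hx0.le).trans h4x
  have hs0 : 0 < Real.sqrt I.lam1 := Real.sqrt_pos.2 hl0
  have hs1 : Real.sqrt I.lam1 ≤ 1 := Real.sqrt_le_one.2 hl1
  refine ⟨by rwa [pow_one], ?_, ?_, by rw [pow_zero]; exact h.Zh1⟩
  · unfold L8In.z0
    rw [le_div_iff₀ (mul_pos hs0 (pow_pos hr0 3))]
    have h1 : (r * I.x) ^ 3 ≤ 1 := pow_le_one₀ (mul_nonneg hr0.le hx0.le) hrx
    have h2 : Real.sqrt I.lam1 * (r * I.x) ^ 3 ≤ 1 := by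
      calc Real.sqrt I.lam1 * (r * I.x) ^ 3 ≤ 1 * 1 := mul_le_mul hs1 h1 (by positivity) zero_le_one
        _ = 1 := one_mul 1
    calc I.x ^ 6 * (Real.sqrt I.lam1 * r ^ 3) = I.x ^ 3 * (Real.sqrt I.lam1 * (r * I.x) ^ 3) := by ring
      _ ≤ I.x ^ 3 * 1 := mul_le_mul_of_nonneg_left h2 (by positivity)
      _ = I.x ^ 3 := mul_one _
  · rw [le_div_iff₀ hr0]
    calc I.x ^ 3 * r = I.x ^ 2 * (r * I.x) := by ring
      _ ≤ I.x ^ 2 * 1 := mul_le_mul_of_nonneg_left hrx (by positivity)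
      _ = I.x ^ 2 := mul_one _
      _ ≤ Y ^ 2 := pow_le_pow_left₀ hx0.le h.Yx 2

/-- lower bound of `ε_w` -/
theorem tlk_k_epsw (h : TlkHyp I e A0 A Y Zh vt vp cE M δ pm jm K) (h4 : 4 ≤ K) {w : ℝ} (hw' : w ≤ 2 * Y) : I.x ^ 5 ≤ I.epsw Y w := by
  obtain ⟨hx0, hx1, -, -, hl0, hl1, hxU, hU1, -, -, -⟩ := tlk_sc h.ok h.fok
  have h4x : (4 : ℝ) * I.x ≤ 1 := (mul_le_mul_of_nonneg_right (by exact_mod_cast h4) hx0.le).trans h.Kx
  have hs0 : 0 < Real.sqrt I.lam1 := Real.sqrt_pos.2 hl0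
  have hs1 : Real.sqrt I.lam1 ≤ 1 := Real.sqrt_le_one.2 hl1
  have hm0 : 0 < max w I.U := (hx0.trans_le hxU).trans_le (le_max_right _ _)
  have hm2 : max w I.U ≤ 2 := max_le (by linarith [h.Y1]) (by linarith)
  have hm4 : max w I.U ^ (3 / 2 : ℝ) ≤ 4 := by
    calc max w I.U ^ (3 / 2 : ℝ) ≤ (2 : ℝ) ^ (3 / 2 : ℝ) := Real.rpow_le_rpow hm0.le hm2 (by norm_num)
      _ ≤ (2 : ℝ) ^ (2 : ℝ) := Real.rpow_le_rpow_of_exponent_le (by norm_num) (by norm_num)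
      _ = 4 := by rw [Real.rpow_two]; norm_num
  have hmp : 0 < max w I.U ^ (3 / 2 : ℝ) := Real.rpow_pos_of_pos hm0 _
  have hY : I.x ≤ Real.sqrt Y := by
    apply Real.le_sqrt_of_sq_le
    calc I.x ^ 2 = I.x * I.x := sq _
      _ ≤ 1 * I.x := mul_le_mul_of_nonneg_right hx1 hx0.le
      _ = I.x := one_mul _
      _ ≤ Y := h.Yx
  unfold L8In.epsw
  rw [le_div_iff₀ (mul_pos hs0 hmp)]
  have hD : Real.sqrt I.lam1 * max w I.U ^ (3 / 2 : ℝ) ≤ 4 := by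
    calc Real.sqrt I.lam1 * max w I.U ^ (3 / 2 : ℝ) ≤ 1 * 4 := mul_le_mul hs1 hm4 hmp.le zero_le_one
      _ = 4 := one_mul 4
  calc I.x ^ 5 * (Real.sqrt I.lam1 * max w I.U ^ (3 / 2 : ℝ)) ≤ I.x ^ 5 * 4 := mul_le_mul_of_nonneg_left hD (by positivity)
    _ = I.x ^ 4 * (4 * I.x) := by ring
    _ ≤ I.x ^ 4 * 1 := mul_le_mul_of_nonneg_left h4x (by positivity)
    _ = I.x ^ 3 * I.x := by ring
    _ ≤ I.x ^ 3 * Real.sqrt Y := mul_le_mul_of_nonneg_left hY (by positivity)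

/-- transfer of `E W` at an active cut -/
theorem tlk_k_E_W (h : TlkHyp I e A0 A Y Zh vt vp cE M δ pm jm K) {k : ℕ} (hk : I.js + 1 ≤ k) :
    I.ex true ((I.sp true).W k) ≤ M * I.ex false ((I.sp false).W k) + (16 : ℕ) * δ := by
  have hP := tlk_h_sp_ok h.ok h.fine
  obtain ⟨-, -, -, -, -, -, -, -, -, ha4, -⟩ := tlk_sc h.ok h.fok
  refine h.tr.one _ _ _ (tlk_W _ _ hk) (ivk_W_nonneg hP k) fun ω => (tlk_k_W_le hP k ω).trans ?_
  have : (I.sp false).a = I.a := rfl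
  rw [this]; push_cast; linarith

/-- transfer of `E (xCx + tr C²)` at an active cut -/
theorem tlk_k_E_C (h : TlkHyp I e A0 A Y Zh vt vp cE M δ pm jm K) {k : ℕ} (hk : I.js + 1 ≤ k) :
    I.ex true (fun ω => (I.sp true).xCx k ω + (I.sp true).trC2 k ω)
      ≤ M * I.ex false (fun ω => (I.sp false).xCx k ω + (I.sp false).trC2 k ω) + (1 : ℕ) * δ := by
  have hP := tlk_h_sp_ok h.ok h.fine
  refine h.tr.one _ _ _ ((tlk_xCx _ _ hk).add (tlk_trC2 _ _ hk)) (fun ω => add_nonneg (ivk_xCx_nonneg hP k ω) (ivk_trC2_nonneg k ω))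
    fun ω => (tlk_k_CC_le hP k ω).trans ?_
  push_cast; exact le_rfl

/-- transfer of `E (Q - S)²` at an active cut -/
theorem tlk_k_E_Q (h : TlkHyp I e A0 A Y Zh vt vp cE M δ pm jm K) {k : ℕ} (hkn : k ≤ I.n) (hk : I.js + 1 ≤ k) :
    I.moF true k 1 (fun ω => (I.sp true).Q ω - I.S k) ≤ M * I.moF false k 1 (fun ω => (I.sp false).Q ω - I.S k) + (4 : ℕ) * δ := by
  have hP := tlk_h_sp_ok h.ok h.fine
  refine h.tr.two k hk _ _ _ (((tlk_Q _ _ _).sub_const (I.S k)).pow (2 * 1)) (fun ω => (even_two_mul 1).pow_nonneg _) fun ω => ?_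
  have h1 := tlk_k_Q_abs hP ω
  have h2 := tlk_k_S_abs h.ok h.fine hkn
  have h3 : |(I.sp false).Q ω - I.S k| ≤ 2 := (abs_sub _ _).trans (by linarith)
  rw [mul_one, ← sq_abs]
  push_cast
  nlinarith [abs_nonneg ((I.sp false).Q ω - I.S k)]

end ifld

/-! ### (3) the field leaves -/

section fields

variable (pm jm : ℕ) (cE : ℝ)

theorem tlk_f_raw_X : ∃ K0 : ℕ, ∀ K, K0 ≤ K → ∀ (I : L8In) (e : ℕ → ℝ) (A0 A Y Zh vt vp M δ : ℝ), TlkHyp I e A0 A Y Zh vt vp cE M δ pm jm K →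
    ∀ r, 1 ≤ r → r ≤ pm → ∀ k, I.act true k → I.mo true r ((I.sp true).nX k) ≤ (A * (I.v k + Y)) ^ (2 * r) := by
  refine ⟨4 * pm + 4, fun K hK I e A0 A Y Zh vt vp M δ h r hr hrp k hk => ?_⟩
  obtain ⟨hk0, hkj⟩ := tlk_h_act hk
  refine tlk_h_fld1 h (tlk_nX _ _ hkj) (c := 1) (d := 1) hr (fun ω => ?_) (h.full.unt.raw_X r hr hrp k hk0) (tlk_h_raw_lo h k) (by omega)
    (by nlinarith)
  simpa using tlk_h_nX_abs (tlk_h_sp_ok h.ok h.fine) k ω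

theorem tlk_f_raw_L : ∃ K0 : ℕ, ∀ K, K0 ≤ K → ∀ (I : L8In) (e : ℕ → ℝ) (A0 A Y Zh vt vp M δ : ℝ), TlkHyp I e A0 A Y Zh vt vp cE M δ pm jm K →
    ∀ r, 1 ≤ r → r ≤ pm → ∀ k, I.act true k → I.mo true r ((I.sp true).L k) ≤ (A * (I.v k + Y)) ^ (2 * r) := by
  refine ⟨4 * pm + 4, fun K hK I e A0 A Y Zh vt vp M δ h r hr hrp k hk => ?_⟩
  obtain ⟨hk0, hkj⟩ := tlk_h_act hk
  refine tlk_h_fld1 h (tlk_L _ _ hkj) (c := 2) (d := 1) hr (fun ω => ?_) (h.full.unt.raw_L r hr hrp k hk0) (tlk_h_raw_lo h k) (by omega)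
    (by nlinarith)
  have := tlk_h_L_abs (tlk_h_sp_ok h.ok h.fine) k ω
  push_cast
  linarith

theorem tlk_f_raw_Q : ∃ K0 : ℕ, ∀ K, K0 ≤ K → ∀ (I : L8In) (e : ℕ → ℝ) (A0 A Y Zh vt vp M δ : ℝ), TlkHyp I e A0 A Y Zh vt vp cE M δ pm jm K →
    ∀ r, 1 ≤ r → r ≤ pm → ∀ k, I.act true k → ∀ k₁ k₂, k ≤ k₁ → k ≤ k₂ → I.moF true k r ((I.sp true).QX k₁ k₂) ≤ (A * (I.v k + Y)) ^ (2 * r) := by
  refine ⟨4 * pm + 4, fun K hK I e A0 A Y Zh vt vp M δ h r hr hrp k hk k₁ k₂ h1 h2 => ?_⟩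
  obtain ⟨hk0, hkj⟩ := tlk_h_act hk
  refine tlk_h_fld2 h hkj (tlk_QX _ _ (hkj.trans h1) (hkj.trans h2)) (c := 1) (d := 1) hr (fun ω => ?_)
    (h.full.unt.raw_Q r hr hrp k hk0 k₁ k₂ h1 h2) (tlk_h_raw_lo h k) (by omega) (by nlinarith)
  simpa using tlk_h_QX_abs (tlk_h_sp_ok h.ok h.fine) k₁ k₂ ω

theorem tlk_f_ref_X : ∃ K0 : ℕ, ∀ K, K0 ≤ K → ∀ (I : L8In) (e : ℕ → ℝ) (A0 A Y Zh vt vp M δ : ℝ), TlkHyp I e A0 A Y Zh vt vp cE M δ pm jm K →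
    ∀ r, 1 ≤ r → r ≤ pm → ∀ k, I.act true k → I.v k ≤ vt → I.mo true r (fun ω => (I.sp true).nX k ω - I.q k) ≤ (A * e k) ^ (2 * r) := by
  refine ⟨(⌈cE⌉₊ + 1) * (2 * pm) + 4, fun K hK I e A0 A Y Zh vt vp M δ h r hr hrp k hk hv => ?_⟩
  obtain ⟨hk0, hkj⟩ := tlk_h_act hk
  have hKr : (⌈cE⌉₊ + 1) * (2 * r) ≤ K :=
    (Nat.mul_le_mul_left (⌈cE⌉₊ + 1) (show 2 * r ≤ 2 * pm by omega)).trans (by omega)
  refine tlk_h_fld1 h ((tlk_nX _ _ hkj).sub_const (I.q k)) (c := 2) (d := ⌈cE⌉₊) hr (fun ω => ?_) (h.full.unt.ref_X r hr hrp k hk0 hv)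
    (tlk_h_ref_lo h hk.1) (by omega) hKr
  have h1 := tlk_h_nX_abs (tlk_h_sp_ok h.ok h.fine) k ω
  have h2 := tlk_h_q_abs h.ok h.fine k
  have h3 := abs_sub ((I.sp false).nX k ω) (I.q k)
  push_cast
  linarith

theorem tlk_f_ref_L : ∃ K0 : ℕ, ∀ K, K0 ≤ K → ∀ (I : L8In) (e : ℕ → ℝ) (A0 A Y Zh vt vp M δ : ℝ), TlkHyp I e A0 A Y Zh vt vp cE M δ pm jm K →
    ∀ r, 1 ≤ r → r ≤ pm → ∀ k, I.act true k → I.v k ≤ vt → I.mo true r (fun ω => 2 * (I.sp true).L k ω - I.q k) ≤ (A * e k) ^ (2 * r) := by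
  refine ⟨(⌈cE⌉₊ + 1) * (2 * pm) + 4, fun K hK I e A0 A Y Zh vt vp M δ h r hr hrp k hk hv => ?_⟩
  obtain ⟨hk0, hkj⟩ := tlk_h_act hk
  have hKr : (⌈cE⌉₊ + 1) * (2 * r) ≤ K :=
    (Nat.mul_le_mul_left (⌈cE⌉₊ + 1) (show 2 * r ≤ 2 * pm by omega)).trans (by omega)
  refine tlk_h_fld1 h (((tlk_L _ _ hkj).const_mul 2).sub_const (I.q k)) (c := 4) (d := ⌈cE⌉₊) hr (fun ω => ?_)
    (h.full.unt.ref_L r hr hrp k hk0 hv) (tlk_h_ref_lo h hk.1) (by omega) hKr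
  have h1 := tlk_h_L_abs (tlk_h_sp_ok h.ok h.fine) k ω
  have h2 := tlk_h_q_abs h.ok h.fine k
  have h3 := abs_sub (2 * (I.sp false).L k ω) (I.q k)
  rw [abs_mul, abs_of_pos (by norm_num : (0:ℝ) < 2)] at h3
  push_cast
  linarith

theorem tlk_f_ref_Q : ∃ K0 : ℕ, ∀ K, K0 ≤ K → ∀ (I : L8In) (e : ℕ → ℝ) (A0 A Y Zh vt vp M δ : ℝ), TlkHyp I e A0 A Y Zh vt vp cE M δ pm jm K →
    ∀ r, 1 ≤ r → r ≤ pm → ∀ k, I.act true k → I.v k ≤ vt → ∀ k₁ k₂, k ≤ k₁ → k ≤ k₂ →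
      I.moF true k r (fun ω => (I.sp true).QX k₁ k₂ ω - I.q k) ≤ (A * e k) ^ (2 * r) := by
  refine ⟨(⌈cE⌉₊ + 1) * (2 * pm) + 4, fun K hK I e A0 A Y Zh vt vp M δ h r hr hrp k hk hv k₁ k₂ h1 h2 => ?_⟩
  obtain ⟨hk0, hkj⟩ := tlk_h_act hk
  have hKr : (⌈cE⌉₊ + 1) * (2 * r) ≤ K :=
    (Nat.mul_le_mul_left (⌈cE⌉₊ + 1) (show 2 * r ≤ 2 * pm by omega)).trans (by omega)
  refine tlk_h_fld2 h hkj ((tlk_QX _ _ (hkj.trans h1) (hkj.trans h2)).sub_const (I.q k)) (c := 2) (d := ⌈cE⌉₊) hr (fun ω => ?_)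
    (h.full.unt.ref_Q r hr hrp k hk0 hv k₁ k₂ h1 h2) (tlk_h_ref_lo h hk.1) (by omega) hKr
  have h1 := tlk_h_QX_abs (tlk_h_sp_ok h.ok h.fine) k₁ k₂ ω
  have h2 := tlk_h_q_abs h.ok h.fine k
  have h3 := abs_sub ((I.sp false).QX k₁ k₂ ω) (I.q k)
  push_cast
  linarith

theorem tlk_f_d7_W : ∃ K0 : ℕ, ∀ K, K0 ≤ K → ∀ (I : L8In) (e : ℕ → ℝ) (A0 A Y Zh vt vp M δ : ℝ), TlkHyp I e A0 A Y Zh vt vp cE M δ pm jm K →
    ∀ r, Y ≤ r → r ≤ vt → ∀ j ≤ jm, I.band r (fun k => I.ex true ((I.sp true).W k) * e k ^ (2 * j)) ≤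
      A * r * (I.z0 r ^ 2 * Zh ^ 2 * r ^ 3 * (if j = 0 then 1 else (Y ^ 2 / r) ^ 2 * r ^ (2 * j - 2))) := by
  refine ⟨6 * jm + 24, fun K hK I e A0 A Y Zh vt vp M δ h r hr hr' j hj => ?_⟩
  obtain ⟨hx0, hx1, -, -, -, -, -, -, -, ha4, -⟩ := tlk_sc h.ok h.fok
  have h4 : 4 ≤ K := by omega
  have h4x : (4 : ℝ) * I.x ≤ 1 := (mul_le_mul_of_nonneg_right (by exact_mod_cast h4) hx0.le).trans h.Kx
  have hY0 : 0 ≤ Y := hx0.le.trans h.Yx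
  have hr0 : 0 ≤ r := hY0.trans hr
  rw [mul_assoc]
  refine tlk_k_int h (h.Yx.trans hr) (fun k => e k ^ (2 * j)) _ (fun k => I.ex false ((I.sp false).W k)) (c := 16) (p := 4 * jm)
    (d := 22 + 2 * jm) (fun k hk hrk => ?_) (fun k _ hk => tlk_k_E_W h hk) ?_ ?_ (fun k hk hrk => ?_) (by omega) h4 (by omega)
  · have he0 : 0 ≤ e k := (Real.rpow_nonneg hx0.le _).trans (h.full.env.lo k hk)
    refine ⟨pow_nonneg he0 _, ?_⟩
    have h1 : e k * I.x ^ 2 ≤ 1 := by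
      have h2 : e k ≤ I.x⁻¹ * 4 := by
        refine (h.full.env.hi k hk (hr.trans hrk)).trans ?_
        exact (mul_le_mul_of_nonneg_right (le_abs_self A0) (tlk_v_rg h.ok h.fine k).1).trans
          (mul_le_mul h.A0x ((tlk_v_rg h.ok h.fine k).2.1.trans ha4) (tlk_v_rg h.ok h.fine k).1 (inv_nonneg.2 hx0.le))
      calc e k * I.x ^ 2 ≤ I.x⁻¹ * 4 * I.x ^ 2 := mul_le_mul_of_nonneg_right h2 (by positivity)
        _ = 4 * I.x := by field_simp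
        _ ≤ 1 := h4x
    calc e k ^ (2 * j) * I.x ^ (4 * jm) ≤ e k ^ (2 * j) * I.x ^ (2 * (2 * j)) :=
          mul_le_mul_of_nonneg_left (pow_le_pow_of_le_one hx0.le hx1 (by omega)) (pow_nonneg he0 _)
      _ = (e k * I.x ^ 2) ^ (2 * j) := by rw [mul_pow, ← pow_mul]
      _ ≤ 1 := pow_le_one₀ (by positivity) h1
  · have := h.full.unt.d7_W r hr hr' j hj
    rwa [mul_assoc] at this
  · refine mul_nonneg hr0 (mul_nonneg (mul_nonneg (mul_nonneg (sq_nonneg _) (sq_nonneg _)) (pow_nonneg hr0 3)) ?_)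
    split_ifs
    · exact zero_le_one
    · exact mul_nonneg (sq_nonneg _) (pow_nonneg hr0 _)
  · obtain ⟨b1, b2, b3, b4⟩ := tlk_k_base h h4 hr (hrk.trans ((tlk_v_rg h.ok h.fine k).2.1.trans ha4))
    have hif : I.x ^ (6 + 2 * jm) ≤ (if j = 0 then 1 else (Y ^ 2 / r) ^ 2 * r ^ (2 * j - 2)) := by
      split_ifs
      · exact pow_le_one₀ hx0.le hx1
      · exact tlk_lo_mono hx0.le hx1 (by omega) (tlk_lo_mul hx0.le (tlk_lo_pow hx0.le b3 2) (tlk_lo_pow hx0.le b1 (2 * j - 2)))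
    exact tlk_lo_mono hx0.le hx1 (by omega) (tlk_lo_mul hx0.le b1 (tlk_lo_mul hx0.le (tlk_lo_mul hx0.le
      (tlk_lo_mul hx0.le (tlk_lo_pow hx0.le b2 2) (tlk_lo_pow hx0.le b4 2)) (tlk_lo_pow hx0.le b1 3)) hif))

theorem tlk_f_d7_C : ∃ K0 : ℕ, ∀ K, K0 ≤ K → ∀ (I : L8In) (e : ℕ → ℝ) (A0 A Y Zh vt vp M δ : ℝ), TlkHyp I e A0 A Y Zh vt vp cE M δ pm jm K →
    ∀ r, Y ≤ r → r ≤ vt → I.band r (fun k => I.ex true fun ω => (I.sp true).xCx k ω + (I.sp true).trC2 k ω) ≤ A * r * (I.z0 r ^ 2 * Zh ^ 2 * r ^ 2) := by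
  refine ⟨20, fun K hK I e A0 A Y Zh vt vp M δ h r hr hr' => ?_⟩
  obtain ⟨hx0, hx1, -, -, -, -, -, -, -, ha4, -⟩ := tlk_sc h.ok h.fok
  have h4 : 4 ≤ K := by omega
  have hr0 : 0 ≤ r := (hx0.le.trans h.Yx).trans hr
  rw [mul_assoc]
  have key := tlk_k_int h (h.Yx.trans hr) (hi := 2 * r) (T1 := r * (I.z0 r ^ 2 * Zh ^ 2 * r ^ 2)) (fun _ => 1)
    (fun k => I.ex true fun ω => (I.sp true).xCx k ω + (I.sp true).trC2 k ω)
    (fun k => I.ex false fun ω => (I.sp false).xCx k ω + (I.sp false).trC2 k ω) (c := 1) (p := 0) (d := 15)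
    (fun k _ _ => ⟨zero_le_one, by simp⟩) (fun k _ hk => tlk_k_E_C h hk)
    (by have := h.full.unt.d7_C r hr hr'; rw [mul_assoc] at this; simpa only [mul_one, L8In.band] using this)
    (mul_nonneg hr0 (mul_nonneg (mul_nonneg (sq_nonneg _) (sq_nonneg _)) (sq_nonneg _)))
    (fun k hk hrk => by
      obtain ⟨b1, b2, b3, b4⟩ := tlk_k_base h h4 hr (hrk.trans ((tlk_v_rg h.ok h.fine k).2.1.trans ha4))
      exact tlk_lo_mono hx0.le hx1 (by omega) (tlk_lo_mul hx0.le b1 (tlk_lo_mul hx0.le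
        (tlk_lo_mul hx0.le (tlk_lo_pow hx0.le b2 2) (tlk_lo_pow hx0.le b4 2)) (tlk_lo_pow hx0.le b1 2))))
    (by omega) h4 (by omega)
  simpa only [mul_one, L8In.band] using key

theorem tlk_f_d7_Q : ∃ K0 : ℕ, ∀ K, K0 ≤ K → ∀ (I : L8In) (e : ℕ → ℝ) (A0 A Y Zh vt vp M δ : ℝ), TlkHyp I e A0 A Y Zh vt vp cE M δ pm jm K →
    ∀ r, Y ≤ r → r ≤ vt → I.band r (fun k => I.moF true k 1 fun ω => (I.sp true).Q ω - I.S k) ≤ A * r * (I.z0 r * Zh * r ^ 2) := by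
  refine ⟨20, fun K hK I e A0 A Y Zh vt vp M δ h r hr hr' => ?_⟩
  obtain ⟨hx0, hx1, -, -, -, -, -, -, -, ha4, -⟩ := tlk_sc h.ok h.fok
  have h4 : 4 ≤ K := by omega
  have hr0 : 0 ≤ r := (hx0.le.trans h.Yx).trans hr
  rw [mul_assoc]
  have key := tlk_k_int h (h.Yx.trans hr) (hi := 2 * r) (T1 := r * (I.z0 r * Zh * r ^ 2)) (fun _ => 1)
    (fun k => I.moF true k 1 fun ω => (I.sp true).Q ω - I.S k)
    (fun k => I.moF false k 1 fun ω => (I.sp false).Q ω - I.S k) (c := 4) (p := 0) (d := 9)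
    (fun k _ _ => ⟨zero_le_one, by simp⟩) (fun k hkn hk => tlk_k_E_Q h hkn hk)
    (by have := h.full.unt.d7_Q r hr hr'; rw [mul_assoc] at this; simpa only [mul_one, L8In.band] using this)
    (mul_nonneg hr0 (mul_nonneg (mul_nonneg (tlk_z0_nonneg I hr0) (zero_le_one.trans h.Zh1)) (sq_nonneg _)))
    (fun k hk hrk => by
      obtain ⟨b1, b2, b3, b4⟩ := tlk_k_base h h4 hr (hrk.trans ((tlk_v_rg h.ok h.fine k).2.1.trans ha4))
      exact tlk_lo_mono hx0.le hx1 (by omega) (tlk_lo_mul hx0.le b1 (tlk_lo_mul hx0.le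
        (tlk_lo_mul hx0.le b2 b4) (tlk_lo_pow hx0.le b1 2))))
    (by omega) h4 (by omega)
  simpa only [mul_one, L8In.band] using key

theorem tlk_f_d9_W : ∃ K0 : ℕ, ∀ K, K0 ≤ K → ∀ (I : L8In) (e : ℕ → ℝ) (A0 A Y Zh vt vp M δ : ℝ), TlkHyp I e A0 A Y Zh vt vp cE M δ pm jm K →
    ∀ w, 0 < w → w ≤ 2 * Y → I.int (max w I.x) (2 * w) (fun k => I.ex true ((I.sp true).W k)) ≤ A * I.epsw Y w ^ 2 := by
  refine ⟨20, fun K hK I e A0 A Y Zh vt vp M δ h w hw hw' => ?_⟩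
  obtain ⟨hx0, hx1, -⟩ := tlk_sc h.ok h.fok
  have h4 : 4 ≤ K := by omega
  have key := tlk_k_int h (le_max_right w I.x) (hi := 2 * w) (T1 := I.epsw Y w ^ 2) (fun _ => 1)
    (fun k => I.ex true ((I.sp true).W k)) (fun k => I.ex false ((I.sp false).W k)) (c := 16) (p := 0) (d := 10)
    (fun k _ _ => ⟨zero_le_one, by simp⟩) (fun k _ hk => tlk_k_E_W h hk)
    (by simpa only [mul_one] using h.full.unt.d9_W w hw hw') (sq_nonneg _)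
    (fun k _ _ => tlk_lo_pow hx0.le (tlk_k_epsw h h4 hw') 2) (by omega) h4 (by omega)
  simpa only [mul_one] using key

theorem tlk_f_d9_Q : ∃ K0 : ℕ, ∀ K, K0 ≤ K → ∀ (I : L8In) (e : ℕ → ℝ) (A0 A Y Zh vt vp M δ : ℝ), TlkHyp I e A0 A Y Zh vt vp cE M δ pm jm K →
    ∀ w, 0 < w → w ≤ 2 * Y → I.int (max w I.x) (2 * w) (fun k => I.moF true k 1 fun ω => (I.sp true).Q ω - I.S k) ≤ A * Y * I.epsw Y w := by
  refine ⟨20, fun K hK I e A0 A Y Zh vt vp M δ h w hw hw' => ?_⟩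
  obtain ⟨hx0, hx1, -⟩ := tlk_sc h.ok h.fok
  have h4 : 4 ≤ K := by omega
  rw [mul_assoc]
  have key := tlk_k_int h (le_max_right w I.x) (hi := 2 * w) (T1 := Y * I.epsw Y w) (fun _ => 1)
    (fun k => I.moF true k 1 fun ω => (I.sp true).Q ω - I.S k)
    (fun k => I.moF false k 1 fun ω => (I.sp false).Q ω - I.S k) (c := 4) (p := 0) (d := 6)
    (fun k _ _ => ⟨zero_le_one, by simp⟩) (fun k hkn hk => tlk_k_E_Q h hkn hk)
    (by have := h.full.unt.d9_Q w hw hw'; rw [mul_assoc] at this; simpa only [mul_one] using this)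
    (mul_nonneg (hx0.le.trans h.Yx) (tlk_epsw_nonneg h.ok Y w))
    (fun k _ _ => tlk_lo_mul hx0.le (a := 1) (by rw [pow_one]; exact h.Yx) (tlk_k_epsw h h4 hw')) (by omega) h4 (by omega)
  simpa only [mul_one] using key

theorem tlk_f_d10 : ∃ K0 : ℕ, ∀ K, K0 ≤ K → ∀ (I : L8In) (e : ℕ → ℝ) (A0 A Y Zh vt vp M δ : ℝ), TlkHyp I e A0 A Y Zh vt vp cE M δ pm jm K →
    ∀ r, Y ≤ r → r ≤ vt → ∀ j, 1 ≤ j → j ≤ jm → ∀ c : ℕ → ℕ → ℝ, (∀ i ≤ j, ∀ k ≤ I.n, |c i k| ≤ e k ^ (j - i)) →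
      I.ex true (fun ω => (I.band r fun k => I.pol true c j k ω - I.ex false (I.pol false c j k)) ^ 2) ≤
        (A * r * (I.z0 r * r * Zh * (if j = 1 then 1 else Y ^ 2 / r * r ^ (j - 2)))) ^ 2 := by
  refine ⟨8 * (jm + 1) * 4 ^ jm + 4 * jm + 256, fun K hK I e A0 A Y Zh vt vp M δ h r hr1 hr2 j hj1 hj2 c hc => ?_⟩
  have hP := tlk_h_sp_ok h.ok h.fine
  have hx0 := tlk_h_x_pos h.ok
  have hx1 := h.x1
  have hinv : 1 ≤ I.x⁻¹ := (one_le_inv₀ hx0).2 hx1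
  have hxr : I.x ≤ r := h.Yx.trans hr1
  have hr0 : 0 < r := lt_of_lt_of_le hx0 hxr
  by_cases hr4 : r ≤ 4
  swap
  · -- the band is empty
    have hemp : ∀ g : ℕ → ℝ, I.band r g = 0 := by
      intro g
      unfold L8In.band L8In.int
      refine Finset.sum_eq_zero fun k hk => ?_
      have := (Finset.mem_filter.1 hk).2.1
      exact absurd (this.trans (tlk_h_v_le h.ok h.fok h.fine k)) hr4
    simp only [hemp]
    unfold L8In.ex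
    simp only [ne_eq, OfNat.ofNat_ne_zero, not_false_eq_true, zero_pow, integral_zero]
    positivity
  have hpr := hP.prob
  have hbd : ∀ k ≤ I.n, ∀ ω, |I.pol false c j k ω| ≤ (j + 1) * (4 * I.x⁻¹) ^ j := fun k hk ω => tlk_h_pol_abs h hc hk ω
  have hex : ∀ k ≤ I.n, |I.ex false (I.pol false c j k)| ≤ (j + 1) * (4 * I.x⁻¹) ^ j := by
    intro k hk
    unfold L8In.ex
    have := norm_integral_le_of_norm_le_const (μ := (I.sp false).μ) (f := I.pol false c j k) (C := (j + 1) * (4 * I.x⁻¹) ^ j)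
      (Filter.Eventually.of_forall fun ω => by rw [Real.norm_eq_abs]; exact hbd k hk ω)
    simpa using this
  rw [mul_assoc A r]
  unfold L8In.band
  refine tlk_h_sq h (gu := fun ω => I.int r (2 * r) fun k => I.pol false c j k ω - I.ex false (I.pol false c j k))
    (tlk_h_int_lk h.ok h.fine _ hxr fun k hk => TlkLk.sub_const (TlkLk.sum _ fun i _ =>
      ((((tlk_L _ _ hk).const_mul 2).sub_const (I.S k)).pow i).const_mul (c i k)) _)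
    (c := 8 * (jm + 1) * 4 ^ jm) (d := jm + 8) (p := jm) (fun ω => ?_) ?_ ?_ (by omega) (by omega)
  · have h1 := tlk_h_int_abs h.ok h.fok h.fine r (2 * r) (fun k => I.pol false c j k ω - I.ex false (I.pol false c j k))
      (G := 2 * ((j + 1) * (4 * I.x⁻¹) ^ j)) (by positivity) (fun k hk => by
        have := abs_sub (I.pol false c j k ω) (I.ex false (I.pol false c j k))
        linarith [hbd k hk ω, hex k hk])
    refine h1.trans ?_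
    have h2 : (4 * I.x⁻¹) ^ j ≤ (4 * I.x⁻¹) ^ jm := pow_le_pow_right₀ (by linarith) hj2
    have h3 : ((j : ℝ) + 1) ≤ (jm : ℝ) + 1 := by exact_mod_cast Nat.succ_le_succ hj2
    push_cast
    calc 4 * (2 * (((j : ℝ) + 1) * (4 * I.x⁻¹) ^ j)) ≤ 4 * (2 * (((jm : ℝ) + 1) * (4 * I.x⁻¹) ^ jm)) := by
          have := mul_le_mul h3 h2 (by positivity) (by positivity)
          linarith
      _ = 8 * ((jm : ℝ) + 1) * 4 ^ jm * I.x⁻¹ ^ jm := by rw [mul_pow]; ring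
  · have := h.full.unt.d10 r hr1 hr2 j hj1 hj2 c hc
    rw [mul_assoc A0 r] at this
    exact this
  · -- the lower bound of the unit target
    have z := tlk_h_z0_lo h.ok h.fok hr0 hr4
    have h256 : (256 : ℝ) * I.x ≤ 1 := by simpa using h.cx (c := 256) (by omega)
    have hz0 : (0:ℝ) ≤ I.x ^ 3 / 64 := by positivity
    have t1 : I.x ^ 3 / 64 * I.x * 1 ≤ I.z0 r * r * Zh :=
      mul_le_mul (mul_le_mul z hxr hx0.le (hz0.trans z)) h.Zh1 (by norm_num) (mul_nonneg (hz0.trans z) hr0.le)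
    have t2 : I.x ^ 2 / 4 * I.x ^ jm ≤ (if j = 1 then 1 else Y ^ 2 / r * r ^ (j - 2)) := by
      split_ifs with hj
      · have a1 : I.x ^ 2 / 4 ≤ 1 := by nlinarith
        have a2 : I.x ^ jm ≤ 1 := pow_le_one₀ hx0.le hx1
        calc I.x ^ 2 / 4 * I.x ^ jm ≤ 1 * 1 := mul_le_mul a1 a2 (by positivity) (by norm_num)
          _ = 1 := by norm_num
      · have a1 : I.x ^ 2 / 4 ≤ Y ^ 2 / r :=
          div_le_div₀ (by have := hx0.le.trans h.Yx; positivity) (pow_le_pow_left₀ hx0.le h.Yx 2) hr0 hr4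
        have a2 : I.x ^ jm ≤ r ^ (j - 2) :=
          (pow_le_pow_of_le_one hx0.le hx1 (by omega)).trans (pow_le_pow_left₀ hx0.le hxr _)
        exact mul_le_mul a1 a2 (by positivity) ((by positivity : (0:ℝ) ≤ I.x ^ 2 / 4).trans a1)
    calc I.x ^ (jm + 8) = I.x ^ (jm + 7) * I.x := by ring
      _ ≤ I.x ^ (jm + 7) * (1 / 256) := mul_le_mul_of_nonneg_left (by linarith) (by positivity)
      _ = I.x * ((I.x ^ 3 / 64 * I.x * 1) * (I.x ^ 2 / 4 * I.x ^ jm)) := by ring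
      _ ≤ r * ((I.z0 r * r * Zh) * (if j = 1 then 1 else Y ^ 2 / r * r ^ (j - 2))) :=
          mul_le_mul hxr (mul_le_mul t1 t2 (by positivity) ((by positivity : (0:ℝ) ≤ I.x ^ 3 / 64 * I.x * 1).trans t1)) (by positivity) hr0.le

theorem tlk_f_d10_low : ∃ K0 : ℕ, ∀ K, K0 ≤ K → ∀ (I : L8In) (e : ℕ → ℝ) (A0 A Y Zh vt vp M δ : ℝ), TlkHyp I e A0 A Y Zh vt vp cE M δ pm jm K →
    ∀ c : ℕ → ℝ, (∀ k, |c k| ≤ 1) → I.ex true (fun ω => (I.int I.x (2 * Y) fun k => c k * (2 * (I.sp true).L k ω - I.S k)) ^ 2) ≤ (A * I.E0 Y) ^ 2 := by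
  refine ⟨16, fun K hK I e A0 A Y Zh vt vp M δ h c hc => ?_⟩
  have hP := tlk_h_sp_ok h.ok h.fine
  obtain ⟨hx0, hx1, -, -, hl0, hl1, hxU, hU1, -⟩ := tlk_sc h.ok h.fok
  refine tlk_h_sq h (gu := fun ω => I.int I.x (2 * Y) fun k => c k * (2 * (I.sp false).L k ω - I.S k))
    (tlk_h_int_lk h.ok h.fine _ le_rfl fun k hk => (((tlk_L _ _ hk).const_mul 2).sub_const (I.S k)).const_mul (c k))
    (c := 16) (d := 4) (p := 0) (fun ω => ?_) (h.full.unt.d10_low c hc) ?_ (by omega) (by omega)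
  · have := tlk_h_int_abs h.ok h.fok h.fine I.x (2 * Y) (fun k => c k * (2 * (I.sp false).L k ω - I.S k)) (G := 4) (by norm_num)
      (fun k hk => by
        have a1 := tlk_h_L_abs hP k ω
        have a2 := tlk_h_S_abs h.ok h.fine hk
        have a3 := abs_sub (2 * (I.sp false).L k ω) (I.S k)
        rw [abs_mul 2, abs_of_pos (by norm_num : (0:ℝ) < 2)] at a3
        rw [abs_mul]
        calc |c k| * |2 * (I.sp false).L k ω - I.S k| ≤ 1 * 4 := mul_le_mul (hc k) (by linarith) (abs_nonneg _) (by norm_num)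
          _ = 4 := by norm_num)
    push_cast
    simpa using (this.trans (by norm_num))
  · unfold L8In.E0 L8In.epsw
    rw [max_self]
    have hU0 : 0 < I.U := lt_of_lt_of_le hx0 hxU
    have d1 : Real.sqrt I.lam1 * I.U ^ (3 / 2 : ℝ) ≤ 1 := by
      calc Real.sqrt I.lam1 * I.U ^ (3 / 2 : ℝ) ≤ 1 * 1 :=
            mul_le_mul (Real.sqrt_le_one.2 hl1) (Real.rpow_le_one hU0.le hU1 (by norm_num)) (by positivity) (by norm_num)
        _ = 1 := by norm_num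
    have d0 : 0 < Real.sqrt I.lam1 * I.U ^ (3 / 2 : ℝ) := mul_pos (Real.sqrt_pos.2 hl0) (Real.rpow_pos_of_pos hU0 _)
    have s1 : I.x ≤ Real.sqrt Y := by
      refine Real.le_sqrt_of_sq_le ?_
      calc I.x ^ 2 = I.x * I.x := by ring
        _ ≤ 1 * Y := mul_le_mul hx1 h.Yx hx0.le (by norm_num)
        _ = Y := one_mul _
    rw [le_div_iff₀ d0]
    calc I.x ^ 4 * (Real.sqrt I.lam1 * I.U ^ (3 / 2 : ℝ)) ≤ I.x ^ 4 * 1 := mul_le_mul_of_nonneg_left d1 (by positivity)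
      _ = I.x ^ 3 * I.x := by ring
      _ ≤ I.x ^ 3 * Real.sqrt Y := mul_le_mul_of_nonneg_left s1 (by positivity)

theorem tlk_f_proj : ∃ K0 : ℕ, ∀ K, K0 ≤ K → ∀ (I : L8In) (e : ℕ → ℝ) (A0 A Y Zh vt vp M δ : ℝ), TlkHyp I e A0 A Y Zh vt vp cE M δ pm jm K →
    ∀ r, 1 ≤ r → r ≤ pm → ∀ c', Y ≤ c' → c' ≤ vp → ∀ k kc, I.act true k → I.v k ≤ c' / 8 → c' ≤ I.v kc → I.v kc ≤ 2 * c' → ∀ k₁ k₂, kc ≤ k₁ → kc ≤ k₂ →
      I.moF true k r (fun ω => (I.sp true).QX k₁ k₂ ω - (I.sp true).QX kc kc ω) ≤ (A * (I.z0 c' * c')) ^ (2 * r) := by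
  refine ⟨12 * pm + 64, fun K hK I e A0 A Y Zh vt vp M δ h r hr hrp c' hc1 hc2 k kc hk hv1 hv2 hv3 k₁ k₂ h1 h2 => ?_⟩
  obtain ⟨hk0, hkj⟩ := tlk_h_act hk
  have hx0 := tlk_h_x_pos h.ok
  have hc0 : I.x ≤ c' := h.Yx.trans hc1
  have hc4 : c' ≤ 4 := hv2.trans (tlk_h_v_le h.ok h.fok h.fine kc)
  have hkc : I.js + 1 ≤ kc := tlk_h_js_lt h.ok h.fine (hc0.trans hv2)
  have hP := tlk_h_sp_ok h.ok h.fine
  refine tlk_h_fld2 h hkj ((tlk_QX _ _ (hkc.trans h1) (hkc.trans h2)).sub (tlk_QX _ _ hkc hkc)) (c := 2) (d := 5) hr (fun ω => ?_)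
    (h.full.unt.proj r hr hrp c' hc1 hc2 k kc hk0 hv1 hv2 hv3 k₁ k₂ h1 h2) ?_ (by omega) (by nlinarith)
  · have a1 := tlk_h_QX_abs hP k₁ k₂ ω
    have a2 := tlk_h_QX_abs hP kc kc ω
    have a3 := abs_sub ((I.sp false).QX k₁ k₂ ω) ((I.sp false).QX kc kc ω)
    push_cast
    linarith
  · have z := tlk_h_z0_lo h.ok h.fok (lt_of_lt_of_le hx0 hc0) hc4
    have h64 : (64 : ℝ) * I.x ≤ 1 := by simpa using h.cx (c := 64) (by omega)
    calc I.x ^ 5 = I.x ^ 4 * I.x := by ring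
      _ ≤ I.x ^ 4 * (1 / 64) := mul_le_mul_of_nonneg_left (by linarith) (by positivity)
      _ = I.x ^ 3 / 64 * I.x := by ring
      _ ≤ I.z0 c' * c' := mul_le_mul z hc0 hx0.le ((by positivity : (0:ℝ) ≤ I.x ^ 3 / 64).trans z)

/-- **(D8) tilted** (ask of 101; added by 75).      ROUTE: as `tlk_f_d7_Q` / `tlk_f_d9_Q`: `tlk_sum` with the weights `w k = dv k 1_{Y ≤ v k ≤ a} 1_{x^δ' ≤ e k}` (deterministic), `Eu k = D2 k` (`l8s_fork_var_Q`), `Et k` = tilted second moment about `S k`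
(linked pair `((tlk_Q ..).sub_const (S k)).pow 2`, sup bound `G = 4`), unit target `T1 = x^(-(C8 δ')) z0(1) Y² Z² ≥ x^5` (`x^(-(C8 δ')) ≥ 1`, `z0 1 ≥ x³`, `Y ≥ x`, `Z ≥ 1`), `∑ w ≤ a ≤ 4`: `K0 = 7`. -/
theorem tlk_f_d8 : ∃ K0 : ℕ, ∀ K, K0 ≤ K → ∀ (I : L8In) (e : ℕ → ℝ) (A0 A vt vp M δ : ℝ), TlkHyp I e A0 A I.Y I.Z vt vp cE M δ pm jm K →
    ∀ C8 δ' : ℝ, 0 ≤ C8 * δ' → I.D8 e A0 C8 δ' → I.D8t e A C8 δ' := by
  refine ⟨70, fun K hK I e A0 A vt vp M δ h C8 δ' h8 hsrc => ?_⟩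
  obtain ⟨hx0, hx1, -⟩ := tlk_sc h.ok h.fok
  have hP := tlk_h_sp_ok h.ok h.fine
  have hD2 : ∀ k ≤ I.n, I.moF false k 1 (fun ω => (I.sp false).Q ω - I.S k) = I.D2 k := by
    intro k hk
    have hk' : k ≤ I.P0.length := by simpa [L8In.n, L8In.P0, llMat] using hk
    have eS : (I.sp false).S k = I.S k := l8i_S I.m I.a (tlk_h_a_pos h.ok) _ h.fine.adm.1 k hk'
    have eB : (I.sp false).B k = I.B k := l8i_B I.m I.a (tlk_h_a_pos h.ok) _ h.fine.adm.1 k hk'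
    unfold L8In.moF
    rw [mul_one, ← eS, (I.sp false).l8s_fork_var_Q hP k]
    show (I.sp false).B k - (I.sp false).S k ^ 2 = I.B k - I.S k ^ 2
    rw [eS, eB]
  have hz : I.x ^ 4 ≤ I.z0 1 := by
    have h1 := tlk_h_z0_lo h.ok h.fok (r := 1) one_pos (by norm_num)
    have h64 : (64 : ℝ) * I.x ≤ 1 :=
      le_trans (mul_le_mul_of_nonneg_right (by exact_mod_cast (by omega : 64 ≤ K)) hx0.le) h.Kx
    have h3 : 0 ≤ I.x ^ 3 := pow_nonneg hx0.le 3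
    calc I.x ^ 4 = I.x ^ 3 * (64 * I.x) / 64 := by ring
      _ ≤ I.x ^ 3 * 1 / 64 := by gcongr
      _ = I.x ^ 3 / 64 := by ring
      _ ≤ _ := h1
  have hp1 : 1 ≤ I.x ^ (-(C8 * δ')) := Real.one_le_rpow_of_pos_of_le_one_of_nonpos hx0 hx1 (by linarith)
  have hT : I.x ^ 6 ≤ I.x ^ (-(C8 * δ')) * I.z0 1 * I.Y ^ 2 * I.Z ^ 2 := by
    have hY2 : I.x ^ 2 ≤ I.Y ^ 2 := pow_le_pow_left₀ hx0.le h.Yx 2
    have hZ2 : (1 : ℝ) ≤ I.Z ^ 2 := one_le_pow₀ h.Zh1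
    have h4 : 0 ≤ I.x ^ 4 := pow_nonneg hx0.le 4
    have h2 : 0 ≤ I.x ^ 2 := pow_nonneg hx0.le 2
    have hz0 : 0 ≤ I.z0 1 := h4.trans hz
    calc I.x ^ 6 = 1 * I.x ^ 4 * I.x ^ 2 * 1 := by ring
      _ ≤ I.x ^ (-(C8 * δ')) * I.z0 1 * I.Y ^ 2 * I.Z ^ 2 :=
        mul_le_mul (mul_le_mul (mul_le_mul hp1 hz h4 (zero_le_one.trans hp1)) hY2 h2 (mul_nonneg (zero_le_one.trans hp1) hz0)) hZ2 zero_le_one
          (mul_nonneg (mul_nonneg (zero_le_one.trans hp1) hz0) (sq_nonneg _))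
  have key := tlk_k_int h h.Yx (hi := I.a) (T1 := I.x ^ (-(C8 * δ')) * I.z0 1 * I.Y ^ 2 * I.Z ^ 2) (fun k => if I.x ^ δ' ≤ e k then 1 else 0)
    (fun k => I.moF true k 1 fun ω => (I.sp true).Q ω - I.S k)
    (fun k => I.moF false k 1 fun ω => (I.sp false).Q ω - I.S k) (c := 4) (p := 0) (d := 6)
    (fun k _ _ => by split_ifs <;> simp) (fun k hkn hk => tlk_k_E_Q h hkn hk)
    (by
      unfold L8In.D8 at hsrc
      refine le_trans (le_of_eq ?_) (hsrc.trans (le_of_eq (by ring)))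
      unfold L8In.int
      refine Finset.sum_congr rfl fun k hk => ?_
      have hkn : k ≤ I.n := by
        have := Finset.mem_range.1 (Finset.mem_filter.1 hk).1
        omega
      show I.dv k * ((I.moF false k 1 fun ω => (I.sp false).Q ω - I.S k) * if I.x ^ δ' ≤ e k then 1 else 0) = I.dv k * (if I.x ^ δ' ≤ e k then I.D2 k else 0)
      rw [hD2 k hkn]
      split_ifs <;> simp)
    ((pow_nonneg hx0.le 6).trans hT) (fun _ _ _ => hT) (by omega) (by omega) (by omega)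
  unfold L8In.D8t
  refine le_trans (le_of_eq ?_) (key.trans (le_of_eq (by ring)))
  unfold L8In.int
  refine Finset.sum_congr rfl fun k _ => ?_
  show I.dv k * (if I.x ^ δ' ≤ e k then I.moF true k 1 (fun ω => (I.sp true).Q ω - I.S k) else 0)
    = I.dv k * ((I.moF true k 1 fun ω => (I.sp true).Q ω - I.S k) * if I.x ^ δ' ≤ e k then 1 else 0)
  split_ifs <;> simp

/-- all the fields -/
theorem tlk_rnd : ∃ K0 : ℕ, ∀ K, K0 ≤ K → ∀ (I : L8In) (e : ℕ → ℝ) (A0 A Y Zh vt vp M δ : ℝ), TlkHyp I e A0 A Y Zh vt vp cE M δ pm jm K →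
    I.Rnd true e A Y Zh vt vp pm jm := by
  obtain ⟨K1, h1⟩ := tlk_f_raw_X pm jm cE
  obtain ⟨K2, h2⟩ := tlk_f_raw_L pm jm cE
  obtain ⟨K3, h3⟩ := tlk_f_raw_Q pm jm cE
  obtain ⟨K4, h4⟩ := tlk_f_ref_X pm jm cE
  obtain ⟨K5, h5⟩ := tlk_f_ref_L pm jm cE
  obtain ⟨K6, h6⟩ := tlk_f_ref_Q pm jm cE
  obtain ⟨K7, h7⟩ := tlk_f_d7_W pm jm cE
  obtain ⟨K8, h8⟩ := tlk_f_d7_C pm jm cE
  obtain ⟨K9, h9⟩ := tlk_f_d7_Q pm jm cE
  obtain ⟨K10, h10⟩ := tlk_f_d9_W pm jm cE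
  obtain ⟨K11, h11⟩ := tlk_f_d9_Q pm jm cE
  obtain ⟨K12, h12⟩ := tlk_f_d10 pm jm cE
  obtain ⟨K13, h13⟩ := tlk_f_d10_low pm jm cE
  obtain ⟨K14, h14⟩ := tlk_f_proj pm jm cE
  refine ⟨K1 + K2 + K3 + K4 + K5 + K6 + K7 + K8 + K9 + K10 + K11 + K12 + K13 + K14, fun K hK I e A0 A Y Zh vt vp M δ h => ?_⟩
  exact ⟨h1 K (by omega) I e A0 A Y Zh vt vp M δ h, h2 K (by omega) I e A0 A Y Zh vt vp M δ h, h3 K (by omega) I e A0 A Y Zh vt vp M δ h,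
    h4 K (by omega) I e A0 A Y Zh vt vp M δ h, h5 K (by omega) I e A0 A Y Zh vt vp M δ h, h6 K (by omega) I e A0 A Y Zh vt vp M δ h,
    h7 K (by omega) I e A0 A Y Zh vt vp M δ h, h8 K (by omega) I e A0 A Y Zh vt vp M δ h, h9 K (by omega) I e A0 A Y Zh vt vp M δ h,
    h10 K (by omega) I e A0 A Y Zh vt vp M δ h, h11 K (by omega) I e A0 A Y Zh vt vp M δ h, h12 K (by omega) I e A0 A Y Zh vt vp M δ h,
    h13 K (by omega) I e A0 A Y Zh vt vp M δ h, h14 K (by omega) I e A0 A Y Zh vt vp M δ h⟩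

end fields

/-! ### (4) monotonicity in the loss -/

theorem tlk_mono {I : L8In} {e : ℕ → ℝ} {A0 A Y Zh vt vp cE : ℝ} {pm jm : ℕ} (hOk : I.Ok) (hfine : I.Fine 1) (h : I.Full e A0 Y Zh vt vp cE pm jm)
    (hA : |A0| ≤ A) (hY : 0 ≤ Y) (hZ : 0 ≤ Zh) : I.Full e A Y Zh vt vp cE pm jm := by
  have hv : ∀ k, 0 ≤ I.v k := fun k => (tlk_v_rg hOk hfine k).1
  have he : ∀ k ≤ I.n, 0 ≤ e k := fun k hk => (Real.rpow_nonneg I.x_nonneg _).trans (h.env.lo k hk)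
  have hx := I.x_nonneg
  have hlam : 0 ≤ I.lam := (Real.rpow_nonneg hx _).trans hOk.pt.lam_lo
  have hU : 0 ≤ I.U := tlk_U_nonneg hOk
  refine ⟨⟨h.env.lo, h.env.low, fun k hk hk' => ?_, fun r hr hr' => ?_, fun k hk hk' => ?_, fun k hk hk' => ?_⟩,
    ⟨fun r hr hr' => ?_, fun k hk => ?_, fun r hr hr' => ?_, fun w hw hw' => ?_⟩,
    ⟨fun r hr hr' k hk => ?_, fun r hr hr' k hk => ?_, fun r hr hr' k hk k₁ k₂ h1 h2 => ?_,
      fun r hr hr' k hk hk' => ?_, fun r hr hr' k hk hk' => ?_, fun r hr hr' k hk hk' k₁ k₂ h1 h2 => ?_,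
      fun r hr hr' j hj => ?_, fun r hr hr' => ?_, fun r hr hr' => ?_, fun w hw hw' => ?_, fun w hw hw' => ?_,
      fun r hr hr' j hj hj' c hc => ?_, fun c hc => ?_, fun r hr hr' c' hc hc' k kc hk hk' h1 h2 k₁ k₂ h3 h4 => ?_⟩⟩
  · exact (h.env.hi k hk hk').trans (tlk_m1 hA (hv k))
  · refine (h.env.bud r hr hr').trans ?_
    exact tlk_m4 hA (hY.trans hr) (sq_nonneg _)
  · exact (h.env.f_le k hk hk').trans (tlk_m1 hA (he k hk))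
  · refine (h.env.d_le k hk hk').trans ?_
    exact mul_le_mul_of_nonneg_right (tlk_m4 hA hlam (sq_nonneg _)) (he k hk)
  · refine (h.num.d1 r hr hr').trans ?_
    exact tlk_m4 hA (hU.trans hr) (div_nonneg (pow_nonneg hY 4) (sq_nonneg _))
  · exact (h.num.s_le k hk).trans (tlk_m1 hA (add_nonneg (hv k) hY))
  · refine (h.num.d7 r hr hr').trans ?_
    exact tlk_m4 hA (hY.trans hr) (mul_nonneg (mul_nonneg (tlk_z0_nonneg I (hY.trans hr)) hZ) (sq_nonneg _))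
  · refine (h.num.d9 w hw hw').trans ?_
    exact tlk_m4 hA hY (tlk_epsw_nonneg hOk Y w)
  · exact (h.unt.raw_X r hr hr' k hk).trans (tlk_m2 hA (add_nonneg (hv k) hY) r)
  · exact (h.unt.raw_L r hr hr' k hk).trans (tlk_m2 hA (add_nonneg (hv k) hY) r)
  · exact (h.unt.raw_Q r hr hr' k hk k₁ k₂ h1 h2).trans (tlk_m2 hA (add_nonneg (hv k) hY) r)
  · exact (h.unt.ref_X r hr hr' k hk hk').trans (tlk_m2 hA (he k hk.1) r)
  · exact (h.unt.ref_L r hr hr' k hk hk').trans (tlk_m2 hA (he k hk.1) r)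
  · exact (h.unt.ref_Q r hr hr' k hk hk' k₁ k₂ h1 h2).trans (tlk_m2 hA (he k hk.1) r)
  · refine (h.unt.d7_W r hr hr' j hj).trans ?_
    refine tlk_m4 hA (hY.trans hr) (mul_nonneg (mul_nonneg (mul_nonneg (sq_nonneg _) (sq_nonneg _)) (pow_nonneg (hY.trans hr) 3)) ?_)
    split_ifs
    · exact zero_le_one
    · exact mul_nonneg (sq_nonneg _) (pow_nonneg (hY.trans hr) _)
  · refine (h.unt.d7_C r hr hr').trans ?_
    exact tlk_m4 hA (hY.trans hr) (mul_nonneg (mul_nonneg (sq_nonneg _) (sq_nonneg _)) (sq_nonneg _))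
  · refine (h.unt.d7_Q r hr hr').trans ?_
    exact tlk_m4 hA (hY.trans hr) (mul_nonneg (mul_nonneg (tlk_z0_nonneg I (hY.trans hr)) hZ) (sq_nonneg _))
  · exact (h.unt.d9_W w hw hw').trans (tlk_m1 hA (sq_nonneg _))
  · refine (h.unt.d9_Q w hw hw').trans ?_
    exact tlk_m4 hA hY (tlk_epsw_nonneg hOk Y w)
  · refine (h.unt.d10 r hr hr' j hj hj' c hc).trans ?_
    refine tlk_m5 hA (hY.trans hr) (mul_nonneg (mul_nonneg (mul_nonneg (tlk_z0_nonneg I (hY.trans hr)) (hY.trans hr)) hZ) ?_)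
    split_ifs
    · exact zero_le_one
    · exact mul_nonneg (div_nonneg (sq_nonneg _) (hY.trans hr)) (pow_nonneg (hY.trans hr) _)
  · exact (h.unt.d10_low c hc).trans (tlk_m3 hA (tlk_epsw_nonneg hOk Y _))
  · exact (h.unt.proj r hr hr' c' hc hc' k kc hk hk' h1 h2 k₁ k₂ h3 h4).trans
      (tlk_m2 hA (mul_nonneg (tlk_z0_nonneg I (hY.trans hc)) (hY.trans hc)) r)

/-! ### scales at one instance -/

/-- the fourth root (real power) is nonnegative for EVERY real base -/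
theorem tlk_rpow_quarter (t : ℝ) : 0 ≤ t ^ (1 / 4 : ℝ) := by
  rcases le_or_gt 0 t with h | h
  · exact Real.rpow_nonneg h _
  · rw [Real.rpow_def_of_neg h]
    have : Real.cos (1 / 4 * Real.pi) = Real.sqrt 2 / 2 := by
      rw [← Real.cos_pi_div_four]; congr 1; ring
    rw [this]
    positivity

/-- `x ≤ Y_v ≤ 1`, `1 ≤ Z_v` -/
theorem tlk_scales {I : L8In} (hOk : I.Ok) (hF : I.F.Ok) (lw : Bool) {κ : ℝ} (hκ : 0 < κ) (hY : lw = false → I.Y ≤ I.x ^ κ) :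
    0 < I.x ∧ I.x ≤ 1 ∧ I.x ≤ I.Yv lw ∧ I.Yv lw ≤ 1 ∧ 1 ≤ I.Zv lw := by
  obtain ⟨hx0, hx1, -, -, -, -, hxU, hU1, -⟩ := tlk_sc hOk hF
  have hU0 : 0 < I.U := hx0.trans_le hxU
  have hZ : 1 ≤ I.Z := by
    have : 0 ≤ (I.bud / I.U ^ 4) ^ (1 / 4 : ℝ) := tlk_rpow_quarter _
    unfold L8In.Z
    linarith
  have hUZ : I.x ≤ I.U * I.Z := by
    calc I.x ≤ I.U * 1 := by rw [mul_one]; exact hxU
      _ ≤ _ := mul_le_mul_of_nonneg_left hZ hU0.le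
  refine ⟨hx0, hx1, ?_⟩
  cases lw with
  | false => exact ⟨hUZ, (hY rfl).trans (Real.rpow_le_one hx0.le hx1 hκ.le), hZ⟩
  | true =>
    have hd : (0 : ℝ) < llDStar / 3 ∧ llDStar / 3 ≤ 1 := by unfold llDStar; norm_num
    have e : I.Yv true = min (I.U * I.Z) (I.x ^ (llDStar / 3)) := by
      show I.U * min I.Z (I.x ^ (llDStar / 3) / I.U) = _
      rw [mul_min_of_nonneg _ _ hU0.le, mul_div_cancel₀ _ hU0.ne']
    rw [e]
    refine ⟨le_min hUZ ?_, (min_le_right _ _).trans (Real.rpow_le_one hx0.le hx1 hd.1.le), le_rfl⟩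
    calc I.x = I.x ^ (1 : ℝ) := (Real.rpow_one _).symm
      _ ≤ _ := Real.rpow_le_rpow_of_exponent_ge hx0 hx1 hd.2

/-- arithmetic of the losses: `ε' = min ε 1`, `A0 = C0 x^(-ε'/2)`, `M = x^(-ε'/4)`, `A = (|C0| + 1) x^(-ε)` -/
theorem tlk_loss (C0 ε : ℝ) (hε : 0 < ε) (K : ℕ) : ∃ N0 : ℕ, 1 ≤ N0 ∧ ∀ x : ℝ, 0 < x → x ≤ (N0 : ℝ) ^ (-(1 / 6) : ℝ) →
    1 ≤ x ^ (-(min ε 1 / 4)) ∧ x ^ (-(min ε 1 / 4)) * (|C0 * x ^ (-(min ε 1 / 2))| + 1) ≤ (|C0| + 1) * x ^ (-ε) ∧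
      |C0 * x ^ (-(min ε 1 / 2))| ≤ (|C0| + 1) * x ^ (-ε) ∧ |C0 * x ^ (-(min ε 1 / 2))| ≤ x⁻¹ ∧ (K : ℝ) * x ≤ 1 := by
  obtain ⟨ε', hε'⟩ : ∃ ε' : ℝ, ε' = min ε 1 := ⟨_, rfl⟩
  rw [← hε']
  have e0 : 0 < ε' := hε' ▸ lt_min hε one_pos
  have e1 : ε' ≤ 1 := hε' ▸ min_le_right _ _
  have e2 : ε' ≤ ε := hε' ▸ min_le_left _ _
  obtain ⟨n0, hn0⟩ := exists_nat_ge ((K : ℝ) + 1 + C0 ^ 2)
  have hK0 : (0 : ℝ) ≤ K := Nat.cast_nonneg K
  have hn0pos : (1 : ℝ) ≤ n0 := by nlinarith [sq_nonneg C0]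
  refine ⟨n0 ^ 6, Nat.one_le_pow _ _ (by exact_mod_cast hn0pos), fun x hx hxN => ?_⟩
  have hxn : x ≤ (n0 : ℝ)⁻¹ := by
    have : (((n0 ^ 6 : ℕ) : ℝ)) ^ (-(1 / 6) : ℝ) = (n0 : ℝ)⁻¹ := by
      push_cast
      rw [← Real.rpow_natCast, ← Real.rpow_mul (by positivity)]
      norm_num
      exact Real.rpow_neg_one _
    rwa [this] at hxN
  have hn0' : (0 : ℝ) < n0 := by linarith
  have hx1 : x ≤ 1 := hxn.trans (inv_le_one_of_one_le₀ hn0pos)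
  have hnx : (n0 : ℝ) * x ≤ 1 := by
    have := mul_le_mul_of_nonneg_left hxn hn0'.le
    rwa [mul_inv_cancel₀ hn0'.ne'] at this
  have ht : 1 ≤ x ^ (-(ε' / 2)) := Real.one_le_rpow_of_pos_of_le_one_of_nonpos hx hx1 (by linarith)
  have hu : 1 ≤ x ^ (-(ε' / 4)) := Real.one_le_rpow_of_pos_of_le_one_of_nonpos hx hx1 (by linarith)
  have habs : |C0 * x ^ (-(ε' / 2))| = |C0| * x ^ (-(ε' / 2)) := by
    rw [abs_mul, abs_of_nonneg (show 0 ≤ x ^ (-(ε' / 2)) by linarith)]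
  have hut : x ^ (-(ε' / 4)) * x ^ (-(ε' / 2)) ≤ x ^ (-ε) := by
    rw [← Real.rpow_add hx]
    exact Real.rpow_le_rpow_of_exponent_ge hx hx1 (by linarith)
  have ht' : x ^ (-(ε' / 2)) ≤ x ^ (-ε) := Real.rpow_le_rpow_of_exponent_ge hx hx1 (by linarith)
  have hC : 0 ≤ |C0| := abs_nonneg _
  refine ⟨hu, ?_, ?_, ?_, ?_⟩
  · rw [habs]
    calc x ^ (-(ε' / 4)) * (|C0| * x ^ (-(ε' / 2)) + 1) ≤ x ^ (-(ε' / 4)) * (|C0| * x ^ (-(ε' / 2)) + x ^ (-(ε' / 2))) :=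
          mul_le_mul_of_nonneg_left (by linarith) (by linarith)
      _ = (|C0| + 1) * (x ^ (-(ε' / 4)) * x ^ (-(ε' / 2))) := by ring
      _ ≤ _ := mul_le_mul_of_nonneg_left hut (by linarith)
  · rw [habs]
    calc |C0| * x ^ (-(ε' / 2)) ≤ (|C0| + 1) * x ^ (-(ε' / 2)) := mul_le_mul_of_nonneg_right (by linarith) (by linarith)
      _ ≤ _ := mul_le_mul_of_nonneg_left ht' (by linarith)
  · rw [habs]
    have h2 : C0 ^ 2 ≤ 1 / x := by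
      rw [le_div_iff₀ hx]
      calc C0 ^ 2 * x ≤ n0 * x := mul_le_mul_of_nonneg_right (by linarith) hx.le
        _ ≤ 1 := hnx
    have h1 : |C0| ≤ x ^ (-(1 / 2) : ℝ) := by
      rw [← Real.sqrt_sq_eq_abs, Real.rpow_neg hx.le, ← Real.inv_rpow hx.le, ← Real.sqrt_eq_rpow, ← one_div]
      exact Real.sqrt_le_sqrt h2
    have h3 : x ^ (-(ε' / 2)) ≤ x ^ (-(1 / 2) : ℝ) := Real.rpow_le_rpow_of_exponent_ge hx hx1 (by linarith)
    have h4 : x ^ (-(1 / 2) : ℝ) * x ^ (-(1 / 2) : ℝ) = x⁻¹ := by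
      rw [← Real.rpow_add hx, ← Real.rpow_neg_one]; norm_num
    rw [← h4]
    exact mul_le_mul h1 h3 (by linarith) (Real.rpow_nonneg hx.le _)
  · calc (K : ℝ) * x ≤ n0 * x := mul_le_mul_of_nonneg_right (by nlinarith [sq_nonneg C0]) hx.le
      _ ≤ 1 := hnx

theorem tlk_expok (pB : LLParB) {pS : ℝ} (h0 : 0 < pS) (h1 : pS ≤ 1) : LlExpOk pB.sStar pB.eta pS := by
  have := pB.tau_pos
  have := pB.tau_le
  have := pB.eta_pos
  have := pB.eta_le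
  refine ⟨?_, ?_, pB.eta_pos, ?_, h0, h1⟩ <;> (try unfold LLParB.sStar) <;> linarith

/-! ### (5) the leaf -/

/-- **TIL**.      TEX[LL:par:statistics-tilt-transfer] -/
theorem l8g_til (T : ℝ) (hT : 1 < T) : L8gTil llBase T := by
  intro F0 hF pB pS h0 h1 lw κ cE v0 v1 εs qs hκ hcE hv0 hv1 hεs hqs pm jm ε hε
  obtain ⟨Ka, hrnd⟩ := tlk_rnd pm jm cE
  obtain ⟨Kb, hd8⟩ := tlk_f_d8 pm jm cE
  obtain ⟨K0, hKa, hKb⟩ : ∃ K0, Ka ≤ K0 ∧ Kb ≤ K0 := ⟨max Ka Kb, le_max_left _ _, le_max_right _ _⟩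
  have hε' : 0 < min ε 1 := lt_min hε one_pos
  refine ⟨pm, jm, min ε 1 / 2, by positivity, fun C0 => ?_⟩
  obtain ⟨N1, htr⟩ := tlk_I_tr εs qs (min ε 1 / 4) K0 hεs hqs (by positivity)
  obtain ⟨N2, hN2pos, hloss⟩ := tlk_loss C0 ε hε K0
  have hFok : (F0.wExp pB.sStar pB.eta pS).Ok := (hF.2.2 _ _ _ (tlk_expok pB h0 h1)).sec3.ok
  suffices key : ∀ I : L8In, I.F = F0.wExp pB.sStar pB.eta pS → I.𝔹 = llBase → max (max N1 N2) 1 ≤ I.p.N → l8Cls lw I.p → I.Ok → I.Fine (I.x ^ (0 : ℝ)) →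
      (lw = false → I.Y ≤ I.x ^ κ) → C0 * I.x ^ (-(min ε 1 / 2)) ≤ (|C0| + 1) * I.x ^ (-ε) ∧
      ∀ e : ℕ → ℝ, I.Full e (C0 * I.x ^ (-(min ε 1 / 2))) (I.Yv lw) (I.Zv lw) (I.vv lw v0) v1 cE pm jm →
        I.All e ((|C0| + 1) * I.x ^ (-ε)) (I.Yv lw) (I.Zv lw) (I.vv lw v0) v1 cE εs qs pm jm ∧
          (lw = false → ∀ C8 δ' : ℝ, 0 ≤ C8 * δ' → I.D8 e (C0 * I.x ^ (-(min ε 1 / 2))) C8 δ' → I.s = qs * I.x ^ (1 + εs) → I.Stop (I.x ^ εs) →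
            I.D8t e ((|C0| + 1) * I.x ^ (-ε)) C8 δ') by
    obtain ⟨N0, h⟩ := L8Ev.of_fine (l8g_fine T hT) hF pB h0 h1 0 (max (max N1 N2) 1) (R := l8Cls lw) key
    exact ⟨|C0| + 1, N0, h⟩
  · intro I hIF _ hN _ hOk hfine hY
    rw [Real.rpow_zero] at hfine
    have hIFok : I.F.Ok := hIF ▸ hFok
    obtain ⟨hx0, hx1, hYx, hY1, hZ1⟩ := tlk_scales hOk hIFok lw hκ hY
    have hN2 : N2 ≤ I.p.N := (le_max_right N1 N2).trans ((le_max_left _ _).trans hN)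
    have hN1 : N1 ≤ I.p.N := (le_max_left N1 N2).trans ((le_max_left _ _).trans hN)
    have hxN : I.x ≤ (N2 : ℝ) ^ (-(1 / 6) : ℝ) :=
      Real.rpow_le_rpow_of_nonpos (by exact_mod_cast hN2pos) (by exact_mod_cast hN2) (by norm_num)
    obtain ⟨hM1, hA, hA', hA0x, hKx⟩ := hloss I.x hx0 hxN
    refine ⟨(le_abs_self _).trans hA', fun e hfull => ?_⟩
    have hmono := tlk_mono hOk hfine hfull hA' (hx0.le.trans hYx) (zero_le_one.trans hZ1)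
    have hyp : I.s = qs * I.x ^ (1 + εs) → I.Stop (I.x ^ εs) →
        TlkHyp I e (C0 * I.x ^ (-(min ε 1 / 2))) ((|C0| + 1) * I.x ^ (-ε)) (I.Yv lw) (I.Zv lw) (I.vv lw v0) v1 cE (I.x ^ (-(min ε 1 / 4))) (I.x ^ K0) pm jm K0 :=
      fun hs hstop =>
      { ok := hOk, fok := hIFok, fine := hfine, tr := htr I hN1 hOk hIFok hfine hs hstop, full := hfull, M1 := hM1, hA := hA, A0x := hA0x,
        Yx := hYx, Y1 := hY1, Zh1 := hZ1, cE0 := hcE, Kx := hKx, δ0 := pow_nonneg hx0.le _, δK := le_rfl }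
    refine ⟨⟨hmono.env, hmono.num, hmono.unt, fun hs hstop => hrnd K0 hKa I e _ _ _ _ _ _ _ _ (hyp hs hstop)⟩, ?_⟩
    rintro rfl C8 δ' h8 hsrc hs hstop
    exact hd8 K0 hKb I e _ _ _ _ _ _ (hyp hs hstop) C8 δ' h8 hsrc

end

end Claimed.Agent.R286
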