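import Claimed.Agent.R286.L09.GridEng
import Claimed.Agent.R286.L09.Trs
import Claimed.Agent.R286.L02.Defs

/-!
# Row 286 (S0533), folder L08, file DdChain : THE CHAIN SIDE AND THE ABSTRACT ENGINE OF DD-LINK      (owner helper126; head of DD-LINK helper226; design note `DDLINK_60.md` of helper60; prefix `l8kc`, `L8kc`)      0 sorry

CONSUMER: `L08/DdLink.lean` (226): the bound of `I.dd k` = derivative in the path parameter of the field defect `d = h - K + b q` ON THE CHAIN.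
* §1 **`l8kc_M`** = (M) AT `llQs` (instance of `l9n_Mtau` of 263 at the one-site scalar hierarchy, `τ = trPair n k`): two fine paths with the same masses,
     `|q¹_k - q⁰_k - h D⁰_k[Kd]| ≤ C (M² + ∑_j dv_j d_j + d_k + d_{n+1})`, `M` = sup distance of the cumulative reference clocks, `d j` = their Taylor defect, `D = l8kcD` (depends on `P0, k, Kd` only).
     Dictionary: `l8kc_lvs` (`skLvs 1 (llSc P) = brgLs ..`), `l8kc_cum`, `l8kc_adm`, `l8kc_ms`.
* §2 pure real analysis, side `σ = ± 1` (both mirrors in ONE statement):  `l8kc_deriv_le` (one sided slope bound ⟹ `|deriv F t| ≤ Λ`; `deriv = 0` case included);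
     `l8kc_chord` (H2'): chord defect `|dw(r) - (r/h) dw(h)| ≤ 2 C r h` of the path number from (H1) of approximating chain numbers: NO dyadic argument, NO second difference;
     `l8kc_fd`: `|dE(s)| ≤ s (2 η / h + C (4 h + 2 dl))`;   `l8kc_prod`: `F = G + B E`.
* §3 `L8kcKM a Pt k t σ h LK CK dl` = (KM), THE SUPPLY asked from the clock teams (245 direct, 229 + 156 size) for a family `Pt : ℝ → LlStp` of fine paths with fixed masses;
     `l8kc_H1` (H1 from (M) + (KM));   **`l8kc_E`** the engine;   **`l8kc_dd`**: `|deriv F t| ≤ L + Lb η + Cb (2 η / h + C0 (LK² + CK)(4 h + 2 dl))` for `F = G + B (u - w)`.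
ORDER OF THE CONSTANTS: `C0 = C0(A)` (terminal mass `≤ A = 4`);  `LK, CK, Lb, Cb` at fixed `N`;  then the step `h`;  then the chain: `η ≤ tiny h`, `dl ≤ h`.
-/

set_option autoImplicit false

namespace Claimed.Agent.R286

open MeasureTheory ProbabilityTheory Set

/-! ## 1. (M) at the reference overlap of a chain -/

/-- the scalar reference of a fine LL path, coded by (mass, coordinate variances) -/
def l8kcHs (P : LlStp) : List (ℝ × (SkDr 1 → ℝ)) := P.map fun e => (e.m, Sum.elim (fun _ => 0) fun _ => e.dK)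

theorem l8kc_lvs (P : LlStp) : skLvs 1 (llSc P) = brgLs (skPhi 1) (l8kcHs P) := by
  unfold skLvs llSc brgLs l8kcHs
  rw [List.map_map, List.map_map]
  rfl

theorem l8kc_ker (dK : ℝ) (s s' : SkCfg 1) :
    ghKer (skPhi 1) (Sum.elim (fun _ => 0) fun _ => dK) s s' = dK * (skSp s 0 * skSp s' 0) := by
  unfold ghKer
  rw [Fintype.sum_sum_type]
  simp [skPhi]
  ring

theorem l8kc_cum (P : LlStp) (t : ℕ) (s s' : SkCfg 1) :
    l9nCum (skPhi 1) (l8kcHs P) t s s' = llCumK P t * (skSp s 0 * skSp s' 0) := by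
  unfold l9nCum l8kcHs llCumK
  rw [← List.map_take, List.map_map]
  induction P.take t with
  | nil => simp
  | cons e l ih =>
    simp only [List.map_cons, List.sum_cons, Function.comp]
    rw [ih, l8kc_ker]
    ring

theorem l8kc_adm {a : ℝ} {P : LlStp} (h : SkAdm a (llSc P)) : L9nAdm a (l8kcHs P) := by
  obtain ⟨h1, h2⟩ := h
  constructor
  · unfold l8kcHs
    rw [List.map_map]
    unfold llSc at h1
    rw [List.pairwise_map] at h1 ⊢
    exact h1
  · intro x hx
    unfold l8kcHs at hx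
    obtain ⟨e, he, rfl⟩ := List.mem_map.1 hx
    have := h2 ⟨e.m, 0, e.dK⟩ (List.mem_map.2 ⟨e, he, rfl⟩)
    refine ⟨⟨this.1, this.2.1⟩, fun i => ?_⟩
    rcases i with i | i
    · exact le_rfl
    · exact this.2.2.2

theorem l8kc_ms (a : ℝ) (P : LlStp) (j : ℕ) : trMs (skBase 1 a) (skLvs 1 (llSc P)) j = skMs a (llMat P) j := by
  unfold trMs skLvs skMs llSc llMat
  simp only [List.map_map, List.getElem?_map, Option.map_map, List.getD_eq_getElem?_getD]
  rcases P[j]? with _ | e <;> rfl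

/-- the test of the reference overlap -/
def l8kcT : (ℕ → SkCfg 1) → ℝ := fun σ => jtSp (σ 0 0) * jtSp (σ 1 0)

/-- **the derivative of the reference overlap of the chain** at the cut `k` in the direction `Kd` of the cumulative reference clock -/
noncomputable def l8kcD (a : ℝ) (P : LlStp) (k : ℕ) (Kd : ℕ → ℝ) : ℝ :=
  l9nD (skBase 1 a) (skLvs 1 (llSc P)) 2 (trPair P.length k) 0 l8kcT fun t s s' => Kd t * (skSp s 0 * skSp s' 0)

theorem l8kc_eqns_cite : True := by
  have := @l8kcHs.eq_1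
  have := @l8kcT.eq_1
  have := @l8kcD.eq_1
  trivial

theorem l8kc_sp_abs (s : SkCfg 1) : |skSp s 0| = 1 := by
  unfold skSp Claims.C0461.pmSpin
  split_ifs <;> simp

theorem l8kc_T_abs (σ : ℕ → SkCfg 1) : |l8kcT σ| ≤ 1 := by
  unfold l8kcT jtSp
  split_ifs <;> simp

/-- **(M) AT `llQs`**: second order Taylor defect of the reference overlap of ONE chain between two values of the reference clock (same masses).
`M` = sup distance of the cumulative clocks, `d t` = their Taylor defect after `t` stages, signed step `h`. -/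
theorem l8kc_M (A : ℝ) : ∃ C : ℝ, 0 ≤ C ∧ ∀ (a : ℝ) (P0 P1 : LlStp), 0 < a → a ≤ A → P0.map LlInc.m = P1.map LlInc.m →
    SkAdm a (llSc P0) → SkAdm a (llSc P1) → ∀ k, k ≤ P0.length + 1 → ∀ (Kd : ℕ → ℝ) (h M : ℝ) (d : ℕ → ℝ),
    (∀ t, |llCumK P1 t - llCumK P0 t| ≤ M) → (∀ t, |llCumK P1 t - llCumK P0 t - h * Kd t| ≤ d t) →
    |llQs a P1 k - llQs a P0 k - h * l8kcD a P0 k Kd|
      ≤ C * (M ^ 2 + ∑ j ∈ Finset.range (P0.length + 1), skGap a (llMat P0) j * d j + d k + d (P0.length + 1)) := by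
  obtain ⟨C, hC, H⟩ := l9n_Mtau 2 A
  refine ⟨C, hC, ?_⟩
  intro a P0 P1 ha haA hm h0 h1 k hk Kd h M d hM hd
  have hlen : P1.length = P0.length := by simpa using (congrArg List.length hm).symm
  have hl0 : (l8kcHs P0).length = P0.length := by simp [l8kcHs]
  have hm' : (l8kcHs P0).map Prod.fst = (l8kcHs P1).map Prod.fst := by
    unfold l8kcHs
    rw [List.map_map, List.map_map]
    exact hm
  have hd0 : ∀ t, 0 ≤ d t := fun t => (abs_nonneg _).trans (hd t)
  have key := H (SkCfg 1) (SkDr 1) (skBase 1 a) (ll2_law_base_ok 1 ha) haA (skPhi 1) (l8kcHs P0) (l8kcHs P1) hm'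
    (l8kc_adm h0) (l8kc_adm h1) (trPair P0.length k) (by rw [hl0]; exact l9s_isTr_pair _ k hk) 0 l8kcT
    (fun σ σ' hσ => by unfold l8kcT; rw [hσ 0 (by norm_num), hσ 1 (by norm_num)]) 1 l8kc_T_abs
    (fun t s s' => Kd t * (skSp s 0 * skSp s' 0)) h M d
    (fun t s s' => by
      rw [l8kc_cum, l8kc_cum, ← sub_mul, abs_mul, abs_mul, l8kc_sp_abs, l8kc_sp_abs]
      simpa using hM t)
    (fun t s s' => by
      rw [l8kc_cum, l8kc_cum, show llCumK P1 t * (skSp s 0 * skSp s' 0) - llCumK P0 t * (skSp s 0 * skSp s' 0)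
          - h * (Kd t * (skSp s 0 * skSp s' 0)) = (llCumK P1 t - llCumK P0 t - h * Kd t) * (skSp s 0 * skSp s' 0) by ring,
        abs_mul, abs_mul, l8kc_sp_abs, l8kc_sp_abs]
      simpa using hd t)
  rw [← l8kc_lvs, ← l8kc_lvs, hl0] at key
  have e1 : llQs a P1 k = trNu (skBase 1 a) (skLvs 1 (llSc P1)) 2 (trPair P0.length k) 0 l8kcT := by
    rw [← hlen]; rfl
  have e0 : llQs a P0 k = trNu (skBase 1 a) (skLvs 1 (llSc P0)) 2 (trPair P0.length k) 0 l8kcT := rfl
  rw [e1, e0]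
  refine le_trans key ?_
  rw [mul_one]
  refine mul_le_mul_of_nonneg_left ?_ hC
  have eS : ∑ j ∈ Finset.range (P0.length + 1),
      (trMs (skBase 1 a) (skLvs 1 (llSc P0)) j - trPm (trMs (skBase 1 a) (skLvs 1 (llSc P0))) j) * d j
      = ∑ j ∈ Finset.range (P0.length + 1), skGap a (llMat P0) j * d j := by
    refine Finset.sum_congr rfl fun j _ => ?_
    unfold trPm skGap
    rw [l8kc_ms, l8kc_ms]
  rw [eS]
  have eF : ∑ j ∈ l9nFk 2 (trPair P0.length k), d j ≤ d k + d (P0.length + 1) := by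
    have hsub : l9nFk 2 (trPair P0.length k) ⊆ {k, P0.length + 1} := by
      intro j hj
      unfold l9nFk at hj
      obtain ⟨p, -, rfl⟩ := Finset.mem_image.1 hj
      unfold trPair
      split_ifs <;> simp
    refine le_trans (Finset.sum_le_sum_of_subset_of_nonneg hsub fun j _ _ => hd0 j) ?_
    by_cases hk' : k = P0.length + 1
    · rw [hk']
      simp only [Finset.insert_eq_of_mem, Finset.mem_singleton, Finset.sum_singleton]
      linarith [hd0 (P0.length + 1)]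
    · rw [Finset.sum_pair hk']
  linarith

/-! ## 2. finite differences at a fixed step (pure real analysis) -/

/-- **one sided slope bound ⟹ bound of `deriv`** (`deriv = 0` where the function is not differentiable); `σ = ± 1` is the side -/
theorem l8kc_deriv_le {F : ℝ → ℝ} {t h Λ σ : ℝ} (hσ : σ = 1 ∨ σ = -1) (hh : 0 < h) (hΛ : 0 ≤ Λ)
    (H : ∀ s, 0 < s → s ≤ h → |F (t + σ * s) - F t| ≤ s * Λ) : |deriv F t| ≤ Λ := by
  by_cases hd : DifferentiableAt ℝ F t
  · have h1 := hasDerivAt_iff_tendsto_slope_zero.1 hd.hasDerivAt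
    rcases hσ with rfl | rfl
    · have h2 : Filter.Tendsto (fun s : ℝ => s⁻¹ • (F (t + s) - F t)) (nhdsWithin 0 (Ioi 0)) (nhds (deriv F t)) :=
        h1.mono_left (nhdsWithin_mono _ fun s hs => ne_of_gt hs)
      refine le_of_tendsto h2.abs ?_
      filter_upwards [Ioc_mem_nhdsGT hh] with s hs
      have := H s hs.1 hs.2
      rw [one_mul] at this
      rw [smul_eq_mul, abs_mul, abs_inv, abs_of_pos hs.1, inv_mul_le_iff₀ hs.1]
      exact this
    · have h2 : Filter.Tendsto (fun s : ℝ => s⁻¹ • (F (t + s) - F t)) (nhdsWithin 0 (Iio 0)) (nhds (deriv F t)) :=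
        h1.mono_left (nhdsWithin_mono _ fun s hs => ne_of_lt hs)
      refine le_of_tendsto h2.abs ?_
      filter_upwards [Ico_mem_nhdsLT (show -h < 0 by linarith)] with s hs
      have hs0 : 0 < -s := by linarith [hs.2]
      have := H (-s) hs0 (by linarith [hs.1])
      rw [show (-1 : ℝ) * -s = s by ring] at this
      rw [smul_eq_mul, abs_mul, abs_inv, abs_of_neg hs.2, inv_mul_le_iff₀ hs0]
      exact this
  · rw [deriv_zero_of_not_differentiableAt hd, abs_zero]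
    exact hΛ

/-- **(H2')**: the chord defect of the PATH number `w` at the fixed step `h`, from the first order expansions (H1) of approximating chain numbers (same constant `C`, any slopes) -/
theorem l8kc_chord {w : ℝ → ℝ} {t h C σ r : ℝ} (hr : 0 < r) (hrh : r ≤ h) (hC : 0 ≤ C)
    (H : ∀ ε : ℝ, 0 < ε → ∃ (u : ℝ → ℝ) (a : ℝ), |u t - w t| ≤ ε ∧ |u (t + σ * r) - w (t + σ * r)| ≤ ε ∧ |u (t + σ * h) - w (t + σ * h)| ≤ ε ∧
      |u (t + σ * r) - u t - σ * r * a| ≤ C * r * (r + ε) ∧ |u (t + σ * h) - u t - σ * h * a| ≤ C * h * (h + ε)) :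
    |(w (t + σ * r) - w t) - r / h * (w (t + σ * h) - w t)| ≤ 2 * C * r * h := by
  have hh : 0 < h := hr.trans_le hrh
  have hq0 : 0 ≤ r / h := (div_pos hr hh).le
  have hq1 : r / h ≤ 1 := (div_le_one hh).2 hrh
  refine le_of_forall_pos_le_add fun δ hδ => ?_
  set ε : ℝ := δ / (4 + 2 * C * r) with hε
  have hden : 0 < 4 + 2 * C * r := by positivity
  have hε0 : 0 < ε := div_pos hδ hden
  obtain ⟨u, a, h0, h1, h2, h3, h4⟩ := H ε hε0
  have e : (w (t + σ * r) - w t) - r / h * (w (t + σ * h) - w t)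
      = -(u (t + σ * r) - w (t + σ * r)) + (u t - w t) + r / h * (u (t + σ * h) - w (t + σ * h)) - r / h * (u t - w t)
        + (u (t + σ * r) - u t - σ * r * a) - r / h * (u (t + σ * h) - u t - σ * h * a) := by
    field_simp
    ring
  rw [e]
  have b1 : |r / h * (u (t + σ * h) - w (t + σ * h))| ≤ ε := by
    rw [abs_mul, abs_of_nonneg hq0]
    calc r / h * |u (t + σ * h) - w (t + σ * h)| ≤ 1 * ε := mul_le_mul hq1 h2 (abs_nonneg _) zero_le_one
      _ = ε := one_mul _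
  have b2 : |r / h * (u t - w t)| ≤ ε := by
    rw [abs_mul, abs_of_nonneg hq0]
    calc r / h * |u t - w t| ≤ 1 * ε := mul_le_mul hq1 h0 (abs_nonneg _) zero_le_one
      _ = ε := one_mul _
  have b3 : |r / h * (u (t + σ * h) - u t - σ * h * a)| ≤ C * r * (h + ε) := by
    rw [abs_mul, abs_of_nonneg hq0]
    calc r / h * |u (t + σ * h) - u t - σ * h * a| ≤ r / h * (C * h * (h + ε)) := mul_le_mul_of_nonneg_left h4 hq0
      _ = C * r * (h + ε) := by field_simp
  have b4 : C * r * (r + ε) ≤ C * r * (h + ε) := mul_le_mul_of_nonneg_left (by linarith) (by positivity)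
  have hεδ : (4 + 2 * C * r) * ε = δ := by rw [hε]; field_simp
  have t1 := abs_sub (-(u (t + σ * r) - w (t + σ * r)) + (u t - w t) + r / h * (u (t + σ * h) - w (t + σ * h)) - r / h * (u t - w t)
        + (u (t + σ * r) - u t - σ * r * a)) (r / h * (u (t + σ * h) - u t - σ * h * a))
  have t2 := abs_add_le (-(u (t + σ * r) - w (t + σ * r)) + (u t - w t) + r / h * (u (t + σ * h) - w (t + σ * h)) - r / h * (u t - w t))
        (u (t + σ * r) - u t - σ * r * a)
  have t3 := abs_sub (-(u (t + σ * r) - w (t + σ * r)) + (u t - w t) + r / h * (u (t + σ * h) - w (t + σ * h))) (r / h * (u t - w t))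
  have t4 := abs_add_le (-(u (t + σ * r) - w (t + σ * r)) + (u t - w t)) (r / h * (u (t + σ * h) - w (t + σ * h)))
  have t5 := abs_add_le (-(u (t + σ * r) - w (t + σ * r))) (u t - w t)
  rw [abs_neg] at t5
  nlinarith

/-- **FD**: increments of `E = u - w` on the side `σ`, from `|E| ≤ η` at the two ends of the FIXED step `h`, (H1) for `u` and the chord defect of `w` -/
theorem l8kc_fd {u w : ℝ → ℝ} {t h C dl η σ a : ℝ} (hh : 0 < h) (hC : 0 ≤ C) (hdl : 0 ≤ dl)
    (H0 : |u t - w t| ≤ η) (H0' : |u (t + σ * h) - w (t + σ * h)| ≤ η)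
    (H1 : ∀ r, 0 < r → r ≤ h → |u (t + σ * r) - u t - σ * r * a| ≤ C * r * (r + dl))
    (H2 : ∀ r, 0 < r → r ≤ h → |(w (t + σ * r) - w t) - r / h * (w (t + σ * h) - w t)| ≤ 2 * C * r * h) :
    ∀ s, 0 < s → s ≤ h → |(u (t + σ * s) - w (t + σ * s)) - (u t - w t)| ≤ s * (2 * η / h + C * (4 * h + 2 * dl)) := by
  intro s hs hsh
  have hq0 : 0 ≤ s / h := (div_pos hs hh).le
  have e : (u (t + σ * s) - w (t + σ * s)) - (u t - w t)
      = (u (t + σ * s) - u t - σ * s * a) - s / h * (u (t + σ * h) - u t - σ * h * a)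
        - ((w (t + σ * s) - w t) - s / h * (w (t + σ * h) - w t))
        + s / h * (u (t + σ * h) - w (t + σ * h)) - s / h * (u t - w t) := by
    field_simp
    ring
  rw [e]
  have b1 := H1 s hs hsh
  have b2 : |s / h * (u (t + σ * h) - u t - σ * h * a)| ≤ C * s * (h + dl) := by
    rw [abs_mul, abs_of_nonneg hq0]
    calc s / h * |u (t + σ * h) - u t - σ * h * a| ≤ s / h * (C * h * (h + dl)) := mul_le_mul_of_nonneg_left (H1 h hh le_rfl) hq0
      _ = C * s * (h + dl) := by field_simp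
  have b3 := H2 s hs hsh
  have b4 : |s / h * (u (t + σ * h) - w (t + σ * h))| ≤ s * (η / h) := by
    rw [abs_mul, abs_of_nonneg hq0]
    calc s / h * |u (t + σ * h) - w (t + σ * h)| ≤ s / h * η := mul_le_mul_of_nonneg_left H0' hq0
      _ = s * (η / h) := by ring
  have b5 : |s / h * (u t - w t)| ≤ s * (η / h) := by
    rw [abs_mul, abs_of_nonneg hq0]
    calc s / h * |u t - w t| ≤ s / h * η := mul_le_mul_of_nonneg_left H0 hq0
      _ = s * (η / h) := by ring
  have b6 : C * s * (s + dl) ≤ C * s * (h + dl) := mul_le_mul_of_nonneg_left (by linarith) (by positivity)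
  have t1 := abs_sub ((u (t + σ * s) - u t - σ * s * a) - s / h * (u (t + σ * h) - u t - σ * h * a)
        - ((w (t + σ * s) - w t) - s / h * (w (t + σ * h) - w t)) + s / h * (u (t + σ * h) - w (t + σ * h))) (s / h * (u t - w t))
  have t2 := abs_add_le ((u (t + σ * s) - u t - σ * s * a) - s / h * (u (t + σ * h) - u t - σ * h * a)
        - ((w (t + σ * s) - w t) - s / h * (w (t + σ * h) - w t))) (s / h * (u (t + σ * h) - w (t + σ * h)))
  have t3 := abs_sub ((u (t + σ * s) - u t - σ * s * a) - s / h * (u (t + σ * h) - u t - σ * h * a))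
        ((w (t + σ * s) - w t) - s / h * (w (t + σ * h) - w t))
  have t4 := abs_sub (u (t + σ * s) - u t - σ * s * a) (s / h * (u (t + σ * h) - u t - σ * h * a))
  have e2 : s * (2 * η / h + C * (4 * h + 2 * dl)) = C * s * (h + dl) + C * s * (h + dl) + 2 * C * s * h + s * (η / h) + s * (η / h) := by ring
  rw [e2]
  linarith

/-- **product rule for one sided slopes**: `F = G + B E` -/
theorem l8kc_prod {F G B E : ℝ → ℝ} {t h σ L Lb Cb η κ : ℝ}
    (hF : ∀ s, 0 ≤ s → s ≤ h → F (t + σ * s) = G (t + σ * s) + B (t + σ * s) * E (t + σ * s))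
    (hG : ∀ s, 0 < s → s ≤ h → |G (t + σ * s) - G t| ≤ s * L)
    (hB : ∀ s, 0 < s → s ≤ h → |B (t + σ * s) - B t| ≤ s * Lb) (hB0 : ∀ s, 0 < s → s ≤ h → |B (t + σ * s)| ≤ Cb)
    (hE0 : |E t| ≤ η) (hE : ∀ s, 0 < s → s ≤ h → |E (t + σ * s) - E t| ≤ s * κ) :
    ∀ s, 0 < s → s ≤ h → |F (t + σ * s) - F t| ≤ s * (L + Lb * η + Cb * κ) := by
  intro s hs hsh
  have h0 := hF 0 le_rfl (hs.le.trans hsh)
  rw [mul_zero, add_zero] at h0
  rw [hF s hs.le hsh, h0]
  have e : G (t + σ * s) + B (t + σ * s) * E (t + σ * s) - (G t + B t * E t)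
      = (G (t + σ * s) - G t) + (B (t + σ * s) - B t) * E t + B (t + σ * s) * (E (t + σ * s) - E t) := by ring
  rw [e]
  have b1 := hG s hs hsh
  have b2 : |(B (t + σ * s) - B t) * E t| ≤ s * Lb * η := by
    rw [abs_mul]
    exact mul_le_mul (hB s hs hsh) hE0 (abs_nonneg _) ((abs_nonneg _).trans (hB s hs hsh))
  have b3 : |B (t + σ * s) * (E (t + σ * s) - E t)| ≤ Cb * (s * κ) := by
    rw [abs_mul]
    exact mul_le_mul (hB0 s hs hsh) (hE s hs hsh) (abs_nonneg _) ((abs_nonneg _).trans (hB0 s hs hsh))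
  have t1 := abs_add_le ((G (t + σ * s) - G t) + (B (t + σ * s) - B t) * E t) (B (t + σ * s) * (E (t + σ * s) - E t))
  have t2 := abs_add_le (G (t + σ * s) - G t) ((B (t + σ * s) - B t) * E t)
  have e2 : s * (L + Lb * η + Cb * κ) = s * L + s * Lb * η + Cb * (s * κ) := by ring
  rw [e2]
  linarith

/-! ## 3. the engine on a family of fine paths -/

/-- **(KM)**: Taylor data of the reference clock of a family `Pt` of fine paths with FIXED masses, at the parameter `t`, on the side `σ`, steps `≤ h`, for the cut `k`: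
Lipschitz constant `LK` of all the cumulative clocks; the Taylor defects (direction `Kd` = ANY numbers), integrated in mass + at the fork `k` + at the top, are `≤ CK r (r + dl)`. -/
structure L8kcKM (a : ℝ) (Pt : ℝ → LlStp) (k : ℕ) (t σ h LK CK dl : ℝ) : Prop where
  adm : ∀ r, 0 ≤ r → r ≤ h → SkAdm a (llSc (Pt (t + σ * r)))
  ms : ∀ r, 0 ≤ r → r ≤ h → (Pt t).map LlInc.m = (Pt (t + σ * r)).map LlInc.m
  k_le : k ≤ (Pt t).length + 1
  tay : ∃ Kd : ℕ → ℝ, ∀ r, 0 < r → r ≤ h →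
    (∀ j, |llCumK (Pt (t + σ * r)) j - llCumK (Pt t) j| ≤ LK * r) ∧
    ∑ j ∈ Finset.range ((Pt t).length + 1), skGap a (llMat (Pt t)) j * |llCumK (Pt (t + σ * r)) j - llCumK (Pt t) j - σ * r * Kd j|
      + |llCumK (Pt (t + σ * r)) k - llCumK (Pt t) k - σ * r * Kd k|
      + |llCumK (Pt (t + σ * r)) ((Pt t).length + 1) - llCumK (Pt t) ((Pt t).length + 1) - σ * r * Kd ((Pt t).length + 1)| ≤ CK * r * (r + dl)

/-- **(H1)** for the reference overlap of the chain, from (M) and (KM) -/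
theorem l8kc_H1 (A : ℝ) : ∃ C0 : ℝ, 0 ≤ C0 ∧ ∀ (a : ℝ) (Pt : ℝ → LlStp) (k : ℕ) (t σ h LK CK dl : ℝ), 0 < a → a ≤ A → 0 < h → 0 ≤ dl →
    L8kcKM a Pt k t σ h LK CK dl → ∃ a' : ℝ, ∀ r, 0 < r → r ≤ h →
      |llQs a (Pt (t + σ * r)) k - llQs a (Pt t) k - σ * r * a'| ≤ C0 * (LK ^ 2 + CK) * r * (r + dl) := by
  obtain ⟨C0, hC0, H⟩ := l8kc_M A
  refine ⟨C0, hC0, ?_⟩
  intro a Pt k t σ h LK CK dl ha haA hh hdl hK
  obtain ⟨Kd, hKd⟩ := hK.tay
  refine ⟨l8kcD a (Pt t) k Kd, fun r hr hrh => ?_⟩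
  obtain ⟨h1, h2⟩ := hKd r hr hrh
  have h0 := hK.adm 0 le_rfl hh.le
  rw [mul_zero, add_zero] at h0
  have key := H a (Pt t) (Pt (t + σ * r)) ha haA (hK.ms r hr.le hrh) h0 (hK.adm r hr.le hrh) k hK.k_le Kd (σ * r) (LK * r)
    (fun j => |llCumK (Pt (t + σ * r)) j - llCumK (Pt t) j - σ * r * Kd j|) h1 (fun j => le_rfl)
  refine le_trans key ?_
  have e : C0 * (LK ^ 2 + CK) * r * (r + dl) = C0 * (LK ^ 2 * r * (r + dl) + CK * r * (r + dl)) := by ring
  rw [e]
  refine mul_le_mul_of_nonneg_left ?_ hC0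
  have b : (LK * r) ^ 2 ≤ LK ^ 2 * r * (r + dl) := by
    have : (LK * r) ^ 2 = LK ^ 2 * r * r := by ring
    rw [this]
    exact mul_le_mul_of_nonneg_left (by linarith) (by positivity)
  linarith

/-- **THE ENGINE OF DD-LINK**.   `u(t') = llQs a (Pt t') k` the chain number, `w` = the path number.   If `|u - w| ≤ η` at the two ends of the fixed step `h`, (KM) holds on the chain (mesh `dl`) and
on chains which approximate `w` arbitrarily well (same constants `LK, CK`, mesh `→ 0`), then `E = u - w` has the one sided slope `≤ 2 η / h + C0 (LK² + CK)(4 h + 2 dl)`. -/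
theorem l8kc_E (A : ℝ) : ∃ C0 : ℝ, 0 ≤ C0 ∧ ∀ (a : ℝ) (Pt : ℝ → LlStp) (k : ℕ) (w : ℝ → ℝ) (t σ h LK CK dl η : ℝ), 0 < a → a ≤ A → 0 < h → 0 ≤ dl → 0 ≤ CK →
    L8kcKM a Pt k t σ h LK CK dl → |llQs a (Pt t) k - w t| ≤ η → |llQs a (Pt (t + σ * h)) k - w (t + σ * h)| ≤ η →
    (∀ ε : ℝ, 0 < ε → ∃ (Pt' : ℝ → LlStp) (k' : ℕ), L8kcKM a Pt' k' t σ h LK CK ε ∧
      ∀ r, 0 ≤ r → r ≤ h → |llQs a (Pt' (t + σ * r)) k' - w (t + σ * r)| ≤ ε) →
    ∀ s, 0 < s → s ≤ h → |(llQs a (Pt (t + σ * s)) k - w (t + σ * s)) - (llQs a (Pt t) k - w t)|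
      ≤ s * (2 * η / h + C0 * (LK ^ 2 + CK) * (4 * h + 2 * dl)) := by
  obtain ⟨C0, hC0, H⟩ := l8kc_H1 A
  refine ⟨C0, hC0, ?_⟩
  intro a Pt k w t σ h LK CK dl η ha haA hh hdl hCK hK h0 h0' hfin
  have hC : 0 ≤ C0 * (LK ^ 2 + CK) := by positivity
  obtain ⟨a', ha'⟩ := H a Pt k t σ h LK CK dl ha haA hh hdl hK
  refine l8kc_fd (u := fun t' => llQs a (Pt t') k) (a := a') hh hC hdl h0 h0' ha' fun r hr hrh => ?_
  refine l8kc_chord hr hrh hC fun ε hε => ?_
  obtain ⟨Pt', k', hK', hq⟩ := hfin ε hε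
  obtain ⟨a'', ha''⟩ := H a Pt' k' t σ h LK CK ε ha haA hh hε.le hK'
  have q0 := hq 0 le_rfl hh.le
  rw [mul_zero, add_zero] at q0
  exact ⟨fun t' => llQs a (Pt' t') k', a'', q0, hq r hr.le hrh, hq h hh.le le_rfl, ha'' r hr hrh, ha'' h hh le_rfl⟩

/-- **DD-LINK, abstract form**: `F = G + B (u - w)` on the side `σ` of `t` -/
theorem l8kc_dd (A : ℝ) : ∃ C0 : ℝ, 0 ≤ C0 ∧ ∀ (a : ℝ) (Pt : ℝ → LlStp) (k : ℕ) (F G B w : ℝ → ℝ) (t σ h LK CK dl η L Lb Cb : ℝ), 0 < a → a ≤ A → (σ = 1 ∨ σ = -1) →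
    0 < h → 0 ≤ dl → 0 ≤ CK → 0 ≤ L → 0 ≤ Lb → 0 ≤ Cb →
    L8kcKM a Pt k t σ h LK CK dl → |llQs a (Pt t) k - w t| ≤ η → |llQs a (Pt (t + σ * h)) k - w (t + σ * h)| ≤ η →
    (∀ ε : ℝ, 0 < ε → ∃ (Pt' : ℝ → LlStp) (k' : ℕ), L8kcKM a Pt' k' t σ h LK CK ε ∧
      ∀ r, 0 ≤ r → r ≤ h → |llQs a (Pt' (t + σ * r)) k' - w (t + σ * r)| ≤ ε) →
    (∀ s, 0 ≤ s → s ≤ h → F (t + σ * s) = G (t + σ * s) + B (t + σ * s) * (llQs a (Pt (t + σ * s)) k - w (t + σ * s))) →
    (∀ s, 0 < s → s ≤ h → |G (t + σ * s) - G t| ≤ s * L) → (∀ s, 0 < s → s ≤ h → |B (t + σ * s) - B t| ≤ s * Lb) →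
    (∀ s, 0 < s → s ≤ h → |B (t + σ * s)| ≤ Cb) →
    |deriv F t| ≤ L + Lb * η + Cb * (2 * η / h + C0 * (LK ^ 2 + CK) * (4 * h + 2 * dl)) := by
  obtain ⟨C0, hC0, H⟩ := l8kc_E A
  refine ⟨C0, hC0, ?_⟩
  intro a Pt k F G B w t σ h LK CK dl η L Lb Cb ha haA hσ hh hdl hCK hL hLb hCb hK h0 h0' hfin hF hG hB hB0
  have hη : 0 ≤ η := (abs_nonneg _).trans h0
  have hE := H a Pt k w t σ h LK CK dl η ha haA hh hdl hCK hK h0 h0' hfin
  refine l8kc_deriv_le hσ hh (by positivity) ?_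
  exact l8kc_prod (E := fun t' => llQs a (Pt t') k - w t') hF hG hB hB0 h0 hE

end Claimed.Agent.R286
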