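import Claimed.Agent.R286.Defs.Jet
import Claimed.Agent.R286.Defs.Tr

/-!
# Row 286 (S0533), folder L08, file HiCtx : CONTEXT of LL Prop 8.11 (D15) and interface form of (D16)      (owner helper234; prefix `L8H` / `l8h_`)

Everything lives on an abstract jet context `X : JtCtx S` (`Defs/Jet.lean`), FINE level, tables = `IsTr X.N q τ` (`Defs/Tr.lean`: diagonal `N + 1`, coincident labels `N + 1`).

* `JtCtx.Ok X a` : what (D15) uses of the allocation calculus and of the positive laws (each field = a lemma of `Fd/TrA*`, `Fd/TrB*` for `trSumK, trAbsK, trNu`);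
* numbers of a pair which shares `t` stages: `Sf t = ν[Q]`, `D2 t = ν[(Q - S)²]`, `Dd t`, `ff = S - q`, `dd = h + b q - K`, `ph = b f + d = h + b S - K`;
* `L8_LS1` : (D16), first conclusion, in the form consumed by (D15) and by LL 09 (absolute allocation measure, arbitrary weight with an envelope majorant);
* `L8H_H1` : the pair inverse (H1) evaluated at the old pair, `L8H_H2` : the longitudinal identity (H2), `L8H_PAR` : parity bound of the coefficient of a sole low factor.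
-/

set_option autoImplicit false

namespace Claimed.Agent.R286

open Finset

/-- two tables agree on the labels `< q` -/
def JtAgree (q : ℕ) (τ τ' : JtTopo) : Prop := ∀ x y, x < q → y < q → τ' x y = τ x y

/-- a function of tables which sees the labels `< q` only -/
def JtLoc (q : ℕ) (g : JtTopo → ℝ) : Prop := ∀ τ τ', JtAgree q τ τ' → g τ = g τ'

/-- the table of two labels which share `t` stages -/
def jtTab2 (N t : ℕ) : JtTopo := fun x y => if x = y then N + 1 else t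

/-- the table on four labels in which `2` coincides with `0` and `3` with `1` -/
def jtTabO (N t : ℕ) : JtTopo := fun x y => jtTab2 N t (x % 2) (y % 2)

/-- the labels `0, 1, q, q + 1` read as `0, 1, 2, 3` -/
def jtSh (q : ℕ) (x : ℕ) : ℕ := if x < 2 then x else x - 2 + q

namespace JtCtx
variable {S : Type} (X : JtCtx S)

/-- what (D15), (D16) use of the allocation calculus and of the positive laws; `a` = terminal mass -/
structure Ok (a : ℝ) : Prop where
  a_pos : 0 < a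
  /-- an absolute allocation sum is a finite nonnegative combination of values at extensions of the old tree -/
  abs_rep : ∀ k q τ, IsTr X.N q τ → ∃ (ι : Type) (_ : Fintype ι) (A : ι → ℝ) (E : ι → JtTopo), (∀ i, 0 ≤ A i) ∧
    (∀ i, IsTr X.N (q + k) (E i) ∧ JtAgree q τ (E i)) ∧ ∀ Φ, X.absK k q τ Φ = ∑ i, A i * Φ (E i)
  abs_add : ∀ k l q τ Φ, X.absK (k + l) q τ Φ = X.absK k q τ fun τ' => X.absK l (q + k) τ' Φ
  abs_mass : ∀ k q τ, IsTr X.N q τ → X.absK k q τ (fun _ => 1) ≤ (2 * a) ^ k * ∏ i ∈ range k, ((q : ℝ) + i)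
  sum_sign : ∀ k q, ∃ sg : JtTopo → ℝ, JtLoc (q + k) sg ∧ (∀ τ', |sg τ'| ≤ 1) ∧
    ∀ τ Φ, IsTr X.N q τ → X.sumK k q τ Φ = X.absK k q τ fun τ' => sg τ' * Φ τ'
  /-- a positive law on spin tests is a probability vector -/
  nu_rep : ∀ q τ, IsTr X.N q τ → ∃ (ι : Type) (_ : Fintype ι) (p : ι → ℝ) (σ : ι → ℕ → S), (∀ i, 0 ≤ p i) ∧ ∑ i, p i = 1 ∧
    ∀ F, X.nu q τ F = ∑ i, p i * F (σ i)
  nu_congr : ∀ q τ τ' F, JtAgree q τ τ' → X.nu q τ F = X.nu q τ' F
  nuK_congr : ∀ q τ τ' F, JtAgree q τ τ' → X.nuK q τ F = X.nuK q τ' F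
  /-- pull-back along any map of labels -/
  nu_comap : ∀ q p τ (f : ℕ → ℕ), IsTr X.N q τ → (∀ x, x < p → f x < q) → ∀ F, TrUses p F →
    X.nu q τ (fun σ => F fun x => σ (f x)) = X.nu p (fun x y => τ (f x) (f y)) F
  ov_bd : ∀ s s', |X.ov s s'| ≤ 1
  ov_symm : ∀ s s', X.ov s s' = X.ov s' s

/-- `S` at a pair which shares `t` stages -/
noncomputable def Sf (t : ℕ) : ℝ := X.nu 2 (jtTab2 X.N t) fun σ => X.ov (σ 0) (σ 1)

/-- `D²` at a pair which shares `t` stages -/
noncomputable def D2 (t : ℕ) : ℝ := X.nu 2 (jtTab2 X.N t) fun σ => (X.ov (σ 0) (σ 1) - X.Sf t) ^ 2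

/-- `D` -/
noncomputable def Dd (t : ℕ) : ℝ := Real.sqrt (X.D2 t)

/-- `f = S - q` -/
noncomputable def ff (t : ℕ) : ℝ := X.Sf t - X.qC t

/-- `d = h + b q - K` -/
def dd (t : ℕ) : ℝ := X.hC t + X.bC t * X.qC t - X.KC t

/-- `b f + d = h + b S - K` -/
noncomputable def ph (t : ℕ) : ℝ := X.hC t + X.bC t * X.Sf t - X.KC t

/-- `δ_{cd} = Q_{cd} - S(v_{cd})` -/
noncomputable def dl (τ : JtTopo) (σ : ℕ → S) (c d : ℕ) : ℝ := X.ov (σ c) (σ d) - X.Sf (τ c d)

/-- the retained test `P = Q_{01} - S(t0)` -/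
noncomputable def P0 (t0 : ℕ) (σ : ℕ → S) : ℝ := X.ov (σ 0) (σ 1) - X.Sf t0

/-- indicator of a low pair level -/
def lowI (ti : ℕ) (t : ℕ) : ℝ := if t < ti then 1 else 0

/-- indicator of a retained pair level (`ti ≤ t ≤ N`: high, distinct leaves) -/
def retI (ti : ℕ) (t : ℕ) : ℝ := if ti ≤ t ∧ t ≤ X.N then 1 else 0

/-- the retained part of the linear cavity operator on pair functions over the old pair `0, 1`: the tested pair is `(2, 3)`, the inserted pair `(4, 5)` -/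
noncomputable def Mop (ti : ℕ) (u : JtTopo → ℝ) (τ : JtTopo) : ℝ :=
  X.sumK 2 4 τ fun τ' => X.retI ti (τ' 4 5) * X.Mker 6 4 2 3 τ' * X.bC (τ' 4 5) * u fun x y => τ' (jtSh 4 x) (jtSh 4 y)

end JtCtx

/-- **(D16), first conclusion, interface form.**   `k` new labels `2, .., k + 1` over the old pair `0, 1` (which shares `t0 ≥ ti` stages); low factors numbered by `s < n`,
pairs `(c s, d s)`; `Sto` stochastic (`δ`), `Det` deterministic (their values are in `w`, bounded by the envelope `eb`);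
a sole low factor has a coefficient bounded by `vv`.   The weight sees the labels `< 2 + k` only (`JtLoc`).   Everything else (high deterministic factors, scalar coefficients, inverse kernel, signs, restrictions) is in `w`. -/
def L8_LS1 {S : Type} (X : JtCtx S) (ti : ℕ) (eb vv : ℕ → ℝ) (k n : ℕ) (Lam eta : ℝ) : Prop :=
  ∀ t0, ti ≤ t0 → t0 ≤ X.N → ∀ (Sto Det : Finset ℕ) (c d : ℕ → ℕ) (w : JtTopo → ℝ),
    Sto.Nonempty → Disjoint Sto Det → Sto ∪ Det ⊆ range n →
    (∀ s ∈ Sto ∪ Det, c s < 2 + k ∧ d s < 2 + k ∧ c s ≠ d s) → JtLoc (2 + k) w →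
    (∀ τ, w τ ≠ 0 → ∀ s ∈ Sto ∪ Det, τ (c s) (d s) < ti) →
    (∀ τ, |w τ| ≤ (∏ s ∈ Det, eb (τ (c s) (d s))) * if (Sto ∪ Det).card = 1 then ∏ s ∈ Sto, vv (τ (c s) (d s)) else 1) →
    |X.absK k 2 (jtTab2 X.N t0) fun τ => w τ * X.nu (2 + k) τ fun σ => X.P0 t0 σ * ∏ s ∈ Sto, X.dl τ σ (c s) (d s)|
      ≤ Lam * X.Dd t0 + eta

/-- **(H1) evaluated at the old pair** (LL Prop 5.1): the value of a symmetric pair function at the old pair is an absolute allocation integral (two more labels `2, 3`, coincidences included)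
of its image under `1 - M_ret b`, with a kernel bounded by `Pol`.   The kernel `G` MAY DEPEND ON `u` (v2, 04:25Z): this is what the a-priori inequality `exit_pair_inv` gives (`G = θ Pol sign(source)`, `|θ| ≤ 1`). -/
def L8H_H1 {S : Type} (X : JtCtx S) (ti : ℕ) (Pol : ℝ) : Prop :=
  ∀ t0, ti ≤ t0 → t0 ≤ X.N →
    ∀ u : JtTopo → ℝ, JtLoc 4 u → (∀ τ, IsTr X.N 4 τ → u (fun x y => τ (Equiv.swap 2 3 x) (Equiv.swap 2 3 y)) = u τ) →
      ∃ G : JtTopo → ℝ, JtLoc 4 G ∧ (∀ τ, |G τ| ≤ Pol) ∧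
        u (jtTabO X.N t0) = X.absK 2 2 (jtTab2 X.N t0) fun τ => G τ * X.retI ti (τ 2 3) * (u τ - X.Mop ti u τ)

/-- **(H2), `k = 0`** (LL Lemma 5.2): the linear cavity operator on functions of the level: diagonal `Gp r` (`= Γ'(K(r))`) + integral kernel `Bk r t` against `mu t` -/
def L8H_H2 {S : Type} (X : JtCtx S) (mu Gp : ℕ → ℝ) (Bk : ℕ → ℕ → ℝ) : Prop :=
  ∀ r, r ≤ X.N → ∀ g : ℕ → ℝ,
    X.sumK 2 2 (jtTab2 X.N r) (fun τ => X.off 2 1 τ * X.Mker 4 2 0 1 τ * g (τ 2 3)) = Gp r * g r + ∑ t ∈ range (X.N + 1), mu t * Bk r t * g t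

/-- **PARITY** (LL 08 l.1563-1579): in the cavity quotient of the tested pair `(i, j)` over `q` old labels with `n` inserted pairs,
if the pair `s` is low and the tested pair and all the other inserted pairs are high, the coefficient is `O(vv)` at the level of the pair `s` -/
def L8H_PAR {S : Type} (X : JtCtx S) (ti : ℕ) (vv : ℕ → ℝ) (q i j n : ℕ) (C : ℝ) : Prop :=
  ∀ τ, IsTr X.N (q + 2 * n) τ → ∀ s, s < n → τ (jtC q s) (jtD q s) < ti → ti ≤ τ i j →
    (∀ s', s' < n → s' ≠ s → ti ≤ τ (jtC q s') (jtD q s')) →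
    |X.Quo (q + 2 * n) q i j τ (range n)| ≤ C * vv (τ (jtC q s) (jtD q s))

theorem l8h_ctx_eqns_cite : True := by
  have := @JtAgree.eq_1
  have := @JtLoc.eq_1
  have := @jtTab2.eq_1
  have := @jtTabO.eq_1
  have := @jtSh.eq_1
  have := @JtCtx.Sf.eq_1
  have := @JtCtx.D2.eq_1
  have := @JtCtx.Dd.eq_1
  have := @JtCtx.ff.eq_1
  have := @JtCtx.dd.eq_1
  have := @JtCtx.ph.eq_1
  have := @JtCtx.dl.eq_1
  have := @JtCtx.P0.eq_1
  have := @JtCtx.lowI.eq_1
  have := @JtCtx.retI.eq_1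
  have := @JtCtx.Mop.eq_1
  have := @L8_LS1.eq_1
  have := @L8H_H1.eq_1
  have := @L8H_H2.eq_1
  have := @L8H_PAR.eq_1
  trivial

end Claimed.Agent.R286
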