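-- KEEP
import Claimed.Agent.R286.L08.Glue
import Claimed.Agent.R286.L09.GridEng
import Claimed.Agent.R286.L08.DdChain
import Claimed.Agent.R286.L09.GridKI

/-!
# Row 286 (S0533), folder L08, file DdLink : THE DOTTED CHAIN DEFECT `I.dd k`      (owner helper226; prefix `l8dd_`, `L8dd`; call of helper60, msg 47068; ruling of helper75: `dd` STAYS in `Env.d_le`)

WHAT.   `I.dd k = deriv` in the path parameter (`t = log λ` direct, `t = θ` size) of the CHAIN defect `d_k = hC k - KC k + bC k * q k`, `q k = llQs` = a TREE NUMBER of the chain.   Consumers: `L8In.Env.d_le`, HI, RED G4 (`Q.dA`, L09/RedC).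
EXIT `l8dd_exit`:  for all sufficiently fine chains, uniformly in the point,      `|I.dd k| ≤ Lp + η N`      for EVERY local Lipschitz constant `Lp` (at `I.t0`, inside the range `p.Ok`) of the PATH PART
    `I.Dp k t = hC k - KC k + bC k * Γ_t(KC k)`   (clock values of the cut `k` at the parameter `t`; `= p_t.d (v (k-1))` at a continuity position: `lcf_d_eq`, `lcf_str_d`, `lcf_siz_d` of LL/PathsClkF bound its differences).
Direct paths: ALL cuts.   Size paths: the cuts with `v (k-1) ≤ vl` (`vl` = a fixed mass below the kinks of `Â⁻¹`).   No differentiability is asked (`deriv = 0` otherwise).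

HOW (no derivative of a path object).   `d_k(t) = Dp_k(t) + bC_k(t) r_k(t)`, `r_k = q k - Γ_t(KC k)` (`L8In.d_split`, exact).   `|r| ≤ η` = one-chain Q-LINK (120).   INCREMENTS of `r`:
 (M)  `|q_k(t + σh) - q_k(t) - σ h L| ≤ E h (h + mesh)` = `l9n_Mtau` (263, L09/GridEng) at `llQs` (`l8dd_Mq`, `L8In.DdS.Mq`), for the chain AND for every finer chain, SAME constants;
 (FD) `φ = q^chain - q^finer` is `≤ η + ε'` at `t`, `t + σ h0`, so its Taylor coefficient is `≤ (2η + E h0 (h0 + mesh))/h0` (`l8dd_fd`), `h0 = h0(N)` fixed BEFORE the chain;   finer chain `→` path (`l8dd_r_incr`):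
      `|r(t + σh) - r(t)| ≤ (2η/h0 + 2E(h0 + mesh)) h` for `0 < h ≤ h0`;      (CORE) `l8dd_core`, `l8dd_deriv_le`: one-sided difference quotients bound `deriv`.      `σ = ± 1` keeps `t + σ h` in the range (`l8dd_side`).
PARTS: A abstract core (PROVED) | B (M) at `llQs` | C the family `I.wP t`, refinement, ONE INSTANCE `l8dd_one` (glue PROVED) | D `l8dd_link` (glue PROVED) | E the forms `L8ddSup*` of the supplies + glue.   PHYSICAL LEAVES + `l8dd_exit`: L08/DdExit.lean.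
NO LEAF LEFT HERE (0 sorry): `l8dd_Mq` = `l8kc_M` (126), `l8dd_supK_of` (226), `l8dd_refine`, `l8dd_side` (245).   ALL STEPS `0 < h ≤ 1/3` (the range of the parameter is longer than `2/3`).
TEX[LL:prop:statistics-pointwise] TEX[LL:paths:parameter-regularity]
-/

set_option autoImplicit false

namespace Claimed.Agent.R286

open Set Filter Topology

/-! ## A. abstract core -/

/-- **FD**: a number `L` which is a first order Taylor coefficient of a small function at the step `h` is small -/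
theorem l8dd_fd {f0 f1 L σ h η E : ℝ} (hσ : |σ| = 1) (hh : 0 < h) (h0 : |f0| ≤ η) (h1 : |f1| ≤ η)
    (hT : |f1 - f0 - σ * h * L| ≤ E) : |L| ≤ (2 * η + E) / h := by
  rw [le_div_iff₀ hh]
  have e : |σ * h * L| = |L| * h := by rw [abs_mul, abs_mul, hσ, abs_of_pos hh]; ring
  have h2 : |σ * h * L| ≤ |f1 - f0 - σ * h * L| + |f1| + |f0| := by
    have e2 : σ * h * L = -(f1 - f0 - σ * h * L) + f1 + -f0 := by ring
    calc |σ * h * L| = |-(f1 - f0 - σ * h * L) + f1 + -f0| := by rw [← e2]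
      _ ≤ |-(f1 - f0 - σ * h * L) + f1| + |-f0| := abs_add_le _ _
      _ ≤ |-(f1 - f0 - σ * h * L)| + |f1| + |-f0| := by gcongr; exact abs_add_le _ _
      _ = _ := by rw [abs_neg, abs_neg]
  linarith

/-- increments of a small function with a Taylor coefficient at the two steps `h0`, `h` -/
theorem l8dd_incr {φ : ℝ → ℝ} {t σ L h0 h η E0 E : ℝ} (hσ : |σ| = 1) (hh0 : 0 < h0) (hh : 0 ≤ h) (b0 : |φ t| ≤ η)
    (b1 : |φ (t + σ * h0)| ≤ η) (T0 : |φ (t + σ * h0) - φ t - σ * h0 * L| ≤ E0) (T : |φ (t + σ * h) - φ t - σ * h * L| ≤ E) :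
    |φ (t + σ * h) - φ t| ≤ h * ((2 * η + E0) / h0) + E := by
  have hL := l8dd_fd hσ hh0 b0 b1 T0
  have e : |σ * h * L| = h * |L| := by rw [abs_mul, abs_mul, hσ, abs_of_nonneg hh]; ring
  have h2 : |φ (t + σ * h) - φ t| ≤ |φ (t + σ * h) - φ t - σ * h * L| + |σ * h * L| := by
    have e2 : φ (t + σ * h) - φ t = (φ (t + σ * h) - φ t - σ * h * L) + σ * h * L := by ring
    calc |φ (t + σ * h) - φ t| = |(φ (t + σ * h) - φ t - σ * h * L) + σ * h * L| := by rw [← e2]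
      _ ≤ _ := abs_add_le _ _
  have h3 : h * |L| ≤ h * ((2 * η + E0) / h0) := mul_le_mul_of_nonneg_left hL hh
  linarith

/-- a one-sided local Lipschitz bound controls `deriv` (which is `0` if the function is not differentiable) -/
theorem l8dd_deriv_le {g : ℝ → ℝ} {t σ h1 Λ : ℝ} (hσ : |σ| = 1) (hh1 : 0 < h1)
    (H : ∀ h, 0 < h → h ≤ h1 → |g (t + σ * h) - g t| ≤ Λ * h) : |deriv g t| ≤ Λ := by
  have hΛ : 0 ≤ Λ := by
    have := (abs_nonneg _).trans (H h1 hh1 le_rfl)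
    exact nonneg_of_mul_nonneg_left this hh1
  have hσ0 : σ ≠ 0 := by
    intro h; rw [h, abs_zero] at hσ; exact zero_ne_one hσ
  by_cases hd : DifferentiableAt ℝ g t
  · have hs := hd.hasDerivAt.tendsto_slope
    have hm : Tendsto (fun h : ℝ => t + σ * h) (𝓝[>] 0) (𝓝[≠] t) := by
      apply tendsto_nhdsWithin_of_tendsto_nhds_of_eventually_within
      · have h0 : Tendsto (fun h : ℝ => t + σ * h) (𝓝 0) (𝓝 (t + σ * 0)) :=
          (continuous_const.add (continuous_const.mul continuous_id)).tendsto 0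
        rw [mul_zero, add_zero] at h0
        exact h0.mono_left nhdsWithin_le_nhds
      · filter_upwards [self_mem_nhdsWithin] with h hh
        have : σ * h ≠ 0 := mul_ne_zero hσ0 (ne_of_gt hh)
        simpa using this
    have h2 := (hs.comp hm).abs
    refine le_of_tendsto h2 ?_
    filter_upwards [Ioc_mem_nhdsGT hh1] with h hh
    simp only [Function.comp, slope_def_field]
    have e : t + σ * h - t = σ * h := by ring
    rw [e, abs_div, abs_mul, hσ, one_mul, abs_of_pos hh.1, div_le_iff₀ hh.1]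
    exact H h hh.1 hh.2
  · rw [deriv_zero_of_not_differentiableAt hd, abs_zero]
    exact hΛ

/-- **the core**: `g = D + B r`, `D` Lipschitz, `B` bounded Lipschitz, `r` small with small increments -/
theorem l8dd_core {g D B r : ℝ → ℝ} {t σ h1 Lp Bm LB η ε : ℝ} (hσ : |σ| = 1) (hh1 : 0 < h1)
    (hg : ∀ h, 0 ≤ h → h ≤ h1 → g (t + σ * h) = D (t + σ * h) + B (t + σ * h) * r (t + σ * h))
    (hD : ∀ h, 0 < h → h ≤ h1 → |D (t + σ * h) - D t| ≤ Lp * h)
    (hB : ∀ h, 0 < h → h ≤ h1 → |B (t + σ * h)| ≤ Bm)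
    (hB' : ∀ h, 0 < h → h ≤ h1 → |B (t + σ * h) - B t| ≤ LB * h)
    (hr : |r t| ≤ η)
    (hr' : ∀ h, 0 < h → h ≤ h1 → |r (t + σ * h) - r t| ≤ ε * h) : |deriv g t| ≤ Lp + Bm * ε + LB * η := by
  refine l8dd_deriv_le hσ hh1 fun h hh hh' => ?_
  have g0 : g t = D t + B t * r t := by simpa using hg 0 le_rfl hh1.le
  rw [hg h hh.le hh', g0]
  have e : D (t + σ * h) + B (t + σ * h) * r (t + σ * h) - (D t + B t * r t)
      = (D (t + σ * h) - D t) + B (t + σ * h) * (r (t + σ * h) - r t) + (B (t + σ * h) - B t) * r t := by ring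
  rw [e]
  have a1 := hD h hh hh'
  have a2 : |B (t + σ * h) * (r (t + σ * h) - r t)| ≤ Bm * (ε * h) := by
    rw [abs_mul]
    exact mul_le_mul (hB h hh hh') (hr' h hh hh') (abs_nonneg _) ((abs_nonneg _).trans (hB h hh hh'))
  have a3 : |(B (t + σ * h) - B t) * r t| ≤ LB * h * η := by
    rw [abs_mul]
    exact mul_le_mul (hB' h hh hh') hr (abs_nonneg _) ((abs_nonneg _).trans (hB' h hh hh'))
  have a4 := abs_add_le ((D (t + σ * h) - D t) + B (t + σ * h) * (r (t + σ * h) - r t)) ((B (t + σ * h) - B t) * r t)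
  have a5 := abs_add_le (D (t + σ * h) - D t) (B (t + σ * h) * (r (t + σ * h) - r t))
  nlinarith

/-- **passage to the path**: `r` is approximated at the three parameters by functions `φ` (chain minus finer chain) which have a Taylor coefficient with defect `E h (h + μ)` -/
theorem l8dd_r_incr {r : ℝ → ℝ} {t σ h0 h η E μ : ℝ} (hσ : |σ| = 1) (hh0 : 0 < h0) (hh : 0 < h) (hhh : h ≤ h0) (hE : 0 ≤ E)
    (H : ∀ ε' : ℝ, 0 < ε' → ∃ (φ : ℝ → ℝ) (L : ℝ), |r t - φ t| ≤ ε' ∧ |r (t + σ * h0) - φ (t + σ * h0)| ≤ ε' ∧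
      |r (t + σ * h) - φ (t + σ * h)| ≤ ε' ∧ |φ (t + σ * h0) - φ t - σ * h0 * L| ≤ E * h0 * (h0 + μ) ∧
      |φ (t + σ * h) - φ t - σ * h * L| ≤ E * h * (h + μ))
    (b0 : |r t| ≤ η) (b1 : |r (t + σ * h0)| ≤ η) :
    |r (t + σ * h) - r t| ≤ (2 * η / h0 + 2 * E * (h0 + μ)) * h := by
  refine le_of_forall_pos_le_add fun δ hδ => ?_
  obtain ⟨φ, L, c0, c1, c2, T0, T⟩ := H (δ / 4) (by linarith)
  have tri : ∀ x y : ℝ, |y| ≤ |x| + |x - y| := by
    intro x y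
    have : y = x + -(x - y) := by ring
    calc |y| = |x + -(x - y)| := by rw [← this]
      _ ≤ |x| + |-(x - y)| := abs_add_le _ _
      _ = _ := by rw [abs_neg]
  have p0 : |φ t| ≤ η + δ / 4 := (tri (r t) (φ t)).trans (by linarith)
  have p1 : |φ (t + σ * h0)| ≤ η + δ / 4 := (tri (r (t + σ * h0)) (φ (t + σ * h0))).trans (by linarith)
  have k := l8dd_incr hσ hh0 hh.le p0 p1 T0 T
  have k2 : |r (t + σ * h) - r t| ≤ |φ (t + σ * h) - φ t| + δ / 4 + δ / 4 := by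
    have e : r (t + σ * h) - r t = (φ (t + σ * h) - φ t) + (r (t + σ * h) - φ (t + σ * h)) + -(r t - φ t) := by ring
    calc |r (t + σ * h) - r t| = |(φ (t + σ * h) - φ t) + (r (t + σ * h) - φ (t + σ * h)) + -(r t - φ t)| := by rw [← e]
      _ ≤ |(φ (t + σ * h) - φ t) + (r (t + σ * h) - φ (t + σ * h))| + |-(r t - φ t)| := abs_add_le _ _
      _ ≤ |φ (t + σ * h) - φ t| + |r (t + σ * h) - φ (t + σ * h)| + |-(r t - φ t)| := by gcongr; exact abs_add_le _ _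
      _ ≤ _ := by rw [abs_neg]; linarith
  have k3 : h * ((2 * (η + δ / 4) + E * h0 * (h0 + μ)) / h0) = (2 * η / h0 + E * (h0 + μ)) * h + (h / h0) * (δ / 2) := by
    field_simp
    ring
  have k4 : h / h0 ≤ 1 := (div_le_one hh0).2 hhh
  have k5 : (h / h0) * (δ / 2) ≤ δ / 2 := by nlinarith
  have k6 : E * h * (h + μ) ≤ E * (h0 + μ) * h := by
    have : E * h * (h + μ) ≤ E * h * (h0 + μ) := mul_le_mul_of_nonneg_left (by linarith) (mul_nonneg hE hh.le)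
    linarith
  rw [k3] at k
  nlinarith

noncomputable section

/-- the linear functional of (M) at the reference overlap `llQs a P k`; `Kd j` = direction of the cumulated scalar clock after `j` stages -/
def l8ddL (a : ℝ) (P : LlStp) (k : ℕ) (Kd : ℕ → ℝ) : ℝ :=
  l9nD (skBase 1 a) (skLvs 1 (llSc P)) 2 (trPair P.length k) 0 (fun σ => jtSp (σ 0 0) * jtSp (σ 1 0))
    (fun j s s' => Kd j * (skSp s 0 * skSp s' 0))

namespace L8In

variable (I : L8In)

/-- the path parameter of the segment: `θ = 6 log ℓ` (size path), `log λ` (direct path) -/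
def t0 : ℝ := if I.p.sm then 6 * Real.log I.p.ell else Real.log I.p.lam
/-- the point of the segment at the parameter `t` -/
def pAt (t : ℝ) : LlPt := if I.p.sm then I.p.wTh t else I.p.wLam t
/-- the instance at the parameter `t` (same chain) -/
def wP (t : ℝ) : L8In := { I with p := I.pAt t }
/-- the instance on another chain -/
def wFs (Fs : Finset GhPos) : L8In := { I with Fs := Fs }
/-- **the path part of the defect at the cut `k`**: `h - K + b Γ_t(K)` at the clock values of the cut -/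
def Dp (k : ℕ) (t : ℝ) : ℝ := (I.wP t).hC k - (I.wP t).KC k + (I.wP t).bC k * (I.pAt t).Gam I.F I.𝔹 ((I.wP t).KC k)
/-- chain overlap minus path overlap at the cut `k` -/
def rr (k : ℕ) (t : ℝ) : ℝ := (I.wP t).q k - (I.pAt t).Gam I.F I.𝔹 ((I.wP t).KC k)
/-- Taylor defect of the cumulated scalar clock -/
def kT (Kd : ℕ → ℝ) (σ h : ℝ) (j : ℕ) : ℝ := (I.wP (I.t0 + σ * h)).KC j - (I.wP I.t0).KC j - σ * h * Kd j

/-- **the supplies at one instance**, in the direction `σ = ± 1`, steps `0 ≤ h ≤ h1` -/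
structure DdS (σ h1 η μ LK C Bm LB vl : ℝ) : Prop where
  adm : ∀ h, 0 ≤ h → h ≤ h1 → SkAdm I.a (llSc (I.wP (I.t0 + σ * h)).LP)
  ql : ∀ h, 0 ≤ h → h ≤ h1 → ∀ k ≤ I.n, |I.rr k (I.t0 + σ * h)| ≤ η
  km : ∃ Kd : ℕ → ℝ, ∀ h, 0 < h → h ≤ h1 →
    (∀ j, |(I.wP (I.t0 + σ * h)).KC j - (I.wP I.t0).KC j| ≤ LK * h) ∧
    (∑ j ∈ Finset.range (I.n + 1), I.dv j * |I.kT Kd σ h j| ≤ C * h * (h + μ)) ∧
    (∀ j, (I.p.sm = true → j = 0 ∨ I.v (j - 1) ≤ vl ∨ I.n ≤ j) → |I.kT Kd σ h j| ≤ C * h ^ 2)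
  bm : ∀ k ≤ I.n, ∀ h, 0 ≤ h → h ≤ h1 → |(I.wP (I.t0 + σ * h)).bC k| ≤ Bm ∧ |(I.wP (I.t0 + σ * h)).bC k - (I.wP I.t0).bC k| ≤ LB * h

end L8In

/-- **SUPPLY**: at fixed `N` the constants; then all sufficiently fine chains, uniformly in the point and in the direction -/
def L8ddSup (F : LlFix) (𝔹 : LlBase) (N0 : ℕ) (vl : ℝ) : Prop :=
  ∀ N, N0 ≤ N → ∃ LK C Bm LB : ℝ, 0 ≤ LK ∧ 0 ≤ C ∧ 0 ≤ Bm ∧ 0 ≤ LB ∧ ∀ η μ : ℝ, 0 < η → 0 < μ →
    ∀ᶠ Fs : Finset GhPos in atTop, ∀ I : L8In, I.F = F → I.𝔹 = 𝔹 → I.Fs = Fs → I.p.N = N → I.p.Ok F → ∀ σ : ℝ, |σ| = 1 →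
      (∀ h, 0 ≤ h → h ≤ 1 / 3 → (I.pAt (I.t0 + σ * h)).Ok F) → I.DdS σ (1 / 3) η μ LK C Bm LB vl

end

theorem l8dd_eqns_cite : True := by
  have := @l8ddL.eq_1
  have := @L8In.t0.eq_1
  have := @L8In.pAt.eq_1
  have := @L8In.wP.eq_1
  have := @L8In.wFs.eq_1
  have := @L8In.Dp.eq_1
  have := @L8In.rr.eq_1
  have := @L8In.kT.eq_1
  have := @L8ddSup.eq_1
  trivial

/-! ## B. (M) at the reference overlap -/

/-- **(M) for `llQs`** = `l9n_Mtau` at the one-site scalar model, `q = 2`, the pair which shares `k` stages -/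
theorem l8dd_Mq (a0 : ℝ) : ∃ C : ℝ, 0 ≤ C ∧ ∀ a : ℝ, 0 < a → a ≤ a0 → ∀ P0 P1 : LlStp, P0.map LlInc.m = P1.map LlInc.m →
    SkAdm a (llSc P0) → SkAdm a (llSc P1) → ∀ k ≤ P0.length, ∀ (Kd : ℕ → ℝ) (h M : ℝ) (d : ℕ → ℝ),
    (∀ j, |llCumK P1 j - llCumK P0 j| ≤ M) → (∀ j, |llCumK P1 j - llCumK P0 j - h * Kd j| ≤ d j) →
      |llQs a P1 k - llQs a P0 k - h * l8ddL a P0 k Kd|
        ≤ C * (M ^ 2 + ∑ j ∈ Finset.range (P0.length + 1), skGap a (llMat P0) j * d j + d k + d (P0.length + 1)) := by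
  obtain ⟨C, hC, H⟩ := l8kc_M a0
  exact ⟨C, hC, fun a ha haA P0 P1 hm h0 h1 k hk Kd h M d hM hd => H a P0 P1 ha haA hm h0 h1 k (by omega) Kd h M d hM hd⟩

/-! ## C. the family -/

theorem l8dd_stp_length (a : ℝ) (b h K : ℝ → ℝ) : ∀ (ps : List GhPos) (b0 h0 K0 : ℝ), (l9Stp a b h K b0 h0 K0 ps).length = ps.length
  | [], _, _, _ => rfl
  | p :: l, _, _, _ => by rw [l9Stp, List.length_cons, List.length_cons, l8dd_stp_length a b h K l]

theorem l8dd_stp_mass (a : ℝ) (b h K : ℝ → ℝ) : ∀ (ps : List GhPos) (b0 h0 K0 : ℝ), (l9Stp a b h K b0 h0 K0 ps).map LlInc.m = ps.map GhPos.u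
  | [], _, _, _ => rfl
  | p :: l, _, _, _ => by rw [l9Stp, List.map_cons, List.map_cons, l8dd_stp_mass a b h K l]

/-- the cumulated scalar clock after the stage `k` is the value at the position number `k` -/
theorem l8dd_take_sum (a : ℝ) (b h K : ℝ → ℝ) : ∀ (ps : List GhPos) (b0 h0 K0 : ℝ) (k : ℕ) (hk : k < ps.length),
    (((l9Stp a b h K b0 h0 K0 ps).take (k + 1)).map LlInc.dK).sum = ghAt a K ps[k] - K0
  | [], _, _, _, _, hk => by simp at hk
  | p :: l, b0, h0, K0, 0, _ => by simp [l9Stp]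
  | p :: l, b0, h0, K0, k + 1, hk => by
      have e3 := l8dd_take_sum a b h K l (ghAt a b p) (ghAt a h p) (ghAt a K p) k (by simpa using hk)
      rw [l9Stp, List.take_succ_cons, List.map_cons, List.sum_cons, e3]
      simp only [List.getElem_cons_succ]
      ring

theorem l8dd_cumK (a : ℝ) (b h K : ℝ → ℝ) (ps : List GhPos) (k : ℕ) (hk : k < ps.length) :
    llCumK (l9Stp a b h K 0 0 0 ps) (k + 1) = ghAt a K ps[k] := by
  have e3 := l8dd_take_sum a b h K ps 0 0 0 k hk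
  rwa [sub_zero] at e3

namespace L8In
variable (I : L8In)

theorem dd_eq (k : ℕ) : I.dd k = deriv (fun t => (I.wP t).d k) I.t0 := by
  unfold L8In.dd L8In.t0 L8In.wP L8In.pAt
  split_ifs <;> rfl

theorem pAt_a (t : ℝ) : (I.pAt t).a = I.p.a := by
  unfold L8In.pAt
  split_ifs with h
  · simp [LlPt.a, LlPt.wTh, h]
  · simp [LlPt.a, LlPt.wLam, h]

theorem pAt_N (t : ℝ) : (I.pAt t).N = I.p.N := by
  unfold L8In.pAt
  split_ifs <;> rfl

theorem pAt_sm (t : ℝ) : (I.pAt t).sm = I.p.sm := by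
  unfold L8In.pAt
  split_ifs <;> rfl

theorem pAt_t0 (h1 : 0 < I.p.ell) (h2 : 0 < I.p.lam) : I.pAt I.t0 = I.p := by
  unfold L8In.pAt L8In.t0
  split_ifs with h
  · unfold LlPt.wTh
    have : Real.exp (6 * Real.log I.p.ell / 6) = I.p.ell := by
      rw [mul_div_cancel_left₀ _ (by norm_num : (6 : ℝ) ≠ 0), Real.exp_log h1]
    rw [this]
  · unfold LlPt.wLam
    rw [Real.exp_log h2]

theorem wP_a (t : ℝ) : (I.wP t).a = I.a := I.pAt_a t

theorem wP_ps (t : ℝ) : (I.wP t).i9.ps (I.wP t).p = I.i9.ps I.p := by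
  show ghPs (I.pAt t).a (l9Fl I.Fs) = ghPs I.p.a (l9Fl I.Fs)
  rw [I.pAt_a]

theorem wP_n (t : ℝ) : (I.wP t).n = I.n := by
  show (l9Stp _ _ _ _ 0 0 0 ((I.wP t).i9.ps (I.wP t).p)).length = (l9Stp _ _ _ _ 0 0 0 (I.i9.ps I.p)).length
  rw [l8dd_stp_length, l8dd_stp_length, I.wP_ps]

theorem wP_mass (t : ℝ) : (I.wP t).LP.map LlInc.m = I.LP.map LlInc.m := by
  show (l9Stp _ _ _ _ 0 0 0 ((I.wP t).i9.ps (I.wP t).p)).map LlInc.m = (l9Stp _ _ _ _ 0 0 0 (I.i9.ps I.p)).map LlInc.m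
  rw [l8dd_stp_mass, l8dd_stp_mass, I.wP_ps]

/-- exact algebra -/
theorem d_split (k : ℕ) (t : ℝ) : (I.wP t).d k = I.Dp k t + (I.wP t).bC k * I.rr k t := by
  unfold L8In.d L8In.Dp L8In.rr
  ring

theorem wFs_t0 (Fs : Finset GhPos) : (I.wFs Fs).t0 = I.t0 := rfl
theorem wFs_pAt (Fs : Finset GhPos) (t : ℝ) : (I.wFs Fs).pAt t = I.pAt t := rfl

end L8In

theorem l8dd_gap_congr (a : ℝ) {P P' : LlStp} (h : P.map LlInc.m = P'.map LlInc.m) (j : ℕ) : skGap a (llMat P) j = skGap a (llMat P') j := by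
  have e : ∀ Q : LlStp, (llMat Q).map SkInc.m = Q.map LlInc.m := fun Q => by
    unfold llMat; rw [List.map_map]; rfl
  unfold skGap skMs
  rw [e, e, h]

/-- **(M) for the chain overlap at one instance** -/
theorem L8In.DdS.Mq {C0 : ℝ} (hC0 : 0 ≤ C0)
    (hM : ∀ a : ℝ, 0 < a → a ≤ 4 → ∀ P0 P1 : LlStp, P0.map LlInc.m = P1.map LlInc.m →
      SkAdm a (llSc P0) → SkAdm a (llSc P1) → ∀ k ≤ P0.length, ∀ (Kd : ℕ → ℝ) (h M : ℝ) (d : ℕ → ℝ),
      (∀ j, |llCumK P1 j - llCumK P0 j| ≤ M) → (∀ j, |llCumK P1 j - llCumK P0 j - h * Kd j| ≤ d j) →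
        |llQs a P1 k - llQs a P0 k - h * l8ddL a P0 k Kd|
          ≤ C0 * (M ^ 2 + ∑ j ∈ Finset.range (P0.length + 1), skGap a (llMat P0) j * d j + d k + d (P0.length + 1)))
    {I : L8In} {σ h1 η μ LK C Bm LB vl : ℝ} (ha : 0 < I.a) (ha4 : I.a ≤ 4) (hh1 : 0 < h1) (hμ : 0 ≤ μ) (hC : 0 ≤ C)
    (hS : I.DdS σ h1 η μ LK C Bm LB vl) :
    ∃ Lf : ℕ → ℝ, ∀ k ≤ I.n, (I.p.sm = true → k = 0 ∨ I.v (k - 1) ≤ vl) → ∀ h, 0 < h → h ≤ h1 →
      |(I.wP (I.t0 + σ * h)).q k - (I.wP I.t0).q k - σ * h * Lf k| ≤ C0 * (LK ^ 2 + 3 * C) * h * (h + μ) := by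
  obtain ⟨Kd, hKd⟩ := hS.km
  refine ⟨fun k => l8ddL I.a (I.wP I.t0).LP k Kd, ?_⟩
  intro k hk hlow h hh hh'
  obtain ⟨k1, k2, k3⟩ := hKd h hh hh'
  have hn0 : (I.wP I.t0).LP.length = I.n := I.wP_n I.t0
  have a0 : SkAdm I.a (llSc (I.wP I.t0).LP) := by
    have := hS.adm 0 le_rfl hh1.le
    rwa [mul_zero, add_zero] at this
  have key := hM I.a ha ha4 (I.wP I.t0).LP (I.wP (I.t0 + σ * h)).LP (by rw [I.wP_mass, I.wP_mass]) a0 (hS.adm h hh.le hh') k
    (by rw [hn0]; exact hk) Kd (σ * h) (LK * h) (fun j => |I.kT Kd σ h j|) k1 (fun j => le_rfl)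
  rw [hn0] at key
  have e1 : (I.wP (I.t0 + σ * h)).q k = llQs I.a (I.wP (I.t0 + σ * h)).LP k := by
    show llQs (I.wP (I.t0 + σ * h)).a _ k = _
    rw [I.wP_a]
  have e2 : (I.wP I.t0).q k = llQs I.a (I.wP I.t0).LP k := by
    show llQs (I.wP I.t0).a _ k = _
    rw [I.wP_a]
  rw [e1, e2]
  refine key.trans ?_
  have s1 : ∑ j ∈ Finset.range (I.n + 1), skGap I.a (llMat (I.wP I.t0).LP) j * |I.kT Kd σ h j| ≤ C * h * (h + μ) := by
    refine le_trans (le_of_eq ?_) k2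
    refine Finset.sum_congr rfl fun j _ => ?_
    rw [l8dd_gap_congr I.a (I.wP_mass I.t0) j]
    rfl
  have s2 : |I.kT Kd σ h k| ≤ C * h ^ 2 := k3 k fun hsm => by
    rcases hlow hsm with h0 | h0
    · exact Or.inl h0
    · exact Or.inr (Or.inl h0)
  have s3 : |I.kT Kd σ h (I.n + 1)| ≤ C * h ^ 2 := k3 (I.n + 1) fun _ => Or.inr (Or.inr (Nat.le_succ _))
  have s4 : (LK * h) ^ 2 + ∑ j ∈ Finset.range (I.n + 1), skGap I.a (llMat (I.wP I.t0).LP) j * |I.kT Kd σ h j| + |I.kT Kd σ h k|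
      + |I.kT Kd σ h (I.n + 1)| ≤ (LK ^ 2 + 3 * C) * h * (h + μ) := by
    have t1 : 0 ≤ LK ^ 2 * h * μ := by positivity
    have t2 : 0 ≤ C * h * μ := by positivity
    nlinarith
  calc _ ≤ C0 * ((LK ^ 2 + 3 * C) * h * (h + μ)) := mul_le_mul_of_nonneg_left s4 hC0
    _ = _ := by ring

/-- the cumulated scalar clock after the stage of the position `pos` -/
theorem l8dd_cumK_some (a : ℝ) (b h K : ℝ → ℝ) (ps : List GhPos) (k : ℕ) {pos : GhPos} (hk : ps[k]? = some pos) :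
    llCumK (l9Stp a b h K 0 0 0 ps) (k + 1) = ghAt a K pos := by
  obtain ⟨hlt, rfl⟩ := List.getElem?_eq_some_iff.1 hk
  exact l8dd_cumK a b h K ps k hlt

theorem L8In.dd_KC_some (I : L8In) (t : ℝ) (k : ℕ) {pos : GhPos} (hk : (I.i9.ps I.p)[k]? = some pos) :
    (I.wP t).KC (k + 1) = ghAt (I.pAt t).a ((I.pAt t).K I.F I.𝔹) pos := by
  show llCumK (l9Stp _ _ _ _ 0 0 0 ((I.wP t).i9.ps (I.wP t).p)) (k + 1) = _
  rw [I.wP_ps]
  exact l8dd_cumK_some _ _ _ _ _ k hk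

theorem L8In.dd_v_some (I : L8In) (k : ℕ) {pos : GhPos} (hk : (I.i9.ps I.p)[k]? = some pos) : I.v k = pos.u := by
  have e : (llMat I.LP).map SkInc.m = (I.i9.ps I.p).map GhPos.u := by
    have e1 : (llMat I.LP).map SkInc.m = I.LP.map LlInc.m := by
      unfold llMat; rw [List.map_map]; rfl
    rw [e1]
    exact l8dd_stp_mass _ _ _ _ _ 0 0 0
  show ((llMat I.LP).map SkInc.m).getD k I.a = pos.u
  rw [e, List.getD_eq_getElem?_getD, List.getElem?_map, hk]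
  rfl

theorem L8In.dd_n_eq (I : L8In) : I.n = (I.i9.ps I.p).length := l8dd_stp_length _ _ _ _ _ 0 0 0

/-- the same position on a finer chain -/
theorem l8dd_refine (I : L8In) {Fs' : Finset GhPos} (hsub : I.Fs ⊆ Fs') {k : ℕ} (hk : k ≤ I.n) :
    ∃ k', k' ≤ (I.wFs Fs').n ∧ (∀ t, ((I.wFs Fs').wP t).KC k' = (I.wP t).KC k) ∧ (k = 0 ∨ (I.wFs Fs').v (k' - 1) = I.v (k - 1)) ∧ (k = 0 → k' = 0) := by
  cases k with
  | zero => exact ⟨0, Nat.zero_le _, fun t => rfl, Or.inl rfl, fun _ => rfl⟩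
  | succ j =>
    have hj : j < (I.i9.ps I.p).length := by rw [← I.dd_n_eq]; exact hk
    set pos : GhPos := (I.i9.ps I.p)[j] with hpos
    have h1 : (I.i9.ps I.p)[j]? = some pos := List.getElem?_eq_some_iff.2 ⟨hj, rfl⟩
    have hmem : pos ∈ ghPs I.p.a (l9Fl I.Fs) := List.getElem_mem hj
    have hmem' : pos ∈ ghPs I.p.a (l9Fl Fs') := by
      rw [gh_os_ps_mem] at hmem ⊢
      exact ⟨l9_fl_mem.2 ⟨hsub (l9_fl_mem.1 hmem.1).1, (l9_fl_mem.1 hmem.1).2⟩, hmem.2⟩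
    obtain ⟨j', hj', hj'e⟩ := List.getElem_of_mem hmem'
    have h2 : ((I.wFs Fs').i9.ps (I.wFs Fs').p)[j']? = some pos := List.getElem?_eq_some_iff.2 ⟨hj', hj'e⟩
    refine ⟨j' + 1, ?_, fun t => ?_, Or.inr ?_, fun h => absurd h (Nat.succ_ne_zero j)⟩
    · rw [(I.wFs Fs').dd_n_eq]
      exact hj'
    · rw [(I.wFs Fs').dd_KC_some t j' h2, I.dd_KC_some t j h1]
      rfl
    · rw [Nat.add_sub_cancel, Nat.add_sub_cancel, (I.wFs Fs').dd_v_some j' h2, I.dd_v_some j h1]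

/-- **ONE INSTANCE**: the supplies on the chain and on arbitrarily fine refinements of it -/
theorem l8dd_one {C0 : ℝ} (hC0 : 0 ≤ C0)
    (hM : ∀ a : ℝ, 0 < a → a ≤ 4 → ∀ P0 P1 : LlStp, P0.map LlInc.m = P1.map LlInc.m →
      SkAdm a (llSc P0) → SkAdm a (llSc P1) → ∀ k ≤ P0.length, ∀ (Kd : ℕ → ℝ) (h M : ℝ) (d : ℕ → ℝ),
      (∀ j, |llCumK P1 j - llCumK P0 j| ≤ M) → (∀ j, |llCumK P1 j - llCumK P0 j - h * Kd j| ≤ d j) →
        |llQs a P1 k - llQs a P0 k - h * l8ddL a P0 k Kd|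
          ≤ C0 * (M ^ 2 + ∑ j ∈ Finset.range (P0.length + 1), skGap a (llMat P0) j * d j + d k + d (P0.length + 1)))
    {I : L8In} {σ h1 h0 η μ LK C Bm LB vl : ℝ} (hσ : |σ| = 1) (ha : 0 < I.a) (ha4 : I.a ≤ 4) (hh0 : 0 < h0) (hh01 : h0 ≤ h1) (hμ : 0 ≤ μ) (hC : 0 ≤ C)
    (hS : I.DdS σ h1 η μ LK C Bm LB vl)
    (hR : ∀ ε' : ℝ, 0 < ε' → ∃ Fs', I.Fs ⊆ Fs' ∧ (I.wFs Fs').DdS σ h1 ε' μ LK C Bm LB vl)
    {k : ℕ} (hk : k ≤ I.n) (hlow : I.p.sm = true → k = 0 ∨ I.v (k - 1) ≤ vl) {Lp h2 : ℝ} (hh2 : 0 < h2)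
    (hLp : ∀ h, 0 < h → h ≤ h2 → |I.Dp k (I.t0 + σ * h) - I.Dp k I.t0| ≤ Lp * h) :
    |I.dd k| ≤ Lp + Bm * (2 * η / h0 + 2 * (2 * (C0 * (LK ^ 2 + 3 * C))) * (h0 + μ)) + LB * η := by
  have hh1 : 0 < h1 := hh0.trans_le hh01
  set E : ℝ := 2 * (C0 * (LK ^ 2 + 3 * C)) with hE
  have hE0 : 0 ≤ E := by positivity
  obtain ⟨Lf, hLf⟩ := hS.Mq hC0 hM ha ha4 hh1 hμ hC
  -- increments of `r`
  have hr' : ∀ h, 0 < h → h ≤ min h0 h2 → |I.rr k (I.t0 + σ * h) - I.rr k I.t0| ≤ (2 * η / h0 + 2 * E * (h0 + μ)) * h := by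
    intro h hh hh'
    have hhh0 : h ≤ h0 := hh'.trans (min_le_left _ _)
    refine l8dd_r_incr hσ hh0 hh hhh0 hE0 ?_ ?_ ?_
    · intro ε' hε'
      obtain ⟨Fs', hsub, hS'⟩ := hR ε' hε'
      obtain ⟨k', hk', hKC, hv, hk0⟩ := l8dd_refine I hsub hk
      obtain ⟨Lf', hLf'⟩ := hS'.Mq hC0 hM (I := I.wFs Fs') ha ha4 hh1 hμ hC
      have hlow' : (I.wFs Fs').p.sm = true → k' = 0 ∨ (I.wFs Fs').v (k' - 1) ≤ vl := by
        intro hsm
        rcases hv with h0 | h0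
        · exact Or.inl (hk0 h0)
        · rcases hlow hsm with h3 | h3
          · exact Or.inl (hk0 h3)
          · exact Or.inr (h0 ▸ h3)
      refine ⟨fun t => (I.wP t).q k - ((I.wFs Fs').wP t).q k', Lf k - Lf' k', ?_⟩
      have hdiff : ∀ t, I.rr k t - ((I.wP t).q k - ((I.wFs Fs').wP t).q k') = (I.wFs Fs').rr k' t := by
        intro t
        unfold L8In.rr
        rw [hKC t, I.wFs_pAt]
        show _ = ((I.wFs Fs').wP t).q k' - (I.pAt t).Gam I.F I.𝔹 ((I.wP t).KC k)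
        ring
      have q0 := hS'.ql 0 le_rfl hh1.le k' hk'
      rw [mul_zero, add_zero] at q0
      refine ⟨by rw [hdiff]; exact q0, by rw [hdiff]; exact hS'.ql h0 hh0.le hh01 k' hk', by rw [hdiff]; exact hS'.ql h hh.le (hhh0.trans hh01) k' hk', ?_, ?_⟩
      · have m1 := hLf k hk hlow h0 hh0 hh01
        have m2 := hLf' k' hk' hlow' h0 hh0 hh01
        rw [I.wFs_t0] at m2
        have e : (I.wP (I.t0 + σ * h0)).q k - ((I.wFs Fs').wP (I.t0 + σ * h0)).q k' - ((I.wP I.t0).q k - ((I.wFs Fs').wP I.t0).q k') - σ * h0 * (Lf k - Lf' k')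
            = ((I.wP (I.t0 + σ * h0)).q k - (I.wP I.t0).q k - σ * h0 * Lf k) - (((I.wFs Fs').wP (I.t0 + σ * h0)).q k' - ((I.wFs Fs').wP I.t0).q k' - σ * h0 * Lf' k') := by ring
        rw [e]
        refine (abs_sub _ _).trans ?_
        rw [hE]; linarith
      · have m1 := hLf k hk hlow h hh (hhh0.trans hh01)
        have m2 := hLf' k' hk' hlow' h hh (hhh0.trans hh01)
        rw [I.wFs_t0] at m2
        have e : (I.wP (I.t0 + σ * h)).q k - ((I.wFs Fs').wP (I.t0 + σ * h)).q k' - ((I.wP I.t0).q k - ((I.wFs Fs').wP I.t0).q k') - σ * h * (Lf k - Lf' k')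
            = ((I.wP (I.t0 + σ * h)).q k - (I.wP I.t0).q k - σ * h * Lf k) - (((I.wFs Fs').wP (I.t0 + σ * h)).q k' - ((I.wFs Fs').wP I.t0).q k' - σ * h * Lf' k') := by ring
        rw [e]
        refine (abs_sub _ _).trans ?_
        rw [hE]; linarith
    · have := hS.ql 0 le_rfl hh1.le k hk
      rwa [mul_zero, add_zero] at this
    · exact hS.ql h0 hh0.le hh01 k hk
  rw [I.dd_eq]
  have hmin : 0 < min h0 h2 := lt_min hh0 hh2
  refine l8dd_core (D := I.Dp k) (B := fun t => (I.wP t).bC k) (r := I.rr k) hσ hmin (fun h _ _ => I.d_split k _)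
    (fun h hh hh' => hLp h hh (hh'.trans (min_le_right _ _)))
    (fun h hh hh' => (hS.bm k hk h hh.le ((hh'.trans (min_le_left _ _)).trans hh01)).1)
    (fun h hh hh' => (hS.bm k hk h hh.le ((hh'.trans (min_le_left _ _)).trans hh01)).2) ?_ hr'
  have := hS.ql 0 le_rfl hh1.le k hk
  rwa [mul_zero, add_zero] at this

/-! ## D. the exit -/

/-- one of the two directions stays in the range of the parameter -/
theorem l8dd_side {F : LlFix} (hpS : F.pS ≤ 1) (I : L8In) (hp : I.p.Ok F) {h1 : ℝ} (hh1 : h1 ≤ 1 / 3) :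
    ∃ σ : ℝ, |σ| = 1 ∧ ∀ h, 0 ≤ h → h ≤ h1 → (I.pAt (I.t0 + σ * h)).Ok F := by
  have hl2 := Real.log_two_gt_d9
  have hl2' := Real.log_two_lt_d9
  by_cases hsm : I.p.sm = true
  · -- size path: `θ ∈ [0, log 2]`
    have hell0 : 0 < I.p.ell := zero_lt_one.trans_le hp.ell1
    have ht0 : I.t0 = 6 * Real.log I.p.ell := by unfold L8In.t0; rw [if_pos hsm]
    have hlo : 0 ≤ I.t0 := by
      rw [ht0]
      have := Real.log_nonneg hp.ell1
      linarith
    have hhi : I.t0 ≤ Real.log 2 := by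
      rw [ht0]
      have h2 := Real.log_le_log hell0 hp.ell2
      rw [Real.log_rpow (by norm_num)] at h2
      linarith
    have key : ∀ t, 0 ≤ t → t ≤ Real.log 2 → (I.pAt t).Ok F := by
      intro t h0 h2
      have e : I.pAt t = I.p.wTh t := by unfold L8In.pAt; rw [if_pos hsm]
      rw [e]
      refine ⟨hp.N2, ?_, ?_, hp.lam_lo, hp.lam_hi, hp.g0, hp.gu, hp.chiL, hp.chiE, hp.sm_fin⟩
      · show 1 ≤ Real.exp (t / 6)
        exact Real.one_le_exp (by linarith)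
      · show Real.exp (t / 6) ≤ (2 : ℝ) ^ (1 / 6 : ℝ)
        rw [Real.rpow_def_of_pos (by norm_num)]
        exact Real.exp_le_exp.2 (by linarith)
    by_cases hc : I.t0 ≤ 1 / 3
    · refine ⟨1, by simp, fun h h0 hh => key _ (by linarith) (by linarith)⟩
    · push Not at hc
      refine ⟨-1, by simp, fun h h0 hh => key _ (by linarith) (by linarith)⟩
  · -- direct path: `log λ ∈ [12 log x, p_* log x]`
    have hx : 0 < I.p.x := by
      unfold LlPt.x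
      have : (0 : ℝ) < I.p.N := by
        have := hp.N2
        positivity
      positivity
    have hlx : Real.log I.p.x ≤ -(Real.log 2 / 6) := by
      unfold LlPt.x
      have hN : (2 : ℝ) ≤ I.p.N := by exact_mod_cast hp.N2
      rw [Real.log_rpow (by linarith)]
      have := Real.log_le_log (by norm_num) hN
      linarith
    have hlam : 0 < I.p.lam := (Real.rpow_pos_of_pos hx _).trans_le hp.lam_lo
    have ht0 : I.t0 = Real.log I.p.lam := by unfold L8In.t0; rw [if_neg hsm]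
    have hlo : Real.log I.p.x * 12 ≤ I.t0 := by
      rw [ht0, Real.le_log_iff_exp_le hlam, ← Real.rpow_def_of_pos hx]
      exact hp.lam_lo
    have hhi : I.t0 ≤ Real.log I.p.x * F.pS := by
      rw [ht0, Real.log_le_iff_le_exp hlam, ← Real.rpow_def_of_pos hx]
      exact hp.lam_hi
    have key : ∀ t, Real.log I.p.x * 12 ≤ t → t ≤ Real.log I.p.x * F.pS → (I.pAt t).Ok F := by
      intro t h0 h2
      have e : I.pAt t = I.p.wLam t := by unfold L8In.pAt; rw [if_neg hsm]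
      rw [e]
      refine ⟨hp.N2, hp.ell1, hp.ell2, ?_, ?_, hp.g0, hp.gu, hp.chiL, hp.chiE, fun h => absurd h hsm⟩
      · show I.p.x ^ (12 : ℝ) ≤ Real.exp t
        rw [Real.rpow_def_of_pos hx]
        exact Real.exp_le_exp.2 h0
      · show Real.exp t ≤ I.p.x ^ F.pS
        rw [Real.rpow_def_of_pos hx]
        exact Real.exp_le_exp.2 h2
    have hroom : Real.log I.p.x * 12 + 2 / 3 ≤ Real.log I.p.x * F.pS := by
      have : Real.log I.p.x * (12 - F.pS) ≤ -(Real.log 2 / 6) * 11 := by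
        have h3 : Real.log I.p.x * (12 - F.pS) ≤ Real.log I.p.x * 11 :=
          mul_le_mul_of_nonpos_left (by linarith) (by linarith)
        linarith
      linarith
    by_cases hc : Real.log I.p.x * 12 + 1 / 3 ≤ I.t0
    · refine ⟨-1, by simp, fun h h0 hh => key _ (by linarith) (by linarith)⟩
    · push Not at hc
      refine ⟨1, by simp, fun h h0 hh => key _ (by linarith) (by linarith)⟩

theorem l8dd_arith {e Bm E LB h1 : ℝ} (he : 0 < e) (hBm : 0 ≤ Bm) (hE : 0 ≤ E) (hLB : 0 ≤ LB) (hh1 : 0 < h1) :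
    ∃ h0 η1 : ℝ, 0 < h0 ∧ h0 ≤ h1 ∧ 0 < η1 ∧ Bm * (2 * η1 / h0 + 2 * E * (h0 + h0)) + LB * η1 ≤ e := by
  have p1 : 0 < 8 * (Bm * E + 1) := by positivity
  set h0 : ℝ := min h1 (e / (8 * (Bm * E + 1))) with hh0
  have h0p : 0 < h0 := lt_min hh1 (div_pos he p1)
  have p2 : 0 < 8 * (Bm + 1) := by positivity
  have p3 : 0 < 4 * (LB + 1) := by positivity
  set η1 : ℝ := min (e * h0 / (8 * (Bm + 1))) (e / (4 * (LB + 1))) with hη1
  have η1p : 0 < η1 := lt_min (div_pos (mul_pos he h0p) p2) (div_pos he p3)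
  refine ⟨h0, η1, h0p, min_le_left _ _, η1p, ?_⟩
  have a1 : h0 * (8 * (Bm * E + 1)) ≤ e := by
    have := min_le_right h1 (e / (8 * (Bm * E + 1)))
    rwa [← hh0, le_div_iff₀ p1] at this
  have a2 : η1 * (8 * (Bm + 1)) ≤ e * h0 := by
    have := min_le_left (e * h0 / (8 * (Bm + 1))) (e / (4 * (LB + 1)))
    rwa [← hη1, le_div_iff₀ p2] at this
  have a3 : η1 * (4 * (LB + 1)) ≤ e := by
    have := min_le_right (e * h0 / (8 * (Bm + 1))) (e / (4 * (LB + 1)))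
    rwa [← hη1, le_div_iff₀ p3] at this
  have b1 : Bm * (2 * η1 / h0) ≤ e / 4 := by
    have : Bm * (2 * η1 / h0) = (2 * Bm * η1) / h0 := by ring
    rw [this, div_le_iff₀ h0p]
    nlinarith
  have b2 : Bm * (2 * E * (h0 + h0)) ≤ e / 2 := by nlinarith
  have b3 : LB * η1 ≤ e / 4 := by nlinarith
  rw [mul_add]
  linarith

/-- **DD-LINK**.   For all sufficiently fine chains, uniformly in the point: the dotted chain defect is bounded by ANY local Lipschitz constant (inside the range of the parameter) of the path part `t ↦ I.Dp k t`, up to `η N`. -/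
theorem l8dd_link {F : LlFix} {𝔹 : LlBase} {N0 : ℕ} {vl : ℝ} (hpS : F.pS ≤ 1) (hS : L8ddSup F 𝔹 N0 vl) (η : ℕ → ℝ) (hη : ∀ N, 0 < η N) :
    L8Ev F 𝔹 N0 (fun _ => True) fun I => ∀ k ≤ I.n, (I.p.sm = true → k = 0 ∨ I.v (k - 1) ≤ vl) → ∀ Lp : ℝ,
      (∀ᶠ t in 𝓝 I.t0, (I.pAt t).Ok I.F → |I.Dp k t - I.Dp k I.t0| ≤ Lp * |t - I.t0|) → |I.dd k| ≤ Lp + η I.p.N := by
  intro N s hN
  obtain ⟨C0, hC0, hM⟩ := l8dd_Mq 4
  obtain ⟨LK, C, Bm, LB, hLK, hC, hBm, hLB, H⟩ := hS N hN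
  have hh1 : (0 : ℝ) < 1 / 3 := by norm_num
  obtain ⟨h0, η1, hh0, hh01, hη1, har⟩ := l8dd_arith (hη N) hBm (by positivity : 0 ≤ 2 * (C0 * (LK ^ 2 + 3 * C))) hLB hh1
  filter_upwards [H η1 h0 hη1 hh0] with Fs hFs ell lam chiL chiE sm γ m _ hOk k hk hlow Lp hLp
  set I : L8In := ⟨F, 𝔹, ll04Pt N ell lam chiL chiE sm γ, m, s, Fs⟩ with hI
  obtain ⟨σ, hσ, hside⟩ := l8dd_side hpS I hOk.pt le_rfl
  have hSI := hFs I rfl rfl rfl rfl hOk.pt σ hσ hside
  have hR : ∀ ε' : ℝ, 0 < ε' → ∃ Fs', I.Fs ⊆ Fs' ∧ (I.wFs Fs').DdS σ (1 / 3) ε' h0 LK C Bm LB vl := by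
    intro ε' hε'
    obtain ⟨Fs1, hF1⟩ := eventually_atTop.1 (H ε' h0 hε' hh0)
    exact ⟨Fs ∪ Fs1, Finset.subset_union_left, hF1 (Fs ∪ Fs1) Finset.subset_union_right (I.wFs (Fs ∪ Fs1)) rfl rfl rfl rfl hOk.pt σ hσ hside⟩
  obtain ⟨h2, hh2, hL⟩ := Metric.eventually_nhds_iff.1 hLp
  have hLp' : ∀ h, 0 < h → h ≤ min (h2 / 2) (1 / 3) → |I.Dp k (I.t0 + σ * h) - I.Dp k I.t0| ≤ Lp * h := by
    intro h hh hh'
    have e : |I.t0 + σ * h - I.t0| = h := by
      rw [add_sub_cancel_left, abs_mul, hσ, one_mul, abs_of_pos hh]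
    have := hL (y := I.t0 + σ * h) (by
      rw [Real.dist_eq, e]
      have := hh'.trans (min_le_left _ _)
      linarith) (hside h hh.le (hh'.trans (min_le_right _ _)))
    rwa [e] at this
  have ha : 0 < I.a ∧ I.a ≤ 4 := by
    have h1 := hOk.pt.ell1
    have h2 : I.p.ell ≤ 2 := by
      refine hOk.pt.ell2.trans ?_
      calc (2 : ℝ) ^ (1 / 6 : ℝ) ≤ (2 : ℝ) ^ (1 : ℝ) := Real.rpow_le_rpow_of_exponent_le (by norm_num) (by norm_num)
        _ = 2 := Real.rpow_one 2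
    show 0 < I.p.a ∧ I.p.a ≤ 4
    unfold LlPt.a
    split_ifs
    · exact ⟨by norm_num, le_rfl⟩
    · exact ⟨by linarith, by linarith⟩
  have key := l8dd_one hC0 hM hσ ha.1 ha.2 hh0 hh01 hh0.le hC hSI hR hk hlow (lt_min (half_pos hh2) hh1) hLp'
  have : I.p.N = N := rfl
  rw [this]
  linarith

/-! ## E. the supply, cut into named leaves -/

noncomputable section

/-- (A) every chain is admissible for the scalar clock at every point -/
def L8ddSupA (F : LlFix) (𝔹 : LlBase) (N0 : ℕ) : Prop :=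
  ∀ I : L8In, I.F = F → I.𝔹 = 𝔹 → N0 ≤ I.p.N → I.p.Ok F → SkAdm I.a (llSc I.LP)

/-- (Q) one-chain Q-LINK at the chain times, `N0` BEFORE the accuracy -/
def L8ddSupQ (F : LlFix) (𝔹 : LlBase) (N0 : ℕ) : Prop :=
  ∀ N, N0 ≤ N → ∀ η : ℝ, 0 < η → ∀ᶠ Fs : Finset GhPos in atTop, ∀ I : L8In, I.F = F → I.𝔹 = 𝔹 → I.Fs = Fs → I.p.N = N → I.p.Ok F →
    ∀ k ≤ I.n, |I.q k - I.p.Gam F 𝔹 (I.KC k)| ≤ η

/-- (B) the matrix clock on a chain: bounded and Lipschitz in the parameter, constants of `N` -/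
def L8ddSupB (F : LlFix) (𝔹 : LlBase) (N0 : ℕ) : Prop :=
  ∀ N, N0 ≤ N → ∃ Bm LB : ℝ, 0 ≤ Bm ∧ 0 ≤ LB ∧ ∀ I : L8In, I.F = F → I.𝔹 = 𝔹 → I.p.N = N → I.p.Ok F → ∀ t, (I.pAt t).Ok F → |t - I.t0| ≤ 1 / 3 →
    ∀ k, |(I.wP t).bC k| ≤ Bm ∧ |(I.wP t).bC k - (I.wP I.t0).bC k| ≤ LB * |t - I.t0|

/-- (K) the scalar clock on a chain = INPUT (A)(B)(C) of (M) (263, GRID) -/
def L8ddSupK (F : LlFix) (𝔹 : LlBase) (N0 : ℕ) (vl : ℝ) : Prop :=
  ∀ N, N0 ≤ N → ∃ LK C : ℝ, 0 ≤ LK ∧ 0 ≤ C ∧ ∀ μ : ℝ, 0 < μ →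
    ∀ᶠ Fs : Finset GhPos in atTop, ∀ I : L8In, I.F = F → I.𝔹 = 𝔹 → I.Fs = Fs → I.p.N = N → I.p.Ok F → ∀ σ : ℝ, |σ| = 1 →
      (∀ h, 0 ≤ h → h ≤ 1 / 3 → (I.pAt (I.t0 + σ * h)).Ok F) →
      ∃ Kd : ℕ → ℝ, ∀ h, 0 < h → h ≤ 1 / 3 →
        (∀ j, |(I.wP (I.t0 + σ * h)).KC j - (I.wP I.t0).KC j| ≤ LK * h) ∧
        (∑ j ∈ Finset.range (I.n + 1), I.dv j * |I.kT Kd σ h j| ≤ C * h * (h + μ)) ∧
        (∀ j, (I.p.sm = true → j = 0 ∨ I.v (j - 1) ≤ vl ∨ I.n ≤ j) → |I.kT Kd σ h j| ≤ C * h ^ 2)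

/-- **second order regularity of a family of clocks in the parameter, PATH LEVEL** (no chain): base parameter `t`, direction `σ`, steps `0 < h ≤ h1`.   `Kd` = a candidate derivative (any bounded choice at the kinks);
the Taylor defect is `≤ C h²` off at most `r` WINDOWS of masses of length `≤ C h` (the masses which cross a kink between `t` and `t + σ h`), which lie in `(vl, vh)`; it is `≤ C h` everywhere -/
def L8ddKP (a : ℝ) (Kf : ℝ → ℝ → ℝ) (t σ h1 LK C vl vh : ℝ) (r : ℕ) : Prop :=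
  ∃ Kd : ℝ → ℝ, ∀ h, 0 < h → h ≤ h1 →
    (∀ v ∈ Icc 0 a, |Kf (t + σ * h) v - Kf t v| ≤ LK * h) ∧
    (∀ v ∈ Icc 0 a, |Kf (t + σ * h) v - Kf t v - σ * h * Kd v| ≤ C * h) ∧
    ∃ W : Finset (ℝ × ℝ), W.card ≤ r ∧ (∀ w ∈ W, w.1 ≤ w.2 ∧ w.2 - w.1 ≤ C * h ∧ vl < w.1 ∧ w.2 < vh) ∧
      ∀ v ∈ Icc 0 a, (∀ w ∈ W, v ∉ Icc w.1 w.2) → |Kf (t + σ * h) v - Kf t v - σ * h * Kd v| ≤ C * h ^ 2

/-- (KP) the physical scalar clock: no window on a direct path, three windows in `(vl, 3)` on a size path -/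
def L8ddSupKP (F : LlFix) (𝔹 : LlBase) (N0 : ℕ) (vl : ℝ) : Prop :=
  ∀ N, N0 ≤ N → ∃ LK C : ℝ, 0 ≤ LK ∧ 0 ≤ C ∧ ∀ I : L8In, I.F = F → I.𝔹 = 𝔹 → I.p.N = N → I.p.Ok F → ∀ σ : ℝ, |σ| = 1 →
    (∀ h, 0 ≤ h → h ≤ 1 / 3 → (I.pAt (I.t0 + σ * h)).Ok F) →
      L8ddKP I.a (fun t => (I.pAt t).K F 𝔹) I.t0 σ (1 / 3) LK C vl 3 (if I.p.sm then 3 else 0)

/-- (KD) the direct half of (KP): NO window (any `vl`) -/
def L8ddSupKD (F : LlFix) (𝔹 : LlBase) (N0 : ℕ) : Prop :=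
  ∀ N, N0 ≤ N → ∃ LK C : ℝ, 0 ≤ LK ∧ 0 ≤ C ∧ ∀ I : L8In, I.F = F → I.𝔹 = 𝔹 → I.p.N = N → I.p.Ok F → I.p.sm = false →
    ∀ σ : ℝ, |σ| = 1 → (∀ h, 0 ≤ h → h ≤ 1 / 3 → (I.pAt (I.t0 + σ * h)).Ok F) →
      ∀ vl : ℝ, L8ddKP I.a (fun t => (I.pAt t).K F 𝔹) I.t0 σ (1 / 3) LK C vl 3 0

/-- (KS) the size half of (KP): three windows in `(vl, 3)` -/
def L8ddSupKS (F : LlFix) (𝔹 : LlBase) (N0 : ℕ) (vl : ℝ) : Prop :=
  ∀ N, N0 ≤ N → ∃ LK C : ℝ, 0 ≤ LK ∧ 0 ≤ C ∧ ∀ I : L8In, I.F = F → I.𝔹 = 𝔹 → I.p.N = N → I.p.Ok F → I.p.sm = true →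
    ∀ σ : ℝ, |σ| = 1 → (∀ h, 0 ≤ h → h ≤ 1 / 3 → (I.pAt (I.t0 + σ * h)).Ok F) →
      L8ddKP I.a (fun t => (I.pAt t).K F 𝔹) I.t0 σ (1 / 3) LK C vl 3 3

/-- (KC) the scalar clock has no jump: its value at a position is its value at the mass -/
def L8ddSupC (F : LlFix) (𝔹 : LlBase) (N0 : ℕ) : Prop :=
  ∀ p : LlPt, N0 ≤ p.N → p.Ok F → ∀ pos : GhPos, pos.Ok p.a → ghAt p.a (p.K F 𝔹) pos = p.K F 𝔹 pos.u

/-- (MS) mass mesh, uniformly in the terminal mass -/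
def L8ddSupM : Prop :=
  ∀ μ : ℝ, 0 < μ → ∀ᶠ Fs : Finset GhPos in atTop, ∀ I : L8In, I.Fs = Fs → 0 < I.a → I.a ≤ 4 → ∀ j ≤ I.n, I.dv j ≤ μ

end

theorem l8dd_eqns_cite2 : True := by
  have := @L8ddSupA.eq_1
  have := @L8ddSupQ.eq_1
  have := @L8ddSupB.eq_1
  have := @L8ddSupK.eq_1
  have := @L8ddKP.eq_1
  have := @L8ddSupKP.eq_1
  have := @L8ddSupKD.eq_1
  have := @L8ddSupKS.eq_1
  have := @L8ddSupC.eq_1
  have := @L8ddSupM.eq_1
  trivial

/-- GLUE of the supply -/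
theorem l8dd_sup_of {F : LlFix} {𝔹 : LlBase} {N0 : ℕ} {vl : ℝ} (hA : L8ddSupA F 𝔹 N0) (hQ : L8ddSupQ F 𝔹 N0) (hB : L8ddSupB F 𝔹 N0)
    (hK : L8ddSupK F 𝔹 N0 vl) : L8ddSup F 𝔹 N0 vl := by
  intro N hN
  obtain ⟨Bm, LB, hBm, hLB, hb⟩ := hB N hN
  obtain ⟨LK, C, hLK, hC, hk⟩ := hK N hN
  refine ⟨LK, C, Bm, LB, hLK, hC, hBm, hLB, ?_⟩
  intro η μ hη hμ
  filter_upwards [hQ N hN η hη, hk μ hμ] with Fs q1 k1 I hIF hIB hIFs hIN hOk σ hσ hside
  refine ⟨?_, ?_, k1 I hIF hIB hIFs hIN hOk σ hσ hside, ?_⟩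
  · intro h h0 h1'
    have := hA (I.wP (I.t0 + σ * h)) hIF hIB (by show N0 ≤ (I.pAt _).N; rw [I.pAt_N, hIN]; exact hN) (hside h h0 h1')
    rwa [I.wP_a] at this
  · intro h h0 h1' k hk'
    have := q1 (I.wP (I.t0 + σ * h)) hIF hIB hIFs (by show (I.pAt _).N = N; rw [I.pAt_N, hIN]) (hside h h0 h1') k (by rw [I.wP_n]; exact hk')
    unfold L8In.rr
    rw [hIF, hIB]
    exact this
  · intro k _ h h0 h1'
    have e : |I.t0 + σ * h - I.t0| = h := by
      rw [add_sub_cancel_left, abs_mul, hσ, one_mul, abs_of_nonneg h0]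
    have := hb I hIF hIB hIN hOk (I.t0 + σ * h) (hside h h0 h1') (by rw [e]; exact h1') k
    rwa [e] at this

theorem L8In.dd_v_eq (I : L8In) (j : ℕ) : I.v j = l9kiM I.a (I.i9.ps I.p) (j + 1) := by
  have e : (llMat I.LP).map SkInc.m = (I.i9.ps I.p).map GhPos.u := by
    have e1 : (llMat I.LP).map SkInc.m = I.LP.map LlInc.m := by
      unfold llMat; rw [List.map_map]; rfl
    rw [e1]
    exact l8dd_stp_mass _ _ _ _ _ 0 0 0
  show ((llMat I.LP).map SkInc.m).getD j I.a = _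
  rw [e, l9ki_M_succ]

theorem L8In.dd_dv_eq (I : L8In) (j : ℕ) : I.dv j = l9kiM I.a (I.i9.ps I.p) (j + 1) - l9kiM I.a (I.i9.ps I.p) j := by
  show I.v j - (if j = 0 then 0 else I.v (j - 1)) = _
  rw [I.dd_v_eq]
  rcases j with _ | j
  · simp [l9ki_M_zero]
  · rw [if_neg (Nat.succ_ne_zero j), Nat.add_sub_cancel, I.dd_v_eq]

theorem L8In.dd_KC_top (I : L8In) {j : ℕ} (hj : I.n ≤ j) : I.KC j = I.KC I.n := by
  show llCumK I.LP j = llCumK I.LP I.LP.length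
  unfold llCumK
  rw [List.take_of_length_le hj, List.take_length]

/-- the cumulated scalar clock of the chain at the parameter `t` = the clock at the LEFT mass of the cut -/
theorem L8In.dd_KC_eq (I : L8In) {N0 : ℕ} (hC : L8ddSupC I.F I.𝔹 N0) (hN : N0 ≤ I.p.N) {t : ℝ} (hOk : (I.pAt t).Ok I.F) (j : ℕ) :
    (I.wP t).KC j = if min j I.n = 0 then 0 else (I.pAt t).K I.F I.𝔹 (l9kiM I.a (I.i9.ps I.p) (min j I.n)) := by
  have h1 : (I.wP t).KC j = (I.wP t).KC (min j I.n) := by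
    rcases le_total j I.n with h | h
    · rw [min_eq_left h]
    · rw [min_eq_right h, (I.wP t).dd_KC_top (by rw [I.wP_n]; exact h), I.wP_n]
  rw [h1]
  have hle : min j I.n ≤ I.n := min_le_right _ _
  rcases hm : min j I.n with _ | k
  · rw [if_pos rfl]
    show llCumK _ 0 = 0
    simp [llCumK]
  · rw [if_neg (Nat.succ_ne_zero k)]
    rw [hm] at hle
    have hk : k < (I.i9.ps I.p).length := by rw [← I.dd_n_eq]; exact hle
    have h2 : (I.i9.ps I.p)[k]? = some (I.i9.ps I.p)[k] := List.getElem?_eq_some_iff.2 ⟨hk, rfl⟩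
    rw [I.dd_KC_some t k h2, l9ki_M_lt _ _ hk]
    have hmem : (I.i9.ps I.p)[k] ∈ ghPs I.p.a (l9Fl I.Fs) := List.getElem_mem hk
    refine hC (I.pAt t) (by rw [I.pAt_N]; exact hN) hOk _ ?_
    rw [I.pAt_a]
    exact (gh_os_ps_mem.1 hmem).2

/-- **from the path to the chain**: windows + mass mesh ⟹ the weighted sum (`l9k2_window` of 263 / 242; dictionary `l9kiM` of 229).      PROVED (226) -/
theorem l8dd_supK_of {F : LlFix} {𝔹 : LlBase} {N0 : ℕ} {vl : ℝ} (hKP : L8ddSupKP F 𝔹 N0 vl) (hC : L8ddSupC F 𝔹 N0) (hM : L8ddSupM) :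
    L8ddSupK F 𝔹 N0 vl := by
  classical
  intro N hN
  obtain ⟨LK, C, hLK, hC0, H⟩ := hKP N hN
  refine ⟨LK, 4 * C + 3 * C * (C + 1), hLK, by positivity, ?_⟩
  intro μ hμ
  filter_upwards [hM (min μ 1) (lt_min hμ one_pos)] with Fs hFs I hIF hIB hIFs hIN hOk σ hσ hside
  subst hIF hIB
  have ha : 0 < I.a ∧ I.a ≤ 4 := by
    have h1 := hOk.ell1
    have h2 : I.p.ell ≤ 2 := by
      refine hOk.ell2.trans ?_
      calc (2 : ℝ) ^ (1 / 6 : ℝ) ≤ (2 : ℝ) ^ (1 : ℝ) := Real.rpow_le_rpow_of_exponent_le (by norm_num) (by norm_num)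
        _ = 2 := Real.rpow_one 2
    show 0 < I.p.a ∧ I.p.a ≤ 4
    unfold LlPt.a
    split_ifs
    · exact ⟨by norm_num, le_rfl⟩
    · exact ⟨by linarith, by linarith⟩
  have hmesh := hFs I hIFs ha.1 ha.2
  obtain ⟨Kd, HK⟩ := H I rfl rfl hIN hOk σ hσ hside
  set ps := I.i9.ps I.p with hps
  set M : ℕ → ℝ := l9kiM I.a ps with hMdef
  have hok : ∀ p ∈ ps, p.Ok I.a := fun p hp => (gh_os_ps_mem.1 hp).2
  have hMmono : Monotone M := l9ki_M_mono ha.1.le (gh_os_ps_pairwise _ _) hok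
  have hMmem : ∀ j, M j ∈ Icc 0 I.a := l9ki_M_mem ha.1.le hok
  have hNN : N0 ≤ I.p.N := hIN ▸ hN
  refine ⟨fun j => if min j I.n = 0 then 0 else Kd (M (min j I.n)), ?_⟩
  intro h hh hh1
  obtain ⟨a1, a2, W, w1, w2, w3⟩ := HK h hh hh1
  have ok0 : (I.pAt I.t0).Ok I.F := by simpa using hside 0 le_rfl (by norm_num)
  have okh : (I.pAt (I.t0 + σ * h)).Ok I.F := hside h hh.le hh1
  -- the Taylor defect on the chain
  have hkT : ∀ j, I.kT (fun j => if min j I.n = 0 then 0 else Kd (M (min j I.n))) σ h j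
      = if min j I.n = 0 then 0 else
        (I.pAt (I.t0 + σ * h)).K I.F I.𝔹 (M (min j I.n)) - (I.pAt I.t0).K I.F I.𝔹 (M (min j I.n)) - σ * h * Kd (M (min j I.n)) := by
    intro j
    unfold L8In.kT
    rw [I.dd_KC_eq hC hNN okh j, I.dd_KC_eq hC hNN ok0 j]
    by_cases h0 : min j I.n = 0
    · simp only [if_pos h0]; ring
    · simp only [if_neg h0]; rfl
  have hCh : 0 ≤ C * h := mul_nonneg hC0 hh.le
  have hCh2 : 0 ≤ C * h ^ 2 := mul_nonneg hC0 (sq_nonneg h)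
  refine ⟨?_, ?_, ?_⟩
  · intro j
    rw [I.dd_KC_eq hC hNN okh j, I.dd_KC_eq hC hNN ok0 j]
    split_ifs
    · simpa using mul_nonneg hLK hh.le
    · exact a1 _ (hMmem _)
  · -- the weighted sum
    have hpt : ∀ j ∈ Finset.range (I.n + 1), |I.kT (fun j => if min j I.n = 0 then 0 else Kd (M (min j I.n))) σ h j|
        ≤ C * h ^ 2 + ∑ w ∈ W, (if M j ∈ Icc w.1 w.2 then C * h else 0) := by
      intro j hj
      have hjn : j ≤ I.n := by have := Finset.mem_range.1 hj; omega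
      have hs0 : 0 ≤ ∑ w ∈ W, (if M j ∈ Icc w.1 w.2 then C * h else 0) :=
        Finset.sum_nonneg fun w _ => by split_ifs <;> [exact hCh; exact le_rfl]
      rw [hkT j, min_eq_left hjn]
      split_ifs with h0
      · rw [abs_zero]; linarith
      · by_cases hw : ∀ w ∈ W, M j ∉ Icc w.1 w.2
        · have := w3 _ (hMmem j) hw
          linarith
        · push Not at hw
          obtain ⟨w, hwW, hwm⟩ := hw
          have h1 : C * h ≤ ∑ w ∈ W, (if M j ∈ Icc w.1 w.2 then C * h else 0) := by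
            have := Finset.single_le_sum (f := fun w : ℝ × ℝ => if M j ∈ Icc w.1 w.2 then C * h else 0)
              (fun w _ => by split_ifs <;> [exact hCh; exact le_rfl]) hwW
            rwa [if_pos hwm] at this
          have := a2 _ (hMmem j)
          linarith
    have hdv0 : ∀ j, 0 ≤ I.dv j := fun j => by rw [I.dd_dv_eq]; exact sub_nonneg.2 (hMmono (Nat.le_succ j))
    have s1 : ∑ j ∈ Finset.range (I.n + 1), I.dv j * |I.kT (fun j => if min j I.n = 0 then 0 else Kd (M (min j I.n))) σ h j|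
        ≤ ∑ j ∈ Finset.range (I.n + 1), I.dv j * (C * h ^ 2 + ∑ w ∈ W, (if M j ∈ Icc w.1 w.2 then C * h else 0)) :=
      Finset.sum_le_sum fun j hj => mul_le_mul_of_nonneg_left (hpt j hj) (hdv0 j)
    have s2 : ∑ j ∈ Finset.range (I.n + 1), I.dv j = M (I.n + 1) - M 0 := by
      rw [← Finset.sum_range_sub M (I.n + 1)]
      exact Finset.sum_congr rfl fun j _ => I.dd_dv_eq j
    have s3 : ∑ j ∈ Finset.range (I.n + 1), I.dv j ≤ 4 := by
      rw [s2]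
      have h1 := (hMmem (I.n + 1)).2
      have h2 := (hMmem 0).1
      linarith [ha.2]
    have s4 : ∀ w ∈ W, ∑ j ∈ Finset.range (I.n + 1), I.dv j * (if M j ∈ Icc w.1 w.2 then C * h else 0) ≤ C * h * (C * h + min μ 1) := by
      intro w hw
      have hwin := l9k2_window (N := I.n + 1) (m := M) hMmono (mesh := min μ 1) (α := w.1) (β := w.2)
        (fun j hj => by rw [← I.dd_dv_eq]; exact hmesh j (by omega)) (lt_min hμ one_pos).le (w2 w hw).1
      have e : ∑ j ∈ Finset.range (I.n + 1), I.dv j * (if M j ∈ Icc w.1 w.2 then C * h else 0)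
          = C * h * ∑ j ∈ (Finset.range (I.n + 1)).filter (fun j => M j ∈ Icc w.1 w.2), (M (j + 1) - M j) := by
        rw [Finset.mul_sum, Finset.sum_filter]
        refine Finset.sum_congr rfl fun j _ => ?_
        rw [I.dd_dv_eq]
        split_ifs <;> ring
      rw [e]
      refine mul_le_mul_of_nonneg_left (hwin.trans ?_) hCh
      linarith [(w2 w hw).2.1]
    have s5 : ∑ j ∈ Finset.range (I.n + 1), I.dv j * (C * h ^ 2 + ∑ w ∈ W, (if M j ∈ Icc w.1 w.2 then C * h else 0))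
        = C * h ^ 2 * ∑ j ∈ Finset.range (I.n + 1), I.dv j
          + ∑ w ∈ W, ∑ j ∈ Finset.range (I.n + 1), I.dv j * (if M j ∈ Icc w.1 w.2 then C * h else 0) := by
      rw [Finset.sum_comm, Finset.mul_sum, ← Finset.sum_add_distrib]
      refine Finset.sum_congr rfl fun j _ => ?_
      rw [mul_add, Finset.mul_sum]
      ring
    have s6 : ∑ w ∈ W, ∑ j ∈ Finset.range (I.n + 1), I.dv j * (if M j ∈ Icc w.1 w.2 then C * h else 0) ≤ 3 * (C * h * (C * h + min μ 1)) := by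
      refine (Finset.sum_le_sum s4).trans ?_
      rw [Finset.sum_const, nsmul_eq_mul]
      have hc : (W.card : ℝ) ≤ 3 := by
        have : W.card ≤ 3 := w1.trans (by split_ifs <;> omega)
        exact_mod_cast this
      exact mul_le_mul_of_nonneg_right hc (mul_nonneg hCh (add_nonneg hCh (lt_min hμ one_pos).le))
    refine s1.trans ?_
    rw [s5]
    have s7 : C * h ^ 2 * ∑ j ∈ Finset.range (I.n + 1), I.dv j ≤ C * h ^ 2 * 4 := mul_le_mul_of_nonneg_left s3 hCh2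
    have s8 : min μ 1 ≤ μ := min_le_left _ _
    have s9 : C * h * (C * h + min μ 1) ≤ C * h * (C * h + μ) := mul_le_mul_of_nonneg_left (by linarith) hCh
    have t1 : 0 ≤ C * h * μ := mul_nonneg hCh hμ.le
    have t2 : 0 ≤ C * C * h * μ := by positivity
    nlinarith
  · -- low levels and the top
    intro j hj
    rw [hkT j]
    have hbig : C * h ^ 2 ≤ (4 * C + 3 * C * (C + 1)) * h ^ 2 := by
      refine mul_le_mul_of_nonneg_right ?_ (sq_nonneg h)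
      nlinarith
    split_ifs with h0
    · rw [abs_zero]; exact hCh2.trans hbig
    · refine (w3 _ (hMmem _) ?_).trans hbig
      intro w hw hmem
      cases hsm : I.p.sm with
      | false =>
        rw [hsm] at w1
        have : W = ∅ := Finset.card_eq_zero.1 (by simpa using w1)
        rw [this] at hw
        simp at hw
      | true =>
        obtain ⟨-, -, hwl, hwh⟩ := w2 w hw
        by_cases hnj : I.n ≤ j
        · -- the top
          rw [min_eq_right hnj] at hmem h0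
          have hd := hmesh I.n le_rfl
          rw [I.dd_dv_eq] at hd
          have htop : M (I.n + 1) = I.a := l9ki_M_ge _ _ (by rw [← I.dd_n_eq])
          have ha4 : I.a = 4 := by
            show I.p.a = 4
            unfold LlPt.a; rw [hsm]; simp
          have : min μ 1 ≤ 1 := min_le_right _ _
          have h3 := hmem.2
          rw [← hMdef, htop, ha4] at hd
          linarith
        · have hjn : j ≤ I.n := by omega
          rw [min_eq_left hjn] at hmem h0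
          rcases hj hsm with h1 | h1 | h1
          · exact h0 h1
          · obtain ⟨i, rfl⟩ := Nat.exists_eq_succ_of_ne_zero h0
            rw [Nat.succ_eq_add_one, Nat.add_sub_cancel, I.dd_v_eq] at h1
            have h3 := hmem.1
            rw [Nat.succ_eq_add_one] at h3
            linarith
          · exact hnj h1


theorem L8ddKP.mono {a : ℝ} {Kf : ℝ → ℝ → ℝ} {t σ h1 LK C vl vh h1' LK' C' : ℝ} {r : ℕ} (H : L8ddKP a Kf t σ h1 LK C vl vh r)
    (hh : h1' ≤ h1) (hL : LK ≤ LK') (hC : C ≤ C') : L8ddKP a Kf t σ h1' LK' C' vl vh r := by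
  obtain ⟨Kd, H⟩ := H
  refine ⟨Kd, fun h h0 hh1 => ?_⟩
  obtain ⟨a1, a2, W, w1, w2, w3⟩ := H h h0 (hh1.trans hh)
  have m1 : C * h ≤ C' * h := mul_le_mul_of_nonneg_right hC h0.le
  refine ⟨fun v hv => (a1 v hv).trans (mul_le_mul_of_nonneg_right hL h0.le), fun v hv => (a2 v hv).trans m1, W, w1,
    fun w hw => ⟨(w2 w hw).1, (w2 w hw).2.1.trans m1, (w2 w hw).2.2⟩, fun v hv hw => (w3 v hv hw).trans (mul_le_mul_of_nonneg_right hC (sq_nonneg h))⟩

/-- GLUE: the two halves of (KP) -/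
theorem l8dd_supKP_of {F : LlFix} {𝔹 : LlBase} {N0 : ℕ} {vl : ℝ} (hD : L8ddSupKD F 𝔹 N0) (hS : L8ddSupKS F 𝔹 N0 vl) : L8ddSupKP F 𝔹 N0 vl := by
  intro N hN
  obtain ⟨LK, C, a3, a4, HD⟩ := hD N hN
  obtain ⟨LK', C', b3, b4, HS⟩ := hS N hN
  refine ⟨max LK LK', max C C', a3.trans (le_max_left _ _), a4.trans (le_max_left _ _), ?_⟩
  intro I hF hB hIN hOk σ hσ hside
  cases hsm : I.p.sm with
  | false =>
    have := HD I hF hB hIN hOk hsm σ hσ hside vl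
    simpa using this.mono le_rfl (le_max_left _ _) (le_max_left _ _)
  | true =>
    have := HS I hF hB hIN hOk hsm σ hσ hside
    simpa using this.mono le_rfl (le_max_right _ _) (le_max_right _ _)

end Claimed.Agent.R286
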