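import Claimed.Agent.R286.L08.Glue
import Claimed.Agent.R286.L08.FineA
import Claimed.Agent.R286.LL.PathsClkE
import Claimed.Agent.R286.Exit.ClkLip

/-!
# Row 286 (S0533), folder L08, file DdSup : PHYSICAL AND CHAIN SUPPLIES OF THE DD-LINK (L08/DdLink.lean, helper226)      (owner helper189; prefix `l8ds_`)

Statements in RAW form (no definition of L08/DdLink): DdLink imports this file and closes its leaves by adapters.
* `l8ds_sec3`       the P-list at the exponents of `pB, pS`;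
* `l8ds_clamp_mod`  a modulus on `[0,a]` + value `0` at `0` = a modulus of the clamped clock without jump mass;
* `l8ds_supC`       (KC) the scalar clock has no jump: `ghAt p.a (p.K F 𝔹) pos = p.K F 𝔹 pos.u`.
-/

set_option autoImplicit false

namespace Claimed.Agent.R286

open Set Filter Topology

/-- the P-list at the exponents in use -/
theorem l8ds_sec3 {T : ℝ} {F0 : LlFix} (hF : L8Fix llBase T F0) (pB : LLParB) {pS : ℝ} (h0 : 0 < pS) (h1 : pS ≤ 1) :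
    LlSec3 llBase (F0.wExp pB.sStar pB.eta pS) ∧ LlBaseProfile llBase (F0.wExp pB.sStar pB.eta pS).T := by
  refine ⟨(hF.2.2 _ _ _ (llc_expOk pB h0 h1)).sec3, ?_⟩
  have e : (F0.wExp pB.sStar pB.eta pS).T = T := hF.1
  rw [e]
  exact hF.2.1

/-- a modulus on `[0,a]` and the value `0` at `0` give a modulus of the clamped clock, no jump mass -/
theorem l8ds_clamp_mod {a δ η : ℝ} {c : ℝ → ℝ} (ha : 0 ≤ a) (hη : 0 ≤ η) (h0 : c 0 = 0)
    (h : ∀ v v' : ℝ, 0 ≤ v → v ≤ v' → v' ≤ a → v' - v ≤ δ → c v' - c v ≤ η) : L8fMod (ghClamp a c) ∅ δ η := by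
  intro w w' hww hd _
  unfold ghClamp
  by_cases h1 : w' < 0
  · rw [if_pos h1, if_pos (lt_of_le_of_lt hww h1), sub_zero]
    exact hη
  · rw [not_lt] at h1
    rw [if_neg (not_lt.2 h1)]
    by_cases h2 : w < 0
    · rw [if_pos h2, sub_zero]
      have := h 0 (min w' a) le_rfl (le_min h1 ha) (min_le_right _ _) (by
        have := min_le_left w' a
        linarith)
      rwa [h0, sub_zero] at this
    · rw [not_lt] at h2
      rw [if_neg (not_lt.2 h2)]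
      refine h (min w a) (min w' a) (le_min h2 ha) (min_le_min_right a hww) (min_le_right _ _) ?_
      rcases le_total w a with h3 | h3
      · rw [min_eq_left h3]
        have := min_le_left w' a
        linarith
      · rw [min_eq_right h3, min_eq_right (h3.trans hww)]
        linarith

/-- **(KC)** the scalar clock has no jump: its value at a position is its value at the mass -/
theorem l8ds_supC (T : ℝ) : ∀ F0, L8Fix llBase T F0 → ∀ (pB : LLParB) (pS : ℝ), 0 < pS → pS ≤ 1 →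
    ∃ N0 : ℕ, ∀ p : LlPt, N0 ≤ p.N → p.Ok (F0.wExp pB.sStar pB.eta pS) → ∀ pos : GhPos, pos.Ok p.a →
      ghAt p.a (p.K (F0.wExp pB.sStar pB.eta pS) llBase) pos = p.K (F0.wExp pB.sStar pB.eta pS) llBase pos.u := by
  intro F0 hF pB pS h0 h1
  obtain ⟨h3, hB⟩ := l8ds_sec3 hF pB h0 h1
  obtain ⟨N0, hE⟩ := h3.equi
  refine ⟨N0, fun p hN hp pos hpos => ?_⟩
  have ha : 0 ≤ p.a := hpos.1.trans hpos.2.1
  have hK0 := lce_K_zero h3.ok hB hp
  refine l8f_at_cont (J := ∅) ha ⟨lce_K_mono h3.ok hB hp, hK0.ge⟩ (fun η hη => ?_) hpos (Or.inl (Finset.notMem_empty _))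
  obtain ⟨δ, hδ, H⟩ := hE p.N hN η hη
  exact ⟨δ, hδ, l8ds_clamp_mod ha hη.le hK0 fun v v' a1 a2 a3 a4 => (H p hp rfl v v' a1 a2 a3 a4).1⟩

/-! ### (B) the matrix clock: elementary lemmas -/

theorem l8ds_exp_lip {u u0 M : ℝ} (h : u ≤ M) (h0 : u0 ≤ M) : |Real.exp u - Real.exp u0| ≤ Real.exp M * |u - u0| := by
  have key : ∀ a b : ℝ, a ≤ b → b ≤ M → |Real.exp b - Real.exp a| ≤ Real.exp M * |b - a| := by
    intro a b hab hb
    rw [abs_of_nonneg (sub_nonneg.2 (Real.exp_le_exp.2 hab)), abs_of_nonneg (sub_nonneg.2 hab)]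
    have h1 : a - b + 1 ≤ Real.exp (a - b) := Real.add_one_le_exp _
    have h2 : Real.exp a = Real.exp b * Real.exp (a - b) := by rw [← Real.exp_add]; congr 1; ring
    have h3 : Real.exp b - Real.exp a ≤ Real.exp b * (b - a) := by
      rw [h2]
      nlinarith [Real.exp_pos b]
    exact h3.trans (mul_le_mul_of_nonneg_right (Real.exp_le_exp.2 hb) (sub_nonneg.2 hab))
  rcases le_total u0 u with h1 | h1
  · exact key u0 u h1 h
  · rw [abs_sub_comm, abs_sub_comm u u0]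
    exact key u u0 h1 h0

/-- the matrix clock is affine in `(b_∘, λ, λ U²)` with coefficients which do not see the strength -/
theorem l8ds_b_form (F : LlFix) (𝔹 : LlBase) (p : LlPt) (v : ℝ) :
    p.b F 𝔹 v = p.b0 F 𝔹 + p.lam * (F.cb * (p.G F v - F.c1 * p.gam0 * p.G F v - F.c1 * p.dySum F v))
      - p.lam * p.U F ^ 2 * (F.cb * (1 + F.c1 * p.gam0)) := by
  unfold LlPt.b
  ring

/-- **direct path**: Lipschitz bound of `b` in `t = log λ`, constants of `x` -/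
theorem l8ds_b_dir {F : LlFix} {𝔹 : LlBase} {p : LlPt} {C Cr t : ℝ} (hp : p.Ok F) (hp' : (p.wLam t).Ok F) (hpS : 0 ≤ F.pS) (hsS : 0 ≤ F.sS)
    (hCr : 0 ≤ Cr) (hb0 : |p.b0 F 𝔹| ≤ C) (hR : |(p.wLam t).b0 F 𝔹 - p.b0 F 𝔹| ≤ Cr * |Real.exp t - p.lam|) {v : ℝ} (hb : |p.b F 𝔹 v| ≤ C) :
    |(p.wLam t).b F 𝔹 v - p.b F 𝔹 v|
      ≤ (Cr + (2 * C + |F.cb| * (1 + |F.c1| * 4)) / p.x ^ (12 : ℝ)
          + |F.cb| * (1 + |F.c1| * 4) * (1 + 2 * (p.x * (Real.exp (-(F.sS / 2) * Real.log (p.x ^ (12 : ℝ))) * (F.sS / 2)))))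
        * |t - Real.log p.lam| := by
  have hx : 0 < p.x := lce_x_pos hp.N2
  have hx12 : 0 < p.x ^ (12 : ℝ) := Real.rpow_pos_of_pos hx _
  have hl : 0 < p.lam := lce_lam_pos hp
  have hl1 : p.lam ≤ 1 := lce_lam_le_one hp hpS
  have hl1' : Real.exp t ≤ 1 := lce_lam_le_one hp' hpS
  set t0 := Real.log p.lam with ht0
  have el : p.lam = Real.exp t0 := (Real.exp_log hl).symm
  have ht0' : t0 ≤ 0 := Real.log_nonpos hl.le hl1
  have ht' : t ≤ 0 := by
    have := Real.log_le_log (Real.exp_pos t) hl1'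
    rwa [Real.log_exp, Real.log_one] at this
  set L0 := Real.log (p.x ^ (12 : ℝ)) with hL0
  have hLt0 : L0 ≤ t0 := Real.log_le_log hx12 hp.lam_lo
  have hLt : L0 ≤ t := by
    have := Real.log_le_log hx12 hp'.lam_lo
    rwa [show (p.wLam t).lam = Real.exp t from rfl, Real.log_exp] at this
  set δ := |t - t0| with hδ
  have hδ0 : 0 ≤ δ := abs_nonneg _
  -- the strength
  have dl : |Real.exp t - p.lam| ≤ δ := by
    rw [el]
    have := l8ds_exp_lip ht' ht0'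
    rwa [Real.exp_zero, one_mul] at this
  -- the scale `U`
  have hU0 : 0 ≤ p.U F := (lce_U_pos hp).le
  have hU1 : p.U F ≤ 1 := lce_U_le_one
  have hU0' : 0 ≤ (p.wLam t).U F := (lce_U_pos hp').le
  have hU1' : (p.wLam t).U F ≤ 1 := lce_U_le_one
  set D := Real.exp (-(F.sS / 2) * L0) * (F.sS / 2) with hD
  have hD0 : 0 ≤ D := mul_nonneg (Real.exp_pos _).le (by linarith)
  have dU : |(p.wLam t).U F - p.U F| ≤ p.x * (D * δ) := by
    have e1 : (p.wLam t).U F = min 1 (p.x * Real.exp (-(F.sS / 2) * t)) := by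
      show min 1 (p.x * Real.exp t ^ (-(F.sS / 2))) = _
      rw [← Real.exp_mul, mul_comm t]
    have e2 : p.U F = min 1 (p.x * Real.exp (-(F.sS / 2) * t0)) := by
      show min 1 (p.x * p.lam ^ (-(F.sS / 2))) = _
      rw [el, ← Real.exp_mul, mul_comm t0]
    rw [e1, e2]
    refine (abs_min_sub_min_le_max _ _ _ _).trans ?_
    rw [sub_self, abs_zero, ← mul_sub, abs_mul, abs_of_pos hx]
    refine max_le (by positivity) (mul_le_mul_of_nonneg_left ?_ hx.le)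
    have h1 : -(F.sS / 2) * t ≤ -(F.sS / 2) * L0 := by nlinarith
    have h2 : -(F.sS / 2) * t0 ≤ -(F.sS / 2) * L0 := by nlinarith
    refine (l8ds_exp_lip h1 h2).trans (le_of_eq ?_)
    rw [← mul_sub, abs_mul, abs_neg, abs_of_nonneg (by linarith : 0 ≤ F.sS / 2), hD]
    ring
  -- the constants
  set Eb := |F.cb| * (1 + |F.c1| * 4) with hEb
  have hEb0 : 0 ≤ Eb := by positivity
  set E := F.cb * (1 + F.c1 * p.gam0) with hE
  have hEle : |E| ≤ Eb := by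
    rw [hE, abs_mul]
    refine mul_le_mul_of_nonneg_left ?_ (abs_nonneg _)
    refine (abs_add_le _ _).trans ?_
    rw [abs_one, abs_mul]
    have : |p.gam0| ≤ 4 := abs_le.2 hp.g0
    nlinarith [abs_nonneg F.c1]
  set W := F.cb * (p.G F v - F.c1 * p.gam0 * p.G F v - F.c1 * p.dySum F v) with hW
  have f0 : p.b F 𝔹 v = p.b0 F 𝔹 + p.lam * W - p.lam * p.U F ^ 2 * E := l8ds_b_form F 𝔹 p v
  have f1 : (p.wLam t).b F 𝔹 v = (p.wLam t).b0 F 𝔹 + Real.exp t * W - Real.exp t * (p.wLam t).U F ^ 2 * E := l8ds_b_form F 𝔹 (p.wLam t) v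
  have hWle : |W| ≤ (2 * C + Eb) / p.x ^ (12 : ℝ) := by
    rw [le_div_iff₀ hx12]
    have h1 : p.lam * W = p.b F 𝔹 v - p.b0 F 𝔹 + p.lam * p.U F ^ 2 * E := by rw [f0]; ring
    have h2 : |p.lam * W| ≤ 2 * C + Eb := by
      rw [h1]
      have a1 := abs_add_le (p.b F 𝔹 v - p.b0 F 𝔹) (p.lam * p.U F ^ 2 * E)
      have a2 := abs_sub (p.b F 𝔹 v) (p.b0 F 𝔹)
      have a3 : |p.lam * p.U F ^ 2 * E| ≤ Eb := by
        rw [abs_mul, abs_of_nonneg (by positivity : 0 ≤ p.lam * p.U F ^ 2)]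
        have : p.lam * p.U F ^ 2 ≤ 1 := by nlinarith [pow_le_one₀ hU0 hU1 (n := 2), pow_nonneg hU0 2]
        calc p.lam * p.U F ^ 2 * |E| ≤ 1 * Eb := mul_le_mul this hEle (abs_nonneg _) zero_le_one
          _ = Eb := one_mul _
      linarith
    rw [abs_mul, abs_of_pos hl] at h2
    calc |W| * p.x ^ (12 : ℝ) ≤ |W| * p.lam := mul_le_mul_of_nonneg_left hp.lam_lo (abs_nonneg _)
      _ = p.lam * |W| := mul_comm _ _
      _ ≤ _ := h2
  have dLU : |Real.exp t * (p.wLam t).U F ^ 2 - p.lam * p.U F ^ 2| ≤ (1 + 2 * (p.x * D)) * δ := by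
    have e : Real.exp t * (p.wLam t).U F ^ 2 - p.lam * p.U F ^ 2
        = (Real.exp t - p.lam) * (p.wLam t).U F ^ 2 + p.lam * (((p.wLam t).U F - p.U F) * ((p.wLam t).U F + p.U F)) := by ring
    rw [e]
    refine (abs_add_le _ _).trans ?_
    have a1 : |(Real.exp t - p.lam) * (p.wLam t).U F ^ 2| ≤ δ := by
      rw [abs_mul, abs_of_nonneg (pow_nonneg hU0' 2)]
      calc |Real.exp t - p.lam| * (p.wLam t).U F ^ 2 ≤ δ * 1 := mul_le_mul dl (pow_le_one₀ hU0' hU1') (pow_nonneg hU0' 2) hδ0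
        _ = δ := mul_one _
    have a2 : |p.lam * (((p.wLam t).U F - p.U F) * ((p.wLam t).U F + p.U F))| ≤ 2 * (p.x * (D * δ)) := by
      rw [abs_mul, abs_mul, abs_of_pos hl, abs_of_nonneg (by linarith : 0 ≤ (p.wLam t).U F + p.U F)]
      have b1 : |(p.wLam t).U F - p.U F| * ((p.wLam t).U F + p.U F) ≤ p.x * (D * δ) * 2 :=
        mul_le_mul dU (by linarith) (by linarith) (by positivity)
      calc p.lam * (|(p.wLam t).U F - p.U F| * ((p.wLam t).U F + p.U F)) ≤ 1 * (p.x * (D * δ) * 2) :=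
            mul_le_mul hl1 b1 (by positivity) zero_le_one
        _ = _ := by ring
    calc _ ≤ δ + 2 * (p.x * (D * δ)) := add_le_add a1 a2
      _ = _ := by ring
  have db0 : |(p.wLam t).b0 F 𝔹 - p.b0 F 𝔹| ≤ Cr * δ := hR.trans (mul_le_mul_of_nonneg_left dl hCr)
  have e : (p.wLam t).b F 𝔹 v - p.b F 𝔹 v = ((p.wLam t).b0 F 𝔹 - p.b0 F 𝔹) + (Real.exp t - p.lam) * W
      - (Real.exp t * (p.wLam t).U F ^ 2 - p.lam * p.U F ^ 2) * E := by rw [f0, f1]; ring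
  rw [e]
  have c1 := abs_sub (((p.wLam t).b0 F 𝔹 - p.b0 F 𝔹) + (Real.exp t - p.lam) * W) ((Real.exp t * (p.wLam t).U F ^ 2 - p.lam * p.U F ^ 2) * E)
  have c2 := abs_add_le ((p.wLam t).b0 F 𝔹 - p.b0 F 𝔹) ((Real.exp t - p.lam) * W)
  have c3 : |(Real.exp t - p.lam) * W| ≤ δ * ((2 * C + Eb) / p.x ^ (12 : ℝ)) := by
    rw [abs_mul]
    exact mul_le_mul dl hWle (abs_nonneg _) hδ0
  have c4 : |(Real.exp t * (p.wLam t).U F ^ 2 - p.lam * p.U F ^ 2) * E| ≤ (1 + 2 * (p.x * D)) * δ * Eb := by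
    rw [abs_mul]
    exact mul_le_mul dLU hEle (abs_nonneg _) (by positivity)
  calc _ ≤ Cr * δ + δ * ((2 * C + Eb) / p.x ^ (12 : ℝ)) + (1 + 2 * (p.x * D)) * δ * Eb := by linarith
    _ = _ := by ring

/-- on a size path only `b_∘` moves -/
theorem l8ds_b_siz_eq (F : LlFix) (𝔹 : LlBase) (p : LlPt) (θ v : ℝ) :
    (p.wTh θ).b F 𝔹 v - p.b F 𝔹 v = (p.wTh θ).b0 F 𝔹 - p.b0 F 𝔹 := by
  have e1 : (p.wTh θ).G F v = p.G F v := rfl
  have e2 : (p.wTh θ).U F = p.U F := rfl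
  have e3 : (p.wTh θ).dySum F v = p.dySum F v := rfl
  have e4 : (p.wTh θ).lam = p.lam := rfl
  have e5 : (p.wTh θ).gam0 = p.gam0 := rfl
  simp only [LlPt.b, e1, e2, e3, e4, e5]
  ring

theorem l8ds_wTh_self {p : LlPt} (h : 0 < p.ell) : p.wTh (6 * Real.log p.ell) = p := by
  unfold LlPt.wTh
  rw [mul_div_cancel_left₀ _ (by norm_num : (6 : ℝ) ≠ 0), Real.exp_log h]

/-- the size coordinate of a valid point -/
theorem l8ds_th_mem {F : LlFix} {p : LlPt} {θ : ℝ} (h : (p.wTh θ).Ok F) : θ ∈ Icc 0 (Real.log 2) := by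
  have h1 : (1 : ℝ) ≤ Real.exp (θ / 6) := h.ell1
  have h2 : Real.exp (θ / 6) ≤ (2 : ℝ) ^ (1 / 6 : ℝ) := h.ell2
  constructor
  · have := Real.log_le_log one_pos h1
    rw [Real.log_one, Real.log_exp] at this
    linarith
  · have := Real.log_le_log (Real.exp_pos _) h2
    rw [Real.log_exp, Real.log_rpow (by norm_num)] at this
    linarith

/-- **size path**: Lipschitz bound of `b` in `θ` -/
theorem l8ds_b_siz {F : LlFix} {𝔹 : LlBase} {p : LlPt} {c C Cb v0 ξ0 θ : ℝ} {R0 : ℕ} (hp : p.Ok F) (hp' : (p.wTh θ).Ok F)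
    (hb0 : |p.b0 F 𝔹| ≤ Cb) (hR : p.RegT F 𝔹 c C v0 ξ0 R0 (6 * Real.log p.ell) θ) (v : ℝ) :
    |(p.wTh θ).b F 𝔹 v - p.b F 𝔹 v| ≤ (|C| * Real.exp (-c * p.M) + Cb) * |θ - 6 * Real.log p.ell| := by
  have hl : 0 < p.ell := by linarith [hp.ell1]
  set θ0 := 6 * Real.log p.ell with hθ0
  have hs : p.wTh θ0 = p := l8ds_wTh_self hl
  have hm : θ ∈ Icc 0 (Real.log 2) := l8ds_th_mem hp'
  have hm0 : θ0 ∈ Icc 0 (Real.log 2) := l8ds_th_mem (F := F) (p := p) (by rw [hs]; exact hp)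
  have h1 := hR.b0
  rw [hs] at h1
  rw [l8ds_b_siz_eq]
  set δ := |θ - θ0| with hδ
  replace h1 : |(p.wTh θ).ell ^ 2 * (p.wTh θ).b0 F 𝔹 - p.ell ^ 2 * p.b0 F 𝔹| ≤ |C| * Real.exp (-c * p.M) * δ :=
    h1.trans (mul_le_mul_of_nonneg_right (mul_le_mul_of_nonneg_right (le_abs_self C) (Real.exp_pos _).le) (abs_nonneg _))
  have hCb : 0 ≤ Cb := (abs_nonneg _).trans hb0
  have e1 : (p.wTh θ).ell ^ 2 = Real.exp (θ / 3) := by
    show Real.exp (θ / 6) ^ 2 = _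
    rw [← Real.exp_nat_mul]; congr 1; push_cast; ring
  have e0 : p.ell ^ 2 = Real.exp (θ0 / 3) := by
    rw [hθ0, show 6 * Real.log p.ell / 3 = ((2 : ℕ) : ℝ) * Real.log p.ell by push_cast; ring, Real.exp_nat_mul, Real.exp_log hl]
  have hl2 : Real.log 2 ≤ 1 := by
    have := Real.log_two_lt_d9
    linarith
  have d2 : |(p.wTh θ).ell ^ 2 - p.ell ^ 2| ≤ δ := by
    rw [e1, e0]
    have a1 : θ / 3 ≤ Real.log 2 := by linarith [hm.1, hm.2]
    have a2 : θ0 / 3 ≤ Real.log 2 := by linarith [hm0.1, hm0.2]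
    refine (l8ds_exp_lip a1 a2).trans ?_
    rw [Real.exp_log (by norm_num), show θ / 3 - θ0 / 3 = (θ - θ0) / 3 by ring, abs_div, abs_of_pos (by norm_num : (0 : ℝ) < 3)]
    linarith [abs_nonneg (θ - θ0)]
  have hge : 1 ≤ (p.wTh θ).ell ^ 2 := one_le_pow₀ hp'.ell1
  have e : (p.wTh θ).ell ^ 2 * ((p.wTh θ).b0 F 𝔹 - p.b0 F 𝔹)
      = ((p.wTh θ).ell ^ 2 * (p.wTh θ).b0 F 𝔹 - p.ell ^ 2 * p.b0 F 𝔹) - ((p.wTh θ).ell ^ 2 - p.ell ^ 2) * p.b0 F 𝔹 := by ring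
  have k1 : |(p.wTh θ).ell ^ 2 * ((p.wTh θ).b0 F 𝔹 - p.b0 F 𝔹)| ≤ |C| * Real.exp (-c * p.M) * δ + δ * Cb := by
    rw [e]
    refine (abs_sub _ _).trans (add_le_add h1 ?_)
    rw [abs_mul]
    exact mul_le_mul d2 hb0 (abs_nonneg _) (abs_nonneg _)
  rw [abs_mul, abs_of_pos (by linarith : 0 < (p.wTh θ).ell ^ 2)] at k1
  calc |(p.wTh θ).b0 F 𝔹 - p.b0 F 𝔹| ≤ (p.wTh θ).ell ^ 2 * |(p.wTh θ).b0 F 𝔹 - p.b0 F 𝔹| :=
        le_mul_of_one_le_left (abs_nonneg _) hge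
    _ ≤ _ := k1
    _ = _ := by ring

/-! ### (B) on a chain -/

/-- the cumulated matrix clock after `k` stages is `0` or the value at ONE position of the chain, the same for all clocks -/
theorem l8ds_cumB_pos (a : ℝ) (ps : List GhPos) (k : ℕ) :
    (∀ b h K : ℝ → ℝ, skCumB (llMat (l9Stp a b h K 0 0 0 ps)) k = 0) ∨
      ∃ pos ∈ ps, ∀ b h K : ℝ → ℝ, skCumB (llMat (l9Stp a b h K 0 0 0 ps)) k = ghAt a b pos := by
  rcases Nat.eq_zero_or_pos k with rfl | hk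
  · exact Or.inl fun b h K => by simp [skCumB]
  rcases Nat.eq_zero_or_pos ps.length with h0 | h0
  · have : ps = [] := List.eq_nil_of_length_eq_zero h0
    subst this
    exact Or.inl fun b h K => by simp [skCumB, l9Stp, llMat]
  rcases Nat.lt_or_ge ps.length k with hlt | hge
  · refine Or.inr ⟨ps[ps.length - 1], List.getElem_mem _, fun b h K => ?_⟩
    have hlen : (llMat (l9Stp a b h K 0 0 0 ps)).length = ps.length := by
      simp [llMat, l8f_stp_length]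
    have e := (l8f_cum a b h K ps (ps.length - 1) (by omega)).1
    rw [← e]
    unfold skCumB
    rw [List.take_of_length_le (by omega), List.take_of_length_le (by omega)]
  · refine Or.inr ⟨ps[k - 1], List.getElem_mem _, fun b h K => ?_⟩
    have e := (l8f_cum a b h K ps (k - 1) (by omega)).1
    rwa [show k - 1 + 1 = k by omega] at e

/-- the cumulated matrix clock of the chain `ghPs p.a Fs` at the point `p` -/
noncomputable def l8dsB (F : LlFix) (𝔹 : LlBase) (Fs : Finset GhPos) (p : LlPt) (k : ℕ) : ℝ :=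
  skCumB (llMat (l9Stp p.a (p.b F 𝔹) (p.h F 𝔹) (p.K F 𝔹) 0 0 0 (ghPs p.a Fs))) k

theorem l8ds_eqns_cite : True := by
  have := @l8dsB.eq_1
  trivial

/-- from the path to the chain -/
theorem l8ds_chain {F : LlFix} {𝔹 : LlBase} {p p' : LlPt} (ha : p'.a = p.a) (ha0 : 0 ≤ p.a) (hc : GhClk1 p.a (p.b F 𝔹)) (hc' : GhClk1 p.a (p'.b F 𝔹))
    {Bm D : ℝ} (hBm : p'.b F 𝔹 p.a ≤ Bm) (hD : ∀ v ∈ Icc 0 p.a, |p'.b F 𝔹 v - p.b F 𝔹 v| ≤ D) (Fs : Finset GhPos) (k : ℕ) :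
    |l8dsB F 𝔹 Fs p' k| ≤ Bm ∧ |l8dsB F 𝔹 Fs p' k - l8dsB F 𝔹 Fs p k| ≤ D := by
  have hD0 : 0 ≤ D := (abs_nonneg _).trans (hD 0 ⟨le_rfl, ha0⟩)
  have hB0 : 0 ≤ Bm := (hc'.2.trans (hc'.1 ⟨le_rfl, ha0⟩ ⟨ha0, le_rfl⟩ ha0)).trans hBm
  unfold l8dsB
  rw [ha]
  rcases l8ds_cumB_pos p.a (ghPs p.a Fs) k with h | ⟨pos, hpos, h⟩
  · rw [h, h, sub_zero, abs_zero]
    exact ⟨hB0, hD0⟩
  · have hok : pos.Ok p.a := (gh_os_ps_mem.1 hpos).2
    rw [h, h]
    refine ⟨?_, brg_n_at_sub ha0 hc' hc hD hok⟩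
    rw [abs_of_nonneg (gh_os_at_nonneg ha0 hc' hok.2.2.1)]
    exact (gh_os_at_le_top ha0 hc' hok).trans (by rw [gh_os_at_top _ _ ha0]; exact hBm)

/-- **(B)** the matrix clock on a chain: bounded and Lipschitz in the parameter, constants of `N` (RAW form of `L8ddSupB`) -/
theorem l8ds_supB (T : ℝ) : ∀ F0, L8Fix llBase T F0 → ∀ (pB : LLParB) (pS : ℝ), 0 < pS → pS ≤ 1 →
    ∃ N0 : ℕ, ∀ N, N0 ≤ N → ∃ Bm LB : ℝ, 0 ≤ Bm ∧ 0 ≤ LB ∧ ∀ p : LlPt, p.N = N → p.Ok (F0.wExp pB.sStar pB.eta pS) → ∀ t,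
      (if p.sm then p.wTh t else p.wLam t).Ok (F0.wExp pB.sStar pB.eta pS) → ∀ (Fs : Finset GhPos) (k : ℕ),
      |l8dsB (F0.wExp pB.sStar pB.eta pS) llBase Fs (if p.sm then p.wTh t else p.wLam t) k| ≤ Bm ∧
      |l8dsB (F0.wExp pB.sStar pB.eta pS) llBase Fs (if p.sm then p.wTh t else p.wLam t) k - l8dsB (F0.wExp pB.sStar pB.eta pS) llBase Fs p k|
        ≤ LB * |t - (if p.sm then 6 * Real.log p.ell else Real.log p.lam)| := by
  intro F0 hF pB pS h0 h1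
  obtain ⟨h3, -⟩ := l8ds_sec3 hF pB h0 h1
  set F := F0.wExp pB.sStar pB.eta pS with hFdef
  have hpS : 0 ≤ F.pS := h0.le
  have hsS : 0 ≤ F.sS := by
    have := (llc_expOk pB h0 h1).s_lo
    show 0 ≤ pB.sStar
    linarith
  obtain ⟨ca, Ca, hca, Na, hA⟩ := h3.adm
  obtain ⟨cr, Cr, v0, hcr, -, Nr, hRf⟩ := h3.ref
  obtain ⟨CL, ξ0, -, NL, hL⟩ := h3.regL
  obtain ⟨v0', ξ0', -, -, hT'⟩ := h3.regT
  obtain ⟨cT, CT, -, NT, hT⟩ := hT' 0
  refine ⟨max (max Na Nr) (max NL NT), fun N hN => ?_⟩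
  have iA : Na ≤ N := ((le_max_left _ _).trans (le_max_left _ _)).trans hN
  have iR : Nr ≤ N := ((le_max_right _ _).trans (le_max_left _ _)).trans hN
  have iL : NL ≤ N := ((le_max_left _ _).trans (le_max_right _ _)).trans hN
  have iT : NT ≤ N := ((le_max_right _ _).trans (le_max_right _ _)).trans hN
  set xN : ℝ := (N : ℝ) ^ (-(1 / 6) : ℝ) with hxN
  have hxN0 : 0 ≤ xN := Real.rpow_nonneg (Nat.cast_nonneg _) _
  set C := max |Ca| |Cr| with hC
  have hC0 : 0 ≤ C := (abs_nonneg _).trans (le_max_left _ _)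
  set L1 : ℝ := |CL| + (2 * C + |F.cb| * (1 + |F.c1| * 4)) / xN ^ (12 : ℝ)
          + |F.cb| * (1 + |F.c1| * 4) * (1 + 2 * (xN * (Real.exp (-(F.sS / 2) * Real.log (xN ^ (12 : ℝ))) * (F.sS / 2)))) with hL1
  set L2 : ℝ := |CT| * Real.exp (-cT * (Real.log (1 / xN) ^ 3)) + C with hL2
  have hL10 : 0 ≤ L1 := by
    have : 0 ≤ xN ^ (12 : ℝ) := Real.rpow_nonneg hxN0 _
    positivity
  have hL20 : 0 ≤ L2 := by positivity
  refine ⟨C, L1 + L2, hC0, add_nonneg hL10 hL20, ?_⟩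
  intro p hpN hp t hp' Fs k
  subst hpN
  have hb : ∀ q : LlPt, q.Ok F → q.N = p.N → GhClk1 q.a (q.b F llBase) ∧ (∀ v ∈ Icc 0 q.a, |q.b F llBase v| ≤ C) := by
    intro q hq hqN
    obtain ⟨m1, -, -, -, -, bd, -, -⟩ := hA q hq (by rw [hqN]; exact iA)
    have ha0 : 0 ≤ q.a := by
      unfold LlPt.a
      split_ifs
      · norm_num
      · linarith [hq.ell1]
    refine ⟨⟨m1, hca.le.trans (bd 0 ⟨le_rfl, ha0⟩).1⟩, fun v hv => ?_⟩
    rw [abs_of_nonneg (hca.le.trans (bd v hv).1)]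
    exact ((bd v hv).2.1.trans (le_abs_self _)).trans (le_max_left _ _)
  have ha0 : 0 ≤ p.a := by
    unfold LlPt.a
    split_ifs
    · norm_num
    · linarith [hp.ell1]
  have hb0 : |p.b0 F llBase| ≤ C := by
    have hR := hRf p hp iR
    rw [abs_of_nonneg (hcr.le.trans hR.b0_lo)]
    exact (hR.b0_hi.trans (le_abs_self _)).trans (le_max_right _ _)
  obtain ⟨g0, bd0⟩ := hb p hp rfl
  by_cases hsm : p.sm = true
  · simp only [hsm, if_true] at hp' ⊢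
    have ha : (p.wTh t).a = p.a := by simp [LlPt.a, LlPt.wTh, hsm]
    obtain ⟨g1, bd1⟩ := hb (p.wTh t) hp' rfl
    rw [ha] at g1 bd1
    have hl : 0 < p.ell := by linarith [hp.ell1]
    have hm0 : 6 * Real.log p.ell ∈ Icc 0 (Real.log 2) := l8ds_th_mem (F := F) (p := p) (by rw [l8ds_wTh_self hl]; exact hp)
    have hR := hT p hp iT hsm _ hm0 t (l8ds_th_mem hp')
    refine l8ds_chain ha ha0 g0 g1 ((le_abs_self _).trans (bd1 p.a ⟨ha0, le_rfl⟩)) (fun v _ => ?_) Fs k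
    refine (l8ds_b_siz hp hp' hb0 hR v).trans (mul_le_mul_of_nonneg_right ?_ (abs_nonneg _))
    have : (|CT| * Real.exp (-cT * p.M) + C) = L2 := rfl
    rw [this]
    linarith
  · have hsm' : p.sm = false := by simpa using hsm
    simp only [hsm', Bool.false_eq_true, if_false] at hp' ⊢
    have ha : (p.wLam t).a = p.a := rfl
    obtain ⟨g1, bd1⟩ := hb (p.wLam t) hp' rfl
    rw [ha] at g1 bd1
    have hR := (hL p hp iL hsm' (Real.exp t) hp'.lam_lo hp'.lam_hi).b0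
    have hR' : |(p.wLam t).b0 F llBase - p.b0 F llBase| ≤ |CL| * |Real.exp t - p.lam| :=
      hR.trans (mul_le_mul_of_nonneg_right (le_abs_self _) (abs_nonneg _))
    refine l8ds_chain ha ha0 g0 g1 ((le_abs_self _).trans (bd1 p.a ⟨ha0, le_rfl⟩)) (fun v hv => ?_) Fs k
    refine (l8ds_b_dir hp hp' hpS hsS (abs_nonneg _) hb0 hR' (bd0 v hv)).trans (mul_le_mul_of_nonneg_right ?_ (abs_nonneg _))
    have : (|CL| + (2 * C + |F.cb| * (1 + |F.c1| * 4)) / p.x ^ (12 : ℝ)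
          + |F.cb| * (1 + |F.c1| * 4) * (1 + 2 * (p.x * (Real.exp (-(F.sS / 2) * Real.log (p.x ^ (12 : ℝ))) * (F.sS / 2))))) = L1 := rfl
    rw [this]
    linarith

end Claimed.Agent.R286
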