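-- KEEP
import Claimed.Agent.R286.L09.PhysT
import Claimed.Agent.R286.L08.DdLink
import Claimed.Agent.R286.L08.FineA
import Claimed.Agent.R286.L09.RegSz
import Claimed.Agent.R286.L09.GridKI
import Claimed.Agent.R286.L08.DdSup

/-!
# Row 286 (S0533), folder L08, file DdExit : THE PHYSICAL LEAVES OF THE DD-LINK AND ITS EXIT      (owner helper226; prefix `l8dd_`)

`L08/DdLink.lean` = abstract core, one-instance glue, the forms `L8ddSup*` of the supplies.   THIS FILE = the supplies at `llBase` (named leaves) and the exit `l8dd_exit` (glue PROVED).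
| leaf | form | status | route |
| `l8dd_supA`  | `L8ddSupA`  every chain is admissible for `K` | PROVED (245) | `l9sz_adm` |
| `l8dd_supQ`  | `L8ddSupQ`  one-chain Q-LINK, `N0` before the accuracy | PROVED (226; text of 296's `l8f_q`) | `l9v_evF` (L09/GridE6), `lce_unif_prof`, `LlSec3.prof` |
| `l8dd_supB`  | `L8ddSupB`  `bC` bounded + Lipschitz in the parameter | PROVED (189, L08/DdSup) | |
| `l8dd_supKD` | `L8ddSupKD` 2nd order regularity of `K` in `log λ`, direct | PROVED (32) | `l9t2_main_dir` of 156 (L09/PhysT) read with `LlSec3.prof` |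
| `l8dd_supKS` | `L8ddSupKS` the same in `θ`, size path, 3 windows | PROVED (229) | `l9ki_kp_top` of L09/GridKI; `v_l = p_top` |
| `l8dd_supC`  | `L8ddSupC`  `ghAt a K pos = K pos.u` | PROVED (189, L08/DdSup) | |
| `l8dd_supM`  | `L8ddSupM`  mass mesh | PROVED (245) | L08/FineA |
NO LEAF LEFT IN THIS FILE (what is open lies below the cited lemmas).      CONSUMER of `l8dd_exit`: L08/DdDef.lean (103: producer of `L8pDefLk` / `L8qDefLk`, leaves `l8p_lk_dir`, `l8q_lk`).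
-/

set_option autoImplicit false

namespace Claimed.Agent.R286

open Set Filter Topology

/-! ### the physical leaves (`llBase`) -/

/-- OWNER helper226.      ROUTE: `K` is monotone on `[0,a]`, `K 0 = 0` (`lkk_K_mono`, `lkk_K_zero`, LL/PathsKk) ⟹ `GhClk1`; the increments of `ghAt` along a sorted chain are `≥ 0` (Brg/Osc). -/
theorem l8dd_supA (T : ℝ) (hT : 1 < T) : ∀ F0, L8Fix llBase T F0 → ∀ (pB : LLParB) (pS : ℝ), 0 < pS → pS ≤ 1 →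
    ∃ N0 : ℕ, L8ddSupA (F0.wExp pB.sStar pB.eta pS) llBase N0 := by
  intro F0 hF pB pS h0 h1
  have h3 := (hF.2.2 _ _ _ (llc_expOk pB h0 h1)).sec3
  obtain ⟨N0, h⟩ := l9sz_adm llBase _ h3
  refine ⟨N0, fun I hIF hIB hN hp => ?_⟩
  obtain ⟨F', B', p, m, s, Fs⟩ := I
  simp only at hIF hIB
  subst hIF hIB
  exact (h p hp hN s Fs m).2

/-- PROVED (226; same text as `l8f_q` of 296, with `I.p.Ok F` only).      One-chain statement of L09/GridE6: `l9v_evF`. -/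
theorem l8dd_supQ (T : ℝ) (hT : 1 < T) : ∀ F0, L8Fix llBase T F0 → ∀ (pB : LLParB) (pS : ℝ), 0 < pS → pS ≤ 1 →
    ∃ N0 : ℕ, L8ddSupQ (F0.wExp pB.sStar pB.eta pS) llBase N0 := by
  intro F0 hF pB pS h0 h1
  have h3 := (hF.2.2 _ _ _ (llc_expOk pB h0 h1)).sec3
  obtain ⟨ca, Ca, ξ1, hb, hz⟩ := h3.prof
  obtain ⟨N0, hp⟩ := lce_unif_prof (𝔹 := llBase) h3.ok hb hz
  refine ⟨N0, fun N hN η hη => ?_⟩
  filter_upwards [l9v_evF (F0.wExp pB.sStar pB.eta pS) N hη] with Fs hFs I hIF hIB hIFs hIN hOk j hj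
  obtain ⟨F', 𝔹', p, m, s, Fs'⟩ := I
  simp only at hIF hIB hIN hIFs
  subst hIF hIB hIFs
  exact (hFs p hIN hOk (hp p hOk (by omega)).1).q j hj

/-- PROVED (helper189, L08/DdSup.lean).      ROUTE: `bC k = ghAt a b pos`, `b = b∘ + c_b λ (G - U² - ..)` (P3): `|b| ≤ C`; in the parameter: `lcf_str_b` (direct), `lcf_siz_b` (size: `Δb = Δb∘`) + the Lipschitz bound of `b∘` (`LlRegT.b0`, `LcfStrIn.b0`);
`ghAt` is `1`-Lipschitz in the sup norm of the clock on `[0,a]`. -/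
theorem l8dd_supB (T : ℝ) (hT : 1 < T) : ∀ F0, L8Fix llBase T F0 → ∀ (pB : LLParB) (pS : ℝ), 0 < pS → pS ≤ 1 →
    ∃ N0 : ℕ, L8ddSupB (F0.wExp pB.sStar pB.eta pS) llBase N0 := by
  intro F0 hF pB pS h0 h1
  obtain ⟨N0, H⟩ := l8ds_supB T F0 hF pB pS h0 h1
  refine ⟨N0, fun N hN => ?_⟩
  obtain ⟨Bm, LB, hBm, hLB, H⟩ := H N hN
  refine ⟨Bm, LB, hBm, hLB, fun I hIF hIB hIN hOk t ht _ k => ?_⟩
  have e0 : I.wP I.t0 = I := by
    unfold L8In.wP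
    rw [I.pAt_t0 (by linarith [hOk.ell1]) (lce_lam_pos hOk)]
  rw [e0]
  have := H I.p hIN hOk t ht (l9Fl I.Fs) k
  rw [← hIF, ← hIB] at this
  exact this

/-- `l9t2_main_dir` (156, L09/PhysT) read with the RAW profile data of `LlSec3.prof` in place of the anonymous threshold `zb` -/
theorem l8dd_kd_raw (𝔹 : LlBase) (F : LlFix) (hb : LlBaseProfile 𝔹 F.T) (hF : F.Ok) {ca Ca ξ1 : ℝ}
    (hB : LkkBase (𝔹.A0 F.T) (𝔹.xiS F.T) (𝔹.pTop F.T) ca Ca ξ1) (hz : F.z0 ≤ ξ1) :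
    ∃ (a1 : ℝ → ℝ) (C : ℝ), 0 ≤ C ∧ LlUnif F fun p => p.sm = false →
      ∀ v ∈ Icc 0 p.ell, ∀ h : ℝ, |h| ≤ 1 →
        |(p.wLm (p.lam * Real.exp h)).K F 𝔹 v - p.K F 𝔹 v - h * p.KdL F 𝔹 a1 v| ≤ C * p.lam * h ^ 2 * v ∧
        |(p.wLm (p.lam * Real.exp h)).K F 𝔹 v - p.K F 𝔹 v| ≤ C * p.lam * |h| * v := by
  obtain ⟨a0, a1, hdir⟩ := l9t2_dir 𝔹 F.T hb
  obtain ⟨L, hL⟩ := hdir F hF rfl (hz.trans hB.x1s.le)
  obtain ⟨LP, hP⟩ := lkk_cut F hF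
  have hca := hB.ca0
  have hLP := hP.LP0
  have hL0 := (hL 0 le_rfl zero_le_one).L0
  obtain ⟨N1, hN1⟩ := lkk_lam_small hF (ε := ca / 2 / (3 * (LP + 1))) (by positivity)
  set κ : ℝ := (2 / ca) ^ 2 with hκ
  set Cd : ℝ := 2 / ca * (LP * κ + L * κ ^ 2) with hCd
  have hκ0 : 0 ≤ κ := by positivity
  have hCd0 : 0 ≤ Cd := by positivity
  refine ⟨a1, 4 * Cd + 2 * κ, by positivity, N1, fun p hp hN hsm v hv h hh => ?_⟩
  have hlp := lkk_lam_pos hp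
  have hl0 := hlp.le
  have hl1 : p.lam ≤ 1 := hp.lam_hi.trans (Real.rpow_le_one (lkk_x_pos hp.N2).le (lkk_x_lt_one hp.N2).le hF.pS0.le)
  have hell : 0 < p.ell := by linarith [hp.ell1]
  have a2 : p.lam * (3 * (LP + 1)) ≤ ca / 2 := by
    have := hN1 p hp hN
    rwa [le_div_iff₀ (by positivity)] at this
  have hl : p.lam * LP ≤ ca / 2 := by nlinarith
  have hw0 : 0 ≤ v / p.ell := div_nonneg hv.1 hell.le
  have hw1 : v / p.ell ≤ 1 := by rw [div_le_one hell]; exact hv.2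
  have hwv : v / p.ell ≤ v := div_le_self hv.1 hp.ell1
  have he0 : 0 ≤ (p.ell ^ 2)⁻¹ := by positivity
  have he1 : (p.ell ^ 2)⁻¹ ≤ 1 := inv_le_one_of_one_le₀ (by nlinarith [hp.ell1])
  have hD := hL p.lam hl0 hl1
  have hsp := l9t2_dir_speed hB hP hz hl0 hl hD (v / p.ell) hw0 hw1
  have eK : p.K F 𝔹 v = (p.ell ^ 2)⁻¹ * llInv (lkkDir (𝔹.A0 F.T) F.P p.lam) (v / p.ell) := l9t2_K_dir p F 𝔹 hsm p.lam v
  have eKd : p.KdL F 𝔹 a1 v = (p.ell ^ 2)⁻¹ * (p.lam * (-(F.P (llInv (lkkDir (𝔹.A0 F.T) F.P p.lam) (v / p.ell)))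
      / (a1 (llInv (lkkDir (𝔹.A0 F.T) F.P p.lam) (v / p.ell)) + p.lam * deriv F.P (llInv (lkkDir (𝔹.A0 F.T) F.P p.lam) (v / p.ell))))) := by
    unfold LlPt.KdL
    rw [l9t2_xi_dir p F 𝔹 hsm v]
  have hex : Real.exp h ≤ 3 := by
    have h1 : Real.exp h ≤ Real.exp 1 := Real.exp_le_exp.2 ((le_abs_self h).trans hh)
    have := Real.exp_one_lt_d9
    linarith
  have hl0' : 0 ≤ p.lam * Real.exp h := by positivity
  have hl' : p.lam * Real.exp h * LP ≤ ca / 2 := by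
    have : p.lam * Real.exp h * LP ≤ p.lam * 3 * LP := by gcongr
    nlinarith
  have hT := l9t2_dir_taylor hB hP hz hl0 hl hl0' hl' hD (v / p.ell) hw0 hw1
  have hI := lkk_dir_inv_lip hB hP hz hl0 hl hl0' hl' (v / p.ell) hw0 hw1
  rw [l9t2_K_dir p F 𝔹 hsm, eK, eKd]
  constructor
  · have := l9t2_log_arith hl0 hl1 hh hw0 hCd0 hκ0 he0 he1 hT hsp
    refine this.trans ?_
    have h2 : 0 ≤ (4 * Cd + κ) * p.lam * h ^ 2 := by positivity
    calc (4 * Cd + κ) * p.lam * h ^ 2 * (v / p.ell) ≤ (4 * Cd + κ) * p.lam * h ^ 2 * v := mul_le_mul_of_nonneg_left hwv h2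
      _ ≤ (4 * Cd + 2 * κ) * p.lam * h ^ 2 * v := by
        have : 0 ≤ κ * p.lam * h ^ 2 * v := by have := hv.1; positivity
        nlinarith
  · rw [← mul_sub, abs_mul, abs_of_nonneg he0]
    have a1' : |Real.exp h - 1| ≤ 2 * |h| := Real.abs_exp_sub_one_le hh
    have e1 : |p.lam * Real.exp h - p.lam| = p.lam * |Real.exp h - 1| := by
      rw [← abs_of_nonneg hl0, ← abs_mul, abs_of_nonneg hl0]; congr 1; ring
    rw [e1] at hI
    calc _ ≤ 1 * (κ * (p.lam * (2 * |h|)) * v) := by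
          refine mul_le_mul he1 (hI.trans ?_) (abs_nonneg _) zero_le_one
          have := hv.1
          gcongr
      _ ≤ (4 * Cd + 2 * κ) * p.lam * |h| * v := by
        have : 0 ≤ Cd * p.lam * |h| * v := by have := hv.1; positivity
        nlinarith

/-- OWNER helper245.      `K_λ(v) = ℓ⁻² (A_0 + λ P)⁻¹(v/ℓ)` is `C^{1,1}` in `t = log λ`, uniformly in `v ∈ [0,ℓ]`; it does not move where `ξ ≥ z_0`; NO window.   Constants may depend on `N` in ANY way.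
ROUTE: `X = llInv (lkkDir A0 P λ) w`, `X' = .. λ' ..`: `A_λ(X') - A_λ(X) = -(λ' - λ) P(X')`; Taylor of `A_0` (tower of `LlBaseProfile`), `P` at `X`; `|X' - X| ≤ C |λ' - λ|` (`lkk_dir_inv_lip`); `A_λ' ≥ ca/2` on `[0,z_0]`;
`Kd v = -ℓ⁻² λ P(X)/(A_0'(X) + λ P'(X))`;   `λ' - λ = λ (e^{σh} - 1) = λ σ h + O(h²)`. -/
theorem l8dd_supKD (T : ℝ) (hT : 1 < T) : ∀ F0, L8Fix llBase T F0 → ∀ (pB : LLParB) (pS : ℝ), 0 < pS → pS ≤ 1 →
    ∃ N0 : ℕ, L8ddSupKD (F0.wExp pB.sStar pB.eta pS) llBase N0 := by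
  intro F0 hF pB pS h0 h1
  set F := F0.wExp pB.sStar pB.eta pS with hFdef
  have h3 : LlSec3 llBase F := (hF.2.2 _ _ _ (llc_expOk pB h0 h1)).sec3
  have hb : LlBaseProfile llBase F.T := by rw [show F.T = T from hF.1]; exact hF.2.1
  obtain ⟨ca, Ca, ξ1, hB, hz⟩ := h3.prof
  obtain ⟨a1, C, hC, N0, H⟩ := l8dd_kd_raw llBase F hb h3.ok hB hz
  refine ⟨N0, fun N hN => ⟨2 * C, 2 * C, by positivity, by positivity, ?_⟩⟩
  intro I hIF hIB hIN hOk hsm σ hσ hside vl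
  have key := H I.p hOk (by rw [hIN]; exact hN) hsm
  have hlam := lkk_lam_pos hOk
  have hl1 : I.p.lam ≤ 1 :=
    hOk.lam_hi.trans (Real.rpow_le_one (lkk_x_pos hOk.N2).le (lkk_x_lt_one hOk.N2).le h3.ok.pS0.le)
  have hell2 := lkk_ell_le_two hOk
  have hell0 : 0 < I.p.ell := by linarith [hOk.ell1]
  have ha : I.a = I.p.ell := by
    show I.p.a = _
    unfold LlPt.a
    rw [hsm]; simp
  have e0 : I.pAt I.t0 = I.p := I.pAt_t0 hell0 hlam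
  have e1 : ∀ s : ℝ, I.pAt (I.t0 + s) = I.p.wLm (I.p.lam * Real.exp s) := by
    intro s
    unfold L8In.pAt L8In.t0
    rw [hsm]
    simp only [Bool.false_eq_true, if_false]
    unfold LlPt.wLam LlPt.wLm
    rw [Real.exp_add, Real.exp_log hlam]
  refine ⟨fun v => I.p.KdL F llBase a1 v, fun h hh0 hh1 => ?_⟩
  have hs : |σ * h| = h := by rw [abs_mul, hσ, one_mul, abs_of_pos hh0]
  have hs1 : |σ * h| ≤ 1 := by rw [hs]; linarith
  have hs2 : (σ * h) ^ 2 = h ^ 2 := by rw [← sq_abs, hs]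
  have bd : ∀ v ∈ Icc 0 I.a, ∀ y : ℝ, 0 ≤ y → C * I.p.lam * y * v ≤ 2 * C * y := by
    intro v hv y hy
    rw [ha] at hv
    have hv2 : v ≤ 2 := hv.2.trans hell2
    calc C * I.p.lam * y * v ≤ C * 1 * y * 2 := by
          have := hv.1
          gcongr
      _ = 2 * C * y := by ring
  have A2 : ∀ v ∈ Icc 0 I.a, |(I.pAt (I.t0 + σ * h)).K F llBase v - (I.pAt I.t0).K F llBase v - σ * h * I.p.KdL F llBase a1 v| ≤ 2 * C * h ^ 2 := by
    intro v hv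
    rw [e0, e1]
    have := (key v (by rw [← ha]; exact hv) (σ * h) hs1).1
    rw [hs2] at this
    exact this.trans (bd v hv _ (sq_nonneg h))
  refine ⟨fun v hv => ?_, fun v hv => ?_, ∅, by simp, by simp, fun v hv _ => A2 v hv⟩
  · show |(I.pAt (I.t0 + σ * h)).K F llBase v - (I.pAt I.t0).K F llBase v| ≤ _
    rw [e0, e1]
    have := (key v (by rw [← ha]; exact hv) (σ * h) hs1).2
    rw [hs] at this
    exact this.trans (bd v hv _ hh0.le)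
  · refine (A2 v hv).trans ?_
    have : h ^ 2 ≤ h := by nlinarith
    exact mul_le_mul_of_nonneg_left this (by positivity)

/-- PROVED (helper229, `l9ki_kp_top` of L09/GridKI).      `K_θ(v) = ℓ⁻² Ψ(v/ℓ)`, `ℓ = e^{θ/6}`, `Ψ = llInv Asm` (independent of `ℓ` on `[0, 4/ℓ]`: `lkk_sm_inv_congr`), piecewise `C^{1,1}`, kinks `κ ∈ {p_top + ω ξ_*, 1 + ω (ξ_* + ω), 1 + ω M}`, `Ψ = M` beyond.
WINDOWS at the step `σ h`: `[κ e^{θ/6}, κ e^{(θ+h)/6}]` resp. `[κ e^{(θ-h)/6}, κ e^{θ/6}]` (CLOSED: a mass which sits on a kink at `θ` is inside); they lie in `(p_top/2, 3)`.   `Kd` = `l9k2Kd` with ANY bounded value of `Ψ'` at the kinks.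
`l9k2_good`, `l9k2_bad` of L09/GridK (263 / 242).   Constants may depend on `N` in ANY way (`1/ω` ..). -/
theorem l8dd_supKS (T : ℝ) (hT : 1 < T) : ∀ F0, L8Fix llBase T F0 → ∀ (pB : LLParB) (pS : ℝ), 0 < pS → pS ≤ 1 →
    ∃ (N0 : ℕ) (vl : ℝ), 0 < vl ∧ L8ddSupKS (F0.wExp pB.sStar pB.eta pS) llBase N0 vl := by
  intro F0 hF pB pS h0 h1
  obtain ⟨hT0, hb, hP⟩ := hF
  have hTop := hP _ _ _ (llc_expOk pB h0 h1)
  have hb' : LlBaseProfile llBase (F0.wExp pB.sStar pB.eta pS).T := by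
    show LlBaseProfile llBase F0.T
    rw [hT0]; exact hb
  obtain ⟨N0, H⟩ := l9ki_kp_top hb' hTop.sec3.ok hTop.small
  refine ⟨N0, llBase.pTop (F0.wExp pB.sStar pB.eta pS).T, hb'.pTop_mem.1, fun N hN => ?_⟩
  obtain ⟨LK, C, hLK, hC, H⟩ := H N hN
  refine ⟨LK, C, hLK, hC, fun I _ _ hIN hOk hsm σ hσ hside => ?_⟩
  have ea : I.a = 4 := by unfold L8In.a LlPt.a; rw [if_pos hsm]
  have et : I.t0 = 6 * Real.log I.p.ell := by unfold L8In.t0; rw [if_pos hsm]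
  have ep : ∀ t, I.pAt t = I.p.wTh t := fun t => by unfold L8In.pAt; rw [if_pos hsm]
  unfold L8ddKP
  simp only [ea, et, ep] at hside ⊢
  exact H I.p hIN hOk hsm σ hσ hside

/-- PROVED (helper189, L08/DdSup.lean).      ROUTE: `K` is continuous on `[0,a]` (inverse of a strictly increasing profile: `lkk_K_hi`, `lkk_sm_inv_lip_glob`; direct path: modulus of `A_0⁻¹`), `K 0 = 0`; `l8f_at_cont` (L08/FineA, 214). -/
theorem l8dd_supC (T : ℝ) (hT : 1 < T) : ∀ F0, L8Fix llBase T F0 → ∀ (pB : LLParB) (pS : ℝ), 0 < pS → pS ≤ 1 →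
    ∃ N0 : ℕ, L8ddSupC (F0.wExp pB.sStar pB.eta pS) llBase N0 :=
  l8ds_supC T

/-- OWNER helper226.      ROUTE: `l8f_fine_of_req` + `l8f_gap` (L08/FineA, 214). -/
theorem l8dd_supM : L8ddSupM := by
  intro μ hμ
  obtain ⟨n, hn⟩ := exists_nat_ge (4 / μ)
  have hn4 : 4 ≤ (n : ℝ) * μ := by rwa [div_le_iff₀ hμ] at hn
  refine eventually_atTop.2 ⟨l8fReq μ n 1 ∅ 0, fun Fs hFs I hI ha ha4 j hj => ?_⟩
  have hFs' : l8fReq μ n 1 ∅ 0 ⊆ l9Fl I.Fs := by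
    intro q hq
    unfold l9Fl
    rw [Finset.mem_filter]
    exact ⟨by rw [hI]; exact hFs hq, l8f_req_fl (Finset.notMem_empty _) q hq⟩
  have hf : L8fFine I.a μ 1 ∅ (ghPs I.a (l9Fl I.Fs)) := l8f_fine_of_req hμ hn4 ha4 hFs'
  have h0 : ghPosA 0 ∈ ghPs I.a (l9Fl I.Fs) := l8f_req_zero ha.le hFs'
  have hne : ghPs I.a (l9Fl I.Fs) ≠ [] := List.ne_nil_of_mem h0
  have hlen : I.n = (ghPs I.a (l9Fl I.Fs)).length := l8f_stp_length _ _ _ _ _ 0 0 0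
  show skGap I.a (llMat (l9Stp I.p.a _ _ _ 0 0 0 (ghPs I.p.a (l9Fl I.Fs)))) j ≤ μ
  unfold skGap
  have ea : I.p.a = I.a := rfl
  rw [ea, l8f_ms, l8f_ms]
  refine l8f_gap hf.lt (fun p p' hn => l8f_next_mass hf one_pos hμ.le hn) (fun p l hpl => ?_) (fun p hp hmx => ?_) hne j (hlen ▸ hj)
  · -- the head is `≤ (0,1)`
    have h1 : p ≤ ghPosA 0 := by
      rw [hpl] at h0
      rcases List.mem_cons.1 h0 with h | h
      · exact h.ge
      · have := hf.lt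
        rw [hpl] at this
        exact ((List.pairwise_cons.1 this).1 _ h).le
    rcases (gh_os_pos_le_iff _ _).1 h1 with h | h
    · exact (le_of_lt h).trans hμ.le
    · rw [h.1]; exact hμ.le
  · by_contra hcon
    push Not at hcon
    obtain ⟨g, hg1, hg2, hg⟩ := hf.grid p.u I.a (hf.ok p hp).1 le_rfl hcon
    have h1 := hmx _ hg
    rcases (gh_os_pos_le_iff _ _).1 h1 with h | h
    · exact absurd h (not_lt.2 hg1.le)
    · exact absurd h.1 (ne_of_gt hg1)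

theorem L8ddSupA.mono {F : LlFix} {𝔹 : LlBase} {N0 N1 : ℕ} (h : L8ddSupA F 𝔹 N0) (hN : N0 ≤ N1) : L8ddSupA F 𝔹 N1 :=
  fun I h1 h2 h3 h4 => h I h1 h2 (hN.trans h3) h4
theorem L8ddSupQ.mono {F : LlFix} {𝔹 : LlBase} {N0 N1 : ℕ} (h : L8ddSupQ F 𝔹 N0) (hN : N0 ≤ N1) : L8ddSupQ F 𝔹 N1 :=
  fun N h1 => h N (hN.trans h1)
theorem L8ddSupB.mono {F : LlFix} {𝔹 : LlBase} {N0 N1 : ℕ} (h : L8ddSupB F 𝔹 N0) (hN : N0 ≤ N1) : L8ddSupB F 𝔹 N1 :=
  fun N h1 => h N (hN.trans h1)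
theorem L8ddSupKD.mono {F : LlFix} {𝔹 : LlBase} {N0 N1 : ℕ} (h : L8ddSupKD F 𝔹 N0) (hN : N0 ≤ N1) : L8ddSupKD F 𝔹 N1 :=
  fun N h1 => h N (hN.trans h1)
theorem L8ddSupKS.mono {F : LlFix} {𝔹 : LlBase} {N0 N1 : ℕ} {vl : ℝ} (h : L8ddSupKS F 𝔹 N0 vl) (hN : N0 ≤ N1) : L8ddSupKS F 𝔹 N1 vl :=
  fun N h1 => h N (hN.trans h1)
theorem L8ddSupC.mono {F : LlFix} {𝔹 : LlBase} {N0 N1 : ℕ} (h : L8ddSupC F 𝔹 N0) (hN : N0 ≤ N1) : L8ddSupC F 𝔹 N1 :=
  fun p h1 => h p (hN.trans h1)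

/-- **EXIT of the file** (what `Env.d_le`, HI, RED G4 cite): `vl` = a fixed mass (size paths: the cuts with `v (k-1) ≤ vl`; direct paths: ALL cuts), then ANY accuracy `η N`. -/
theorem l8dd_exit (T : ℝ) (hT : 1 < T) : ∀ F0, L8Fix llBase T F0 → ∀ (pB : LLParB) (pS : ℝ), 0 < pS → pS ≤ 1 → ∃ vl : ℝ, 0 < vl ∧
    ∀ η : ℕ → ℝ, (∀ N, 0 < η N) → ∃ N0 : ℕ, L8Ev (F0.wExp pB.sStar pB.eta pS) llBase N0 (fun _ => True) fun I =>
      ∀ k ≤ I.n, (I.p.sm = true → k = 0 ∨ I.v (k - 1) ≤ vl) → ∀ Lp : ℝ,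
        (∀ᶠ t in 𝓝 I.t0, (I.pAt t).Ok I.F → |I.Dp k t - I.Dp k I.t0| ≤ Lp * |t - I.t0|) → |I.dd k| ≤ Lp + η I.p.N := by
  intro F0 hF pB pS h0 h1
  obtain ⟨Na, hA⟩ := l8dd_supA T hT F0 hF pB pS h0 h1
  obtain ⟨Nq, hQ⟩ := l8dd_supQ T hT F0 hF pB pS h0 h1
  obtain ⟨Nb, hB⟩ := l8dd_supB T hT F0 hF pB pS h0 h1
  obtain ⟨Nd, hD⟩ := l8dd_supKD T hT F0 hF pB pS h0 h1
  obtain ⟨Nk, vl, hvl, hK⟩ := l8dd_supKS T hT F0 hF pB pS h0 h1
  obtain ⟨Nc, hC⟩ := l8dd_supC T hT F0 hF pB pS h0 h1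
  refine ⟨vl, hvl, fun η hη => ⟨max (max (max Na Nq) (max Nb Nk)) (max Nc Nd), ?_⟩⟩
  set N0 := max (max (max Na Nq) (max Nb Nk)) (max Nc Nd) with hN0
  have i1 : Na ≤ N0 := ((le_max_left _ _).trans (le_max_left _ _)).trans (le_max_left _ _)
  have i2 : Nq ≤ N0 := ((le_max_right _ _).trans (le_max_left _ _)).trans (le_max_left _ _)
  have i3 : Nb ≤ N0 := ((le_max_left _ _).trans (le_max_right _ _)).trans (le_max_left _ _)
  have i4 : Nk ≤ N0 := ((le_max_right _ _).trans (le_max_right _ _)).trans (le_max_left _ _)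
  have i5 : Nc ≤ N0 := (le_max_left _ _).trans (le_max_right _ _)
  have i6 : Nd ≤ N0 := (le_max_right _ _).trans (le_max_right _ _)
  exact l8dd_link (F := F0.wExp pB.sStar pB.eta pS) h1
    (l8dd_sup_of (hA.mono i1) (hQ.mono i2) (hB.mono i3) (l8dd_supK_of (l8dd_supKP_of (hD.mono i6) (hK.mono i4)) (hC.mono i5) l8dd_supM)) η hη

end Claimed.Agent.R286
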