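import Claimed.Agent.R286.PM.Inst
import Claimed.Agent.R286.L08.DdExit

/-!
# Row 286 (S0533), folder L08, file DdDefD : PRODUCER OF THE LINK `L8pDefLk` ON THE DIRECT STRENGTH SWEEP      (helper37, second independent cut by order of helper82; prefix `l8dg_`)

    l8dg_lk_dir : L8pLkDir llBase T      (contract in PM/Inst.lean)      <=   l8dd_exit (226, L08/DdExit)  +  l8g_fine (118, L08/Fine)  +  l8f_consts (214, L08/FineC: EXACT values of the clocks at the positions)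

DICTIONARY (`l8dg_dic`).   The cut `k = j + 1` reads the three clocks at ONE position `pos = ps[j]` of the chain, the SAME for all strengths.   At every admissible point `q` (`L8fVal`):
`ghAt K pos = K(u)`, `ghAt b pos = b(u)` (at the mass `0` only the position `(0,1)` is in use: `l9Fl`), `ghAt h pos = h(u)` for `u ≠ x`, `= θ h(x)` for `u = x`, `θ = pos.lam ∈ [0,1]`.   Hence the path part of the chain defect is
    `Dp = h - K + b Γ(K) = d_q(u)`   (`u ≠ x`),      `Dp = θ d_q(x) - (1 - θ) h_*(x)`   (`u = x`):      a CONVEX COMBINATION of `d_q(x)` and `- h_*(x)`, with weights which do not depend on `q`.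
* value:  `d_k = Dp + bC (q_k - Γ(KC))`, `|q_k - Γ(KC)| ≤ η'` (`Fine.q_left`, `K_eq`), `0 ≤ bC ≤ b(a) ≤ Jm(N)`;   the mesh is `η' = x^40 / (1 + Jm(N))`.
* dotted: `l8dd_exit` with `Lp = B`.
USERS.   `l8p_lk_dir` (PM/InstZ.lean) cites `l8dg_lk_dir`.   The per-instance statement `l8dg_one` needs only: exact values `L8fVal` at ALL admissible points of the same `N`, `L8fPh` at the point, `I.Fine η'` with `Jm η' ≤ η`,
and the conclusion of `l8dd_exit` at the instance.   `l8dg_cum`, `l8dg_h_jump`, `l8dg_dic`, `l8dg_conv` do not see the kind of the path: the low twin (size paths, parameter `θ`) is the same proof with `p.wTh`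
in place of `p.wLam` and the restriction `v (k-1) ≤ vl` of `l8dd_exit` (103 / 117).
NOTE.   No regularity in the strength is used here: `deriv` is bounded by ANY local Lipschitz constant (226), and the weights `θ`, `1 - θ` of the convex combination are read off the POSITION, not off the point.
TEX[LL:prop:statistics-pointwise] (last sentence)
-/

set_option autoImplicit false

namespace Claimed.Agent.R286

open Set Filter Topology

/-- the three cumulative clocks of the cut `j + 1` are the values at the position number `j` -/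
theorem l8dg_cum (J : L8In) {j : ℕ} {pos : GhPos} (hj : (J.i9.ps J.p)[j]? = some pos) :
    J.bC (j + 1) = ghAt J.p.a (J.p.b J.F J.𝔹) pos ∧ J.hC (j + 1) = ghAt J.p.a (J.p.h J.F J.𝔹) pos ∧
      J.KC (j + 1) = ghAt J.p.a (J.p.K J.F J.𝔹) pos := by
  obtain ⟨hlt, rfl⟩ := List.getElem?_eq_some_iff.1 hj
  exact l8f_cum _ _ _ _ _ j hlt

/-- the field clock inside its jump -/
theorem l8dg_h_jump {𝔹 : LlBase} {F : LlFix} {q : LlPt} (V : L8fVal 𝔹 F q) (hx0 : 0 < q.x) (hxa : q.x ≤ q.a) {pos : GhPos} (hu : pos.u = q.x) :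
    ghAt q.a (q.h F 𝔹) pos = pos.lam * q.h F 𝔹 q.x := by
  have hl : Function.leftLim (ghClamp q.a (q.h F 𝔹)) q.x = 0 := by
    apply leftLim_eq_of_tendsto
    refine tendsto_const_nhds.congr' ?_
    filter_upwards [self_mem_nhdsWithin] with u hu'
    have hu'' : u < q.x := hu'
    unfold ghClamp
    split_ifs with h0
    · rfl
    · rw [min_eq_left (hu''.le.trans hxa)]
      exact (l8f_h_low 𝔹 F q hu'').symm
  have hA : (ghPosA q.x).Ok q.a := ⟨hx0.le, hxa, zero_le_one, le_rfl⟩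
  have hr := V.h (ghPosA q.x) hA (Or.inr rfl)
  have e1 : (ghPosA q.x).u = q.x := rfl
  have e2 : (ghPosA q.x).lam = 1 := rfl
  unfold ghAt at hr ⊢
  rw [e1, e2, hl] at hr
  rw [hu, hl]
  have : Function.rightLim (ghClamp q.a (q.h F 𝔹)) q.x = q.h F 𝔹 q.x := by linarith
  rw [this]
  ring

/-- **the dictionary**: the path part of the chain defect at one position -/
theorem l8dg_dic {𝔹 : LlBase} {F : LlFix} {q : LlPt} (V : L8fVal 𝔹 F q) (hx0 : 0 < q.x) (hxa : q.x ≤ q.a) {pos : GhPos} (hpos : pos.Ok q.a)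
    (h0 : pos.u = 0 → pos.lam = 1) :
    ghAt q.a (q.h F 𝔹) pos - ghAt q.a (q.K F 𝔹) pos + ghAt q.a (q.b F 𝔹) pos * q.Gam F 𝔹 (ghAt q.a (q.K F 𝔹) pos)
      = if pos.u = q.x then pos.lam * q.d F 𝔹 pos.u - (1 - pos.lam) * q.hS F 𝔹 pos.u else q.d F 𝔹 pos.u := by
  have eK := V.K pos hpos
  have eb := V.b pos hpos (by
    by_cases h : pos.u = 0
    · exact Or.inr (h0 h)
    · exact Or.inl h)
  rw [eK, eb]
  have eq : q.Gam F 𝔹 (q.K F 𝔹 pos.u) = q.q F 𝔹 pos.u := rfl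
  have ehS : q.hS F 𝔹 pos.u = q.K F 𝔹 pos.u - q.b F 𝔹 pos.u * q.q F 𝔹 pos.u := rfl
  have ed : q.d F 𝔹 pos.u = q.h F 𝔹 pos.u - q.hS F 𝔹 pos.u := rfl
  rw [eq]
  split_ifs with hu
  · rw [l8dg_h_jump V hx0 hxa hu, ed, ehS, hu]
    ring
  · rw [V.h pos hpos (Or.inl hu), ed, ehS]
    ring

/-- a convex combination of two functions with the constant `B` -/
theorem l8dg_conv {θ a a' c c' B Δ : ℝ} (h0 : 0 ≤ θ) (h1 : θ ≤ 1) (ha : |a' - a| ≤ B * Δ) (hc : |c' - c| ≤ B * Δ) :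
    |(θ * a' - (1 - θ) * c') - (θ * a - (1 - θ) * c)| ≤ B * Δ := by
  have e : (θ * a' - (1 - θ) * c') - (θ * a - (1 - θ) * c) = θ * (a' - a) + (1 - θ) * (-(c' - c)) := by ring
  rw [e]
  have k1 : |θ * (a' - a)| ≤ θ * (B * Δ) := by rw [abs_mul, abs_of_nonneg h0]; exact mul_le_mul_of_nonneg_left ha h0
  have k2 : |(1 - θ) * (-(c' - c))| ≤ (1 - θ) * (B * Δ) := by
    rw [abs_mul, abs_neg, abs_of_nonneg (by linarith : 0 ≤ 1 - θ)]; exact mul_le_mul_of_nonneg_left hc (by linarith)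
  calc |θ * (a' - a) + (1 - θ) * (-(c' - c))| ≤ |θ * (a' - a)| + |(1 - θ) * (-(c' - c))| := abs_add_le _ _
    _ ≤ θ * (B * Δ) + (1 - θ) * (B * Δ) := add_le_add k1 k2
    _ = B * Δ := by ring

theorem l8dg_conv0 {θ a c B : ℝ} (h0 : 0 ≤ θ) (h1 : θ ≤ 1) (ha : |a| ≤ B) (hc : |c| ≤ B) : |θ * a - (1 - θ) * c| ≤ B := by
  have := l8dg_conv (a := 0) (a' := a) (c := 0) (c' := c) (B := B) (Δ := 1) h0 h1 (by simpa using ha) (by simpa using hc)
  simpa using this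

/-- **the link at one instance of the direct sweep** -/
theorem l8dg_one {I : L8In} {η η' Jm : ℝ} (hsm : I.p.sm = false) (hok : I.Ok)
    (hV : ∀ q : LlPt, q.Ok I.F → q.N = I.p.N → L8fVal I.𝔹 I.F q) (hPh : L8fPh I.𝔹 I.F I.p Jm) (fine : I.Fine η') (hη : Jm * η' ≤ η)
    (hdd : ∀ k ≤ I.n, ∀ Lp : ℝ, (∀ᶠ t in 𝓝 I.t0, (I.pAt t).Ok I.F → |I.Dp k t - I.Dp k I.t0| ≤ Lp * |t - I.t0|) → |I.dd k| ≤ Lp + η) :
    L8pDefLk I η := by
  have hx0 : 0 < I.p.x := hPh.x0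
  have hxa : I.p.x ≤ I.p.a := by linarith [hPh.x1, hPh.a1]
  have hl0 : 0 < I.p.lam := lt_of_lt_of_le (Real.rpow_pos_of_pos hx0 _) hok.pt.lam_lo
  have hell0 : 0 < I.p.ell := by linarith [hok.pt.ell1]
  have hp0 : I.pAt I.t0 = I.p := I.pAt_t0 hell0 hl0
  have hpAt : ∀ t, I.pAt t = I.p.wLam t := fun t => by unfold L8In.pAt; rw [hsm]; rfl
  have ht0 : I.t0 = Real.log I.p.lam := by unfold L8In.t0; rw [hsm]; rfl
  have hη0 : 0 ≤ η' := (abs_nonneg _).trans (fine.q_link 0 (Nat.zero_le _))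
  have hJm : 0 ≤ Jm := (hPh.cb.2.trans (hPh.cb.1 ⟨le_rfl, by linarith [hPh.a1]⟩ ⟨by linarith [hPh.a1], le_rfl⟩ (by linarith [hPh.a1]))).trans hPh.jb
  have hηη : 0 ≤ η := (mul_nonneg hJm hη0).trans hη
  intro k hk B H1 H2
  have hB : 0 ≤ B := (abs_nonneg _).trans H1.1
  rcases k with _ | j
  · -- the cut `0`
    have z : ∀ J : L8In, J.hC 0 = 0 ∧ J.KC 0 = 0 ∧ J.bC 0 = 0 := fun J => by
      refine ⟨?_, ?_, ?_⟩
      · simp [L8In.hC, skCumH]
      · simp [L8In.KC, llCumK]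
      · simp [L8In.bC, skCumB]
    constructor
    · have : I.d 0 = 0 := by
        unfold L8In.d
        rw [(z I).1, (z I).2.1, (z I).2.2]; ring
      rw [this, abs_zero]; linarith
    · refine hdd 0 hk B (Eventually.of_forall fun t _ => ?_)
      have : ∀ t, I.Dp 0 t = 0 := fun t => by
        unfold L8In.Dp
        rw [(z (I.wP t)).1, (z (I.wP t)).2.1, (z (I.wP t)).2.2]; ring
      rw [this, this, sub_zero, abs_zero]
      exact mul_nonneg hB (abs_nonneg _)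
  -- the cut `j + 1`
  have hn : I.n = (I.i9.ps I.p).length := l8dd_stp_length _ _ _ _ _ 0 0 0
  have hj : j < (I.i9.ps I.p).length := by rw [← hn]; exact hk
  obtain ⟨pos, hpos⟩ : ∃ pos, (I.i9.ps I.p)[j]? = some pos := ⟨_, List.getElem?_eq_getElem hj⟩
  have hmem : pos ∈ ghPs I.p.a (l9Fl I.Fs) := List.mem_of_getElem? hpos
  obtain ⟨hFl, hposOk⟩ := gh_os_ps_mem.1 hmem
  have hpos0 : pos.u = 0 → pos.lam = 1 := (Finset.mem_filter.1 hFl).2
  have hu : l8pVl I (j + 1) = pos.u := by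
    show (if j + 1 = 0 then 0 else I.v (j + 1 - 1)) = _
    rw [if_neg (Nat.succ_ne_zero j), Nat.add_sub_cancel]
    exact I.dd_v_some j hpos
  rw [hu] at H1 H2
  -- the path part at every admissible strength
  have hDp : ∀ t, (I.pAt t).Ok I.F → I.Dp (j + 1) t
      = if pos.u = I.p.x then pos.lam * (I.pAt t).d I.F I.𝔹 pos.u - (1 - pos.lam) * (I.pAt t).hS I.F I.𝔹 pos.u else (I.pAt t).d I.F I.𝔹 pos.u := by
    intro t hOk
    have hps : ((I.wP t).i9.ps (I.wP t).p)[j]? = some pos := by rw [I.wP_ps t]; exact hpos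
    obtain ⟨c1, c2, c3⟩ := l8dg_cum (I.wP t) hps
    have V := hV (I.pAt t) hOk (I.pAt_N t)
    have hx : (I.pAt t).x = I.p.x := by rw [hpAt]; rfl
    have ha : (I.pAt t).a = I.p.a := I.pAt_a t
    have := l8dg_dic V (by rw [hx]; exact hx0) (by rw [hx, ha]; exact hxa) (pos := pos) (by rw [ha]; exact hposOk) hpos0
    rw [hx] at this
    rw [← this]
    unfold L8In.Dp
    rw [c1, c2, c3]
    rfl
  have hOk0 : (I.pAt I.t0).Ok I.F := by rw [hp0]; exact hok.pt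
  have hDp0 := hDp I.t0 hOk0
  rw [hp0] at hDp0
  constructor
  · -- the value
    obtain ⟨c1, c2, c3⟩ := l8dg_cum I hpos
    have hjn : j < I.n := hk
    have e1 : I.d (j + 1) = I.Dp (j + 1) I.t0 + I.bC (j + 1) * (I.q (j + 1) - I.p.q I.F I.𝔹 (I.v j)) := by
      have V := hV I.p hok.pt rfl
      have := l8dg_dic V hx0 hxa hposOk hpos0
      rw [hDp0, ← this]
      have eK : I.p.q I.F I.𝔹 (I.v j) = I.p.Gam I.F I.𝔹 (ghAt I.p.a (I.p.K I.F I.𝔹) pos) := by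
        rw [← c3, fine.K_eq j hjn]; rfl
      rw [eK]
      unfold L8In.d
      rw [c1, c2, c3]
      ring
    have e2 : |I.Dp (j + 1) I.t0| ≤ B := by
      rw [hDp0]
      split_ifs with hx
      · exact l8dg_conv0 hposOk.2.2.1 hposOk.2.2.2 H1.1 (H2 hx).1
      · exact H1.1
    have e3 : |I.bC (j + 1) * (I.q (j + 1) - I.p.q I.F I.𝔹 (I.v j))| ≤ Jm * η' := by
      rw [abs_mul]
      have b1 : |I.bC (j + 1)| ≤ Jm := by
        rw [abs_of_nonneg (fine.b_nn j hjn)]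
        refine (fine.b_le j hjn).trans (le_trans ?_ hPh.jb)
        have hv : I.v j = pos.u := I.dd_v_some j hpos
        rw [hv]
        exact hPh.cb.1 ⟨hposOk.1, hposOk.2.1⟩ ⟨by linarith [hPh.a1], le_rfl⟩ hposOk.2.1
      exact mul_le_mul b1 (fine.q_left j hjn) (abs_nonneg _) hJm
    rw [e1]
    calc _ ≤ |I.Dp (j + 1) I.t0| + |I.bC (j + 1) * (I.q (j + 1) - I.p.q I.F I.𝔹 (I.v j))| := abs_add_le _ _
      _ ≤ B + η := by linarith
  · -- the dotted defect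
    refine hdd (j + 1) hk B ?_
    obtain ⟨-, r1, hr1, L1⟩ := H1
    by_cases hx : pos.u = I.p.x
    · obtain ⟨-, r2, hr2, L2⟩ := H2 hx
      filter_upwards [eventually_abs_sub_lt I.t0 (lt_min hr1 hr2)] with t ht hOk
      rw [hDp t hOk, hDp0, if_pos hx, if_pos hx]
      rw [ht0] at ht ⊢
      rw [hpAt] at hOk ⊢
      exact l8dg_conv hposOk.2.2.1 hposOk.2.2.2 (L1 t (ht.le.trans (min_le_left _ _)) hOk) (L2 t (ht.le.trans (min_le_right _ _)) hOk)
    · filter_upwards [eventually_abs_sub_lt I.t0 hr1] with t ht hOk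
      rw [hDp t hOk, hDp0, if_neg hx, if_neg hx]
      rw [ht0] at ht ⊢
      rw [hpAt] at hOk ⊢
      exact L1 t ht.le hOk

/-- **LINK, direct strength sweep** -/
theorem l8dg_lk_dir (T : ℝ) (hT : 1 < T) : L8pLkDir llBase T := by
  intro F0 hF pB pS h0 h1
  have h3 : LlSec3 llBase (F0.wExp pB.sStar pB.eta pS) := (hF.2.2 _ _ _ (llc_expOk pB h0 h1)).sec3
  obtain ⟨Nc, hc⟩ := l8f_consts h3
  have hc' : ∀ N : ℕ, ∃ Jm : ℝ, 0 ≤ Jm ∧ (Nc ≤ N → ∀ p : LlPt, p.Ok (F0.wExp pB.sStar pB.eta pS) → p.N = N →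
      L8fPh llBase (F0.wExp pB.sStar pB.eta pS) p Jm ∧ L8fVal llBase (F0.wExp pB.sStar pB.eta pS) p) := by
    intro N
    by_cases hN : Nc ≤ N
    · obtain ⟨δ, Jm, n, M, -, -, -, -, hJ, -, H⟩ := hc N hN 1 one_pos
      exact ⟨Jm, hJ, fun _ p hp hpN => ⟨(H p hp hpN).1, (H p hp hpN).2.1⟩⟩
    · exact ⟨0, le_rfl, fun h => absurd h hN⟩
  choose Jm hJm0 hJm using hc'
  have hxpos : ∀ N : ℕ, 2 ≤ N → 0 < ((N : ℝ) ^ (-(1 / 6) : ℝ)) := fun N hN =>
    Real.rpow_pos_of_pos (by exact_mod_cast (by omega : 0 < N)) _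
  obtain ⟨Nf, hfine⟩ := l8g_fine T hT F0 hF pB pS h0 h1 (fun N => ((N : ℝ) ^ (-(1 / 6) : ℝ)) ^ 40 / (1 + Jm N))
    (fun N hN => div_pos (pow_pos (hxpos N hN) 40) (by linarith [hJm0 N]))
  obtain ⟨vl, -, hdd⟩ := l8dd_exit T hT F0 hF pB pS h0 h1
  obtain ⟨Nd, hdd⟩ := hdd (fun N => if 2 ≤ N then ((N : ℝ) ^ (-(1 / 6) : ℝ)) ^ 40 else 1) (fun N => by
    split_ifs with h
    · exact pow_pos (hxpos N h) 40
    · exact one_pos)
  refine ⟨max Nc (max Nf Nd), ?_⟩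
  intro N s hN
  have hNc : Nc ≤ N := (le_max_left _ _).trans hN
  have hNf : Nf ≤ N := ((le_max_left _ _).trans (le_max_right _ _)).trans hN
  have hNd : Nd ≤ N := ((le_max_right _ _).trans (le_max_right _ _)).trans hN
  filter_upwards [hfine N s hNf, hdd N s hNd] with Fs a1 a2 ell lam chiL chiE sm γ m hR hOk
  have b1 := a1 ell lam chiL chiE sm γ m trivial hOk
  have b2 := a2 ell lam chiL chiE sm γ m trivial hOk
  have hN2 : 2 ≤ N := hOk.pt.N2
  have hx := hxpos N hN2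
  refine l8dg_one (Jm := Jm N) hR.1 hOk (fun q hq hqN => (hJm N hNc q hq hqN).2) (hJm N hNc _ hOk.pt rfl).1 b1 ?_ ?_
  · show Jm N * (((N : ℝ) ^ (-(1 / 6) : ℝ)) ^ 40 / (1 + Jm N)) ≤ ((N : ℝ) ^ (-(1 / 6) : ℝ)) ^ 40
    have hJ := hJm0 N
    rw [mul_div_assoc', div_le_iff₀ (by linarith)]
    have : 0 ≤ ((N : ℝ) ^ (-(1 / 6) : ℝ)) ^ 40 := by positivity
    nlinarith
  · intro k hk Lp hL
    have := b2 k hk (fun hsm => absurd hsm (by rw [hR.1]; simp)) Lp hL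
    have e : (if 2 ≤ N then ((N : ℝ) ^ (-(1 / 6) : ℝ)) ^ 40 else 1) = ((N : ℝ) ^ (-(1 / 6) : ℝ)) ^ 40 := if_pos hN2
    exact this.trans (le_of_eq (by
      show Lp + (if 2 ≤ N then ((N : ℝ) ^ (-(1 / 6) : ℝ)) ^ 40 else 1) = Lp + ((N : ℝ) ^ (-(1 / 6) : ℝ)) ^ 40
      rw [e]))

/-! ## The low twin: size paths, parameter `θ = 6 log ℓ` -/

/-- value and LOCAL Lipschitz constant in `θ` (text of `L8qdLip`, 117) -/
def L8dgLipT (F : LlFix) (p : LlPt) (f : LlPt → ℝ) (B : ℝ) : Prop :=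
  |f p| ≤ B ∧ ∃ h : ℝ, 0 < h ∧ ∀ th' : ℝ, |th' - 6 * Real.log p.ell| ≤ h → (p.wTh th').Ok F → |f (p.wTh th') - f p| ≤ B * |th' - 6 * Real.log p.ell|

theorem l8dg_eqns_cite : True := by
  have := @L8dgLipT.eq_1
  trivial

/-- **the link at one cut of one instance of a size path** -/
theorem l8dg_one_low {I : L8In} {η η' Jm : ℝ} (hsm : I.p.sm = true) (hok : I.Ok)
    (hV : ∀ q : LlPt, q.Ok I.F → q.N = I.p.N → L8fVal I.𝔹 I.F q) (hPh : L8fPh I.𝔹 I.F I.p Jm) (fine : I.Fine η') (hη : Jm * η' ≤ η)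
    {k : ℕ} (hk : k ≤ I.n)
    (hdd : ∀ Lp : ℝ, (∀ᶠ t in 𝓝 I.t0, (I.pAt t).Ok I.F → |I.Dp k t - I.Dp k I.t0| ≤ Lp * |t - I.t0|) → |I.dd k| ≤ Lp + η)
    {B : ℝ} (H1 : L8dgLipT I.F I.p (fun q => q.d I.F I.𝔹 (l8pVl I k)) B)
    (H2 : l8pVl I k = I.x → L8dgLipT I.F I.p (fun q => q.hS I.F I.𝔹 (l8pVl I k)) B) : |I.d k| ≤ B + η ∧ |I.dd k| ≤ B + η := by
  have hx0 : 0 < I.p.x := hPh.x0
  have hxa : I.p.x ≤ I.p.a := by linarith [hPh.x1, hPh.a1]
  have hl0 : 0 < I.p.lam := lt_of_lt_of_le (Real.rpow_pos_of_pos hx0 _) hok.pt.lam_lo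
  have hell0 : 0 < I.p.ell := by linarith [hok.pt.ell1]
  have hp0 : I.pAt I.t0 = I.p := I.pAt_t0 hell0 hl0
  have hpAt : ∀ t, I.pAt t = I.p.wTh t := fun t => by unfold L8In.pAt; rw [hsm]; rfl
  have ht0 : I.t0 = 6 * Real.log I.p.ell := by unfold L8In.t0; rw [hsm]; rfl
  have hη0 : 0 ≤ η' := (abs_nonneg _).trans (fine.q_link 0 (Nat.zero_le _))
  have hJm : 0 ≤ Jm := (hPh.cb.2.trans (hPh.cb.1 ⟨le_rfl, by linarith [hPh.a1]⟩ ⟨by linarith [hPh.a1], le_rfl⟩ (by linarith [hPh.a1]))).trans hPh.jb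
  have hηη : 0 ≤ η := (mul_nonneg hJm hη0).trans hη
  have hB : 0 ≤ B := (abs_nonneg _).trans H1.1
  rcases k with _ | j
  · -- the cut `0`
    have z : ∀ J : L8In, J.hC 0 = 0 ∧ J.KC 0 = 0 ∧ J.bC 0 = 0 := fun J => by
      refine ⟨?_, ?_, ?_⟩
      · simp [L8In.hC, skCumH]
      · simp [L8In.KC, llCumK]
      · simp [L8In.bC, skCumB]
    constructor
    · have : I.d 0 = 0 := by
        unfold L8In.d
        rw [(z I).1, (z I).2.1, (z I).2.2]; ring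
      rw [this, abs_zero]; linarith
    · refine hdd B (Eventually.of_forall fun t _ => ?_)
      have : ∀ t, I.Dp 0 t = 0 := fun t => by
        unfold L8In.Dp
        rw [(z (I.wP t)).1, (z (I.wP t)).2.1, (z (I.wP t)).2.2]; ring
      rw [this, this, sub_zero, abs_zero]
      exact mul_nonneg hB (abs_nonneg _)
  -- the cut `j + 1`
  have hn : I.n = (I.i9.ps I.p).length := l8dd_stp_length _ _ _ _ _ 0 0 0
  have hj : j < (I.i9.ps I.p).length := by rw [← hn]; exact hk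
  obtain ⟨pos, hpos⟩ : ∃ pos, (I.i9.ps I.p)[j]? = some pos := ⟨_, List.getElem?_eq_getElem hj⟩
  have hmem : pos ∈ ghPs I.p.a (l9Fl I.Fs) := List.mem_of_getElem? hpos
  obtain ⟨hFl, hposOk⟩ := gh_os_ps_mem.1 hmem
  have hpos0 : pos.u = 0 → pos.lam = 1 := (Finset.mem_filter.1 hFl).2
  have hu : l8pVl I (j + 1) = pos.u := by
    show (if j + 1 = 0 then 0 else I.v (j + 1 - 1)) = _
    rw [if_neg (Nat.succ_ne_zero j), Nat.add_sub_cancel]
    exact I.dd_v_some j hpos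
  rw [hu] at H1 H2
  -- the path part at every admissible size
  have hDp : ∀ t, (I.pAt t).Ok I.F → I.Dp (j + 1) t
      = if pos.u = I.p.x then pos.lam * (I.pAt t).d I.F I.𝔹 pos.u - (1 - pos.lam) * (I.pAt t).hS I.F I.𝔹 pos.u else (I.pAt t).d I.F I.𝔹 pos.u := by
    intro t hOk
    have hps : ((I.wP t).i9.ps (I.wP t).p)[j]? = some pos := by rw [I.wP_ps t]; exact hpos
    obtain ⟨c1, c2, c3⟩ := l8dg_cum (I.wP t) hps
    have V := hV (I.pAt t) hOk (I.pAt_N t)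
    have hx : (I.pAt t).x = I.p.x := by rw [hpAt]; rfl
    have ha : (I.pAt t).a = I.p.a := I.pAt_a t
    have := l8dg_dic V (by rw [hx]; exact hx0) (by rw [hx, ha]; exact hxa) (pos := pos) (by rw [ha]; exact hposOk) hpos0
    rw [hx] at this
    rw [← this]
    unfold L8In.Dp
    rw [c1, c2, c3]
    rfl
  have hOk0 : (I.pAt I.t0).Ok I.F := by rw [hp0]; exact hok.pt
  have hDp0 := hDp I.t0 hOk0
  rw [hp0] at hDp0
  constructor
  · -- the value
    obtain ⟨c1, c2, c3⟩ := l8dg_cum I hpos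
    have hjn : j < I.n := hk
    have e1 : I.d (j + 1) = I.Dp (j + 1) I.t0 + I.bC (j + 1) * (I.q (j + 1) - I.p.q I.F I.𝔹 (I.v j)) := by
      have V := hV I.p hok.pt rfl
      have := l8dg_dic V hx0 hxa hposOk hpos0
      rw [hDp0, ← this]
      have eK : I.p.q I.F I.𝔹 (I.v j) = I.p.Gam I.F I.𝔹 (ghAt I.p.a (I.p.K I.F I.𝔹) pos) := by
        rw [← c3, fine.K_eq j hjn]; rfl
      rw [eK]
      unfold L8In.d
      rw [c1, c2, c3]
      ring
    have e2 : |I.Dp (j + 1) I.t0| ≤ B := by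
      rw [hDp0]
      split_ifs with hx
      · exact l8dg_conv0 hposOk.2.2.1 hposOk.2.2.2 H1.1 (H2 hx).1
      · exact H1.1
    have e3 : |I.bC (j + 1) * (I.q (j + 1) - I.p.q I.F I.𝔹 (I.v j))| ≤ Jm * η' := by
      rw [abs_mul]
      have b1 : |I.bC (j + 1)| ≤ Jm := by
        rw [abs_of_nonneg (fine.b_nn j hjn)]
        refine (fine.b_le j hjn).trans (le_trans ?_ hPh.jb)
        have hv : I.v j = pos.u := I.dd_v_some j hpos
        rw [hv]
        exact hPh.cb.1 ⟨hposOk.1, hposOk.2.1⟩ ⟨by linarith [hPh.a1], le_rfl⟩ hposOk.2.1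
      exact mul_le_mul b1 (fine.q_left j hjn) (abs_nonneg _) hJm
    rw [e1]
    calc _ ≤ |I.Dp (j + 1) I.t0| + |I.bC (j + 1) * (I.q (j + 1) - I.p.q I.F I.𝔹 (I.v j))| := abs_add_le _ _
      _ ≤ B + η := by linarith
  · -- the dotted defect
    refine hdd B ?_
    obtain ⟨-, r1, hr1, L1⟩ := H1
    by_cases hx : pos.u = I.p.x
    · obtain ⟨-, r2, hr2, L2⟩ := H2 hx
      filter_upwards [eventually_abs_sub_lt I.t0 (lt_min hr1 hr2)] with t ht hOk
      rw [hDp t hOk, hDp0, if_pos hx, if_pos hx]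
      rw [ht0] at ht ⊢
      rw [hpAt] at hOk ⊢
      exact l8dg_conv hposOk.2.2.1 hposOk.2.2.2 (L1 t (ht.le.trans (min_le_left _ _)) hOk) (L2 t (ht.le.trans (min_le_right _ _)) hOk)
    · filter_upwards [eventually_abs_sub_lt I.t0 hr1] with t ht hOk
      rw [hDp t hOk, hDp0, if_neg hx, if_neg hx]
      rw [ht0] at ht ⊢
      rw [hpAt] at hOk ⊢
      exact L1 t ht.le hOk

/-- **LINK, size paths, cuts with `v' ≤ vl`** (unfolded text of `L8qLk llBase T`, 117: `l8q_lk := l8dg_lk_low`) -/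
theorem l8dg_lk_low (T : ℝ) (hT : 1 < T) :
    ∀ F0, L8Fix llBase T F0 → ∀ (pB : LLParB) (pS : ℝ), 0 < pS → pS ≤ 1 → ∃ vl : ℝ, 0 < vl ∧ ∃ N0 : ℕ,
      L8Ev (F0.wExp pB.sStar pB.eta pS) llBase N0 l8Siz fun I => ∀ k ≤ I.n, l8pVl I k ≤ vl → ∀ B : ℝ,
        L8dgLipT I.F I.p (fun q => q.d I.F I.𝔹 (l8pVl I k)) B →
          (l8pVl I k = I.x → L8dgLipT I.F I.p (fun q => q.hS I.F I.𝔹 (l8pVl I k)) B) → |I.d k| ≤ B + I.x ^ 40 ∧ |I.dd k| ≤ B + I.x ^ 40 := by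
  intro F0 hF pB pS h0 h1
  have h3 : LlSec3 llBase (F0.wExp pB.sStar pB.eta pS) := (hF.2.2 _ _ _ (llc_expOk pB h0 h1)).sec3
  obtain ⟨Nc, hc⟩ := l8f_consts h3
  have hc' : ∀ N : ℕ, ∃ Jm : ℝ, 0 ≤ Jm ∧ (Nc ≤ N → ∀ p : LlPt, p.Ok (F0.wExp pB.sStar pB.eta pS) → p.N = N →
      L8fPh llBase (F0.wExp pB.sStar pB.eta pS) p Jm ∧ L8fVal llBase (F0.wExp pB.sStar pB.eta pS) p) := by
    intro N
    by_cases hN : Nc ≤ N
    · obtain ⟨δ, Jm, n, M, -, -, -, -, hJ, -, H⟩ := hc N hN 1 one_pos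
      exact ⟨Jm, hJ, fun _ p hp hpN => ⟨(H p hp hpN).1, (H p hp hpN).2.1⟩⟩
    · exact ⟨0, le_rfl, fun h => absurd h hN⟩
  choose Jm hJm0 hJm using hc'
  have hxpos : ∀ N : ℕ, 2 ≤ N → 0 < ((N : ℝ) ^ (-(1 / 6) : ℝ)) := fun N hN =>
    Real.rpow_pos_of_pos (by exact_mod_cast (by omega : 0 < N)) _
  obtain ⟨Nf, hfine⟩ := l8g_fine T hT F0 hF pB pS h0 h1 (fun N => ((N : ℝ) ^ (-(1 / 6) : ℝ)) ^ 40 / (1 + Jm N))
    (fun N hN => div_pos (pow_pos (hxpos N hN) 40) (by linarith [hJm0 N]))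
  obtain ⟨vl, hvl, hdd⟩ := l8dd_exit T hT F0 hF pB pS h0 h1
  obtain ⟨Nd, hdd⟩ := hdd (fun N => if 2 ≤ N then ((N : ℝ) ^ (-(1 / 6) : ℝ)) ^ 40 else 1) (fun N => by
    split_ifs with h
    · exact pow_pos (hxpos N h) 40
    · exact one_pos)
  refine ⟨vl, hvl, max Nc (max Nf Nd), ?_⟩
  intro N s hN
  have hNc : Nc ≤ N := (le_max_left _ _).trans hN
  have hNf : Nf ≤ N := ((le_max_left _ _).trans (le_max_right _ _)).trans hN
  have hNd : Nd ≤ N := ((le_max_right _ _).trans (le_max_right _ _)).trans hN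
  filter_upwards [hfine N s hNf, hdd N s hNd] with Fs a1 a2 ell lam chiL chiE sm γ m hR hOk
  have b1 := a1 ell lam chiL chiE sm γ m trivial hOk
  have b2 := a2 ell lam chiL chiE sm γ m trivial hOk
  have hN2 : 2 ≤ N := hOk.pt.N2
  have hx := hxpos N hN2
  intro k hk hkv B H1 H2
  refine l8dg_one_low (Jm := Jm N) hR.1 hOk (fun q hq hqN => (hJm N hNc q hq hqN).2) (hJm N hNc _ hOk.pt rfl).1 b1 ?_ hk ?_ H1 H2
  · show Jm N * (((N : ℝ) ^ (-(1 / 6) : ℝ)) ^ 40 / (1 + Jm N)) ≤ ((N : ℝ) ^ (-(1 / 6) : ℝ)) ^ 40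
    have hJ := hJm0 N
    rw [mul_div_assoc', div_le_iff₀ (by linarith)]
    have : 0 ≤ ((N : ℝ) ^ (-(1 / 6) : ℝ)) ^ 40 := by positivity
    nlinarith
  · intro Lp hL
    have := b2 k hk (fun _ => by
      by_cases h : k = 0
      · exact Or.inl h
      · refine Or.inr ?_
        unfold l8pVl at hkv
        rw [if_neg h] at hkv
        exact hkv) Lp hL
    have e : (if 2 ≤ N then ((N : ℝ) ^ (-(1 / 6) : ℝ)) ^ 40 else 1) = ((N : ℝ) ^ (-(1 / 6) : ℝ)) ^ 40 := if_pos hN2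
    exact this.trans (le_of_eq (by
      show Lp + (if 2 ≤ N then ((N : ℝ) ^ (-(1 / 6) : ℝ)) ^ 40 else 1) = Lp + ((N : ℝ) ^ (-(1 / 6) : ℝ)) ^ 40
      rw [e]))

end Claimed.Agent.R286
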