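import Claimed.Agent.R286.L08.L11Mass

/-!
# Row 286 (S0533), LL 08-statistics l.801-843, unit IV: THE LOWER BAND (D9)      (owner helper214; on the mass layer `L11Mass` of helper228; prefix `l8lb_`)      0 sorry

TEX[LL:lem:statistics-lower-band].   Explicit constants, no asymptotics, no fractional powers (`ε_w² = x⁶ Y / (λ₁ max(w,U)³)` is the primitive).
DATA `L8LB` (scales `x, Y, U, λ₁`, top `vtop = C Y` of the lower band, constants, raw scale `R ≲_∘ Y`).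
IMPORTS `L8LB.Ok b d`: `v dh/dv ≥ ck λ₁ max(v,U)³` (integrated form), `S ≤ cS Y`, `m ≥ cm x⁻⁶`, raw bounds `Var|X|², E|X|⁴, E tr C² ≤ R²`.
EXPORTS
* `l8lb_EW`      : `∫_{v1}^{v2} E W dv ≤ K1 ε_{v1}²`            (any `x ≤ v1 ≤ v2 ≤ vtop`),  `K1 = 4 cS / (cm ck)`;   `l8lb_EW_E0`: `≤ K1 E_0²`;
* `l8lb_Dsq`     : `∫_{v1}^{v2} D_v² dv ≤ K2 R ε_{v1}`          (`v2 ≤ 2 v1`),               `K2 = (9 + 16 c0) √K1`;
* `l8lb_Dsq_sum` : `∫_{v1}^{v2} D_v² dv ≤ n K2 R E_0`           (`v2 ≤ 2ⁿ v1`);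
* `l8lb_D1`      : `(∫_{v1}^{v2} D_v dv)² ≤ (v2 - v1) K2 R ε_{v1}`;
* `l8lb_D1_four` : `(Y ∫_{v1}^{v2} D_v dv)⁴ ≤ K2² R² Y⁵ x⁶ / (λ₁ U)`   (first-moment consequence; with `R = ρ Y`, `Y = U Z`: `= K2² ρ² x⁶ U⁶ Z⁷ / λ₁`,
                    `l8lb_D1_UZ`), i.e. `Y ∫ D ≤ √(K2 ρ) x^{3/2} U^{3/2} Z^{7/4} λ₁^{-1/4}`.
-/

set_option autoImplicit false
open MeasureTheory Set

namespace Claimed.Agent.R286

/-- scales and constants of the lower band -/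
structure L8LB where
  x : ℝ
  Y : ℝ
  U : ℝ
  lam1 : ℝ
  /-- top of the lower band (`C Y`) -/
  vtop : ℝ
  /-- `S ≤ cS Y` -/
  cS : ℝ
  /-- `v dh/dv ≥ ck λ₁ max(v,U)³` -/
  ck : ℝ
  /-- `m ≥ cm x⁻⁶` -/
  cm : ℝ
  /-- raw scale of `|X_v|²` and of the pair overlap on the lower band -/
  R : ℝ

namespace L8LB

/-- `ε_w² = x⁶ Y / (λ₁ max(w,U)³)` -/
noncomputable def eps2 (b : L8LB) (w : ℝ) : ℝ := b.x ^ 6 * b.Y / (b.lam1 * max w b.U ^ 3)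

/-- `ε_w` -/
noncomputable def eps (b : L8LB) (w : ℝ) : ℝ := Real.sqrt (b.eps2 w)

/-- `E_0 = g_B Y² = x³ √Y / (√λ₁ U^{3/2})` -/
noncomputable def E0 (b : L8LB) : ℝ := Real.sqrt (b.x ^ 6 * b.Y / (b.lam1 * b.U ^ 3))

/-- constant of the source bound -/
noncomputable def K1 (b : L8LB) : ℝ := 4 * b.cS / (b.cm * b.ck)

/-- constant of (D9) -/
noncomputable def K2 (b : L8LB) (d : L11Mass) : ℝ := (9 + 16 * d.c0) * Real.sqrt b.K1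

/-- the imports of the lower band -/
structure Ok (b : L8LB) (d : L11Mass) : Prop where
  x0 : 0 < b.x
  Y0 : 0 < b.Y
  U0 : 0 < b.U
  lam0 : 0 < b.lam1
  cS0 : 0 < b.cS
  ck0 : 0 < b.ck
  cm0 : 0 < b.cm
  top : b.vtop ≤ d.a
  mesh : d.μ ≤ b.x
  msz : b.cm ≤ d.msz * b.x ^ 6
  S0 : 0 ≤ d.S b.x
  Stop : d.S (b.vtop + d.μ) ≤ b.cS * b.Y
  slope : ∀ u1 u2, b.x ≤ u1 → u1 ≤ u2 → u2 ≤ b.vtop →
    b.ck * b.lam1 * max u1 b.U ^ 3 * (u2 - u1) ≤ u2 * (d.hclk u2 - d.hclk u1)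
  rawV : ∀ v ∈ Ioo b.x b.vtop, d.VarX v ≤ b.R ^ 2
  raw4 : ∀ v ∈ Ioo b.x b.vtop, d.M4 v ≤ b.R ^ 2
  rawT : ∀ v ∈ Ioo b.x b.vtop, d.TrC v ≤ b.R ^ 2
  SR : b.cS * b.Y ≤ b.R

theorem l8lb_eqns_cite : True := by
  have := @eps2.eq_1; have := @eps.eq_1; have := @E0.eq_1; have := @K1.eq_1; have := @K2.eq_1
  trivial

variable {b : L8LB} {d : L11Mass}

theorem l8lb_max_pos (hb : b.Ok d) (w : ℝ) : 0 < max w b.U := lt_of_lt_of_le hb.U0 (le_max_right _ _)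

theorem l8lb_eps2_pos (hb : b.Ok d) (w : ℝ) : 0 < b.eps2 w := by
  have := hb.x0; have := hb.Y0; have := hb.lam0; have := l8lb_max_pos hb w
  unfold eps2; positivity

theorem l8lb_eps_pos (hb : b.Ok d) (w : ℝ) : 0 < b.eps w := Real.sqrt_pos.2 (l8lb_eps2_pos hb w)

theorem l8lb_eps_sq (hb : b.Ok d) (w : ℝ) : b.eps w ^ 2 = b.eps2 w := Real.sq_sqrt (l8lb_eps2_pos hb w).le

theorem l8lb_K1_pos (hb : b.Ok d) : 0 < b.K1 := by
  have := hb.cS0; have := hb.cm0; have := hb.ck0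
  unfold K1; positivity

theorem l8lb_K2_nonneg (_hb : b.Ok d) (hd : d.Ok) : 0 ≤ b.K2 d := by
  have := hd.c0_nonneg
  unfold K2; positivity

theorem l8lb_R_pos (hb : b.Ok d) : 0 < b.R := lt_of_lt_of_le (mul_pos hb.cS0 hb.Y0) hb.SR

/-- `ε_w` decreases in `w` -/
theorem l8lb_eps2_anti (hb : b.Ok d) {w w' : ℝ} (h : w ≤ w') : b.eps2 w' ≤ b.eps2 w := by
  have := hb.x0; have := hb.Y0; have := hb.lam0
  have h1 := l8lb_max_pos hb w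
  unfold eps2
  refine div_le_div_of_nonneg_left (by positivity) (by positivity) ?_
  exact mul_le_mul_of_nonneg_left (pow_le_pow_left₀ h1.le (max_le_max h le_rfl) 3) hb.lam0.le

/-- the largest `ε_w` is `E_0` -/
theorem l8lb_eps_le_E0 (hb : b.Ok d) (w : ℝ) : b.eps w ≤ b.E0 := by
  have := hb.x0; have := hb.Y0; have := hb.lam0; have := hb.U0
  unfold eps E0 eps2
  refine Real.sqrt_le_sqrt ?_
  refine div_le_div_of_nonneg_left (by positivity) (by positivity) ?_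
  exact mul_le_mul_of_nonneg_left (pow_le_pow_left₀ hb.U0.le (le_max_right _ _) 3) hb.lam0.le

theorem l8lb_E0_nonneg (b : L8LB) : 0 ≤ b.E0 := Real.sqrt_nonneg _

/-- TEX[LL:lem:statistics-lower-band] **(D9), first half**: the source inequality integrated against the total increase of `S`. -/
theorem l8lb_EW (hb : b.Ok d) (hd : d.Ok) {v1 v2 : ℝ} (h1 : b.x ≤ v1) (h12 : v1 ≤ v2) (h2 : v2 ≤ b.vtop) :
    ∫ v in v1..v2, d.EW v ≤ b.K1 * b.eps2 v1 := by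
  have hx := hb.x0
  have hY := hb.Y0
  have hl := hb.lam0
  have hck := hb.ck0
  have hcm := hb.cm0
  have hcS := hb.cS0
  have hm := hd.msz_pos
  have hmx := l8lb_max_pos hb v1
  have hκ : 0 < b.ck * b.lam1 * max v1 b.U ^ 3 := by positivity
  have hlog := L11Mass.int_EW_log hd hκ (lt_of_lt_of_le hx h1) (hb.mesh.trans h1) h12 (h2.trans hb.top)
    (fun u1 u2 a1 a2 a3 => by
      refine le_trans ?_ (hb.slope u1 u2 (h1.trans a1) a2 (a3.trans h2))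
      refine mul_le_mul_of_nonneg_right ?_ (by linarith)
      exact mul_le_mul_of_nonneg_left (pow_le_pow_left₀ hmx.le (max_le_max a1 le_rfl) 3) (by positivity))
  refine hlog.trans ?_
  have hS1 : d.S (v2 + d.μ) - d.S v1 ≤ b.cS * b.Y := by
    have a1 := hd.S_mono (show v2 + d.μ ≤ b.vtop + d.μ by linarith)
    have a2 := hd.S_mono h1
    linarith [hb.Stop, hb.S0]
  have hden : b.cm * (b.ck * b.lam1 * max v1 b.U ^ 3) ≤ d.msz * (b.ck * b.lam1 * max v1 b.U ^ 3) * b.x ^ 6 := by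
    have := mul_le_mul_of_nonneg_right hb.msz hκ.le
    linarith
  rw [div_le_iff₀ (by positivity)]
  have e : b.K1 * b.eps2 v1 * (d.msz * (b.ck * b.lam1 * max v1 b.U ^ 3))
      = 4 * (b.cS * b.Y) * ((d.msz * (b.ck * b.lam1 * max v1 b.U ^ 3) * b.x ^ 6) / (b.cm * (b.ck * b.lam1 * max v1 b.U ^ 3))) := by
    unfold K1 eps2
    field_simp
  rw [e]
  have h3 : 1 ≤ (d.msz * (b.ck * b.lam1 * max v1 b.U ^ 3) * b.x ^ 6) / (b.cm * (b.ck * b.lam1 * max v1 b.U ^ 3)) := by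
    rw [le_div_iff₀ (by positivity), one_mul]
    exact hden
  have h4 : 0 ≤ b.cS * b.Y := by positivity
  nlinarith

/-- the whole lower band: `∫_{x ≤ v ≤ vtop} E W dv ≤ K1 E_0²` (cost of a centered linear integral, LL l.893). -/
theorem l8lb_EW_E0 (hb : b.Ok d) (hd : d.Ok) {v1 v2 : ℝ} (h1 : b.x ≤ v1) (h12 : v1 ≤ v2) (h2 : v2 ≤ b.vtop) :
    ∫ v in v1..v2, d.EW v ≤ b.K1 * b.E0 ^ 2 := by
  refine (l8lb_EW hb hd h1 h12 h2).trans (mul_le_mul_of_nonneg_left ?_ (l8lb_K1_pos hb).le)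
  rw [← l8lb_eps_sq hb v1]
  exact pow_le_pow_left₀ (l8lb_eps_pos hb v1).le (l8lb_eps_le_E0 hb v1) 2

/-- TEX[LL:lem:statistics-lower-band] **(D9), second half**: one dyad. -/
theorem l8lb_Dsq (hb : b.Ok d) (hd : d.Ok) {v1 v2 : ℝ} (h1 : b.x ≤ v1) (h12 : v1 ≤ v2) (h2 : v2 ≤ b.vtop) (h22 : v2 ≤ 2 * v1) :
    ∫ v in v1..v2, d.Dsq v ≤ b.K2 d * (b.R * b.eps v1) := by
  have hx := hb.x0
  have hsub : ∀ v ∈ Ioo v1 v2, v ∈ Ioo b.x b.vtop := fun v hv => ⟨lt_of_le_of_lt h1 hv.1, lt_of_lt_of_le hv.2 h2⟩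
  have hS : d.S v2 - d.S v1 ≤ b.R := by
    have a1 := hd.S_mono (show v2 ≤ b.vtop + d.μ by linarith [hd.μ_nonneg])
    have a2 := hd.S_mono h1
    linarith [hb.Stop, hb.S0, hb.SR]
  have h := L11Mass.int_Dsq_dyad hd (lt_of_lt_of_le hx h1) le_rfl h12 (h2.trans hb.top) (by linarith) (l8lb_EW hb hd h1 h12 h2)
    (fun v hv => hb.rawV v (hsub v hv)) hS (fun v hv => hb.raw4 v (hsub v hv)) (fun v hv => hb.rawT v (hsub v hv))
  refine h.trans (le_of_eq ?_)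
  unfold K2 eps
  rw [Real.sqrt_mul (l8lb_K1_pos hb).le]
  ring

theorem l8lb_iDsq (hd : d.Ok) (a c : ℝ) : IntervalIntegrable d.Dsq volume a c := by
  have e : d.Dsq = fun v => d.VarX v + 2 * d.Mix v + d.TrC v := funext hd.dsq
  rw [e]
  exact ((L11Mass.iVarX hd a c).add ((L11Mass.iMix hd a c).const_mul 2)).add (L11Mass.iTrC hd a c)

theorem l8lb_Dsq_nonneg (hd : d.Ok) (v : ℝ) : 0 ≤ d.Dsq v := by
  rw [hd.dsq v]
  have := L11Mass.VarX0 hd v; have := L11Mass.Mix0 hd v; have := L11Mass.TrC0 hd v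
  linarith

theorem l8lb_Dsq_meas (hd : d.Ok) : Measurable d.Dsq := by
  have e : d.Dsq = fun v => d.VarX v + 2 * d.Mix v + d.TrC v := funext hd.dsq
  obtain ⟨_, h1⟩ := hd.VarX_b
  obtain ⟨_, h2⟩ := hd.Mix_b
  obtain ⟨_, h3⟩ := hd.TrC_b
  rw [e]
  exact (h1.meas.add (h2.meas.const_mul 2)).add h3.meas

/-- **sum over the dyads**: `∫_{x ≤ v ≲ Y} D_v² dv ≲_∘ Y E_0`. -/
theorem l8lb_Dsq_sum (hb : b.Ok d) (hd : d.Ok) (n : ℕ) : ∀ {v1 v2 : ℝ}, b.x ≤ v1 → v1 ≤ v2 → v2 ≤ b.vtop → v2 ≤ 2 ^ n * v1 →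
    ∫ v in v1..v2, d.Dsq v ≤ n * (b.K2 d * (b.R * b.E0)) := by
  have hK := l8lb_K2_nonneg hb hd
  have hR := (l8lb_R_pos hb).le
  have hE := l8lb_E0_nonneg b
  induction n with
  | zero =>
    intro v1 v2 _ h12 _ h22
    have : v1 = v2 := le_antisymm h12 (by simpa using h22)
    rw [this, intervalIntegral.integral_same]
    simp
  | succ n ih =>
    intro v1 v2 h1 h12 h2 h22
    have hv1 : 0 < v1 := lt_of_lt_of_le hb.x0 h1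
    rcases le_total v2 (2 * v1) with hc | hc
    · have a1 := l8lb_Dsq hb hd h1 h12 h2 hc
      have a2 : b.K2 d * (b.R * b.eps v1) ≤ b.K2 d * (b.R * b.E0) :=
        mul_le_mul_of_nonneg_left (mul_le_mul_of_nonneg_left (l8lb_eps_le_E0 hb v1) hR) hK
      have a3 : 0 ≤ (n : ℝ) * (b.K2 d * (b.R * b.E0)) := by positivity
      push_cast
      linarith
    · have a1 := l8lb_Dsq hb hd h1 (by linarith : v1 ≤ 2 * v1) (hc.trans h2) le_rfl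
      have a2 : b.K2 d * (b.R * b.eps v1) ≤ b.K2 d * (b.R * b.E0) :=
        mul_le_mul_of_nonneg_left (mul_le_mul_of_nonneg_left (l8lb_eps_le_E0 hb v1) hR) hK
      have a3 := ih (v1 := 2 * v1) (v2 := v2) (by linarith) hc h2 (by rw [pow_succ] at h22; linarith)
      rw [← intervalIntegral.integral_add_adjacent_intervals (l8lb_iDsq hd v1 (2 * v1)) (l8lb_iDsq hd (2 * v1) v2)]
      push_cast
      linarith

theorem l8lb_iD (hd : d.Ok) (a c : ℝ) : IntervalIntegrable (fun v => Real.sqrt (d.Dsq v)) volume a c := by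
  obtain ⟨C1, h1⟩ := hd.VarX_b
  obtain ⟨C2, h2⟩ := hd.Mix_b
  obtain ⟨C3, h3⟩ := hd.TrC_b
  refine l11_ii (C := Real.sqrt (C1 + 2 * C2 + C3)) ⟨(l8lb_Dsq_meas hd).sqrt, fun v => Real.sqrt_nonneg _, fun v => ?_⟩ a c
  refine Real.sqrt_le_sqrt ?_
  rw [hd.dsq v]
  linarith [h1.le v, h2.le v, h3.le v]

/-- **first moment on a dyad** (Cauchy-Schwarz). -/
theorem l8lb_D1 (hb : b.Ok d) (hd : d.Ok) {v1 v2 : ℝ} (h1 : b.x ≤ v1) (h12 : v1 ≤ v2) (h2 : v2 ≤ b.vtop) (h22 : v2 ≤ 2 * v1) :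
    (∫ v in v1..v2, Real.sqrt (d.Dsq v)) ^ 2 ≤ (v2 - v1) * (b.K2 d * (b.R * b.eps v1)) := by
  have hcs := l11_cs (k := fun v => Real.sqrt (d.Dsq v)) (f := fun _ => (1 : ℝ)) (g := d.Dsq) h12 (l8lb_iD hd _ _)
    intervalIntegrable_const (l8lb_iDsq hd _ _) (fun _ _ => zero_le_one) (fun v _ => l8lb_Dsq_nonneg hd v)
    (fun v _ => by rw [Real.sq_sqrt (l8lb_Dsq_nonneg hd v), one_mul])
  rw [intervalIntegral.integral_const, smul_eq_mul, mul_one] at hcs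
  exact hcs.trans (mul_le_mul_of_nonneg_left (l8lb_Dsq hb hd h1 h12 h2 h22) (by linarith))

/-- **first-moment consequence** in fourth-power form: `(Y ∫ D dv)⁴ ≤ K2² R² Y⁵ x⁶ / (λ₁ U)`. -/
theorem l8lb_D1_four (hb : b.Ok d) (hd : d.Ok) {v1 v2 : ℝ} (h1 : b.x ≤ v1) (h12 : v1 ≤ v2) (h2 : v2 ≤ b.vtop) (h22 : v2 ≤ 2 * v1) :
    (b.Y * ∫ v in v1..v2, Real.sqrt (d.Dsq v)) ^ 4 ≤ b.K2 d ^ 2 * b.R ^ 2 * b.Y ^ 5 * b.x ^ 6 / (b.lam1 * b.U) := by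
  have hx := hb.x0
  have hY := hb.Y0
  have hl := hb.lam0
  have hU := hb.U0
  have hK := l8lb_K2_nonneg hb hd
  have hR := (l8lb_R_pos hb).le
  have hv1 : 0 < v1 := lt_of_lt_of_le hx h1
  have hmx := l8lb_max_pos hb v1
  have hD := l8lb_D1 hb hd h1 h12 h2 h22
  have hI0 : 0 ≤ (∫ v in v1..v2, Real.sqrt (d.Dsq v)) ^ 2 := sq_nonneg _
  have hlen : v2 - v1 ≤ v1 := by linarith
  have he := (l8lb_eps_pos hb v1).le
  have hD2 : (∫ v in v1..v2, Real.sqrt (d.Dsq v)) ^ 2 ≤ v1 * (b.K2 d * (b.R * b.eps v1)) :=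
    hD.trans (mul_le_mul_of_nonneg_right hlen (by positivity))
  have hD4 : ((∫ v in v1..v2, Real.sqrt (d.Dsq v)) ^ 2) ^ 2 ≤ (v1 * (b.K2 d * (b.R * b.eps v1))) ^ 2 := pow_le_pow_left₀ hI0 hD2 2
  have e1 : (v1 * (b.K2 d * (b.R * b.eps v1))) ^ 2 = b.K2 d ^ 2 * b.R ^ 2 * (v1 ^ 2 * b.eps2 v1) := by
    rw [← l8lb_eps_sq hb v1]; ring
  have e2 : v1 ^ 2 * b.eps2 v1 ≤ b.x ^ 6 * b.Y / (b.lam1 * b.U) := by
    unfold eps2
    rw [mul_div_assoc', div_le_div_iff₀ (by positivity) (by positivity)]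
    have a1 : v1 ^ 2 * b.U ≤ max v1 b.U ^ 3 := by
      calc v1 ^ 2 * b.U ≤ max v1 b.U ^ 2 * max v1 b.U :=
            mul_le_mul (pow_le_pow_left₀ hv1.le (le_max_left _ _) 2) (le_max_right _ _) hU.le (by positivity)
        _ = max v1 b.U ^ 3 := by ring
    calc v1 ^ 2 * (b.x ^ 6 * b.Y) * (b.lam1 * b.U) = (b.x ^ 6 * b.Y * b.lam1) * (v1 ^ 2 * b.U) := by ring
      _ ≤ (b.x ^ 6 * b.Y * b.lam1) * max v1 b.U ^ 3 := mul_le_mul_of_nonneg_left a1 (by positivity)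
      _ = b.x ^ 6 * b.Y * (b.lam1 * max v1 b.U ^ 3) := by ring
  calc (b.Y * ∫ v in v1..v2, Real.sqrt (d.Dsq v)) ^ 4 = b.Y ^ 4 * ((∫ v in v1..v2, Real.sqrt (d.Dsq v)) ^ 2) ^ 2 := by ring
    _ ≤ b.Y ^ 4 * (b.K2 d ^ 2 * b.R ^ 2 * (v1 ^ 2 * b.eps2 v1)) := by
        rw [← e1]; exact mul_le_mul_of_nonneg_left hD4 (by positivity)
    _ ≤ b.Y ^ 4 * (b.K2 d ^ 2 * b.R ^ 2 * (b.x ^ 6 * b.Y / (b.lam1 * b.U))) :=
        mul_le_mul_of_nonneg_left (mul_le_mul_of_nonneg_left e2 (by positivity)) (by positivity)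
    _ = b.K2 d ^ 2 * b.R ^ 2 * b.Y ^ 5 * b.x ^ 6 / (b.lam1 * b.U) := by ring

/-- the same with `Y = U Z`, `R = ρ Y`: `(Y ∫ D dv)⁴ ≤ K2² ρ² x⁶ U⁶ Z⁷ / λ₁`. -/
theorem l8lb_D1_UZ (hb : b.Ok d) (hd : d.Ok) {Z ρ : ℝ} (hYZ : b.Y = b.U * Z) (hRY : b.R = ρ * b.Y) {v1 v2 : ℝ} (h1 : b.x ≤ v1)
    (h12 : v1 ≤ v2) (h2 : v2 ≤ b.vtop) (h22 : v2 ≤ 2 * v1) :
    (b.Y * ∫ v in v1..v2, Real.sqrt (d.Dsq v)) ^ 4 ≤ b.K2 d ^ 2 * ρ ^ 2 * b.x ^ 6 * b.U ^ 6 * Z ^ 7 / b.lam1 := by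
  refine (l8lb_D1_four hb hd h1 h12 h2 h22).trans (le_of_eq ?_)
  have hU := hb.U0
  have hl := hb.lam0
  rw [hRY, hYZ]
  field_simp

end L8LB

end Claimed.Agent.R286
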