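import Claimed.Agent.R286.L08.IvP
import Claimed.Agent.R286.L08.LowBand
import Claimed.Agent.R286.L08.SPC
import Claimed.Agent.R286.L08.SPKitC

/-!
# Row 286 (S0533), folder L08, file IvSk : UNIT IV, FROM THE GRID TO THE FIELDS      (owner helper228, head of the unit IV; prefix `ivs_` / `Ivs`)

TEX[LL:lem:statistics-lower-band] TEX[LL:lem:statistics-integrated]
The deterministic layers of the unit IV (`L11Mass`, `L11Cut`, `L11Exp`, `LowBand`, `IvD7*`) speak of INTEGRALS of step functions and of field clocks `hclk(v)`, `hZ(z)` which are functions of a real variable.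
The exits of LL 08 (`L08/Defs.lean`: `I.int lo hi g`, `I.band r g`) are SUMS over the cuts of one chain, and the instance knows the field clock only through the increments `P.dh k` of the revelations.
This file is the passage, ABSTRACT over a single path `P : L8P Ω m` (no SK object):
* §1 `IvCells.lin c dq`   the piecewise linear interpolation of the cumulated increments `dq` (cells of zero length are dropped): monotone, increment over a cell `≤ dq k`, and PER-CELL slopes pass to all pairs of real points.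
                          So the instance owes only GRID-level slopes `κ_k * (length of the cell k) ≤ P.dh k`: no continuity of the clock `h`, jumps allowed.
* §2 `L8P.int lo hi g`    the sum over the cuts with mass in `[lo, hi]` (`= I.int` for `P = I.sp tl`), compared with integrals of step functions (`ivs_int_le`, `ivs_int_le_add`).
* §3 `ivs_mass_ok`        `L11Mass.Ok` for the interpolated clock.
* §4 (D9) at the level of the sums: `ivs_d9_W`, `ivs_d9_D`.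
-/

set_option autoImplicit false

namespace Claimed.Agent.R286

open MeasureTheory Set

/-! ## §1 the interpolated clock -/

/-- the length of `[l, b] ∩ [u1, u2]`, written in two ways -/
theorem ivs_cl_swap {l b u1 u2 : ℝ} (hlb : l ≤ b) (hu : u1 ≤ u2) :
    ivCl l b u2 - ivCl l b u1 = ivCl u1 u2 b - ivCl u1 u2 l := by
  unfold ivCl
  rcases le_total u2 b with h1 | h1 <;> rcases le_total u1 b with h2 | h2 <;>
    rcases le_total l u2 with h3 | h3 <;> rcases le_total l u1 with h4 | h4 <;>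
    simp [*] <;> linarith

namespace IvCells

variable {c : IvCells}

/-- piecewise linear interpolation of the cumulated increments `dq` -/
noncomputable def lin (c : IvCells) (dq : ℕ → ℝ) (x : ℝ) : ℝ :=
  ∑ k ∈ Finset.range (c.n + 1), dq k * ((ivCl (c.lft k) (c.b k) x - c.lft k) / (c.b k - c.lft k))

theorem lin_sub (hc : c.Ok) (dq : ℕ → ℝ) {u1 u2 : ℝ} (hu : u1 ≤ u2) :
    c.lin dq u2 - c.lin dq u1 = ∑ k ∈ Finset.range (c.n + 1), dq k * (c.len u1 u2 k / (c.b k - c.lft k)) := by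
  unfold lin len
  rw [← Finset.sum_sub_distrib]
  refine Finset.sum_congr rfl fun k _ => ?_
  rw [← ivs_cl_swap (lft_le hc k) hu]
  ring

theorem lin_mono (hc : c.Ok) {dq : ℕ → ℝ} (hdq : ∀ k, 0 ≤ dq k) : Monotone (c.lin dq) := by
  intro u1 u2 hu
  rw [← sub_nonneg, lin_sub hc dq hu]
  exact Finset.sum_nonneg fun k _ => mul_nonneg (hdq k)
    (div_nonneg (len_nonneg hc _ _ k) (sub_nonneg.2 (lft_le hc k)))

/-- the trace of the cell `j` on another cell `k` is empty -/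
theorem len_cell_ne (hc : c.Ok) {j k : ℕ} (hjk : j ≠ k) : c.len (c.lft k) (c.b k) j = 0 := by
  have hk := lft_le hc k
  unfold len
  rcases lt_or_gt_of_ne hjk with h | h
  · obtain ⟨i, rfl⟩ : ∃ i, k = i + 1 := ⟨k - 1, by omega⟩
    have h1 : c.b j ≤ c.lft (i + 1) := by rw [lft_succ]; exact hc.mono (by omega)
    rw [ivc_cl_of_le h1 hk, ivc_cl_of_le ((lft_le hc j).trans h1) hk, sub_self]
  · obtain ⟨i, rfl⟩ : ∃ i, j = i + 1 := ⟨j - 1, by omega⟩
    have h1 : c.b k ≤ c.lft (i + 1) := by rw [lft_succ]; exact hc.mono (by omega)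
    rw [ivc_cl_of_ge h1 hk, ivc_cl_of_ge (h1.trans (lft_le hc (i + 1))) hk, sub_self]

/-- the increment of the interpolated clock over a cell -/
theorem lin_cell_le (hc : c.Ok) {dq : ℕ → ℝ} (hdq : ∀ k, 0 ≤ dq k) (k : ℕ) :
    c.lin dq (c.b k) - c.lin dq (c.lft k) ≤ dq k := by
  rw [lin_sub hc dq (lft_le hc k)]
  have h1 : ∀ j ∈ Finset.range (c.n + 1), dq j * (c.len (c.lft k) (c.b k) j / (c.b j - c.lft j))
      ≤ if j = k then dq k else 0 := by
    intro j _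
    by_cases hjk : j = k
    · subst hjk
      rw [if_pos rfl]
      have h2 : c.len (c.lft j) (c.b j) j / (c.b j - c.lft j) ≤ 1 :=
        div_le_one_of_le₀ (len_le hc _ _ j) (sub_nonneg.2 (lft_le hc j))
      calc dq j * _ ≤ dq j * 1 := mul_le_mul_of_nonneg_left h2 (hdq j)
        _ = dq j := mul_one _
    · rw [if_neg hjk, len_cell_ne hc hjk]; simp
  refine (Finset.sum_le_sum h1).trans ?_
  rw [Finset.sum_ite_eq']
  split_ifs
  · exact le_rfl
  · exact hdq k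

/-- **per-cell slopes pass to all pairs of points** -/
theorem lin_slope (hc : c.Ok) {dq : ℕ → ℝ} {κ u1 u2 : ℝ} (h0 : c.b0 ≤ u1) (hu : u1 ≤ u2) (h2 : u2 ≤ c.b c.n)
    (hcell : ∀ k ≤ c.n, 0 < c.len u1 u2 k → κ * (c.b k - c.lft k) ≤ dq k) :
    κ * (u2 - u1) ≤ c.lin dq u2 - c.lin dq u1 := by
  rw [lin_sub hc dq hu, ← sum_len hc h0 hu h2, Finset.mul_sum]
  refine Finset.sum_le_sum fun k hk => ?_
  have hkn : k ≤ c.n := Nat.lt_succ_iff.1 (Finset.mem_range.1 hk)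
  rcases (len_nonneg hc u1 u2 k).eq_or_lt with hz | hpos
  · rw [← hz]; simp
  · have hd : 0 < c.b k - c.lft k := lt_of_lt_of_le hpos (len_le hc _ _ k)
    have h3 := hcell k hkn hpos
    rw [mul_div_assoc', le_div_iff₀ hd]
    calc κ * c.len u1 u2 k * (c.b k - c.lft k) = κ * (c.b k - c.lft k) * c.len u1 u2 k := by ring
      _ ≤ dq k * c.len u1 u2 k := mul_le_mul_of_nonneg_right h3 hpos.le

/-- a cell which meets `(u1, u2]` -/
theorem ends_of_len_pos (hc : c.Ok) {u1 u2 : ℝ} {k : ℕ} (h : 0 < c.len u1 u2 k) :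
    u1 < c.b k ∧ c.lft k < u2 := by
  have hl := lft_le hc k
  unfold len ivCl at h
  constructor
  · by_contra h1
    have h1 := not_lt.1 h1
    have e1 : max u1 (min (c.b k) u2) = u1 := max_eq_left ((min_le_left _ _).trans h1)
    have e2 : max u1 (min (c.lft k) u2) = u1 := max_eq_left ((min_le_left _ _).trans (hl.trans h1))
    rw [e1, e2] at h; simp at h
  · by_contra h1
    have h1 := not_lt.1 h1
    rw [min_eq_right h1, min_eq_right (h1.trans hl)] at h; simp at h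

end IvCells

/-! ## §2 sums over the cuts -/

variable {Ω : Type} [mΩ : MeasurableSpace Ω] {m : ℕ} {P : L8P Ω m}

open Classical in
/-- mass integral over the cuts with mass in `[lo, hi]` (`= I.int lo hi g` for `P = I.sp tl`) -/
noncomputable def L8P.int (P : L8P Ω m) (lo hi : ℝ) (g : ℕ → ℝ) : ℝ :=
  ∑ k ∈ (Finset.range (P.n + 1)).filter (fun k => lo ≤ P.v k ∧ P.v k ≤ hi), P.dv k * g k

theorem ivs_int_nonneg (hP : P.Ok) {g : ℕ → ℝ} (hg : ∀ k, 0 ≤ g k) (lo hi : ℝ) : 0 ≤ P.int lo hi g :=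
  Finset.sum_nonneg fun k _ => mul_nonneg (ivk_dv_nonneg hP k) (hg k)

theorem ivs_int_mono (hP : P.Ok) {g g' : ℕ → ℝ} (lo hi : ℝ)
    (h : ∀ k ≤ P.n, lo ≤ P.v k → P.v k ≤ hi → g k ≤ g' k) : P.int lo hi g ≤ P.int lo hi g' := by
  refine Finset.sum_le_sum fun k hk => mul_le_mul_of_nonneg_left ?_ (ivk_dv_nonneg hP k)
  obtain ⟨h1, h2, h3⟩ := Finset.mem_filter.1 hk
  exact h k (Nat.lt_succ_iff.1 (Finset.mem_range.1 h1)) h2 h3

/-- the sum over the cuts of `[lo, hi]` is at most the integral of the step function over `[lo - μ, hi]` -/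
theorem ivs_int_le (hP : P.Ok) {g : ℕ → ℝ} (hg : ∀ k, 0 ≤ g k) {lo hi μ : ℝ} (hmesh : ∀ k ≤ P.n, P.dv k ≤ μ)
    (h0 : 0 ≤ lo - μ) (hlh : lo ≤ hi) (hhi : hi ≤ P.a) :
    P.int lo hi g ≤ ∫ v in (lo - μ)..hi, g ((ivpM P).idx v) := by
  have hc := ivp_M_ok hP
  have hμ : 0 ≤ μ := (ivk_dv_nonneg hP 0).trans (hmesh 0 (Nat.zero_le _))
  rw [IvCells.step_integral_one hc g (show (ivpM P).b0 ≤ lo - μ from h0) (by linarith)
    (by rw [ivp_M_top hP]; exact hhi)]
  show _ ≤ ∑ k ∈ Finset.range (P.n + 1), (ivpM P).len (lo - μ) hi k * g k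
  unfold L8P.int
  refine (Finset.sum_le_sum fun k hk => ?_).trans
    (Finset.sum_le_sum_of_subset_of_nonneg (Finset.filter_subset _ _)
      fun k _ _ => mul_nonneg (IvCells.len_nonneg hc _ _ k) (hg k))
  obtain ⟨h1, h2, h3⟩ := Finset.mem_filter.1 hk
  have hkn : k ≤ P.n := Nat.lt_succ_iff.1 (Finset.mem_range.1 h1)
  refine mul_le_mul_of_nonneg_right (le_of_eq ?_) (hg k)
  have hd := hmesh k hkn
  have hd0 := ivk_dv_nonneg hP k
  have e1 : (ivpM P).b k = P.v k := rfl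
  unfold IvCells.len ivCl
  rw [ivp_M_lft, e1, min_eq_left h3, min_eq_left (by linarith), max_eq_right (by linarith), max_eq_right (by linarith)]
  ring

/-- the same without enlarging the interval: the only cell which sticks out is the one which contains `lo` -/
theorem ivs_int_le_add (hP : P.Ok) {g : ℕ → ℝ} (hg : ∀ k, 0 ≤ g k) {lo hi μ G : ℝ} (hmesh : ∀ k ≤ P.n, P.dv k ≤ μ)
    (hG : ∀ k ≤ P.n, g k ≤ G) (h0 : 0 ≤ lo) (hlh : lo ≤ hi) (hhi : hi ≤ P.a) :
    P.int lo hi g ≤ (∫ v in lo..hi, g ((ivpM P).idx v)) + μ * G := by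
  have hc := ivp_M_ok hP
  have hμ : 0 ≤ μ := (ivk_dv_nonneg hP 0).trans (hmesh 0 (Nat.zero_le _))
  have hG0 : 0 ≤ G := (hg 0).trans (hG 0 (Nat.zero_le _))
  rw [IvCells.step_integral_one hc g (show (ivpM P).b0 ≤ lo from h0) hlh (by rw [ivp_M_top hP]; exact hhi)]
  show _ ≤ (∑ k ∈ Finset.range (P.n + 1), (ivpM P).len lo hi k * g k) + μ * G
  unfold L8P.int
  have key : ∀ k ∈ (Finset.range (P.n + 1)).filter (fun k => lo ≤ P.v k ∧ P.v k ≤ hi),
      P.dv k * g k ≤ (ivpM P).len lo hi k * g k + if k = (ivpM P).idx lo then μ * G else 0 := by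
    intro k hk
    obtain ⟨h1, h2, h3⟩ := Finset.mem_filter.1 hk
    have hkn : k ≤ P.n := Nat.lt_succ_iff.1 (Finset.mem_range.1 h1)
    have hd0 := ivk_dv_nonneg hP k
    have e1 : (ivpM P).b k = P.v k := rfl
    rcases le_or_gt lo ((ivpM P).lft k) with hl | hl
    · have e2 : (ivpM P).len lo hi k = P.dv k := by
        rw [ivp_M_lft] at hl
        unfold IvCells.len ivCl
        rw [ivp_M_lft, e1, min_eq_left h3, min_eq_left (by linarith), max_eq_right h2, max_eq_right hl]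
        ring
      rw [e2]
      have : 0 ≤ if k = (ivpM P).idx lo then μ * G else 0 := by
        split_ifs
        · exact mul_nonneg hμ hG0
        · exact le_rfl
      linarith
    · have e2 : (ivpM P).idx lo = k := IvCells.idx_eq hc hl (by rw [e1]; exact h2)
      rw [if_pos e2.symm]
      have h4 : P.dv k * g k ≤ μ * G := mul_le_mul (hmesh k hkn) (hG k hkn) (hg k) hμ
      have h5 : 0 ≤ (ivpM P).len lo hi k * g k := mul_nonneg (IvCells.len_nonneg hc _ _ k) (hg k)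
      linarith
  refine (Finset.sum_le_sum key).trans ?_
  rw [Finset.sum_add_distrib]
  refine add_le_add (Finset.sum_le_sum_of_subset_of_nonneg (Finset.filter_subset _ _)
      fun k _ _ => mul_nonneg (IvCells.len_nonneg hc _ _ k) (hg k)) ?_
  rw [Finset.sum_ite_eq']
  split_ifs
  · exact le_rfl
  · exact mul_nonneg hμ hG0

/-! ## §3 the mass layer with the interpolated field clock -/

/-- the field clock as a function of the mass: interpolation of the increments `P.dh` over the mass cells -/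
noncomputable def ivsHm (P : L8P Ω m) : ℝ → ℝ := (ivpM P).lin P.dh

/-- **`L11Mass.Ok` from the abstract single path**, no hypothesis on a clock -/
theorem ivs_mass_ok (hP : P.Ok) {c0 cs μ : ℝ} (hm : 0 < m) (hc0 : 0 ≤ c0) (hcs : 0 < cs)
    (hsus : P.Sus cs) (hpin : P.Pin 1 c0) (hdhn : P.dh P.n = 0) (hmesh : ∀ k ≤ P.n, P.dv k ≤ μ) :
    (ivpMass P c0 cs μ (ivsHm P)).Ok :=
  ivp_mass_ok hP hm hc0 hcs hsus hpin hdhn
    ((IvCells.lin_mono (ivp_M_ok hP) hP.dh_nonneg).monotoneOn _)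
    (fun k _ => by
      have := IvCells.lin_cell_le (ivp_M_ok hP) hP.dh_nonneg k
      rw [ivp_M_lft] at this
      exact this)
    hmesh

/-- the cell of a point -/
theorem ivs_cell (hP : P.Ok) {v : ℝ} (h0 : 0 < v) (h1 : v ≤ P.a) :
    (ivpM P).idx v ≤ P.n ∧ v ≤ P.v ((ivpM P).idx v) ∧ P.v ((ivpM P).idx v) - P.dv ((ivpM P).idx v) < v := by
  have hv : v ≤ (ivpM P).b P.n := by rw [← hP.v_term P.n le_rfl] at h1; exact h1
  refine ⟨IvCells.idx_le hv, IvCells.le_b_idx hv, ?_⟩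
  rw [← ivp_M_lft]
  exact IvCells.lft_idx_lt (c := ivpM P) h0

/-! ## §4 the lower band (D9) -/

/-- the grid-level imports of the lower band; `b.ck = κ / 16` -/
structure IvsLow (P : L8P Ω m) (b : L8LB) (κ cs μ : ℝ) : Prop where
  x0 : 0 < b.x
  Y0 : 0 < b.Y
  U0 : 0 < b.U
  lam0 : 0 < b.lam1
  cS0 : 0 < b.cS
  cm0 : 0 < b.cm
  κ0 : 0 < κ
  ck : b.ck = κ / 16
  xtop : b.x ≤ b.vtop
  top : b.vtop ≤ P.a
  mesh : ∀ k ≤ P.n, P.dv k ≤ μ
  μx : μ ≤ b.x / 2
  msz : b.cm ≤ cs * m * b.x ^ 6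
  /-- `S ≤ cS Y` up to the top of the band (`k = n + 1`: only if `a < vtop + μ`) -/
  Stop : ∀ k ≤ P.n + 1, P.v k - P.dv k < b.vtop + μ → P.S k ≤ b.cS * b.Y
  /-- TEX[LL:eq:D3] (low form `v dh/dv ≥ κ λ₁ max(v,U)³`), cell by cell -/
  cell : ∀ k ≤ P.n, b.x < P.v k → P.v k - P.dv k < b.vtop →
    κ * b.lam1 * max (P.v k - P.dv k) b.U ^ 3 * P.dv k ≤ P.v k * P.dh k
  /-- (D2), first line, order 2 -/
  raw4 : ∀ k ≤ P.n, b.x < P.v k → P.v k - P.dv k < b.vtop → ∫ ω, P.nX k ω ^ 2 ∂P.μ ≤ b.R ^ 2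
  rawT : ∀ k ≤ P.n, b.x < P.v k → P.v k - P.dv k < b.vtop → ∫ ω, P.trC2 k ω ∂P.μ ≤ b.R ^ 2
  SR : b.cS * b.Y ≤ b.R

theorem ivs_lb_slope (hP : P.Ok) {b : L8LB} {κ cs μ : ℝ} (h : IvsLow P b κ cs μ) {u1 u2 : ℝ} (h1 : b.x ≤ u1)
    (h12 : u1 ≤ u2) (h2 : u2 ≤ b.vtop) :
    b.ck * b.lam1 * max u1 b.U ^ 3 * (u2 - u1) ≤ u2 * (ivsHm P u2 - ivsHm P u1) := by
  have hc := ivp_M_ok hP
  have hx := h.x0
  have hμ : 0 ≤ μ := (ivk_dv_nonneg hP 0).trans (h.mesh 0 (Nat.zero_le _))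
  have hu2 : 0 < u2 := by linarith
  have hM : 0 < max u1 b.U := lt_of_lt_of_le h.U0 (le_max_right _ _)
  have key := IvCells.lin_slope hc (dq := P.dh) (κ := κ * b.lam1 * max u1 b.U ^ 3 / (16 * u2)) (u1 := u1) (u2 := u2)
    (show (ivpM P).b0 ≤ u1 by show (0 : ℝ) ≤ u1; linarith) h12
    (by rw [ivp_M_top hP]; linarith [h.top]) ?_
  · have e : b.ck * b.lam1 * max u1 b.U ^ 3 * (u2 - u1)
        = u2 * (κ * b.lam1 * max u1 b.U ^ 3 / (16 * u2) * (u2 - u1)) := by
      rw [h.ck]; field_simp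
    rw [e]
    exact mul_le_mul_of_nonneg_left key hu2.le
  · intro k hk hpos
    obtain ⟨a1, a2⟩ := IvCells.ends_of_len_pos hc hpos
    rw [ivp_M_lft] at a2
    have a1' : u1 < P.v k := a1
    rw [ivp_M_dv]
    have hd := h.mesh k hk
    have hd0 := ivk_dv_nonneg hP k
    have hμx := h.μx
    have hcell := h.cell k hk (by linarith) (by linarith)
    have hvk : 0 < P.v k := by linarith
    have hv2 : P.v k ≤ 2 * u2 := by linarith
    have hl : u1 / 2 ≤ P.v k - P.dv k := by linarith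
    have hmax : max u1 b.U / 2 ≤ max (P.v k - P.dv k) b.U := by
      rcases le_total u1 b.U with hh | hh
      · rw [max_eq_right hh]; exact le_trans (by linarith [h.U0]) (le_max_right _ _)
      · rw [max_eq_left hh]; exact hl.trans (le_max_left _ _)
    have hcube : max u1 b.U ^ 3 / 8 ≤ max (P.v k - P.dv k) b.U ^ 3 := by
      have := pow_le_pow_left₀ (by positivity) hmax 3
      calc max u1 b.U ^ 3 / 8 = (max u1 b.U / 2) ^ 3 := by ring
        _ ≤ _ := this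
    have hκl : 0 ≤ κ * b.lam1 := (mul_pos h.κ0 h.lam0).le
    have h3 : κ * b.lam1 * (max u1 b.U ^ 3 / 8) * P.dv k ≤ 2 * u2 * P.dh k :=
      calc κ * b.lam1 * (max u1 b.U ^ 3 / 8) * P.dv k
          ≤ κ * b.lam1 * max (P.v k - P.dv k) b.U ^ 3 * P.dv k := by gcongr
        _ ≤ P.v k * P.dh k := hcell
        _ ≤ 2 * u2 * P.dh k := mul_le_mul_of_nonneg_right hv2 (hP.dh_nonneg k)
    rw [div_mul_eq_mul_div, div_le_iff₀ (by positivity)]
    nlinarith

/-- **the imports of `LowBand` from the grid** -/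
theorem ivs_lb_ok (hP : P.Ok) {b : L8LB} {κ cs μ c0 : ℝ} (h : IvsLow P b κ cs μ) :
    b.Ok (ivpMass P c0 cs μ (ivsHm P)) where
  x0 := h.x0
  Y0 := h.Y0
  U0 := h.U0
  lam0 := h.lam0
  cS0 := h.cS0
  ck0 := by rw [h.ck]; linarith [h.κ0]
  cm0 := h.cm0
  top := by
    have hμ : 0 ≤ μ := (ivk_dv_nonneg hP 0).trans (h.mesh 0 (Nat.zero_le _))
    show b.vtop ≤ P.a
    linarith [h.top]
  mesh := by show μ ≤ b.x; linarith [h.μx, h.x0]
  msz := h.msz
  S0 := ivk_S_nonneg _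
  Stop := by
    show P.S ((ivpM P).idx (b.vtop + μ)) ≤ _
    have hμ : 0 ≤ μ := (ivk_dv_nonneg hP 0).trans (h.mesh 0 (Nat.zero_le _))
    have a3 := IvCells.lft_idx_lt (c := ivpM P) (x := b.vtop + μ) (by show (0 : ℝ) < _; linarith [h.x0, h.xtop])
    rw [ivp_M_lft] at a3
    exact h.Stop _ (IvCells.idx_le_succ (ivp_M_ok hP) _) a3
  slope := fun u1 u2 h1 h12 h2 => ivs_lb_slope hP h h1 h12 h2
  rawV := fun v hv => by
    have hμ : 0 ≤ μ := (ivk_dv_nonneg hP 0).trans (h.mesh 0 (Nat.zero_le _))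
    obtain ⟨a1, a2, a3⟩ := ivs_cell hP (lt_trans h.x0 hv.1) (by linarith [hv.2, h.top])
    show ivkVar P _ ≤ _
    rw [ivk_Var_eq hP]
    have := h.raw4 _ a1 (lt_of_lt_of_le hv.1 a2) (lt_trans a3 hv.2)
    nlinarith [sq_nonneg (P.S ((ivpM P).idx v))]
  raw4 := fun v hv => by
    have hμ : 0 ≤ μ := (ivk_dv_nonneg hP 0).trans (h.mesh 0 (Nat.zero_le _))
    obtain ⟨a1, a2, a3⟩ := ivs_cell hP (lt_trans h.x0 hv.1) (by linarith [hv.2, h.top])
    exact h.raw4 _ a1 (lt_of_lt_of_le hv.1 a2) (lt_trans a3 hv.2)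
  rawT := fun v hv => by
    have hμ : 0 ≤ μ := (ivk_dv_nonneg hP 0).trans (h.mesh 0 (Nat.zero_le _))
    obtain ⟨a1, a2, a3⟩ := ivs_cell hP (lt_trans h.x0 hv.1) (by linarith [hv.2, h.top])
    exact h.rawT _ a1 (lt_of_lt_of_le hv.1 a2) (lt_trans a3 hv.2)
  SR := h.SR

theorem ivs_D2_nonneg (hP : P.Ok) (k : ℕ) : 0 ≤ P.D2 k := by
  rw [← P.l8s_fork_var_Q hP k]
  exact integral_nonneg fun _ => sq_nonneg _

theorem ivs_D2_le_one (hP : P.Ok) (k : ℕ) : P.D2 k ≤ 1 := by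
  have hB : P.B k ≤ 1 := by
    rw [← P.l8s_fork_Q_sq hP k]
    have := P.l8s_fork_prob hP k
    obtain ⟨hm, hb⟩ := P.l8s_fork_Q_bd_aux hP
    calc ∫ p, P.Q p ^ 2 ∂(P.fork k) ≤ ∫ _p, (1 : ℝ) ∂(P.fork k) := by
          refine integral_mono_of_nonneg (ae_of_all _ fun _ => sq_nonneg _) (integrable_const _) (ae_of_all _ fun p => ?_)
          have := hb p
          show P.Q p ^ 2 ≤ 1
          rw [← sq_abs]; nlinarith [abs_nonneg (P.Q p)]
      _ = 1 := by simp
  unfold L8P.D2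
  nlinarith [sq_nonneg (P.S k)]

theorem ivs_int_W_le (hP : P.Ok) (k : ℕ) : ∫ ω, P.W k ω ∂P.μ ≤ 4 * P.a := by
  have := hP.prob
  calc ∫ ω, P.W k ω ∂P.μ ≤ ∫ _ω, 4 * P.a ∂P.μ :=
        integral_mono ((ivk_W_bd hP k).integrable _) (integrable_const _) fun ω => l8k_W_le_four hP k ω
    _ = 4 * P.a := by simp

/-- TEX[LL:lem:statistics-lower-band] **(D9), first line, on the cuts**: `∑_{lo ≤ v_k ≤ hi} dv_k E W_k ≤ K1 ε_lo² + 4 a μ` -/
theorem ivs_d9_W (hP : P.Ok) {b : L8LB} {κ cs μ c0 : ℝ} (h : IvsLow P b κ cs μ) (hm : 0 < m) (hc0 : 0 ≤ c0) (hcs : 0 < cs)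
    (hsus : P.Sus cs) (hpin : P.Pin 1 c0) (hdhn : P.dh P.n = 0) {lo hi : ℝ} (h1 : b.x ≤ lo) (h12 : lo ≤ hi)
    (h2 : hi ≤ b.vtop) :
    P.int lo hi (fun k => ∫ ω, P.W k ω ∂P.μ) ≤ b.K1 * b.eps2 lo + μ * (4 * P.a) := by
  have hμ : 0 ≤ μ := (ivk_dv_nonneg hP 0).trans (h.mesh 0 (Nat.zero_le _))
  have hd := ivs_mass_ok hP hm hc0 hcs hsus hpin hdhn h.mesh
  have hb := ivs_lb_ok hP (c0 := c0) h
  refine (ivs_int_le_add hP (fun k => ivk_int_W_nonneg hP k) h.mesh (fun k _ => ivs_int_W_le hP k)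
    (by linarith [h.x0]) h12 (by linarith [h.top])).trans ?_
  exact add_le_add (L8LB.l8lb_EW hb hd h1 h12 h2) le_rfl

/-- TEX[LL:lem:statistics-lower-band] **(D9), second line, on the cuts** -/
theorem ivs_d9_D (hP : P.Ok) {b : L8LB} {κ cs μ c0 : ℝ} (h : IvsLow P b κ cs μ) (hm : 0 < m) (hc0 : 0 ≤ c0) (hcs : 0 < cs)
    (hsus : P.Sus cs) (hpin : P.Pin 1 c0) (hdhn : P.dh P.n = 0) {lo hi : ℝ} (h1 : b.x ≤ lo) (h12 : lo ≤ hi)
    (h2 : hi ≤ b.vtop) (h22 : hi ≤ 2 * lo) :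
    P.int lo hi P.D2 ≤ (9 + 16 * c0) * Real.sqrt b.K1 * (b.R * b.eps lo) + μ := by
  have hμ : 0 ≤ μ := (ivk_dv_nonneg hP 0).trans (h.mesh 0 (Nat.zero_le _))
  have hd := ivs_mass_ok hP hm hc0 hcs hsus hpin hdhn h.mesh
  have hb := ivs_lb_ok hP (c0 := c0) h
  refine (ivs_int_le_add hP (fun k => ivs_D2_nonneg hP k) h.mesh (fun k _ => ivs_D2_le_one hP k)
    (by linarith [h.x0]) h12 (by linarith [h.top])).trans ?_
  rw [mul_one]
  exact add_le_add (L8LB.l8lb_Dsq hb hd h1 h12 h2 h22) le_rfl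

end Claimed.Agent.R286
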