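import Claimed.Agent.R286.L08.IvD7S

/-!
# Row 286 (S0533), folder L08, file IvD7T : (D7) ON THE CUTS OF A MASS BAND, CLOSED FORMS      (owner helper298; head of the unit IV: helper228; prefix `l8d7s`)

TEX[LL:lem:statistics-integrated]  (LL 08-statistics.tex l.631-745, (D7)).

PART 3 of `L08/IvD7S.lean`: the bounds of `l8d7s_W0`, `l8d7s_W`, `l8d7s_C`, `l8d7s_D` with constants which depend on `S, cs, Czb` only.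
For `4 Cv zlo ≤ r ≤ 4`, up to the term of the last cut `dv n * g n`:
* `l8d7s_W0_cl` : `∑ dv E W        ≤ C / b² · Z² x⁶ / (λ₁ r²)`
* `l8d7s_W_cl`  : `∑ dv E W · w    ≤ C Mw L / b² · Z² x⁶ (U Z)⁴ r^(2k) / (λ₁ r⁴)`   for `w ≤ Mw e^(2(k+1))`
* `l8d7s_C_cl`  : `∑ dv (xCx + trC²) ≤ C (n'+2)² (1 + Lg⁴) / b² · Z² x⁶ / (λ₁ r³)`, `2^n' ≍ x⁻⁶` (`l8d7s_layers`), `x ≤ 1 / l8d7sCs S`
* `l8d7s_D_cl`  : `∑ dv D2         ≤ C (3 B + 2 CS) / b · Z x³ / √λ₁`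
-/

set_option autoImplicit false

namespace Claimed.Agent.R286

open MeasureTheory Set

variable {Ω : Type} [mΩ : MeasurableSpace Ω] {m : ℕ}

/-! ## PART 3 : closed forms (constants of `S, cs, Czb` only) -/

/-- `Λ = 1 + CW²` -/
noncomputable def l8d7sLam (S : SkpS) : ℝ := 1 + S.CW ^ 2
/-- `A ≤ KA Z² / b` -/
noncomputable def l8d7sKA (S : SkpS) : ℝ := S.c.Lq + 2 * S.CW ^ 3 + 2 * (S.c.Cf + S.Cq)
/-- `KWb ρ ≤ K1 Z² x⁶ / (b² λ₁ ρ³)` -/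
noncomputable def l8d7sK1 (S : SkpS) (cs : ℝ) : ℝ := 128 * l8d7sLam S ^ 3 * S.CW * S.Cv / (cs * S.cD3) * (l8d7sKA S * S.Cm)
/-- `Kpb ρ ≤ K2 Lg⁴ x⁶ / (λ₁ ρ⁴)` -/
noncomputable def l8d7sK2 (S : SkpS) : ℝ := 512 * l8d7sLam S ^ 4 * S.Cv ^ 2 * S.K.cA3 1 ^ 2 / S.cD3 * S.Cm
/-- `Mb` -/
noncomputable def l8d7sMb (S : SkpS) (Czb : ℝ) : ℝ := 2 * l8d7sLam S * (2 * S.Cv + Czb)
/-- number of dyadic bands of `z` which cover a dyadic band of masses -/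
noncomputable def l8d7sN (S : SkpS) (Czb : ℝ) : ℕ := ⌈16 * Czb * S.Cv ^ 2⌉₊

theorem l8d7s_N_spec (S : SkpS) (Czb : ℝ) : 16 * Czb * S.Cv ^ 2 ≤ 2 ^ l8d7sN S Czb := by
  have h1 : 16 * Czb * S.Cv ^ 2 ≤ (l8d7sN S Czb : ℝ) := Nat.le_ceil _
  have h2 : (l8d7sN S Czb : ℝ) ≤ 2 ^ l8d7sN S Czb := by exact_mod_cast (Nat.lt_two_pow_self).le
  exact h1.trans h2

section closed

variable {S : SkpS} {J : SkpI Ω m} {cs Czb : ℝ}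

theorem l8d7s_Lam_one (S : SkpS) : 1 ≤ l8d7sLam S := by unfold l8d7sLam; nlinarith [sq_nonneg S.CW]

theorem l8d7s_KA_pos (hS : S.Ok) : 0 < l8d7sKA S := by
  have := hS.c.Lq; have := hS.CW; have := hS.c.Cf; have := hS.Cq
  unfold l8d7sKA; positivity

theorem l8d7s_lam1_pos (hJ : J.Ok S) : 0 < J.lam1 := lt_of_lt_of_le (pow_pos hJ.wh.x0 14) hJ.lam1a

theorem l8d7s_A_le (hS : S.Ok) (hJ : J.Ok S) : (l8d7iD S J cs Czb).A ≤ l8d7sKA S * (J.d.Z ^ 2 / J.d.b) := by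
  have hC := hS.CW
  have hL := hS.c.Lq
  have hCf := hS.c.Cf
  have hCq := hS.Cq
  have hb := hJ.wh.b0
  have hb1 := hJ.wh.b1
  have hZ := hJ.wh.Z1
  have hZ2 : 1 ≤ J.d.Z ^ 2 := one_le_pow₀ hZ
  have h1 : 1 ≤ J.d.Z ^ 2 / J.d.b := by rw [le_div_iff₀ hb]; linarith
  have h2 : S.CW ^ 2 ≤ S.CW ^ 3 := pow_le_pow_right₀ hC (by norm_num)
  show S.c.Lq + (S.CW ^ 2 + S.CW ^ 3) * J.d.Z ^ 2 / J.d.b + 2 * (S.c.Cf + S.Cq) ≤ _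
  unfold l8d7sKA
  have e1 : (S.CW ^ 2 + S.CW ^ 3) * J.d.Z ^ 2 / J.d.b = (S.CW ^ 2 + S.CW ^ 3) * (J.d.Z ^ 2 / J.d.b) := by ring
  rw [e1]
  nlinarith

theorem l8d7s_KWb_le (hS : S.Ok) (hJ : J.Ok S) (hcs : 0 < cs) {ρ : ℝ} (hρ : 0 < ρ) :
    (l8d7iD S J cs Czb).KWb ρ ≤ l8d7sK1 S cs * (J.d.Z ^ 2 * J.d.x ^ 6 / (J.d.b ^ 2 * J.lam1 * ρ ^ 3)) := by
  have hC := hS.CW
  have hCv := hS.Cv
  have hD3 := hS.cD3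
  have hCm := hS.Cm
  have hb := hJ.wh.b0
  have hx := hJ.wh.x0
  have hZ := hJ.wh.Z1
  have hl := l8d7s_lam1_pos hJ
  have hm : (0 : ℝ) < m := Nat.cast_pos.2 hJ.m0
  have hΛ := l8d7s_Lam_one S
  have hKA := l8d7s_KA_pos hS
  have hA := l8d7s_A_le (cs := cs) (Czb := Czb) hS hJ
  have hA0 : 0 ≤ (l8d7iD S J cs Czb).A := by
    show 0 ≤ S.c.Lq + (S.CW ^ 2 + S.CW ^ 3) * J.d.Z ^ 2 / J.d.b + 2 * (S.c.Cf + S.Cq)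
    have := hS.c.Lq; have := hS.c.Cf; have := hS.Cq
    positivity
  have e : (l8d7iD S J cs Czb).KWb ρ
      = 128 * l8d7sLam S ^ 3 * S.CW * S.Cv / (cs * S.cD3) * ((l8d7iD S J cs Czb).A * (1 / (m : ℝ))) / (J.d.b * J.lam1 * ρ ^ 3) := by
    show 16 * (1 + S.CW ^ 2) ^ 3 * (l8d7iD S J cs Czb).A * S.CW
        / (J.d.b * (cs * m) * (1 / (2 * S.Cv)) * (S.cD3 * J.lam1 / 4) * ρ ^ 3) = _
    unfold l8d7sLam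
    field_simp
    ring
  have h1 : (l8d7iD S J cs Czb).A * (1 / (m : ℝ)) ≤ l8d7sKA S * (J.d.Z ^ 2 / J.d.b) * (S.Cm * J.d.x ^ 6) :=
    mul_le_mul hA hJ.msz (by positivity) (by positivity)
  rw [e]
  calc 128 * l8d7sLam S ^ 3 * S.CW * S.Cv / (cs * S.cD3) * ((l8d7iD S J cs Czb).A * (1 / (m : ℝ))) / (J.d.b * J.lam1 * ρ ^ 3)
      ≤ 128 * l8d7sLam S ^ 3 * S.CW * S.Cv / (cs * S.cD3) * (l8d7sKA S * (J.d.Z ^ 2 / J.d.b) * (S.Cm * J.d.x ^ 6))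
          / (J.d.b * J.lam1 * ρ ^ 3) := by gcongr
    _ = _ := by unfold l8d7sK1; field_simp

theorem l8d7s_Kpb_le (hS : S.Ok) (hJ : J.Ok S) (hcs : 0 < cs) {ρ : ℝ} (hρ : 0 < ρ) :
    (l8d7iD S J cs Czb).Kpb ρ ≤ l8d7sK2 S * (J.Lg ^ 4 * J.d.x ^ 6 / (J.lam1 * ρ ^ 4)) := by
  have hC := hS.CW
  have hCv := hS.Cv
  have hD3 := hS.cD3
  have hCm := hS.Cm
  have hx := hJ.wh.x0
  have hl := l8d7s_lam1_pos hJ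
  have hm : (0 : ℝ) < m := Nat.cast_pos.2 hJ.m0
  have hΛ := l8d7s_Lam_one S
  have hA3 := hS.cA3 1
  have hLg := hJ.Lg0
  have e : (l8d7iD S J cs Czb).Kpb ρ
      = 512 * l8d7sLam S ^ 4 * S.Cv ^ 2 * S.K.cA3 1 ^ 2 / S.cD3 * (1 / (m : ℝ)) * (J.Lg ^ 4 / (J.lam1 * ρ ^ 4)) := by
    show 16 * (1 + S.CW ^ 2) ^ 4 * (2 * (S.K.cA3 1 * J.Lg ^ 2) ^ (2 * 1) * cs)
        / (cs * m * (1 / (2 * S.Cv)) ^ 2 * (S.cD3 * J.lam1 / 4) * ρ ^ 4) = _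
    unfold l8d7sLam
    field_simp
    ring
  rw [e]
  calc 512 * l8d7sLam S ^ 4 * S.Cv ^ 2 * S.K.cA3 1 ^ 2 / S.cD3 * (1 / (m : ℝ)) * (J.Lg ^ 4 / (J.lam1 * ρ ^ 4))
      ≤ 512 * l8d7sLam S ^ 4 * S.Cv ^ 2 * S.K.cA3 1 ^ 2 / S.cD3 * (S.Cm * J.d.x ^ 6) * (J.Lg ^ 4 / (J.lam1 * ρ ^ 4)) := by
        have := hJ.msz
        gcongr
    _ = _ := by unfold l8d7sK2; field_simp

/-- the constant of `l8d7s_W0_cl` -/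
noncomputable def l8d7sCW0 (S : SkpS) (cs Czb : ℝ) : ℝ :=
  l8d7sN S Czb * (l8d7sK1 S cs * l8d7sMb S Czb * 2 ^ l8d7sN S Czb * (16 * S.Cv ^ 2))

theorem l8d7s_K1_pos (hS : S.Ok) (hcs : 0 < cs) : 0 < l8d7sK1 S cs := by
  have := hS.CW; have := hS.Cv; have := hS.cD3; have := hS.Cm
  have := l8d7s_Lam_one S
  have := l8d7s_KA_pos hS
  unfold l8d7sK1; positivity

theorem l8d7s_Mb_pos (hS : S.Ok) (hCz : 1 ≤ Czb) : 0 < l8d7sMb S Czb := by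
  have := hS.Cv
  have := l8d7s_Lam_one S
  unfold l8d7sMb; positivity

/-- TEX[LL:lem:statistics-integrated] TEX[LL:eq:D7] **(D7), first line, `k = 0`, closed form**: `≤ C / b² · Z² x⁶ / (λ₁ r²) = C / b² · r (z_r^0)² Z² r³` -/
theorem l8d7s_W0_cl (hS : S.Ok) (hJ : J.Ok S) (hX : L8D7X S J cs Czb) {r : ℝ} (hr : 4 * S.Cv * J.d.zlo ≤ r) (hr4 : r ≤ 4)
    (hout : ∀ k < J.P.n, r ≤ J.P.v k → J.P.v k ≤ 2 * r → k < J.nb ∧ J.zc (k + 1) ≤ J.zhi) :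
    J.P.int r (2 * r) (fun k => ∫ ω, J.P.W k ω ∂J.P.μ)
      ≤ l8d7sCW0 S cs Czb * (J.d.Z ^ 2 * J.d.x ^ 6 / (J.d.b ^ 2 * J.lam1 * r ^ 2))
        + J.P.dv J.P.n * ∫ ω, J.P.W J.P.n ω ∂J.P.μ := by
  have hCv := hS.Cv
  have hb := hJ.wh.b0
  have hl := l8d7s_lam1_pos hJ
  obtain ⟨hρ0, _, _, _⟩ := l8d7s_band hS hJ hr hr4 le_rfl
  have hr0 : 0 < r := lt_of_lt_of_le (by have := hJ.wh.zlo0; positivity) hr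
  have hMb := l8d7s_Mb_pos hS hX.Czb1
  refine (l8d7s_W0 hS hJ hX hr hr4 (l8d7s_N_spec S Czb) hout).trans (add_le_add ?_ le_rfl)
  have h1 := l8d7s_KWb_le (Czb := Czb) hS hJ hX.cs0 hρ0
  have e : (l8d7iD S J cs Czb).Mb = l8d7sMb S Czb := rfl
  rw [e]
  calc (l8d7sN S Czb : ℝ) * ((l8d7iD S J cs Czb).KWb (r / (4 * S.Cv)) * (l8d7sMb S Czb * (2 ^ l8d7sN S Czb * (r / (4 * S.Cv)))))
      ≤ (l8d7sN S Czb : ℝ) * (l8d7sK1 S cs * (J.d.Z ^ 2 * J.d.x ^ 6 / (J.d.b ^ 2 * J.lam1 * (r / (4 * S.Cv)) ^ 3))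
          * (l8d7sMb S Czb * (2 ^ l8d7sN S Czb * (r / (4 * S.Cv))))) := by gcongr
    _ = _ := by unfold l8d7sCW0; field_simp; ring

/-- the constant `Kw k` of IvD7C -/
noncomputable def l8d7sKw (S : SkpS) (Czb : ℝ) (k : ℕ) : ℝ :=
  l8d7sLam S ^ (4 * (k + 1)) * (2 * l8d7sLam S) ^ (2 * k) * l8d7sLam S * (⌈2 * l8d7sLam S ^ 2⌉₊ : ℕ) * S.CW
    + (2 * l8d7sLam S ^ 2) ^ (2 * (k + 1)) * (2 * l8d7sLam S * Czb)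

/-- the constant of `l8d7s_W_cl` -/
noncomputable def l8d7sCW (S : SkpS) (cs Czb : ℝ) (k : ℕ) : ℝ :=
  l8d7sN S Czb * (l8d7sK1 S cs * (2 * S.CW) ^ (2 * (k + 1)) * l8d7sKw S Czb k * (2 ^ l8d7sN S Czb) ^ (2 * k) * (4 * S.Cv) ^ 4)

/-- TEX[LL:lem:statistics-integrated] TEX[LL:eq:D7] **(D7), first line, `k + 1 ≥ 1`, closed form**:
`≤ C Mw (log) / b² · Z² x⁶ Y⁴ r^(2k) / (λ₁ r⁴) = C Mw (log) / b² · r (z_r^0)² Z² r³ m_r² r^(2(k+1)-2)` -/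
theorem l8d7s_W_cl (hS : S.Ok) (hJ : J.Ok S) (hX : L8D7X S J cs Czb) (k : ℕ) {w ζ : ℕ → ℝ} {Mw : ℝ} (hw0 : ∀ i, 0 ≤ w i)
    (hMw : 0 ≤ Mw) (hζ : ∀ i < J.nb, J.zc i ≤ ζ i ∧ ζ i ≤ J.zc (i + 1))
    (hw : ∀ i < J.nb, J.d.zlo / 2 ≤ ζ i → w i ≤ Mw * skwE J.d J.hh (ζ i) ^ (2 * (k + 1)))
    {r : ℝ} (hr : 4 * S.Cv * J.d.zlo ≤ r) (hr4 : r ≤ 4)
    (hout : ∀ k < J.P.n, r ≤ J.P.v k → J.P.v k ≤ 2 * r → k < J.nb ∧ J.zc (k + 1) ≤ J.zhi) :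
    J.P.int r (2 * r) (fun i => (∫ ω, J.P.W i ω ∂J.P.μ) * w i)
      ≤ l8d7sCW S cs Czb k * (Mw * skwL J.d * (J.d.Z ^ 2 * J.d.x ^ 6 / (J.d.b ^ 2 * J.lam1)) * (J.d.U * J.d.Z) ^ 4 * r ^ (2 * k) / r ^ 4)
        + J.P.dv J.P.n * ((∫ ω, J.P.W J.P.n ω ∂J.P.μ) * w J.P.n) := by
  have hD := l8d7i_ok hS hJ hX
  have hCv := hS.Cv
  have hCW := hS.CW
  have hb := hJ.wh.b0
  have hl := l8d7s_lam1_pos hJ
  have hx := hJ.wh.x0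
  have hZ := hJ.wh.Z1
  have hU : 0 < J.d.U := lt_of_lt_of_le hJ.wh.x0 hJ.wh.xU
  obtain ⟨hρ0, _, _, _⟩ := l8d7s_band hS hJ hr hr4 le_rfl
  have hr0 : 0 < r := lt_of_lt_of_le (by have := hJ.wh.zlo0; positivity) hr
  have hL : 0 ≤ skwL J.d := le_trans zero_le_one (l8d7_L_one hD)
  have hKw : 0 ≤ l8d7sKw S Czb k := l8d7_Kw_nonneg hD k
  refine (l8d7s_W hS hJ hX k hw0 hMw hζ hw hr hr4 (l8d7s_N_spec S Czb) hout).trans (add_le_add ?_ le_rfl)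
  have h1 := l8d7s_KWb_le (Czb := Czb) hS hJ hX.cs0 hρ0
  have e : (l8d7iD S J cs Czb).Kw k = l8d7sKw S Czb k := rfl
  rw [e]
  have hρr : r / (4 * S.Cv) ≤ r := div_le_self hr0.le (by linarith)
  have hK1 := l8d7s_K1_pos hS hX.cs0
  have hpos : 0 ≤ l8d7sK1 S cs * (J.d.Z ^ 2 * J.d.x ^ 6 / (J.d.b ^ 2 * J.lam1 * (r / (4 * S.Cv)) ^ 3)) := by positivity
  calc (l8d7sN S Czb : ℝ) * ((l8d7iD S J cs Czb).KWb (r / (4 * S.Cv)) * (Mw * (2 * S.CW) ^ (2 * (k + 1)) *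
          (l8d7sKw S Czb k * skwL J.d * (2 ^ l8d7sN S Czb * (r / (4 * S.Cv))) ^ (2 * k) * (J.d.U * J.d.Z) ^ 4 / (r / (4 * S.Cv)))))
      ≤ (l8d7sN S Czb : ℝ) * (l8d7sK1 S cs * (J.d.Z ^ 2 * J.d.x ^ 6 / (J.d.b ^ 2 * J.lam1 * (r / (4 * S.Cv)) ^ 3))
          * (Mw * (2 * S.CW) ^ (2 * (k + 1)) *
          (l8d7sKw S Czb k * skwL J.d * (2 ^ l8d7sN S Czb * r) ^ (2 * k) * (J.d.U * J.d.Z) ^ 4 / (r / (4 * S.Cv))))) := by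
        gcongr
    _ = _ := by unfold l8d7sCW; rw [mul_pow (2 ^ l8d7sN S Czb) r]; field_simp

/-- the constant of `l8d7s_D_cl` -/
noncomputable def l8d7sCD (S : SkpS) (cs Czb : ℝ) : ℝ :=
  l8d7sN S Czb * ((6 + 16 * S.K.cA1 1 + 3 * Real.sqrt (2 * (2 * S.Cv) / (1 / (2 * S.Cv)))) *
    (2 ^ l8d7sN S Czb * Real.sqrt (l8d7sK1 S cs * l8d7sMb S Czb * 2 ^ l8d7sN S Czb)))

/-- TEX[LL:lem:statistics-integrated] TEX[LL:eq:D7] **(D7), last line, closed form**: `≤ C (B + 1) / b · Z x³ / √λ₁ = C (B + 1) / b · r z_r^0 Z r²` -/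
theorem l8d7s_D_cl (hS : S.Ok) (hJ : J.Ok S) (hX : L8D7X S J cs Czb) {B : ℝ} (hB : 0 ≤ B)
    (hraw : ∀ k ≤ J.nb, ∫ ω, J.P.nX k ω ^ 2 ∂J.P.μ ≤ (B * (skwR (J.z k) + J.d.zlo)) ^ 2 ∧
      ∫ η, J.P.Q η ^ 2 ∂(J.P.fork k) ≤ (B * (skwR (J.z k) + J.d.zlo)) ^ 2)
    {r : ℝ} (hr : 4 * S.Cv * J.d.zlo ≤ r) (hr4 : r ≤ 4)
    (hout : ∀ k < J.P.n, r ≤ J.P.v k → J.P.v k ≤ 2 * r → k < J.nb ∧ J.zc (k + 1) ≤ J.zhi) :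
    J.P.int r (2 * r) J.P.D2
      ≤ l8d7sCD S cs Czb * ((3 * B + 2 * (S.c.Cf + S.Cq)) * (J.d.Z * J.d.x ^ 3 / (J.d.b * Real.sqrt J.lam1)))
        + J.P.dv J.P.n * J.P.D2 J.P.n := by
  have hD := l8d7i_ok hS hJ hX
  have hCv := hS.Cv
  have hb := hJ.wh.b0
  have hl := l8d7s_lam1_pos hJ
  have hx := hJ.wh.x0
  have hZ := hJ.wh.Z1
  have hCS : 0 ≤ S.c.Cf + S.Cq := l8d7_CS_nonneg hD
  have hc0 : (0 : ℝ) ≤ S.K.cA1 1 := by linarith [hS.cA1 1]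
  obtain ⟨hρ0, _, _, _⟩ := l8d7s_band hS hJ hr hr4 le_rfl
  have hMb := l8d7s_Mb_pos hS hX.Czb1
  have hK1 := l8d7s_K1_pos hS hX.cs0
  refine (l8d7s_D hS hJ hX hB hraw hr hr4 (l8d7s_N_spec S Czb) hout).trans (add_le_add ?_ le_rfl)
  have h1 := l8d7s_KWb_le (Czb := Czb) hS hJ hX.cs0 hρ0
  have e : (l8d7iD S J cs Czb).Mb = l8d7sMb S Czb := rfl
  rw [e]
  set ρ0 := r / (4 * S.Cv) with hρ0def
  set N := l8d7sN S Czb with hN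
  set t := J.d.Z * J.d.x ^ 3 / (J.d.b * ρ0 * Real.sqrt J.lam1) with ht
  have hsl : 0 < Real.sqrt J.lam1 := Real.sqrt_pos.2 hl
  have ht0 : 0 ≤ t := by positivity
  have h2 : (l8d7iD S J cs Czb).KWb ρ0 * (l8d7sMb S Czb * (2 ^ N * ρ0)) ≤ l8d7sK1 S cs * l8d7sMb S Czb * 2 ^ N * t ^ 2 := by
    calc (l8d7iD S J cs Czb).KWb ρ0 * (l8d7sMb S Czb * (2 ^ N * ρ0))
        ≤ l8d7sK1 S cs * (J.d.Z ^ 2 * J.d.x ^ 6 / (J.d.b ^ 2 * J.lam1 * ρ0 ^ 3)) * (l8d7sMb S Czb * (2 ^ N * ρ0)) := by gcongr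
      _ = _ := by
        have hs : Real.sqrt J.lam1 ^ 2 = J.lam1 := Real.sq_sqrt hl.le
        have et : t ^ 2 = J.d.Z ^ 2 * J.d.x ^ 6 / (J.d.b ^ 2 * ρ0 ^ 2 * J.lam1) := by
          rw [ht, div_pow, mul_pow, mul_pow, mul_pow, hs, ← pow_mul]
        rw [et]
        clear_value ρ0 N t
        field_simp
  have h3 : Real.sqrt ((l8d7iD S J cs Czb).KWb ρ0 * (l8d7sMb S Czb * (2 ^ N * ρ0)))
      ≤ Real.sqrt (l8d7sK1 S cs * l8d7sMb S Czb * 2 ^ N) * t := by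
    refine (Real.sqrt_le_sqrt h2).trans (le_of_eq ?_)
    rw [Real.sqrt_mul (by positivity), Real.sqrt_sq ht0]
  calc (N : ℝ) * ((6 + 16 * S.K.cA1 1 + 3 * Real.sqrt (2 * (2 * S.Cv) / (1 / (2 * S.Cv)))) *
        ((3 * B + 2 * (S.c.Cf + S.Cq)) * (2 ^ N * ρ0) * Real.sqrt ((l8d7iD S J cs Czb).KWb ρ0 * (l8d7sMb S Czb * (2 ^ N * ρ0)))))
      ≤ (N : ℝ) * ((6 + 16 * S.K.cA1 1 + 3 * Real.sqrt (2 * (2 * S.Cv) / (1 / (2 * S.Cv)))) *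
        ((3 * B + 2 * (S.c.Cf + S.Cq)) * (2 ^ N * ρ0) * (Real.sqrt (l8d7sK1 S cs * l8d7sMb S Czb * 2 ^ N) * t))) := by gcongr
    _ = _ := by
      unfold l8d7sCD
      rw [ht, ← hN]
      field_simp

/-- the threshold of smallness of `x` in `l8d7s_eta` -/
noncomputable def l8d7sCs (S : SkpS) : ℝ := 256 * l8d7sLam S ^ 3 * (1 + 1 / S.cD3)

/-- the resolution condition of (D7b) at `2^n' ≍ x⁻⁶` -/
theorem l8d7s_eta (hS : S.Ok) (hJ : J.Ok S) (hX : L8D7X S J cs Czb) {n' : ℕ} (hn2 : J.d.x ^ 6 * 2 ^ n' ≤ 2)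
    (hsm : J.d.x * l8d7sCs S ≤ 1) {ρ0 : ℝ} (hρ0 : J.d.zlo ≤ ρ0) :
    2 * J.lowb + 2 * l8d7iK0 S J * J.δ
      < l8d7iK0 S J * (ρ0 / (2 * l8d7sLam S)) ^ 2 * (ρ0 / (2 * l8d7sLam S) / 2 ^ n') := by
  obtain ⟨hx, hx4, _, _⟩ := l8d7i_x hS hJ hX
  have hΛ := l8d7s_Lam_one S
  have hD3 := hS.cD3
  have hK := l8d7i_K0_pos hS hJ
  have hxρ : J.d.x ≤ ρ0 := hJ.zlox.trans hρ0
  have hρ00 : 0 < ρ0 := lt_of_lt_of_le hx hxρ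
  have h2n : (0 : ℝ) < 2 ^ n' := by positivity
  have r1 : J.d.x ^ 6 / 2 ≤ 1 / 2 ^ n' := by rw [div_le_div_iff₀ (by norm_num) h2n]; linarith
  have r2 : l8d7iK0 S J * (J.d.x ^ 9 / (16 * l8d7sLam S ^ 3))
      ≤ l8d7iK0 S J * (ρ0 / (2 * l8d7sLam S)) ^ 2 * (ρ0 / (2 * l8d7sLam S) / 2 ^ n') := by
    have e : l8d7iK0 S J * (ρ0 / (2 * l8d7sLam S)) ^ 2 * (ρ0 / (2 * l8d7sLam S) / 2 ^ n')
        = l8d7iK0 S J * (ρ0 ^ 3 / (8 * l8d7sLam S ^ 3) * (1 / 2 ^ n')) := by field_simp; ring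
    rw [e]
    have h3 : J.d.x ^ 3 ≤ ρ0 ^ 3 := pow_le_pow_left₀ hx.le hxρ 3
    calc l8d7iK0 S J * (J.d.x ^ 9 / (16 * l8d7sLam S ^ 3))
        = l8d7iK0 S J * (J.d.x ^ 3 / (8 * l8d7sLam S ^ 3) * (J.d.x ^ 6 / 2)) := by field_simp; ring
      _ ≤ _ := by gcongr
  refine lt_of_lt_of_le ?_ r2
  have hΛ3 : 0 < l8d7sLam S ^ 3 := by positivity
  have c1 : J.d.x * (256 * l8d7sLam S ^ 3) ≤ 1 := by
    refine le_trans ?_ hsm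
    unfold l8d7sCs
    have : 0 ≤ 1 / S.cD3 := by positivity
    have h0 : 0 ≤ J.d.x * (256 * l8d7sLam S ^ 3) := by positivity
    nlinarith
  have c2 : J.d.x * (256 * l8d7sLam S ^ 3 / S.cD3) ≤ 1 := by
    refine le_trans ?_ hsm
    unfold l8d7sCs
    have e : 256 * l8d7sLam S ^ 3 * (1 + 1 / S.cD3) = 256 * l8d7sLam S ^ 3 + 256 * l8d7sLam S ^ 3 / S.cD3 := by ring
    rw [e]
    have h0 : 0 ≤ J.d.x * (256 * l8d7sLam S ^ 3) := by positivity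
    nlinarith
  -- the mesh term
  have a1 : 2 * l8d7iK0 S J * J.δ ≤ l8d7iK0 S J * (J.d.x ^ 9 / (32 * l8d7sLam S ^ 3)) := by
    have b1 : J.δ ≤ J.d.x ^ 10 := hJ.mesh.trans (pow_le_pow_of_le_one hx.le (by linarith) (by norm_num))
    have b2 : 2 * J.d.x ^ 10 ≤ J.d.x ^ 9 / (32 * l8d7sLam S ^ 3) := by
      rw [le_div_iff₀ (by positivity)]
      have : 0 < J.d.x ^ 9 := by positivity
      calc 2 * J.d.x ^ 10 * (32 * l8d7sLam S ^ 3) = J.d.x ^ 9 * (J.d.x * (256 * l8d7sLam S ^ 3)) / 4 := by ring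
        _ ≤ J.d.x ^ 9 * 1 / 4 := by gcongr
        _ ≤ J.d.x ^ 9 := by linarith
    calc 2 * l8d7iK0 S J * J.δ = l8d7iK0 S J * (2 * J.δ) := by ring
      _ ≤ l8d7iK0 S J * (J.d.x ^ 9 / (32 * l8d7sLam S ^ 3)) := by gcongr; linarith
  -- the threshold term
  have a2 : 2 * J.lowb < l8d7iK0 S J * (J.d.x ^ 9 / (32 * l8d7sLam S ^ 3)) := by
    have b1 : J.lowb ≤ J.d.x ^ 25 := hJ.lowb.trans (pow_le_pow_of_le_one hx.le (by linarith) (by norm_num))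
    have b2 : S.cD3 * J.d.x ^ 14 / 4 ≤ l8d7iK0 S J := by
      unfold l8d7iK0
      have := hJ.lam1a
      gcongr
    have b3 : 2 * J.d.x ^ 25 < S.cD3 * J.d.x ^ 14 / 4 * (J.d.x ^ 9 / (32 * l8d7sLam S ^ 3)) := by
      have e : S.cD3 * J.d.x ^ 14 / 4 * (J.d.x ^ 9 / (32 * l8d7sLam S ^ 3))
          = J.d.x ^ 23 * (S.cD3 / (128 * l8d7sLam S ^ 3)) := by field_simp; ring
      rw [e]
      have h23 : 0 < J.d.x ^ 23 := by positivity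
      have e2 : 2 * J.d.x ^ 25 = J.d.x ^ 23 * (2 * J.d.x ^ 2) := by ring
      rw [e2]
      apply mul_lt_mul_of_pos_left _ h23
      rw [lt_div_iff₀ (by positivity)]
      have c3 : J.d.x * (256 * l8d7sLam S ^ 3) ≤ S.cD3 := by
        have := mul_le_mul_of_nonneg_right c2 hD3.le
        calc J.d.x * (256 * l8d7sLam S ^ 3) = J.d.x * (256 * l8d7sLam S ^ 3 / S.cD3) * S.cD3 := by field_simp
          _ ≤ 1 * S.cD3 := this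
          _ = _ := one_mul _
      calc 2 * J.d.x ^ 2 * (128 * l8d7sLam S ^ 3) = J.d.x * (J.d.x * (256 * l8d7sLam S ^ 3)) := by ring
        _ ≤ J.d.x * S.cD3 := by gcongr
        _ < 1 * S.cD3 := by apply mul_lt_mul_of_pos_right _ hD3; linarith
        _ = _ := one_mul _
    calc 2 * J.lowb ≤ 2 * J.d.x ^ 25 := by linarith
      _ < _ := b3
      _ ≤ _ := by gcongr
  have e : l8d7iK0 S J * (J.d.x ^ 9 / (16 * l8d7sLam S ^ 3))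
      = l8d7iK0 S J * (J.d.x ^ 9 / (32 * l8d7sLam S ^ 3)) + l8d7iK0 S J * (J.d.x ^ 9 / (32 * l8d7sLam S ^ 3)) := by
    field_simp; ring
  rw [e]
  linarith

/-- the number of layers: `2^n' ≍ x⁻⁶`, `n' ≲ log (1/x)` -/
theorem l8d7s_layers {x : ℝ} (hx : 0 < x) (hx1 : x ≤ 1) :
    ∃ n' : ℕ, 1 ≤ x ^ 6 * 2 ^ n' ∧ x ^ 6 * 2 ^ n' ≤ 2 ∧ (n' : ℝ) ≤ 1 + 9 * Real.log (1 / x) := by
  have hy : 0 < x ^ 6 := by positivity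
  have hy1 : x ^ 6 ≤ 1 := pow_le_one₀ hx.le hx1
  have hex : ∃ n : ℕ, 1 ≤ x ^ 6 * 2 ^ n := by
    obtain ⟨n, hn⟩ := pow_unbounded_of_one_lt (1 / x ^ 6) (by norm_num : (1 : ℝ) < 2)
    refine ⟨n, ?_⟩
    rw [div_lt_iff₀ hy] at hn
    linarith
  classical
  set n' := Nat.find hex with hn'
  have h1 : 1 ≤ x ^ 6 * 2 ^ n' := Nat.find_spec hex
  have h2 : x ^ 6 * 2 ^ n' ≤ 2 := by
    rcases Nat.eq_zero_or_pos n' with h0 | h0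
    · rw [h0]; simp; linarith
    · have := Nat.find_min hex (m := n' - 1) (by omega)
      rw [not_le] at this
      have e : (2 : ℝ) ^ n' = 2 ^ (n' - 1) * 2 := by rw [← pow_succ]; congr 1; omega
      rw [e]; nlinarith
  refine ⟨n', h1, h2, ?_⟩
  have l1 : Real.log (x ^ 6 * 2 ^ n') ≤ Real.log 2 := Real.log_le_log (by positivity) h2
  rw [Real.log_mul hy.ne' (by positivity), Real.log_pow, Real.log_pow] at l1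
  have l2 : Real.log (1 / x) = - Real.log x := by rw [one_div, Real.log_inv]
  have l3 : (0.6931471803 : ℝ) < Real.log 2 := Real.log_two_gt_d9
  have l4 : 0 ≤ Real.log (1 / x) := Real.log_nonneg (by rw [le_div_iff₀ hx]; linarith)
  rw [l2] at l4 ⊢
  push_cast at l1
  have l5 : ((n' : ℝ) - 1) * Real.log 2 ≤ 6 * (- Real.log x) := by linarith
  by_contra hc
  rw [not_le] at hc
  have l6 : 9 * (- Real.log x) < (n' : ℝ) - 1 := by linarith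
  nlinarith

/-- the constant of `l8d7s_C_cl` -/
noncomputable def l8d7sCC (S : SkpS) (cs Czb : ℝ) : ℝ :=
  l8d7sN S Czb * (l8d7sMb S Czb * (2 ^ l8d7sN S Czb * l8d7sK2 S * (4 * l8d7sLam S ^ 2 * (S.c.Cf + S.Cq))
    + 4 * (l8d7sKA S * S.CW * (2 ^ l8d7sN S Czb * l8d7sK2 S)) + 8 * (l8d7sKA S * S.CW * (2 ^ l8d7sN S Czb) ^ 2)
    + l8d7sK1 S cs * 2 ^ l8d7sN S Czb * (4 * l8d7sLam S * S.Cv))) * (4 * S.Cv) ^ 3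

theorem l8d7s_K2_pos (hS : S.Ok) : 0 < l8d7sK2 S := by
  have := hS.Cv; have := hS.cD3; have := hS.Cm; have := hS.cA3 1
  have := l8d7s_Lam_one S
  unfold l8d7sK2; positivity

theorem l8d7s_aux_T {n L X : ℝ} (hn : 0 ≤ n) (hL : 0 ≤ L) (hX : 0 ≤ X) :
    (n + 2) * (L * X) ≤ (n + 2) ^ 2 * (1 + L) * X ∧ (n + 2) * (n * (L * X)) ≤ (n + 2) ^ 2 * (1 + L) * X
      ∧ (n + 2) * X ≤ (n + 2) ^ 2 * (1 + L) * X ∧ X ≤ (n + 2) ^ 2 * (1 + L) * X := by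
  have h1 := mul_nonneg hn hL
  have h2 := mul_nonneg (mul_nonneg hn hn) hL
  have h3 := mul_nonneg hn hn
  refine ⟨?_, ?_, ?_, ?_⟩
  · have : (n + 2) * L ≤ (n + 2) ^ 2 * (1 + L) := by nlinarith
    calc (n + 2) * (L * X) = (n + 2) * L * X := by ring
      _ ≤ _ := mul_le_mul_of_nonneg_right this hX
  · have : (n + 2) * n * L ≤ (n + 2) ^ 2 * (1 + L) := by nlinarith
    calc (n + 2) * (n * (L * X)) = (n + 2) * n * L * X := by ring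
      _ ≤ _ := mul_le_mul_of_nonneg_right this hX
  · have : (n + 2) ≤ (n + 2) ^ 2 * (1 + L) := by nlinarith
    exact mul_le_mul_of_nonneg_right this hX
  · have : 1 ≤ (n + 2) ^ 2 * (1 + L) := by nlinarith
    calc X = 1 * X := (one_mul _).symm
      _ ≤ _ := mul_le_mul_of_nonneg_right this hX

theorem l8d7s_aux_sum {n L X Mb c1 c2 c3 c4 u1 u2 u3 u4 : ℝ} (hn : 0 ≤ n) (hL : 0 ≤ L) (hX : 0 ≤ X) (hMb : 0 ≤ Mb)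
    (hc1 : 0 ≤ c1) (hc2 : 0 ≤ c2) (hc3 : 0 ≤ c3) (hc4 : 0 ≤ c4)
    (s1 : u1 ≤ c1 * (L * X)) (s2 : u2 ≤ c2 * (L * X)) (s3 : u3 ≤ c3 / 2 * X) (s4 : u4 ≤ Mb * c4 * X) :
    (n + 2) * (Mb * (u1 + 4 * n * u2 + 16 * u3)) + u4
      ≤ Mb * (c1 + 4 * c2 + 8 * c3 + c4) * ((n + 2) ^ 2 * (1 + L) * X) := by
  obtain ⟨t1, t2, t3, t4⟩ := l8d7s_aux_T hn hL hX
  set T := (n + 2) ^ 2 * (1 + L) * X with hT
  calc (n + 2) * (Mb * (u1 + 4 * n * u2 + 16 * u3)) + u4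
      ≤ (n + 2) * (Mb * (c1 * (L * X) + 4 * n * (c2 * (L * X)) + 16 * (c3 / 2 * X))) + Mb * c4 * X := by gcongr
    _ = Mb * (c1 * ((n + 2) * (L * X)) + 4 * c2 * ((n + 2) * (n * (L * X))) + 8 * c3 * ((n + 2) * X) + c4 * X) := by ring
    _ ≤ Mb * (c1 * T + 4 * c2 * T + 8 * c3 * T + c4 * T) := by gcongr
    _ = _ := by ring

/-- the bound `BbS` in closed form -/
theorem l8d7s_BbS_le (hS : S.Ok) (hJ : J.Ok S) (hX : L8D7X S J cs Czb) {n' N : ℕ} (hn1 : 1 ≤ J.d.x ^ 6 * 2 ^ n')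
    {ρ0 : ℝ} (hρ0 : 0 < ρ0) (hρ1 : ρ0 ≤ 1) :
    (l8d7iD S J cs Czb).BbS n' ρ0 (2 ^ N * ρ0)
      ≤ (l8d7sMb S Czb * (2 ^ N * l8d7sK2 S * (4 * l8d7sLam S ^ 2 * (S.c.Cf + S.Cq))
          + 4 * (l8d7sKA S * S.CW * (2 ^ N * l8d7sK2 S)) + 8 * (l8d7sKA S * S.CW * (2 ^ N) ^ 2)
          + l8d7sK1 S cs * 2 ^ N * (4 * l8d7sLam S * S.Cv)))
        * (((n' : ℝ) + 2) ^ 2 * (1 + J.Lg ^ 4) * (J.d.Z ^ 2 * J.d.x ^ 6 / (J.d.b ^ 2 * J.lam1 * ρ0 ^ 3))) := by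
  have hD := l8d7i_ok hS hJ hX
  have hCv := hS.Cv
  have hCW := hS.CW
  have hb := hJ.wh.b0
  have hb1 := hJ.wh.b1
  have hl := l8d7s_lam1_pos hJ
  have hl1 := hJ.lam1b
  have hx := hJ.wh.x0
  have hZ := hJ.wh.Z1
  have hΛ := l8d7s_Lam_one S
  have hCS : 0 ≤ S.c.Cf + S.Cq := l8d7_CS_nonneg hD
  have hMb := l8d7s_Mb_pos hS hX.Czb1
  have hK1 := l8d7s_K1_pos hS hX.cs0
  have hK2 := l8d7s_K2_pos hS
  have hKA := l8d7s_KA_pos hS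
  have hLg := hJ.Lg0
  have h2N : (0 : ℝ) < 2 ^ N := by positivity
  have h2n : (0 : ℝ) < 2 ^ n' := by positivity
  set X := J.d.Z ^ 2 * J.d.x ^ 6 / (J.d.b ^ 2 * J.lam1 * ρ0 ^ 3) with hXdef
  have hX0 : 0 < X := by positivity
  set A := (l8d7iD S J cs Czb).A with hAdef
  set Kp := (l8d7iD S J cs Czb).Kpb ρ0 with hKp
  set KW := (l8d7iD S J cs Czb).KWb ρ0 with hKW
  have hA0 : 0 < A := l8d7_A_pos hD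
  have hKp0 : 0 ≤ Kp := l8d7_Kpb_nonneg hD hρ0
  have hKW0 : 0 ≤ KW := (l8d7_KWb_pos hD hρ0).le
  have kA : A ≤ l8d7sKA S * (J.d.Z ^ 2 / J.d.b) := l8d7s_A_le hS hJ
  have kp : Kp ≤ l8d7sK2 S * (J.Lg ^ 4 * J.d.x ^ 6 / (J.lam1 * ρ0 ^ 4)) := l8d7s_Kpb_le hS hJ hX.cs0 hρ0
  have kw : KW ≤ l8d7sK1 S cs * X := l8d7s_KWb_le hS hJ hX.cs0 hρ0
  have hZ2 : 1 ≤ J.d.Z ^ 2 := one_le_pow₀ hZ
  have hb2 : J.d.b ^ 2 ≤ 1 := pow_le_one₀ hb.le (by linarith)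
  -- `Y0 = x⁶ / (λ₁ ρ0³) ≤ X`
  have y0 : J.d.x ^ 6 / (J.lam1 * ρ0 ^ 3) ≤ X := by
    rw [hXdef, div_le_div_iff₀ (by positivity) (by positivity)]
    have h0 : 0 < J.d.x ^ 6 * (J.lam1 * ρ0 ^ 3) := by positivity
    calc J.d.x ^ 6 * (J.d.b ^ 2 * J.lam1 * ρ0 ^ 3) = J.d.b ^ 2 * (J.d.x ^ 6 * (J.lam1 * ρ0 ^ 3)) := by ring
      _ ≤ 1 * (J.d.x ^ 6 * (J.lam1 * ρ0 ^ 3)) := by gcongr
      _ ≤ J.d.Z ^ 2 * (J.d.x ^ 6 * (J.lam1 * ρ0 ^ 3)) := by gcongr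
      _ = _ := by ring
  have a1 : Kp * (2 ^ N * ρ0) ≤ 2 ^ N * l8d7sK2 S * J.Lg ^ 4 * X := by
    calc Kp * (2 ^ N * ρ0) ≤ l8d7sK2 S * (J.Lg ^ 4 * J.d.x ^ 6 / (J.lam1 * ρ0 ^ 4)) * (2 ^ N * ρ0) := by gcongr
      _ = 2 ^ N * l8d7sK2 S * J.Lg ^ 4 * (J.d.x ^ 6 / (J.lam1 * ρ0 ^ 3)) := by field_simp
      _ ≤ _ := by gcongr
  have a2 : A * (S.CW / J.d.b) * (Kp * (2 ^ N * ρ0)) ≤ l8d7sKA S * S.CW * (2 ^ N * l8d7sK2 S) * J.Lg ^ 4 * X := by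
    calc A * (S.CW / J.d.b) * (Kp * (2 ^ N * ρ0))
        ≤ l8d7sKA S * (J.d.Z ^ 2 / J.d.b) * (S.CW / J.d.b)
          * (l8d7sK2 S * (J.Lg ^ 4 * J.d.x ^ 6 / (J.lam1 * ρ0 ^ 4)) * (2 ^ N * ρ0)) := by gcongr
      _ = _ := by rw [hXdef]; field_simp
  have a3 : A * (S.CW / J.d.b) * (2 ^ N * ρ0 * (2 ^ N * ρ0 / 2 / 2 ^ n')) ≤ l8d7sKA S * S.CW * (2 ^ N) ^ 2 / 2 * X := by
    have c1 : 1 / 2 ^ n' ≤ J.d.x ^ 6 := by rw [div_le_iff₀ h2n]; exact hn1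
    have c2 : J.d.Z ^ 2 * J.d.x ^ 6 / J.d.b ^ 2 * ρ0 ^ 2 ≤ X := by
      rw [hXdef, div_mul_eq_mul_div, div_le_div_iff₀ (by positivity) (by positivity)]
      have h0 : 0 < J.d.Z ^ 2 * J.d.x ^ 6 * J.d.b ^ 2 := by positivity
      have h5 : J.lam1 * ρ0 ^ 5 ≤ 1 := by
        have : ρ0 ^ 5 ≤ 1 := pow_le_one₀ hρ0.le hρ1
        have h6 : 0 ≤ ρ0 ^ 5 := by positivity
        nlinarith
      calc J.d.Z ^ 2 * J.d.x ^ 6 * ρ0 ^ 2 * (J.d.b ^ 2 * J.lam1 * ρ0 ^ 3)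
          = J.d.Z ^ 2 * J.d.x ^ 6 * J.d.b ^ 2 * (J.lam1 * ρ0 ^ 5) := by ring
        _ ≤ J.d.Z ^ 2 * J.d.x ^ 6 * J.d.b ^ 2 * 1 := by gcongr
        _ = _ := by ring
    calc A * (S.CW / J.d.b) * (2 ^ N * ρ0 * (2 ^ N * ρ0 / 2 / 2 ^ n'))
        = A * (S.CW / J.d.b) * ((2 ^ N) ^ 2 * ρ0 ^ 2 / 2 * (1 / 2 ^ n')) := by field_simp
      _ ≤ l8d7sKA S * (J.d.Z ^ 2 / J.d.b) * (S.CW / J.d.b) * ((2 ^ N) ^ 2 * ρ0 ^ 2 / 2 * J.d.x ^ 6) := by gcongr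
      _ = l8d7sKA S * S.CW * (2 ^ N) ^ 2 / 2 * (J.d.Z ^ 2 * J.d.x ^ 6 / J.d.b ^ 2 * ρ0 ^ 2) := by field_simp
      _ ≤ _ := by gcongr
  have a4 : KW * (l8d7sMb S Czb * (2 ^ N * ρ0)) / (1 / (2 * S.Cv) * (ρ0 / (2 * l8d7sLam S)))
      ≤ l8d7sMb S Czb * (l8d7sK1 S cs * 2 ^ N * (4 * l8d7sLam S * S.Cv)) * X := by
    calc KW * (l8d7sMb S Czb * (2 ^ N * ρ0)) / (1 / (2 * S.Cv) * (ρ0 / (2 * l8d7sLam S)))
        = KW * (l8d7sMb S Czb * 2 ^ N * (4 * l8d7sLam S * S.Cv)) := by field_simp; ring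
      _ ≤ l8d7sK1 S cs * X * (l8d7sMb S Czb * 2 ^ N * (4 * l8d7sLam S * S.Cv)) := by gcongr
      _ = _ := by ring
  have e : (l8d7iD S J cs Czb).BbS n' ρ0 (2 ^ N * ρ0)
      = ((n' : ℝ) + 2) * (l8d7sMb S Czb * (Kp * (2 ^ N * ρ0) * (4 * l8d7sLam S ^ 2 * (S.c.Cf + S.Cq))
          + 4 * (n' : ℝ) * (A * (S.CW / J.d.b) * (Kp * (2 ^ N * ρ0)))
          + 16 * (A * (S.CW / J.d.b) * (2 ^ N * ρ0 * (2 ^ N * ρ0 / 2 / 2 ^ n')))))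
        + KW * (l8d7sMb S Czb * (2 ^ N * ρ0)) / (1 / (2 * S.Cv) * (ρ0 / (2 * l8d7sLam S))) := by
    show ((n' : ℝ) + 2) * (l8d7sMb S Czb * (2 ^ N * ρ0) * (Kp * (4 * l8d7sLam S ^ 2 * (S.c.Cf + S.Cq))
      + 4 * A * (S.CW / J.d.b) * ((n' : ℝ) * Kp + 4 * (2 ^ N * ρ0 / 2 / 2 ^ n'))))
      + KW * (l8d7sMb S Czb * (2 ^ N * ρ0)) / (1 / (2 * S.Cv) * (ρ0 / (2 * l8d7sLam S))) = _
    ring
  rw [e]
  have s1 : Kp * (2 ^ N * ρ0) * (4 * l8d7sLam S ^ 2 * (S.c.Cf + S.Cq))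
      ≤ 2 ^ N * l8d7sK2 S * (4 * l8d7sLam S ^ 2 * (S.c.Cf + S.Cq)) * (J.Lg ^ 4 * X) := by
    calc Kp * (2 ^ N * ρ0) * (4 * l8d7sLam S ^ 2 * (S.c.Cf + S.Cq))
        ≤ 2 ^ N * l8d7sK2 S * J.Lg ^ 4 * X * (4 * l8d7sLam S ^ 2 * (S.c.Cf + S.Cq)) := by gcongr
      _ = _ := by ring
  have a2' : A * (S.CW / J.d.b) * (Kp * (2 ^ N * ρ0)) ≤ l8d7sKA S * S.CW * (2 ^ N * l8d7sK2 S) * (J.Lg ^ 4 * X) :=
    a2.trans (le_of_eq (by ring))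
  exact l8d7s_aux_sum (Nat.cast_nonneg _) (by positivity) hX0.le hMb.le (by positivity) (by positivity) (by positivity)
    (by positivity) s1 a2' a3 a4

/-- TEX[LL:lem:statistics-integrated] TEX[LL:eq:D7] **(D7), second line, closed form**:
`≤ C (n' + 2)² (1 + Lg⁴) / b² · Z² x⁶ / (λ₁ r³) = C (log)⁶ / b² · r (z_r^0)² Z² r²`, with `2^n' ≍ x⁻⁶` (`l8d7s_layers`) -/
theorem l8d7s_C_cl (hS : S.Ok) (hJ : J.Ok S) (hX : L8D7X S J cs Czb) {n' : ℕ} (hn1 : 1 ≤ J.d.x ^ 6 * 2 ^ n')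
    (hn2 : J.d.x ^ 6 * 2 ^ n' ≤ 2) (hsm : J.d.x * l8d7sCs S ≤ 1) {r : ℝ} (hr : 4 * S.Cv * J.d.zlo ≤ r) (hr4 : r ≤ 4)
    (hout : ∀ k < J.P.n, r ≤ J.P.v k → J.P.v k ≤ 2 * r → k < J.nb ∧ J.zc (k + 1) ≤ J.zhi) :
    J.P.int r (2 * r) (fun k => (∫ ω, J.P.xCx k ω ∂J.P.μ) + ∫ ω, J.P.trC2 k ω ∂J.P.μ)
      ≤ l8d7sCC S cs Czb * (((n' : ℝ) + 2) ^ 2 * (1 + J.Lg ^ 4) * (J.d.Z ^ 2 * J.d.x ^ 6 / (J.d.b ^ 2 * J.lam1 * r ^ 3)))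
        + J.P.dv J.P.n * ((∫ ω, J.P.xCx J.P.n ω ∂J.P.μ) + ∫ ω, J.P.trC2 J.P.n ω ∂J.P.μ) := by
  have hCv := hS.Cv
  have hb := hJ.wh.b0
  have hl := l8d7s_lam1_pos hJ
  obtain ⟨hρ0, hzρ0, _, hR0⟩ := l8d7s_band hS hJ hr hr4 le_rfl
  have hr0 : 0 < r := lt_of_lt_of_le (by have := hJ.wh.zlo0; positivity) hr
  have hρ1 : r / (4 * S.Cv) ≤ 1 := by rw [div_le_one (by positivity)]; linarith
  refine (l8d7s_C hS hJ hX n' hr hr4 (l8d7s_N_spec S Czb) hout (l8d7s_eta hS hJ hX hn2 hsm hzρ0)).trans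
    (add_le_add ?_ le_rfl)
  refine (mul_le_mul_of_nonneg_left (l8d7s_BbS_le hS hJ hX hn1 hρ0 hρ1) (Nat.cast_nonneg _)).trans (le_of_eq ?_)
  unfold l8d7sCC
  field_simp

end closed

end Claimed.Agent.R286
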