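import Claimed.Agent.R286.L08.IvD7L

/-!
# Row 286 (S0533), folder L08, file IvD7F : (D7), FINAL FORMS ON ALL MASS BANDS `Y ≤ r ≤ vt`      (owner helper298; head of the unit IV: helper228; prefix `l8d7f` / `L8D7F`)

TEX[LL:lem:statistics-integrated]  (LL 08-statistics.tex l.631-745, (D7)).

The right sides are VERBATIM those of the exits of LL 08 (`L8In.Rnd.d7_W, d7_C, d7_Q`, `L8In.Num.d7`; L08/Defs.lean of 75), with `z_r^0 = x³ / (√λ₁ r³)` written out;   the instance is still abstract (`J : SkpI Ω m`).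
* PART 1  main range `4 Cv zlo ≤ r ≤ 4`: IvD7T + the last cut (`dv n ≤ x^40`).
* PART 2  low range `Y ≤ r ≤ 4 Cv zlo`: lines 1 and 3 from the lower band of 228 (`IvsLow`, top `≥ 8 Cv zlo`);   weights `e ≲ r`;   line 2 from IvD7L (`r ≳ x`) or from line 3 (`r ≲ x`).
-/

set_option autoImplicit false

namespace Claimed.Agent.R286

open MeasureTheory Set

variable {Ω : Type} [mΩ : MeasurableSpace Ω] {m : ℕ}

/-! ## the right sides -/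

/-- `z_r^0` -/
noncomputable def l8d7fZ0 (J : SkpI Ω m) (r : ℝ) : ℝ := J.d.x ^ 3 / (Real.sqrt J.lam1 * r ^ 3)

section rhs

variable {S : SkpS} {J : SkpI Ω m} {r : ℝ}

theorem l8d7f_rhs_D (hJ : J.Ok S) (hr : 0 < r) :
    r * (l8d7fZ0 J r * J.d.Z * r ^ 2) = J.d.Z * J.d.x ^ 3 / Real.sqrt J.lam1 := by
  have hs := Real.sqrt_pos.2 (l8d7s_lam1_pos hJ)
  unfold l8d7fZ0; field_simp

theorem l8d7f_rhs_W (hJ : J.Ok S) (hr : 0 < r) :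
    r * (l8d7fZ0 J r ^ 2 * J.d.Z ^ 2 * r ^ 3) = J.d.Z ^ 2 * J.d.x ^ 6 / (J.lam1 * r ^ 2) := by
  have hl := l8d7s_lam1_pos hJ
  have hs := Real.sqrt_pos.2 hl
  have e : Real.sqrt J.lam1 ^ 2 = J.lam1 := Real.sq_sqrt hl.le
  unfold l8d7fZ0
  rw [div_pow, mul_pow, e, ← pow_mul, ← pow_mul]
  field_simp
  ring

theorem l8d7f_rhs_C (hJ : J.Ok S) (hr : 0 < r) :
    r * (l8d7fZ0 J r ^ 2 * J.d.Z ^ 2 * r ^ 2) = J.d.Z ^ 2 * J.d.x ^ 6 / (J.lam1 * r ^ 3) := by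
  have hl := l8d7s_lam1_pos hJ
  have hs := Real.sqrt_pos.2 hl
  have e : Real.sqrt J.lam1 ^ 2 = J.lam1 := Real.sq_sqrt hl.le
  unfold l8d7fZ0
  rw [div_pow, mul_pow, e, ← pow_mul, ← pow_mul]
  field_simp
  ring

theorem l8d7f_rhs_Wk (hJ : J.Ok S) (hr : 0 < r) (k : ℕ) :
    r * (l8d7fZ0 J r ^ 2 * J.d.Z ^ 2 * r ^ 3 * (((J.d.U * J.d.Z) ^ 2 / r) ^ 2 * r ^ (2 * k)))
      = J.d.Z ^ 2 * J.d.x ^ 6 * (J.d.U * J.d.Z) ^ 4 * r ^ (2 * k) / (J.lam1 * r ^ 4) := by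
  have h := l8d7f_rhs_W hJ hr
  have hl := l8d7s_lam1_pos hJ
  calc r * (l8d7fZ0 J r ^ 2 * J.d.Z ^ 2 * r ^ 3 * (((J.d.U * J.d.Z) ^ 2 / r) ^ 2 * r ^ (2 * k)))
      = r * (l8d7fZ0 J r ^ 2 * J.d.Z ^ 2 * r ^ 3) * (((J.d.U * J.d.Z) ^ 2 / r) ^ 2 * r ^ (2 * k)) := by ring
    _ = _ := by rw [h]; field_simp

/-- elementary facts -/
theorem l8d7f_num (hJ : J.Ok S) :
    0 < J.d.x ∧ J.d.x ≤ 1 ∧ 0 < J.lam1 ∧ Real.sqrt J.lam1 ≤ 1 ∧ 0 < Real.sqrt J.lam1 ∧ 1 ≤ J.d.Z ∧ J.d.x ≤ J.d.U * J.d.Z := by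
  have hx := hJ.wh.x0
  have hl := l8d7s_lam1_pos hJ
  have hZ := hJ.wh.Z1
  have hU := hJ.wh.xU
  refine ⟨hx, hU.trans hJ.wh.U1, hl, ?_, Real.sqrt_pos.2 hl, hZ, ?_⟩
  · rw [← Real.sqrt_one]; exact Real.sqrt_le_sqrt hJ.lam1b
  · have : J.d.U * 1 ≤ J.d.U * J.d.Z := mul_le_mul_of_nonneg_left hZ (hx.le.trans hU)
    linarith

end rhs

/-! ## PART 1 : the main range -/

section main

variable {S : SkpS} {J : SkpI Ω m} {cs Czb r : ℝ}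

/-- TEX[LL:eq:D7] last line, main range -/
theorem l8d7f_D (hS : S.Ok) (hJ : J.Ok S) (hX : L8D7X S J cs Czb) (hdvn : J.P.dv J.P.n ≤ J.d.x ^ 40) {B : ℝ} (hB : 0 ≤ B)
    (hraw : ∀ k ≤ J.nb, ∫ ω, J.P.nX k ω ^ 2 ∂J.P.μ ≤ (B * (skwR (J.z k) + J.d.zlo)) ^ 2 ∧
      ∫ η, J.P.Q η ^ 2 ∂(J.P.fork k) ≤ (B * (skwR (J.z k) + J.d.zlo)) ^ 2)
    (hr : 4 * S.Cv * J.d.zlo ≤ r) (hr4 : r ≤ 4)
    (hout : ∀ k < J.P.n, r ≤ J.P.v k → J.P.v k ≤ 2 * r → k < J.nb ∧ J.zc (k + 1) ≤ J.zhi) :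
    J.P.int r (2 * r) J.P.D2
      ≤ (l8d7sCD S cs Czb * (3 * B + 2 * (S.c.Cf + S.Cq)) / J.d.b + 1) * r * (l8d7fZ0 J r * J.d.Z * r ^ 2) := by
  obtain ⟨hx, hx1, hl, hs1, hs0, hZ, _⟩ := l8d7f_num hJ
  have hb := hJ.wh.b0
  have hr0 : 0 < r := lt_of_lt_of_le (by have := hJ.wh.zlo0; have := hS.Cv; positivity) hr
  rw [mul_assoc, l8d7f_rhs_D hJ hr0]
  refine (l8d7s_D_cl hS hJ hX hB hraw hr hr4 hout).trans ?_
  have h1 : J.P.dv J.P.n * J.P.D2 J.P.n ≤ J.d.Z * J.d.x ^ 3 / Real.sqrt J.lam1 := by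
    have a1 : J.P.dv J.P.n * J.P.D2 J.P.n ≤ J.d.x ^ 40 * 1 :=
      mul_le_mul hdvn (ivs_D2_le_one hJ.sp _) (ivs_D2_nonneg hJ.sp _) (by positivity)
    have a2 : J.d.x ^ 40 ≤ J.d.x ^ 3 := pow_le_pow_of_le_one hx.le hx1 (by norm_num)
    rw [le_div_iff₀ hs0]
    have a3 : 0 < J.d.x ^ 3 := by positivity
    nlinarith [mul_nonneg (ivk_dv_nonneg hJ.sp J.P.n) (ivs_D2_nonneg hJ.sp J.P.n)]
  have e : l8d7sCD S cs Czb * ((3 * B + 2 * (S.c.Cf + S.Cq)) * (J.d.Z * J.d.x ^ 3 / (J.d.b * Real.sqrt J.lam1)))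
      = l8d7sCD S cs Czb * (3 * B + 2 * (S.c.Cf + S.Cq)) / J.d.b * (J.d.Z * J.d.x ^ 3 / Real.sqrt J.lam1) := by
    field_simp
  rw [e]
  linarith

/-- TEX[LL:eq:D7] first line, `j = 0`, main range -/
theorem l8d7f_W0 (hS : S.Ok) (hJ : J.Ok S) (hX : L8D7X S J cs Czb) (hdvn : J.P.dv J.P.n ≤ J.d.x ^ 40)
    (hr : 4 * S.Cv * J.d.zlo ≤ r) (hr4 : r ≤ 4)
    (hout : ∀ k < J.P.n, r ≤ J.P.v k → J.P.v k ≤ 2 * r → k < J.nb ∧ J.zc (k + 1) ≤ J.zhi) :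
    J.P.int r (2 * r) (fun k => ∫ ω, J.P.W k ω ∂J.P.μ)
      ≤ (l8d7sCW0 S cs Czb / J.d.b ^ 2 + 256) * r * (l8d7fZ0 J r ^ 2 * J.d.Z ^ 2 * r ^ 3) := by
  obtain ⟨hx, hx1, hl, hs1, hs0, hZ, _⟩ := l8d7f_num hJ
  have hb := hJ.wh.b0
  have hr0 : 0 < r := lt_of_lt_of_le (by have := hJ.wh.zlo0; have := hS.Cv; positivity) hr
  rw [mul_assoc, l8d7f_rhs_W hJ hr0]
  refine (l8d7s_W0_cl hS hJ hX hr hr4 hout).trans ?_
  have h1 : J.P.dv J.P.n * ∫ ω, J.P.W J.P.n ω ∂J.P.μ ≤ 256 * (J.d.Z ^ 2 * J.d.x ^ 6 / (J.lam1 * r ^ 2)) := by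
    have a1 : J.P.dv J.P.n * ∫ ω, J.P.W J.P.n ω ∂J.P.μ ≤ J.d.x ^ 40 * 16 :=
      mul_le_mul hdvn ((ivs_int_W_le hJ.sp _).trans (by linarith [hJ.a4])) (ivk_int_W_nonneg hJ.sp _) (by positivity)
    have a2 : J.d.x ^ 40 ≤ J.d.x ^ 6 := pow_le_pow_of_le_one hx.le hx1 (by norm_num)
    have a3 : J.d.x ^ 6 ≤ 16 * (J.d.Z ^ 2 * J.d.x ^ 6 / (J.lam1 * r ^ 2)) := by
      rw [mul_div_assoc', le_div_iff₀ (by positivity)]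
      have b1 : J.lam1 * r ^ 2 ≤ 1 * 16 := mul_le_mul hJ.lam1b (by nlinarith) (by positivity) (by norm_num)
      have b2 : 1 ≤ J.d.Z ^ 2 := one_le_pow₀ hZ
      have b3 : 0 < J.d.x ^ 6 := by positivity
      nlinarith
    linarith
  have e : l8d7sCW0 S cs Czb * (J.d.Z ^ 2 * J.d.x ^ 6 / (J.d.b ^ 2 * J.lam1 * r ^ 2))
      = l8d7sCW0 S cs Czb / J.d.b ^ 2 * (J.d.Z ^ 2 * J.d.x ^ 6 / (J.lam1 * r ^ 2)) := by
    field_simp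
  rw [e]
  linarith

/-- TEX[LL:eq:D7] second line, main range -/
theorem l8d7f_C (hS : S.Ok) (hJ : J.Ok S) (hX : L8D7X S J cs Czb) (hdvn : J.P.dv J.P.n ≤ J.d.x ^ 40) {n' : ℕ}
    (hn1 : 1 ≤ J.d.x ^ 6 * 2 ^ n') (hn2 : J.d.x ^ 6 * 2 ^ n' ≤ 2) (hsm : J.d.x * l8d7sCs S ≤ 1)
    (hr : 4 * S.Cv * J.d.zlo ≤ r) (hr4 : r ≤ 4)
    (hout : ∀ k < J.P.n, r ≤ J.P.v k → J.P.v k ≤ 2 * r → k < J.nb ∧ J.zc (k + 1) ≤ J.zhi) :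
    J.P.int r (2 * r) (fun k => (∫ ω, J.P.xCx k ω ∂J.P.μ) + ∫ ω, J.P.trC2 k ω ∂J.P.μ)
      ≤ (l8d7sCC S cs Czb * (((n' : ℝ) + 2) ^ 2 * (1 + J.Lg ^ 4)) / J.d.b ^ 2 + 64) * r * (l8d7fZ0 J r ^ 2 * J.d.Z ^ 2 * r ^ 2) := by
  obtain ⟨hx, hx1, hl, hs1, hs0, hZ, _⟩ := l8d7f_num hJ
  have hb := hJ.wh.b0
  have hr0 : 0 < r := lt_of_lt_of_le (by have := hJ.wh.zlo0; have := hS.Cv; positivity) hr
  rw [mul_assoc, l8d7f_rhs_C hJ hr0]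
  refine (l8d7s_C_cl hS hJ hX hn1 hn2 hsm hr hr4 hout).trans ?_
  have h1 : J.P.dv J.P.n * ((∫ ω, J.P.xCx J.P.n ω ∂J.P.μ) + ∫ ω, J.P.trC2 J.P.n ω ∂J.P.μ)
      ≤ 64 * (J.d.Z ^ 2 * J.d.x ^ 6 / (J.lam1 * r ^ 3)) := by
    have a0 : 0 ≤ (∫ ω, J.P.xCx J.P.n ω ∂J.P.μ) + ∫ ω, J.P.trC2 J.P.n ω ∂J.P.μ :=
      add_nonneg (integral_nonneg (ivk_xCx_nonneg hJ.sp _)) (integral_nonneg (ivk_trC2_nonneg _))
    have a1 : J.P.dv J.P.n * ((∫ ω, J.P.xCx J.P.n ω ∂J.P.μ) + ∫ ω, J.P.trC2 J.P.n ω ∂J.P.μ) ≤ J.d.x ^ 40 * 1 :=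
      mul_le_mul hdvn ((l8d7l_C_le_D2 hJ.sp _).trans (ivs_D2_le_one hJ.sp _)) a0 (by positivity)
    have a2 : J.d.x ^ 40 ≤ J.d.x ^ 6 := pow_le_pow_of_le_one hx.le hx1 (by norm_num)
    have a3 : J.d.x ^ 6 ≤ 64 * (J.d.Z ^ 2 * J.d.x ^ 6 / (J.lam1 * r ^ 3)) := by
      rw [mul_div_assoc', le_div_iff₀ (by positivity)]
      have b0 : r ^ 3 ≤ 4 ^ 3 := pow_le_pow_left₀ hr0.le hr4 3
      have b1 : J.lam1 * r ^ 3 ≤ 1 * 64 := mul_le_mul hJ.lam1b (by linarith) (by positivity) (by norm_num)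
      have b2 : 1 ≤ J.d.Z ^ 2 := one_le_pow₀ hZ
      have b3 : 0 < J.d.x ^ 6 := by positivity
      nlinarith
    linarith
  have e : l8d7sCC S cs Czb * (((n' : ℝ) + 2) ^ 2 * (1 + J.Lg ^ 4) * (J.d.Z ^ 2 * J.d.x ^ 6 / (J.d.b ^ 2 * J.lam1 * r ^ 3)))
      = l8d7sCC S cs Czb * (((n' : ℝ) + 2) ^ 2 * (1 + J.Lg ^ 4)) / J.d.b ^ 2 * (J.d.Z ^ 2 * J.d.x ^ 6 / (J.lam1 * r ^ 3)) := by
    field_simp
  rw [e]
  linarith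

/-- TEX[LL:eq:D7] first line, `j = k + 1 ≥ 1`, main range;   `e` = the envelope at the cuts -/
theorem l8d7f_W (hS : S.Ok) (hJ : J.Ok S) (hX : L8D7X S J cs Czb) (hdvn : J.P.dv J.P.n ≤ J.d.x ^ 40) (k : ℕ) {e : ℕ → ℝ}
    (he : ∀ i ≤ J.nb, J.d.zlo ≤ J.zc i → J.zc i ≤ J.zhi → e i = skwE J.d J.hh (J.zc i)) (hen : e J.P.n ^ 2 ≤ 1)
    (htop : J.P.a ≤ 2 * r → J.zc J.P.n ≤ J.zhi) (hr : 4 * S.Cv * J.d.zlo ≤ r) (hr4 : r ≤ 4)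
    (hout : ∀ k < J.P.n, r ≤ J.P.v k → J.P.v k ≤ 2 * r → k < J.nb ∧ J.zc (k + 1) ≤ J.zhi) :
    J.P.int r (2 * r) (fun i => (∫ ω, J.P.W i ω ∂J.P.μ) * e i ^ (2 * (k + 1)))
      ≤ (l8d7sCW S cs Czb k * skwL J.d / J.d.b ^ 2 + 4096 * 4 ^ k) * r
        * (l8d7fZ0 J r ^ 2 * J.d.Z ^ 2 * r ^ 3 * (((J.d.U * J.d.Z) ^ 2 / r) ^ 2 * r ^ (2 * k))) := by
  obtain ⟨hx, hx1, hl, hs1, hs0, hZ, hxY⟩ := l8d7f_num hJ
  have hb := hJ.wh.b0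
  have hP := hJ.sp
  have hr0 : 0 < r := lt_of_lt_of_le (by have := hJ.wh.zlo0; have := hS.Cv; positivity) hr
  obtain ⟨_, hzρ0, _, _⟩ := l8d7s_band hS hJ hr hr4 le_rfl
  rw [mul_assoc, l8d7f_rhs_Wk hJ hr0]
  classical
  set w : ℕ → ℝ := fun i => if (J.d.zlo ≤ J.zc i ∧ J.zc i ≤ J.zhi) ∧ (i ≠ J.P.n ∨ J.P.a ≤ 2 * r) then e i ^ (2 * (k + 1)) else 0
    with hw
  have hev : ∀ t : ℝ, 0 ≤ t ^ (2 * (k + 1)) := fun t => by rw [pow_mul]; positivity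
  have hw0 : ∀ i, 0 ≤ w i := by
    intro i
    simp only [hw]
    split_ifs
    · exact hev _
    · exact le_rfl
  have h1 : J.P.int r (2 * r) (fun i => (∫ ω, J.P.W i ω ∂J.P.μ) * e i ^ (2 * (k + 1)))
      ≤ J.P.int r (2 * r) (fun i => (∫ ω, J.P.W i ω ∂J.P.μ) * w i) := by
    refine ivs_int_mono hP _ _ fun i hi h1 h2 => le_of_eq ?_
    have c1 : J.d.zlo ≤ J.zc i := by
      rcases hi.eq_or_lt with h | h
      · have a1 : J.zc J.nb ≤ J.zc i := hJ.zmono (by rw [h]; exact hJ.nbn)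
        rw [hJ.nb] at a1
        linarith [hJ.zreg, hJ.zloreg, hJ.wh.zlo0]
      · exact hzρ0.trans (l8d7s_cell_lo hS hJ hX hr (hout i h h1 h2).1 h1)
    have c2 : i ≠ J.P.n ∨ J.P.a ≤ 2 * r := by
      by_cases h : i = J.P.n
      · right; rw [← hP.v_term J.P.n le_rfl, ← h]; exact h2
      · left; exact h
    have c3 : J.zc i ≤ J.zhi := by
      rcases hi.eq_or_lt with h | h
      · rw [h]; exact htop (by rw [← hP.v_term J.P.n le_rfl, ← h]; exact h2)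
      · exact (hJ.zmono (Nat.le_succ i)).trans (hout i h h1 h2).2
    simp only [hw]
    rw [if_pos ⟨⟨c1, c3⟩, c2⟩]
  refine h1.trans ((l8d7s_W_cl hS hJ hX k hw0 zero_le_one (ζ := J.zc) (fun i _ => ⟨le_rfl, hJ.zmono (Nat.le_succ i)⟩)
    (fun i hi _ => ?_) hr hr4 hout).trans ?_)
  · simp only [hw]
    split_ifs with hc
    · rw [he i hi.le hc.1.1 hc.1.2, one_mul]
    · rw [one_mul]; exact hev _
  · set T := J.d.Z ^ 2 * J.d.x ^ 6 * (J.d.U * J.d.Z) ^ 4 * r ^ (2 * k) / (J.lam1 * r ^ 4) with hT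
    have hY0 : 0 < J.d.U * J.d.Z := lt_of_lt_of_le hx hxY
    have hT0 : 0 ≤ T := by positivity
    have h2 : J.P.dv J.P.n * ((∫ ω, J.P.W J.P.n ω ∂J.P.μ) * w J.P.n) ≤ 4096 * 4 ^ k * T := by
      by_cases hc : (J.d.zlo ≤ J.zc J.P.n ∧ J.zc J.P.n ≤ J.zhi) ∧ (J.P.n ≠ J.P.n ∨ J.P.a ≤ 2 * r)
      · have ha : J.P.a ≤ 2 * r := by
          rcases hc.2 with h | h
          · exact absurd rfl h
          · exact h
        have hr2 : 1 / 2 ≤ r := by linarith [hJ.a1]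
        have a0 : w J.P.n ≤ 1 := by
          simp only [hw]
          rw [if_pos hc, pow_mul]
          exact pow_le_one₀ (sq_nonneg _) hen
        have a1 : J.P.dv J.P.n * ((∫ ω, J.P.W J.P.n ω ∂J.P.μ) * w J.P.n) ≤ J.d.x ^ 40 * (16 * 1) :=
          mul_le_mul hdvn (mul_le_mul ((ivs_int_W_le hP _).trans (by linarith [hJ.a4])) a0 (hw0 _) (by norm_num))
            (mul_nonneg (ivk_int_W_nonneg hP _) (hw0 _)) (by positivity)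
        have a2 : J.d.x ^ 40 ≤ J.d.x ^ 10 := pow_le_pow_of_le_one hx.le hx1 (by norm_num)
        have a3 : J.d.x ^ 10 ≤ 256 * 4 ^ k * T := by
          rw [hT, mul_div_assoc', le_div_iff₀ (by positivity)]
          have b0 : r ^ 4 ≤ 4 ^ 4 := pow_le_pow_left₀ hr0.le hr4 4
          have b1 : J.lam1 * r ^ 4 ≤ 1 * 256 := mul_le_mul hJ.lam1b (by linarith) (by positivity) (by norm_num)
          have b2 : 1 ≤ J.d.Z ^ 2 := one_le_pow₀ hZ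
          have b3 : J.d.x ^ 4 ≤ (J.d.U * J.d.Z) ^ 4 := pow_le_pow_left₀ hx.le hxY 4
          have b4 : 1 ≤ 4 ^ k * r ^ (2 * k) := by
            rw [pow_mul, ← mul_pow]
            exact one_le_pow₀ (by nlinarith)
          calc J.d.x ^ 10 * (J.lam1 * r ^ 4) ≤ J.d.x ^ 10 * (1 * 256) := by gcongr
            _ = 256 * (1 * (1 * J.d.x ^ 6 * J.d.x ^ 4)) := by ring
            _ ≤ 256 * ((4 ^ k * r ^ (2 * k)) * (J.d.Z ^ 2 * J.d.x ^ 6 * (J.d.U * J.d.Z) ^ 4)) := by gcongr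
            _ = _ := by ring
        nlinarith
      · have : w J.P.n = 0 := by simp only [hw]; rw [if_neg hc]
        rw [this, mul_zero, mul_zero]
        positivity
    have e1 : l8d7sCW S cs Czb k * (1 * skwL J.d * (J.d.Z ^ 2 * J.d.x ^ 6 / (J.d.b ^ 2 * J.lam1)) * (J.d.U * J.d.Z) ^ 4
        * r ^ (2 * k) / r ^ 4) = l8d7sCW S cs Czb k * skwL J.d / J.d.b ^ 2 * T := by
      rw [hT]; field_simp
    rw [e1]
    linarith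

end main

/-! ## PART 2 : the low range -/

/-- the threshold `r ≤ Ct x` of the first order bound -/
noncomputable def l8d7fCt (S : SkpS) : ℝ := 16 * l8d7lCv S / S.cG + 4 * l8d7lCv S

section low

variable {S : SkpS} {J : SkpI Ω m} {cs Czb r : ℝ}

/-- the lower band of 228 at the instance -/
structure L8D7B (J : SkpI Ω m) (b : L8LB) (κ cs μ ρ : ℝ) : Prop where
  low : IvsLow J.P b κ cs μ
  bx : b.x = J.d.x
  bY : b.Y = J.d.U * J.d.Z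
  /-- low variant of the size paths: `J.d.U = Y_c ≥ U = b.U` -/
  bU : b.U ≤ J.d.U
  bl : b.lam1 = J.lam1
  μ40 : μ ≤ J.d.x ^ 40
  bR : b.R ≤ ρ * (J.d.U * J.d.Z)

theorem l8d7f_K1_nonneg {b : L8LB} {κ μ ρ : ℝ} (h : L8D7B J b κ cs μ ρ) : 0 ≤ b.K1 := by
  have h1 := h.low.cS0; have h2 := h.low.cm0; have h3 := h.low.κ0
  have h4 : 0 < b.ck := by rw [h.low.ck]; positivity
  unfold L8LB.K1; positivity

theorem l8d7f_eps2_le (hJ : J.Ok S) {b : L8LB} {κ μ ρ : ℝ} (h : L8D7B J b κ cs μ ρ) (hrY : J.d.U * J.d.Z ≤ r) :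
    b.eps2 r ≤ J.d.x ^ 6 / (J.lam1 * r ^ 2) := by
  obtain ⟨hx, hx1, hl, hs1, hs0, hZ, hxY⟩ := l8d7f_num hJ
  have hr0 : 0 < r := lt_of_lt_of_le hx (hxY.trans hrY)
  have hU : J.d.U ≤ r := by
    have : J.d.U * 1 ≤ J.d.U * J.d.Z := mul_le_mul_of_nonneg_left hZ (hx.le.trans hJ.wh.xU)
    linarith
  unfold L8LB.eps2
  rw [h.bx, h.bY, h.bl, max_eq_left (h.bU.trans hU), div_le_div_iff₀ (by positivity) (by positivity)]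
  have h0 : 0 ≤ J.d.x ^ 6 * J.lam1 * r ^ 2 := by positivity
  calc J.d.x ^ 6 * (J.d.U * J.d.Z) * (J.lam1 * r ^ 2) = J.d.x ^ 6 * J.lam1 * r ^ 2 * (J.d.U * J.d.Z) := by ring
    _ ≤ J.d.x ^ 6 * J.lam1 * r ^ 2 * r := mul_le_mul_of_nonneg_left hrY h0
    _ = _ := by ring

/-- TEX[LL:eq:D7] first line, `j = 0`, low range -/
theorem l8d7f_W0_low (hS : S.Ok) (hJ : J.Ok S) (hX : L8D7X S J cs Czb) {b : L8LB} {κ μ ρ : ℝ} (h : L8D7B J b κ cs μ ρ)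
    (hrY : J.d.U * J.d.Z ≤ r) (hrt : 2 * r ≤ b.vtop) (hr1 : r ≤ 1) :
    J.P.int r (2 * r) (fun k => ∫ ω, J.P.W k ω ∂J.P.μ) ≤ (b.K1 + 16) * r * (l8d7fZ0 J r ^ 2 * J.d.Z ^ 2 * r ^ 3) := by
  obtain ⟨hx, hx1, hl, hs1, hs0, hZ, hxY⟩ := l8d7f_num hJ
  have hr0 : 0 < r := lt_of_lt_of_le hx (hxY.trans hrY)
  have hK := l8d7f_K1_nonneg h
  rw [mul_assoc, l8d7f_rhs_W hJ hr0]
  refine (ivs_d9_W hJ.sp h.low hJ.m0 (by linarith [hS.cA1 1] : (0 : ℝ) ≤ S.K.cA1 1) hX.cs0 hX.sus (hJ.pin 1 le_rfl) hX.dhn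
    (by rw [h.bx]; exact hxY.trans hrY) (by linarith) hrt).trans ?_
  have hZ2 : 1 ≤ J.d.Z ^ 2 := one_le_pow₀ hZ
  have a0 : J.d.x ^ 6 / (J.lam1 * r ^ 2) ≤ J.d.Z ^ 2 * J.d.x ^ 6 / (J.lam1 * r ^ 2) := by
    apply div_le_div_of_nonneg_right _ (by positivity)
    have : 0 < J.d.x ^ 6 := by positivity
    nlinarith
  have a1 : b.K1 * b.eps2 r ≤ b.K1 * (J.d.Z ^ 2 * J.d.x ^ 6 / (J.lam1 * r ^ 2)) :=
    mul_le_mul_of_nonneg_left ((l8d7f_eps2_le hJ h hrY).trans a0) hK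
  have a2 : μ * (4 * J.P.a) ≤ 16 * (J.d.Z ^ 2 * J.d.x ^ 6 / (J.lam1 * r ^ 2)) := by
    have b1 : μ * (4 * J.P.a) ≤ J.d.x ^ 40 * 16 :=
      mul_le_mul h.μ40 (by linarith [hJ.a4]) (by linarith [hJ.a1]) (by positivity)
    have b2 : J.d.x ^ 40 ≤ J.d.x ^ 6 := pow_le_pow_of_le_one hx.le hx1 (by norm_num)
    have b3 : J.d.x ^ 6 ≤ J.d.x ^ 6 / (J.lam1 * r ^ 2) := by
      rw [le_div_iff₀ (by positivity)]
      have : J.lam1 * r ^ 2 ≤ 1 * 1 := mul_le_mul hJ.lam1b (pow_le_one₀ hr0.le hr1) (by positivity) (by norm_num)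
      have h6 : 0 < J.d.x ^ 6 := by positivity
      nlinarith
    linarith
  linarith

/-- TEX[LL:eq:D7] last line, low range -/
theorem l8d7f_D_low (hS : S.Ok) (hJ : J.Ok S) (hX : L8D7X S J cs Czb) {b : L8LB} {κ μ ρ : ℝ} (h : L8D7B J b κ cs μ ρ)
    (hρ : 0 ≤ ρ) (hrY : J.d.U * J.d.Z ≤ r) (hrt : 2 * r ≤ b.vtop) :
    J.P.int r (2 * r) J.P.D2
      ≤ ((9 + 16 * S.K.cA1 1) * Real.sqrt b.K1 * ρ + 1) * r * (l8d7fZ0 J r * J.d.Z * r ^ 2) := by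
  obtain ⟨hx, hx1, hl, hs1, hs0, hZ, hxY⟩ := l8d7f_num hJ
  have hr0 : 0 < r := lt_of_lt_of_le hx (hxY.trans hrY)
  have hc0 : (0 : ℝ) ≤ S.K.cA1 1 := by linarith [hS.cA1 1]
  rw [mul_assoc, l8d7f_rhs_D hJ hr0]
  refine (ivs_d9_D hJ.sp h.low hJ.m0 hc0 hX.cs0 hX.sus (hJ.pin 1 le_rfl) hX.dhn
    (by rw [h.bx]; exact hxY.trans hrY) (by linarith) hrt le_rfl).trans ?_
  have hY0 : 0 < J.d.U * J.d.Z := lt_of_lt_of_le hx hxY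
  have e1 : b.eps r ≤ J.d.x ^ 3 / (Real.sqrt J.lam1 * r) := by
    unfold L8LB.eps
    refine (Real.sqrt_le_sqrt (l8d7f_eps2_le hJ h hrY)).trans (le_of_eq ?_)
    have : J.d.x ^ 6 / (J.lam1 * r ^ 2) = (J.d.x ^ 3 / (Real.sqrt J.lam1 * r)) ^ 2 := by
      rw [div_pow, mul_pow, Real.sq_sqrt hl.le, ← pow_mul]
    rw [this, Real.sqrt_sq (by positivity)]
  have e0 : 0 ≤ b.eps r := Real.sqrt_nonneg _
  have a1 : b.R * b.eps r ≤ ρ * (J.d.Z * J.d.x ^ 3 / Real.sqrt J.lam1) := by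
    calc b.R * b.eps r ≤ ρ * (J.d.U * J.d.Z) * (J.d.x ^ 3 / (Real.sqrt J.lam1 * r)) :=
          mul_le_mul h.bR e1 e0 (by positivity)
      _ = ρ * (J.d.x ^ 3 / Real.sqrt J.lam1) * ((J.d.U * J.d.Z) / r) := by field_simp
      _ ≤ ρ * (J.d.x ^ 3 / Real.sqrt J.lam1) * 1 := by
          apply mul_le_mul_of_nonneg_left _ (by positivity)
          rw [div_le_one hr0]; exact hrY
      _ ≤ _ := by
          rw [mul_one]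
          apply mul_le_mul_of_nonneg_left _ hρ
          apply div_le_div_of_nonneg_right _ hs0.le
          have : 0 < J.d.x ^ 3 := by positivity
          nlinarith
  have a2 : μ ≤ J.d.Z * J.d.x ^ 3 / Real.sqrt J.lam1 := by
    have b2 : J.d.x ^ 40 ≤ J.d.x ^ 3 := pow_le_pow_of_le_one hx.le hx1 (by norm_num)
    rw [le_div_iff₀ hs0]
    have a3 : 0 < J.d.x ^ 3 := by positivity
    have a4 : 0 ≤ μ := (ivk_dv_nonneg hJ.sp 0).trans (h.low.mesh 0 (Nat.zero_le _))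
    nlinarith [h.μ40]
  have a3 : (9 + 16 * S.K.cA1 1) * Real.sqrt b.K1 * (b.R * b.eps r)
      ≤ (9 + 16 * S.K.cA1 1) * Real.sqrt b.K1 * (ρ * (J.d.Z * J.d.x ^ 3 / Real.sqrt J.lam1)) :=
    mul_le_mul_of_nonneg_left a1 (by have := Real.sqrt_nonneg b.K1; positivity)
  nlinarith

/-- TEX[LL:eq:D7] first line, `j = k + 1 ≥ 1`, low range: `e ≤ 2 Cv r` -/
theorem l8d7f_W_low (hS : S.Ok) (hJ : J.Ok S) (k : ℕ) {e : ℕ → ℝ}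
    (he : ∀ i ≤ J.nb, J.d.zlo ≤ J.zc i → J.zc i ≤ J.zhi → e i = skwE J.d J.hh (J.zc i))
    (he' : ∀ i, J.zc i < J.d.zlo → e i = J.d.U * J.d.Z)
    {A0 : ℝ} (hA0 : 0 ≤ A0) (hrY : J.d.U * J.d.Z ≤ r) (hrlo : r ≤ 4 * S.Cv * J.d.zlo)
    (hnb : ∀ i ≤ J.P.n, r ≤ J.P.v i → J.P.v i ≤ 2 * r → i ≤ J.nb ∧ J.zc i ≤ J.zhi)
    (hW0 : J.P.int r (2 * r) (fun k => ∫ ω, J.P.W k ω ∂J.P.μ) ≤ A0 * r * (l8d7fZ0 J r ^ 2 * J.d.Z ^ 2 * r ^ 3)) :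
    J.P.int r (2 * r) (fun i => (∫ ω, J.P.W i ω ∂J.P.μ) * e i ^ (2 * (k + 1)))
      ≤ (A0 * (2 * S.Cv) ^ (2 * (k + 1)) * (4 * S.Cv * S.Cz) ^ 4) * r
        * (l8d7fZ0 J r ^ 2 * J.d.Z ^ 2 * r ^ 3 * (((J.d.U * J.d.Z) ^ 2 / r) ^ 2 * r ^ (2 * k))) := by
  obtain ⟨hx, hx1, hl, hs1, hs0, hZ, hxY⟩ := l8d7f_num hJ
  have hP := hJ.sp
  have hCv := hS.Cv
  have hCz := hS.Cz
  have hY0 : 0 < J.d.U * J.d.Z := lt_of_lt_of_le hx hxY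
  have hr0 : 0 < r := lt_of_lt_of_le hY0 hrY
  have hzlo := hJ.wh.zlo0
  -- the envelope on the band
  have hE : ∀ i ≤ J.P.n, r ≤ J.P.v i → J.P.v i ≤ 2 * r → 0 ≤ e i ∧ e i ≤ 2 * S.Cv * r := by
    intro i hi h1 h2
    rcases lt_or_ge (J.zc i) J.d.zlo with hz | hz
    · rw [he' i hz]
      exact ⟨hY0.le, by nlinarith⟩
    · obtain ⟨hinb, hizhi⟩ := hnb i hi h1 h2
      rw [he i hinb hz hizhi]
      have hz0 : 0 < J.zc i := lt_of_lt_of_le hzlo hz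
      have a1 := hJ.vlo i hinb (by show J.d.zlo / 4 ≤ J.zc i; linarith)
      rw [div_le_iff₀ (by linarith)] at a1
      have a2 : skwE J.d J.hh (J.zc i) ≤ skwR (J.zc i) := min_le_left _ _
      have a3 : 0 ≤ J.hh (J.zc i) := by
        have hmem : J.zc i ∈ Icc (J.d.zlo / 2) J.zbuf := ⟨by linarith, by rw [← hJ.nb]; exact hJ.zmono hinb⟩
        have b1 := hJ.wc.lower (J.zc i) hmem
        have hb := hJ.wh.b0
        have hU : 0 < J.d.U := lt_of_lt_of_le hx hJ.wh.xU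
        have hR := l8d7_R_pos hz0
        have hCW := hS.CW
        have : 0 ≤ min (J.d.b * skwR (J.zc i)) (J.d.U ^ 2 / skwR (J.zc i)) / S.CW := by positivity
        linarith
      refine ⟨le_min (l8d7_R_pos hz0).le (by positivity), a2.trans (a1.trans ?_)⟩
      have : J.P.v i * S.Cv ≤ 2 * r * S.Cv := mul_le_mul_of_nonneg_right h2 (by linarith)
      linarith
  have h1 : J.P.int r (2 * r) (fun i => (∫ ω, J.P.W i ω ∂J.P.μ) * e i ^ (2 * (k + 1)))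
      ≤ J.P.int r (2 * r) (fun i => (2 * S.Cv * r) ^ (2 * (k + 1)) * ∫ ω, J.P.W i ω ∂J.P.μ) := by
    refine ivs_int_mono hP _ _ fun i hi h1 h2 => ?_
    obtain ⟨a1, a2⟩ := hE i hi h1 h2
    rw [mul_comm]
    exact mul_le_mul_of_nonneg_right (pow_le_pow_left₀ a1 a2 _) (ivk_int_W_nonneg hP i)
  have h2 : J.P.int r (2 * r) (fun i => (2 * S.Cv * r) ^ (2 * (k + 1)) * ∫ ω, J.P.W i ω ∂J.P.μ)
      = (2 * S.Cv * r) ^ (2 * (k + 1)) * J.P.int r (2 * r) (fun i => ∫ ω, J.P.W i ω ∂J.P.μ) := by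
    unfold L8P.int
    rw [Finset.mul_sum]
    refine Finset.sum_congr rfl fun i _ => by ring
  rw [h2] at h1
  refine h1.trans ((mul_le_mul_of_nonneg_left hW0 (by positivity)).trans ?_)
  rw [mul_assoc A0, l8d7f_rhs_W hJ hr0, mul_assoc _ r, l8d7f_rhs_Wk hJ hr0]
  have hr4 : r ^ 4 ≤ (4 * S.Cv * S.Cz) ^ 4 * (J.d.U * J.d.Z) ^ 4 := by
    rw [← mul_pow]
    apply pow_le_pow_left₀ hr0.le
    have := hJ.zloY
    calc r ≤ 4 * S.Cv * J.d.zlo := hrlo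
      _ ≤ 4 * S.Cv * (S.Cz * (J.d.U * J.d.Z)) := by gcongr
      _ = _ := by ring
  have e1 : (2 * S.Cv * r) ^ (2 * (k + 1)) * (A0 * (J.d.Z ^ 2 * J.d.x ^ 6 / (J.lam1 * r ^ 2)))
      = A0 * (2 * S.Cv) ^ (2 * (k + 1)) * (J.d.Z ^ 2 * J.d.x ^ 6 * r ^ (2 * k) / (J.lam1 * r ^ 4)) * r ^ 4 := by
    have : (2 * S.Cv * r) ^ (2 * (k + 1)) = (2 * S.Cv) ^ (2 * (k + 1)) * (r ^ (2 * k) * r ^ 2) := by
      rw [mul_pow, ← pow_add]; rfl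
    rw [this]
    field_simp
  have e2 : A0 * (2 * S.Cv) ^ (2 * (k + 1)) * (4 * S.Cv * S.Cz) ^ 4
        * (J.d.Z ^ 2 * J.d.x ^ 6 * (J.d.U * J.d.Z) ^ 4 * r ^ (2 * k) / (J.lam1 * r ^ 4))
      = A0 * (2 * S.Cv) ^ (2 * (k + 1)) * (J.d.Z ^ 2 * J.d.x ^ 6 * r ^ (2 * k) / (J.lam1 * r ^ 4))
        * ((4 * S.Cv * S.Cz) ^ 4 * (J.d.U * J.d.Z) ^ 4) := by
    field_simp
  rw [e1, e2]
  exact mul_le_mul_of_nonneg_left hr4 (by positivity)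

/-- smallness of `x` for the low range -/
structure L8D7Sm (S : SkpS) (J : SkpI Ω m) : Prop where
  s1 : J.d.x * l8d7lCs S ≤ 1
  s2 : J.d.x ≤ 1 / (4 * l8d7lCv S * l8d7lCW S (l8d7lTh S))
  s3 : l8d7lTh S ^ 3 * J.d.x ^ (S.cg / 2) ≤ 1
  /-- the low range lies in the regular region -/
  s4 : 20 * S.Cv * J.d.zlo < S.cG * S.zreg

theorem l8d7f_Th_one (hS : S.Ok) : 1 ≤ l8d7lTh S := by
  obtain ⟨v1, _, _⟩ := l8d7l_Cv hS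
  have hcG := hS.cG
  have hCv' : 1 ≤ l8d7lCv S := hS.Cv.trans v1
  unfold l8d7lTh
  have : 0 ≤ 20 * l8d7lCv S / S.cG := by positivity
  have := hS.Cz
  nlinarith

theorem l8d7f_CC_nonneg (hS : S.Ok) (hcs : 0 < cs) : 0 ≤ l8d7lCC S cs := by
  have hS' := l8d7l_S_ok hS (l8d7f_Th_one hS) (zt := 1) one_pos le_rfl
  show 0 ≤ l8d7sCC (l8d7lS S (l8d7lTh S) 1) cs 1
  have k1 := l8d7s_K1_pos hS' hcs
  have k2 := l8d7s_K2_pos hS'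
  have k3 := l8d7s_KA_pos hS'
  have k4 := l8d7s_Mb_pos hS' (le_refl (1 : ℝ))
  have k5 := l8d7s_Lam_one (l8d7lS S (l8d7lTh S) 1)
  have k6 := hS'.CW
  have k7 := hS'.Cv
  have k8 := hS'.c.Cf
  have k9 := hS'.Cq
  unfold l8d7sCC
  positivity

theorem l8d7f_Ct (hS : S.Ok) : 4 ≤ l8d7fCt S ∧ 4 * l8d7lCv S ≤ l8d7fCt S ∧ 16 * l8d7lCv S / S.cG ≤ l8d7fCt S := by
  obtain ⟨v1, _, _⟩ := l8d7l_Cv hS
  have hcG := hS.cG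
  have hCv' : 1 ≤ l8d7lCv S := hS.Cv.trans v1
  have : 0 ≤ 16 * l8d7lCv S / S.cG := by positivity
  unfold l8d7fCt
  refine ⟨by linarith, by linarith, by linarith⟩

/-- the hypotheses of IvD7L above `Ct x` -/
theorem l8d7f_R_of (hS : S.Ok) (hJ : J.Ok S) (hX : L8D7X S J cs Czb)
    (hD3x : ∀ k₁ k₂, k₁ < k₂ → k₂ ≤ J.nb → J.d.x < J.P.v k₁ - J.P.dv k₁ →
      S.cD3 * J.lam1 * skwR (J.z k₁) ^ 2 * (J.z k₂ - J.z k₁) ≤ J.P.hlen k₁ k₂)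
    (hsm : L8D7Sm S J) (hrY : J.d.U * J.d.Z ≤ r) (hrlo : r ≤ 4 * S.Cv * J.d.zlo) (hr4 : r ≤ 4)
    (hc : l8d7fCt S * J.d.x < r) : L8D7R S J r := by
  obtain ⟨hx, hx1, hl, hs1, hs0, hZ, hxY⟩ := l8d7f_num hJ
  obtain ⟨v1, v2, v3⟩ := l8d7l_Cv hS
  obtain ⟨t1, t2, t3⟩ := l8d7f_Ct hS
  have hcG := hS.cG
  have hCv' : 1 ≤ l8d7lCv S := hS.Cv.trans v1
  have hr0 : 0 < r := lt_of_lt_of_le hx (hxY.trans hrY)
  have hxr : J.d.x < r := by nlinarith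
  have hreg : 5 * r < S.cG * S.zreg := by linarith [hsm.s4]
  exact
    { rY := hrY
      rx := by nlinarith
      rlo := hrlo
      r4 := hr4
      reg := hreg
      D3 := by
        intro k₁ k₂ h12 hk2 hz
        refine hD3x k₁ k₂ h12 hk2 ?_
        have hk1 : k₁ ≤ J.nb := h12.le.trans hk2
        rw [← l8d7s_v_left hS hJ hX (hk1.trans hJ.nbn), l8d7i_zc_le hk1]
        have hz' : r / (16 * l8d7lCv S) ≤ J.zc k₁ := hz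
        rcases le_or_gt (J.zc k₁) S.zreg with hzr | hzr
        · refine lt_of_lt_of_le ?_ (l8d7l_vz_ge hJ hX (le_trans (by positivity) hz') hzr)
          have c1 : 16 * l8d7lCv S / S.cG * J.d.x < r :=
            lt_of_le_of_lt (mul_le_mul_of_nonneg_right t3 hx.le) hc
          have c2 : J.d.x < S.cG * (r / (16 * l8d7lCv S)) := by
            rw [div_mul_eq_mul_div, div_lt_iff₀ hcG] at c1
            rw [mul_div_assoc', lt_div_iff₀ (by positivity)]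
            linarith
          exact lt_of_lt_of_le c2 (mul_le_mul_of_nonneg_left hz' hcG.le)
        · have c1 := l8d7l_vz_ge hJ hX hS.zreg.le le_rfl
          have c2 := l8d7i_vz_mono (S := S) hJ hX hzr.le
          linarith
      small := hsm.s2
      smallg := hsm.s3 }

/-- the term of the last cut in the second line -/
theorem l8d7f_last_C (hJ : J.Ok S) (hdvn : J.P.dv J.P.n ≤ J.d.x ^ 40) (hr0 : 0 < r) (hr4 : r ≤ 4) :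
    J.P.dv J.P.n * ((∫ ω, J.P.xCx J.P.n ω ∂J.P.μ) + ∫ ω, J.P.trC2 J.P.n ω ∂J.P.μ)
      ≤ 64 * (J.d.Z ^ 2 * J.d.x ^ 6 / (J.lam1 * r ^ 3)) := by
  obtain ⟨hx, hx1, hl, hs1, hs0, hZ, hxY⟩ := l8d7f_num hJ
  have hP := hJ.sp
  have hZ2 : 1 ≤ J.d.Z ^ 2 := one_le_pow₀ hZ
  have a0 : 0 ≤ (∫ ω, J.P.xCx J.P.n ω ∂J.P.μ) + ∫ ω, J.P.trC2 J.P.n ω ∂J.P.μ :=
    add_nonneg (integral_nonneg (ivk_xCx_nonneg hP _)) (integral_nonneg (ivk_trC2_nonneg _))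
  have a1 : J.P.dv J.P.n * ((∫ ω, J.P.xCx J.P.n ω ∂J.P.μ) + ∫ ω, J.P.trC2 J.P.n ω ∂J.P.μ) ≤ J.d.x ^ 40 * 1 :=
    mul_le_mul hdvn ((l8d7l_C_le_D2 hP _).trans (ivs_D2_le_one hP _)) a0 (by positivity)
  have a2 : J.d.x ^ 40 ≤ J.d.x ^ 6 := pow_le_pow_of_le_one hx.le hx1 (by norm_num)
  have a3 : J.d.x ^ 6 ≤ 64 * (J.d.Z ^ 2 * J.d.x ^ 6 / (J.lam1 * r ^ 3)) := by
    rw [mul_div_assoc', le_div_iff₀ (by positivity)]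
    have b0 : r ^ 3 ≤ 4 ^ 3 := pow_le_pow_left₀ hr0.le hr4 3
    have b1 : J.lam1 * r ^ 3 ≤ 1 * 64 := mul_le_mul hJ.lam1b (by linarith) (by positivity) (by norm_num)
    have b3 : 0 < J.d.x ^ 6 := by positivity
    nlinarith
  linarith

/-- first order: the second line from the last one, `r ≤ Ct x` -/
theorem l8d7f_C_first (hJ : J.Ok S) {A7 Ct : ℝ} (hA7 : 0 ≤ A7) (hCt : 0 ≤ Ct) (hr0 : 0 < r) (hc : r ≤ Ct * J.d.x)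
    (h7 : J.P.int r (2 * r) J.P.D2 ≤ A7 * (J.d.Z * J.d.x ^ 3 / Real.sqrt J.lam1)) :
    J.P.int r (2 * r) (fun k => (∫ ω, J.P.xCx k ω ∂J.P.μ) + ∫ ω, J.P.trC2 k ω ∂J.P.μ)
      ≤ A7 * Ct ^ 3 * (J.d.Z ^ 2 * J.d.x ^ 6 / (J.lam1 * r ^ 3)) := by
  obtain ⟨hx, hx1, hl, hs1, hs0, hZ, hxY⟩ := l8d7f_num hJ
  have hP := hJ.sp
  have a1 : J.P.int r (2 * r) (fun k => (∫ ω, J.P.xCx k ω ∂J.P.μ) + ∫ ω, J.P.trC2 k ω ∂J.P.μ) ≤ J.P.int r (2 * r) J.P.D2 :=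
    ivs_int_mono hP _ _ fun k _ _ _ => l8d7l_C_le_D2 hP k
  have a2 : J.d.Z * J.d.x ^ 3 / Real.sqrt J.lam1 ≤ Ct ^ 3 * (J.d.Z ^ 2 * J.d.x ^ 6 / (J.lam1 * r ^ 3)) := by
    rw [mul_div_assoc', div_le_div_iff₀ hs0 (by positivity)]
    have b1 : J.lam1 ≤ Real.sqrt J.lam1 := by
      have : Real.sqrt J.lam1 * Real.sqrt J.lam1 = J.lam1 := Real.mul_self_sqrt hl.le
      nlinarith
    have b2 : r ^ 3 ≤ (Ct * J.d.x) ^ 3 := pow_le_pow_left₀ hr0.le hc 3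
    have b3 : J.d.Z ≤ J.d.Z ^ 2 := by nlinarith
    calc J.d.Z * J.d.x ^ 3 * (J.lam1 * r ^ 3)
        ≤ J.d.Z ^ 2 * J.d.x ^ 3 * (Real.sqrt J.lam1 * (Ct * J.d.x) ^ 3) := by gcongr
      _ = _ := by ring
  calc _ ≤ _ := a1
    _ ≤ _ := h7
    _ ≤ A7 * (Ct ^ 3 * (J.d.Z ^ 2 * J.d.x ^ 6 / (J.lam1 * r ^ 3))) := mul_le_mul_of_nonneg_left a2 hA7
    _ = _ := by ring

/-- TEX[LL:eq:D7] second line, low range -/
theorem l8d7f_C_low (hS : S.Ok) (hJ : J.Ok S) (hX : L8D7X S J cs Czb) (hdvn : J.P.dv J.P.n ≤ J.d.x ^ 40)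
    (hD3x : ∀ k₁ k₂, k₁ < k₂ → k₂ ≤ J.nb → J.d.x < J.P.v k₁ - J.P.dv k₁ →
      S.cD3 * J.lam1 * skwR (J.z k₁) ^ 2 * (J.z k₂ - J.z k₁) ≤ J.P.hlen k₁ k₂)
    {n' : ℕ} (hn1 : 1 ≤ J.d.x ^ 6 * 2 ^ n') (hn2 : J.d.x ^ 6 * 2 ^ n' ≤ 2) (hsm : L8D7Sm S J)
    {A7 : ℝ} (hA7 : 0 ≤ A7) (hrY : J.d.U * J.d.Z ≤ r) (hrlo : r ≤ 4 * S.Cv * J.d.zlo) (hr4 : r ≤ 4)
    (h7 : J.P.int r (2 * r) J.P.D2 ≤ A7 * r * (l8d7fZ0 J r * J.d.Z * r ^ 2)) :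
    J.P.int r (2 * r) (fun k => (∫ ω, J.P.xCx k ω ∂J.P.μ) + ∫ ω, J.P.trC2 k ω ∂J.P.μ)
      ≤ (A7 * l8d7fCt S ^ 3 + l8d7lCC S cs * (((n' : ℝ) + 2) ^ 2 * (1 + J.Lg ^ 4)) / J.d.b ^ 2 + 64) * r
        * (l8d7fZ0 J r ^ 2 * J.d.Z ^ 2 * r ^ 2) := by
  obtain ⟨hx, hx1, hl, hs1, hs0, hZ, hxY⟩ := l8d7f_num hJ
  obtain ⟨t1, _, _⟩ := l8d7f_Ct hS
  have hb := hJ.wh.b0
  have hr0 : 0 < r := lt_of_lt_of_le hx (hxY.trans hrY)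
  have hZ2 : 1 ≤ J.d.Z ^ 2 := one_le_pow₀ hZ
  have hLg := hJ.Lg0
  have hCC := l8d7f_CC_nonneg (cs := cs) hS hX.cs0
  rw [mul_assoc, l8d7f_rhs_C hJ hr0]
  rw [mul_assoc, l8d7f_rhs_D hJ hr0] at h7
  obtain ⟨T, hT⟩ : ∃ T : ℝ, T = J.d.Z ^ 2 * J.d.x ^ 6 / (J.lam1 * r ^ 3) := ⟨_, rfl⟩
  have hT0 : 0 ≤ T := by rw [hT]; positivity
  obtain ⟨K, hK⟩ : ∃ K : ℝ, K = l8d7lCC S cs * (((n' : ℝ) + 2) ^ 2 * (1 + J.Lg ^ 4)) / J.d.b ^ 2 := ⟨_, rfl⟩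
  have hK0 : 0 ≤ K := by rw [hK]; positivity
  have hA : 0 ≤ A7 * l8d7fCt S ^ 3 := by positivity
  rw [← hT, ← hK]
  rcases le_or_gt r (l8d7fCt S * J.d.x) with hc | hc
  · have := l8d7f_C_first hJ hA7 (by linarith) hr0 hc h7
    rw [← hT] at this
    nlinarith
  · have hR := l8d7f_R_of hS hJ hX hD3x hsm hrY hrlo hr4 hc
    refine (l8d7l_C hS hJ hX hR hn1 hn2 hsm.s1).trans ?_
    have h1 := l8d7f_last_C hJ hdvn hr0 hr4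
    rw [← hT] at h1
    have h2 : l8d7lCC S cs * (((n' : ℝ) + 2) ^ 2 * (1 + J.Lg ^ 4) * (J.d.x ^ 6 / (J.d.b ^ 2 * J.lam1 * r ^ 3))) ≤ K * T := by
      have e : l8d7lCC S cs * (((n' : ℝ) + 2) ^ 2 * (1 + J.Lg ^ 4) * (J.d.x ^ 6 / (J.d.b ^ 2 * J.lam1 * r ^ 3)))
          = K * (J.d.x ^ 6 / (J.lam1 * r ^ 3)) := by
        rw [hK]; field_simp
      rw [e]
      apply mul_le_mul_of_nonneg_left _ hK0
      rw [hT]
      apply div_le_div_of_nonneg_right _ (by positivity)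
      have : 0 < J.d.x ^ 6 := by positivity
      nlinarith
    have h3 : 0 ≤ A7 * l8d7fCt S ^ 3 * T := mul_nonneg hA hT0
    linarith

end low

end Claimed.Agent.R286
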