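import Mathlib

/-!
# Row 286 (S0533), folder L08, file IvCell : STEP FUNCTIONS ON CONSECUTIVE CELLS      (owner helper189; prefix `IvCells`, `ivc_`)

Deterministic, Mathlib only.  A finite family of consecutive cells `(lft k, b k]`, `k ≤ n`, of the line (`lft 0 = b0`, `lft (k+1) = b k`);
`idx x` = the cell which contains `x` (`n + 1` to the right of all cells, `0` to the left).
A sequence `f : ℕ → ℝ` (statistics of the cuts of a finite hierarchy) is embedded as the step function `x ↦ f (idx x)`.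
* `step_integral` : `∫_α^β f (idx x) g x dx = ∑ k, f k ∫_{cell k ∩ [α,β]} g`;
* `src2`          : the summed source inequality (LL (A1) line 2 on a grid) in integral form, with the mesh correction.
Used by `L08/IvP.lean` for the mass coordinate (`b = P.v`) and for a cut coordinate (`b k = zc (k+1)`).
-/

set_option autoImplicit false
open MeasureTheory Set
open scoped BigOperators

namespace Claimed.Agent.R286

/-- projection of `x` on `[α, β]` -/
def ivCl (α β x : ℝ) : ℝ := max α (min x β)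

theorem ivc_cl_mono (α β : ℝ) : Monotone (ivCl α β) := fun _ _ h => max_le_max le_rfl (min_le_min h le_rfl)

theorem ivc_cl_ge (α β x : ℝ) : α ≤ ivCl α β x := le_max_left _ _

theorem ivc_cl_le {α β : ℝ} (h : α ≤ β) (x : ℝ) : ivCl α β x ≤ β := max_le h (min_le_right _ _)

theorem ivc_cl_of_le {α β x : ℝ} (h : x ≤ α) (hαβ : α ≤ β) : ivCl α β x = α := by
  unfold ivCl; rw [min_eq_left (h.trans hαβ), max_eq_left h]

theorem ivc_cl_of_ge {α β x : ℝ} (h : β ≤ x) (hαβ : α ≤ β) : ivCl α β x = β := by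
  unfold ivCl; rw [min_eq_right h, max_eq_right hαβ]

/-- bounded measurable functions are interval integrable -/
theorem ivc_ii {F : ℝ → ℝ} (hm : Measurable F) {C : ℝ} (hb : ∀ x, |F x| ≤ C) (a b : ℝ) :
    IntervalIntegrable F volume a b := by
  refine (intervalIntegrable_const (c := C)).mono_fun' hm.aestronglyMeasurable ?_
  filter_upwards with v
  rw [Real.norm_eq_abs]; exact hb v

/-- consecutive cells -/
structure IvCells where
  n : ℕ
  b0 : ℝ
  b : ℕ → ℝ

namespace IvCells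

/-- validity -/
structure Ok (c : IvCells) : Prop where
  mono : Monotone c.b
  b0_le : c.b0 ≤ c.b 0
  top : ∀ k, c.n ≤ k → c.b k = c.b c.n

variable (c : IvCells)

/-- left end of the cell `k` -/
def lft (k : ℕ) : ℝ := if k = 0 then c.b0 else c.b (k - 1)

open Classical in
/-- the cell which contains `x` -/
noncomputable def idx (x : ℝ) : ℕ := if h : ∃ k, x ≤ c.b k then Nat.find h else c.n + 1

variable {c}

theorem lft_zero : c.lft 0 = c.b0 := by simp [lft]

theorem lft_succ (k : ℕ) : c.lft (k + 1) = c.b k := by simp [lft]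

theorem lft_le (hc : c.Ok) (k : ℕ) : c.lft k ≤ c.b k := by
  cases k with
  | zero => rw [lft_zero]; exact hc.b0_le
  | succ j => rw [lft_succ]; exact hc.mono (Nat.le_succ j)

theorem b0_le_lft (hc : c.Ok) (k : ℕ) : c.b0 ≤ c.lft k := by
  cases k with
  | zero => rw [lft_zero]
  | succ j => rw [lft_succ]; exact hc.b0_le.trans (hc.mono (Nat.zero_le j))

theorem b_le_top (hc : c.Ok) (k : ℕ) : c.b k ≤ c.b c.n := by
  rw [← hc.top (max k c.n) (le_max_right _ _)]
  exact hc.mono (le_max_left _ _)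

theorem idx_le {x : ℝ} {k : ℕ} (h : x ≤ c.b k) : c.idx x ≤ k := by
  classical
  unfold idx; rw [dif_pos ⟨k, h⟩]; exact Nat.find_min' _ h

theorem le_b_idx {x : ℝ} {k : ℕ} (h : x ≤ c.b k) : x ≤ c.b (c.idx x) := by
  classical
  unfold idx; rw [dif_pos ⟨k, h⟩]; exact Nat.find_spec (⟨k, h⟩ : ∃ k, x ≤ c.b k)

theorem idx_le_succ (hc : c.Ok) (x : ℝ) : c.idx x ≤ c.n + 1 := by
  by_cases h : ∃ k, x ≤ c.b k
  · obtain ⟨k, hk⟩ := h
    exact (idx_le (hk.trans (b_le_top hc k))).trans (Nat.le_succ _)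
  · unfold idx; rw [dif_neg h]

theorem b_lt_of_lt_idx {x : ℝ} {k : ℕ} (h : k < c.idx x) : c.b k < x := by
  by_contra h'
  exact absurd (idx_le (not_lt.1 h')) (not_le.2 h)

theorem lt_idx (hc : c.Ok) {x : ℝ} {k : ℕ} (hk : k ≤ c.n) (h : c.b k < x) : k < c.idx x := by
  by_contra h'
  have h' := not_lt.1 h'
  by_cases hex : ∃ j, x ≤ c.b j
  · obtain ⟨j, hj⟩ := hex
    have := (le_b_idx hj).trans (hc.mono h')
    linarith
  · unfold idx at h'; rw [dif_neg hex] at h'; omega

theorem idx_mono (hc : c.Ok) : Monotone c.idx := by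
  intro x y hxy
  by_cases hy : ∃ k, y ≤ c.b k
  · obtain ⟨k, hk⟩ := hy
    exact idx_le (hxy.trans (le_b_idx hk))
  · have : c.idx y = c.n + 1 := by unfold idx; rw [dif_neg hy]
    rw [this]; exact idx_le_succ hc x

theorem lft_idx_lt {x : ℝ} (hx : c.b0 < x) : c.lft (c.idx x) < x := by
  rcases Nat.eq_zero_or_pos (c.idx x) with h | h
  · rw [h, lft_zero]; exact hx
  · obtain ⟨j, hj⟩ := Nat.exists_eq_succ_of_ne_zero (Nat.pos_iff_ne_zero.1 h)
    rw [hj, Nat.succ_eq_add_one, lft_succ]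
    exact b_lt_of_lt_idx (by omega)

theorem lft_idx_le {x : ℝ} (hx : c.b0 ≤ x) : c.lft (c.idx x) ≤ x := by
  rcases hx.eq_or_lt with h | h
  · rcases Nat.eq_zero_or_pos (c.idx x) with h0 | h0
    · rw [h0, lft_zero]; exact hx
    · obtain ⟨j, hj⟩ := Nat.exists_eq_succ_of_ne_zero (Nat.pos_iff_ne_zero.1 h0)
      rw [hj, Nat.succ_eq_add_one, lft_succ]
      exact (b_lt_of_lt_idx (by omega)).le
  · exact (lft_idx_lt h).le

theorem idx_eq (hc : c.Ok) {x : ℝ} {k : ℕ} (h1 : c.lft k < x) (h2 : x ≤ c.b k) : c.idx x = k := by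
  refine le_antisymm (idx_le h2) ?_
  by_contra h
  have h := not_le.1 h
  obtain ⟨j, rfl⟩ : ∃ j, k = j + 1 := ⟨k - 1, by omega⟩
  rw [lft_succ] at h1
  have := (le_b_idx h2).trans (hc.mono (show c.idx x ≤ j by omega))
  linarith

theorem idx_meas (hc : c.Ok) : Measurable c.idx := (idx_mono hc).measurable

theorem step_meas (hc : c.Ok) (f : ℕ → ℝ) : Measurable fun x => f (c.idx x) :=
  (measurable_from_nat (f := f)).comp (idx_meas hc)

theorem step_abs_le (hc : c.Ok) (f : ℕ → ℝ) (x : ℝ) :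
    |f (c.idx x)| ≤ ∑ k ∈ Finset.range (c.n + 2), |f k| :=
  Finset.single_le_sum (f := fun k => |f k|) (fun _ _ => abs_nonneg _)
    (Finset.mem_range.2 (Nat.lt_succ_of_le (idx_le_succ hc x)))

theorem step_ii (hc : c.Ok) (f : ℕ → ℝ) (a b : ℝ) : IntervalIntegrable (fun x => f (c.idx x)) volume a b :=
  ivc_ii (step_meas hc f) (step_abs_le hc f) a b

theorem step_mul_ii (hc : c.Ok) (f : ℕ → ℝ) {g : ℝ → ℝ} (hg : Measurable g) {C : ℝ} (hC : ∀ x, |g x| ≤ C) (a b : ℝ) :
    IntervalIntegrable (fun x => f (c.idx x) * g x) volume a b := by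
  refine ivc_ii ((step_meas hc f).mul hg) (C := (∑ k ∈ Finset.range (c.n + 2), |f k|) * C) (fun x => ?_) a b
  show |f (c.idx x) * g x| ≤ _
  rw [abs_mul]
  exact mul_le_mul (step_abs_le hc f x) (hC x) (abs_nonneg _)
    (Finset.sum_nonneg fun _ _ => abs_nonneg _)

/-- a point of the trace of the cell `k` on `[α, β]` lies in the cell `k` -/
theorem mem_cell {α β x : ℝ} {k : ℕ} (h1 : ivCl α β (c.lft k) < x) (h2 : x ≤ ivCl α β (c.b k)) :
    c.lft k < x ∧ x ≤ c.b k := by
  unfold ivCl at h1 h2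
  have hα : α < x := lt_of_le_of_lt (le_max_left _ _) h1
  have h3 : x ≤ min (c.b k) β := by
    rcases le_max_iff.1 h2 with h | h
    · linarith
    · exact h
  have h4 : min (c.lft k) β < x := lt_of_le_of_lt (le_max_right _ _) h1
  refine ⟨?_, h3.trans (min_le_left _ _)⟩
  rcases min_lt_iff.1 h4 with h | h
  · exact h
  · have := h3.trans (min_le_right _ _); linarith

/-- **integral of a step function against a weight** -/
theorem step_integral (hc : c.Ok) (f : ℕ → ℝ) {g : ℝ → ℝ} (hg : Measurable g) {C : ℝ} (hC : ∀ x, |g x| ≤ C)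
    {α β : ℝ} (h0 : c.b0 ≤ α) (hαβ : α ≤ β) (h1 : β ≤ c.b c.n) :
    ∫ x in α..β, f (c.idx x) * g x
      = ∑ k ∈ Finset.range (c.n + 1), f k * ∫ x in ivCl α β (c.lft k)..ivCl α β (c.b k), g x := by
  have key := intervalIntegral.sum_integral_adjacent_intervals (μ := volume)
    (f := fun x => f (c.idx x) * g x) (a := fun k => ivCl α β (c.lft k)) (n := c.n + 1)
    (fun k _ => step_mul_ii hc f hg hC _ _)
  have e0 : ivCl α β (c.lft 0) = α := by rw [lft_zero]; exact ivc_cl_of_le h0 hαβ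
  have e1 : ivCl α β (c.lft (c.n + 1)) = β := by rw [lft_succ]; exact ivc_cl_of_ge h1 hαβ
  simp only [e0, e1] at key
  rw [← key]
  refine Finset.sum_congr rfl fun k _ => ?_
  rw [lft_succ]
  have hle : ivCl α β (c.lft k) ≤ ivCl α β (c.b k) := ivc_cl_mono α β (lft_le hc k)
  rw [intervalIntegral.integral_of_le hle, intervalIntegral.integral_of_le hle, ← integral_const_mul]
  refine setIntegral_congr_fun measurableSet_Ioc fun x hx => ?_
  have := mem_cell hx.1 hx.2
  show f (c.idx x) * g x = f k * g x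
  rw [idx_eq hc this.1 this.2]

/-- length of the trace of the cell `k` on `[α, β]` -/
def len (c : IvCells) (α β : ℝ) (k : ℕ) : ℝ := ivCl α β (c.b k) - ivCl α β (c.lft k)

theorem len_nonneg (hc : c.Ok) (α β : ℝ) (k : ℕ) : 0 ≤ c.len α β k :=
  sub_nonneg.2 (ivc_cl_mono α β (lft_le hc k))

/-- integral of a step function -/
theorem step_integral_one (hc : c.Ok) (f : ℕ → ℝ) {α β : ℝ} (h0 : c.b0 ≤ α) (hαβ : α ≤ β) (h1 : β ≤ c.b c.n) :
    ∫ x in α..β, f (c.idx x) = ∑ k ∈ Finset.range (c.n + 1), c.len α β k * f k := by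
  have h := step_integral hc f (g := fun _ => 1) measurable_const (C := 1) (fun _ => by simp) h0 hαβ h1
  simp only [mul_one, intervalIntegral.integral_const, smul_eq_mul] at h
  rw [h]
  exact Finset.sum_congr rfl fun k _ => by unfold len; ring

theorem sum_len (hc : c.Ok) {α β : ℝ} (h0 : c.b0 ≤ α) (hαβ : α ≤ β) (h1 : β ≤ c.b c.n) :
    ∑ k ∈ Finset.range (c.n + 1), c.len α β k = β - α := by
  have h := step_integral_one hc (fun _ => 1) h0 hαβ h1
  simpa using h.symm

/-- the trace is not longer than the cell -/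
theorem len_le (hc : c.Ok) (α β : ℝ) (k : ℕ) : c.len α β k ≤ c.b k - c.lft k := by
  have h := lft_le hc k
  unfold len ivCl
  rcases le_total (c.b k) β with h1 | h1 <;> rcases le_total (c.lft k) β with h2 | h2 <;>
    rcases le_total α (c.b k) with h3 | h3 <;> rcases le_total α (c.lft k) with h4 | h4 <;>
    rcases le_total α β with h5 | h5 <;>
    simp [*] <;> linarith

/-- cells to the left of `α` have an empty trace -/
theorem len_eq_zero_of_lt {α β : ℝ} (hαβ : α ≤ β) {k : ℕ} (h : k < c.idx α) (hc : c.Ok) : c.len α β k = 0 := by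
  have h1 := (b_lt_of_lt_idx h).le
  unfold len
  rw [ivc_cl_of_le h1 hαβ, ivc_cl_of_le ((lft_le hc k).trans h1) hαβ, sub_self]

/-- cells to the right of `β` have an empty trace -/
theorem len_eq_zero_of_gt (hc : c.Ok) {α β : ℝ} (hαβ : α ≤ β) (h1 : β ≤ c.b c.n) {k : ℕ} (h : c.idx β < k) :
    c.len α β k = 0 := by
  obtain ⟨j, rfl⟩ : ∃ j, k = j + 1 := ⟨k - 1, by omega⟩
  have h2 : β ≤ c.b j := (le_b_idx h1).trans (hc.mono (by omega))
  unfold len
  rw [lft_succ, ivc_cl_of_ge h2 hαβ, ivc_cl_of_ge (h2.trans (hc.mono (Nat.le_succ j))) hαβ, sub_self]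

/-- a cell with a nonempty trace on `[α, β]` -/
theorem of_len_pos (hc : c.Ok) {α β : ℝ} (hαβ : α ≤ β) (h1 : β ≤ c.b c.n) {k : ℕ} (h : 0 < c.len α β k) :
    c.idx α ≤ k ∧ k ≤ c.idx β ∧ c.lft k ≤ ivCl α β (c.lft k) ∧ ivCl α β (c.b k) ≤ c.b k := by
  refine ⟨?_, ?_, ?_, ?_⟩
  · by_contra h'
    rw [len_eq_zero_of_lt hαβ (not_le.1 h') hc] at h
    exact lt_irrefl _ h
  · by_contra h'
    rw [len_eq_zero_of_gt hc hαβ h1 (not_le.1 h')] at h
    exact lt_irrefl _ h
  · have h2 : ivCl α β (c.lft k) < ivCl α β (c.b k) := sub_pos.1 h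
    by_contra h3
    have h3 := not_le.1 h3
    have h4 : β < c.lft k := by
      by_contra h5
      have h5 := not_lt.1 h5
      have : c.lft k ≤ ivCl α β (c.lft k) := by
        unfold ivCl; rw [min_eq_left h5]; exact le_max_right _ _
      linarith
    have h6 : ivCl α β (c.lft k) = β := ivc_cl_of_ge h4.le hαβ
    have h7 := ivc_cl_le hαβ (c.b k)
    linarith
  · have h2 : ivCl α β (c.lft k) < ivCl α β (c.b k) := sub_pos.1 h
    exact (mem_cell h2 le_rfl).2

/-- **the summed source inequality in integral form** (LL (A1), line 2, on a grid).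
`Sq, Tq, dq` = the sequences `S_k`, `E tr H_k²`, `Δh_k`; `hk` = the clock which is sampled; `μ` = mesh. -/
theorem src2 (hc : c.Ok) {Sq Tq dq : ℕ → ℝ} {K μ : ℝ} {hk : ℝ → ℝ} (hS : Monotone Sq) (hT : ∀ k, 0 ≤ Tq k)
    (hK : 0 ≤ K) (hsus : ∀ k ≤ c.n, K * dq k * Tq k ≤ Sq (k + 1) - Sq k)
    (hmono : MonotoneOn hk (Icc c.b0 (c.b c.n)))
    (hdq : ∀ k ≤ c.n, hk (c.b k) - hk (c.lft k) ≤ dq k)
    (hmesh : ∀ k ≤ c.n, c.b k - c.lft k ≤ μ)
    {z1 z2 κ : ℝ} (h0 : c.b0 ≤ z1) (h12 : z1 ≤ z2) (h2 : z2 ≤ c.b c.n)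
    (hsl : ∀ u1 u2, z1 ≤ u1 → u1 ≤ u2 → u2 ≤ z2 → κ * (u2 - u1) ≤ hk u2 - hk u1) :
    K * κ * ∫ z in z1..z2, Tq (c.idx z) ≤ Sq (c.idx (z2 + μ)) - Sq (c.idx z1) := by
  have hμ : 0 ≤ μ := (sub_nonneg.2 (lft_le hc 0)).trans (hmesh 0 (Nat.zero_le _))
  rcases h12.eq_or_lt with heq | hlt
  · rw [heq, intervalIntegral.integral_same, mul_zero]
    exact sub_nonneg.2 (hS (idx_mono hc (by linarith)))
  set k1 := c.idx z1 with hk1
  set k2 := c.idx z2 with hk2
  have hk12 : k1 ≤ k2 := idx_mono hc h12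
  have hk2n : k2 ≤ c.n := idx_le h2
  rw [step_integral_one hc Tq h0 h12 h2, Finset.mul_sum]
  set φ : ℕ → ℝ := fun k => Sq (min (max k k1) (k2 + 1)) with hφ
  have hterm : ∀ k ∈ Finset.range (c.n + 1), K * κ * (c.len z1 z2 k * Tq k) ≤ φ (k + 1) - φ k := by
    intro k hkr
    have hkn : k ≤ c.n := Nat.lt_succ_iff.1 (Finset.mem_range.1 hkr)
    have hφ0 : 0 ≤ φ (k + 1) - φ k :=
      sub_nonneg.2 (hS (min_le_min (max_le_max (Nat.le_succ k) le_rfl) le_rfl))
    rcases (len_nonneg hc z1 z2 k).eq_or_lt with hz | hpos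
    · rw [← hz]; simpa using hφ0
    · obtain ⟨a1, a2, a3, a4⟩ := of_len_pos hc h12 h2 hpos
      have e1 : φ (k + 1) = Sq (k + 1) := by
        simp only [hφ]; congr 1
        rw [max_eq_left (by omega), min_eq_left (by omega)]
      have e2 : φ k = Sq k := by
        simp only [hφ]; congr 1
        rw [max_eq_left a1, min_eq_left (by omega)]
      rw [e1, e2]
      have hA1 := ivc_cl_ge z1 z2 (c.lft k)
      have hB2 := ivc_cl_le h12 (c.b k)
      have hAB : ivCl z1 z2 (c.lft k) ≤ ivCl z1 z2 (c.b k) := ivc_cl_mono _ _ (lft_le hc k)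
      have s1 := hsl _ _ hA1 hAB hB2
      have m1 : hk (ivCl z1 z2 (c.b k)) ≤ hk (c.b k) :=
        hmono ⟨h0.trans (hA1.trans hAB), hB2.trans h2⟩ ⟨(b0_le_lft hc k).trans (lft_le hc k), b_le_top hc k⟩ a4
      have m2 : hk (c.lft k) ≤ hk (ivCl z1 z2 (c.lft k)) :=
        hmono ⟨b0_le_lft hc k, (lft_le hc k).trans (b_le_top hc k)⟩ ⟨h0.trans hA1, (hAB.trans hB2).trans h2⟩ a3
      have s2 : κ * c.len z1 z2 k ≤ dq k := by
        have := hdq k hkn
        unfold len; linarith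
      calc K * κ * (c.len z1 z2 k * Tq k) = K * (κ * c.len z1 z2 k) * Tq k := by ring
        _ ≤ K * dq k * Tq k := by gcongr; exact hT k
        _ ≤ _ := hsus k hkn
  refine (Finset.sum_le_sum hterm).trans ?_
  rw [Finset.sum_range_sub φ]
  have e1 : φ (c.n + 1) = Sq (k2 + 1) := by
    simp only [hφ]; congr 1
    rw [max_eq_left (by omega), min_eq_right (by omega)]
  have e2 : φ 0 = Sq k1 := by
    simp only [hφ]; congr 1
    rw [max_eq_right (Nat.zero_le _), min_eq_left (by omega)]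
  rw [e1, e2]
  have h3 : c.lft k2 < z2 := lft_idx_lt (lt_of_le_of_lt h0 hlt)
  have h4 : c.b k2 < z2 + μ := by have := hmesh k2 hk2n; linarith
  have h5 : k2 + 1 ≤ c.idx (z2 + μ) := lt_idx hc hk2n h4
  have := hS h5
  linarith

/-- weighted averages of a monotone sequence over a window: lower bound -/
theorem avg_ge (hc : c.Ok) {Sq : ℕ → ℝ} (hS : Monotone Sq) {α β : ℝ} (h0 : c.b0 ≤ α) (hαβ : α ≤ β)
    (h1 : β ≤ c.b c.n) :
    (β - α) * Sq (c.idx α) ≤ ∑ k ∈ Finset.range (c.n + 1), c.len α β k * Sq k := by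
  rw [← sum_len hc h0 hαβ h1, Finset.sum_mul]
  refine Finset.sum_le_sum fun k _ => ?_
  rcases (len_nonneg hc α β k).eq_or_lt with hz | hpos
  · rw [← hz]; simp
  · exact mul_le_mul_of_nonneg_left (hS (of_len_pos hc hαβ h1 hpos).1) hpos.le

/-- weighted averages of a monotone sequence over a window: upper bound -/
theorem avg_le (hc : c.Ok) {Sq : ℕ → ℝ} (hS : Monotone Sq) {α β : ℝ} (h0 : c.b0 ≤ α) (hαβ : α ≤ β)
    (h1 : β ≤ c.b c.n) :
    ∑ k ∈ Finset.range (c.n + 1), c.len α β k * Sq k ≤ (β - α) * Sq (c.idx β) := by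
  rw [← sum_len hc h0 hαβ h1, Finset.sum_mul]
  refine Finset.sum_le_sum fun k _ => ?_
  rcases (len_nonneg hc α β k).eq_or_lt with hz | hpos
  · rw [← hz]; simp
  · exact mul_le_mul_of_nonneg_left (hS (of_len_pos hc hαβ h1 hpos).2.1) hpos.le

end IvCells

end Claimed.Agent.R286
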