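import Claimed.Agent.R286.L08.L11Cut

/-!
Row 286, LL 08-statistics l.631-830 (unit IV, owner helper228).
Exports (D7a), (D7b), (D7c), (D8) in the mass coordinate, with explicit constants, from
`L11Mass.Ok`, `L11Cut.Ok`, `L11Tiles.Ok` and the bridge between the two coordinates.
TEX[LL:lem:statistics-integrated] TEX[LL:lem:statistics-localized]
-/

set_option autoImplicit false
open MeasureTheory Set
open scoped BigOperators

namespace Claimed.Agent.R286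

/-- link between the mass layer and the cut layer (change of variables `dv = G dz`). -/
structure L11Bridge (d : L11Mass) (c : L11Cut) : Prop where
  vz_mono : Monotone c.vz
  vz_int : ∀ z1 z2, c.zlo ≤ z1 → z1 ≤ z2 → z2 ≤ c.zhi → c.vz z2 - c.vz z1 = ∫ z in z1..z2, c.G z
  vz_a : c.vz c.zhi ≤ d.a
  EW_le : ∀ z1 z2, c.zlo ≤ z1 → z1 ≤ z2 → z2 ≤ c.zhi →
    ∫ v in c.vz z1..c.vz z2, d.EW v ≤ ∫ z in z1..z2, c.EWZ z * c.G z
  Mix_le : ∀ z1 z2, c.zlo ≤ z1 → z1 ≤ z2 → z2 ≤ c.zhi →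
    ∫ v in c.vz z1..c.vz z2, d.Mix v ≤ ∫ z in z1..z2, c.MixZ z * c.G z

namespace L11Tiles
variable {d : L11Mass} {c : L11Cut} {T : L11Tiles}

/-- mass of the breakpoint `i` -/
def V (T : L11Tiles) (c : L11Cut) (i : ℕ) : ℝ := c.vz (T.t i)

theorem dom_i (hT : T.Ok c) {i : ℕ} (hi : i ≤ T.nT) : c.zlo ≤ T.t i ∧ T.t i ≤ c.zhi := by
  have h0 := t_le hT 0 i (Nat.zero_le _) hi
  have h1 := t_le hT i T.nT hi le_rfl
  exact ⟨by linarith [hT.dom_lo, hT.L_pos], by linarith [hT.dom_hi]⟩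

theorem V_mono (hb : L11Bridge d c) (hT : T.Ok c) {i : ℕ} (hi : i < T.nT) :
    T.V c i ≤ T.V c (i + 1) := hb.vz_mono (hT.t_mono i hi)

theorem V_le (hb : L11Bridge d c) (hT : T.Ok c) {i j : ℕ} (hij : i ≤ j) (hj : j ≤ T.nT) :
    T.V c i ≤ T.V c j := hb.vz_mono (t_le hT i j hij hj)

theorem vmin_le_V (hT : T.Ok c) {i : ℕ} (hi : i ≤ T.nT) : T.vmin ≤ T.V c i := by
  have h0 := t_le hT 0 i (Nat.zero_le _) hi
  have h1 := t_le hT i T.nT hi le_rfl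
  exact hT.vmin_le _ (by linarith [hT.L_pos]) h1

theorem V_le_a (hb : L11Bridge d c) (hT : T.Ok c) {i : ℕ} (hi : i ≤ T.nT) : T.V c i ≤ d.a :=
  (hb.vz_mono (dom_i hT hi).2).trans hb.vz_a

theorem V_sub (hb : L11Bridge d c) (hT : T.Ok c) {i : ℕ} (hi : i < T.nT) :
    T.V c (i + 1) - T.V c i = T.mass c i :=
  hb.vz_int _ _ (dom_i hT hi.le).1 (hT.t_mono i hi) (dom_i hT hi).2

/-- (D7a'), tile form: `∫_{J_i} E W dv ≤ KW (mass_i + εK |I_i|)`. -/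
theorem exp_EW_tile (hc : c.Ok) (hb : L11Bridge d c) (hT : T.Ok c) {i : ℕ} (hi : i < T.nT) :
    ∫ v in T.V c i..T.V c (i + 1), d.EW v ≤ T.KW c * T.massE c i :=
  (hb.EW_le _ _ (dom_i hT hi.le).1 (hT.t_mono i hi) (dom_i hT hi).2).trans (tile_EWZG hc hT hi)

/-- **(D7a)**: weighted band integral of `E W` in the mass coordinate. -/
theorem exp_EW (hd : d.Ok) (hc : c.Ok) (hb : L11Bridge d c) (hT : T.Ok c)
    {φ : ℝ → ℝ} {Cφ : ℝ} (hφ : L11Bdd φ Cφ) (φs : ℕ → ℝ)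
    (hφs : ∀ i < T.nT, ∀ v, T.V c i ≤ v → v ≤ T.V c (i + 1) → φ v ≤ φs i) :
    ∫ v in T.V c 0..T.V c T.nT, d.EW v * φ v
      ≤ T.KW c * ∑ i ∈ Finset.range T.nT, φs i * T.massE c i := by
  obtain ⟨_, hE⟩ := hd.EW_b
  have hint : ∀ a b, IntervalIntegrable (fun v => d.EW v * φ v) volume a b :=
    fun a b => l11_ii (hE.mul hφ) a b
  rw [← intervalIntegral.sum_integral_adjacent_intervals (a := fun k => T.V c k)
    (fun k _ => hint _ _), Finset.mul_sum]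
  refine Finset.sum_le_sum (fun i hi => ?_)
  have hi' := Finset.mem_range.1 hi
  have h01 := V_mono hb hT hi'
  have h1 : ∫ v in T.V c i..T.V c (i + 1), d.EW v * φ v
      ≤ ∫ v in T.V c i..T.V c (i + 1), d.EW v * φs i := by
    refine intervalIntegral.integral_mono_on h01 (hint _ _) ((L11Mass.iEW hd _ _).mul_const _) ?_
    intro v hv
    exact mul_le_mul_of_nonneg_left (hφs i hi' v hv.1 hv.2) (L11Mass.EW0 hd v)
  rw [intervalIntegral.integral_mul_const] at h1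
  have h2 := exp_EW_tile (d := d) hc hb hT hi'
  have hφ0 : 0 ≤ φs i := (hφ.nonneg _).trans (hφs i hi' (T.V c i) le_rfl h01)
  calc _ ≤ _ := h1
    _ ≤ (T.KW c * T.massE c i) * φs i := by gcongr
    _ = _ := by ring

/-- (D7a), `k = 0`. -/
theorem exp_EW0 (hd : d.Ok) (hc : c.Ok) (hb : L11Bridge d c) (hT : T.Ok c) :
    ∫ v in T.V c 0..T.V c T.nT, d.EW v ≤ T.KW c * T.massTot c := by
  rw [← intervalIntegral.sum_integral_adjacent_intervals (a := fun k => T.V c k)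
    (fun k _ => L11Mass.iEW hd _ _)]
  unfold massTot
  rw [Finset.mul_sum]
  exact Finset.sum_le_sum (fun i hi => exp_EW_tile hc hb hT (Finset.mem_range.1 hi))

/-- **(D7b)**: `∫ E[Xᵀ C X + tr C²] dv` over the band. -/
theorem exp_MixTrC (hd : d.Ok) (hc : c.Ok) (hb : L11Bridge d c) (hT : T.Ok c) (n : ℕ) {Smax : ℝ}
    (hη : c.η < T.κh * (T.L / 2 ^ n)) (hSmax : ∀ z, z ≤ T.t T.nT → c.SZ z ≤ Smax) :
    ∫ v in T.V c 0..T.V c T.nT, (d.Mix v + d.TrC v)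
      ≤ ((n : ℝ) + 2) * (T.massTot c * (T.Kp c * Smax / T.L
          + 4 * T.A * T.Cb * ((n : ℝ) * T.Kp c + 4 * (T.L / 2 ^ n))))
        + T.KW c * T.massTot c / T.vmin := by
  rw [intervalIntegral.integral_add (L11Mass.iMix hd _ _) (L11Mass.iTrC hd _ _)]
  have h0N : T.t 0 ≤ T.t T.nT := t_le hT 0 T.nT (Nat.zero_le _) le_rfl
  have a1 := (hb.Mix_le _ _ (dom_i hT (Nat.zero_le _)).1 h0N (dom_i hT le_rfl).2).trans
    (band_MixZG hc hT n hη hSmax)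
  have a2 := L11Mass.int_TrC hd hT.vmin_pos (vmin_le_V hT (Nat.zero_le _))
    (V_le hb hT (Nat.zero_le _) le_rfl) (V_le_a hb hT le_rfl) (exp_EW0 hd hc hb hT)
  exact add_le_add a1 a2

/-- **(D7c)**: `∫ D_v² dv` over a dyadic band (`V nT ≤ 2 V 0`) with raw scale `R`. -/
theorem exp_Dsq_band (hd : d.Ok) (hc : c.Ok) (hb : L11Bridge d c) (hT : T.Ok c) {R : ℝ}
    (hdy : T.V c T.nT ≤ 2 * T.V c 0)
    (hRv : ∀ v ∈ Ioo (T.V c 0) (T.V c T.nT), d.VarX v ≤ R ^ 2)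
    (hS : d.S (T.V c T.nT) - d.S (T.V c 0) ≤ R)
    (hR4 : ∀ v ∈ Ioo (T.V c 0) (T.V c T.nT), d.M4 v ≤ R ^ 2)
    (hRt : ∀ v ∈ Ioo (T.V c 0) (T.V c T.nT), d.TrC v ≤ R ^ 2) :
    ∫ v in T.V c 0..T.V c T.nT, d.Dsq v
      ≤ (9 + 16 * d.c0) * (R * Real.sqrt (T.KW c * T.massTot c)) := by
  have hv0 : 0 < T.V c 0 := lt_of_lt_of_le hT.vmin_pos (vmin_le_V hT (Nat.zero_le _))
  exact L11Mass.int_Dsq_dyad hd hv0 le_rfl (V_le hb hT (Nat.zero_le _) le_rfl)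
    (V_le_a hb hT le_rfl) (by linarith) (exp_EW0 hd hc hb hT) hRv hS hR4 hRt

/-- (D8), one tile. -/
theorem exp_Dsq_tile (hd : d.Ok) (hc : c.Ok) (hb : L11Bridge d c) (hT : T.Ok c) {i : ℕ}
    (hi : i < T.nT) {Rv R4 : ℝ}
    (hRv : ∀ v ∈ Ioo (T.V c i) (T.V c (i + 1)), d.VarX v ≤ Rv ^ 2)
    (hS : d.S (T.V c (i + 1)) - d.S (T.V c i) ≤ Rv)
    (hR4 : ∀ v ∈ Ioo (T.V c i) (T.V c (i + 1)), d.M4 v ≤ R4 ^ 2) (hR40 : 0 ≤ R4) :
    ∫ v in T.V c i..T.V c (i + 1), d.Dsq v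
      ≤ (6 + 16 * d.c0) * Real.sqrt (T.KW c) * (Rv * Real.sqrt (T.massE c i))
        + (2 * R4 * Real.sqrt (T.KW c / T.vmin) + T.KW c / T.vmin) * T.massE c i := by
  have hK := KW0 hc hT
  have hmE := massE0 hc hT hi
  have hv := hT.vmin_pos
  have h := L11Mass.int_Dsq' hd hv (vmin_le_V hT hi.le) (V_mono hb hT hi) (V_le_a hb hT hi)
    (exp_EW_tile hc hb hT hi) hRv hS hR4 hR40
  rw [V_sub hb hT hi] at h
  have e1 : Real.sqrt (T.KW c * T.massE c i) = Real.sqrt (T.KW c) * Real.sqrt (T.massE c i) :=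
    Real.sqrt_mul hK _
  have e2 : Real.sqrt (T.mass c i * (T.KW c * T.massE c i) / T.vmin)
      ≤ Real.sqrt (T.KW c / T.vmin) * T.massE c i := by
    have : T.mass c i * (T.KW c * T.massE c i) / T.vmin ≤ (T.KW c / T.vmin) * (T.massE c i) ^ 2 := by
      have hm := mass_le_massE (c := c) hT hi
      have hq : 0 ≤ T.KW c / T.vmin := by positivity
      calc T.mass c i * (T.KW c * T.massE c i) / T.vmin
          = (T.KW c / T.vmin) * (T.mass c i * T.massE c i) := by ring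
        _ ≤ (T.KW c / T.vmin) * (T.massE c i * T.massE c i) := by gcongr
        _ = _ := by ring
    calc _ ≤ Real.sqrt ((T.KW c / T.vmin) * (T.massE c i) ^ 2) := Real.sqrt_le_sqrt this
      _ = _ := by rw [Real.sqrt_mul (by positivity), Real.sqrt_sq hmE]
  rw [e1] at h
  have h3 : 2 * (R4 * Real.sqrt (T.mass c i * (T.KW c * T.massE c i) / T.vmin))
      ≤ 2 * (R4 * (Real.sqrt (T.KW c / T.vmin) * T.massE c i)) := by gcongr
  calc _ ≤ _ := h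
    _ ≤ (6 + 16 * d.c0) * (Rv * (Real.sqrt (T.KW c) * Real.sqrt (T.massE c i)))
        + 2 * (R4 * (Real.sqrt (T.KW c / T.vmin) * T.massE c i)) + T.KW c * T.massE c i / T.vmin := by
        linarith
    _ = _ := by ring

/-- **(D8)**: sum over a family `Ret` of retained tiles. -/
theorem exp_Dsq_tiles (hd : d.Ok) (hc : c.Ok) (hb : L11Bridge d c) (hT : T.Ok c)
    (Ret : Finset ℕ) (hRet : ∀ i ∈ Ret, i < T.nT) (Rv : ℕ → ℝ) {R4 : ℝ}
    (hRv : ∀ i ∈ Ret, ∀ v ∈ Ioo (T.V c i) (T.V c (i + 1)), d.VarX v ≤ Rv i ^ 2)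
    (hS : ∀ i ∈ Ret, d.S (T.V c (i + 1)) - d.S (T.V c i) ≤ Rv i)
    (hR4 : ∀ i ∈ Ret, ∀ v ∈ Ioo (T.V c i) (T.V c (i + 1)), d.M4 v ≤ R4 ^ 2) (hR40 : 0 ≤ R4) :
    ∑ i ∈ Ret, ∫ v in T.V c i..T.V c (i + 1), d.Dsq v
      ≤ (6 + 16 * d.c0) * Real.sqrt (T.KW c)
          * (Real.sqrt (∑ i ∈ Ret, Rv i ^ 2) * Real.sqrt (∑ i ∈ Ret, T.massE c i))
        + (2 * R4 * Real.sqrt (T.KW c / T.vmin) + T.KW c / T.vmin) * ∑ i ∈ Ret, T.massE c i := by
  have hc0 := hd.c0_nonneg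
  have h1 : ∑ i ∈ Ret, ∫ v in T.V c i..T.V c (i + 1), d.Dsq v
      ≤ ∑ i ∈ Ret, ((6 + 16 * d.c0) * Real.sqrt (T.KW c) * (Rv i * Real.sqrt (T.massE c i))
        + (2 * R4 * Real.sqrt (T.KW c / T.vmin) + T.KW c / T.vmin) * T.massE c i) :=
    Finset.sum_le_sum (fun i hi => exp_Dsq_tile hd hc hb hT (hRet i hi) (hRv i hi) (hS i hi)
      (hR4 i hi) hR40)
  refine le_trans h1 ?_
  rw [Finset.sum_add_distrib, ← Finset.mul_sum, ← Finset.mul_sum]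
  have hcs := Real.sum_mul_le_sqrt_mul_sqrt Ret Rv (fun i => Real.sqrt (T.massE c i))
  have e : ∑ i ∈ Ret, Real.sqrt (T.massE c i) ^ 2 = ∑ i ∈ Ret, T.massE c i :=
    Finset.sum_congr rfl (fun i hi => Real.sq_sqrt (massE0 hc hT (hRet i hi)))
  rw [e] at hcs
  have hpos : 0 ≤ (6 + 16 * d.c0) * Real.sqrt (T.KW c) := by positivity
  have := mul_le_mul_of_nonneg_left hcs hpos
  linarith

end L11Tiles

end Claimed.Agent.R286
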