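import Claimed.Agent.R286.L08.IvKit
import Claimed.Agent.R286.L08.IvCell
import Claimed.Agent.R286.L08.L11Exp

/-!
# Row 286 (S0533), folder L08, file IvP : THE P LAYER OF UNIT IV = STEP EMBEDDING OF THE ABSTRACT SINGLE PATH      (owner helper189; prefix `ivp_`)

`L8P` (finite grid of cuts, L08/SP.lean) + `Sus`, `Pin 1`, `Proj 1`  ==>  the imports `L11Mass.Ok`, `L11Cut.Ok`, `L11Bridge` of the deterministic layers of 228.
The statistics of the cut `k` are carried by the cell `(v (k-1), v k]` of the mass axis (weight `dv k`), resp. by the cell `(zc k, zc (k+1)]` of a cut coordinate;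
RIGHT-endpoint rule (as in `ghChain`): the revelation number `k` (between the cuts `k`, `k+1`) has the mass of the right end of its cell, so `dv k` and `dh k` live on the same cell.
-/

set_option autoImplicit false

namespace Claimed.Agent.R286

open MeasureTheory ProbabilityTheory Set
open scoped BigOperators

variable {Ω : Type} [mΩ : MeasurableSpace Ω] {m : ℕ} {P : L8P Ω m}

/-- nonnegative step functions are `L11Bdd` -/
theorem ivp_step_bdd {c : IvCells} (hc : c.Ok) {f : ℕ → ℝ} (hf : ∀ k, 0 ≤ f k) :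
    ∃ C, L11Bdd (fun x => f (c.idx x)) C :=
  ⟨_, IvCells.step_meas hc f, fun _ => hf _, fun x => (le_abs_self _).trans (IvCells.step_abs_le hc f x)⟩

/-! ### the mass coordinate -/

/-- the mass cells of a single path -/
def ivpM (P : L8P Ω m) : IvCells := ⟨P.n, 0, P.v⟩

theorem ivp_M_ok (hP : P.Ok) : (ivpM P).Ok :=
  ⟨hP.v_mono, hP.v_nonneg 0, fun k hk => by
    show P.v k = P.v P.n
    rw [hP.v_term k hk, hP.v_term P.n le_rfl]⟩

theorem ivp_M_top (hP : P.Ok) : (ivpM P).b (ivpM P).n = P.a := hP.v_term P.n le_rfl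

theorem ivp_M_lft (k : ℕ) : (ivpM P).lft k = P.v k - P.dv k := by
  unfold IvCells.lft L8P.dv ivpM
  ring

theorem ivp_M_dv (k : ℕ) : (ivpM P).b k - (ivpM P).lft k = P.dv k := by
  rw [ivp_M_lft]; show P.v k - (P.v k - P.dv k) = P.dv k; ring

/-- the statistics of a single path as step functions of the mass -/
noncomputable def ivpMass (P : L8P Ω m) (c0 cs μ : ℝ) (hclk : ℝ → ℝ) : L11Mass where
  a := P.a
  c0 := c0
  msz := cs * m
  μ := μ
  S := fun v => P.S ((ivpM P).idx v)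
  hclk := hclk
  TrH := fun v => ∫ ω, P.trH2 ((ivpM P).idx v) ω ∂P.μ
  EW := fun v => ∫ ω, P.W ((ivpM P).idx v) ω ∂P.μ
  TrC := fun v => ∫ ω, P.trC2 ((ivpM P).idx v) ω ∂P.μ
  Mix := fun v => ∫ ω, P.xCx ((ivpM P).idx v) ω ∂P.μ
  VarX := fun v => ivkVar P ((ivpM P).idx v)
  M4 := fun v => ∫ ω, P.nX ((ivpM P).idx v) ω ^ 2 ∂P.μ
  Dsq := fun v => P.D2 ((ivpM P).idx v)

/-- `v ≤ v_k` on the cell of the cut `k` -/
theorem ivp_le_v (hP : P.Ok) {v : ℝ} (hv : v ≤ P.a) : v ≤ P.v ((ivpM P).idx v) :=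
  IvCells.le_b_idx (c := ivpM P) (k := P.n) (by rw [← hP.v_term P.n le_rfl] at hv; exact hv)

/-- the window weights -/
theorem ivp_w1 (hP : P.Ok) {h : ℝ} (α β : ℝ) (l : ℕ) :
    P.dv l * ((ivpM P).len α β l / (h * P.dv l)) = (ivpM P).len α β l / h := by
  have h1 := IvCells.len_le (ivp_M_ok hP) α β l
  have h0 := IvCells.len_nonneg (ivp_M_ok hP) α β l
  rw [ivp_M_dv] at h1
  by_cases hd : P.dv l = 0
  · rw [hd] at h1
    have : (ivpM P).len α β l = 0 := le_antisymm h1 h0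
    rw [this, hd]; simp
  · by_cases hh : h = 0
    · rw [hh]; simp
    · field_simp

theorem ivp_w2 (hP : P.Ok) {h : ℝ} (hh : 0 < h) (α β : ℝ) (l : ℕ) :
    P.dv l * ((ivpM P).len α β l / (h * P.dv l)) ^ 2 ≤ (ivpM P).len α β l / h ^ 2 := by
  have h1 := IvCells.len_le (ivp_M_ok hP) α β l
  have h0 := IvCells.len_nonneg (ivp_M_ok hP) α β l
  rw [ivp_M_dv] at h1
  have hd0 := ivk_dv_nonneg hP l
  rcases hd0.eq_or_lt with hd | hd
  · rw [← hd]; simp; positivity
  · rw [div_pow, mul_pow, ← mul_div_assoc, div_le_div_iff₀ (by positivity) (by positivity)]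
    have : (ivpM P).len α β l ^ 2 ≤ (ivpM P).len α β l * P.dv l := by nlinarith
    calc P.dv l * (ivpM P).len α β l ^ 2 * h ^ 2 ≤ P.dv l * ((ivpM P).len α β l * P.dv l) * h ^ 2 := by gcongr
      _ = _ := by ring

/-- **ABS2, pointwise form, in the mass coordinate** -/
theorem ivp_slide (hP : P.Ok) {c0 : ℝ} (hc0 : 0 ≤ c0) (hpin : P.Pin 1 c0) {v h : ℝ} (hh : 0 < h)
    (h1 : 0 ≤ v - h) (h2 : v + h ≤ P.a) :
    ivkVar P ((ivpM P).idx v) ≤ 2 * (P.S ((ivpM P).idx (v + h)) - P.S ((ivpM P).idx (v - h))) ^ 2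
      + 8 * c0 / h ^ 2 * ∫ u in (v - h)..(v + h), ∫ ω, P.W ((ivpM P).idx u) ω ∂P.μ := by
  set c := ivpM P with hcdef
  have hc : c.Ok := ivp_M_ok hP
  have htop : c.b c.n = P.a := ivp_M_top hP
  have hb0 : c.b0 = 0 := rfl
  have hn : c.n = P.n := rfl
  set k := c.idx v with hk
  set EW : ℕ → ℝ := fun l => ∫ ω, P.W l ω ∂P.μ with hEW
  have hEW0 : ∀ l, 0 ≤ EW l := fun l => ivk_int_W_nonneg hP l
  set wp : ℕ → ℝ := fun l => c.len v (v + h) l / (h * P.dv l) with hwp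
  set wm : ℕ → ℝ := fun l => c.len (v - h) v l / (h * P.dv l) with hwm
  have hS := ivk_S_mono hP
  have w1 : ∀ α β l, P.dv l * (c.len α β l / (h * P.dv l)) = c.len α β l / h := fun α β l => ivp_w1 hP α β l
  have w2 : ∀ α β l, P.dv l * (c.len α β l / (h * P.dv l)) ^ 2 ≤ c.len α β l / h ^ 2 :=
    fun α β l => ivp_w2 hP hh α β l
  have a0 : c.b0 ≤ v - h := by rw [hb0]; exact h1
  have a1 : c.b0 ≤ v := by rw [hb0]; linarith
  have a2 : v + h ≤ c.b c.n := by rw [htop]; exact h2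
  have a3 : v ≤ c.b c.n := by rw [htop]; linarith
  have key := ivk_slide hP hpin k wp wm
    (fun l => div_nonneg (IvCells.len_nonneg hc _ _ l) (mul_nonneg hh.le (ivk_dv_nonneg hP l)))
    (fun l => div_nonneg (IvCells.len_nonneg hc _ _ l) (mul_nonneg hh.le (ivk_dv_nonneg hP l)))
    (fun l _ hl => by
      simp only [hwp]
      rw [w1, IvCells.len_eq_zero_of_lt (by linarith) hl hc, zero_div])
    (fun l _ hl => by
      simp only [hwm]
      rw [w1, IvCells.len_eq_zero_of_gt hc (by linarith) a3 hl, zero_div])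
    (by
      simp only [hwp, w1]
      rw [← Finset.sum_div, ← hn, IvCells.sum_len hc a1 (by linarith) a2]
      field_simp; ring)
    (by
      simp only [hwm, w1]
      rw [← Finset.sum_div, ← hn, IvCells.sum_len hc a0 (by linarith) a3]
      field_simp; ring)
  -- the two centred terms
  have t1 : ∑ l ∈ Finset.range (P.n + 1), P.dv l * wp l ^ 2 * EW l
      ≤ (∫ u in v..(v + h), EW (c.idx u)) / h ^ 2 := by
    rw [IvCells.step_integral_one hc EW a1 (by linarith) a2, Finset.sum_div, hn]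
    refine Finset.sum_le_sum fun l _ => ?_
    calc P.dv l * wp l ^ 2 * EW l ≤ (c.len v (v + h) l / h ^ 2) * EW l :=
          mul_le_mul_of_nonneg_right (w2 _ _ l) (hEW0 l)
      _ = _ := by ring
  have t2 : ∑ l ∈ Finset.range (P.n + 1), P.dv l * wm l ^ 2 * EW l
      ≤ (∫ u in (v - h)..v, EW (c.idx u)) / h ^ 2 := by
    rw [IvCells.step_integral_one hc EW a0 (by linarith) a3, Finset.sum_div, hn]
    refine Finset.sum_le_sum fun l _ => ?_
    calc P.dv l * wm l ^ 2 * EW l ≤ (c.len (v - h) v l / h ^ 2) * EW l :=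
          mul_le_mul_of_nonneg_right (w2 _ _ l) (hEW0 l)
      _ = _ := by ring
  -- the two means
  have ep : ∑ l ∈ Finset.range (P.n + 1), P.dv l * wp l * P.S l
      = (∑ l ∈ Finset.range (c.n + 1), c.len v (v + h) l * P.S l) / h := by
    rw [Finset.sum_div, hn]
    refine Finset.sum_congr rfl fun l _ => ?_
    simp only [hwp]; rw [w1]; ring
  have em : ∑ l ∈ Finset.range (P.n + 1), P.dv l * wm l * P.S l
      = (∑ l ∈ Finset.range (c.n + 1), c.len (v - h) v l * P.S l) / h := by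
    rw [Finset.sum_div, hn]
    refine Finset.sum_congr rfl fun l _ => ?_
    simp only [hwm]; rw [w1]; ring
  have p1 := IvCells.avg_ge hc hS a1 (show v ≤ v + h by linarith) a2
  have p2 := IvCells.avg_le hc hS a1 (show v ≤ v + h by linarith) a2
  have m1 := IvCells.avg_ge hc hS a0 (show v - h ≤ v by linarith) a3
  have m2 := IvCells.avg_le hc hS a0 (show v - h ≤ v by linarith) a3
  have e1 : v + h - v = h := by ring
  have e2 : v - (v - h) = h := by ring
  rw [e1] at p1 p2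
  rw [e2] at m1 m2
  set ap := (∑ l ∈ Finset.range (c.n + 1), c.len v (v + h) l * P.S l) / h with hap
  set am := (∑ l ∈ Finset.range (c.n + 1), c.len (v - h) v l * P.S l) / h with ham
  have q1 : P.S k ≤ ap := by rw [hap, le_div_iff₀ hh]; linarith
  have q2 : ap ≤ P.S (c.idx (v + h)) := by rw [hap, div_le_iff₀ hh]; linarith
  have q3 : P.S (c.idx (v - h)) ≤ am := by rw [ham, le_div_iff₀ hh]; linarith
  have q4 : am ≤ P.S k := by rw [ham, div_le_iff₀ hh]; linarith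
  rw [ep, em] at key
  have hsplit : ∫ u in (v - h)..(v + h), EW (c.idx u)
      = (∫ u in (v - h)..v, EW (c.idx u)) + ∫ u in v..(v + h), EW (c.idx u) :=
    (intervalIntegral.integral_add_adjacent_intervals (IvCells.step_ii hc EW _ _)
      (IvCells.step_ii hc EW _ _)).symm
  have hsq : 2 * (ap - P.S k) ^ 2 + 2 * (P.S k - am) ^ 2
      ≤ 2 * (P.S (c.idx (v + h)) - P.S (c.idx (v - h))) ^ 2 := by
    have x0 : 0 ≤ ap - P.S k := by linarith
    have y0 : 0 ≤ P.S k - am := by linarith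
    have xy : (ap - P.S k) + (P.S k - am) ≤ P.S (c.idx (v + h)) - P.S (c.idx (v - h)) := by linarith
    nlinarith [mul_nonneg x0 y0]
  have hfin : 8 * c0 / h ^ 2 * ∫ u in (v - h)..(v + h), EW (c.idx u)
      = 8 * c0 * ((∫ u in v..(v + h), EW (c.idx u)) / h ^ 2)
        + 8 * c0 * ((∫ u in (v - h)..v, EW (c.idx u)) / h ^ 2) := by
    rw [hsplit]; ring
  show ivkVar P k ≤ 2 * (P.S (c.idx (v + h)) - P.S (c.idx (v - h))) ^ 2
      + 8 * c0 / h ^ 2 * ∫ u in (v - h)..(v + h), EW (c.idx u)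
  rw [hfin]
  have u1 : 8 * c0 * (∑ l ∈ Finset.range (P.n + 1), P.dv l * wp l ^ 2 * EW l)
      ≤ 8 * c0 * ((∫ u in v..(v + h), EW (c.idx u)) / h ^ 2) :=
    mul_le_mul_of_nonneg_left t1 (by positivity)
  have u2 : 8 * c0 * (∑ l ∈ Finset.range (P.n + 1), P.dv l * wm l ^ 2 * EW l)
      ≤ 8 * c0 * ((∫ u in (v - h)..v, EW (c.idx u)) / h ^ 2) :=
    mul_le_mul_of_nonneg_left t2 (by positivity)
  linarith

/-- **the imports of the mass layer hold for the step embedding of an abstract single path.**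
`hclk` = the field clock (as a function of the mass) which is sampled by the grid; `μ` = mesh of the masses;
the grid reveals the whole clock (`dh n = 0`: nothing is left for the cell of the last cut). -/
theorem ivp_mass_ok (hP : P.Ok) {c0 cs μ : ℝ} {hclk : ℝ → ℝ} (hm : 0 < m) (hc0 : 0 ≤ c0) (hcs : 0 < cs)
    (hsus : P.Sus cs) (hpin : P.Pin 1 c0) (hdhn : P.dh P.n = 0)
    (hmono : MonotoneOn hclk (Icc 0 P.a))
    (hdh : ∀ k ≤ P.n, hclk (P.v k) - hclk (P.v k - P.dv k) ≤ P.dh k)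
    (hmesh : ∀ k ≤ P.n, P.dv k ≤ μ) :
    (ivpMass P c0 cs μ hclk).Ok where
  a_pos := hP.a_pos
  c0_nonneg := hc0
  msz_pos := mul_pos hcs (Nat.cast_pos.2 hm)
  μ_nonneg := (ivk_dv_nonneg hP 0).trans (hmesh 0 (Nat.zero_le _))
  S_mono := (ivk_S_mono hP).comp (IvCells.idx_mono (ivp_M_ok hP))
  TrH_b := ivp_step_bdd (ivp_M_ok hP) (f := fun k => ∫ ω, P.trH2 k ω ∂P.μ)
    fun k => integral_nonneg (ivk_trH2_nonneg k)
  EW_b := ivp_step_bdd (ivp_M_ok hP) (f := fun k => ∫ ω, P.W k ω ∂P.μ) fun k => ivk_int_W_nonneg hP k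
  TrC_b := ivp_step_bdd (ivp_M_ok hP) (f := fun k => ∫ ω, P.trC2 k ω ∂P.μ)
    fun k => integral_nonneg (ivk_trC2_nonneg k)
  Mix_b := ivp_step_bdd (ivp_M_ok hP) (f := fun k => ∫ ω, P.xCx k ω ∂P.μ)
    fun k => integral_nonneg (ivk_xCx_nonneg hP k)
  VarX_b := ivp_step_bdd (ivp_M_ok hP) (f := fun k => ivkVar P k)
    fun k => integral_nonneg fun _ => sq_nonneg _
  M4_b := ivp_step_bdd (ivp_M_ok hP) (f := fun k => ∫ ω, P.nX k ω ^ 2 ∂P.μ)
    fun k => integral_nonneg fun _ => sq_nonneg _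
  dsq := fun v => ivk_D2_eq hP _
  trc := fun v _ hv => by
    have h1 := ivk_v_int_trC2_le hP ((ivpM P).idx v)
    have h2 := ivp_le_v hP hv.le
    have h3 : 0 ≤ ∫ ω, P.trC2 ((ivpM P).idx v) ω ∂P.μ := integral_nonneg (ivk_trC2_nonneg _)
    exact (mul_le_mul_of_nonneg_right h2 h3).trans h1
  src1 := fun v _ hv => by
    have h1 := ivk_v_int_W_le hP ((ivpM P).idx v)
    have h2 := ivp_le_v hP hv.le
    exact (mul_le_mul_of_nonneg_right h2 (ivk_int_W_nonneg hP _)).trans h1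
  src2 := fun v1 v2 κ h1 h12 h2 _ hsl => by
    refine IvCells.src2 (c := ivpM P) (ivp_M_ok hP) (Sq := P.S) (Tq := fun k => ∫ ω, P.trH2 k ω ∂P.μ)
      (dq := P.dh) (K := cs * m) (μ := μ) (hk := hclk) (ivk_S_mono hP)
      (fun k => integral_nonneg (ivk_trH2_nonneg k)) (by positivity) ?_ ?_ ?_ ?_ h1.le h12 ?_ hsl
    · intro k hk
      rcases Nat.lt_or_ge k P.n with hlt | hge
      · exact hsus k hlt
      · have : k = P.n := le_antisymm hk hge
        rw [this, hdhn]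
        simpa using sub_nonneg.2 (ivk_S_mono hP (Nat.le_succ P.n))
    · rw [ivp_M_top hP]; exact hmono
    · intro k hk
      rw [ivp_M_lft]; exact hdh k hk
    · intro k hk
      rw [ivp_M_dv]; exact hmesh k hk
    · rw [ivp_M_top hP]; exact h2
  mix := fun v _ _ => ivk_int_xCx_sq_le hP _
  slide := fun v h hh h1 h2 => ivp_slide hP hc0 hpin hh h1 h2

/-! ### a cut coordinate -/

/-- a cut coordinate on the grid of a single path: `zc k` = coordinate of the cut `k`; `hZ, vz, G` = the field clock, the mass and its density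
in this coordinate (the objects which are sampled); `μ` = mesh; `η` = twice the largest field increment of a cell (and `≥ 2 hmin`) -/
structure IvGrid where
  zc : ℕ → ℝ
  hZ : ℝ → ℝ
  vz : ℝ → ℝ
  G : ℝ → ℝ
  μ : ℝ
  η : ℝ
  vlow : ℝ

/-- compatibility of the coordinate with the path (`vmin, hmin` = thresholds of `Proj`) -/
structure IvGrid.Ok (g : IvGrid) (P : L8P Ω m) (vmin hmin : ℝ) : Prop where
  zc_mono : Monotone g.zc
  zc_top : ∀ k, P.n + 1 ≤ k → g.zc k = g.zc (P.n + 1)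
  mesh : ∀ k ≤ P.n, g.zc (k + 1) - g.zc k ≤ g.μ
  hZ_mono : MonotoneOn g.hZ (Icc (g.zc 0) (g.zc (P.n + 1)))
  vz_mono : Monotone g.vz
  G_b : ∃ C, L11Bdd g.G C
  vz_int : ∀ z1 z2, g.zc 0 ≤ z1 → z1 ≤ z2 → z2 ≤ g.zc (P.n + 1) → g.vz z2 - g.vz z1 = ∫ z in z1..z2, g.G z
  v_zero : g.vz (g.zc 0) = 0
  /-- right-endpoint rule -/
  v_eq : ∀ k ≤ P.n, P.v k = g.vz (g.zc (k + 1))
  dh_ge : ∀ k ≤ P.n, g.hZ (g.zc (k + 1)) - g.hZ (g.zc k) ≤ P.dh k
  cell_le : ∀ k ≤ P.n, 2 * (g.hZ (g.zc (k + 1)) - g.hZ (g.zc k)) ≤ g.η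
  hmin_le : 2 * hmin ≤ g.η
  vlow_pos : 0 < g.vlow
  vmin_le : vmin ≤ g.vlow

/-- the cells of the cut coordinate -/
def ivpZ (P : L8P Ω m) (g : IvGrid) : IvCells := ⟨P.n, g.zc 0, fun k => g.zc (k + 1)⟩

section cut
variable {g : IvGrid} {vmin hmin : ℝ}

theorem ivp_Z_ok (hg : g.Ok P vmin hmin) : (ivpZ P g).Ok :=
  ⟨fun _ _ h => hg.zc_mono (Nat.succ_le_succ h), hg.zc_mono (Nat.zero_le 1), fun k hk => by
    show g.zc (k + 1) = g.zc (P.n + 1)
    exact hg.zc_top (k + 1) (Nat.succ_le_succ hk)⟩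

theorem ivp_Z_lft (k : ℕ) : (ivpZ P g).lft k = g.zc k := by
  cases k with
  | zero => rfl
  | succ j => rw [IvCells.lft_succ]; rfl

theorem ivp_Z_top : (ivpZ P g).b (ivpZ P g).n = g.zc (P.n + 1) := rfl

/-- the statistics of a single path as step functions of the cut coordinate -/
noncomputable def ivpCut (P : L8P Ω m) (g : IvGrid) (cs cp : ℝ) : L11Cut where
  msz := cs * m
  Cp := 2 * cp * cs
  zlo := g.zc 0
  zhi := g.zc (P.n + 1)
  η := g.η
  μ := g.μ
  vlow := g.vlow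
  SZ := fun z => P.S ((ivpZ P g).idx z)
  hZ := g.hZ
  vz := g.vz
  G := g.G
  TrHZ := fun z => ∫ ω, P.trH2 ((ivpZ P g).idx z) ω ∂P.μ
  EWZ := fun z => ∫ ω, P.W ((ivpZ P g).idx z) ω ∂P.μ
  MixZ := fun z => ∫ ω, P.xCx ((ivpZ P g).idx z) ω ∂P.μ

/-- `vz z ≤ v_k` on the cell of the cut `k` -/
theorem ivp_vz_le (hg : g.Ok P vmin hmin) {z : ℝ} (hz : z ≤ g.zc (P.n + 1)) :
    g.vz z ≤ P.v ((ivpZ P g).idx z) := by
  have h1 : (ivpZ P g).idx z ≤ P.n := IvCells.idx_le (c := ivpZ P g) (k := P.n) hz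
  rw [hg.v_eq _ h1]
  exact hg.vz_mono (IvCells.le_b_idx (c := ivpZ P g) (k := P.n) hz)

/-- the field length between two cuts dominates the increment of the sampled clock -/
theorem ivp_hlen_ge (hg : g.Ok P vmin hmin) {k l : ℕ} (hkl : k ≤ l) (hl : l ≤ P.n + 1) :
    g.hZ (g.zc l) - g.hZ (g.zc k) ≤ P.hlen k l := by
  unfold L8P.hlen
  rw [← Finset.sum_Ico_sub (fun i => g.hZ (g.zc i)) hkl]
  refine Finset.sum_le_sum fun i hi => hg.dh_ge i ?_
  have := (Finset.mem_Ico.1 hi).2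
  omega

/-- **ABS4 in the cut coordinate** -/
theorem ivp_chain (hP : P.Ok) (hg : g.Ok P vmin hmin) {cs cp : ℝ} (hm : 0 < m) (hcs : 0 < cs) (hcp : 0 ≤ cp)
    (hp : P.Proj 1 cp vmin hmin) (N : ℕ) (w : ℕ → ℝ) (z : ℝ) (hw0 : g.zc 0 ≤ w 0)
    (hw : ∀ i ≤ N, w i < w (i + 1)) (hwz : w (N + 1) = z) (hz : z ≤ g.zc (P.n + 1))
    (hv : ∀ i ≤ N, g.vlow ≤ g.vz (w i)) (hη : ∀ i ≤ N, g.η < g.hZ z - g.hZ (w i)) :
    (ivpCut P g cs cp).MixZ z ≤ ((N : ℝ) + 2) * ((ivpCut P g cs cp).kap (w 0) z * (ivpCut P g cs cp).SZ (w 0)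
      + ∑ i ∈ Finset.range N, (ivpCut P g cs cp).kap (w (i + 1)) z
          * ((ivpCut P g cs cp).SZ (w (i + 1)) - (ivpCut P g cs cp).SZ (w i))
      + 4 * ((ivpCut P g cs cp).SZ z - (ivpCut P g cs cp).SZ (w N))) := by
  set c := ivpZ P g with hcdef
  have hc : c.Ok := ivp_Z_ok hg
  have hmR : (0 : ℝ) < m := Nat.cast_pos.2 hm
  set k := c.idx z with hk
  have hkn : k ≤ P.n := IvCells.idx_le (c := c) (k := P.n) hz
  -- the points `w i` are ordered and lie in the domain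
  have hwm : ∀ i j, i ≤ j → j ≤ N + 1 → w i ≤ w j := by
    intro i j hij
    induction j, hij using Nat.le_induction with
    | base => intro _; exact le_rfl
    | succ j _ ih => intro hj; exact (ih (by omega)).trans (hw j (by omega)).le
  have hwlo : ∀ i ≤ N + 1, g.zc 0 ≤ w i := fun i hi => hw0.trans (hwm 0 i (Nat.zero_le _) hi)
  have hwhi : ∀ i ≤ N + 1, w i ≤ z := fun i hi => by rw [← hwz]; exact hwm i (N + 1) hi le_rfl
  have key := ivk_chain hP k N (fun i => c.idx (w i))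
    (fun i hi => IvCells.idx_mono hc (hw i hi.le).le)
    (IvCells.idx_mono hc (hwhi N (Nat.le_succ N)))
    (fun j => (ivpCut P g cs cp).kap (w j) z) ?_
  · refine key.trans (mul_le_mul_of_nonneg_left ?_ (by positivity))
    have h0 : 0 ≤ P.S k - P.S (c.idx (w N)) :=
      sub_nonneg.2 (ivk_S_mono hP (IvCells.idx_mono hc (hwhi N (Nat.le_succ N))))
    show _ ≤ _ + 4 * (P.S k - P.S (c.idx (w N)))
    have : P.S k - P.S (c.idx (w N)) ≤ 4 * (P.S k - P.S (c.idx (w N))) := by linarith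
    exact add_le_add le_rfl this
  · intro j hj A hA hAb
    set κ := c.idx (w j) with hκ
    have hjz : w j ≤ z := hwhi j (by omega)
    have hκk : κ ≤ k := IvCells.idx_mono hc hjz
    have hκn : κ ≤ P.n := hκk.trans hkn
    set Δ := g.hZ z - g.hZ (w j) with hΔ
    have hΔη : g.η < Δ := hη j hj
    -- field length of the gap
    have b1 : g.hZ (g.zc k) - g.hZ (g.zc κ) ≤ P.hlen κ k := ivp_hlen_ge hg hκk (by omega)
    have zκ : g.zc κ ≤ w j := by
      have := IvCells.lft_idx_le (c := c) (x := w j) (hwlo j (by omega))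
      rwa [ivp_Z_lft] at this
    have b2 : g.hZ (g.zc κ) ≤ g.hZ (w j) :=
      hg.hZ_mono ⟨hg.zc_mono (Nat.zero_le _), zκ.trans (hjz.trans hz)⟩ ⟨hwlo j (by omega), hjz.trans hz⟩ zκ
    have zk1 : z ≤ g.zc (k + 1) := IvCells.le_b_idx (c := c) (k := P.n) hz
    have b3 : g.hZ z ≤ g.hZ (g.zc (k + 1)) :=
      hg.hZ_mono ⟨(hwlo j (by omega)).trans hjz, hz⟩
        ⟨hg.zc_mono (Nat.zero_le _), hg.zc_mono (by omega)⟩ zk1
    have b4 := hg.cell_le k hkn
    have hlen1 : Δ / 2 ≤ P.hlen κ k := by linarith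
    have hη0 : 0 ≤ g.η := by
      have := hg.cell_le k hkn
      have h5 : g.hZ (g.zc k) ≤ g.hZ (g.zc (k + 1)) :=
        hg.hZ_mono ⟨hg.zc_mono (Nat.zero_le _), hg.zc_mono (by omega)⟩
          ⟨hg.zc_mono (Nat.zero_le _), hg.zc_mono (by omega)⟩ (hg.zc_mono (Nat.le_succ k))
      linarith
    have hΔ0 : 0 < Δ := lt_of_le_of_lt hη0 hΔη
    have hlen2 : hmin ≤ P.hlen κ k := by have := hg.hmin_le; linarith
    have hκlt : κ < k := by
      rcases hκk.eq_or_lt with h | h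
      · exfalso
        have : P.hlen κ k = 0 := by unfold L8P.hlen; rw [h]; simp
        linarith
      · exact h
    -- mass of the gap
    have hvz : g.vz (w j) ≤ P.v κ := ivp_vz_le hg (hjz.trans hz)
    have hvl := hv j hj
    have hvpos : 0 < g.vz (w j) := lt_of_lt_of_le hg.vlow_pos hvl
    have hpr := ivk_proj_anchor hP hp hκlt (by omega) (hg.vmin_le.trans (hvl.trans hvz)) hlen2 hA hAb
    refine hpr.trans (mul_le_mul_of_nonneg_right ?_
      (integral_nonneg fun _ => Finset.sum_nonneg fun _ _ => sq_nonneg _))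
    have e : (ivpCut P g cs cp).kap (w j) z = cp / (g.vz (w j) ^ 2 * m * (Δ / 2)) := by
      unfold L11Cut.kap
      show 2 * cp * cs / (cs * m * g.vz (w j) ^ 2 * (g.hZ z - g.hZ (w j))) = _
      rw [← hΔ]
      field_simp
    rw [e]
    apply div_le_div_of_nonneg_left hcp (by positivity)
    gcongr

/-- **the imports of the cut layer hold for the step embedding of an abstract single path** -/
theorem ivp_cut_ok (hP : P.Ok) (hg : g.Ok P vmin hmin) {cs cp : ℝ} (hm : 0 < m) (hcs : 0 < cs) (hcp : 0 ≤ cp)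
    (hsus : P.Sus cs) (hp : P.Proj 1 cp vmin hmin) (hdhn : P.dh P.n = 0) :
    (ivpCut P g cs cp).Ok where
  msz_pos := mul_pos hcs (Nat.cast_pos.2 hm)
  Cp_nonneg := by show 0 ≤ 2 * cp * cs; positivity
  η_nonneg := by
    have := hg.cell_le 0 (Nat.zero_le _)
    have h5 : g.hZ (g.zc 0) ≤ g.hZ (g.zc (0 + 1)) :=
      hg.hZ_mono ⟨le_rfl, hg.zc_mono (Nat.zero_le _)⟩
        ⟨hg.zc_mono (Nat.zero_le _), hg.zc_mono (by omega)⟩ (hg.zc_mono (Nat.le_succ 0))
    show 0 ≤ g.η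
    linarith
  μ_nonneg := (sub_nonneg.2 (hg.zc_mono (Nat.le_succ 0))).trans (hg.mesh 0 (Nat.zero_le _))
  vlow_pos := hg.vlow_pos
  SZ_mono := (ivk_S_mono hP).comp (IvCells.idx_mono (ivp_Z_ok hg))
  SZ_nonneg := fun _ => ivk_S_nonneg _
  G_b := hg.G_b
  TrHZ_b := ivp_step_bdd (ivp_Z_ok hg) (f := fun k => ∫ ω, P.trH2 k ω ∂P.μ)
    fun k => integral_nonneg (ivk_trH2_nonneg k)
  EWZ_b := ivp_step_bdd (ivp_Z_ok hg) (f := fun k => ∫ ω, P.W k ω ∂P.μ) fun k => ivk_int_W_nonneg hP k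
  MixZ_b := ivp_step_bdd (ivp_Z_ok hg) (f := fun k => ∫ ω, P.xCx k ω ∂P.μ)
    fun k => integral_nonneg (ivk_xCx_nonneg hP k)
  src1 := fun z _ hz => by
    have h1 := ivk_v_int_W_le hP ((ivpZ P g).idx z)
    exact (mul_le_mul_of_nonneg_right (ivp_vz_le hg hz) (ivk_int_W_nonneg hP _)).trans h1
  src2 := fun z1 z2 κ h1 h12 h2 _ hsl => by
    refine IvCells.src2 (c := ivpZ P g) (ivp_Z_ok hg) (Sq := P.S) (Tq := fun k => ∫ ω, P.trH2 k ω ∂P.μ)
      (dq := P.dh) (K := cs * m) (μ := g.μ) (hk := g.hZ) (ivk_S_mono hP)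
      (fun k => integral_nonneg (ivk_trH2_nonneg k)) (by positivity) ?_ hg.hZ_mono ?_ ?_ h1 h12 h2 hsl
    · intro k hk
      rcases Nat.lt_or_ge k P.n with hlt | hge
      · exact hsus k hlt
      · have : k = P.n := le_antisymm hk hge
        rw [this, hdhn]
        simpa using sub_nonneg.2 (ivk_S_mono hP (Nat.le_succ P.n))
    · intro k hk
      rw [ivp_Z_lft]; exact hg.dh_ge k hk
    · intro k hk
      rw [ivp_Z_lft]; exact hg.mesh k hk
  chain := fun N w z hw0 hw hwz hz hv hη => ivp_chain hP hg hm hcs hcp hp N w z hw0 hw hwz hz hv hη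

/-! ### the bridge between the two coordinates -/

theorem ivp_cl_map {f : ℝ → ℝ} (hf : Monotone f) (α β x : ℝ) : ivCl (f α) (f β) (f x) = f (ivCl α β x) := by
  unfold ivCl; rw [hf.map_max, hf.map_min]

/-- change of variables `dv = G dz` for step functions of the cuts -/
theorem ivp_change (hP : P.Ok) (hg : g.Ok P vmin hmin) (f : ℕ → ℝ) {z1 z2 : ℝ} (h1 : g.zc 0 ≤ z1) (h12 : z1 ≤ z2)
    (h2 : z2 ≤ g.zc (P.n + 1)) :
    ∫ v in g.vz z1..g.vz z2, f ((ivpM P).idx v) = ∫ z in z1..z2, f ((ivpZ P g).idx z) * g.G z := by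
  obtain ⟨C, hG⟩ := hg.G_b
  have hGa : ∀ x, |g.G x| ≤ C := fun x => by rw [abs_of_nonneg (hG.nonneg x)]; exact hG.le x
  have a1 : (ivpM P).b0 ≤ g.vz z1 := by
    show (0 : ℝ) ≤ g.vz z1
    rw [← hg.v_zero]; exact hg.vz_mono h1
  have a2 : g.vz z2 ≤ (ivpM P).b (ivpM P).n := by
    show g.vz z2 ≤ P.v P.n
    rw [hg.v_eq P.n le_rfl]; exact hg.vz_mono h2
  rw [IvCells.step_integral_one (ivp_M_ok hP) f a1 (hg.vz_mono h12) a2,
    IvCells.step_integral (ivp_Z_ok hg) f hG.meas hGa h1 h12 h2]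
  refine Finset.sum_congr rfl fun k hk => ?_
  have hkn : k ≤ P.n := Nat.lt_succ_iff.1 (Finset.mem_range.1 hk)
  have e1 : (ivpM P).b k = g.vz (g.zc (k + 1)) := hg.v_eq k hkn
  have e2 : (ivpM P).lft k = g.vz (g.zc k) := by
    cases k with
    | zero => rw [IvCells.lft_zero]; exact hg.v_zero.symm
    | succ j => rw [IvCells.lft_succ]; exact hg.v_eq j (by omega)
  have e3 : (ivpZ P g).b k = g.zc (k + 1) := rfl
  unfold IvCells.len
  rw [e1, e2, ivp_cl_map hg.vz_mono, ivp_cl_map hg.vz_mono, ivp_Z_lft, e3,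
    hg.vz_int _ _ (h1.trans (ivc_cl_ge _ _ _)) (ivc_cl_mono _ _ (hg.zc_mono (Nat.le_succ k)))
      ((ivc_cl_le h12 _).trans h2)]
  ring

/-- **the bridge of 228 holds for the two step embeddings** -/
theorem ivp_bridge (hP : P.Ok) (hg : g.Ok P vmin hmin) (c0 cs cp μ : ℝ) (hclk : ℝ → ℝ) :
    L11Bridge (ivpMass P c0 cs μ hclk) (ivpCut P g cs cp) where
  vz_mono := hg.vz_mono
  vz_int := hg.vz_int
  vz_a := by
    show g.vz (g.zc (P.n + 1)) ≤ P.a
    rw [← hg.v_eq P.n le_rfl, hP.v_term P.n le_rfl]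
  EW_le := fun z1 z2 h1 h12 h2 => (ivp_change hP hg (fun k => ∫ ω, P.W k ω ∂P.μ) h1 h12 h2).le
  Mix_le := fun z1 z2 h1 h12 h2 => (ivp_change hP hg (fun k => ∫ ω, P.xCx k ω ∂P.μ) h1 h12 h2).le

end cut

end Claimed.Agent.R286
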