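import Claimed.Agent.R286.L08.IvD7C
import Claimed.Agent.R286.L08.IvP
import Claimed.Agent.R286.PM.Defs

/-!
# Row 286 (S0533), folder L08, file IvD7I : THE INSTANCE OF THE LINK `L8D7.Ok` FROM THE INSTANCE RECORD `SkpI.Ok` OF PM      (owner helper298; head of the unit IV: helper228; prefix `L8D7X` / `l8d7i`)

TEX[LL:lem:statistics-integrated]  (LL 08-statistics.tex l.631-745, (D7)).

ONE instance record serves PM (Prop 8.1) and IV (Lemma 8.3): `J : SkpI Ω m` with `J.Ok S` (PM/Defs.lean, helper37) + the few extra facts `L8D7X S J cs Czb`.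
Everything which the layers of 228 / 189 / 298 ask in addition is CONSTRUCTED here:
* `l8d7iZc`   the grid of `J`, prolonged beyond the cut `nb` (coordinate `zbuf`) by cells of length `δ`;
* `l8d7iG`    the density: `d.G` on `(0, zbuf]`, the step function `dv k / δ` beyond;   `vz z = ∫_0^z G`;
* the sampled clock `hZ z = κ0 Φ(clamp z)`, `Φ(z) = ∫_0^z r(s)² ds`, `κ0 = cD3 λ₁ / 4`: the MINIMAL clock allowed by (D3) (only `hZ`-increments `≤ dh k` are needed), so no bound of the field mesh is asked;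
* `l8d7iD`    the record `L8D7`;      **`l8d7i_ok : (l8d7iD S J cs Czb).Ok`**.
PART 2: sum forms over the cuts of a mass band;   PART 3: closed forms.
-/

set_option autoImplicit false

namespace Claimed.Agent.R286

open MeasureTheory Set

variable {Ω : Type} [mΩ : MeasurableSpace Ω] {m : ℕ}

/-! ### the minimal clock -/

/-- `Φ(z) = ∫_0^z r(s)² ds` -/
noncomputable def l8d7iPhi (z : ℝ) : ℝ := ∫ s in (0 : ℝ)..z, skwR s ^ 2

theorem l8d7i_R_cont : Continuous skwR := continuous_id.min continuous_const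

theorem l8d7i_R2_ii (a b : ℝ) : IntervalIntegrable (fun s => skwR s ^ 2) volume a b :=
  (l8d7i_R_cont.pow 2).intervalIntegrable a b

theorem l8d7i_Phi_sub (a b : ℝ) : l8d7iPhi b - l8d7iPhi a = ∫ s in a..b, skwR s ^ 2 :=
  intervalIntegral.integral_interval_sub_left (l8d7i_R2_ii _ _) (l8d7i_R2_ii _ _)

theorem l8d7i_R_nonneg {z : ℝ} (h : 0 ≤ z) : 0 ≤ skwR z := le_min h zero_le_one

theorem l8d7i_Phi_lo {a b : ℝ} (h0 : 0 ≤ a) (hab : a ≤ b) : skwR a ^ 2 * (b - a) ≤ l8d7iPhi b - l8d7iPhi a := by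
  rw [l8d7i_Phi_sub]
  have h := intervalIntegral.integral_mono_on (μ := volume) hab (intervalIntegrable_const (c := skwR a ^ 2)) (l8d7i_R2_ii a b)
    (fun s hs => pow_le_pow_left₀ (l8d7i_R_nonneg h0) (l8d7_R_mono hs.1) 2)
  simpa [mul_comm] using h

theorem l8d7i_Phi_hi {a b : ℝ} (h0 : 0 ≤ a) (hab : a ≤ b) : l8d7iPhi b - l8d7iPhi a ≤ skwR b ^ 2 * (b - a) := by
  rw [l8d7i_Phi_sub]
  have h := intervalIntegral.integral_mono_on (μ := volume) hab (l8d7i_R2_ii a b) (intervalIntegrable_const (c := skwR b ^ 2))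
    (fun s hs => pow_le_pow_left₀ (l8d7i_R_nonneg (h0.trans hs.1)) (l8d7_R_mono hs.2) 2)
  simpa [mul_comm] using h

theorem l8d7i_R_add_le {z ε : ℝ} (hε : 0 ≤ ε) : skwR (z + ε) ≤ skwR z + ε := by
  unfold skwR
  rcases le_total z 1 with h | h
  · rw [min_eq_left h]; exact min_le_left _ _
  · rw [min_eq_right h]; exact (min_le_right _ _).trans (by linarith)

theorem l8d7i_cl_sub_le {α β : ℝ} {a b : ℝ} (hab : a ≤ b) : ivCl α β b - ivCl α β a ≤ b - a := by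
  unfold ivCl
  rcases le_total a β with h1 | h1 <;> rcases le_total b β with h2 | h2 <;>
    rcases le_total α a with h3 | h3 <;> rcases le_total α b with h4 | h4 <;>
    rcases le_total α β with h5 | h5 <;> simp [*] <;> linarith

/-! ### the prolonged grid -/

/-- the grid of `J`, prolonged beyond the cut `nb` by cells of length `δ` -/
noncomputable def l8d7iZc (J : SkpI Ω m) (k : ℕ) : ℝ :=
  if k ≤ J.nb then J.zc k else J.zbuf + ((min k (J.P.n + 1) - J.nb : ℕ) : ℝ) * J.δ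

/-- its cells -/
noncomputable def l8d7iCells (J : SkpI Ω m) : IvCells := ⟨J.P.n, l8d7iZc J 0, fun k => l8d7iZc J (k + 1)⟩

/-- the density -/
noncomputable def l8d7iG (J : SkpI Ω m) (z : ℝ) : ℝ :=
  if z ≤ 0 then 0 else if z ≤ J.zbuf then J.d.G z else J.P.dv ((l8d7iCells J).idx z) / J.δ

/-- the slope of (D3) -/
noncomputable def l8d7iK0 (S : SkpS) (J : SkpI Ω m) : ℝ := S.cD3 * J.lam1 / 4

/-- the cut coordinate -/
noncomputable def l8d7iGrid (S : SkpS) (J : SkpI Ω m) : IvGrid where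
  zc := l8d7iZc J
  hZ := fun z => l8d7iK0 S J * l8d7iPhi (ivCl (J.d.zlo / 4 + J.δ) J.zbuf z)
  vz := fun z => ∫ s in (0 : ℝ)..z, l8d7iG J s
  G := l8d7iG J
  μ := J.δ
  η := 2 * J.lowb + 2 * l8d7iK0 S J * J.δ
  vlow := J.lowb

/-- the facts which IV needs beyond `SkpI.Ok` -/
structure L8D7X (S : SkpS) (J : SkpI Ω m) (cs Czb : ℝ) : Prop where
  cs0 : 0 < cs
  /-- (A1), line 2 -/
  sus : J.P.Sus cs
  dhn : J.P.dh J.P.n = 0
  Gm : Measurable J.d.G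
  /-- qualitative: the bound does not enter any constant -/
  Gb : ∃ MG : ℝ, ∀ z ∈ Icc 0 J.zbuf, J.d.G z ≤ MG
  zhibuf : J.zhi ≤ J.zbuf
  Czb1 : 1 ≤ Czb
  zbufC : J.zbuf ≤ Czb
  /-- low-region variant: a buffer;   direct path: `zhi = zbuf` = the last cut -/
  top : J.zhi + J.δ ≤ J.zbuf ∨ J.P.S J.P.n ≤ J.d.S J.zbuf
  blo : J.d.x ^ 10 ≤ J.d.b
  small : J.d.x ≤ 1 / (4 * S.Cv * S.CW)

section grid

variable {S : SkpS} {J : SkpI Ω m}

theorem l8d7i_zc_le {k : ℕ} (h : k ≤ J.nb) : l8d7iZc J k = J.zc k := by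
  unfold l8d7iZc; rw [if_pos h]

theorem l8d7i_zc_ge (hJ : J.Ok S) {k : ℕ} (h : J.nb ≤ k) :
    l8d7iZc J k = J.zbuf + ((min k (J.P.n + 1) - J.nb : ℕ) : ℝ) * J.δ := by
  rcases h.eq_or_lt with h | h
  · have h1 : min k (J.P.n + 1) - J.nb = 0 := by have := hJ.nbn; omega
    rw [l8d7i_zc_le h.ge, h1, ← h, hJ.nb]; simp
  · unfold l8d7iZc; rw [if_neg (by omega)]

theorem l8d7i_zc_zero (hJ : J.Ok S) : l8d7iZc J 0 = 0 := by
  rw [l8d7i_zc_le (Nat.zero_le _)]; exact hJ.z0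

theorem l8d7i_zc_succ (hJ : J.Ok S) {k : ℕ} (h : J.nb ≤ k) (hk : k ≤ J.P.n) :
    l8d7iZc J (k + 1) = l8d7iZc J k + J.δ := by
  rw [l8d7i_zc_ge hJ h, l8d7i_zc_ge hJ (h.trans (Nat.le_succ k))]
  have e1 : min (k + 1) (J.P.n + 1) - J.nb = (k - J.nb) + 1 := by omega
  have e2 : min k (J.P.n + 1) - J.nb = k - J.nb := by omega
  rw [e1, e2]; push_cast; ring

theorem l8d7i_zc_mono (hJ : J.Ok S) : Monotone (l8d7iZc J) := by
  refine monotone_nat_of_le_succ fun k => ?_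
  rcases Nat.lt_or_ge k J.nb with h | h
  · rw [l8d7i_zc_le h.le, l8d7i_zc_le h]; exact hJ.zmono (Nat.le_succ k)
  · rw [l8d7i_zc_ge hJ h, l8d7i_zc_ge hJ (h.trans (Nat.le_succ k))]
    have : ((min k (J.P.n + 1) - J.nb : ℕ) : ℝ) ≤ ((min (k + 1) (J.P.n + 1) - J.nb : ℕ) : ℝ) := by
      exact_mod_cast (by omega : min k (J.P.n + 1) - J.nb ≤ min (k + 1) (J.P.n + 1) - J.nb)
    have := mul_le_mul_of_nonneg_right this hJ.δ0.le
    linarith

theorem l8d7i_zc_top (hJ : J.Ok S) (k : ℕ) (h : J.P.n + 1 ≤ k) : l8d7iZc J k = l8d7iZc J (J.P.n + 1) := by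
  have := hJ.nbn
  rw [l8d7i_zc_ge hJ (by omega), l8d7i_zc_ge hJ (by omega)]
  have : min k (J.P.n + 1) = min (J.P.n + 1) (J.P.n + 1) := by omega
  rw [this]

theorem l8d7i_zc_mesh (hJ : J.Ok S) (k : ℕ) (hk : k ≤ J.P.n) : l8d7iZc J (k + 1) - l8d7iZc J k ≤ J.δ := by
  rcases Nat.lt_or_ge k J.nb with h | h
  · rw [l8d7i_zc_le h.le, l8d7i_zc_le h]; exact hJ.zmesh k h
  · rw [l8d7i_zc_succ hJ h hk]; linarith

theorem l8d7i_zc_nb (hJ : J.Ok S) : l8d7iZc J J.nb = J.zbuf := by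
  rw [l8d7i_zc_le le_rfl]; exact hJ.nb

theorem l8d7i_cells_ok (hJ : J.Ok S) : (l8d7iCells J).Ok :=
  ⟨fun _ _ h => l8d7i_zc_mono hJ (Nat.succ_le_succ h), l8d7i_zc_mono hJ (Nat.zero_le 1), fun k hk => by
    show l8d7iZc J (k + 1) = l8d7iZc J (J.P.n + 1)
    exact l8d7i_zc_top hJ (k + 1) (Nat.succ_le_succ hk)⟩

theorem l8d7i_cells_lft (k : ℕ) : (l8d7iCells J).lft k = l8d7iZc J k := by
  cases k with
  | zero => rfl
  | succ j => rw [IvCells.lft_succ]; rfl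

theorem l8d7i_dv_le (hP : J.P.Ok) (k : ℕ) : J.P.dv k ≤ J.P.a := by
  have h1 := ivk_v_le_a hP k
  unfold L8P.dv
  split_ifs with h
  · linarith
  · have := hP.v_nonneg (k - 1); linarith

/-- the density is bounded, measurable, nonnegative -/
theorem l8d7i_G_b {cs Czb : ℝ} (hJ : J.Ok S) (hX : L8D7X S J cs Czb) : ∃ C, L11Bdd (l8d7iG J) C := by
  obtain ⟨MG, hMG⟩ := hX.Gb
  have hδ := hJ.δ0
  have ha := hJ.sp.a_pos
  refine ⟨max (max MG 0) (J.P.a / J.δ), ?_, ?_, ?_⟩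
  · unfold l8d7iG
    refine Measurable.ite measurableSet_Iic measurable_const (Measurable.ite measurableSet_Iic hX.Gm ?_)
    exact (IvCells.step_meas (l8d7i_cells_ok hJ) J.P.dv).div_const _
  · intro z
    unfold l8d7iG
    split_ifs with h1 h2
    · exact le_rfl
    · exact hJ.wh.G0 z ⟨(not_le.1 h1).le, h2.trans hJ.zbuf⟩
    · exact div_nonneg (ivk_dv_nonneg hJ.sp _) hδ.le
  · intro z
    unfold l8d7iG
    split_ifs with h1 h2
    · exact le_max_of_le_left (le_max_right _ _)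
    · exact le_max_of_le_left (le_max_of_le_left (hMG z ⟨(not_le.1 h1).le, h2⟩))
    · exact le_max_of_le_right (div_le_div_of_nonneg_right (l8d7i_dv_le hJ.sp _) hδ.le)

theorem l8d7i_G_ii {cs Czb : ℝ} (hJ : J.Ok S) (hX : L8D7X S J cs Czb) (a b : ℝ) :
    IntervalIntegrable (l8d7iG J) volume a b :=
  let ⟨_, h⟩ := l8d7i_G_b hJ hX; l11_ii h a b

theorem l8d7i_G_nonneg {cs Czb : ℝ} (hJ : J.Ok S) (hX : L8D7X S J cs Czb) (z : ℝ) : 0 ≤ l8d7iG J z :=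
  let ⟨_, h⟩ := l8d7i_G_b hJ hX; h.nonneg z

theorem l8d7i_vz_sub {cs Czb : ℝ} (hJ : J.Ok S) (hX : L8D7X S J cs Czb) (a b : ℝ) :
    (l8d7iGrid S J).vz b - (l8d7iGrid S J).vz a = ∫ s in a..b, l8d7iG J s :=
  intervalIntegral.integral_interval_sub_left (l8d7i_G_ii hJ hX _ _) (l8d7i_G_ii hJ hX _ _)

theorem l8d7i_vz_mono {cs Czb : ℝ} (hJ : J.Ok S) (hX : L8D7X S J cs Czb) : Monotone (l8d7iGrid S J).vz := by
  intro a b hab
  have h := l8d7i_vz_sub (S := S) hJ hX a b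
  have h0 : 0 ≤ ∫ s in a..b, l8d7iG J s := intervalIntegral.integral_nonneg hab fun z _ => l8d7i_G_nonneg hJ hX z
  linarith

theorem l8d7i_zc_nonneg (hJ : J.Ok S) (k : ℕ) : 0 ≤ l8d7iZc J k := by
  rw [← l8d7i_zc_zero hJ]; exact l8d7i_zc_mono hJ (Nat.zero_le k)

theorem l8d7i_zbuf_pos (hS : S.Ok) (hJ : J.Ok S) : 0 < J.zbuf := lt_of_lt_of_le hS.zreg hJ.zreg

/-- the mass of the cell `k` -/
theorem l8d7i_cell {cs Czb : ℝ} (hS : S.Ok) (hJ : J.Ok S) (_hX : L8D7X S J cs Czb) {k : ℕ} (hk : k ≤ J.P.n) :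
    ∫ s in l8d7iZc J k..l8d7iZc J (k + 1), l8d7iG J s = J.P.dv k := by
  have hle : l8d7iZc J k ≤ l8d7iZc J (k + 1) := l8d7i_zc_mono hJ (Nat.le_succ k)
  rcases Nat.lt_or_ge k J.nb with h | h
  · have e : ∫ s in l8d7iZc J k..l8d7iZc J (k + 1), l8d7iG J s = ∫ s in l8d7iZc J k..l8d7iZc J (k + 1), J.d.G s := by
      rw [intervalIntegral.integral_of_le hle, intervalIntegral.integral_of_le hle]
      refine setIntegral_congr_fun measurableSet_Ioc fun s hs => ?_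
      have h1 : 0 < s := lt_of_le_of_lt (l8d7i_zc_nonneg hJ k) hs.1
      have h2 : s ≤ J.zbuf := by
        rw [← l8d7i_zc_nb hJ]; exact hs.2.trans (l8d7i_zc_mono hJ h)
      show l8d7iG J s = J.d.G s
      unfold l8d7iG
      rw [if_neg (not_le.2 h1), if_pos h2]
    rw [e, l8d7i_zc_le h.le, l8d7i_zc_le h]
    exact (hJ.gaplink k h).symm
  · have hδ := hJ.δ0
    have e : ∫ s in l8d7iZc J k..l8d7iZc J (k + 1), l8d7iG J s
        = ∫ _s in l8d7iZc J k..l8d7iZc J (k + 1), J.P.dv k / J.δ := by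
      rw [intervalIntegral.integral_of_le hle, intervalIntegral.integral_of_le hle]
      refine setIntegral_congr_fun measurableSet_Ioc fun s hs => ?_
      have h0 : J.zbuf ≤ l8d7iZc J k := by rw [← l8d7i_zc_nb hJ]; exact l8d7i_zc_mono hJ h
      have h2 : J.zbuf < s := lt_of_le_of_lt h0 hs.1
      have h1 : 0 < s := (l8d7i_zbuf_pos hS hJ).trans h2
      have h3 : (l8d7iCells J).idx s = k :=
        IvCells.idx_eq (l8d7i_cells_ok hJ) (by rw [l8d7i_cells_lft]; exact hs.1) hs.2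
      show l8d7iG J s = J.P.dv k / J.δ
      unfold l8d7iG
      rw [if_neg (not_le.2 h1), if_neg (not_le.2 h2), h3]
    rw [e, intervalIntegral.integral_const, l8d7i_zc_succ hJ h hk, smul_eq_mul]
    field_simp
    ring

theorem l8d7i_vz_zero : (l8d7iGrid S J).vz 0 = 0 := by
  show ∫ s in (0 : ℝ)..0, l8d7iG J s = 0
  exact intervalIntegral.integral_same

/-- right-endpoint rule -/
theorem l8d7i_v_eq {cs Czb : ℝ} (hS : S.Ok) (hJ : J.Ok S) (hX : L8D7X S J cs Czb) :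
    ∀ k ≤ J.P.n, J.P.v k = (l8d7iGrid S J).vz (l8d7iZc J (k + 1)) := by
  intro k
  induction k with
  | zero =>
    intro hk
    have h1 := l8d7i_vz_sub (S := S) hJ hX (l8d7iZc J 0) (l8d7iZc J (0 + 1))
    rw [l8d7i_cell hS hJ hX hk, l8d7i_zc_zero hJ, l8d7i_vz_zero] at h1
    have h2 : J.P.dv 0 = J.P.v 0 := by simp [L8P.dv]
    rw [h2] at h1
    linarith
  | succ k ih =>
    intro hk
    have h1 := l8d7i_vz_sub (S := S) hJ hX (l8d7iZc J (k + 1)) (l8d7iZc J (k + 1 + 1))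
    rw [l8d7i_cell hS hJ hX hk, ← ih (by omega)] at h1
    have h2 : J.P.dv (k + 1) = J.P.v (k + 1) - J.P.v k := by simp [L8P.dv]
    rw [h2] at h1
    linarith

/-- smallness -/
theorem l8d7i_x {cs Czb : ℝ} (hS : S.Ok) (hJ : J.Ok S) (hX : L8D7X S J cs Czb) :
    0 < J.d.x ∧ J.d.x ≤ 1 / 4 ∧ J.d.x ≤ 1 / (4 * S.Cv) ∧ J.d.x ≤ 1 / S.CW := by
  have h1 := hS.Cv
  have h2 := hS.CW
  have h := hX.small
  refine ⟨hJ.wh.x0, h.trans ?_, h.trans ?_, h.trans ?_⟩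
  · apply div_le_div_of_nonneg_left zero_le_one (by norm_num); nlinarith
  · apply div_le_div_of_nonneg_left zero_le_one (by positivity); nlinarith
  · apply div_le_div_of_nonneg_left zero_le_one (by positivity); nlinarith

theorem l8d7i_delta {cs Czb : ℝ} (hS : S.Ok) (hJ : J.Ok S) (hX : L8D7X S J cs Czb) :
    J.δ ≤ J.d.x ^ 3 ∧ J.d.x ^ 3 ≤ J.d.x / 16 ∧ J.δ ≤ J.d.zlo / 16 ∧ J.δ ≤ 1 / 64 := by
  obtain ⟨hx0, hx4, _, _⟩ := l8d7i_x hS hJ hX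
  have h1 : J.δ ≤ J.d.x ^ 3 := hJ.mesh.trans (pow_le_pow_of_le_one hx0.le (by linarith) (by norm_num))
  have h2 : J.d.x ^ 3 ≤ J.d.x / 16 := by
    have : J.d.x ^ 2 ≤ 1 / 16 := by nlinarith
    nlinarith
  have h3 := hJ.zlox
  exact ⟨h1, h2, by linarith, by linarith⟩

theorem l8d7i_K0_pos (hS : S.Ok) (hJ : J.Ok S) : 0 < l8d7iK0 S J := by
  have h1 := hS.cD3
  have h2 : 0 < J.lam1 := lt_of_lt_of_le (pow_pos hJ.wh.x0 14) hJ.lam1a
  unfold l8d7iK0; positivity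

theorem l8d7i_z1 {cs Czb : ℝ} (hS : S.Ok) (hJ : J.Ok S) (hX : L8D7X S J cs Czb) :
    0 < J.d.zlo / 4 + J.δ ∧ J.d.zlo / 4 + J.δ ≤ J.d.zlo / 2 ∧ J.d.zlo / 2 ≤ J.zbuf := by
  have h1 := hJ.wh.zlo0
  have h2 := hJ.δ0
  obtain ⟨_, _, h3, _⟩ := l8d7i_delta hS hJ hX
  have h4 := hJ.zloreg
  have h5 := hJ.zreg
  exact ⟨by linarith, by linarith, by linarith⟩

/-- increments of the minimal clock -/
theorem l8d7i_hZ_sub_nonneg {cs Czb : ℝ} (hS : S.Ok) (hJ : J.Ok S) (hX : L8D7X S J cs Czb) {a b : ℝ} (hab : a ≤ b) :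
    0 ≤ (l8d7iGrid S J).hZ b - (l8d7iGrid S J).hZ a := by
  obtain ⟨h1, _, _⟩ := l8d7i_z1 hS hJ hX
  have h2 : 0 ≤ ivCl (J.d.zlo / 4 + J.δ) J.zbuf a := h1.le.trans (ivc_cl_ge _ _ _)
  have h3 := l8d7i_Phi_lo h2 (ivc_cl_mono (J.d.zlo / 4 + J.δ) J.zbuf hab)
  have h4 : 0 ≤ skwR (ivCl (J.d.zlo / 4 + J.δ) J.zbuf a) ^ 2
      * (ivCl (J.d.zlo / 4 + J.δ) J.zbuf b - ivCl (J.d.zlo / 4 + J.δ) J.zbuf a) :=
    mul_nonneg (sq_nonneg _) (sub_nonneg.2 (ivc_cl_mono _ _ hab))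
  have h5 := (l8d7i_K0_pos hS hJ).le
  show 0 ≤ l8d7iK0 S J * l8d7iPhi _ - l8d7iK0 S J * l8d7iPhi _
  rw [← mul_sub]
  exact mul_nonneg h5 (h4.trans h3)

theorem l8d7i_hZ_sub_le {cs Czb : ℝ} (hS : S.Ok) (hJ : J.Ok S) (hX : L8D7X S J cs Czb) {a b : ℝ} (hab : a ≤ b) :
    (l8d7iGrid S J).hZ b - (l8d7iGrid S J).hZ a
      ≤ l8d7iK0 S J * (skwR (ivCl (J.d.zlo / 4 + J.δ) J.zbuf b) ^ 2 * (b - a)) := by
  obtain ⟨h1, _, _⟩ := l8d7i_z1 hS hJ hX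
  have h2 : 0 ≤ ivCl (J.d.zlo / 4 + J.δ) J.zbuf a := h1.le.trans (ivc_cl_ge _ _ _)
  have h3 := l8d7i_Phi_hi h2 (ivc_cl_mono (J.d.zlo / 4 + J.δ) J.zbuf hab)
  have h4 := l8d7i_cl_sub_le (α := J.d.zlo / 4 + J.δ) (β := J.zbuf) hab
  have h5 := (l8d7i_K0_pos hS hJ).le
  show l8d7iK0 S J * l8d7iPhi _ - l8d7iK0 S J * l8d7iPhi _ ≤ _
  rw [← mul_sub]
  exact mul_le_mul_of_nonneg_left (h3.trans (mul_le_mul_of_nonneg_left h4 (sq_nonneg _))) h5

/-- the minimal clock is dominated by the field increments of the path: this is (D3) on one cell -/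
theorem l8d7i_dh_ge {cs Czb : ℝ} (hS : S.Ok) (hJ : J.Ok S) (hX : L8D7X S J cs Czb) (k : ℕ) (hk : k ≤ J.P.n) :
    (l8d7iGrid S J).hZ (l8d7iZc J (k + 1)) - (l8d7iGrid S J).hZ (l8d7iZc J k) ≤ J.P.dh k := by
  obtain ⟨hz1, hz2, hz3⟩ := l8d7i_z1 hS hJ hX
  obtain ⟨_, _, hδ1, hδ2⟩ := l8d7i_delta hS hJ hX
  have hδ := hJ.δ0
  have hle : l8d7iZc J k ≤ l8d7iZc J (k + 1) := l8d7i_zc_mono hJ (Nat.le_succ k)
  have hmesh := l8d7i_zc_mesh hJ k hk
  have hdh := hJ.sp.dh_nonneg k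
  have hz1b : J.d.zlo / 4 + J.δ ≤ J.zbuf := hz2.trans hz3
  have hsame : ∀ c : ℝ, ivCl (J.d.zlo / 4 + J.δ) J.zbuf (l8d7iZc J (k + 1)) = c →
      ivCl (J.d.zlo / 4 + J.δ) J.zbuf (l8d7iZc J k) = c →
      (l8d7iGrid S J).hZ (l8d7iZc J (k + 1)) - (l8d7iGrid S J).hZ (l8d7iZc J k) ≤ J.P.dh k := by
    intro c e1 e2
    show l8d7iK0 S J * l8d7iPhi _ - l8d7iK0 S J * l8d7iPhi _ ≤ _
    rw [e1, e2, sub_self]; exact hdh
  rcases Nat.lt_or_ge k J.nb with h | h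
  · rcases lt_or_ge (l8d7iZc J k) (J.d.zlo / 4) with ha | ha
    · exact hsame _ (ivc_cl_of_le (by linarith) hz1b) (ivc_cl_of_le (by linarith) hz1b)
    · refine (l8d7i_hZ_sub_le hS hJ hX hle).trans ?_
      set a := l8d7iZc J k with ha'
      set b := l8d7iZc J (k + 1) with hb'
      have ha0 : 0 ≤ a := l8d7i_zc_nonneg hJ k
      have hcl : ivCl (J.d.zlo / 4 + J.δ) J.zbuf b ≤ a + J.δ := by
        unfold ivCl
        exact max_le (by linarith) ((min_le_left _ _).trans (by linarith))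
      have hRa : J.δ ≤ skwR a := le_min (by linarith) (by linarith)
      have hR : skwR (ivCl (J.d.zlo / 4 + J.δ) J.zbuf b) ≤ 2 * skwR a :=
        (l8d7_R_mono hcl).trans ((l8d7i_R_add_le hδ.le).trans (by linarith))
      have hR0 : 0 ≤ skwR (ivCl (J.d.zlo / 4 + J.δ) J.zbuf b) :=
        l8d7i_R_nonneg (hz1.le.trans (ivc_cl_ge _ _ _))
      have hsq : skwR (ivCl (J.d.zlo / 4 + J.δ) J.zbuf b) ^ 2 ≤ 4 * skwR a ^ 2 := by
        have := pow_le_pow_left₀ hR0 hR 2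
        calc _ ≤ (2 * skwR a) ^ 2 := this
          _ = _ := by ring
      have hD3 := hJ.D3 k (k + 1) (Nat.lt_succ_self k) h (by
        show J.d.zlo / 4 ≤ J.zc k
        rw [← l8d7i_zc_le h.le]; exact ha)
      have e1 : J.P.hlen k (k + 1) = J.P.dh k := by simp [L8P.hlen]
      have e2 : J.z k = a := by rw [ha', l8d7i_zc_le h.le]; rfl
      have e3 : J.z (k + 1) = b := by rw [hb', l8d7i_zc_le h]; rfl
      rw [e1, e2, e3] at hD3
      refine le_trans ?_ hD3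
      have hba : 0 ≤ b - a := sub_nonneg.2 hle
      have hK := (l8d7i_K0_pos hS hJ).le
      calc l8d7iK0 S J * (skwR (ivCl (J.d.zlo / 4 + J.δ) J.zbuf b) ^ 2 * (b - a))
          ≤ l8d7iK0 S J * (4 * skwR a ^ 2 * (b - a)) :=
            mul_le_mul_of_nonneg_left (mul_le_mul_of_nonneg_right hsq hba) hK
        _ = S.cD3 * J.lam1 * skwR a ^ 2 * (b - a) := by unfold l8d7iK0; ring
  · have h0 : J.zbuf ≤ l8d7iZc J k := by rw [← l8d7i_zc_nb hJ]; exact l8d7i_zc_mono hJ h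
    exact hsame _ (ivc_cl_of_ge (h0.trans hle) hz1b) (ivc_cl_of_ge h0 hz1b)

/-- **the cut coordinate is compatible with the path** -/
theorem l8d7i_grid_ok {cs Czb : ℝ} (hS : S.Ok) (hJ : J.Ok S) (hX : L8D7X S J cs Czb) :
    (l8d7iGrid S J).Ok J.P J.lowb J.lowb where
  zc_mono := l8d7i_zc_mono hJ
  zc_top := l8d7i_zc_top hJ
  mesh := l8d7i_zc_mesh hJ
  hZ_mono := fun a _ b _ hab => sub_nonneg.1 (l8d7i_hZ_sub_nonneg hS hJ hX hab)
  vz_mono := l8d7i_vz_mono hJ hX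
  G_b := l8d7i_G_b hJ hX
  vz_int := fun z1 z2 _ _ _ => l8d7i_vz_sub hJ hX z1 z2
  v_zero := by
    show (l8d7iGrid S J).vz (l8d7iZc J 0) = 0
    rw [l8d7i_zc_zero hJ]; exact l8d7i_vz_zero
  v_eq := l8d7i_v_eq hS hJ hX
  dh_ge := l8d7i_dh_ge hS hJ hX
  cell_le := fun k hk => by
    have h1 := l8d7i_hZ_sub_le hS hJ hX (l8d7i_zc_mono hJ (Nat.le_succ k))
    have h2 := l8d7i_zc_mesh hJ k hk
    have h3 := (l8d7i_K0_pos hS hJ).le
    have h4 : 0 ≤ l8d7iZc J (k + 1) - l8d7iZc J k := sub_nonneg.2 (l8d7i_zc_mono hJ (Nat.le_succ k))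
    obtain ⟨hz1, _, _⟩ := l8d7i_z1 hS hJ hX
    have h5 : skwR (ivCl (J.d.zlo / 4 + J.δ) J.zbuf (l8d7iZc J (k + 1))) ^ 2 ≤ 1 :=
      pow_le_one₀ (l8d7i_R_nonneg (hz1.le.trans (ivc_cl_ge _ _ _))) (l8d7_R_le_one _)
    have h6 : skwR (ivCl (J.d.zlo / 4 + J.δ) J.zbuf (l8d7iZc J (k + 1))) ^ 2 * (l8d7iZc J (k + 1) - l8d7iZc J k) ≤ J.δ := by
      nlinarith
    have h7 := mul_le_mul_of_nonneg_left h6 h3
    have h8 := hJ.lowb0
    show 2 * ((l8d7iGrid S J).hZ (l8d7iZc J (k + 1)) - (l8d7iGrid S J).hZ (l8d7iZc J k)) ≤ 2 * J.lowb + 2 * l8d7iK0 S J * J.δ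
    nlinarith
  hmin_le := by
    have h3 := (l8d7i_K0_pos hS hJ).le
    have := hJ.δ0
    show 2 * J.lowb ≤ 2 * J.lowb + 2 * l8d7iK0 S J * J.δ
    have : 0 ≤ 2 * l8d7iK0 S J * J.δ := by positivity
    linarith
  vlow_pos := hJ.lowb0
  vmin_le := le_rfl

end grid

/-! ### the record of the link -/

/-- the record `L8D7` of an instance of PM -/
noncomputable def l8d7iD (S : SkpS) (J : SkpI Ω m) (cs Czb : ℝ) : L8D7 where
  c := S.c
  d := J.d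
  C := S.CW
  zhi := J.zhi
  zbuf := J.zbuf
  zj := J.zj
  hh := J.hh
  cut := ivpCut J.P (l8d7iGrid S J) cs ((S.K.cA3 1 * J.Lg ^ 2) ^ (2 * 1))
  ms := ivpMass J.P (S.K.cA1 1) cs J.P.a (fun _ => 0)
  cv := 1 / (2 * S.Cv)
  Cv := 2 * S.Cv
  κ0 := l8d7iK0 S J
  CS := S.c.Cf + S.Cq
  Cz := Czb

section link

variable {S : SkpS} {J : SkpI Ω m} {cs Czb : ℝ}

theorem l8d7i_nb_pos (hS : S.Ok) (hJ : J.Ok S) : 1 ≤ J.nb := by
  by_contra h
  have h0 : J.nb = 0 := by omega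
  have h1 := hJ.nb
  rw [h0, hJ.z0] at h1
  have := l8d7i_zbuf_pos hS hJ
  linarith

/-- the cell of a point of `(0, zbuf]` -/
theorem l8d7i_idx (hS : S.Ok) (hJ : J.Ok S) {z : ℝ} (h0 : 0 < z) (h1 : z ≤ J.zbuf) :
    (l8d7iCells J).idx z < J.nb ∧ J.zc ((l8d7iCells J).idx z) < z ∧ z ≤ J.zc ((l8d7iCells J).idx z + 1) := by
  have hnb := l8d7i_nb_pos hS hJ
  have hb : z ≤ (l8d7iCells J).b (J.nb - 1) := by
    show z ≤ l8d7iZc J (J.nb - 1 + 1)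
    rw [Nat.sub_add_cancel hnb, l8d7i_zc_nb hJ]; exact h1
  have hk : (l8d7iCells J).idx z ≤ J.nb - 1 := IvCells.idx_le hb
  have hk' : (l8d7iCells J).idx z < J.nb := by omega
  have h2 : (l8d7iCells J).lft ((l8d7iCells J).idx z) < z :=
    IvCells.lft_idx_lt (c := l8d7iCells J) (by show l8d7iZc J 0 < z; rw [l8d7i_zc_zero hJ]; exact h0)
  have h3 : z ≤ (l8d7iCells J).b ((l8d7iCells J).idx z) := IvCells.le_b_idx hb
  rw [l8d7i_cells_lft, l8d7i_zc_le hk'.le] at h2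
  have h4 : z ≤ l8d7iZc J ((l8d7iCells J).idx z + 1) := h3
  rw [l8d7i_zc_le hk'] at h4
  exact ⟨hk', h2, h4⟩

theorem l8d7i_zc_mem (hJ : J.Ok S) {k : ℕ} (hk : k ≤ J.nb) : J.zc k ∈ Icc 0 J.zbuf :=
  ⟨by rw [← hJ.z0]; exact hJ.zmono (Nat.zero_le k), by rw [← hJ.nb]; exact hJ.zmono hk⟩

theorem l8d7i_SZ_le (hS : S.Ok) (hJ : J.Ok S) {z : ℝ} (h0 : 0 < z) (h1 : z ≤ J.zbuf) :
    J.P.S ((l8d7iCells J).idx z) ≤ J.d.S z := by
  obtain ⟨hk, h2, h3⟩ := l8d7i_idx hS hJ h0 h1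
  have hm := l8d7i_zc_mem hJ hk.le
  have e := hJ.Slink _ hk.le _ hm le_rfl (h2.trans_le h3)
  rw [← e]
  exact hJ.wh.Smono ⟨hm.1, hm.2.trans hJ.zbuf⟩ ⟨h0.le, h1.trans hJ.zbuf⟩ h2.le

theorem l8d7i_SZ_ge (hS : S.Ok) (hJ : J.Ok S) {w z : ℝ} (hw : 0 ≤ w) (hwz : w < z) (h1 : z ≤ J.zbuf) :
    J.d.S w ≤ J.P.S ((l8d7iCells J).idx z) := by
  classical
  obtain ⟨hk, _, h3⟩ := l8d7i_idx hS hJ (lt_of_le_of_lt hw hwz) h1
  set k := (l8d7iCells J).idx z with hkdef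
  set k' := Nat.findGreatest (fun j => J.zc j ≤ w) k with hk'
  have a1 : J.zc k' ≤ w := Nat.findGreatest_spec (P := fun j => J.zc j ≤ w) (Nat.zero_le k) (by rw [hJ.z0]; exact hw)
  have a2 : k' ≤ k := Nat.findGreatest_le k
  have a3 : w < J.zc (k' + 1) := by
    rcases a2.eq_or_lt with h | h
    · rw [h]; exact hwz.trans_le h3
    · exact not_le.1 (Nat.findGreatest_is_greatest (P := fun j => J.zc j ≤ w) (n := k) (k := k' + 1) (Nat.lt_succ_self _) h)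
  have e := hJ.Slink k' (a2.trans hk.le) w ⟨hw, hwz.le.trans h1⟩ a1 a3
  rw [e]
  exact ivk_S_mono hJ.sp a2

theorem l8d7i_G_eq (J : SkpI Ω m) {z : ℝ} (h0 : 0 < z) (h1 : z ≤ J.zbuf) : l8d7iG J z = J.d.G z := by
  unfold l8d7iG
  rw [if_neg (not_le.2 h0), if_pos h1]

theorem l8d7i_R_lo (hS : S.Ok) (hJ : J.Ok S) (hX : L8D7X S J cs Czb) {z : ℝ} (hz : J.d.zlo / 2 ≤ z) :
    8 * J.δ ≤ skwR z ∧ J.d.x / 2 ≤ skwR z := by
  obtain ⟨_, _, h3, h4⟩ := l8d7i_delta hS hJ hX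
  obtain ⟨_, hx4, _, _⟩ := l8d7i_x hS hJ hX
  have := hJ.zlox
  exact ⟨le_min (by linarith) (by linarith), le_min (by linarith) (by linarith)⟩

theorem l8d7i_vz_hi (hS : S.Ok) (hJ : J.Ok S) (hX : L8D7X S J cs Czb) {z : ℝ} (hz : z ∈ Icc (J.d.zlo / 2) J.zbuf) :
    (l8d7iGrid S J).vz z ≤ 2 * S.Cv * skwR z := by
  have hzlo := hJ.wh.zlo0
  obtain ⟨hk, h2, h3⟩ := l8d7i_idx hS hJ (by linarith [hz.1]) hz.2
  set k := (l8d7iCells J).idx z with hkdef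
  have hkn : k ≤ J.P.n := hk.le.trans hJ.nbn
  have a1 : (l8d7iGrid S J).vz z ≤ J.P.v k := by
    rw [l8d7i_v_eq hS hJ hX k hkn, l8d7i_zc_le hk]
    exact l8d7i_vz_mono hJ hX h3
  have a2 := hJ.vhi k hk
  have a3 : J.z (k + 1) ≤ z + J.δ := by
    have := hJ.zmesh k hk
    show J.zc (k + 1) ≤ z + J.δ
    linarith
  have a4 : skwR (J.z (k + 1)) ≤ 2 * skwR z :=
    (l8d7_R_mono a3).trans ((l8d7i_R_add_le hJ.δ0.le).trans (by linarith [(l8d7i_R_lo hS hJ hX hz.1).1, hJ.δ0]))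
  have hCv := hS.Cv
  calc (l8d7iGrid S J).vz z ≤ S.Cv * skwR (J.z (k + 1)) := a1.trans a2
    _ ≤ S.Cv * (2 * skwR z) := mul_le_mul_of_nonneg_left a4 (by linarith)
    _ = _ := by ring

theorem l8d7i_vz_lo (hS : S.Ok) (hJ : J.Ok S) (hX : L8D7X S J cs Czb) {z : ℝ} (hz : z ∈ Icc (J.d.zlo / 2) J.zbuf) :
    1 / (2 * S.Cv) * skwR z ≤ (l8d7iGrid S J).vz z := by
  have hzlo := hJ.wh.zlo0
  have hδ := hJ.δ0
  obtain ⟨_, _, hδ3, _⟩ := l8d7i_delta hS hJ hX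
  obtain ⟨hk, h2, h3⟩ := l8d7i_idx hS hJ (by linarith [hz.1]) hz.2
  set k := (l8d7iCells J).idx z with hkdef
  have hm := hJ.zmesh k hk
  have hk0 : k ≠ 0 := by
    intro h
    rw [h, hJ.z0] at hm
    rw [h] at h3
    linarith [hz.1]
  obtain ⟨j, hj⟩ : ∃ j, k = j + 1 := ⟨k - 1, by omega⟩
  have hjn : j ≤ J.P.n := by have := hJ.nbn; omega
  have a1 : J.P.v j ≤ (l8d7iGrid S J).vz z := by
    rw [l8d7i_v_eq hS hJ hX j hjn, l8d7i_zc_le (by omega), ← hj]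
    exact l8d7i_vz_mono hJ hX h2.le
  have hm' := hJ.zmesh j (by omega)
  rw [← hj] at hm'
  have a2 : z - 2 * J.δ ≤ J.z j := by
    show z - 2 * J.δ ≤ J.zc j
    linarith
  have a3 := hJ.vlo j (by omega) (by linarith [hz.1])
  have a4 : skwR z ≤ skwR (J.z j) + 2 * J.δ := by
    have := l8d7i_R_add_le (z := z - 2 * J.δ) (ε := 2 * J.δ) (by linarith)
    rw [sub_add_cancel] at this
    exact this.trans (by linarith [l8d7_R_mono a2])
  have a5 := (l8d7i_R_lo hS hJ hX hz.1).1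
  have hCv := hS.Cv
  have a6 : skwR z / 2 ≤ skwR (J.z j) := by linarith
  calc 1 / (2 * S.Cv) * skwR z = skwR z / 2 / S.Cv := by field_simp
    _ ≤ skwR (J.z j) / S.Cv := div_le_div_of_nonneg_right a6 (by linarith)
    _ ≤ _ := a3.trans a1

/-- **THE INSTANCE**: the link `L8D7.Ok` holds for every instance of PM -/
theorem l8d7i_ok (hS : S.Ok) (hJ : J.Ok S) (hX : L8D7X S J cs Czb) : (l8d7iD S J cs Czb).Ok := by
  have hzlo := hJ.wh.zlo0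
  have hδ := hJ.δ0
  have hg := l8d7i_grid_ok hS hJ hX
  obtain ⟨hx0, hx4, hxCv, hxCW⟩ := l8d7i_x hS hJ hX
  obtain ⟨hz1, hz2, hz3⟩ := l8d7i_z1 hS hJ hX
  have hCv := hS.Cv
  have hCW := hS.CW
  have hnbn := hJ.nbn
  have hcp : (0 : ℝ) ≤ (S.K.cA3 1 * J.Lg ^ 2) ^ (2 * 1) := by rw [pow_mul]; positivity
  have hc0 : (0 : ℝ) ≤ S.K.cA1 1 := by linarith [hS.cA1 1]
  have htop : J.zbuf + J.δ ≤ l8d7iZc J (J.P.n + 1) := by
    rw [l8d7i_zc_succ hJ hnbn le_rfl]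
    have : J.zbuf ≤ l8d7iZc J J.P.n := by rw [← l8d7i_zc_nb hJ]; exact l8d7i_zc_mono hJ hnbn
    linarith
  have hpos : ∀ z : ℝ, J.d.zlo / 2 ≤ z → 0 < z := fun z hz => lt_of_lt_of_le (by linarith) hz
  refine
    { hyp := hJ.wh
      Lq1 := hS.c.Lq
      concl := hJ.wc
      C1 := hS.CW
      cutOk := ivp_cut_ok hJ.sp hg hJ.m0 hX.cs0 hcp hX.sus (hJ.proj 1 le_rfl) hX.dhn
      msOk := ivp_mass_ok hJ.sp hJ.m0 hc0 hX.cs0 hX.sus (hJ.pin 1 le_rfl) hX.dhn monotoneOn_const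
        (fun k _ => by simpa using hJ.sp.dh_nonneg k) (fun k _ => l8d7i_dv_le hJ.sp k)
      bridge := ivp_bridge hJ.sp hg _ _ _ _ _
      zlohi := ?_
      zhibuf := hX.zhibuf
      zbufmax := hJ.zbuf
      Cz1 := hX.Czb1
      zbufCz := hX.zbufC
      dom_lo := ?_
      dom_hi := ?_
      SZ_le := fun z hz => l8d7i_SZ_le hS hJ (hpos z hz.1) hz.2
      SZ_ge := fun w hw z hz hwz => l8d7i_SZ_ge hS hJ (hpos w hw.1).le hwz hz.2
      SZtop := ?_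
      G := fun z hz => l8d7i_G_eq J (hpos z hz.1) hz.2
      cv0 := by show 0 < 1 / (2 * S.Cv); positivity
      vz_lo := fun z hz => l8d7i_vz_lo hS hJ hX hz
      vz_hi := fun z hz => l8d7i_vz_hi hS hJ hX hz
      κ0 := l8d7i_K0_pos hS hJ
      slope := ?_
      mesh := ?_
      vlow := ?_
      Sr := ?_ }
  · obtain ⟨n, t, ht⟩ := l8d7_exists_tiling hJ.wc
    have := l8d7_t_le (D := l8d7iD S J cs Czb) ht 0 n (Nat.zero_le n) le_rfl
    rw [ht.t0, ht.tn] at this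
    exact this
  · show l8d7iZc J 0 ≤ J.d.zlo / 2
    rw [l8d7i_zc_zero hJ]; linarith
  · show J.zhi ≤ l8d7iZc J (J.P.n + 1)
    linarith [hX.zhibuf]
  · intro z h1 h2
    change z ≤ J.zhi + J.δ at h2
    change J.zbuf ≤ z at h1
    show J.P.S ((l8d7iCells J).idx z) ≤ J.d.S J.zbuf
    rcases hX.top with h | h
    · have : z = J.zbuf := le_antisymm (h2.trans h) h1
      rw [this]
      exact l8d7i_SZ_le hS hJ (l8d7i_zbuf_pos hS hJ) le_rfl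
    · have hb : z ≤ (l8d7iCells J).b J.P.n := by
        show z ≤ l8d7iZc J (J.P.n + 1)
        linarith [hX.zhibuf]
      exact (ivk_S_mono hJ.sp (IvCells.idx_le hb)).trans h
  · intro u1 u2 h1 h12 h2
    change J.d.zlo / 2 ≤ u1 at h1
    change u2 ≤ J.zbuf at h2
    have e : ∀ u, J.d.zlo / 2 ≤ u → u ≤ J.zbuf → ivCl (J.d.zlo / 4 + J.δ) J.zbuf u = u := by
      intro u a b
      unfold ivCl
      rw [min_eq_left b, max_eq_right (by linarith)]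
    show l8d7iK0 S J * skwR u1 ^ 2 * (u2 - u1)
      ≤ l8d7iK0 S J * l8d7iPhi (ivCl (J.d.zlo / 4 + J.δ) J.zbuf u2) - l8d7iK0 S J * l8d7iPhi (ivCl (J.d.zlo / 4 + J.δ) J.zbuf u1)
    rw [e u1 h1 (h12.trans h2), e u2 (h1.trans h12) h2, ← mul_sub, mul_assoc]
    exact mul_le_mul_of_nonneg_left (l8d7i_Phi_lo (by linarith) h12) (l8d7i_K0_pos hS hJ).le
  · intro z hz
    change z ∈ Icc J.d.zlo J.zhi at hz
    show J.δ ≤ J.hh z / S.CW
    have hzm : z ∈ Icc (J.d.zlo / 2) J.zbuf := ⟨by linarith [hz.1], hz.2.trans hX.zhibuf⟩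
    have h1 := hJ.wc.lower z hzm
    have hR1 := l8d7_R_le_one z
    have hRx : J.d.x ≤ skwR z := le_min (hJ.zlox.trans hz.1) (by linarith)
    have hR0 : 0 < skwR z := lt_of_lt_of_le hx0 hRx
    have hx1 : J.d.x ≤ 1 := by linarith
    have a1 : J.d.x ^ 11 ≤ J.d.b * skwR z := by
      calc J.d.x ^ 11 = J.d.x ^ 10 * J.d.x := by ring
        _ ≤ J.d.b * skwR z := mul_le_mul hX.blo hRx hx0.le hJ.wh.b0.le
    have a2 : J.d.x ^ 11 ≤ J.d.U ^ 2 / skwR z := by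
      rw [le_div_iff₀ hR0]
      calc J.d.x ^ 11 * skwR z ≤ J.d.x ^ 11 * 1 := mul_le_mul_of_nonneg_left hR1 (by positivity)
        _ = J.d.x ^ 11 := mul_one _
        _ ≤ J.d.x ^ 2 := pow_le_pow_of_le_one hx0.le hx1 (by norm_num)
        _ ≤ J.d.U ^ 2 := pow_le_pow_left₀ hx0.le hJ.wh.xU 2
    have a3 : J.d.x ^ 11 / S.CW ≤ J.hh z := (div_le_div_of_nonneg_right (le_min a1 a2) (by linarith)).trans h1
    have a4 : J.d.x * S.CW ≤ 1 := by rwa [le_div_iff₀ (by linarith)] at hxCW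
    have a5 : J.δ * S.CW ^ 2 ≤ J.d.x ^ 11 := by
      have b1 : J.δ ≤ J.d.x ^ 13 := hJ.mesh.trans (pow_le_pow_of_le_one hx0.le hx1 (by norm_num))
      have b2 : (J.d.x * S.CW) ^ 2 ≤ 1 := pow_le_one₀ (by positivity) a4
      calc J.δ * S.CW ^ 2 ≤ J.d.x ^ 13 * S.CW ^ 2 := mul_le_mul_of_nonneg_right b1 (by positivity)
        _ = J.d.x ^ 11 * (J.d.x * S.CW) ^ 2 := by ring
        _ ≤ J.d.x ^ 11 * 1 := mul_le_mul_of_nonneg_left b2 (by positivity)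
        _ = _ := mul_one _
    rw [le_div_iff₀ (by linarith)]
    have a6 : J.δ * S.CW ≤ J.d.x ^ 11 / S.CW := by
      rw [le_div_iff₀ (by linarith)]
      calc J.δ * S.CW * S.CW = J.δ * S.CW ^ 2 := by ring
        _ ≤ _ := a5
    exact a6.trans a3
  · show J.lowb ≤ 1 / (2 * S.Cv) * skwR (J.d.zlo / 2)
    have h1 := (l8d7i_R_lo hS hJ hX (le_refl (J.d.zlo / 2))).2
    have hx1 : J.d.x ≤ 1 := by linarith
    have h2 : J.lowb ≤ J.d.x ^ 2 := hJ.lowb.trans (pow_le_pow_of_le_one hx0.le hx1 (by norm_num))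
    have h3 : J.d.x ^ 2 ≤ 1 / (2 * S.Cv) * (J.d.x / 2) := by
      have : J.d.x ^ 2 ≤ J.d.x * (1 / (4 * S.Cv)) := by rw [sq]; exact mul_le_mul_of_nonneg_left hxCv hx0.le
      calc J.d.x ^ 2 ≤ J.d.x * (1 / (4 * S.Cv)) := this
        _ = _ := by field_simp; ring
    exact (h2.trans h3).trans (mul_le_mul_of_nonneg_left h1 (by positivity))
  · intro z hz
    change z ∈ Icc (J.d.zlo / 2) J.zbuf at hz
    show J.d.S z ≤ (S.c.Cf + S.Cq) * skwR z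
    have h1 := (le_abs_self _).trans (hJ.wh.fr z ⟨by linarith [hz.1], hz.2.trans hJ.zbuf⟩)
    have h2 := hJ.qr z ⟨by linarith [hz.1], hz.2⟩
    unfold skwF at h1
    linarith

end link

end Claimed.Agent.R286
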