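import Claimed.Agent.R286.L08.LocS
import Claimed.Agent.R286.L08.IvD7I
import Claimed.Agent.R286.L08.IvSk

/-!
# Row 286 (S0533), folder L08, file IvSkD8 : THE FIELD (D8) FROM THE INSTANCE RECORD `SkpI.Ok` OF PM      (owner helper114; head of the unit IV: helper228; prefix `ivd8` / `Ivd8`)

TEX[LL:lem:statistics-localized] TEX[LL:eq:D8]  (LL 08-statistics.tex l.745-799).      0 open leaves.

ONE instance record: `J : SkpI Ω m`, `J.Ok S` (PM/Defs, 37) + `L8D7X S J cs Czb` (IvD7I, 298).      The link is `D = l8d7iD S J cs Czb`, `l8d7i_ok`, grid `l8d7iGrid S J`, `l8d7i_grid_ok` (298).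
* `ivd8_locs`   the dictionary `L8LocS D J.P g` (LocS);   `S` at the cuts of positive mass from `Slink` (LEFT-closed) + `gaplink`;
* `ivd8_loc`    the imports `L8Loc D CDt (3 CM)` from (D2) AT THE CUTS IN THE FORM OF THE EXITS OF PM (`SkpRef`, `r = 1`: `href`;   `SkpRaw`, `r = 2`: `hraw`);   the cut whose cell contains `zlo` is trivial: raw bound +
                `e ≳ b r` near `zlo ≍ Y`;      `CDt = CD + 3 CM CW Cz² / b`;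
* `ivd8_main`   the bands: cuts of mass in `[2 Cv zlo, vz zhi]`;
* `ivd8_dyad`, `ivd8_low`   the zone `[Y, 2 Cv zlo)` by (D9) on the cuts (`ivs_d9_D` of 228, imports `IvsLow`);
* **`ivd8_field0`**   `J.P.int Y a (fun k => if θ ≤ e k then D²_k else 0) ≤ (B9 M² + Km + 2) · (x³/√λ₁) Y² Z² / θ⁸`,      `Y = U Z`,
      `Km = 2 Ks (3 CW²)⁸ Czb Kz · (1 + CDt + 3 CM) L b⁻² Ce⁸`      = the shape of `L8In.D8` (75, `L08/Defs.lean`), `C_0 = 8`, `θ = x^δ'`;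
  **`ivd8_field7`** : `B9 = n0 A7` from the last line of (D7) on the bands `Y ≤ r ≤ 2^n0 Y`;      **`ivd8_field`** : `B9 = n0 (K2 ρ + 1)` from (D9).
  Structural constants: `Ks(S, Czb)`, `Kz(S, cs)`, `K2`, `n0`;   losses `≲_⋄`: `CD, CM` ((D2)), `Ce, M` (envelope on the chain), `ρ` (raw scale of the lower band), `L = 1 + log (1/tiny)`, `b = b_ε`.
  The last cells (alarm of 22: `vz zhi < a` at a generic chain) are paid by their mass `τ ≤ x⁵`.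
-/

set_option autoImplicit false

namespace Claimed.Agent.R286

open MeasureTheory Set

variable {Ω : Type} [mΩ : MeasurableSpace Ω] {m : ℕ} {S : SkpS} {J : SkpI Ω m} {cs Czb : ℝ}

/-! ### the dictionary -/

theorem ivd8_lt_nb (hJ : J.Ok S) (hX : L8D7X S J cs Czb) {k : ℕ} (h : l8d7iZc J k < J.zhi) : k < J.nb := by
  by_contra hc
  have h1 := l8d7i_zc_mono hJ (not_lt.1 hc)
  rw [l8d7i_zc_nb hJ] at h1
  linarith [hX.zhibuf]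

/-- a cell of positive mass has positive length -/
theorem ivd8_cell_pos (hJ : J.Ok S) {k : ℕ} (hk : k < J.nb) (hdv : 0 < J.P.dv k) : J.zc k < J.zc (k + 1) := by
  rcases (hJ.zmono (Nat.le_succ k)).eq_or_lt with h | h
  · exfalso
    have e := hJ.gaplink k hk
    have e1 : J.z k = J.z (k + 1) := h
    rw [e1, intervalIntegral.integral_same] at e
    linarith
  · exact h

/-- `S` at a cut of positive mass -/
theorem ivd8_S_eq (hJ : J.Ok S) {k : ℕ} (hk : k < J.nb) (hdv : 0 < J.P.dv k) : J.d.S (J.zc k) = J.P.S k :=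
  hJ.Slink k hk.le (J.zc k) (l8d7i_zc_mem hJ hk.le) le_rfl (ivd8_cell_pos hJ hk hdv)

/-- **the dictionary of `LocS` for an instance of PM** -/
theorem ivd8_locs (hS : S.Ok) (hJ : J.Ok S) (hX : L8D7X S J cs Czb) :
    L8LocS (l8d7iD S J cs Czb) J.P (l8d7iGrid S J) := by
  obtain ⟨_, _, hδ, _⟩ := l8d7i_delta hS hJ hX
  have hzlo := hJ.wh.zlo0
  refine l8locs_mk rfl rfl ?_ ?_ ?_ ?_
  · intro k _ h
    have hk := ivd8_lt_nb hJ hX h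
    show l8d7iZc J (k + 1) ≤ J.zbuf
    rw [← l8d7i_zc_nb hJ]
    exact l8d7i_zc_mono hJ hk
  · show J.δ ≤ J.d.zlo / 2
    linarith
  · intro k _ _ h hdv
    have hk := ivd8_lt_nb hJ hX h
    show J.d.S (l8d7iZc J k) ≤ J.P.S k
    rw [l8d7i_zc_le hk.le, ivd8_S_eq hJ hk hdv]
  · intro k _ _ h hdv
    have hk := ivd8_lt_nb hJ hX h
    show J.P.S k ≤ J.d.S (l8d7iZc J (k + 1))
    rw [l8d7i_zc_le hk, ← ivd8_S_eq hJ hk hdv]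
    have m1 := l8d7i_zc_mem hJ hk.le
    have m2 := l8d7i_zc_mem hJ hk
    exact hJ.wh.Smono ⟨m1.1, m1.2.trans hJ.zbuf⟩ ⟨m2.1, m2.2.trans hJ.zbuf⟩ (hJ.zmono (Nat.le_succ k))

/-- the coordinate attached to a cut: the LEFT end of its cell (`= J.z k` for `k ≤ nb`) -/
theorem ivd8_sig (hJ : J.Ok S) : L8LocSig J.P (l8d7iGrid S J) (l8d7iZc J) :=
  fun k _ => ⟨le_rfl, l8d7i_zc_mono hJ (Nat.le_succ k)⟩

/-! ### (D2) at the cuts -/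

/-- the constant of the refined bound, with the trivial cut at `zlo` -/
noncomputable def ivd8CD (S : SkpS) (J : SkpI Ω m) (CD CM : ℝ) : ℝ := CD + 3 * CM * (S.CW * S.Cz ^ 2 / J.d.b)

/-- the left end of a cell which reaches above `zlo` -/
theorem ivd8_left (hS : S.Ok) (hJ : J.Ok S) (hX : L8D7X S J cs Czb) {k : ℕ} (hk : k < J.nb) (h : J.d.zlo < J.zc (k + 1)) :
    J.d.zlo / 2 ≤ J.zc k ∧ J.d.zlo ≤ 2 * skwR (J.zc k) ∧ 0 < skwR (J.zc k) := by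
  obtain ⟨_, _, hδ, _⟩ := l8d7i_delta hS hJ hX
  have hzlo := hJ.wh.zlo0
  have hm := hJ.zmesh k hk
  have h1 : J.d.zlo ≤ 1 / 16 := by linarith [hJ.zloreg, hS.zreg1]
  have h2 : J.d.zlo / 2 ≤ J.zc k := by linarith
  have h3 : J.d.zlo / 2 ≤ skwR (J.zc k) := le_min h2 (by linarith)
  exact ⟨h2, by linarith, by linarith⟩

/-- near `zlo ≍ Y` the envelope is trivial: `r ≤ (CW Cz² / b) e` -/
theorem ivd8_triv (hS : S.Ok) (hJ : J.Ok S) {z : ℝ} (h1 : J.d.zlo / 2 ≤ z) (h2 : z ≤ J.d.zlo) :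
    skwR z ≤ S.CW * S.Cz ^ 2 / J.d.b * skwE J.d J.hh z := by
  have hzlo := hJ.wh.zlo0
  have hb := hJ.wh.b0
  have hb1 : J.d.b ≤ 1 := by linarith [hJ.wh.b1]
  have hCW := hS.CW
  have hCz := hS.Cz
  have hZ := hJ.wh.Z1
  have hz0 : 0 < z := by linarith
  have hR := l8d7_R_pos hz0
  have hRz := l8d7_R_le z
  have hzb : z ≤ J.zbuf := by linarith [hJ.zloreg, hJ.zreg, hS.zreg]
  have hlow := hJ.wc.lower z ⟨h1, hzb⟩
  have hK : 1 ≤ S.CW * S.Cz ^ 2 / J.d.b := by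
    rw [le_div_iff₀ hb, one_mul]
    have : 1 ≤ S.CW * S.Cz ^ 2 := by nlinarith [one_le_pow₀ hCz (n := 2)]
    linarith
  have hU : 0 < J.d.U := lt_of_lt_of_le hJ.wh.x0 hJ.wh.xU
  unfold skwE
  rw [mul_min_of_nonneg _ _ (by linarith)]
  refine le_min (by nlinarith) ?_
  -- `Z² hh ≥ Z² min(b r, U²/r) / CW`
  have hmin : J.d.b * skwR z / S.Cz ^ 2 ≤ J.d.Z ^ 2 * min (J.d.b * skwR z) (J.d.U ^ 2 / skwR z) := by
    have hZ2 : 1 ≤ J.d.Z ^ 2 := one_le_pow₀ hZ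
    have hCz2 : 1 ≤ S.Cz ^ 2 := one_le_pow₀ hCz
    rw [mul_min_of_nonneg _ _ (by positivity)]
    refine le_min ?_ ?_
    · rw [div_le_iff₀ (by positivity)]
      have h0 : 0 ≤ J.d.b * skwR z := by positivity
      nlinarith [mul_le_mul hZ2 hCz2 (by norm_num) (by positivity)]
    · rw [div_le_iff₀ (by positivity), mul_div_assoc', div_mul_eq_mul_div, le_div_iff₀ hR]
      have hY : skwR z ≤ S.Cz * (J.d.U * J.d.Z) := hRz.trans (h2.trans hJ.zloY)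
      have hsq : skwR z ^ 2 ≤ (S.Cz * (J.d.U * J.d.Z)) ^ 2 := pow_le_pow_left₀ hR.le hY 2
      calc J.d.b * skwR z * skwR z = J.d.b * skwR z ^ 2 := by ring
        _ ≤ 1 * (S.Cz * (J.d.U * J.d.Z)) ^ 2 := mul_le_mul hb1 hsq (by positivity) (by norm_num)
        _ = J.d.Z ^ 2 * J.d.U ^ 2 * S.Cz ^ 2 := by ring
  have h3 : J.d.Z ^ 2 * (min (J.d.b * skwR z) (J.d.U ^ 2 / skwR z) / S.CW) ≤ J.d.Z ^ 2 * J.hh z :=
    mul_le_mul_of_nonneg_left hlow (by positivity)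
  calc skwR z = S.CW * S.Cz ^ 2 / J.d.b * (J.d.b * skwR z / S.Cz ^ 2 / S.CW) := by field_simp
    _ ≤ S.CW * S.Cz ^ 2 / J.d.b * (J.d.Z ^ 2 * min (J.d.b * skwR z) (J.d.U ^ 2 / skwR z) / S.CW) := by
        gcongr
    _ = S.CW * S.Cz ^ 2 / J.d.b * (J.d.Z ^ 2 * (min (J.d.b * skwR z) (J.d.U ^ 2 / skwR z) / S.CW)) := by ring
    _ ≤ _ := mul_le_mul_of_nonneg_left h3 (by linarith)

theorem ivd8_E_nonneg (hS : S.Ok) (hJ : J.Ok S) {z : ℝ} (h1 : J.d.zlo / 2 ≤ z) (h2 : z ≤ J.zbuf) : 0 ≤ skwE J.d J.hh z := by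
  have hzlo := hJ.wh.zlo0
  have hz0 : 0 < z := by linarith
  have hR := l8d7_R_pos hz0
  have hb := hJ.wh.b0
  have hU : 0 < J.d.U := lt_of_lt_of_le hJ.wh.x0 hJ.wh.xU
  have hlow := hJ.wc.lower z ⟨h1, h2⟩
  have h0 : 0 ≤ min (J.d.b * skwR z) (J.d.U ^ 2 / skwR z) / S.CW :=
    div_nonneg (le_min (by positivity) (by positivity)) (by linarith [hS.CW])
  exact le_min hR.le (mul_nonneg (sq_nonneg _) (h0.trans hlow))

/-- TEX[LL:eq:D2] **the imports of (D8) from the exits of PM** (`href` = `SkpRef` at `r = 1`, `hraw` = `SkpRaw` at `r = 2`) -/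
theorem ivd8_loc (hS : S.Ok) (hJ : J.Ok S) (hX : L8D7X S J cs Czb) {CD CM : ℝ} (hCD : 0 ≤ CD) (hCM : 0 ≤ CM)
    (href : ∀ k ≤ J.nb, J.d.zlo ≤ J.z k →
      ∫ ω, (J.P.nX k ω - J.d.q (J.z k)) ^ 2 ∂J.P.μ ≤ (CD * skwE J.d J.hh (J.z k)) ^ 2)
    (hraw : ∀ k ≤ J.nb, ∫ ω, J.P.nX k ω ^ 2 ∂J.P.μ ≤ (CM * (skwR (J.z k) + J.d.zlo)) ^ 2) :
    L8Loc (l8d7iD S J cs Czb) (ivd8CD S J CD CM) (3 * CM) := by
  have hb := hJ.wh.b0
  have hCW := hS.CW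
  have hCz := hS.Cz
  have hK0 : 0 ≤ S.CW * S.Cz ^ 2 / J.d.b := by positivity
  have hraw' : ∀ k < J.nb, J.d.zlo < J.zc (k + 1) → ∫ ω, J.P.nX k ω ^ 2 ∂J.P.μ ≤ (3 * CM * skwR (J.zc k)) ^ 2 := by
    intro k hk h
    obtain ⟨_, a2, a3⟩ := ivd8_left hS hJ hX hk h
    refine (hraw k hk.le).trans (pow_le_pow_left₀ (by have := hJ.wh.zlo0; have : 0 ≤ skwR (J.z k) := a3.le; positivity) ?_ 2)
    have : skwR (J.z k) + J.d.zlo ≤ 3 * skwR (J.zc k) := by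
      show skwR (J.zc k) + J.d.zlo ≤ 3 * skwR (J.zc k)
      linarith
    calc CM * (skwR (J.z k) + J.d.zlo) ≤ CM * (3 * skwR (J.zc k)) := mul_le_mul_of_nonneg_left this hCM
      _ = _ := by ring
  refine l8locs_loc (l8d7i_ok hS hJ hX) (l8d7i_grid_ok hS hJ hX) (ivd8_locs hS hJ hX) (ivd8_sig hJ)
    (by unfold ivd8CD; positivity) (by positivity) ?_ ?_
  · intro k _ h1 h2
    have hk := ivd8_lt_nb hJ hX h2
    change J.d.zlo < l8d7iZc J (k + 1) at h1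
    rw [l8d7i_zc_le hk] at h1
    show ivkVar J.P k ≤ (ivd8CD S J CD CM * skwE J.d J.hh (l8d7iZc J k)) ^ 2
    rw [l8d7i_zc_le hk.le]
    obtain ⟨a1, a2, a3⟩ := ivd8_left hS hJ hX hk h1
    have hzb : J.zc k ≤ J.zbuf := (l8d7i_zc_mem hJ hk.le).2
    have hE := ivd8_E_nonneg hS hJ a1 hzb
    rcases le_or_gt J.d.zlo (J.zc k) with hc | hc
    · refine (l8locs_var_le hJ.sp k (J.d.q (J.z k))).trans ((href k hk.le hc).trans ?_)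
      refine pow_le_pow_left₀ (by positivity) ?_ 2
      show CD * skwE J.d J.hh (J.zc k) ≤ _
      refine mul_le_mul_of_nonneg_right ?_ hE
      unfold ivd8CD
      have : 0 ≤ 3 * CM * (S.CW * S.Cz ^ 2 / J.d.b) := by positivity
      linarith
    · have h3 := l8locs_var_le hJ.sp k 0
      simp only [sub_zero] at h3
      refine h3.trans ((hraw' k hk h1).trans ?_)
      refine pow_le_pow_left₀ (by positivity) ?_ 2
      have h4 := ivd8_triv hS hJ a1 hc.le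
      calc 3 * CM * skwR (J.zc k) ≤ 3 * CM * (S.CW * S.Cz ^ 2 / J.d.b * skwE J.d J.hh (J.zc k)) :=
            mul_le_mul_of_nonneg_left h4 (by positivity)
        _ = 3 * CM * (S.CW * S.Cz ^ 2 / J.d.b) * skwE J.d J.hh (J.zc k) := by ring
        _ ≤ _ := by
            refine mul_le_mul_of_nonneg_right ?_ hE
            unfold ivd8CD
            linarith
  · intro k _ h1 h2
    have hk := ivd8_lt_nb hJ hX h2
    change J.d.zlo < l8d7iZc J (k + 1) at h1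
    rw [l8d7i_zc_le hk] at h1
    show ∫ ω, J.P.nX k ω ^ 2 ∂J.P.μ ≤ (3 * CM * skwR (l8d7iZc J k)) ^ 2
    rw [l8d7i_zc_le hk.le]
    exact hraw' k hk h1

/-! ### the constants -/

/-- the structural constant of (D8): depends on `S` and on the bound `Czb` of the length of the `z` interval only -/
noncomputable def ivd8Ks (S : SkpS) (Czb : ℝ) : ℝ :=
  ((6 + 16 * S.K.cA1 1) * (3 * S.CW ^ 2 + S.CW)
        * (1 + 16 * S.CW * (S.c.Lq + 2 * S.CW ^ 3 + 2 * (S.c.Cf + S.Cq)) / (1 / (2 * S.Cv))) * Czb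
      + 6 * S.CW ^ 2 * (1 + 2 * (16 * S.CW * (S.c.Lq + 2 * S.CW ^ 3 + 2 * (S.c.Cf + S.Cq)) / (1 / (2 * S.Cv))) / (1 / (2 * S.Cv)))
      + 2 * (16 * S.CW * (S.c.Lq + 2 * S.CW ^ 3 + 2 * (S.c.Cf + S.Cq)) / (1 / (2 * S.Cv))) / (1 / (2 * S.Cv)))
    * (S.CW ^ 3 + Czb)

theorem ivd8_Ks_eq (S : SkpS) (J : SkpI Ω m) (cs Czb : ℝ) : l8loc_Ks (l8d7iD S J cs Czb) = ivd8Ks S Czb := rfl

theorem ivd8_Ks_nonneg (hS : S.Ok) (hCzb : 1 ≤ Czb) : 0 ≤ ivd8Ks S Czb := by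
  have h1 := hS.CW
  have h2 := hS.Cv
  have h3 := hS.c.Lq
  have h4 := hS.c.Cf
  have h5 := hS.Cq
  have h6 := hS.cA1 1
  unfold ivd8Ks
  positivity

/-- `z_1^0 ≤ Kz x³ / √λ₁` -/
noncomputable def ivd8Kz (S : SkpS) (cs : ℝ) : ℝ := 2 * Real.sqrt (S.Cm / (cs * S.cD3))

/-- `z_1^0 = x³ / √λ₁` of the instance -/
noncomputable def ivd8Z0 (J : SkpI Ω m) : ℝ := J.d.x ^ 3 / Real.sqrt J.lam1

theorem ivd8_lam_pos (hJ : J.Ok S) : 0 < J.lam1 := lt_of_lt_of_le (pow_pos hJ.wh.x0 14) hJ.lam1a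

theorem ivd8_Z0_pos (hJ : J.Ok S) : 0 < ivd8Z0 J :=
  div_pos (pow_pos hJ.wh.x0 3) (Real.sqrt_pos.2 (ivd8_lam_pos hJ))

/-- `x³ ≤ z_1^0` -/
theorem ivd8_Z0_ge (hJ : J.Ok S) : J.d.x ^ 3 ≤ ivd8Z0 J := by
  have h1 : Real.sqrt J.lam1 ≤ 1 := Real.sqrt_le_one.2 hJ.lam1b
  have h0 := Real.sqrt_pos.2 (ivd8_lam_pos hJ)
  unfold ivd8Z0
  rw [le_div_iff₀ h0]
  have := pow_pos hJ.wh.x0 3
  nlinarith

theorem ivd8_z1_le (hS : S.Ok) (hJ : J.Ok S) (hcs : 0 < cs) :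
    l8loc_z1 (l8d7iD S J cs Czb) ≤ ivd8Kz S cs * ivd8Z0 J := by
  have hl := ivd8_lam_pos hJ
  have hx := hJ.wh.x0
  have hm : (0 : ℝ) < m := by exact_mod_cast hJ.m0
  have hD3 := hS.cD3
  have hCm := hS.Cm
  show Real.sqrt (1 / (cs * m * (S.cD3 * J.lam1 / 4))) ≤ _
  refine Real.sqrt_le_iff.2 ⟨?_, ?_⟩
  · have := ivd8_Z0_pos hJ
    unfold ivd8Kz
    positivity
  · have e : (ivd8Kz S cs * ivd8Z0 J) ^ 2 = 4 * (S.Cm / (cs * S.cD3)) * (J.d.x ^ 6 / J.lam1) := by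
      unfold ivd8Kz ivd8Z0
      rw [mul_pow, mul_pow, div_pow, Real.sq_sqrt (by positivity), Real.sq_sqrt hl.le]
      ring
    rw [e]
    have h1 := hJ.msz
    calc 1 / (cs * m * (S.cD3 * J.lam1 / 4)) = 4 / (cs * S.cD3 * J.lam1) * (1 / (m : ℝ)) := by field_simp
      _ ≤ 4 / (cs * S.cD3 * J.lam1) * (S.Cm * J.d.x ^ 6) := mul_le_mul_of_nonneg_left h1 (by positivity)
      _ = _ := by field_simp

theorem ivd8_Y_le (hS : S.Ok) (hJ : J.Ok S) : J.d.U * J.d.Z ≤ 1 := by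
  linarith [hJ.Yz, hJ.zloreg, hS.zreg1, hJ.wh.zlo0]

theorem ivd8_Y_pos (hJ : J.Ok S) : 0 < J.d.U * J.d.Z :=
  mul_pos (lt_of_lt_of_le hJ.wh.x0 hJ.wh.xU) (by linarith [hJ.wh.Z1])

/-- GAP1 of 228: `z_1^0 Y² ≤ 1`, from `x³/√λ₁ ≤ g₀ U³`, `g₀ ≤ x^cg` -/
theorem ivd8_z1_small (hS : S.Ok) (hJ : J.Ok S) (hcs : 0 < cs) (hxs : ivd8Kz S cs * J.d.x ^ S.cg ≤ 1) :
    l8loc_z1 (l8d7iD S J cs Czb) * (J.d.U * J.d.Z) ^ 2 ≤ 1 := by
  have h1 := ivd8_z1_le (Czb := Czb) hS hJ hcs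
  have hY := ivd8_Y_le hS hJ
  have hY0 := ivd8_Y_pos hJ
  have hU0 : 0 < J.d.U := lt_of_lt_of_le hJ.wh.x0 hJ.wh.xU
  have hKz : 0 ≤ ivd8Kz S cs := by unfold ivd8Kz; positivity
  have h2 : ivd8Z0 J ≤ J.d.x ^ S.cg := by
    have hU3 : J.d.U ^ 3 ≤ 1 := pow_le_one₀ hU0.le hJ.wh.U1
    calc ivd8Z0 J ≤ J.g0 * J.d.U ^ 3 := hJ.g0a
      _ ≤ J.g0 * 1 := mul_le_mul_of_nonneg_left hU3 hJ.g0c.le
      _ ≤ _ := by rw [mul_one]; exact hJ.g0b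
  have h3 : l8loc_z1 (l8d7iD S J cs Czb) ≤ 1 := h1.trans ((mul_le_mul_of_nonneg_left h2 hKz).trans hxs)
  have h4 : (J.d.U * J.d.Z) ^ 2 ≤ 1 := pow_le_one₀ hY0.le hY
  have h0 : 0 ≤ l8loc_z1 (l8d7iD S J cs Czb) := Real.sqrt_nonneg _
  calc _ ≤ 1 * 1 := mul_le_mul h3 h4 (by positivity) (by norm_num)
    _ = 1 := one_mul 1

/-! ### the bands -/

/-- a cut of mass `≥ 2 Cv zlo` lies above `zlo` -/
theorem ivd8_zlo_le (hS : S.Ok) (hJ : J.Ok S) (hX : L8D7X S J cs Czb) {k : ℕ} (h : 2 * S.Cv * J.d.zlo ≤ J.P.v k) :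
    J.d.zlo ≤ l8d7iZc J k := by
  obtain ⟨_, _, hδ, _⟩ := l8d7i_delta hS hJ hX
  have hzlo := hJ.wh.zlo0
  have hCv := hS.Cv
  rcases Nat.lt_or_ge k J.nb with hk | hk
  · rw [l8d7i_zc_le hk.le]
    have h1 := hJ.vhi k hk
    have h2 : skwR (J.z (k + 1)) ≤ J.zc k + J.δ := (l8d7_R_le _).trans (by have := hJ.zmesh k hk; show J.zc (k + 1) ≤ _; linarith)
    have h3 : 2 * S.Cv * J.d.zlo ≤ S.Cv * (J.zc k + J.δ) := h.trans (h1.trans (mul_le_mul_of_nonneg_left h2 (by linarith)))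
    have h4 : 2 * J.d.zlo ≤ J.zc k + J.δ := by
      have : S.Cv * (2 * J.d.zlo) ≤ S.Cv * (J.zc k + J.δ) := by linarith
      exact le_of_mul_le_mul_left this (by linarith)
    linarith
  · have h1 := l8d7i_zc_mono hJ hk
    rw [l8d7i_zc_nb hJ] at h1
    linarith [hJ.zloreg, hJ.zreg, hS.zreg]

/-- TEX[LL:lem:statistics-localized] **(D8), the bands**: the cuts of mass in `[2 Cv zlo, vz zhi]` -/
theorem ivd8_main (hS : S.Ok) (hJ : J.Ok S) (hX : L8D7X S J cs Czb) {CD CM : ℝ} (hCD : 0 ≤ CD) (hCM : 0 ≤ CM)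
    (href : ∀ k ≤ J.nb, J.d.zlo ≤ J.z k →
      ∫ ω, (J.P.nX k ω - J.d.q (J.z k)) ^ 2 ∂J.P.μ ≤ (CD * skwE J.d J.hh (J.z k)) ^ 2)
    (hraw : ∀ k ≤ J.nb, ∫ ω, J.P.nX k ω ^ 2 ∂J.P.μ ≤ (CM * (skwR (J.z k) + J.d.zlo)) ^ 2)
    {e : ℕ → ℝ} {Ce θ : ℝ} (hCe : 1 ≤ Ce) (hθ : 0 < θ) (hθ1 : θ ≤ 1)
    (he : ∀ k < J.nb, J.d.zlo ≤ J.z k → J.z k < J.zhi → e k ≤ Ce * skwE J.d J.hh (J.z k))
    (hxs : ivd8Kz S cs * J.d.x ^ S.cg ≤ 1) :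
    ∑ k ∈ (Finset.range (J.P.n + 1)).filter (fun k => 2 * S.Cv * J.d.zlo ≤ J.P.v k ∧ J.P.v k ≤ (l8d7iGrid S J).vz J.zhi),
        J.P.dv k * (if θ ≤ e k then J.P.D2 k else 0)
      ≤ 2 * ivd8Ks S Czb * (3 * S.CW ^ 2) ^ 8 * Czb * ((1 + ivd8CD S J CD CM + 3 * CM) * skwL J.d / J.d.b ^ 2 * Ce ^ 8)
          * (ivd8Kz S cs * ivd8Z0 J * (J.d.U * J.d.Z) ^ 2 * J.d.Z ^ 2) / θ ^ 8 := by
  have hD := l8d7i_ok hS hJ hX
  have hg := l8d7i_grid_ok hS hJ hX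
  have hs := ivd8_locs hS hJ hX
  have hL := ivd8_loc hS hJ hX hCD hCM href hraw
  have hlft : ∀ k ≤ J.P.n, J.P.v k - J.P.dv k = (l8d7iGrid S J).vz (l8d7iZc J k) := by
    intro k hk
    rw [← ivp_M_lft]
    exact l8locs_lft hg hk
  have h := l8locs_D8' hD hJ.sp hg hs hL (ivd8_sig hJ) (e := e) (Ce := Ce) (θ := θ) (vlo := 2 * S.Cv * J.d.zlo)
    (vhi := (l8d7iGrid S J).vz J.zhi) hCe hθ hθ1 ?_ le_rfl ?_ (ivd8_Y_le hS hJ) (ivd8_z1_small hS hJ hX.cs0 hxs)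
  · refine h.trans ?_
    rw [ivd8_Ks_eq]
    have hz := ivd8_z1_le (Czb := Czb) hS hJ hX.cs0
    have hKs := ivd8_Ks_nonneg hS hX.Czb1
    have hCzb := hX.Czb1
    have hb := hJ.wh.b0
    have hLg : 0 ≤ skwL J.d := (zero_le_one.trans (l8loc_L_one hD))
    have hCDt := hL.CD0
    have hCW := hS.CW
    show 2 * ivd8Ks S Czb * (3 * S.CW ^ 2) ^ 8 * Czb * ((1 + ivd8CD S J CD CM + 3 * CM) * skwL J.d / J.d.b ^ 2 * Ce ^ 8)
          * (l8loc_z1 (l8d7iD S J cs Czb) * (J.d.U * J.d.Z) ^ 2 * J.d.Z ^ 2) / θ ^ 8 ≤ _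
    gcongr
  · intro k hk hv
    rw [hlft k hk]
    exact l8d7i_vz_mono hJ hX (ivd8_zlo_le hS hJ hX hv)
  · intro k hk hv hv2 hdv
    have h1 := ivd8_zlo_le hS hJ hX hv
    have h2 : l8d7iZc J k < J.zhi := by
      by_contra hc
      have := l8d7i_vz_mono (S := S) hJ hX (not_lt.1 hc)
      rw [← hlft k hk] at this
      linarith
    have hkb := ivd8_lt_nb hJ hX h2
    show e k ≤ Ce * skwE J.d J.hh (l8d7iZc J k)
    rw [l8d7i_zc_le hkb.le] at h1 h2 ⊢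
    exact he k hkb h1 h2

/-! ### the zone `[Y, 2 Cv zlo)` : (D9) on the cuts -/

section low

variable {P : L8P Ω m}

theorem ivd8_int_eq (P : L8P Ω m) (lo hi : ℝ) (g : ℕ → ℝ) :
    P.int lo hi g = ∑ k ∈ (Finset.range (P.n + 1)).filter (fun k => lo ≤ P.v k ∧ P.v k ≤ hi), P.dv k * g k := by
  unfold L8P.int
  congr

theorem ivd8_filter_le {s : Finset ℕ} {w : ℕ → ℝ} (hw : ∀ k, 0 ≤ w k) {p q r : ℕ → Prop} [DecidablePred p] [DecidablePred q]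
    [DecidablePred r] (h : ∀ k, p k → q k ∨ r k) :
    ∑ k ∈ s.filter p, w k ≤ ∑ k ∈ s.filter q, w k + ∑ k ∈ s.filter r, w k := by
  rw [Finset.sum_filter, Finset.sum_filter, Finset.sum_filter, ← Finset.sum_add_distrib]
  refine Finset.sum_le_sum fun k _ => ?_
  have h0 := hw k
  by_cases hp : p k
  · rcases h k hp with hq | hr
    · rw [if_pos hp, if_pos hq]
      have : 0 ≤ if r k then w k else 0 := by split_ifs <;> simp [h0]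
      linarith
    · rw [if_pos hp, if_pos hr]
      have : 0 ≤ if q k then w k else 0 := by split_ifs <;> simp [h0]
      linarith
  · rw [if_neg hp]
    have a1 : 0 ≤ if q k then w k else 0 := by split_ifs <;> simp [h0]
    have a2 : 0 ≤ if r k then w k else 0 := by split_ifs <;> simp [h0]
    linarith

/-- `n` dyadic blocks -/
theorem ivd8_dyad (hP : P.Ok) {g : ℕ → ℝ} (hg : ∀ k, 0 ≤ g k) {y B : ℝ} (n : ℕ)
    (hB : ∀ j < n, P.int (2 ^ j * y) (2 * (2 ^ j * y)) g ≤ B) :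
    ∑ k ∈ (Finset.range (P.n + 1)).filter (fun k => y ≤ P.v k ∧ P.v k < 2 ^ n * y), P.dv k * g k ≤ n * B := by
  induction n with
  | zero =>
    have : (Finset.range (P.n + 1)).filter (fun k => y ≤ P.v k ∧ P.v k < 2 ^ 0 * y) = ∅ := by
      rw [Finset.filter_eq_empty_iff]
      intro k _ h
      have := h.1; have := h.2
      simp only [pow_zero, one_mul] at *
      linarith
    rw [this]; simp
  | succ n ih =>
    have h1 := ih fun j hj => hB j (Nat.lt_succ_of_lt hj)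
    have h2 := hB n (Nat.lt_succ_self n)
    rw [ivd8_int_eq] at h2
    have h3 := ivd8_filter_le (s := Finset.range (P.n + 1)) (w := fun k => P.dv k * g k)
      (fun k => mul_nonneg (ivk_dv_nonneg hP k) (hg k))
      (p := fun k => y ≤ P.v k ∧ P.v k < 2 ^ (n + 1) * y) (q := fun k => y ≤ P.v k ∧ P.v k < 2 ^ n * y)
      (r := fun k => 2 ^ n * y ≤ P.v k ∧ P.v k ≤ 2 * (2 ^ n * y)) (by
        intro k hk
        rcases lt_or_ge (P.v k) (2 ^ n * y) with h | h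
        · exact Or.inl ⟨hk.1, h⟩
        · refine Or.inr ⟨h, ?_⟩
          have := hk.2
          rw [pow_succ] at this
          linarith)
    push_cast
    linarith

/-- TEX[LL:lem:statistics-lower-band] (D9), second line, on the cuts of mass in `[y, 2^n y)` -/
theorem ivd8_low (hP : P.Ok) {b : L8LB} {κ cs μ c0 : ℝ} (h : IvsLow P b κ cs μ) (hm : 0 < m) (hc0 : 0 ≤ c0) (hcs : 0 < cs)
    (hsus : P.Sus cs) (hpin : P.Pin 1 c0) (hdhn : P.dh P.n = 0) {y : ℝ} (hy : b.x ≤ y) (n : ℕ) (htop : 2 ^ n * y ≤ b.vtop) :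
    ∑ k ∈ (Finset.range (P.n + 1)).filter (fun k => y ≤ P.v k ∧ P.v k < 2 ^ n * y), P.dv k * P.D2 k
      ≤ n * ((9 + 16 * c0) * Real.sqrt b.K1 * (b.R * b.eps y) + μ) := by
  have hy0 : 0 < y := lt_of_lt_of_le h.x0 hy
  have hb := ivs_lb_ok hP (c0 := c0) h
  refine ivd8_dyad hP (ivs_D2_nonneg hP) n fun j hj => ?_
  have h1 : (1 : ℝ) ≤ 2 ^ j := one_le_pow₀ (by norm_num)
  have hlo : y ≤ 2 ^ j * y := by nlinarith
  have hhi : 2 * (2 ^ j * y) ≤ b.vtop := by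
    refine le_trans ?_ htop
    have : (2 : ℝ) ^ (j + 1) ≤ 2 ^ n := pow_le_pow_right₀ (by norm_num) hj
    calc 2 * (2 ^ j * y) = 2 ^ (j + 1) * y := by ring
      _ ≤ _ := mul_le_mul_of_nonneg_right this hy0.le
  refine (ivs_d9_D hP h hm hc0 hcs hsus hpin hdhn (hy.trans hlo) (by nlinarith) hhi le_rfl).trans ?_
  have he : b.eps (2 ^ j * y) ≤ b.eps y := Real.sqrt_le_sqrt (L8LB.l8lb_eps2_anti hb hlo)
  have hR := (L8LB.l8lb_R_pos hb).le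
  have hK := Real.sqrt_nonneg b.K1
  have : (9 + 16 * c0) * Real.sqrt b.K1 * (b.R * b.eps (2 ^ j * y)) ≤ (9 + 16 * c0) * Real.sqrt b.K1 * (b.R * b.eps y) := by
    gcongr
  linarith

end low

/-! ### the field -/

theorem ivd8_eps_aux {x lam Y : ℝ} (hx : 0 < x) (hl : 0 < lam) (hY : 0 < Y) :
    Real.sqrt (x ^ 6 * Y / (lam * Y ^ 3)) = x ^ 3 / Real.sqrt lam / Y := by
  have hs0 := Real.sqrt_pos.2 hl
  have e1 : x ^ 6 * Y / (lam * Y ^ 3) = (x ^ 3 / (Real.sqrt lam * Y)) ^ 2 := by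
    rw [div_pow, mul_pow, Real.sq_sqrt hl.le]
    field_simp
  rw [e1, Real.sqrt_sq (by positivity), div_div]

/-- the constant of the bands -/
noncomputable def ivd8Km (S : SkpS) (J : SkpI Ω m) (cs Czb CD CM Ce : ℝ) : ℝ :=
  2 * ivd8Ks S Czb * (3 * S.CW ^ 2) ^ 8 * Czb * ((1 + ivd8CD S J CD CM + 3 * CM) * skwL J.d / J.d.b ^ 2 * Ce ^ 8) * ivd8Kz S cs

/-- TEX[LL:lem:statistics-localized] TEX[LL:eq:D8] **THE FIELD (D8) FOR AN INSTANCE OF PM**, general form: the zone `[Y, 2 Cv zlo)` enters through ANY bound `B9 z_1^0 Z` of its total variance -/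
theorem ivd8_field0 (hS : S.Ok) (hJ : J.Ok S) (hX : L8D7X S J cs Czb) {CD CM : ℝ} (hCD : 0 ≤ CD) (hCM : 0 ≤ CM)
    (href : ∀ k ≤ J.nb, J.d.zlo ≤ J.z k →
      ∫ ω, (J.P.nX k ω - J.d.q (J.z k)) ^ 2 ∂J.P.μ ≤ (CD * skwE J.d J.hh (J.z k)) ^ 2)
    (hraw : ∀ k ≤ J.nb, ∫ ω, J.P.nX k ω ^ 2 ∂J.P.μ ≤ (CM * (skwR (J.z k) + J.d.zlo)) ^ 2)
    {e : ℕ → ℝ} {Ce M θ : ℝ} (hCe : 1 ≤ Ce) (hθ : 0 < θ) (hθ1 : θ ≤ 1)
    (he : ∀ k < J.nb, J.d.zlo ≤ J.z k → J.z k < J.zhi → e k ≤ Ce * skwE J.d J.hh (J.z k))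
    (hel : ∀ k ≤ J.P.n, J.d.U * J.d.Z ≤ J.P.v k → J.P.v k < 2 * S.Cv * J.d.zlo → e k ≤ M * (J.d.U * J.d.Z))
    (hxs : ivd8Kz S cs * J.d.x ^ S.cg ≤ 1)
    {μ B9 : ℝ} (hmesh : ∀ k ≤ J.P.n, J.P.dv k ≤ μ) (hμ : μ ≤ J.d.x ^ 5) (hB9 : 0 ≤ B9)
    (hsum : ∑ k ∈ (Finset.range (J.P.n + 1)).filter (fun k => J.d.U * J.d.Z ≤ J.P.v k ∧ J.P.v k < 2 * S.Cv * J.d.zlo),
      J.P.dv k * J.P.D2 k ≤ B9 * (ivd8Z0 J * J.d.Z))
    {kt : ℕ} (hkt : kt ≤ J.P.n) (hkz : l8d7iZc J (kt + 1) ≤ J.zhi) (hτ : J.P.a - J.P.v kt ≤ J.d.x ^ 5) :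
    J.P.int (J.d.U * J.d.Z) J.P.a (fun k => if θ ≤ e k then J.P.D2 k else 0)
      ≤ (B9 * M ^ 2 + ivd8Km S J cs Czb CD CM Ce + 2) * (ivd8Z0 J * (J.d.U * J.d.Z) ^ 2 * J.d.Z ^ 2) / θ ^ 8 := by
  have hP := hJ.sp
  have hx := hJ.wh.x0
  have hZ := hJ.wh.Z1
  have hY0 := ivd8_Y_pos hJ
  have hZ0 := ivd8_Z0_pos hJ
  have hZ0x := ivd8_Z0_ge hJ
  set Y := J.d.U * J.d.Z with hYdef
  have hU0 : 0 < J.d.U := lt_of_lt_of_le hx hJ.wh.xU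
  have hUY : J.d.U ≤ Y := by rw [hYdef]; nlinarith
  have hxY : J.d.x ≤ Y := hJ.wh.xU.trans hUY
  -- the unit `Q = z_1^0 Y² Z² / θ⁸`
  set Q := ivd8Z0 J * Y ^ 2 * J.d.Z ^ 2 / θ ^ 8 with hQ
  have hθ8 : θ ^ 8 ≤ 1 := pow_le_one₀ hθ.le hθ1
  have hθ82 : θ ^ 8 ≤ θ ^ 2 := pow_le_pow_of_le_one hθ.le hθ1 (by norm_num)
  have hZ2 : 1 ≤ J.d.Z ^ 2 := one_le_pow₀ hZ
  have hZZ : J.d.Z ≤ J.d.Z ^ 2 := by nlinarith
  have hQ1 : ivd8Z0 J * Y ^ 2 ≤ Q := by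
    rw [hQ, le_div_iff₀ (by positivity)]
    have h0 : 0 ≤ ivd8Z0 J * Y ^ 2 := by positivity
    calc ivd8Z0 J * Y ^ 2 * θ ^ 8 ≤ ivd8Z0 J * Y ^ 2 * 1 := mul_le_mul_of_nonneg_left hθ8 h0
      _ ≤ ivd8Z0 J * Y ^ 2 * J.d.Z ^ 2 := mul_le_mul_of_nonneg_left hZ2 h0
  have hQ2 : ivd8Z0 J * Y ^ 2 * J.d.Z / θ ^ 2 ≤ Q := by
    rw [hQ, div_le_div_iff₀ (by positivity) (by positivity)]
    have h0 : 0 ≤ ivd8Z0 J * Y ^ 2 := by positivity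
    exact mul_le_mul (mul_le_mul_of_nonneg_left hZZ h0) hθ82 (by positivity) (by positivity)
  have hx5 : J.d.x ^ 5 ≤ ivd8Z0 J * Y ^ 2 := by
    have : J.d.x ^ 2 ≤ Y ^ 2 := pow_le_pow_left₀ hx.le hxY 2
    calc J.d.x ^ 5 = J.d.x ^ 3 * J.d.x ^ 2 := by ring
      _ ≤ ivd8Z0 J * Y ^ 2 := mul_le_mul hZ0x this (by positivity) hZ0.le
  -- the last cells
  have hvhi : J.P.v kt ≤ (l8d7iGrid S J).vz J.zhi := by
    rw [l8d7i_v_eq hS hJ hX kt hkt]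
    exact l8d7i_vz_mono hJ hX hkz
  have htail := l8locs_tail hP (vhi := (l8d7iGrid S J).vz J.zhi) hmesh (w := J.P.D2) (ivs_D2_le_one hP)
  have htail' : ∑ k ∈ (Finset.range (J.P.n + 1)).filter (fun k => (l8d7iGrid S J).vz J.zhi < J.P.v k), J.P.dv k * J.P.D2 k
      ≤ 2 * J.d.x ^ 5 := by
    refine htail.trans ?_
    have : max 0 (J.P.a - (l8d7iGrid S J).vz J.zhi) ≤ J.d.x ^ 5 := max_le (by positivity) (by linarith)
    linarith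
  -- assembly
  have hw : ∀ k, 0 ≤ J.P.dv k * (if θ ≤ e k then J.P.D2 k else 0) := fun k => by
    refine mul_nonneg (ivk_dv_nonneg hP k) ?_
    split_ifs
    · exact ivs_D2_nonneg hP k
    · exact le_rfl
  rw [ivd8_int_eq]
  refine (l8locs_split (vlo := 2 * S.Cv * J.d.zlo) (vhi := (l8d7iGrid S J).vz J.zhi) hw).trans ?_
  have t1 := l8locs_low (n := J.P.n) (v := J.P.v) (dv := J.P.dv) (D2 := J.P.D2) (e := e) (ylo := Y)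
    (vlo := 2 * S.Cv * J.d.zlo) (El := M * Y) hθ (by positivity) (ivk_dv_nonneg hP) (ivs_D2_nonneg hP) hel hsum
  have t2 := ivd8_main hS hJ hX hCD hCM href hraw hCe hθ hθ1 he hxs
  have t3 : ∑ k ∈ (Finset.range (J.P.n + 1)).filter (fun k => (l8d7iGrid S J).vz J.zhi < J.P.v k),
      J.P.dv k * (if θ ≤ e k then J.P.D2 k else 0) ≤ 2 * J.d.x ^ 5 := by
    refine le_trans (Finset.sum_le_sum fun k _ => mul_le_mul_of_nonneg_left ?_ (ivk_dv_nonneg hP k)) htail'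
    split_ifs
    · exact le_rfl
    · exact ivs_D2_nonneg hP k
  have u1 : B9 * (ivd8Z0 J * J.d.Z) * (M * Y / θ) ^ 2 ≤ B9 * M ^ 2 * Q := by
    calc B9 * (ivd8Z0 J * J.d.Z) * (M * Y / θ) ^ 2 = B9 * M ^ 2 * (ivd8Z0 J * Y ^ 2 * J.d.Z / θ ^ 2) := by
          rw [div_pow, mul_pow]; ring
      _ ≤ _ := mul_le_mul_of_nonneg_left hQ2 (by positivity)
  have u2 : 2 * ivd8Ks S Czb * (3 * S.CW ^ 2) ^ 8 * Czb * ((1 + ivd8CD S J CD CM + 3 * CM) * skwL J.d / J.d.b ^ 2 * Ce ^ 8)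
          * (ivd8Kz S cs * ivd8Z0 J * Y ^ 2 * J.d.Z ^ 2) / θ ^ 8 = ivd8Km S J cs Czb CD CM Ce * Q := by
    rw [hQ]; unfold ivd8Km; ring
  have u3 : 2 * J.d.x ^ 5 ≤ 2 * Q := by linarith [hx5.trans hQ1]
  have e0 : (B9 * M ^ 2 + ivd8Km S J cs Czb CD CM Ce + 2) * (ivd8Z0 J * Y ^ 2 * J.d.Z ^ 2) / θ ^ 8
      = (B9 * M ^ 2 + ivd8Km S J cs Czb CD CM Ce + 2) * Q := by rw [hQ]; ring
  rw [e0]
  rw [u2] at t2
  linarith

/-- **(D8), the zone `[Y, 2 Cv zlo)` paid by the LAST LINE OF (D7)** on the bands `Y ≤ r ≤ 2^n0 Y` (`A r z_r^0 Z r² = A z_1^0 Z`) -/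
theorem ivd8_field7 (hS : S.Ok) (hJ : J.Ok S) (hX : L8D7X S J cs Czb) {CD CM : ℝ} (hCD : 0 ≤ CD) (hCM : 0 ≤ CM)
    (href : ∀ k ≤ J.nb, J.d.zlo ≤ J.z k →
      ∫ ω, (J.P.nX k ω - J.d.q (J.z k)) ^ 2 ∂J.P.μ ≤ (CD * skwE J.d J.hh (J.z k)) ^ 2)
    (hraw : ∀ k ≤ J.nb, ∫ ω, J.P.nX k ω ^ 2 ∂J.P.μ ≤ (CM * (skwR (J.z k) + J.d.zlo)) ^ 2)
    {e : ℕ → ℝ} {Ce M θ : ℝ} (hCe : 1 ≤ Ce) (hθ : 0 < θ) (hθ1 : θ ≤ 1)
    (he : ∀ k < J.nb, J.d.zlo ≤ J.z k → J.z k < J.zhi → e k ≤ Ce * skwE J.d J.hh (J.z k))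
    (hel : ∀ k ≤ J.P.n, J.d.U * J.d.Z ≤ J.P.v k → J.P.v k < 2 * S.Cv * J.d.zlo → e k ≤ M * (J.d.U * J.d.Z))
    (hxs : ivd8Kz S cs * J.d.x ^ S.cg ≤ 1)
    {μ A7 : ℝ} (hmesh : ∀ k ≤ J.P.n, J.P.dv k ≤ μ) (hμ : μ ≤ J.d.x ^ 5) (hA7 : 0 ≤ A7) {n0 : ℕ} (hn0 : 2 * S.Cv * S.Cz ≤ 2 ^ n0)
    (h7 : ∀ r, J.d.U * J.d.Z ≤ r → 2 * r ≤ 2 ^ n0 * (J.d.U * J.d.Z) → J.P.int r (2 * r) J.P.D2 ≤ A7 * (ivd8Z0 J * J.d.Z))
    {kt : ℕ} (hkt : kt ≤ J.P.n) (hkz : l8d7iZc J (kt + 1) ≤ J.zhi) (hτ : J.P.a - J.P.v kt ≤ J.d.x ^ 5) :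
    J.P.int (J.d.U * J.d.Z) J.P.a (fun k => if θ ≤ e k then J.P.D2 k else 0)
      ≤ (n0 * A7 * M ^ 2 + ivd8Km S J cs Czb CD CM Ce + 2) * (ivd8Z0 J * (J.d.U * J.d.Z) ^ 2 * J.d.Z ^ 2) / θ ^ 8 := by
  have hP := hJ.sp
  have hY0 := ivd8_Y_pos hJ
  refine ivd8_field0 hS hJ hX hCD hCM href hraw hCe hθ hθ1 he hel hxs hmesh hμ (B9 := n0 * A7) (by positivity) ?_ hkt hkz hτ
  have hvlo : 2 * S.Cv * J.d.zlo ≤ 2 ^ n0 * (J.d.U * J.d.Z) := by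
    have hCv := hS.Cv
    calc 2 * S.Cv * J.d.zlo ≤ 2 * S.Cv * (S.Cz * (J.d.U * J.d.Z)) := mul_le_mul_of_nonneg_left hJ.zloY (by linarith)
      _ = 2 * S.Cv * S.Cz * (J.d.U * J.d.Z) := by ring
      _ ≤ _ := mul_le_mul_of_nonneg_right hn0 hY0.le
  have hd := ivd8_dyad hP (ivs_D2_nonneg hP) (y := J.d.U * J.d.Z) (B := A7 * (ivd8Z0 J * J.d.Z)) n0 (fun j hj => by
    have h1 : (1 : ℝ) ≤ 2 ^ j := one_le_pow₀ (by norm_num)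
    refine h7 _ (by nlinarith) ?_
    have : (2 : ℝ) ^ (j + 1) ≤ 2 ^ n0 := pow_le_pow_right₀ (by norm_num) hj
    calc 2 * (2 ^ j * (J.d.U * J.d.Z)) = 2 ^ (j + 1) * (J.d.U * J.d.Z) := by ring
      _ ≤ _ := mul_le_mul_of_nonneg_right this hY0.le)
  refine le_trans (Finset.sum_le_sum_of_subset_of_nonneg ?_ fun k _ _ => mul_nonneg (ivk_dv_nonneg hP k) (ivs_D2_nonneg hP k))
    (hd.trans (le_of_eq (by ring)))
  intro k hk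
  obtain ⟨a1, a2, a3⟩ := Finset.mem_filter.1 hk
  exact Finset.mem_filter.2 ⟨a1, a2, lt_of_lt_of_le a3 hvlo⟩

/-- **(D8), the zone `[Y, 2 Cv zlo)` paid by (D9)** on the cuts (`ivs_d9_D` of 228, imports `IvsLow`) -/
theorem ivd8_field (hS : S.Ok) (hJ : J.Ok S) (hX : L8D7X S J cs Czb) {CD CM : ℝ} (hCD : 0 ≤ CD) (hCM : 0 ≤ CM)
    (href : ∀ k ≤ J.nb, J.d.zlo ≤ J.z k →
      ∫ ω, (J.P.nX k ω - J.d.q (J.z k)) ^ 2 ∂J.P.μ ≤ (CD * skwE J.d J.hh (J.z k)) ^ 2)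
    (hraw : ∀ k ≤ J.nb, ∫ ω, J.P.nX k ω ^ 2 ∂J.P.μ ≤ (CM * (skwR (J.z k) + J.d.zlo)) ^ 2)
    {e : ℕ → ℝ} {Ce M θ : ℝ} (hCe : 1 ≤ Ce) (hθ : 0 < θ) (hθ1 : θ ≤ 1)
    (he : ∀ k < J.nb, J.d.zlo ≤ J.z k → J.z k < J.zhi → e k ≤ Ce * skwE J.d J.hh (J.z k))
    (hel : ∀ k ≤ J.P.n, J.d.U * J.d.Z ≤ J.P.v k → J.P.v k < 2 * S.Cv * J.d.zlo → e k ≤ M * (J.d.U * J.d.Z))
    (hxs : ivd8Kz S cs * J.d.x ^ S.cg ≤ 1)
    {b : L8LB} {κ μ ρ : ℝ} (hlow : IvsLow J.P b κ cs μ) (hbx : b.x = J.d.x) (hbY : b.Y = J.d.U * J.d.Z) (hbU : b.U = J.d.U)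
    (hbl : b.lam1 = J.lam1) (hbR : b.R ≤ ρ * (J.d.U * J.d.Z)) {n0 : ℕ} (hn0 : 2 * S.Cv * S.Cz ≤ 2 ^ n0)
    (hbt : 2 ^ n0 * (J.d.U * J.d.Z) ≤ b.vtop) (hμ : μ ≤ J.d.x ^ 5)
    {kt : ℕ} (hkt : kt ≤ J.P.n) (hkz : l8d7iZc J (kt + 1) ≤ J.zhi) (hτ : J.P.a - J.P.v kt ≤ J.d.x ^ 5) :
    J.P.int (J.d.U * J.d.Z) J.P.a (fun k => if θ ≤ e k then J.P.D2 k else 0)
      ≤ (n0 * ((9 + 16 * S.K.cA1 1) * Real.sqrt b.K1 * ρ + 1) * M ^ 2 + ivd8Km S J cs Czb CD CM Ce + 2)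
          * (ivd8Z0 J * (J.d.U * J.d.Z) ^ 2 * J.d.Z ^ 2) / θ ^ 8 := by
  have hP := hJ.sp
  have hx := hJ.wh.x0
  have hx1 : J.d.x ≤ 1 := hJ.wh.xU.trans hJ.wh.U1
  have hZ := hJ.wh.Z1
  have hU0 : 0 < J.d.U := lt_of_lt_of_le hx hJ.wh.xU
  have hY0 := ivd8_Y_pos hJ
  have hZ0 := ivd8_Z0_pos hJ
  have hZ0x := ivd8_Z0_ge hJ
  have hc0 : (0 : ℝ) ≤ S.K.cA1 1 := by linarith [hS.cA1 1]
  have hl := ivd8_lam_pos hJ
  have hb := ivs_lb_ok hP (c0 := S.K.cA1 1) hlow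
  have hR0 := (L8LB.l8lb_R_pos hb).le
  have hρ : 0 ≤ ρ := by
    by_contra hc
    have : ρ * (J.d.U * J.d.Z) < 0 := mul_neg_of_neg_of_pos (not_le.1 hc) hY0
    linarith
  have hK := Real.sqrt_nonneg b.K1
  refine ivd8_field0 hS hJ hX hCD hCM href hraw hCe hθ hθ1 he hel hxs hlow.mesh hμ
    (B9 := n0 * ((9 + 16 * S.K.cA1 1) * Real.sqrt b.K1 * ρ + 1)) (by positivity) ?_ hkt hkz hτ
  set Y := J.d.U * J.d.Z with hYdef
  have hUY : J.d.U ≤ Y := by rw [hYdef]; nlinarith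
  have hxY : J.d.x ≤ Y := hJ.wh.xU.trans hUY
  have heps : b.eps Y = ivd8Z0 J / Y := by
    unfold L8LB.eps L8LB.eps2 ivd8Z0
    rw [hbx, hbY, hbU, hbl, max_eq_left hUY]
    exact ivd8_eps_aux hx hl hY0
  have hvlo : 2 * S.Cv * J.d.zlo ≤ 2 ^ n0 * Y := by
    have hCv := hS.Cv
    calc 2 * S.Cv * J.d.zlo ≤ 2 * S.Cv * (S.Cz * Y) := mul_le_mul_of_nonneg_left hJ.zloY (by linarith)
      _ = 2 * S.Cv * S.Cz * Y := by ring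
      _ ≤ _ := mul_le_mul_of_nonneg_right hn0 hY0.le
  have hB9 := ivd8_low hP hlow hJ.m0 hc0 hX.cs0 hX.sus (hJ.pin 1 le_rfl) hX.dhn (y := Y) (by rw [hbx]; exact hxY) n0 hbt
  refine le_trans (Finset.sum_le_sum_of_subset_of_nonneg ?_ fun k _ _ => mul_nonneg (ivk_dv_nonneg hP k) (ivs_D2_nonneg hP k))
    (hB9.trans ?_)
  · intro k hk
    obtain ⟨a1, a2, a3⟩ := Finset.mem_filter.1 hk
    exact Finset.mem_filter.2 ⟨a1, a2, lt_of_lt_of_le a3 hvlo⟩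
  · have e5 : (n0 : ℝ) * ((9 + 16 * S.K.cA1 1) * Real.sqrt b.K1 * ρ + 1) * (ivd8Z0 J * J.d.Z)
        = n0 * (((9 + 16 * S.K.cA1 1) * Real.sqrt b.K1 * ρ + 1) * (ivd8Z0 J * J.d.Z)) := by ring
    rw [e5]
    refine mul_le_mul_of_nonneg_left ?_ (Nat.cast_nonneg (α := ℝ) n0)
    have e1 : b.R * b.eps Y ≤ ρ * ivd8Z0 J := by
      rw [heps]
      calc b.R * (ivd8Z0 J / Y) ≤ ρ * Y * (ivd8Z0 J / Y) := mul_le_mul_of_nonneg_right hbR (by positivity)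
        _ = _ := by field_simp
    have e2 : μ ≤ ivd8Z0 J := hμ.trans ((pow_le_pow_of_le_one hx.le hx1 (by norm_num)).trans hZ0x)
    have e3 : (9 + 16 * S.K.cA1 1) * Real.sqrt b.K1 * (b.R * b.eps Y) ≤ (9 + 16 * S.K.cA1 1) * Real.sqrt b.K1 * (ρ * ivd8Z0 J) :=
      mul_le_mul_of_nonneg_left e1 (by positivity)
    have e4 : ((9 + 16 * S.K.cA1 1) * Real.sqrt b.K1 * ρ + 1) * ivd8Z0 J
        ≤ ((9 + 16 * S.K.cA1 1) * Real.sqrt b.K1 * ρ + 1) * (ivd8Z0 J * J.d.Z) := by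
      refine mul_le_mul_of_nonneg_left ?_ (by positivity)
      nlinarith
    nlinarith

theorem ivd8_eqns_cite : True := by
  have := @ivd8CD.eq_1; have := @ivd8Ks.eq_1; have := @ivd8Kz.eq_1; have := @ivd8Z0.eq_1; have := @ivd8Km.eq_1
  trivial

end Claimed.Agent.R286
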