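import Claimed.Agent.R286.L08.HiCtx

/-!
# Row 286 (S0533), folder L08, file HiCov : THE COVARIANCE EQUATION of LL Prop 8.11 (D15), abstract, non-asymptotic      (architect helper234; proof helper280; prefix `L8H` / `l8h_` / `l8hc`)

LL 08 l.1508-1600.   Context `X : JtCtx S` (untilted), threshold level `ti` (mass `V_i`), Taylor degree `k`.
CONCLUSION: for every high level `t0`:   `D2 t0 ≤ Kc * Pol * (es * Dd t0 * DH + Lam * Dd t0 + eta + EA + es ^ k + etaT)`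
(`Pol` = cost of the inverse, `es = x^(δ*/2)`, `Lam, eta` = (D16), `EA` = contact error `1/m`, `etaT` = tail of (D11)).   The absorption is `L08/HiA.lean`.

PLAN.   `P = X.P0 t0`, `u τ := ν_τ[P δ_23]` (4 labels), `τab = jtTab2 N t0`.
 1. `u (jtTabO N t0) = D2 t0` (`nu_comap` with `x ↦ x % 2`);  `u` is local (`nu_congr`) and symmetric (`nu_comap` with the swap, `ov_symm`).
 2. (H1): `D2 t0 = absK 2 2 τab (G * ret * (u - Mop u))`.
 3. SOURCE.  For `τ` (4 labels, pair `(2,3)` retained): `ν_τ[P] = 0`, so `ν_τ[P Qs_23] = u τ`, `ev 0 = 0`;  `J = b δ + ph` (`msk = 1`), `ν[P J_45] = b ν[P δ_45]`, so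
    `ev 1 = Mop u τ + lowlin τ`, `lowlin τ = sumK 2 4 τ (off * lowI * Mker * b * ν[P δ_45])`.   (A7): `|u τ - Mop u τ - lowlin τ - ∑_{2 ≤ n < k} ev n| ≤ CA * rem + EA`.
 4. REMAINDER: `rem ≤ mass * (2 es^k + 2 CJ^k k etaT)` (truncate every `J` at `es`).
 5. COMPOSITION: `absK 2 2 τab (g * sumK m 4 · Ψ) = absK (2 + m) 2 τab (g * sg * Ψ)` for local `g` (`abs_add`, `sum_sign`, `abs_rep`).
 6. For `1 ≤ n < k` split by the set `Lw ⊆ range n` of the low pairs (indicator in the weight).  With `H = range n \\ Lw`: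
    `∏ J = (∏_H J - ∏_H ph) * ∏_Lw J + ∏_H ph * ∑_{A ⊆ Lw} ∏_A (b δ) ∏_{Lw \\ A} ph`.
    (i) first term (`n ≥ 2`; for `n = 1` it is the retained term of `Mop`): telescoping over `H`: one high `b δ_s`, the other `n - 1 ≥ 1` factors are `ph` (high, `≤ es`) or `J` (truncated at `es`):
        `ν[|P| |b δ_s| ∏ ..] ≤ bb es^(n-1) Dd t0 DH + tails`  (Cauchy-Schwarz on the two untruncated factors, pair marginals).
    (ii) `A = ∅`: deterministic, `ν[P] = 0`.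
    (iii) `A ≠ ∅`: `L8_LS1` with `Sto = A`, `Det = Lw \\ A`, weight `= G ret sg off Quo 1[Lw] ∏_A b ∏_{Lw \\ A} ph ∏_H ph / normalisation`;
        majorant: `|ph| ≤ eb` low, `≤ es ≤ 1` high, `|Quo| ≤ CQ`;  sole low factor (`Lw = A = {s}`): `L8H_PAR`.
 7. Sum: `2^n * 2^n` terms for each `n < k`.
-/

set_option autoImplicit false

namespace Claimed.Agent.R286

open Finset

/-- hypotheses of the covariance equation -/
structure L8HCov {S : Type} (X : JtCtx S) (a bb CQ CA : ℝ) (k ti : ℕ) (eb vv : ℕ → ℝ)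
    (Pol es Lam eta EA etaT DH : ℝ) : Prop where
  ok : X.Ok a
  msk : ∀ t, X.msk t = 1
  k_pos : 2 ≤ k
  b_bd : ∀ t, |X.bC t| ≤ bb
  es_nonneg : 0 ≤ es
  es_le : es ≤ 1
  eb_nonneg : ∀ t, 0 ≤ eb t
  eb_le : ∀ t, eb t ≤ 1
  vv_nonneg : ∀ t, 0 ≤ vv t
  ph_low : ∀ t, t < ti → |X.ph t| ≤ eb t
  ph_high : ∀ t, ti ≤ t → t ≤ X.N → |X.ph t| ≤ es
  /-- (D11): the row mismatch exceeds `es` with probability `≤ etaT`, at every level -/
  J_tail : ∀ t, t ≤ X.N → X.nu 2 (jtTab2 X.N t) (fun σ => if es < |X.J (jtTab2 X.N t) σ 0 1| then 1 else 0) ≤ etaT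
  DH_bd : ∀ t, ti ≤ t → t ≤ X.N → X.Dd t ≤ DH
  /-- (A7) with the test `P`, tested pair `(2, 3)` retained -/
  a7 : ∀ t0, ti ≤ t0 → t0 ≤ X.N → ∀ τ, IsTr X.N 4 τ → JtAgree 2 (jtTab2 X.N t0) τ → ti ≤ τ 2 3 → τ 2 3 ≤ X.N →
    X.A7 4 τ (X.P0 t0) 2 3 k CA EA
  CA_nonneg : 0 ≤ CA
  EA_nonneg : 0 ≤ EA
  h1 : L8H_H1 X ti Pol
  ls : ∀ n, 1 ≤ n → n < k → L8_LS1 X ti eb vv (2 + 2 * n) n Lam eta
  Lam_nonneg : 0 ≤ Lam
  eta_nonneg : 0 ≤ eta
  quo : ∀ n, n < k → ∀ τ, IsTr X.N (4 + 2 * n) τ → |X.Quo (4 + 2 * n) 4 2 3 τ (range n)| ≤ CQ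
  par : ∀ n, 1 ≤ n → n < k → L8H_PAR X ti vv 4 2 3 n CQ

/-- CONTRACT: the covariance inequality -/
def L8_HI_COV : Prop :=
  ∀ (k : ℕ) (a bb CQ CA : ℝ), ∃ Kc : ℝ, 0 ≤ Kc ∧ ∀ (S : Type) (X : JtCtx S) (ti : ℕ) (eb vv : ℕ → ℝ)
    (Pol es Lam eta EA etaT DH : ℝ), L8HCov X a bb CQ CA k ti eb vv Pol es Lam eta EA etaT DH →
    ∀ t0, ti ≤ t0 → t0 ≤ X.N →
      X.D2 t0 ≤ Kc * Pol * (es * X.Dd t0 * DH + Lam * X.Dd t0 + eta + EA + es ^ k + etaT)

/-! ## PROOF of the contract (helper280; prefix `l8hc`).   TEX[LL:prop:statistics-high]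

Self-contained over `JtCtx.Ok`.   Sections: (1) linear / positive functional calculus of `absK`, `sumK`, `nu`; (2) tables, pair marginals, `ν[P] = 0`, Cauchy-Schwarz;
(3) truncation and telescoping of finite products; (4) `J = b δ + ph`, splitting `J_i = ret b δ + Y_i`, `Y_i = low b δ + low ph + ret ph`; (5) the part with a retained stochastic factor
(`l8hc_hi_bd`) and the remainder (`l8hc_rem_bd`); (6)-(7) the low part: composition of the allocations, expansion over `(A, D)`, (D16) term by term (`l8hc_lo_bd`);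
(8)-(9) `u`, `Mop u` = retained part of degree one (`l8hc_mop_eq`), source at a fixed table (`l8hc_src`); (10) assembly (`l8hc_main`). -/

section api
variable {S : Type} {X : JtCtx S} {a : ℝ}

/-- majorant of the mass of the absolute allocation of `k` labels over `q` old ones -/
def l8hcMass (a : ℝ) (k q : ℕ) : ℝ := (2 * a) ^ k * ∏ i ∈ range k, ((q : ℝ) + i)

theorem l8hc_mass_nonneg {a : ℝ} (ha : 0 ≤ a) (k q : ℕ) : 0 ≤ l8hcMass a k q := by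
  unfold l8hcMass
  exact mul_nonneg (pow_nonneg (by linarith) _) (Finset.prod_nonneg fun i _ => by positivity)

/-! ### absolute allocation sums -/

theorem l8hc_abs_congr (ok : X.Ok a) {k q : ℕ} {τ : JtTopo} (hτ : IsTr X.N q τ) {Φ Ψ : JtTopo → ℝ}
    (h : ∀ τ', IsTr X.N (q + k) τ' → JtAgree q τ τ' → Φ τ' = Ψ τ') : X.absK k q τ Φ = X.absK k q τ Ψ := by
  obtain ⟨ι, _, A, E, _, hE, hrep⟩ := ok.abs_rep k q τ hτ
  rw [hrep, hrep]
  exact Finset.sum_congr rfl fun i _ => by rw [h _ (hE i).1 (hE i).2]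

theorem l8hc_abs_le (ok : X.Ok a) {k q : ℕ} {τ : JtTopo} (hτ : IsTr X.N q τ) {Φ : JtTopo → ℝ} {M : ℝ} (hM : 0 ≤ M)
    (h : ∀ τ', IsTr X.N (q + k) τ' → JtAgree q τ τ' → |Φ τ'| ≤ M) : |X.absK k q τ Φ| ≤ M * l8hcMass a k q := by
  have hmass := ok.abs_mass k q τ hτ
  obtain ⟨ι, _, A, E, hA, hE, hrep⟩ := ok.abs_rep k q τ hτ
  rw [hrep] at hmass ⊢
  calc |∑ i, A i * Φ (E i)| ≤ ∑ i, |A i * Φ (E i)| := Finset.abs_sum_le_sum_abs _ _
    _ ≤ ∑ i, M * (A i * 1) := Finset.sum_le_sum fun i _ => by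
        rw [abs_mul, abs_of_nonneg (hA i), mul_one, mul_comm M]
        exact mul_le_mul_of_nonneg_left (h _ (hE i).1 (hE i).2) (hA i)
    _ = M * ∑ i, A i * 1 := by rw [Finset.mul_sum]
    _ ≤ M * l8hcMass a k q := mul_le_mul_of_nonneg_left hmass hM

theorem l8hc_abs_add (ok : X.Ok a) {k q : ℕ} {τ : JtTopo} (hτ : IsTr X.N q τ) (Φ Ψ : JtTopo → ℝ) :
    X.absK k q τ (fun τ' => Φ τ' + Ψ τ') = X.absK k q τ Φ + X.absK k q τ Ψ := by
  obtain ⟨ι, _, A, E, _, _, hrep⟩ := ok.abs_rep k q τ hτ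
  rw [hrep, hrep, hrep, ← Finset.sum_add_distrib]
  exact Finset.sum_congr rfl fun i _ => by ring

theorem l8hc_abs_smul (ok : X.Ok a) {k q : ℕ} {τ : JtTopo} (hτ : IsTr X.N q τ) (c : ℝ) (Φ : JtTopo → ℝ) :
    X.absK k q τ (fun τ' => c * Φ τ') = c * X.absK k q τ Φ := by
  obtain ⟨ι, _, A, E, _, _, hrep⟩ := ok.abs_rep k q τ hτ
  rw [hrep, hrep, Finset.mul_sum]
  exact Finset.sum_congr rfl fun i _ => by ring

theorem l8hc_abs_zero (ok : X.Ok a) {k q : ℕ} {τ : JtTopo} (hτ : IsTr X.N q τ) :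
    X.absK k q τ (fun _ => 0) = 0 := by
  obtain ⟨ι, _, A, E, _, _, hrep⟩ := ok.abs_rep k q τ hτ
  rw [hrep]; simp

theorem l8hc_abs_sum (ok : X.Ok a) {k q : ℕ} {τ : JtTopo} (hτ : IsTr X.N q τ) {κ : Type} (T : Finset κ)
    (Φ : κ → JtTopo → ℝ) : X.absK k q τ (fun τ' => ∑ j ∈ T, Φ j τ') = ∑ j ∈ T, X.absK k q τ (Φ j) := by
  obtain ⟨ι, _, A, E, _, _, hrep⟩ := ok.abs_rep k q τ hτ
  simp only [hrep, Finset.mul_sum]
  exact Finset.sum_comm

/-! ### signed allocation sums -/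

theorem l8hc_sum_congr (ok : X.Ok a) {k q : ℕ} {τ : JtTopo} (hτ : IsTr X.N q τ) {Φ Ψ : JtTopo → ℝ}
    (h : ∀ τ', IsTr X.N (q + k) τ' → JtAgree q τ τ' → Φ τ' = Ψ τ') : X.sumK k q τ Φ = X.sumK k q τ Ψ := by
  obtain ⟨sg, _, _, hs⟩ := ok.sum_sign k q
  rw [hs τ Φ hτ, hs τ Ψ hτ]
  exact l8hc_abs_congr ok hτ fun τ' h1 h2 => by rw [h τ' h1 h2]

theorem l8hc_sum_le (ok : X.Ok a) {k q : ℕ} {τ : JtTopo} (hτ : IsTr X.N q τ) {Φ : JtTopo → ℝ} {M : ℝ} (hM : 0 ≤ M)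
    (h : ∀ τ', IsTr X.N (q + k) τ' → JtAgree q τ τ' → |Φ τ'| ≤ M) : |X.sumK k q τ Φ| ≤ M * l8hcMass a k q := by
  obtain ⟨sg, _, hsg, hs⟩ := ok.sum_sign k q
  rw [hs τ Φ hτ]
  refine l8hc_abs_le ok hτ hM fun τ' h1 h2 => ?_
  rw [abs_mul]
  calc |sg τ'| * |Φ τ'| ≤ 1 * M := mul_le_mul (hsg τ') (h τ' h1 h2) (abs_nonneg _) zero_le_one
    _ = M := one_mul M

theorem l8hc_sum_add (ok : X.Ok a) {k q : ℕ} {τ : JtTopo} (hτ : IsTr X.N q τ) (Φ Ψ : JtTopo → ℝ) :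
    X.sumK k q τ (fun τ' => Φ τ' + Ψ τ') = X.sumK k q τ Φ + X.sumK k q τ Ψ := by
  obtain ⟨sg, _, _, hs⟩ := ok.sum_sign k q
  rw [hs τ _ hτ, hs τ Φ hτ, hs τ Ψ hτ, ← l8hc_abs_add ok hτ]
  exact congrArg _ (funext fun τ' => by ring)

theorem l8hc_sum_smul (ok : X.Ok a) {k q : ℕ} {τ : JtTopo} (hτ : IsTr X.N q τ) (c : ℝ) (Φ : JtTopo → ℝ) :
    X.sumK k q τ (fun τ' => c * Φ τ') = c * X.sumK k q τ Φ := by
  obtain ⟨sg, _, _, hs⟩ := ok.sum_sign k q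
  rw [hs τ _ hτ, hs τ Φ hτ, ← l8hc_abs_smul ok hτ]
  exact congrArg _ (funext fun τ' => by ring)

/-! ### positive laws -/

theorem l8hc_nu_mono (ok : X.Ok a) {q : ℕ} {τ : JtTopo} (hτ : IsTr X.N q τ) {F G : (ℕ → S) → ℝ}
    (h : ∀ σ, F σ ≤ G σ) : X.nu q τ F ≤ X.nu q τ G := by
  obtain ⟨ι, _, p, σ, hp, _, hrep⟩ := ok.nu_rep q τ hτ
  rw [hrep, hrep]
  exact Finset.sum_le_sum fun i _ => mul_le_mul_of_nonneg_left (h _) (hp i)

theorem l8hc_nu_const (ok : X.Ok a) {q : ℕ} {τ : JtTopo} (hτ : IsTr X.N q τ) (c : ℝ) :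
    X.nu q τ (fun _ => c) = c := by
  obtain ⟨ι, _, p, σ, _, hp1, hrep⟩ := ok.nu_rep q τ hτ
  rw [hrep, ← Finset.sum_mul, hp1, one_mul]

theorem l8hc_nu_add (ok : X.Ok a) {q : ℕ} {τ : JtTopo} (hτ : IsTr X.N q τ) (F G : (ℕ → S) → ℝ) :
    X.nu q τ (fun σ => F σ + G σ) = X.nu q τ F + X.nu q τ G := by
  obtain ⟨ι, _, p, σ, _, _, hrep⟩ := ok.nu_rep q τ hτ
  rw [hrep, hrep, hrep, ← Finset.sum_add_distrib]
  exact Finset.sum_congr rfl fun i _ => by ring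

theorem l8hc_nu_smul (ok : X.Ok a) {q : ℕ} {τ : JtTopo} (hτ : IsTr X.N q τ) (c : ℝ) (F : (ℕ → S) → ℝ) :
    X.nu q τ (fun σ => c * F σ) = c * X.nu q τ F := by
  obtain ⟨ι, _, p, σ, _, _, hrep⟩ := ok.nu_rep q τ hτ
  rw [hrep, hrep, Finset.mul_sum]
  exact Finset.sum_congr rfl fun i _ => by ring

theorem l8hc_nu_sum (ok : X.Ok a) {q : ℕ} {τ : JtTopo} (hτ : IsTr X.N q τ) {κ : Type} (T : Finset κ)
    (F : κ → (ℕ → S) → ℝ) : X.nu q τ (fun σ => ∑ j ∈ T, F j σ) = ∑ j ∈ T, X.nu q τ (F j) := by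
  obtain ⟨ι, _, p, σ, _, _, hrep⟩ := ok.nu_rep q τ hτ
  simp only [hrep, Finset.mul_sum]
  exact Finset.sum_comm

theorem l8hc_nu_abs (ok : X.Ok a) {q : ℕ} {τ : JtTopo} (hτ : IsTr X.N q τ) (F : (ℕ → S) → ℝ) :
    |X.nu q τ F| ≤ X.nu q τ fun σ => |F σ| := by
  obtain ⟨ι, _, p, σ, hp, _, hrep⟩ := ok.nu_rep q τ hτ
  rw [hrep, hrep]
  refine (Finset.abs_sum_le_sum_abs _ _).trans (Finset.sum_le_sum fun i _ => ?_)
  rw [abs_mul, abs_of_nonneg (hp i)]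

theorem l8hc_nu_abs_le (ok : X.Ok a) {q : ℕ} {τ : JtTopo} (hτ : IsTr X.N q τ) {F : (ℕ → S) → ℝ} {M : ℝ}
    (h : ∀ σ, |F σ| ≤ M) : |X.nu q τ F| ≤ M :=
  (l8hc_nu_abs ok hτ F).trans ((l8hc_nu_mono ok hτ h).trans (l8hc_nu_const ok hτ M).le)

/-- Cauchy-Schwarz -/
theorem l8hc_nu_cs (ok : X.Ok a) {q : ℕ} {τ : JtTopo} (hτ : IsTr X.N q τ) (F G : (ℕ → S) → ℝ) :
    X.nu q τ (fun σ => |F σ| * |G σ|) ≤ Real.sqrt (X.nu q τ fun σ => F σ ^ 2) * Real.sqrt (X.nu q τ fun σ => G σ ^ 2) := by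
  obtain ⟨ι, _, p, σ, hp, _, hrep⟩ := ok.nu_rep q τ hτ
  rw [hrep, hrep, hrep]
  have h := Real.sum_mul_le_sqrt_mul_sqrt Finset.univ (fun i => Real.sqrt (p i) * |F (σ i)|)
    (fun i => Real.sqrt (p i) * |G (σ i)|)
  have e1 : ∀ i, Real.sqrt (p i) * |F (σ i)| * (Real.sqrt (p i) * |G (σ i)|) = p i * (|F (σ i)| * |G (σ i)|) := fun i => by
    have := Real.mul_self_sqrt (hp i)
    calc _ = (Real.sqrt (p i) * Real.sqrt (p i)) * (|F (σ i)| * |G (σ i)|) := by ring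
      _ = _ := by rw [this]
  have e2 : ∀ (H : (ℕ → S) → ℝ) i, (Real.sqrt (p i) * |H (σ i)|) ^ 2 = p i * H (σ i) ^ 2 := fun H i => by
    rw [mul_pow, Real.sq_sqrt (hp i), sq_abs]
  simp only [e1, e2] at h
  exact h

end api

section marg
variable {S : Type} {X : JtCtx S} {a : ℝ}

theorem l8hc_tab2_isTr (N q t : ℕ) (ht : t ≤ N + 1) : IsTr N q (jtTab2 N t) where
  le := fun x y _ _ => by unfold jtTab2; split_ifs <;> omega
  diag := fun x _ => by simp [jtTab2]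
  symm := fun x y _ _ => by simp [jtTab2, eq_comm]
  ultra := fun x y z _ _ _ => by
    unfold jtTab2
    by_cases h1 : x = y <;> by_cases h2 : y = z <;> by_cases h3 : x = z <;> simp [h1, h2, h3] <;> omega

theorem l8hc_isTr_mono {N q q' : ℕ} {τ : JtTopo} (h : IsTr N q' τ) (hq : q ≤ q') : IsTr N q τ where
  le := fun x y hx hy => h.le x y (by omega) (by omega)
  diag := fun x hx => h.diag x (by omega)
  symm := fun x y hx hy => h.symm x y (by omega) (by omega)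
  ultra := fun x y z hx hy hz => h.ultra x y z (by omega) (by omega) (by omega)

theorem l8hc_isTr_congr {N q : ℕ} {τ τ' : JtTopo} (hag : JtAgree q τ τ') (h : IsTr N q τ) : IsTr N q τ' where
  le := fun x y hx hy => by rw [hag x y hx hy]; exact h.le x y hx hy
  diag := fun x hx => by rw [hag x x hx hx]; exact h.diag x hx
  symm := fun x y hx hy => by rw [hag x y hx hy, hag y x hy hx]; exact h.symm x y hx hy
  ultra := fun x y z hx hy hz => by rw [hag x y hx hy, hag y z hy hz, hag x z hx hz]; exact h.ultra x y z hx hy hz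

theorem l8hc_agree_symm {q : ℕ} {τ τ' : JtTopo} (h : JtAgree q τ τ') : JtAgree q τ' τ :=
  fun x y hx hy => (h x y hx hy).symm

theorem l8hc_agree_mono {q q' : ℕ} {τ τ' : JtTopo} (h : JtAgree q' τ τ') (hq : q ≤ q') : JtAgree q τ τ' :=
  fun x y hx hy => h x y (by omega) (by omega)

theorem l8hc_agree_trans {q : ℕ} {τ τ' τ'' : JtTopo} (h : JtAgree q τ τ') (h' : JtAgree q τ' τ'') : JtAgree q τ τ'' :=
  fun x y hx hy => (h' x y hx hy).trans (h x y hx hy)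

/-- marginal of a pair of labels -/
theorem l8hc_nu_pair (ok : X.Ok a) {q : ℕ} {τ : JtTopo} (hτ : IsTr X.N q τ) {c d : ℕ} (hc : c < q) (hd : d < q)
    (F : S → S → ℝ) :
    X.nu q τ (fun σ => F (σ c) (σ d)) = X.nu 2 (jtTab2 X.N (τ c d)) fun σ => F (σ 0) (σ 1) := by
  have h := ok.nu_comap q 2 τ (fun x => if x = 0 then c else d) hτ (by intro x _; split_ifs <;> assumption)
    (fun σ => F (σ 0) (σ 1)) (by intro σ σ' h; simp only [h 0 (by norm_num), h 1 (by norm_num)])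
  simp only [if_true, one_ne_zero, if_false] at h
  rw [h]
  apply ok.nu_congr
  intro x y hx hy
  interval_cases x <;> interval_cases y <;> simp [jtTab2, hτ.diag c hc, hτ.diag d hd, hτ.symm d c hd hc]

theorem l8hc_Sf_le (ok : X.Ok a) {t : ℕ} (ht : t ≤ X.N + 1) : |X.Sf t| ≤ 1 :=
  l8hc_nu_abs_le ok (l8hc_tab2_isTr X.N 2 t ht) fun _ => ok.ov_bd _ _

theorem l8hc_dl_le (ok : X.Ok a) {τ : JtTopo} {c d : ℕ} (ht : τ c d ≤ X.N + 1) (σ : ℕ → S) : |X.dl τ σ c d| ≤ 2 := by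
  unfold JtCtx.dl
  have h1 := ok.ov_bd (σ c) (σ d)
  have h2 := l8hc_Sf_le ok ht
  rw [abs_le] at h1 h2 ⊢
  constructor <;> linarith [h1.1, h1.2, h2.1, h2.2]

theorem l8hc_P0_le (ok : X.Ok a) {t0 : ℕ} (ht : t0 ≤ X.N + 1) (σ : ℕ → S) : |X.P0 t0 σ| ≤ 2 := by
  unfold JtCtx.P0
  have h1 := ok.ov_bd (σ 0) (σ 1)
  have h2 := l8hc_Sf_le ok ht
  rw [abs_le] at h1 h2 ⊢
  constructor <;> linarith [h1.1, h1.2, h2.1, h2.2]

/-- the retained test is centred -/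
theorem l8hc_nu_P0 (ok : X.Ok a) {q t0 : ℕ} {τ : JtTopo} (hτ : IsTr X.N q τ) (hq : 2 ≤ q) (h01 : τ 0 1 = t0) :
    X.nu q τ (X.P0 t0) = 0 := by
  have ht : t0 ≤ X.N + 1 := h01 ▸ hτ.le 0 1 (by omega) (by omega)
  have h := l8hc_nu_pair ok hτ (c := 0) (d := 1) (by omega) (by omega) fun s s' => X.ov s s' + -X.Sf t0
  have e : X.P0 t0 = fun σ => X.ov (σ 0) (σ 1) + -X.Sf t0 := funext fun σ => by unfold JtCtx.P0; ring
  rw [e, h, h01, l8hc_nu_add ok (l8hc_tab2_isTr X.N 2 t0 ht), l8hc_nu_const ok (l8hc_tab2_isTr X.N 2 t0 ht)]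
  unfold JtCtx.Sf; ring

theorem l8hc_nu_P0_sq (ok : X.Ok a) {q t0 : ℕ} {τ : JtTopo} (hτ : IsTr X.N q τ) (hq : 2 ≤ q) (h01 : τ 0 1 = t0) :
    X.nu q τ (fun σ => X.P0 t0 σ ^ 2) = X.D2 t0 := by
  have h := l8hc_nu_pair ok hτ (c := 0) (d := 1) (by omega) (by omega) fun s s' => (X.ov s s' - X.Sf t0) ^ 2
  rw [h01] at h
  exact h

theorem l8hc_nu_dl_sq (ok : X.Ok a) {q : ℕ} {τ : JtTopo} (hτ : IsTr X.N q τ) {c d : ℕ} (hc : c < q) (hd : d < q) :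
    X.nu q τ (fun σ => X.dl τ σ c d ^ 2) = X.D2 (τ c d) :=
  l8hc_nu_pair ok hτ hc hd fun s s' => (X.ov s s' - X.Sf (τ c d)) ^ 2

theorem l8hc_nu_P0_dl (ok : X.Ok a) {q t0 : ℕ} {τ : JtTopo} (hτ : IsTr X.N q τ) (hq : 2 ≤ q) (h01 : τ 0 1 = t0)
    {c d : ℕ} (hc : c < q) (hd : d < q) :
    X.nu q τ (fun σ => |X.P0 t0 σ| * |X.dl τ σ c d|) ≤ X.Dd t0 * X.Dd (τ c d) := by
  have h := l8hc_nu_cs ok hτ (X.P0 t0) fun σ => X.dl τ σ c d
  rw [l8hc_nu_P0_sq ok hτ hq h01, l8hc_nu_dl_sq ok hτ hc hd] at h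
  exact h

end marg

/-! ### elementary inequalities on finite products -/

theorem l8hc_abs_mul_le {x y A B : ℝ} (hx : |x| ≤ A) (hy : |y| ≤ B) : |x * y| ≤ A * B := by
  rw [abs_mul]; exact mul_le_mul hx hy (abs_nonneg _) ((abs_nonneg _).trans hx)

/-- truncation of a product -/
theorem l8hc_trunc (T : Finset ℕ) (p : ℕ → Prop) [DecidablePred p] {e C : ℝ} (he : 0 ≤ e) (heC : e ≤ C) :
    ∏ j ∈ T, (if p j then C else e) ≤ e ^ T.card + C ^ T.card * ∑ j ∈ T, (if p j then (1 : ℝ) else 0) := by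
  by_cases h : ∃ j ∈ T, p j
  · obtain ⟨j0, hj0, hp⟩ := h
    have h1 : ∏ j ∈ T, (if p j then C else e) ≤ C ^ T.card := by
      rw [← Finset.prod_const]
      exact Finset.prod_le_prod (fun j _ => by split_ifs <;> linarith) (fun j _ => by split_ifs <;> linarith)
    have h2 : (1 : ℝ) ≤ ∑ j ∈ T, (if p j then (1 : ℝ) else 0) := by
      calc (1 : ℝ) = if p j0 then 1 else 0 := by simp [hp]
        _ ≤ _ := Finset.single_le_sum (f := fun j => if p j then (1 : ℝ) else 0)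
            (fun j _ => by split_ifs <;> norm_num) hj0
    have hC : 0 ≤ C ^ T.card := pow_nonneg (he.trans heC) _
    nlinarith [pow_nonneg he T.card]
  · push Not at h
    have h1 : ∏ j ∈ T, (if p j then C else e) = e ^ T.card := by
      rw [← Finset.prod_const]; exact Finset.prod_congr rfl fun j hj => by simp [h j hj]
    have h2 : ∑ j ∈ T, (if p j then (1 : ℝ) else 0) = 0 := Finset.sum_eq_zero fun j hj => by simp [h j hj]
    rw [h1, h2]; simp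

/-- telescoping of a difference of products -/
theorem l8hc_tel (T : Finset ℕ) (x y M : ℕ → ℝ) (hx : ∀ j ∈ T, |x j| ≤ M j) (hy : ∀ j ∈ T, |y j| ≤ M j) :
    |∏ j ∈ T, x j - ∏ j ∈ T, y j| ≤ ∑ s ∈ T, |x s - y s| * ∏ j ∈ T.erase s, M j := by
  induction T using Finset.induction_on with
  | empty => simp
  | insert a T ha ih =>
    have ih' := ih (fun j hj => hx j (mem_insert_of_mem hj)) (fun j hj => hy j (mem_insert_of_mem hj))
    rw [prod_insert ha, prod_insert ha, sum_insert ha, erase_insert ha]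
    have hMa : |y a| ≤ M a := hy a (mem_insert_self _ _)
    have hX : |∏ j ∈ T, x j| ≤ ∏ j ∈ T, M j := by
      rw [abs_prod]; exact prod_le_prod (fun _ _ => abs_nonneg _) (fun j hj => hx j (mem_insert_of_mem hj))
    have e : x a * ∏ j ∈ T, x j - y a * ∏ j ∈ T, y j
        = (x a - y a) * ∏ j ∈ T, x j + y a * (∏ j ∈ T, x j - ∏ j ∈ T, y j) := by ring
    have h2 : ∑ s ∈ T, |x s - y s| * ∏ j ∈ (insert a T).erase s, M j
        = M a * ∑ s ∈ T, |x s - y s| * ∏ j ∈ T.erase s, M j := by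
      rw [mul_sum]; refine sum_congr rfl fun s hs => ?_
      have h3 : (insert a T).erase s = insert a (T.erase s) := erase_insert_of_ne (by rintro rfl; exact ha hs)
      rw [h3, prod_insert (by simp [ha])]; ring
    rw [e, h2]
    calc _ ≤ |(x a - y a) * ∏ j ∈ T, x j| + |y a * (∏ j ∈ T, x j - ∏ j ∈ T, y j)| := abs_add_le _ _
      _ ≤ _ := add_le_add (l8hc_abs_mul_le le_rfl hX) (l8hc_abs_mul_le hMa ih')

section core
variable {S : Type} {X : JtCtx S} {a bb CQ CA : ℝ} {k ti : ℕ} {eb vv : ℕ → ℝ} {Pol es Lam eta EA etaT DH : ℝ}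

theorem l8hc_J_eq (hm : ∀ t, X.msk t = 1) (τ : JtTopo) (σ : ℕ → S) (c d : ℕ) :
    X.J τ σ c d = X.bC (τ c d) * X.dl τ σ c d + X.ph (τ c d) := by
  unfold JtCtx.J JtCtx.Qs JtCtx.dl JtCtx.ph; rw [hm]; ring

theorem l8hc_off_eq (q n : ℕ) (τ : JtTopo) :
    X.off q n τ = if ∀ i ∈ range n, τ (jtC q i) (jtD q i) ≤ X.N then 1 else 0 := by
  unfold JtCtx.off; rw [Finset.prod_ite_zero]; simp

theorem l8hc_off_abs (q n : ℕ) (τ : JtTopo) : |X.off q n τ| ≤ 1 := by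
  rw [l8hc_off_eq]; split_ifs <;> simp

theorem l8hc_bb_nonneg (H : L8HCov X a bb CQ CA k ti eb vv Pol es Lam eta EA etaT DH) : 0 ≤ bb :=
  (abs_nonneg _).trans (H.b_bd 0)

theorem l8hc_ph_le (H : L8HCov X a bb CQ CA k ti eb vv Pol es Lam eta EA etaT DH) {t : ℕ} (ht : t ≤ X.N) :
    |X.ph t| ≤ 1 := by
  rcases lt_or_ge t ti with h | h
  · exact (H.ph_low t h).trans (H.eb_le t)
  · exact (H.ph_high t h ht).trans H.es_le

theorem l8hc_J_le (H : L8HCov X a bb CQ CA k ti eb vv Pol es Lam eta EA etaT DH) {τ : JtTopo} {c d : ℕ}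
    (ht : τ c d ≤ X.N) (σ : ℕ → S) : |X.J τ σ c d| ≤ 2 * bb + 1 := by
  rw [l8hc_J_eq H.msk]
  have h1 := l8hc_abs_mul_le (H.b_bd (τ c d)) (l8hc_dl_le H.ok (τ := τ) (c := c) (d := d) (by omega) σ)
  have h2 := l8hc_ph_le H ht
  calc _ ≤ |X.bC (τ c d) * X.dl τ σ c d| + |X.ph (τ c d)| := abs_add_le _ _
    _ ≤ bb * 2 + 1 := add_le_add h1 h2
    _ = _ := by ring

/-- (D11) at a pair of a large table -/
theorem l8hc_nu_chi (H : L8HCov X a bb CQ CA k ti eb vv Pol es Lam eta EA etaT DH) {q : ℕ} {τ : JtTopo}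
    (hτ : IsTr X.N q τ) {c d : ℕ} (hc : c < q) (hd : d < q) (ht : τ c d ≤ X.N) :
    X.nu q τ (fun σ => if es < |X.J τ σ c d| then (1 : ℝ) else 0) ≤ etaT := by
  have h := l8hc_nu_pair H.ok hτ hc hd (fun s s' =>
    if es < |X.hC (τ c d) + X.bC (τ c d) * (X.msk (τ c d) * X.ov s s') - X.KC (τ c d)| then (1 : ℝ) else 0)
  have h2 := H.J_tail (τ c d) ht
  exact h.le.trans h2

theorem l8hc_etaT_nonneg (H : L8HCov X a bb CQ CA k ti eb vv Pol es Lam eta EA etaT DH) : 0 ≤ etaT := by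
  have h2 := H.J_tail 0 (Nat.zero_le _)
  refine le_trans ?_ h2
  have h0 := l8hc_nu_mono H.ok (l8hc_tab2_isTr X.N 2 0 (Nat.zero_le _)) (F := fun _ => 0)
    (G := fun σ => if es < |X.J (jtTab2 X.N 0) σ 0 1| then (1 : ℝ) else 0) (fun σ => by split_ifs <;> norm_num)
  rwa [l8hc_nu_const H.ok (l8hc_tab2_isTr X.N 2 0 (Nat.zero_le _))] at h0

/-- the part of the insertion `J_i` which is not (retained and stochastic): low stochastic + low deterministic + retained deterministic -/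
noncomputable def l8hcY (X : JtCtx S) (ti : ℕ) (τ : JtTopo) (σ : ℕ → S) (i : ℕ) : ℝ :=
  JtCtx.lowI ti (τ (jtC 4 i) (jtD 4 i)) * X.bC (τ (jtC 4 i) (jtD 4 i)) * X.dl τ σ (jtC 4 i) (jtD 4 i)
    + (JtCtx.lowI ti (τ (jtC 4 i) (jtD 4 i)) * X.ph (τ (jtC 4 i) (jtD 4 i))
      + X.retI ti (τ (jtC 4 i) (jtD 4 i)) * X.ph (τ (jtC 4 i) (jtD 4 i)))

theorem l8hc_low_ret {t : ℕ} (ht : t ≤ X.N) : JtCtx.lowI ti t + X.retI ti t = 1 := by
  unfold JtCtx.lowI JtCtx.retI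
  by_cases h : t < ti
  · rw [if_pos h, if_neg (by omega)]; ring
  · rw [if_neg h, if_pos ⟨by omega, ht⟩]; ring

theorem l8hc_J_sub_Y (hm : ∀ t, X.msk t = 1) {τ : JtTopo} {i : ℕ} (ht : τ (jtC 4 i) (jtD 4 i) ≤ X.N) (σ : ℕ → S) :
    X.J τ σ (jtC 4 i) (jtD 4 i) - l8hcY X ti τ σ i
      = X.retI ti (τ (jtC 4 i) (jtD 4 i)) * (X.bC (τ (jtC 4 i) (jtD 4 i)) * X.dl τ σ (jtC 4 i) (jtD 4 i)) := by
  rw [l8hc_J_eq hm]; unfold l8hcY
  have h := l8hc_low_ret (X := X) (ti := ti) ht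
  have h' : JtCtx.lowI ti (τ (jtC 4 i) (jtD 4 i)) = 1 - X.retI ti (τ (jtC 4 i) (jtD 4 i)) := by linarith
  rw [h']; ring

/-- truncation majorant of one insertion -/
noncomputable def l8hcM (X : JtCtx S) (es C : ℝ) (τ : JtTopo) (σ : ℕ → S) (j : ℕ) : ℝ :=
  if es < |X.J τ σ (jtC 4 j) (jtD 4 j)| then C else es

theorem l8hc_J_le_M (H : L8HCov X a bb CQ CA k ti eb vv Pol es Lam eta EA etaT DH) {τ : JtTopo} {i : ℕ}
    (ht : τ (jtC 4 i) (jtD 4 i) ≤ X.N) (σ : ℕ → S) :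
    |X.J τ σ (jtC 4 i) (jtD 4 i)| ≤ l8hcM X es (2 * bb + 1) τ σ i := by
  unfold l8hcM
  split_ifs with h
  · exact l8hc_J_le H ht σ
  · exact not_lt.mp h

theorem l8hc_Y_le_M (H : L8HCov X a bb CQ CA k ti eb vv Pol es Lam eta EA etaT DH) {τ : JtTopo} {i : ℕ}
    (ht : τ (jtC 4 i) (jtD 4 i) ≤ X.N) (σ : ℕ → S) :
    |l8hcY X ti τ σ i| ≤ l8hcM X es (2 * bb + 1) τ σ i := by
  by_cases h : τ (jtC 4 i) (jtD 4 i) < ti
  · have e : l8hcY X ti τ σ i = X.J τ σ (jtC 4 i) (jtD 4 i) := by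
      rw [l8hc_J_eq H.msk]; unfold l8hcY JtCtx.lowI JtCtx.retI
      rw [if_pos h, if_neg (by omega)]; ring
    rw [e]; exact l8hc_J_le_M H ht σ
  · have e : l8hcY X ti τ σ i = X.ph (τ (jtC 4 i) (jtD 4 i)) := by
      unfold l8hcY JtCtx.lowI JtCtx.retI
      rw [if_neg h, if_pos ⟨by omega, ht⟩]; ring
    rw [e]
    refine (H.ph_high _ (by omega) ht).trans ?_
    unfold l8hcM
    split_ifs
    · linarith [H.es_le, l8hc_bb_nonneg H]
    · exact le_rfl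

end core

theorem l8hc_arith1 {p r b dd Pi bb E C Xs : ℝ} (hp0 : 0 ≤ p) (hp : p ≤ 2) (hr0 : 0 ≤ r) (hr : r ≤ 1) (hb0 : 0 ≤ b)
    (hb : b ≤ bb) (hd0 : 0 ≤ dd) (hd : dd ≤ 2) (hPi : Pi ≤ E + C * Xs) (hC : 0 ≤ C) (hX : 0 ≤ Xs) (hE : 0 ≤ E) :
    p * (r * (b * dd) * Pi) ≤ bb * E * r * (p * dd) + 4 * bb * C * Xs := by
  have hbb : 0 ≤ bb := hb0.trans hb
  have hS : 0 ≤ E + C * Xs := add_nonneg hE (mul_nonneg hC hX)
  have h1 : r * (b * dd) * Pi ≤ r * (bb * dd) * (E + C * Xs) :=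
    (mul_le_mul_of_nonneg_left hPi (mul_nonneg hr0 (mul_nonneg hb0 hd0))).trans
      (mul_le_mul_of_nonneg_right (mul_le_mul_of_nonneg_left (mul_le_mul_of_nonneg_right hb hd0) hr0) hS)
  have h2 : p * r * dd ≤ 4 := by
    have : p * r ≤ 2 * 1 := mul_le_mul hp hr hr0 (by norm_num)
    calc p * r * dd ≤ 2 * 1 * 2 := mul_le_mul this hd hd0 (by norm_num)
      _ = 4 := by norm_num
  calc p * (r * (b * dd) * Pi) ≤ p * (r * (bb * dd) * (E + C * Xs)) := mul_le_mul_of_nonneg_left h1 hp0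
    _ = bb * E * r * (p * dd) + (p * r * dd) * (bb * C * Xs) := by ring
    _ ≤ bb * E * r * (p * dd) + 4 * (bb * C * Xs) := by
        have := mul_le_mul_of_nonneg_right h2 (mul_nonneg (mul_nonneg hbb hC) hX)
        linarith
    _ = _ := by ring

section core
variable {S : Type} {X : JtCtx S} {a bb CQ CA : ℝ} {k ti : ℕ} {eb vv : ℕ → ℝ} {Pol es Lam eta EA etaT DH : ℝ}

theorem l8hc_ret_nonneg (t : ℕ) : 0 ≤ X.retI ti t := by unfold JtCtx.retI; split_ifs <;> norm_num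
theorem l8hc_ret_le (t : ℕ) : X.retI ti t ≤ 1 := by unfold JtCtx.retI; split_ifs <;> norm_num
theorem l8hc_ret_abs (t : ℕ) : |X.retI ti t| ≤ 1 := by rw [abs_of_nonneg (l8hc_ret_nonneg t)]; exact l8hc_ret_le t
theorem l8hc_low_nonneg (t : ℕ) : 0 ≤ JtCtx.lowI ti t := by unfold JtCtx.lowI; split_ifs <;> norm_num
theorem l8hc_low_le (t : ℕ) : JtCtx.lowI ti t ≤ 1 := by unfold JtCtx.lowI; split_ifs <;> norm_num
theorem l8hc_low_abs (t : ℕ) : |JtCtx.lowI ti t| ≤ 1 := by rw [abs_of_nonneg (l8hc_low_nonneg t)]; exact l8hc_low_le t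

/-- pointwise majorant of the part with one retained stochastic factor -/
theorem l8hc_hi_pt (H : L8HCov X a bb CQ CA k ti eb vv Pol es Lam eta EA etaT DH) {t0 : ℕ} (h0N : t0 ≤ X.N) {n : ℕ}
    {τ : JtTopo} (hoff : ∀ i ∈ range n, τ (jtC 4 i) (jtD 4 i) ≤ X.N) (σ : ℕ → S) :
    |X.P0 t0 σ * (X.Jprod 4 n τ σ - ∏ i ∈ range n, l8hcY X ti τ σ i)|
      ≤ ∑ s ∈ range n, (bb * es ^ (n - 1) * X.retI ti (τ (jtC 4 s) (jtD 4 s))
            * (|X.P0 t0 σ| * |X.dl τ σ (jtC 4 s) (jtD 4 s)|)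
          + 4 * bb * (2 * bb + 1) ^ (n - 1)
            * ∑ j ∈ range n, (if es < |X.J τ σ (jtC 4 j) (jtD 4 j)| then (1 : ℝ) else 0)) := by
  have hbb := l8hc_bb_nonneg H
  have htel := l8hc_tel (range n) (fun i => X.J τ σ (jtC 4 i) (jtD 4 i)) (l8hcY X ti τ σ)
    (l8hcM X es (2 * bb + 1) τ σ) (fun j hj => l8hc_J_le_M H (hoff j hj) σ) (fun j hj => l8hc_Y_le_M H (hoff j hj) σ)
  rw [abs_mul]
  unfold JtCtx.Jprod
  refine (mul_le_mul_of_nonneg_left htel (abs_nonneg _)).trans ?_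
  rw [mul_sum]
  refine sum_le_sum fun s hs => ?_
  have hP := l8hc_P0_le H.ok (by omega : t0 ≤ X.N + 1) σ
  have hd := l8hc_dl_le H.ok (τ := τ) (c := jtC 4 s) (d := jtD 4 s) (by have := hoff s hs; omega) σ
  have htr := l8hc_trunc ((range n).erase s) (fun j => es < |X.J τ σ (jtC 4 j) (jtD 4 j)|) H.es_nonneg
    (by linarith [H.es_le] : es ≤ 2 * bb + 1)
  rw [card_erase_of_mem hs, card_range] at htr
  have hchi : ∀ j, (0 : ℝ) ≤ if es < |X.J τ σ (jtC 4 j) (jtD 4 j)| then (1 : ℝ) else 0 := fun j => by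
    split_ifs <;> norm_num
  have hsub : ∑ j ∈ (range n).erase s, (if es < |X.J τ σ (jtC 4 j) (jtD 4 j)| then (1 : ℝ) else 0)
      ≤ ∑ j ∈ range n, (if es < |X.J τ σ (jtC 4 j) (jtD 4 j)| then (1 : ℝ) else 0) :=
    sum_le_sum_of_subset_of_nonneg (erase_subset _ _) (fun j _ _ => hchi j)
  have hC : 0 ≤ (2 * bb + 1) ^ (n - 1) := pow_nonneg (by linarith) _
  have hPi : ∏ j ∈ (range n).erase s, l8hcM X es (2 * bb + 1) τ σ j ≤ es ^ (n - 1) + (2 * bb + 1) ^ (n - 1)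
      * ∑ j ∈ range n, (if es < |X.J τ σ (jtC 4 j) (jtD 4 j)| then (1 : ℝ) else 0) :=
    htr.trans (by have := mul_le_mul_of_nonneg_left hsub hC; linarith)
  have e : |X.J τ σ (jtC 4 s) (jtD 4 s) - l8hcY X ti τ σ s|
      = X.retI ti (τ (jtC 4 s) (jtD 4 s)) * (|X.bC (τ (jtC 4 s) (jtD 4 s))| * |X.dl τ σ (jtC 4 s) (jtD 4 s)|) := by
    rw [l8hc_J_sub_Y H.msk (hoff s hs), abs_mul, abs_mul, abs_of_nonneg (l8hc_ret_nonneg _)]
  rw [e]
  exact l8hc_arith1 (abs_nonneg _) hP (l8hc_ret_nonneg _) (l8hc_ret_le _) (abs_nonneg _) (H.b_bd _) (abs_nonneg _) hd hPi hC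
    (sum_nonneg fun j _ => hchi j) (pow_nonneg H.es_nonneg _)

theorem l8hc_lab {n i : ℕ} (hi : i ∈ range n) : jtC 4 i < 4 + 2 * n ∧ jtD 4 i < 4 + 2 * n := by
  have := mem_range.mp hi
  unfold jtC jtD; omega

theorem l8hc_DH_nonneg (H : L8HCov X a bb CQ CA k ti eb vv Pol es Lam eta EA etaT DH) {t0 : ℕ} (h0 : ti ≤ t0)
    (h0N : t0 ≤ X.N) : 0 ≤ DH := (Real.sqrt_nonneg _).trans (H.DH_bd t0 h0 h0N)

theorem l8hc_sum_chi (H : L8HCov X a bb CQ CA k ti eb vv Pol es Lam eta EA etaT DH) {n : ℕ}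
    {τ : JtTopo} (hτ : IsTr X.N (4 + 2 * n) τ) (hoff : ∀ i ∈ range n, τ (jtC 4 i) (jtD 4 i) ≤ X.N) :
    ∑ j ∈ range n, X.nu (4 + 2 * n) τ (fun σ => if es < |X.J τ σ (jtC 4 j) (jtD 4 j)| then (1 : ℝ) else 0)
      ≤ n * etaT := by
  calc _ ≤ ∑ _j ∈ range n, etaT := sum_le_sum fun j hj => l8hc_nu_chi H hτ (l8hc_lab hj).1 (l8hc_lab hj).2 (hoff j hj)
    _ = n * etaT := by rw [sum_const, card_range, nsmul_eq_mul]

/-- the part with one retained stochastic factor, at a fixed table -/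
theorem l8hc_hi_bd (H : L8HCov X a bb CQ CA k ti eb vv Pol es Lam eta EA etaT DH) {t0 : ℕ} (h0 : ti ≤ t0)
    (h0N : t0 ≤ X.N) {n : ℕ} {τ : JtTopo} (hτ : IsTr X.N (4 + 2 * n) τ) (h01 : τ 0 1 = t0)
    (hoff : ∀ i ∈ range n, τ (jtC 4 i) (jtD 4 i) ≤ X.N) :
    |X.nu (4 + 2 * n) τ fun σ => X.P0 t0 σ * (X.Jprod 4 n τ σ - ∏ i ∈ range n, l8hcY X ti τ σ i)|
      ≤ n * (bb * es ^ (n - 1) * (X.Dd t0 * DH) + 4 * bb * (2 * bb + 1) ^ (n - 1) * (n * etaT)) := by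
  have hbb := l8hc_bb_nonneg H
  refine (l8hc_nu_abs H.ok hτ _).trans ((l8hc_nu_mono H.ok hτ (l8hc_hi_pt H h0N hoff)).trans ?_)
  rw [l8hc_nu_sum H.ok hτ]
  calc _ ≤ ∑ _s ∈ range n, (bb * es ^ (n - 1) * (X.Dd t0 * DH) + 4 * bb * (2 * bb + 1) ^ (n - 1) * (n * etaT)) :=
        sum_le_sum fun s hs => ?_
    _ = _ := by rw [sum_const, card_range, nsmul_eq_mul]
  rw [l8hc_nu_add H.ok hτ, l8hc_nu_smul H.ok hτ, l8hc_nu_smul H.ok hτ, l8hc_nu_sum H.ok hτ]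
  apply add_le_add
  · have h1 := l8hc_nu_P0_dl H.ok hτ (by omega) h01 (l8hc_lab hs).1 (l8hc_lab hs).2
    have hD0 : 0 ≤ X.Dd t0 := Real.sqrt_nonneg _
    have hc : 0 ≤ bb * es ^ (n - 1) := mul_nonneg hbb (pow_nonneg H.es_nonneg _)
    rw [mul_assoc]
    refine mul_le_mul_of_nonneg_left ?_ hc
    unfold JtCtx.retI
    split_ifs with hr
    · rw [one_mul]
      exact h1.trans (mul_le_mul_of_nonneg_left (H.DH_bd _ hr.1 hr.2) hD0)
    · rw [zero_mul]; exact mul_nonneg hD0 (l8hc_DH_nonneg H h0 h0N)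
  · exact mul_le_mul_of_nonneg_left (l8hc_sum_chi H hτ hoff)
      (mul_nonneg (mul_nonneg (by norm_num) hbb) (pow_nonneg (by linarith) _))

/-- the remainder of (A7) -/
theorem l8hc_rem_bd (H : L8HCov X a bb CQ CA k ti eb vv Pol es Lam eta EA etaT DH) {t0 : ℕ} (h0N : t0 ≤ X.N)
    {τ : JtTopo} (hτ : IsTr X.N 4 τ) :
    X.rem 4 τ (X.P0 t0) k ≤ 2 * (es ^ k + (2 * bb + 1) ^ k * (k * etaT)) * l8hcMass a (2 * k) 4 := by
  have hbb := l8hc_bb_nonneg H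
  have hC : 0 ≤ (2 * bb + 1) ^ k := pow_nonneg (by linarith) _
  have hM : 0 ≤ 2 * (es ^ k + (2 * bb + 1) ^ k * (k * etaT)) :=
    mul_nonneg (by norm_num) (add_nonneg (pow_nonneg H.es_nonneg _)
      (mul_nonneg hC (mul_nonneg (Nat.cast_nonneg _) (l8hc_etaT_nonneg H))))
  unfold JtCtx.rem
  refine (le_abs_self _).trans (l8hc_abs_le H.ok hτ hM fun τ' h1 _ => ?_)
  rw [l8hc_off_eq]
  split_ifs with hoff
  · rw [one_mul]
    have hpt : ∀ σ, |(|X.P0 t0 σ| * |X.Jprod 4 k τ' σ|)| ≤ 2 * (es ^ k + (2 * bb + 1) ^ k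
        * ∑ j ∈ range k, (if es < |X.J τ' σ (jtC 4 j) (jtD 4 j)| then (1 : ℝ) else 0)) := fun σ => by
      have hP := l8hc_P0_le H.ok (by omega : t0 ≤ X.N + 1) σ
      have htr := l8hc_trunc (range k) (fun j => es < |X.J τ' σ (jtC 4 j) (jtD 4 j)|) H.es_nonneg
        (by linarith [H.es_le] : es ≤ 2 * bb + 1)
      rw [card_range] at htr
      have hJ : |X.Jprod 4 k τ' σ| ≤ ∏ j ∈ range k, l8hcM X es (2 * bb + 1) τ' σ j := by
        unfold JtCtx.Jprod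
        rw [abs_prod]
        exact prod_le_prod (fun _ _ => abs_nonneg _) fun j hj => l8hc_J_le_M H (hoff j hj) σ
      rw [abs_mul, abs_abs, abs_abs]
      exact mul_le_mul hP (hJ.trans htr) (abs_nonneg _) (by norm_num)
    refine (l8hc_nu_abs H.ok h1 _).trans ((l8hc_nu_mono H.ok h1 hpt).trans ?_)
    rw [l8hc_nu_smul H.ok h1, l8hc_nu_add H.ok h1, l8hc_nu_const H.ok h1, l8hc_nu_smul H.ok h1, l8hc_nu_sum H.ok h1]
    have := mul_le_mul_of_nonneg_left (l8hc_sum_chi H h1 hoff) hC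
    linarith
  · rw [zero_mul, abs_zero]; exact hM

end core

open Classical in
/-- indicator of the tables on `q` labels -/
noncomputable def l8hcTrI (N q : ℕ) (τ : JtTopo) : ℝ := if IsTr N q τ then 1 else 0

theorem l8hc_trI_pos {N q : ℕ} {τ : JtTopo} (h : IsTr N q τ) : l8hcTrI N q τ = 1 := by
  unfold l8hcTrI; rw [if_pos h]

theorem l8hc_trI_ne {N q : ℕ} {τ : JtTopo} (h : l8hcTrI N q τ ≠ 0) : IsTr N q τ := by
  by_contra h'; exact h (by unfold l8hcTrI; rw [if_neg h'])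

theorem l8hc_trI_abs (N q : ℕ) (τ : JtTopo) : |l8hcTrI N q τ| ≤ 1 := by
  unfold l8hcTrI; split_ifs <;> simp

theorem l8hc_trI_loc (N q : ℕ) : JtLoc q (l8hcTrI N q) := by
  intro τ τ' hag
  by_cases h : IsTr N q τ
  · rw [l8hc_trI_pos h, l8hc_trI_pos (l8hc_isTr_congr hag h)]
  · have h' : ¬ IsTr N q τ' := fun h' => h (l8hc_isTr_congr (l8hc_agree_symm hag) h')
    unfold l8hcTrI; rw [if_neg h, if_neg h']

section core
variable {S : Type} {X : JtCtx S} {a bb CQ CA : ℝ} {k ti : ℕ} {eb vv : ℕ → ℝ} {Pol es Lam eta EA etaT DH : ℝ}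

theorem l8hc_low_ne {t : ℕ} (h : JtCtx.lowI ti t ≠ 0) : t < ti := by
  by_contra h'; exact h (by unfold JtCtx.lowI; rw [if_neg h'])

theorem l8hc_ret_ne {t : ℕ} (h : X.retI ti t ≠ 0) : ti ≤ t ∧ t ≤ X.N := by
  by_contra h'; exact h (by unfold JtCtx.retI; rw [if_neg h'])

theorem l8hc_quo_loc (ok : X.Ok a) (r q i j : ℕ) {τ τ' : JtTopo} (hag : JtAgree r τ τ') :
    X.Quo r q i j τ = X.Quo r q i j τ' := by
  have h : ∀ obs, X.scM r q obs τ = X.scM r q obs τ' := fun obs => funext fun A => ok.nuK_congr r τ τ' _ hag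
  unfold JtCtx.Quo JtCtx.Nij JtCtx.Psi; rw [h, h]

/-- composition of the two allocations -/
theorem l8hc_comp (ok : X.Ok a) {t0 : ℕ} (ht0 : t0 ≤ X.N + 1) (m : ℕ) {g : JtTopo → ℝ} (hg : JtLoc 4 g)
    {sg : JtTopo → ℝ} (hs : ∀ τ Φ, IsTr X.N 4 τ → X.sumK m 4 τ Φ = X.absK m 4 τ fun τ' => sg τ' * Φ τ')
    (Φ : JtTopo → ℝ) :
    X.absK 2 2 (jtTab2 X.N t0) (fun τ => g τ * X.sumK m 4 τ Φ)
      = X.absK (2 + m) 2 (jtTab2 X.N t0) fun τ' => g τ' * (sg τ' * Φ τ') := by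
  rw [ok.abs_add 2 m 2]
  refine l8hc_abs_congr ok (l8hc_tab2_isTr X.N 2 t0 ht0) fun τ h1 _ => ?_
  have h1' : IsTr X.N 4 τ := h1
  rw [hs τ Φ h1', ← l8hc_abs_smul ok h1']
  exact l8hc_abs_congr ok h1' fun τ' _ h4 => by rw [hg τ τ' h4]

/-- (D16) with a weight which is not normalised -/
theorem l8hc_ls_scaled (H : L8HCov X a bb CQ CA k ti eb vv Pol es Lam eta EA etaT DH) {n : ℕ} (hn1 : 1 ≤ n) (hnk : n < k)
    {t0 : ℕ} (h0 : ti ≤ t0) (h0N : t0 ≤ X.N)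
    {Sto Det : Finset ℕ} (hne : Sto.Nonempty) (hdis : Disjoint Sto Det) (hsub : Sto ∪ Det ⊆ range n)
    {w : JtTopo → ℝ} {Z : ℝ} (hZ : 0 ≤ Z) (hloc : JtLoc (4 + 2 * n) w)
    (hsupp : ∀ τ, w τ ≠ 0 → ∀ s ∈ Sto ∪ Det, τ (jtC 4 s) (jtD 4 s) < ti)
    (hbd : ∀ τ, |w τ| ≤ Z * ((∏ s ∈ Det, eb (τ (jtC 4 s) (jtD 4 s))) *
        if (Sto ∪ Det).card = 1 then ∏ s ∈ Sto, vv (τ (jtC 4 s) (jtD 4 s)) else 1)) :
    |X.absK (2 + 2 * n) 2 (jtTab2 X.N t0) fun τ => w τ * X.nu (4 + 2 * n) τ fun σ =>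
        X.P0 t0 σ * ∏ s ∈ Sto, X.dl τ σ (jtC 4 s) (jtD 4 s)| ≤ Z * (Lam * X.Dd t0 + eta) := by
  have hτ := l8hc_tab2_isTr X.N 2 t0 (by omega)
  have e : 2 + (2 + 2 * n) = 4 + 2 * n := by omega
  rcases hZ.eq_or_lt with rfl | hZ'
  · have hw : ∀ τ, w τ = 0 := fun τ => by
      have := hbd τ; rw [zero_mul] at this; exact abs_nonpos_iff.mp this
    simp only [hw, zero_mul]
    rw [l8hc_abs_zero H.ok hτ]; simp
  · have h := H.ls n hn1 hnk t0 h0 h0N Sto Det (jtC 4) (jtD 4) (fun τ => w τ / Z) hne hdis hsub ?_ ?_ ?_ ?_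
    · rw [e] at h
      have e2 : (fun τ => w τ * X.nu (4 + 2 * n) τ fun σ => X.P0 t0 σ * ∏ s ∈ Sto, X.dl τ σ (jtC 4 s) (jtD 4 s))
          = fun τ => Z * (w τ / Z * X.nu (4 + 2 * n) τ fun σ => X.P0 t0 σ * ∏ s ∈ Sto, X.dl τ σ (jtC 4 s) (jtD 4 s)) :=
        funext fun τ => by field_simp
      rw [e2, l8hc_abs_smul H.ok hτ, abs_mul, abs_of_pos hZ']
      exact mul_le_mul_of_nonneg_left h hZ'.le
    · intro s hs
      have := mem_range.mp (hsub hs)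
      unfold jtC jtD; omega
    · rw [e]; intro τ τ' hag; simp only [hloc τ τ' hag]
    · intro τ hw; exact hsupp τ (fun h0 => hw (by simp [h0]))
    · intro τ; rw [abs_div, abs_of_pos hZ', div_le_iff₀ hZ', mul_comm]; exact hbd τ

/-- coefficient of `∏_A δ` : `A` low stochastic, `D` low deterministic, the others retained deterministic -/
noncomputable def l8hcCf (X : JtCtx S) (ti n : ℕ) (A D : Finset ℕ) (τ : JtTopo) : ℝ :=
  (∏ i ∈ A, JtCtx.lowI ti (τ (jtC 4 i) (jtD 4 i)) * X.bC (τ (jtC 4 i) (jtD 4 i)))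
    * ((∏ i ∈ D, JtCtx.lowI ti (τ (jtC 4 i) (jtD 4 i)) * X.ph (τ (jtC 4 i) (jtD 4 i)))
      * ∏ i ∈ (range n \ A) \ D, X.retI ti (τ (jtC 4 i) (jtD 4 i)) * X.ph (τ (jtC 4 i) (jtD 4 i)))

theorem l8hc_cf_ne {n : ℕ} {A D : Finset ℕ} {τ : JtTopo} (h : l8hcCf X ti n A D τ ≠ 0) :
    (∀ s ∈ A ∪ D, τ (jtC 4 s) (jtD 4 s) < ti) ∧ ∀ s ∈ (range n \ A) \ D, ti ≤ τ (jtC 4 s) (jtD 4 s) := by
  unfold l8hcCf at h
  have h1 := left_ne_zero_of_mul h
  have h2 := left_ne_zero_of_mul (right_ne_zero_of_mul h)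
  have h3 := right_ne_zero_of_mul (right_ne_zero_of_mul h)
  rw [prod_ne_zero_iff] at h1 h2 h3
  refine ⟨fun s hs => ?_, fun s hs => (l8hc_ret_ne (left_ne_zero_of_mul (h3 s hs))).1⟩
  rcases mem_union.mp hs with hs | hs
  · exact l8hc_low_ne (left_ne_zero_of_mul (h1 s hs))
  · exact l8hc_low_ne (left_ne_zero_of_mul (h2 s hs))

theorem l8hc_cf_loc {n : ℕ} {A D : Finset ℕ} (hA : A ⊆ range n) (hD : D ⊆ range n) :
    JtLoc (4 + 2 * n) (l8hcCf X ti n A D) := by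
  intro τ τ' hag
  have hT : ∀ i ∈ range n, τ' (jtC 4 i) (jtD 4 i) = τ (jtC 4 i) (jtD 4 i) := fun i hi =>
    hag _ _ (l8hc_lab hi).1 (l8hc_lab hi).2
  unfold l8hcCf
  rw [prod_congr rfl fun i hi => by rw [← hT i (hA hi)], prod_congr (s₁ := D) rfl fun i hi => by rw [← hT i (hD hi)],
    prod_congr (s₁ := (range n \ A) \ D) rfl fun i hi => by rw [← hT i (mem_sdiff.mp (mem_sdiff.mp hi).1).1]]

theorem l8hc_cf_le (H : L8HCov X a bb CQ CA k ti eb vv Pol es Lam eta EA etaT DH) {n : ℕ} {A D : Finset ℕ}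
    (hA : A ⊆ range n) (τ : JtTopo) :
    |l8hcCf X ti n A D τ| ≤ (bb + 1) ^ n * ((∏ s ∈ D, eb (τ (jtC 4 s) (jtD 4 s))) * 1) := by
  have hbb := l8hc_bb_nonneg H
  unfold l8hcCf
  refine l8hc_abs_mul_le ?_ (l8hc_abs_mul_le ?_ ?_)
  · rw [abs_prod]
    calc _ ≤ ∏ _i ∈ A, (bb + 1) := prod_le_prod (fun _ _ => abs_nonneg _) fun i _ => by
          have := l8hc_abs_mul_le (l8hc_low_abs (ti := ti) (τ (jtC 4 i) (jtD 4 i))) (H.b_bd (τ (jtC 4 i) (jtD 4 i)))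
          linarith
      _ = (bb + 1) ^ A.card := by rw [prod_const]
      _ ≤ (bb + 1) ^ n := pow_le_pow_right₀ (by linarith) (by simpa using card_le_card hA)
  · rw [abs_prod]
    refine prod_le_prod (fun _ _ => abs_nonneg _) fun i _ => ?_
    unfold JtCtx.lowI
    split_ifs with h
    · rw [one_mul]; exact H.ph_low _ h
    · rw [zero_mul, abs_zero]; exact H.eb_nonneg _
  · rw [abs_prod]
    refine prod_le_one (fun _ _ => abs_nonneg _) fun i _ => ?_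
    unfold JtCtx.retI
    split_ifs with h
    · rw [one_mul]; exact (H.ph_high _ h.1 h.2).trans H.es_le
    · rw [zero_mul, abs_zero]; exact zero_le_one

/-- expansion of the product of the non-retained parts -/
theorem l8hc_Y_expand (n : ℕ) (τ : JtTopo) (σ : ℕ → S) :
    ∏ i ∈ range n, l8hcY X ti τ σ i = ∑ A ∈ (range n).powerset, ∑ D ∈ (range n \ A).powerset,
      l8hcCf X ti n A D τ * ∏ s ∈ A, X.dl τ σ (jtC 4 s) (jtD 4 s) := by
  unfold l8hcY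
  rw [prod_add]
  refine sum_congr rfl fun A _ => ?_
  rw [prod_add, prod_mul_distrib, mul_sum]
  refine sum_congr rfl fun D _ => ?_
  unfold l8hcCf; ring

end core

section core
variable {S : Type} {X : JtCtx S} {a bb CQ CA : ℝ} {k ti : ℕ} {eb vv : ℕ → ℝ} {Pol es Lam eta EA etaT DH : ℝ}

/-- the weight handed to (D16) -/
noncomputable def l8hcW (X : JtCtx S) (ti n : ℕ) (G sg : JtTopo → ℝ) (A D : Finset ℕ) (τ : JtTopo) : ℝ :=
  l8hcTrI X.N (4 + 2 * n) τ * (G τ * X.retI ti (τ 2 3) * sg τ * X.off 4 n τ) * X.Quo (4 + 2 * n) 4 2 3 τ (range n)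
    * l8hcCf X ti n A D τ

theorem l8hc_off_loc (n : ℕ) : JtLoc (4 + 2 * n) (X.off 4 n) := by
  intro τ τ' hag
  unfold JtCtx.off
  exact prod_congr rfl fun i hi => by rw [hag _ _ (l8hc_lab hi).1 (l8hc_lab hi).2]

theorem l8hc_W_loc (ok : X.Ok a) {n : ℕ} {G sg : JtTopo → ℝ} (hG : JtLoc 4 G) (hsg : JtLoc (4 + 2 * n) sg)
    {A D : Finset ℕ} (hA : A ⊆ range n) (hD : D ⊆ range n) : JtLoc (4 + 2 * n) (l8hcW X ti n G sg A D) := by
  intro τ τ' hag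
  unfold l8hcW
  rw [l8hc_trI_loc _ _ τ τ' hag, hG τ τ' (l8hc_agree_mono hag (by omega)), hsg τ τ' hag,
    ← hag 2 3 (by omega) (by omega), l8hc_quo_loc ok _ _ _ _ hag, l8hc_cf_loc hA hD τ τ' hag, l8hc_off_loc n τ τ' hag]

theorem l8hc_W_le (H : L8HCov X a bb CQ CA k ti eb vv Pol es Lam eta EA etaT DH) {n : ℕ} (hn1 : 1 ≤ n) (hnk : n < k)
    {G sg : JtTopo → ℝ} (hG : ∀ τ, |G τ| ≤ Pol) (hsg : ∀ τ, |sg τ| ≤ 1) {A D : Finset ℕ} (hA : A ⊆ range n)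
    (hne : A.Nonempty) (hdis : Disjoint A D) (τ : JtTopo) :
    |l8hcW X ti n G sg A D τ| ≤ Pol * |CQ| * (bb + 1) ^ n * ((∏ s ∈ D, eb (τ (jtC 4 s) (jtD 4 s))) *
        if (A ∪ D).card = 1 then ∏ s ∈ A, vv (τ (jtC 4 s) (jtD 4 s)) else 1) := by
  have hbb := l8hc_bb_nonneg H
  have hPol : 0 ≤ Pol := (abs_nonneg _).trans (hG τ)
  by_cases hW : l8hcW X ti n G sg A D τ = 0
  · rw [hW, abs_zero]
    refine mul_nonneg (mul_nonneg (mul_nonneg hPol (abs_nonneg _)) (pow_nonneg (by linarith) _))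
      (mul_nonneg (prod_nonneg fun _ _ => H.eb_nonneg _) ?_)
    split_ifs
    · exact prod_nonneg fun _ _ => H.vv_nonneg _
    · exact zero_le_one
  · unfold l8hcW at hW ⊢
    have hcf := right_ne_zero_of_mul hW
    have h12 := left_ne_zero_of_mul (left_ne_zero_of_mul hW)
    have hTr := l8hc_trI_ne (left_ne_zero_of_mul h12)
    have hret := l8hc_ret_ne (right_ne_zero_of_mul (left_ne_zero_of_mul (left_ne_zero_of_mul (right_ne_zero_of_mul h12))))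
    obtain ⟨hlow, hhigh⟩ := l8hc_cf_ne hcf
    have hQ : |X.Quo (4 + 2 * n) 4 2 3 τ (range n)|
        ≤ |CQ| * if (A ∪ D).card = 1 then ∏ s ∈ A, vv (τ (jtC 4 s) (jtD 4 s)) else 1 := by
      split_ifs with hc
      · rw [card_union_of_disjoint hdis] at hc
        have hA1 : A.card = 1 := by have := card_pos.mpr hne; omega
        have hD0 : D = ∅ := card_eq_zero.mp (by omega)
        obtain ⟨s0, rfl⟩ := card_eq_one.mp hA1
        rw [prod_singleton]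
        have hs0 : s0 < n := mem_range.mp (hA (mem_singleton_self _))
        have hp := H.par n hn1 hnk τ hTr s0 hs0 (hlow s0 (by simp)) hret.1
          (fun s' hs' hne' => hhigh s' (by simp [hD0, hs', hne']))
        exact hp.trans (mul_le_mul_of_nonneg_right (le_abs_self _) (H.vv_nonneg _))
      · rw [mul_one]; exact (H.quo n hnk τ hTr).trans (le_abs_self _)
    have hg : |l8hcTrI X.N (4 + 2 * n) τ * (G τ * X.retI ti (τ 2 3) * sg τ * X.off 4 n τ)| ≤ 1 * (Pol * 1 * 1 * 1) :=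
      l8hc_abs_mul_le (l8hc_trI_abs _ _ _) (l8hc_abs_mul_le (l8hc_abs_mul_le (l8hc_abs_mul_le (hG τ) (l8hc_ret_abs _))
        (hsg τ)) (l8hc_off_abs _ _ _))
    calc _ ≤ _ := l8hc_abs_mul_le (l8hc_abs_mul_le hg hQ) (l8hc_cf_le H hA τ)
      _ = _ := by ring

/-- the part of the degree `n` term without retained stochastic factor -/
noncomputable def l8hcLo (X : JtCtx S) (ti t0 n : ℕ) (τ : JtTopo) : ℝ :=
  X.off 4 n τ * X.Quo (4 + 2 * n) 4 2 3 τ (range n)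
    * X.nu (4 + 2 * n) τ fun σ => X.P0 t0 σ * ∏ i ∈ range n, l8hcY X ti τ σ i

theorem l8hc_lo_expand (ok : X.Ok a) {t0 n : ℕ} {τ : JtTopo} (hτ : IsTr X.N (4 + 2 * n) τ) :
    X.nu (4 + 2 * n) τ (fun σ => X.P0 t0 σ * ∏ i ∈ range n, l8hcY X ti τ σ i)
      = ∑ A ∈ (range n).powerset, ∑ D ∈ (range n \ A).powerset, l8hcCf X ti n A D τ
          * X.nu (4 + 2 * n) τ fun σ => X.P0 t0 σ * ∏ s ∈ A, X.dl τ σ (jtC 4 s) (jtD 4 s) := by
  have e : (fun σ => X.P0 t0 σ * ∏ i ∈ range n, l8hcY X ti τ σ i)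
      = fun σ => ∑ A ∈ (range n).powerset, ∑ D ∈ (range n \ A).powerset, l8hcCf X ti n A D τ
          * (X.P0 t0 σ * ∏ s ∈ A, X.dl τ σ (jtC 4 s) (jtD 4 s)) := funext fun σ => by
    rw [l8hc_Y_expand, mul_sum]
    refine sum_congr rfl fun A _ => ?_
    rw [mul_sum]
    exact sum_congr rfl fun D _ => by ring
  rw [e, l8hc_nu_sum ok hτ]
  refine sum_congr rfl fun A _ => ?_
  rw [l8hc_nu_sum ok hτ]
  exact sum_congr rfl fun D _ => l8hc_nu_smul ok hτ _ _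

/-- **the low part**: composition of the allocations, expansion, (D16) term by term -/
theorem l8hc_lo_bd (H : L8HCov X a bb CQ CA k ti eb vv Pol es Lam eta EA etaT DH) {t0 : ℕ} (h0 : ti ≤ t0)
    (h0N : t0 ≤ X.N) {n : ℕ} (hnk : n < k) {G : JtTopo → ℝ} (hGloc : JtLoc 4 G) (hG : ∀ τ, |G τ| ≤ Pol) :
    |X.absK 2 2 (jtTab2 X.N t0) fun τ => G τ * X.retI ti (τ 2 3) * X.sumK (2 * n) 4 τ (l8hcLo X ti t0 n)|
      ≤ ∑ A ∈ (range n).powerset, ∑ _D ∈ (range n \ A).powerset,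
          Pol * |CQ| * (bb + 1) ^ n * (Lam * X.Dd t0 + eta) := by
  obtain ⟨sg, hsgloc, hsg, hs⟩ := H.ok.sum_sign (2 * n) 4
  have hbb := l8hc_bb_nonneg H
  have hPol : 0 ≤ Pol := (abs_nonneg _).trans (hG (jtTab2 X.N t0))
  have hZ : 0 ≤ Pol * |CQ| * (bb + 1) ^ n := mul_nonneg (mul_nonneg hPol (abs_nonneg _)) (pow_nonneg (by linarith) _)
  have hL : 0 ≤ Lam * X.Dd t0 + eta := add_nonneg (mul_nonneg H.Lam_nonneg (Real.sqrt_nonneg _)) H.eta_nonneg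
  have hτ := l8hc_tab2_isTr X.N 2 t0 (by omega : t0 ≤ X.N + 1)
  have hgloc : JtLoc 4 (fun τ => G τ * X.retI ti (τ 2 3)) := by
    intro τ τ' hag
    simp only
    rw [hGloc τ τ' hag, hag 2 3 (by omega) (by omega)]
  have e : 2 + (2 + 2 * n) = 4 + 2 * n := by omega
  rw [l8hc_comp H.ok (by omega) (2 * n) hgloc hs]
  have hcongr : X.absK (2 + 2 * n) 2 (jtTab2 X.N t0) (fun τ' => G τ' * X.retI ti (τ' 2 3) * (sg τ' * l8hcLo X ti t0 n τ'))
      = X.absK (2 + 2 * n) 2 (jtTab2 X.N t0) fun τ' => ∑ A ∈ (range n).powerset, ∑ D ∈ (range n \ A).powerset,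
          l8hcW X ti n G sg A D τ' * X.nu (4 + 2 * n) τ' fun σ => X.P0 t0 σ * ∏ s ∈ A, X.dl τ' σ (jtC 4 s) (jtD 4 s) := by
    refine l8hc_abs_congr H.ok hτ fun τ' h1 _ => ?_
    rw [e] at h1
    unfold l8hcLo
    rw [l8hc_lo_expand H.ok h1]
    simp only [mul_sum]
    refine sum_congr rfl fun A _ => sum_congr rfl fun D _ => ?_
    unfold l8hcW; rw [l8hc_trI_pos h1]; ring
  rw [hcongr, l8hc_abs_sum H.ok hτ]
  refine (abs_sum_le_sum_abs _ _).trans (sum_le_sum fun A hA => ?_)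
  rw [l8hc_abs_sum H.ok hτ]
  refine (abs_sum_le_sum_abs _ _).trans (sum_le_sum fun D hD => ?_)
  have hA' := mem_powerset.mp hA
  have hD' := mem_powerset.mp hD
  have hD'' : D ⊆ range n := hD'.trans sdiff_subset
  by_cases hne : A.Nonempty
  · have hn1 : 1 ≤ n := by
      obtain ⟨s, hs⟩ := hne
      have := mem_range.mp (hA' hs); omega
    have hdis : Disjoint A D := disjoint_sdiff.mono_right hD'
    refine l8hc_ls_scaled H hn1 hnk h0 h0N hne hdis (union_subset hA' hD'') hZ (l8hc_W_loc H.ok hGloc hsgloc hA' hD'')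
      (fun τ hw => (l8hc_cf_ne (right_ne_zero_of_mul hw)).1) (l8hc_W_le H hn1 hnk hG hsg hA' hne hdis)
  · rw [not_nonempty_iff_eq_empty] at hne
    subst hne
    have h0' : X.absK (2 + 2 * n) 2 (jtTab2 X.N t0) (fun τ' => l8hcW X ti n G sg ∅ D τ'
        * X.nu (4 + 2 * n) τ' fun σ => X.P0 t0 σ * ∏ s ∈ (∅ : Finset ℕ), X.dl τ' σ (jtC 4 s) (jtD 4 s)) = 0 := by
      rw [l8hc_abs_congr H.ok hτ (Ψ := fun _ => 0) fun τ' h1 h2 => ?_, l8hc_abs_zero H.ok hτ]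
      rw [e] at h1
      have h01 : τ' 0 1 = t0 := by rw [h2 0 1 (by omega) (by omega)]; simp [jtTab2]
      simp only [prod_empty, mul_one]
      have := l8hc_nu_P0 H.ok h1 (by omega) h01
      rw [show (fun σ => X.P0 t0 σ) = X.P0 t0 from rfl, this, mul_zero]
    rw [h0', abs_zero]
    exact mul_nonneg hZ hL

end core

section core
variable {S : Type} {X : JtCtx S} {a bb CQ CA : ℝ} {k ti : ℕ} {eb vv : ℕ → ℝ} {Pol es Lam eta EA etaT DH : ℝ}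

/-- the covariance of the retained test with the pair `(2, 3)` -/
noncomputable def l8hcU (X : JtCtx S) (t0 : ℕ) (τ : JtTopo) : ℝ := X.nu 4 τ fun σ => X.P0 t0 σ * X.dl τ σ 2 3

theorem l8hc_U_diag (ok : X.Ok a) {t0 : ℕ} (ht0 : t0 ≤ X.N + 1) : l8hcU X t0 (jtTabO X.N t0) = X.D2 t0 := by
  have h := ok.nu_comap 2 4 (jtTab2 X.N t0) (fun x => x % 2) (l8hc_tab2_isTr X.N 2 t0 ht0)
    (fun x _ => Nat.mod_lt _ (by norm_num))
    (fun σ => (X.ov (σ 0) (σ 1) - X.Sf t0) * (X.ov (σ 2) (σ 3) - X.Sf t0))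
    (by intro σ σ' h; simp only [h 0 (by norm_num), h 1 (by norm_num), h 2 (by norm_num), h 3 (by norm_num)])
  have e1 : jtTabO X.N t0 2 3 = t0 := by simp [jtTabO, jtTab2]
  calc l8hcU X t0 (jtTabO X.N t0)
      = X.nu 4 (fun x y => jtTab2 X.N t0 (x % 2) (y % 2))
          (fun σ => (X.ov (σ 0) (σ 1) - X.Sf t0) * (X.ov (σ 2) (σ 3) - X.Sf t0)) := by
        unfold l8hcU JtCtx.P0 JtCtx.dl; rw [e1]; rfl
    _ = _ := h.symm
    _ = X.D2 t0 := by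
        unfold JtCtx.D2
        exact congrArg _ (funext fun σ => by norm_num; ring)

theorem l8hc_U_loc (ok : X.Ok a) (t0 : ℕ) : JtLoc 4 (l8hcU X t0) := by
  intro τ τ' hag
  unfold l8hcU JtCtx.dl
  rw [ok.nu_congr 4 τ τ' _ hag, hag 2 3 (by omega) (by omega)]

theorem l8hc_U_swap (ok : X.Ok a) (t0 : ℕ) {τ : JtTopo} (hτ : IsTr X.N 4 τ) :
    l8hcU X t0 (fun x y => τ (Equiv.swap 2 3 x) (Equiv.swap 2 3 y)) = l8hcU X t0 τ := by
  have s0 : Equiv.swap 2 3 (0 : ℕ) = 0 := by decide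
  have s1 : Equiv.swap 2 3 (1 : ℕ) = 1 := by decide
  have s2 : Equiv.swap 2 3 (2 : ℕ) = 3 := by decide
  have s3 : Equiv.swap 2 3 (3 : ℕ) = 2 := by decide
  have h := ok.nu_comap 4 4 τ (fun x => Equiv.swap 2 3 x) hτ
    (by intro x hx; interval_cases x <;> simp only [s0, s1, s2, s3] <;> norm_num)
    (fun σ => (X.ov (σ 0) (σ 1) - X.Sf t0) * (X.ov (σ 2) (σ 3) - X.Sf (τ 3 2)))
    (by intro σ σ' h; simp only [h 0 (by norm_num), h 1 (by norm_num), h 2 (by norm_num), h 3 (by norm_num)])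
  simp only [s0, s1, s2, s3] at h
  unfold l8hcU JtCtx.P0 JtCtx.dl
  simp only [s2, s3]
  rw [← h]
  exact congrArg _ (funext fun σ => by rw [ok.ov_symm (σ 3) (σ 2), hτ.symm 3 2 (by norm_num) (by norm_num)])

/-- the part of the degree `n` term with a retained stochastic factor -/
noncomputable def l8hcHi (X : JtCtx S) (ti t0 n : ℕ) (τ : JtTopo) : ℝ :=
  X.off 4 n τ * X.Quo (4 + 2 * n) 4 2 3 τ (range n)
    * X.nu (4 + 2 * n) τ fun σ => X.P0 t0 σ * (X.Jprod 4 n τ σ - ∏ i ∈ range n, l8hcY X ti τ σ i)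

/-- normalisation of the degree `n` part -/
noncomputable def l8hcN (n : ℕ) : ℝ := ((2 : ℝ) ^ n * (n.factorial : ℝ))⁻¹

theorem l8hc_N_abs (n : ℕ) : |l8hcN n| ≤ 1 := by
  unfold l8hcN
  have h1 : (1 : ℝ) ≤ (2 : ℝ) ^ n * (n.factorial : ℝ) :=
    one_le_mul_of_one_le_of_one_le (one_le_pow₀ (by norm_num)) (by exact_mod_cast Nat.factorial_pos n)
  rw [abs_of_nonneg (inv_nonneg.mpr (by linarith))]
  exact inv_le_one_of_one_le₀ h1

theorem l8hc_ev_split (ok : X.Ok a) {t0 : ℕ} (n : ℕ) {τ : JtTopo} (hτ : IsTr X.N 4 τ) :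
    X.ev 4 τ (fun r τ' => X.Quo r 4 2 3 τ') (X.P0 t0) n
      = l8hcN n * X.sumK (2 * n) 4 τ (l8hcHi X ti t0 n) + l8hcN n * X.sumK (2 * n) 4 τ (l8hcLo X ti t0 n) := by
  unfold JtCtx.ev l8hcN
  rw [← mul_add, ← l8hc_sum_add ok hτ]
  refine congrArg _ (l8hc_sum_congr ok hτ fun τ' h1 _ => ?_)
  unfold l8hcHi l8hcLo
  rw [← mul_add, ← l8hc_nu_add ok h1]
  exact congrArg _ (congrArg _ (funext fun σ => by ring))

theorem l8hc_hi_sum_bd (H : L8HCov X a bb CQ CA k ti eb vv Pol es Lam eta EA etaT DH) {t0 : ℕ} (h0 : ti ≤ t0)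
    (h0N : t0 ≤ X.N) {n : ℕ} (hnk : n < k) {τ : JtTopo} (hτ : IsTr X.N 4 τ) (h01 : τ 0 1 = t0) :
    |X.sumK (2 * n) 4 τ (l8hcHi X ti t0 n)|
      ≤ |CQ| * (n * (bb * es ^ (n - 1) * (X.Dd t0 * DH) + 4 * bb * (2 * bb + 1) ^ (n - 1) * (n * etaT)))
        * l8hcMass a (2 * n) 4 := by
  have hbb := l8hc_bb_nonneg H
  have hM : 0 ≤ |CQ| * (n * (bb * es ^ (n - 1) * (X.Dd t0 * DH) + 4 * bb * (2 * bb + 1) ^ (n - 1) * (n * etaT))) :=
    mul_nonneg (abs_nonneg _) (mul_nonneg (Nat.cast_nonneg _) (add_nonneg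
      (mul_nonneg (mul_nonneg hbb (pow_nonneg H.es_nonneg _)) (mul_nonneg (Real.sqrt_nonneg _) (l8hc_DH_nonneg H h0 h0N)))
      (mul_nonneg (mul_nonneg (mul_nonneg (by norm_num) hbb) (pow_nonneg (by linarith) _))
        (mul_nonneg (Nat.cast_nonneg _) (l8hc_etaT_nonneg H)))))
  refine l8hc_sum_le H.ok hτ hM fun τ' h1 h2 => ?_
  unfold l8hcHi
  rw [l8hc_off_eq]
  split_ifs with hoff
  · rw [one_mul]
    exact l8hc_abs_mul_le ((H.quo n hnk τ' h1).trans (le_abs_self _))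
      (l8hc_hi_bd H h0 h0N h1 (by rw [h2 0 1 (by norm_num) (by norm_num), h01]) hoff)
  · rw [zero_mul, zero_mul, abs_zero]; exact hM

end core

section core
variable {S : Type} {X : JtCtx S} {a bb CQ CA : ℝ} {k ti : ℕ} {eb vv : ℕ → ℝ} {Pol es Lam eta EA etaT DH : ℝ}

theorem l8hc_U_shift (ok : X.Ok a) (t0 : ℕ) {τ : JtTopo} (hτ : IsTr X.N 6 τ) :
    l8hcU X t0 (fun x y => τ (jtSh 4 x) (jtSh 4 y)) = X.nu 6 τ fun σ => X.P0 t0 σ * X.dl τ σ 4 5 := by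
  have s0 : jtSh 4 0 = 0 := by decide
  have s1 : jtSh 4 1 = 1 := by decide
  have s2 : jtSh 4 2 = 4 := by decide
  have s3 : jtSh 4 3 = 5 := by decide
  have h := ok.nu_comap 6 4 τ (jtSh 4) hτ
    (by intro x hx; interval_cases x <;> simp only [s0, s1, s2, s3] <;> norm_num)
    (fun σ => (X.ov (σ 0) (σ 1) - X.Sf t0) * (X.ov (σ 2) (σ 3) - X.Sf (τ 4 5)))
    (by intro σ σ' h; simp only [h 0 (by norm_num), h 1 (by norm_num), h 2 (by norm_num), h 3 (by norm_num)])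
  simp only [s0, s1, s2, s3] at h
  unfold l8hcU JtCtx.P0 JtCtx.dl
  simp only [s2, s3]
  exact h.symm

/-- the retained part of the degree one term is the retained linear cavity operator -/
theorem l8hc_mop_eq (H : L8HCov X a bb CQ CA k ti eb vv Pol es Lam eta EA etaT DH) (t0 : ℕ)
    {τ : JtTopo} (hτ : IsTr X.N 4 τ) :
    l8hcN 1 * X.sumK (2 * 1) 4 τ (l8hcHi X ti t0 1) = X.Mop ti (l8hcU X t0) τ := by
  rw [← l8hc_sum_smul H.ok hτ]
  unfold JtCtx.Mop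
  refine l8hc_sum_congr H.ok hτ (k := 2) fun τ' h1 _ => ?_
  have h6 : IsTr X.N 6 τ' := h1
  have c0 : jtC 4 0 = 4 := by norm_num [jtC]
  have d0 : jtD 4 0 = 5 := by norm_num [jtD]
  rw [l8hc_U_shift H.ok t0 h6]
  unfold l8hcHi JtCtx.Mker l8hcN
  rw [l8hc_off_eq]
  by_cases hN : τ' 4 5 ≤ X.N
  · have hN' : τ' (jtC 4 0) (jtD 4 0) ≤ X.N := by rw [c0, d0]; exact hN
    rw [if_pos (by intro i hi; rw [range_one, mem_singleton] at hi; subst hi; exact hN')]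
    have hfun : (fun σ => X.P0 t0 σ * (X.Jprod 4 1 τ' σ - ∏ i ∈ range 1, l8hcY X ti τ' σ i))
        = fun σ => (X.retI ti (τ' 4 5) * X.bC (τ' 4 5)) * (X.P0 t0 σ * X.dl τ' σ 4 5) := funext fun σ => by
      unfold JtCtx.Jprod
      rw [prod_range_one, prod_range_one, l8hc_J_sub_Y H.msk hN', c0, d0]; ring
    rw [hfun, l8hc_nu_smul H.ok (show IsTr X.N (4 + 2 * 1) τ' from h1), range_one]
    norm_num
    ring
  · rw [if_neg (by intro h; exact hN (by have := h 0 (by simp); rwa [c0, d0] at this))]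
    have : X.retI ti (τ' 4 5) = 0 := by unfold JtCtx.retI; rw [if_neg (fun h => hN h.2)]
    rw [this]; ring

/-- (A7) tested on the retained test: the left side is the covariance -/
theorem l8hc_nu_Qs (H : L8HCov X a bb CQ CA k ti eb vv Pol es Lam eta EA etaT DH) {t0 : ℕ}
    {τ : JtTopo} (hτ : IsTr X.N 4 τ) (h01 : τ 0 1 = t0) :
    X.nu 4 τ (fun σ => X.P0 t0 σ * X.Qs τ σ 2 3) = l8hcU X t0 τ := by
  have e : (fun σ => X.P0 t0 σ * X.Qs τ σ 2 3)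
      = fun σ => X.P0 t0 σ * X.dl τ σ 2 3 + X.Sf (τ 2 3) * X.P0 t0 σ := funext fun σ => by
    unfold JtCtx.Qs JtCtx.dl; rw [H.msk]; ring
  rw [e, l8hc_nu_add H.ok hτ, l8hc_nu_smul H.ok hτ, l8hc_nu_P0 H.ok hτ (by norm_num) h01, mul_zero, add_zero]
  rfl

/-- **the source at a fixed retained table** -/
theorem l8hc_src (H : L8HCov X a bb CQ CA k ti eb vv Pol es Lam eta EA etaT DH) {t0 : ℕ} (h0 : ti ≤ t0)
    (h0N : t0 ≤ X.N) {τ : JtTopo} (hτ : IsTr X.N 4 τ) (hag : JtAgree 2 (jtTab2 X.N t0) τ) (hr1 : ti ≤ τ 2 3)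
    (hr2 : τ 2 3 ≤ X.N) :
    |l8hcU X t0 τ - X.Mop ti (l8hcU X t0) τ - ∑ n ∈ range k, l8hcN n * X.sumK (2 * n) 4 τ (l8hcLo X ti t0 n)|
      ≤ CA * (2 * (es ^ k + (2 * bb + 1) ^ k * (k * etaT)) * l8hcMass a (2 * k) 4) + EA
        + ∑ n ∈ (range k).erase 1,
            |CQ| * (n * (bb * es ^ (n - 1) * (X.Dd t0 * DH) + 4 * bb * (2 * bb + 1) ^ (n - 1) * (n * etaT)))
              * l8hcMass a (2 * n) 4 := by
  have h01 : τ 0 1 = t0 := by rw [hag 0 1 (by norm_num) (by norm_num)]; simp [jtTab2]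
  have hA7 := H.a7 t0 h0 h0N τ hτ hag hr1 hr2
  unfold JtCtx.A7 JtCtx.evLt at hA7
  rw [l8hc_nu_Qs H hτ h01, sum_congr rfl fun n _ => l8hc_ev_split (ti := ti) H.ok n hτ, sum_add_distrib] at hA7
  have h1k : 1 ∈ range k := mem_range.mpr (by have := H.k_pos; omega)
  rw [← add_sum_erase (range k) (fun n => l8hcN n * X.sumK (2 * n) 4 τ (l8hcHi X ti t0 n)) h1k, l8hc_mop_eq H t0 hτ] at hA7
  have hrem := mul_le_mul_of_nonneg_left (l8hc_rem_bd H h0N hτ) H.CA_nonneg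
  have hsum : |∑ n ∈ (range k).erase 1, l8hcN n * X.sumK (2 * n) 4 τ (l8hcHi X ti t0 n)|
      ≤ ∑ n ∈ (range k).erase 1,
            |CQ| * (n * (bb * es ^ (n - 1) * (X.Dd t0 * DH) + 4 * bb * (2 * bb + 1) ^ (n - 1) * (n * etaT)))
              * l8hcMass a (2 * n) 4 := by
    refine (abs_sum_le_sum_abs _ _).trans (sum_le_sum fun n hn => ?_)
    have hnk : n < k := mem_range.mp (mem_of_mem_erase hn)
    have := l8hc_abs_mul_le (l8hc_N_abs n) (l8hc_hi_sum_bd H h0 h0N hnk hτ h01)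
    rwa [one_mul] at this
  have e : l8hcU X t0 τ - X.Mop ti (l8hcU X t0) τ - ∑ n ∈ range k, l8hcN n * X.sumK (2 * n) 4 τ (l8hcLo X ti t0 n)
      = (l8hcU X t0 τ - (X.Mop ti (l8hcU X t0) τ + ∑ n ∈ (range k).erase 1, l8hcN n * X.sumK (2 * n) 4 τ (l8hcHi X ti t0 n)
          + ∑ n ∈ range k, l8hcN n * X.sumK (2 * n) 4 τ (l8hcLo X ti t0 n)))
        + ∑ n ∈ (range k).erase 1, l8hcN n * X.sumK (2 * n) 4 τ (l8hcHi X ti t0 n) := by ring
  rw [e]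
  refine (abs_add_le _ _).trans ?_
  linarith

end core

theorem l8hc_arith2 {n : ℕ} (hn : n ≠ 1) {bb es D C etaT T : ℝ} (hbb : 0 ≤ bb) (hes0 : 0 ≤ es) (hes1 : es ≤ 1)
    (hD : 0 ≤ D) (hC : 0 ≤ C) (h1 : es * D ≤ T) (h2 : etaT ≤ T) :
    (n : ℝ) * (bb * es ^ (n - 1) * D + 4 * bb * C * (n * etaT)) ≤ (n : ℝ) * (bb * (1 + 4 * C * n)) * T := by
  rcases Nat.eq_zero_or_pos n with rfl | hpos
  · simp
  · have hn2 : n - 1 ≠ 0 := by omega
    have hp : es ^ (n - 1) ≤ es := pow_le_of_le_one hes0 hes1 hn2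
    have hn0 : (0 : ℝ) ≤ n := Nat.cast_nonneg _
    have a1 : bb * es ^ (n - 1) * D ≤ bb * T := by
      rw [mul_assoc]
      exact mul_le_mul_of_nonneg_left ((mul_le_mul_of_nonneg_right hp hD).trans h1) hbb
    have a2 : 4 * bb * C * (n * etaT) ≤ 4 * bb * C * (n * T) :=
      mul_le_mul_of_nonneg_left (mul_le_mul_of_nonneg_left h2 hn0) (mul_nonneg (mul_nonneg (by norm_num) hbb) hC)
    calc (n : ℝ) * (bb * es ^ (n - 1) * D + 4 * bb * C * (n * etaT)) ≤ (n : ℝ) * (bb * T + 4 * bb * C * (n * T)) :=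
          mul_le_mul_of_nonneg_left (add_le_add a1 a2) hn0
      _ = _ := by ring

/-- constant of the source at a fixed table -/
noncomputable def l8hcKE (k : ℕ) (a bb CQ CA : ℝ) : ℝ :=
  CA * (2 * (1 + (2 * bb + 1) ^ k * k) * l8hcMass a (2 * k) 4) + 1
    + ∑ n ∈ (range k).erase 1, |CQ| * ((n : ℝ) * (bb * (1 + 4 * (2 * bb + 1) ^ (n - 1) * n))) * l8hcMass a (2 * n) 4

/-- constant of the low part -/
noncomputable def l8hcKL (k : ℕ) (bb CQ : ℝ) : ℝ :=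
  ∑ n ∈ range k, ∑ A ∈ (range n).powerset, ∑ _D ∈ (range n \ A).powerset, |CQ| * (bb + 1) ^ n

section core
variable {S : Type} {X : JtCtx S} {a bb CQ CA : ℝ} {k ti : ℕ} {eb vv : ℕ → ℝ} {Pol es Lam eta EA etaT DH : ℝ}

theorem l8hc_main (H : L8HCov X a bb CQ CA k ti eb vv Pol es Lam eta EA etaT DH) {t0 : ℕ} (h0 : ti ≤ t0)
    (h0N : t0 ≤ X.N) :
    X.D2 t0 ≤ |l8hcKE k a bb CQ CA * l8hcMass a 2 2 + l8hcKL k bb CQ| * Pol
      * (es * X.Dd t0 * DH + Lam * X.Dd t0 + eta + EA + es ^ k + etaT) := by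
  obtain ⟨G, hGloc, hG, hD2⟩ := H.h1 t0 h0 h0N (l8hcU X t0) (l8hc_U_loc H.ok t0) (fun τ hτ' => l8hc_U_swap H.ok t0 hτ')
  have hbb := l8hc_bb_nonneg H
  have ha : 0 ≤ a := H.ok.a_pos.le
  have hPol : 0 ≤ Pol := (abs_nonneg _).trans (hG (jtTab2 X.N t0))
  have hτ := l8hc_tab2_isTr X.N 2 t0 (by omega : t0 ≤ X.N + 1)
  have hD0 : 0 ≤ X.Dd t0 := Real.sqrt_nonneg _
  have hDH := l8hc_DH_nonneg H h0 h0N
  have hη := l8hc_etaT_nonneg H
  have hek : 0 ≤ es ^ k := pow_nonneg H.es_nonneg _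
  have t1 : 0 ≤ es * X.Dd t0 * DH := mul_nonneg (mul_nonneg H.es_nonneg hD0) hDH
  have t2 : 0 ≤ Lam * X.Dd t0 := mul_nonneg H.Lam_nonneg hD0
  have t3 := H.eta_nonneg
  have t4 := H.EA_nonneg
  set T : ℝ := es * X.Dd t0 * DH + Lam * X.Dd t0 + eta + EA + es ^ k + etaT with hT
  have hT0 : 0 ≤ T := by rw [hT]; linarith
  -- the source constant
  set E13 : ℝ := CA * (2 * (es ^ k + (2 * bb + 1) ^ k * (k * etaT)) * l8hcMass a (2 * k) 4) + EA
        + ∑ n ∈ (range k).erase 1,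
            |CQ| * (n * (bb * es ^ (n - 1) * (X.Dd t0 * DH) + 4 * bb * (2 * bb + 1) ^ (n - 1) * (n * etaT)))
              * l8hcMass a (2 * n) 4 with hE13
  have hE : E13 ≤ l8hcKE k a bb CQ CA * T := by
    rw [hE13]; unfold l8hcKE
    rw [add_mul, add_mul, sum_mul]
    refine add_le_add (add_le_add ?_ (by rw [hT]; linarith)) (sum_le_sum fun n hn => ?_)
    · have hC : 0 ≤ (2 * bb + 1) ^ k * (k : ℝ) := mul_nonneg (pow_nonneg (by linarith) _) (Nat.cast_nonneg _)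
      have h1 : es ^ k + (2 * bb + 1) ^ k * (k * etaT) ≤ (1 + (2 * bb + 1) ^ k * k) * T := by
        have a1 : es ^ k ≤ T := by rw [hT]; linarith
        have a2 : etaT ≤ T := by rw [hT]; linarith
        have := mul_le_mul_of_nonneg_left a2 hC
        nlinarith
      have hm := l8hc_mass_nonneg ha (2 * k) 4
      calc CA * (2 * (es ^ k + (2 * bb + 1) ^ k * (k * etaT)) * l8hcMass a (2 * k) 4)
          ≤ CA * (2 * ((1 + (2 * bb + 1) ^ k * k) * T) * l8hcMass a (2 * k) 4) :=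
            mul_le_mul_of_nonneg_left (mul_le_mul_of_nonneg_right (mul_le_mul_of_nonneg_left h1 (by norm_num)) hm)
              H.CA_nonneg
        _ = _ := by ring
    · have hn1 : n ≠ 1 := ne_of_mem_erase hn
      have h2 := l8hc_arith2 hn1 hbb H.es_nonneg H.es_le (mul_nonneg hD0 hDH)
        (pow_nonneg (by linarith : (0 : ℝ) ≤ 2 * bb + 1) (n - 1)) (T := T) (etaT := etaT)
        (by rw [hT, ← mul_assoc]; linarith) (by rw [hT]; linarith)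
      have hm := l8hc_mass_nonneg ha (2 * n) 4
      calc _ ≤ |CQ| * ((n : ℝ) * (bb * (1 + 4 * (2 * bb + 1) ^ (n - 1) * n)) * T) * l8hcMass a (2 * n) 4 :=
            mul_le_mul_of_nonneg_right (mul_le_mul_of_nonneg_left h2 (abs_nonneg _)) hm
        _ = _ := by ring
  have hE0 : 0 ≤ E13 := by
    rw [hE13]
    refine add_nonneg (add_nonneg (mul_nonneg H.CA_nonneg (mul_nonneg (mul_nonneg (by norm_num) (add_nonneg hek
      (mul_nonneg (pow_nonneg (by linarith) _) (mul_nonneg (Nat.cast_nonneg _) hη)))) (l8hc_mass_nonneg ha _ _))) t4)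
      (sum_nonneg fun n _ => mul_nonneg (mul_nonneg (abs_nonneg _) (mul_nonneg (Nat.cast_nonneg _) (add_nonneg
        (mul_nonneg (mul_nonneg hbb (pow_nonneg H.es_nonneg _)) (mul_nonneg hD0 hDH))
        (mul_nonneg (mul_nonneg (mul_nonneg (by norm_num) hbb) (pow_nonneg (by linarith) _))
          (mul_nonneg (Nat.cast_nonneg _) hη))))) (l8hc_mass_nonneg ha _ _))
  -- (H1)
  rw [l8hc_U_diag H.ok (by omega)] at hD2
  have e1 : (fun τ => G τ * X.retI ti (τ 2 3) * (l8hcU X t0 τ - X.Mop ti (l8hcU X t0) τ))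
      = fun τ => G τ * X.retI ti (τ 2 3) * (l8hcU X t0 τ - X.Mop ti (l8hcU X t0) τ
            - ∑ n ∈ range k, l8hcN n * X.sumK (2 * n) 4 τ (l8hcLo X ti t0 n))
          + ∑ n ∈ range k, l8hcN n * (G τ * X.retI ti (τ 2 3) * X.sumK (2 * n) 4 τ (l8hcLo X ti t0 n)) :=
    funext fun τ => by
      have : ∑ n ∈ range k, l8hcN n * (G τ * X.retI ti (τ 2 3) * X.sumK (2 * n) 4 τ (l8hcLo X ti t0 n))
          = G τ * X.retI ti (τ 2 3) * ∑ n ∈ range k, l8hcN n * X.sumK (2 * n) 4 τ (l8hcLo X ti t0 n) := by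
        rw [mul_sum]; exact sum_congr rfl fun n _ => by ring
      rw [this]; ring
  rw [e1, l8hc_abs_add H.ok hτ, l8hc_abs_sum H.ok hτ] at hD2
  -- first part
  have hfirst : |X.absK 2 2 (jtTab2 X.N t0) fun τ => G τ * X.retI ti (τ 2 3) * (l8hcU X t0 τ - X.Mop ti (l8hcU X t0) τ
            - ∑ n ∈ range k, l8hcN n * X.sumK (2 * n) 4 τ (l8hcLo X ti t0 n))| ≤ Pol * E13 * l8hcMass a 2 2 := by
    refine l8hc_abs_le H.ok hτ (mul_nonneg hPol hE0) fun τ h1 h2 => ?_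
    by_cases hr : ti ≤ τ 2 3 ∧ τ 2 3 ≤ X.N
    · have := l8hc_abs_mul_le (l8hc_abs_mul_le (hG τ) (l8hc_ret_abs (X := X) (ti := ti) (τ 2 3)))
        (l8hc_src H h0 h0N (show IsTr X.N 4 τ from h1) h2 hr.1 hr.2)
      rwa [mul_one] at this
    · have : X.retI ti (τ 2 3) = 0 := by unfold JtCtx.retI; rw [if_neg hr]
      rw [this, mul_zero, zero_mul, abs_zero]; exact mul_nonneg hPol hE0
  -- second part
  have hL : Lam * X.Dd t0 + eta ≤ T := by rw [hT]; linarith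
  have hKL0 : 0 ≤ l8hcKL k bb CQ := by
    unfold l8hcKL
    exact sum_nonneg fun n _ => sum_nonneg fun A _ => sum_nonneg fun D _ =>
      mul_nonneg (abs_nonneg _) (pow_nonneg (by linarith) _)
  have hsecond : |∑ n ∈ range k, X.absK 2 2 (jtTab2 X.N t0) fun τ =>
      l8hcN n * (G τ * X.retI ti (τ 2 3) * X.sumK (2 * n) 4 τ (l8hcLo X ti t0 n))| ≤ l8hcKL k bb CQ * (Pol * T) := by
    unfold l8hcKL
    rw [sum_mul]
    refine (abs_sum_le_sum_abs _ _).trans (sum_le_sum fun n hn => ?_)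
    rw [l8hc_abs_smul H.ok hτ]
    have h3 := l8hc_abs_mul_le (l8hc_N_abs n) (l8hc_lo_bd H h0 h0N (mem_range.mp hn) hGloc hG)
    rw [one_mul] at h3
    refine h3.trans ?_
    rw [sum_mul]
    refine sum_le_sum fun A _ => ?_
    rw [sum_mul]
    refine sum_le_sum fun D _ => ?_
    have hc : 0 ≤ Pol * |CQ| * (bb + 1) ^ n := mul_nonneg (mul_nonneg hPol (abs_nonneg _)) (pow_nonneg (by linarith) _)
    calc _ ≤ Pol * |CQ| * (bb + 1) ^ n * T := mul_le_mul_of_nonneg_left hL hc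
      _ = _ := by ring
  have hm2 := l8hc_mass_nonneg ha 2 2
  have hfin : X.D2 t0 ≤ (l8hcKE k a bb CQ CA * l8hcMass a 2 2 + l8hcKL k bb CQ) * (Pol * T) := by
    have b1 := (le_abs_self _).trans hfirst
    have b2 := (le_abs_self _).trans hsecond
    have b3 : Pol * E13 * l8hcMass a 2 2 ≤ Pol * (l8hcKE k a bb CQ CA * T) * l8hcMass a 2 2 :=
      mul_le_mul_of_nonneg_right (mul_le_mul_of_nonneg_left hE hPol) hm2
    rw [hD2]
    calc _ ≤ Pol * (l8hcKE k a bb CQ CA * T) * l8hcMass a 2 2 + l8hcKL k bb CQ * (Pol * T) :=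
          add_le_add (b1.trans b3) b2
      _ = _ := by ring
  calc X.D2 t0 ≤ _ := hfin
    _ ≤ |l8hcKE k a bb CQ CA * l8hcMass a 2 2 + l8hcKL k bb CQ| * (Pol * T) :=
        mul_le_mul_of_nonneg_right (le_abs_self _) (mul_nonneg hPol hT0)
    _ = _ := by ring

end core

/-- **LL Prop 8.11 (D15), the covariance inequality** (TEX[LL:prop:statistics-high]): PROVED (helper280), constant `|KE * mass + KL|` explicit -/
theorem l8h_cov : L8_HI_COV := fun k a bb CQ CA =>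
  ⟨|l8hcKE k a bb CQ CA * l8hcMass a 2 2 + l8hcKL k bb CQ|, abs_nonneg _,
    fun _ _ _ _ _ _ _ _ _ _ _ _ H _ h0 h0N => l8hc_main H h0 h0N⟩

theorem l8hc_eqns_cite : True := by
  have := @L8_HI_COV.eq_1
  have := @l8hcMass.eq_1
  have := @l8hcY.eq_1
  have := @l8hcM.eq_1
  have := @l8hcTrI.eq_1
  have := @l8hcCf.eq_1
  have := @l8hcW.eq_1
  have := @l8hcLo.eq_1
  have := @l8hcU.eq_1
  have := @l8hcHi.eq_1
  have := @l8hcN.eq_1
  have := @l8hcKE.eq_1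
  have := @l8hcKL.eq_1
  trivial

end Claimed.Agent.R286
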