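import Claimed.Agent.R286.L08.HiKit

/-!
# Row 286 (S0533), folder L08, file HiLong : THE LONGITUDINAL EQUATION of LL Prop 8.11 (D15), abstract, non-asymptotic      (owner helper221; prefix `L8HL` / `l8hl_`)

TEX[LL:prop:statistics-high], LL 08 l.1600-1660.   Context `X : JtCtx S` (untilted), threshold level `t1` (mass `V_1`), Taylor degree `k`.
CONCLUSION (`L8_HI_LONG`): for every level `r ≥ t1`
  `|(1 - b(r) Gp(r)) f(r) - Gp(r) d(r)| ≤ Kl * (Ri + es * (|f(r)| + |d(r)| + DH + IJ) + etaT + es ^ k + EA)`,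
`Gp = Γ'(K)`, `Ri` = integral term (`∑ mu kk |b f + d|`, `kk` = earlier time), `es = x^(δ*/2)`, `DH = D_{H,1}`, `IJ = ∑ mu ‖J‖₂`, `etaT` = tail of (D11), `EA` = contact error.
The absorption of `es |f(r)|` by the gap `1 - b Gp ≥ c λ V_1²` is `L08/HiA.lean`.

PROOF.  `τ0 = jtTab2 N r`, test `1`, tested pair `(0, 1)`.
 1. (A7): `|S(r) - ∑_{n<k} ev n| ≤ CA rem + EA`;   `rem ≤ mass (es^k + CJ^k k etaT)` (`l8hk_rem_le`).
 2. `ev 0 = q(r)` (`l8hl_ev0`: the scalar reference overlap);   `ev 1 = ∑ M (b f + d) = Gp (b f + d)(r) + ∑ mu Bk (b f + d)` (`l8hl_ev1`: `ν[J] = b f + d`, (H2)).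
 3. `n ≥ 2` (`l8hl_evn`): `|J_0 J_1 ∏ J_i| ≤ CJ^(n-2) (es |J_0| + CJ² 1[|J_1| > es])`, `ν|J_0| ≤ ‖J‖₂` at the level of the pair `(2, 3)`;
    the later labels cost their mass (`l8hk_abs_tail`);  the level of the pair `(2, 3)` is the prescribed fork `r` or has a bounded density (`dens` = PE Lemma 2.8).
 4. `‖J‖₂(r) ≤ bb D(r) + |b f + d|(r)` (`l8hl_Jn_le`).
-/

set_option autoImplicit false

namespace Claimed.Agent.R286

open Finset
open scoped Nat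

variable {S : Type}

/-- second norm of the row mismatch at a pair which shares `t` stages -/
noncomputable def JtCtx.Jn (X : JtCtx S) (t : ℕ) : ℝ :=
  Real.sqrt (X.nu 2 (jtTab2 X.N t) fun σ => X.J (jtTab2 X.N t) σ 0 1 ^ 2)

/-- hypotheses of the longitudinal equation -/
structure L8HLong (X : JtCtx S) (a bb CQ CA Cd CB : ℝ) (k t1 : ℕ) (mu Gp kk : ℕ → ℝ) (Bk : ℕ → ℕ → ℝ)
    (es EA etaT DH Ri IJ : ℝ) : Prop where
  ok : X.Ok a
  msk : ∀ t, X.msk t = 1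
  k_pos : 2 ≤ k
  /-- no new label: nothing is summed -/
  sum_zero : ∀ q τ Φ, X.sumK 0 q τ Φ = Φ τ
  /-- `q = Γ(K)`: the reference overlap is the scalar overlap -/
  q_ref : ∀ t, X.qC t = X.nuK 2 (jtTab2 X.N t) fun s => jtSp (s 0) * jtSp (s 1)
  b_bd : ∀ t, |X.bC t| ≤ bb
  es_nonneg : 0 ≤ es
  ph_bd : ∀ t, t ≤ X.N → |X.ph t| ≤ 1
  /-- (D11): the row mismatch exceeds `es` with probability `≤ etaT`, at every level -/
  J_tail : ∀ t, t ≤ X.N → X.nu 2 (jtTab2 X.N t) (fun σ => if es < |X.J (jtTab2 X.N t) σ 0 1| then 1 else 0) ≤ etaT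
  DH_bd : ∀ t, t1 ≤ t → t ≤ X.N → X.Dd t ≤ DH
  /-- (A7) without a random test -/
  a7 : ∀ r, t1 ≤ r → r ≤ X.N → X.A7 2 (jtTab2 X.N r) (fun _ => 1) 0 1 k CA EA
  CA_nonneg : 0 ≤ CA
  EA_nonneg : 0 ≤ EA
  h2 : L8H_H2 X mu Gp Bk
  mu_nonneg : ∀ t, 0 ≤ mu t
  mu_sum : ∑ t ∈ range (X.N + 1), mu t ≤ a
  kk_nonneg : ∀ t, 0 ≤ kk t
  /-- the post kernel bound gains the earlier time -/
  Bk_bd : ∀ r t, r ≤ X.N → t ≤ X.N → |Bk r t| ≤ CB * kk t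
  CB_nonneg : 0 ≤ CB
  Ri_bd : ∑ t ∈ range (X.N + 1), mu t * kk t * |X.ph t| ≤ Ri
  /-- PE Lemma 2.8: the level of the first inserted pair is the prescribed fork or has a bounded density -/
  dens : ∀ r, r ≤ X.N → ∀ g : ℕ → ℝ, (∀ t, 0 ≤ g t) →
    X.absK 2 2 (jtTab2 X.N r) (fun τ => if τ 2 3 ≤ X.N then g (τ 2 3) else 0) ≤ Cd * (g r + ∑ t ∈ range (X.N + 1), mu t * g t)
  Cd_nonneg : 0 ≤ Cd
  IJ_bd : ∑ t ∈ range (X.N + 1), mu t * X.Jn t ≤ IJ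
  quo : ∀ n, n < k → ∀ τ, IsTr X.N (2 + 2 * n) τ → |X.Quo (2 + 2 * n) 2 0 1 τ (range n)| ≤ CQ

/-- CONTRACT: the longitudinal inequality -/
def L8_HI_LONG : Prop :=
  ∀ (k : ℕ) (a bb CQ CA Cd CB : ℝ), ∃ Kl : ℝ, 0 ≤ Kl ∧ ∀ (S : Type) (X : JtCtx S) (t1 : ℕ) (mu Gp kk : ℕ → ℝ) (Bk : ℕ → ℕ → ℝ)
    (es EA etaT DH Ri IJ : ℝ), L8HLong X a bb CQ CA Cd CB k t1 mu Gp kk Bk es EA etaT DH Ri IJ →
    ∀ r, t1 ≤ r → r ≤ X.N →
      |(1 - X.bC r * Gp r) * X.ff r - Gp r * X.dd r|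
        ≤ Kl * (Ri + es * (|X.ff r| + |X.dd r| + DH + IJ) + etaT + es ^ k + EA)

variable {X : JtCtx S} {a bb CQ CA Cd CB : ℝ} {k t1 : ℕ} {mu Gp kk : ℕ → ℝ} {Bk : ℕ → ℕ → ℝ} {es EA etaT DH Ri IJ : ℝ}

theorem l8hl_quo_empty (X : JtCtx S) (r q : ℕ) (τ : JtTopo) :
    X.Quo r q 0 1 τ ∅ = X.nuK r τ fun s => jtSp (s 0) * jtSp (s 1) := by
  unfold JtCtx.Quo jtMul
  simp [jtInv, jtPow, jtOne, JtCtx.Nij, JtCtx.scM]

theorem l8hl_ev0 (H : L8HLong X a bb CQ CA Cd CB k t1 mu Gp kk Bk es EA etaT DH Ri IJ) {r : ℕ} (hr : r ≤ X.N) :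
    X.ev 2 (jtTab2 X.N r) (fun r' τ => X.Quo r' 2 0 1 τ) (fun _ => 1) 0 = X.qC r := by
  have hτ := l8hk_tab2_isTr X.N r (by omega)
  unfold JtCtx.ev
  simp only [Nat.mul_zero, H.sum_zero, Nat.add_zero, Finset.range_zero, l8hl_quo_empty, JtCtx.off, JtCtx.Jprod, Finset.prod_empty,
    mul_one, l8hk_nu_const H.ok hτ, pow_zero, Nat.factorial_zero, Nat.cast_one, inv_one, one_mul, H.q_ref]

theorem l8hl_ev1 (H : L8HLong X a bb CQ CA Cd CB k t1 mu Gp kk Bk es EA etaT DH Ri IJ) {r : ℕ} (hr : r ≤ X.N) :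
    X.ev 2 (jtTab2 X.N r) (fun r' τ => X.Quo r' 2 0 1 τ) (fun _ => 1) 1
      = Gp r * X.ph r + ∑ t ∈ range (X.N + 1), mu t * Bk r t * X.ph t := by
  have hτ := l8hk_tab2_isTr X.N r (by omega)
  rw [← H.h2 r hr X.ph]
  unfold JtCtx.ev
  rw [← l8hk_sum_smul H.ok hτ]
  refine l8hk_sum_congr H.ok hτ fun τ hτ' _ => ?_
  have e1 : X.nu (2 + 2 * 1) τ (fun σ => 1 * X.Jprod 2 1 τ σ) = X.ph (τ 2 3) := by
    have := l8hk_nu_J H.ok H.msk hτ' (c := 2) (d := 3) (by norm_num) (by norm_num)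
    simpa [JtCtx.Jprod, jtC, jtD] using this
  rw [e1]
  unfold JtCtx.Mker
  simp only [Finset.range_one, pow_one, Nat.factorial_one, Nat.cast_one, mul_one]
  ring
theorem l8hl_nu_J_sq (h : X.Ok a) (hm : ∀ t, X.msk t = 1) {t : ℕ} (ht : t ≤ X.N + 1) :
    X.nu 2 (jtTab2 X.N t) (fun σ => X.J (jtTab2 X.N t) σ 0 1 ^ 2) = X.bC t ^ 2 * X.D2 t + X.ph t ^ 2 := by
  have hτ := l8hk_tab2_isTr X.N t ht
  have e0 : jtTab2 X.N t 0 1 = t := by simp [jtTab2]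
  have e : ∀ σ, X.J (jtTab2 X.N t) σ 0 1 ^ 2
      = X.bC t ^ 2 * X.dl (jtTab2 X.N t) σ 0 1 ^ 2 + ((2 * X.bC t * X.ph t) * X.dl (jtTab2 X.N t) σ 0 1 + X.ph t ^ 2) := by
    intro σ; rw [l8hk_J_split hm, e0]; ring
  simp only [e]
  rw [l8hk_nu_add h hτ, l8hk_nu_smul h hτ, l8hk_nu_add h hτ, l8hk_nu_smul h hτ, l8hk_nu_const h hτ,
    l8hk_nu_dl h hτ (by norm_num) (by norm_num), l8hk_nu_dl_sq h hτ (by norm_num) (by norm_num), e0]
  ring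

theorem l8hl_Jn_nonneg (X : JtCtx S) (t : ℕ) : 0 ≤ X.Jn t := Real.sqrt_nonneg _

/-- `‖J‖₂ ≤ |b| D + |b f + d|` -/
theorem l8hl_Jn_le (h : X.Ok a) (hm : ∀ t, X.msk t = 1) {t : ℕ} (ht : t ≤ X.N + 1) :
    X.Jn t ≤ |X.bC t| * X.Dd t + |X.ph t| := by
  unfold JtCtx.Jn
  rw [l8hl_nu_J_sq h hm ht, Real.sqrt_le_iff]
  have hD : 0 ≤ X.Dd t := Real.sqrt_nonneg _
  have hD2 : X.Dd t ^ 2 = X.D2 t := Real.sq_sqrt (l8hk_D2_nonneg h ht)
  refine ⟨by positivity, ?_⟩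
  have e : (|X.bC t| * X.Dd t + |X.ph t|) ^ 2 = X.bC t ^ 2 * X.D2 t + X.ph t ^ 2 + 2 * (|X.bC t| * X.Dd t * |X.ph t|) := by
    rw [← hD2, ← sq_abs (X.bC t), ← sq_abs (X.ph t)]; ring
  rw [e]
  have : 0 ≤ |X.bC t| * X.Dd t * |X.ph t| := by positivity
  linarith

/-- a product of `m + 2` row mismatches: the first in second norm, the second truncated, the others bounded -/
theorem l8hl_nu_Jprod2 (h : X.Ok a) {CJ : ℝ} (hJ : L8HkJ X CJ es etaT) {q m : ℕ} {τ : JtTopo}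
    (hτ : IsTr X.N (q + 2 * (m + 2)) τ) (hoff : ∀ i, i < m + 2 → τ (jtC q i) (jtD q i) ≤ X.N) :
    X.nu (q + 2 * (m + 2)) τ (fun σ => |X.Jprod q (m + 2) τ σ|)
      ≤ CJ ^ m * (es * X.Jn (τ (jtC q 0) (jtD q 0)) + CJ ^ 2 * etaT) := by
  have hC := hJ.CJ_nonneg
  have hes := hJ.es_nonneg
  have h1 : ∀ σ, |X.Jprod q (m + 2) τ σ| ≤ CJ ^ m * (es * |X.J τ σ (jtC q 0) (jtD q 0)|
      + CJ ^ 2 * (if es < |X.J τ σ (jtC q 1) (jtD q 1)| then 1 else 0)) := by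
    intro σ
    unfold JtCtx.Jprod
    rw [Finset.abs_prod, Finset.prod_range_succ', Finset.prod_range_succ', mul_assoc]
    have hb : ∀ i, i < m + 2 → |X.J τ σ (jtC q i) (jtD q i)| ≤ CJ := fun i hi => hJ.bd _ _ _ (hoff i hi)
    have h2 : ∏ i ∈ range m, |X.J τ σ (jtC q (i + 1 + 1)) (jtD q (i + 1 + 1))| ≤ CJ ^ m := by
      have := Finset.prod_le_prod (s := range m) (f := fun i => |X.J τ σ (jtC q (i + 1 + 1)) (jtD q (i + 1 + 1))|) (g := fun _ => CJ)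
        (fun i _ => abs_nonneg _) (fun i hi => hb _ (by have := Finset.mem_range.mp hi; omega))
      simpa using this
    have h3 := l8hk_trunc hes (hb 1 (by omega))
    have h4 := hb 0 (by omega)
    have h5 : |X.J τ σ (jtC q (0 + 1)) (jtD q (0 + 1))| * |X.J τ σ (jtC q 0) (jtD q 0)|
        ≤ es * |X.J τ σ (jtC q 0) (jtD q 0)| + CJ ^ 2 * (if es < |X.J τ σ (jtC q 1) (jtD q 1)| then 1 else 0) := by
      have hi0 : (0 : ℝ) ≤ (if es < |X.J τ σ (jtC q 1) (jtD q 1)| then 1 else 0) := by split_ifs <;> norm_num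
      calc _ ≤ (es + CJ * (if es < |X.J τ σ (jtC q 1) (jtD q 1)| then 1 else 0)) * |X.J τ σ (jtC q 0) (jtD q 0)| :=
            mul_le_mul_of_nonneg_right h3 (abs_nonneg _)
        _ = es * |X.J τ σ (jtC q 0) (jtD q 0)| + CJ * (if es < |X.J τ σ (jtC q 1) (jtD q 1)| then 1 else 0) * |X.J τ σ (jtC q 0) (jtD q 0)| := by ring
        _ ≤ es * |X.J τ σ (jtC q 0) (jtD q 0)| + CJ * (if es < |X.J τ σ (jtC q 1) (jtD q 1)| then 1 else 0) * CJ := by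
            have := mul_le_mul_of_nonneg_left h4 (mul_nonneg hC hi0)
            linarith
        _ = _ := by ring
    exact mul_le_mul h2 h5 (by positivity) (by positivity)
  refine (l8hk_nu_mono h hτ h1).trans ?_
  rw [l8hk_nu_smul h hτ, l8hk_nu_add h hτ, l8hk_nu_smul h hτ, l8hk_nu_smul h hτ]
  have hc0 : jtC q 0 < q + 2 * (m + 2) := by unfold jtC; omega
  have hd0 : jtD q 0 < q + 2 * (m + 2) := by unfold jtD; omega
  have hc1 : jtC q 1 < q + 2 * (m + 2) := by unfold jtC; omega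
  have hd1 : jtD q 1 < q + 2 * (m + 2) := by unfold jtD; omega
  have h6 : X.nu (q + 2 * (m + 2)) τ (fun σ => |X.J τ σ (jtC q 0) (jtD q 0)|) ≤ X.Jn (τ (jtC q 0) (jtD q 0)) := by
    refine (l8hk_nu_l1_le_l2 h hτ _).trans ?_
    rw [l8hk_J_marg h hτ hc0 hd0 fun x => x ^ 2]
    exact le_rfl
  have h7 := l8hk_J_tail h hJ hτ hc1 hd1 (hoff 1 (by omega))
  have h8 := mul_le_mul_of_nonneg_left h6 hes
  have h9 := mul_le_mul_of_nonneg_left h7 (pow_nonneg hC 2)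
  exact mul_le_mul_of_nonneg_left (by linarith) (pow_nonneg hC m)

/-- the bound and the tail of the row mismatch, from the hypotheses -/
theorem l8hl_hJ (H : L8HLong X a bb CQ CA Cd CB k t1 mu Gp kk Bk es EA etaT DH Ri IJ) : L8HkJ X (2 * bb + 1) es etaT where
  es_nonneg := H.es_nonneg
  CJ_nonneg := by have := (abs_nonneg _).trans (H.b_bd 0); linarith
  bd := fun t s s' ht => l8hk_Jf_abs_le H.ok H.msk (by omega) (H.b_bd t) (H.ph_bd t ht) s s'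
  tail := H.J_tail

theorem l8hl_etaT_nonneg (H : L8HLong X a bb CQ CA Cd CB k t1 mu Gp kk Bk es EA etaT DH Ri IJ) : 0 ≤ etaT :=
  (l8hk_nu_nonneg H.ok (l8hk_tab2_isTr X.N 0 (by omega)) fun σ => by split_ifs <;> norm_num).trans (H.J_tail 0 (Nat.zero_le _))

theorem l8hl_CQ_nonneg (H : L8HLong X a bb CQ CA Cd CB k t1 mu Gp kk Bk es EA etaT DH Ri IJ) : 0 ≤ CQ :=
  (abs_nonneg _).trans (H.quo 0 (by have := H.k_pos; omega) (jtTab2 X.N 0) (l8hk_tab2_isTr X.N 0 (by omega)))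

/-- the coefficient of the term of degree `m + 2` -/
noncomputable def l8hlC (a bb CQ Cd : ℝ) (m : ℕ) : ℝ := l8hkMass a (2 * m + 2) (2 + 2) * (Cd * (CQ * (2 * bb + 1) ^ m))

/-- the nonlinear term of degree `m + 2` -/
theorem l8hl_evn (H : L8HLong X a bb CQ CA Cd CB k t1 mu Gp kk Bk es EA etaT DH Ri IJ) {r : ℕ} (hr : r ≤ X.N) {m : ℕ} (hm : m + 2 < k) :
    |X.ev 2 (jtTab2 X.N r) (fun r' τ => X.Quo r' 2 0 1 τ) (fun _ => 1) (m + 2)|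
      ≤ l8hlC a bb CQ Cd m * (es * (X.Jn r + IJ) + (2 * bb + 1) ^ 2 * (1 + a) * etaT) := by
  have hτ := l8hk_tab2_isTr X.N r (by omega)
  have hJ := l8hl_hJ H
  have hC := hJ.CJ_nonneg
  have hes := H.es_nonneg
  have heta := l8hl_etaT_nonneg H
  have hCQ := l8hl_CQ_nonneg H
  set CJ := 2 * bb + 1 with hCJ
  set g : ℕ → ℝ := fun t => CQ * (CJ ^ m * (es * X.Jn t + CJ ^ 2 * etaT)) with hg
  have hg0 : ∀ t, 0 ≤ g t := fun t => by
    have := l8hl_Jn_nonneg X t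
    simp only [hg]; positivity
  set G : JtTopo → ℝ := fun τ => if τ 2 3 ≤ X.N then g (τ 2 3) else 0 with hG
  have hG0 : ∀ τ, 0 ≤ G τ := fun τ => by simp only [hG]; split_ifs; exacts [hg0 _, le_rfl]
  have hGl : JtLoc (2 + 2) G := fun τ τ' hag => by simp only [hG]; rw [hag 2 3 (by norm_num) (by norm_num)]
  unfold JtCtx.ev
  rw [abs_mul]
  have hfac : |((2 : ℝ) ^ (m + 2) * ((m + 2)! : ℝ))⁻¹| ≤ 1 := by
    rw [abs_of_nonneg (by positivity)]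
    apply inv_le_one_of_one_le₀
    have h1 : (1 : ℝ) ≤ 2 ^ (m + 2) := one_le_pow₀ (by norm_num)
    have h2 : (1 : ℝ) ≤ ((m + 2)! : ℝ) := by exact_mod_cast Nat.one_le_iff_ne_zero.mpr (Nat.factorial_ne_zero _)
    nlinarith
  refine (mul_le_of_le_one_left (abs_nonneg _) hfac).trans ?_
  refine (l8hk_sum_le_abs H.ok hτ _).trans ?_
  have h1 : X.absK (2 * (m + 2)) 2 (jtTab2 X.N r) (fun τ => |X.off 2 (m + 2) τ * X.Quo (2 + 2 * (m + 2)) 2 0 1 τ (range (m + 2)) *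
      X.nu (2 + 2 * (m + 2)) τ fun σ => 1 * X.Jprod 2 (m + 2) τ σ|) ≤ X.absK (2 * (m + 2)) 2 (jtTab2 X.N r) G := by
    refine l8hk_abs_mono H.ok hτ fun τ hτ' _ => ?_
    rcases l8hk_off_cases X 2 (m + 2) τ with h0 | ⟨h1, hoff⟩
    · rw [h0, zero_mul, zero_mul, abs_zero]; exact hG0 τ
    · have h23 : τ 2 3 ≤ X.N := hoff 0 (by omega)
      rw [h1, one_mul, abs_mul]
      simp only [hG, if_pos h23, hg, one_mul]
      refine mul_le_mul (H.quo _ hm τ hτ') ?_ (abs_nonneg _) hCQ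
      exact (l8hk_nu_abs_le H.ok hτ' _).trans (l8hl_nu_Jprod2 H.ok hJ hτ' hoff)
  refine h1.trans ?_
  have e2 : 2 * (m + 2) = 2 + (2 * m + 2) := by ring
  rw [e2]
  refine (l8hk_abs_tail H.ok hτ hGl hG0).trans ?_
  unfold l8hlC
  rw [mul_assoc]
  refine mul_le_mul_of_nonneg_left ?_ (l8hk_mass_nonneg H.ok _ _)
  refine (H.dens r hr g hg0).trans ?_
  rw [mul_assoc]
  refine mul_le_mul_of_nonneg_left ?_ H.Cd_nonneg
  have h3 : ∑ t ∈ range (X.N + 1), mu t * g t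
      = CQ * (CJ ^ m * (es * (∑ t ∈ range (X.N + 1), mu t * X.Jn t) + CJ ^ 2 * etaT * ∑ t ∈ range (X.N + 1), mu t)) := by
    simp only [hg, Finset.mul_sum, ← Finset.sum_add_distrib]
    exact Finset.sum_congr rfl fun t _ => by ring
  rw [h3]
  have h4 := mul_le_mul_of_nonneg_left H.IJ_bd hes
  have h5 := mul_le_mul_of_nonneg_left H.mu_sum (show 0 ≤ CJ ^ 2 * etaT by positivity)
  have h6 : CQ * (CJ ^ m * (es * (∑ t ∈ range (X.N + 1), mu t * X.Jn t) + CJ ^ 2 * etaT * ∑ t ∈ range (X.N + 1), mu t))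
      ≤ CQ * (CJ ^ m * (es * IJ + CJ ^ 2 * etaT * a)) :=
    mul_le_mul_of_nonneg_left (mul_le_mul_of_nonneg_left (by linarith) (pow_nonneg hC m)) hCQ
  calc g r + CQ * (CJ ^ m * (es * (∑ t ∈ range (X.N + 1), mu t * X.Jn t) + CJ ^ 2 * etaT * ∑ t ∈ range (X.N + 1), mu t))
      ≤ g r + CQ * (CJ ^ m * (es * IJ + CJ ^ 2 * etaT * a)) := by linarith
    _ = CQ * CJ ^ m * (es * (X.Jn r + IJ) + CJ ^ 2 * (1 + a) * etaT) := by simp only [hg]; ring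

/-- the explicit constant of the longitudinal inequality -/
noncomputable def l8hlK (k : ℕ) (a bb CQ CA Cd CB : ℝ) : ℝ :=
  CB + (∑ m ∈ range (k - 2), l8hlC a bb CQ Cd m) * (bb + 1) + (∑ m ∈ range (k - 2), l8hlC a bb CQ Cd m) * ((2 * bb + 1) ^ 2 * (1 + a))
    + CA * l8hkMass a (2 * k) 2 * (1 + (2 * bb + 1) ^ k * k) + 1

theorem l8hl_num {A1 A2 A3 A4 A5 u1 u2 u3 u4 u5 : ℝ} (hA1 : 0 ≤ A1) (hA2 : 0 ≤ A2) (hA3 : 0 ≤ A3) (hA4 : 0 ≤ A4) (hA5 : 0 ≤ A5)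
    (h1 : 0 ≤ u1) (h2 : 0 ≤ u2) (h3 : 0 ≤ u3) (h4 : 0 ≤ u4) (h5 : 0 ≤ u5) :
    A1 * u1 + A2 * u2 + A3 * u3 + A4 * (u4 + A5 * u3) + u5 ≤ (A1 + A2 + A3 + A4 * (1 + A5) + 1) * (u1 + u2 + u3 + u4 + u5) := by
  have hU : 0 ≤ u1 + u2 + u3 + u4 + u5 := by positivity
  have t1 := mul_le_mul_of_nonneg_left (show u1 ≤ u1 + u2 + u3 + u4 + u5 by linarith) hA1
  have t2 := mul_le_mul_of_nonneg_left (show u2 ≤ u1 + u2 + u3 + u4 + u5 by linarith) hA2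
  have t3 := mul_le_mul_of_nonneg_left (show u3 ≤ u1 + u2 + u3 + u4 + u5 by linarith) hA3
  have t4 := mul_le_mul_of_nonneg_left (show u4 ≤ u1 + u2 + u3 + u4 + u5 by linarith) hA4
  have t5 := mul_le_mul_of_nonneg_left (show u3 ≤ u1 + u2 + u3 + u4 + u5 by linarith) (mul_nonneg hA4 hA5)
  have e : (A1 + A2 + A3 + A4 * (1 + A5) + 1) * (u1 + u2 + u3 + u4 + u5)
      = A1 * (u1 + u2 + u3 + u4 + u5) + A2 * (u1 + u2 + u3 + u4 + u5) + A3 * (u1 + u2 + u3 + u4 + u5)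
        + A4 * (u1 + u2 + u3 + u4 + u5) + A4 * A5 * (u1 + u2 + u3 + u4 + u5) + (u1 + u2 + u3 + u4 + u5) := by ring
  have e' : A4 * (u4 + A5 * u3) = A4 * u4 + A4 * A5 * u3 := by ring
  rw [e, e']
  linarith

theorem l8hl_C_nonneg (H : L8HLong X a bb CQ CA Cd CB k t1 mu Gp kk Bk es EA etaT DH Ri IJ) (m : ℕ) : 0 ≤ l8hlC a bb CQ Cd m := by
  have h1 := l8hk_mass_nonneg H.ok (2 * m + 2) (2 + 2)
  have h2 := H.Cd_nonneg
  have h3 := l8hl_CQ_nonneg H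
  have h4 := (l8hl_hJ H).CJ_nonneg
  unfold l8hlC
  positivity

/-- **the longitudinal inequality**, explicit constant -/
theorem l8hl_main (H : L8HLong X a bb CQ CA Cd CB k t1 mu Gp kk Bk es EA etaT DH Ri IJ) {r : ℕ} (h1 : t1 ≤ r) (hr : r ≤ X.N) :
    0 ≤ l8hlK k a bb CQ CA Cd CB ∧
    |(1 - X.bC r * Gp r) * X.ff r - Gp r * X.dd r|
      ≤ l8hlK k a bb CQ CA Cd CB * (Ri + es * (|X.ff r| + |X.dd r| + DH + IJ) + etaT + es ^ k + EA) := by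
  have hτ := l8hk_tab2_isTr X.N r (by omega)
  have hJ := l8hl_hJ H
  have hC := hJ.CJ_nonneg
  have hes := H.es_nonneg
  have heta := l8hl_etaT_nonneg H
  have hbb : 0 ≤ bb := (abs_nonneg _).trans (H.b_bd 0)
  have ha := H.ok.a_pos
  have hM := l8hk_mass_nonneg H.ok (2 * k) 2
  have hCs : 0 ≤ ∑ m ∈ range (k - 2), l8hlC a bb CQ Cd m := Finset.sum_nonneg fun m _ => l8hl_C_nonneg H m
  have hDH : 0 ≤ DH := (Real.sqrt_nonneg _).trans (H.DH_bd r h1 hr)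
  have hIJ : 0 ≤ IJ := (Finset.sum_nonneg fun t _ => mul_nonneg (H.mu_nonneg t) (l8hl_Jn_nonneg X t)).trans H.IJ_bd
  have hRi : 0 ≤ Ri :=
    (Finset.sum_nonneg fun t _ => mul_nonneg (mul_nonneg (H.mu_nonneg t) (H.kk_nonneg t)) (abs_nonneg _)).trans H.Ri_bd
  have hK0 : 0 ≤ l8hlK k a bb CQ CA Cd CB := by
    have := H.CB_nonneg
    have := H.CA_nonneg
    unfold l8hlK
    positivity
  refine ⟨hK0, ?_⟩
  obtain ⟨k', rfl⟩ : ∃ k', k = k' + 2 := ⟨k - 2, by have := H.k_pos; omega⟩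
  -- (A7)
  have hA7 := H.a7 r h1 hr
  unfold JtCtx.A7 at hA7
  have eS : X.nu 2 (jtTab2 X.N r) (fun σ => 1 * X.Qs (jtTab2 X.N r) σ 0 1) = X.Sf r := by
    simp [JtCtx.Qs, H.msk, JtCtx.Sf]
  rw [eS] at hA7
  unfold JtCtx.evLt at hA7
  rw [Finset.sum_range_succ', Finset.sum_range_succ', l8hl_ev0 H hr] at hA7
  have e1 := l8hl_ev1 H hr
  simp only [zero_add] at hA7
  rw [e1] at hA7
  set En : ℝ := ∑ m ∈ range k', X.ev 2 (jtTab2 X.N r) (fun r' τ => X.Quo r' 2 0 1 τ) (fun _ => 1) (m + 1 + 1) with hEn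
  set Rint : ℝ := ∑ t ∈ range (X.N + 1), mu t * Bk r t * X.ph t with hRint
  -- the three sources
  have hrem := l8hk_rem_le H.ok hJ heta (k := k' + 2) hτ (P := fun _ => 1) (CP := 1) (fun _ => by simp)
  have hRintb : |Rint| ≤ CB * Ri := by
    refine (Finset.abs_sum_le_sum_abs _ _).trans ?_
    refine le_trans ?_ (mul_le_mul_of_nonneg_left H.Ri_bd H.CB_nonneg)
    rw [Finset.mul_sum]
    refine Finset.sum_le_sum fun t ht => ?_
    have ht' : t ≤ X.N := by have := Finset.mem_range.mp ht; omega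
    rw [abs_mul, abs_mul, abs_of_nonneg (H.mu_nonneg t)]
    have := mul_le_mul_of_nonneg_left (H.Bk_bd r t hr ht') (H.mu_nonneg t)
    have := mul_le_mul_of_nonneg_right this (abs_nonneg (X.ph t))
    calc _ ≤ mu t * (CB * kk t) * |X.ph t| := this
      _ = _ := by ring
  have hEnb : |En| ≤ (∑ m ∈ range (k' + 2 - 2), l8hlC a bb CQ Cd m) * (es * (X.Jn r + IJ) + (2 * bb + 1) ^ 2 * (1 + a) * etaT) := by
    rw [Nat.add_sub_cancel, Finset.sum_mul]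
    refine (Finset.abs_sum_le_sum_abs _ _).trans (Finset.sum_le_sum fun m hm => ?_)
    exact l8hl_evn H hr (by have := Finset.mem_range.mp hm; omega)
  have hJn : X.Jn r ≤ bb * DH + (bb * |X.ff r| + |X.dd r|) := by
    refine (l8hl_Jn_le H.ok H.msk (by omega)).trans ?_
    have h2 := mul_le_mul (H.b_bd r) (H.DH_bd r h1 hr) (Real.sqrt_nonneg _) hbb
    have h3 : |X.ph r| ≤ bb * |X.ff r| + |X.dd r| := by
      rw [l8hk_ph_eq]
      refine (abs_add_le _ _).trans ?_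
      rw [abs_mul]
      have := mul_le_mul_of_nonneg_right (H.b_bd r) (abs_nonneg (X.ff r))
      linarith
    linarith
  have hJn2 : es * (X.Jn r + IJ) ≤ (bb + 1) * (es * (|X.ff r| + |X.dd r| + DH + IJ)) := by
    have hf := abs_nonneg (X.ff r)
    have hd := abs_nonneg (X.dd r)
    have h4 : X.Jn r + IJ ≤ (bb + 1) * (|X.ff r| + |X.dd r| + DH + IJ) := by nlinarith
    calc _ ≤ es * ((bb + 1) * (|X.ff r| + |X.dd r| + DH + IJ)) := mul_le_mul_of_nonneg_left h4 hes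
      _ = _ := by ring
  -- the identity
  have eid : (1 - X.bC r * Gp r) * X.ff r - Gp r * X.dd r
      = (X.Sf r - (En + (Gp r * X.ph r + Rint) + X.qC r)) + Rint + En := by
    rw [l8hk_ph_eq]; unfold JtCtx.ff; ring
  rw [eid]
  refine (abs_add_le _ _).trans ((add_le_add_left (abs_add_le _ _) _).trans ?_)
  have hnum := l8hl_num (A1 := CB) (A2 := (∑ m ∈ range (k' + 2 - 2), l8hlC a bb CQ Cd m) * (bb + 1))
    (A3 := (∑ m ∈ range (k' + 2 - 2), l8hlC a bb CQ Cd m) * ((2 * bb + 1) ^ 2 * (1 + a))) (A4 := CA * l8hkMass a (2 * (k' + 2)) 2)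
    (A5 := (2 * bb + 1) ^ (k' + 2) * ((k' + 2 : ℕ) : ℝ)) (u1 := Ri) (u2 := es * (|X.ff r| + |X.dd r| + DH + IJ)) (u3 := etaT)
    (u4 := es ^ (k' + 2)) (u5 := EA) H.CB_nonneg (by positivity) (by positivity) (mul_nonneg H.CA_nonneg hM) (by positivity) hRi
    (by positivity) heta (by positivity) H.EA_nonneg
  unfold l8hlK
  refine le_trans ?_ hnum
  have h5 := mul_le_mul_of_nonneg_left hrem H.CA_nonneg
  have h6 := mul_le_mul_of_nonneg_left hJn2 hCs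
  have h7 : (∑ m ∈ range (k' + 2 - 2), l8hlC a bb CQ Cd m) * (es * (X.Jn r + IJ) + (2 * bb + 1) ^ 2 * (1 + a) * etaT)
      = (∑ m ∈ range (k' + 2 - 2), l8hlC a bb CQ Cd m) * (es * (X.Jn r + IJ))
        + (∑ m ∈ range (k' + 2 - 2), l8hlC a bb CQ Cd m) * ((2 * bb + 1) ^ 2 * (1 + a)) * etaT := by ring
  have h8 : CA * (l8hkMass a (2 * (k' + 2)) 2 * (1 * (es ^ (k' + 2) + (2 * bb + 1) ^ (k' + 2) * (((k' + 2 : ℕ) : ℝ) * etaT))))
      = CA * l8hkMass a (2 * (k' + 2)) 2 * (es ^ (k' + 2) + (2 * bb + 1) ^ (k' + 2) * ((k' + 2 : ℕ) : ℝ) * etaT) := by ring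
  have h9 : (∑ m ∈ range (k' + 2 - 2), l8hlC a bb CQ Cd m) * ((bb + 1) * (es * (|X.ff r| + |X.dd r| + DH + IJ)))
      = (∑ m ∈ range (k' + 2 - 2), l8hlC a bb CQ Cd m) * (bb + 1) * (es * (|X.ff r| + |X.dd r| + DH + IJ)) := by ring
  rw [h7] at hEnb
  rw [h8] at h5
  rw [h9] at h6
  linarith

theorem l8hl_long : L8_HI_LONG := by
  intro k a bb CQ CA Cd CB
  refine ⟨|l8hlK k a bb CQ CA Cd CB|, abs_nonneg _, ?_⟩
  intro S X t1 mu Gp kk Bk es EA etaT DH Ri IJ H r h1 hr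
  obtain ⟨h0, h2⟩ := l8hl_main H h1 hr
  rwa [abs_of_nonneg h0]

end Claimed.Agent.R286
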