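import Claimed.Agent.R286.L08.Glue
import Claimed.Agent.R286.L08.HiCov
import Claimed.Agent.R286.L08.HiLong

/-!
# Row 286 (S0533), folder L08, file HiTop : COMPILED GLUE OF `Exit/D15` (LL Prop 8.11, (D15))      (owner helper221; head of the unit helper234; names `L8t*`, `l8t_*`)

    exit_d15  <=  l8t_d15 (glue, PROVED)  <=  l8h_cov (L08/HiCov: abstract covariance inequality; 280)  +  l8hl_long (L08/HiLong: abstract longitudinal inequality, PROVED)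
                                             +  l8t_basic (dictionary, threshold cuts)  +  l8t_cov (the record `L8HCov` at `I.X false`)  +  l8t_long (the record `L8HLong` at `I.X false`)      [these three leaves: `Exit/D15.lean`]
                                             +  numerics `l8t_num_cov`, `l8t_num_long`, `l8t_large` (221).

* PART A  absorption, abstract: `l8t_cov_close` (the supremum over the high levels is attained; `D² ≤ A D + B`), `l8t_long_close`;   monotonicity of the records: `L8HCov.mono`, `L8HLong.mono`.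
* PART C  forms of the leaves (`L8tBasic`, `L8tCov`, `L8tLong`: shape `L8Ev` of 75), numerics, one instance (`l8t_inst_cov`, `l8t_inst_long`), glue.
EXPONENTS.   `C_H = κ + 2` (`κ` = exponent of the polynomial losses: inverse, (D16));   `a0 ≤ min(t0, δ_*/4, 1/2)`;   `b_H ≤ a0/4`;   `a1 ≤ min(.., a0/16, δ_*/(8κ), 1/(2(κ+2)))`;   `a2 ≤ δ_*/(8κ)`;
`p_* ≤ min(.., a1/(2κ), a2/(2κ), a0/16)`;   losses `ε = a_i/2` (covariance), `a0/8` (longitudinal);   constants are absorbed by `x^(-a_i/2)`, `x^(-a0/8)` for `N ≥ N0`.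
-/

set_option autoImplicit false

namespace Claimed.Agent.R286

open Finset Filter

/-! ## PART A. absorption (abstract) -/

/-- `D² ≤ A D + B`, `D ≥ 0` gives `D ≤ A + √B` -/
theorem l8t_quad {D A B : ℝ} (_hD : 0 ≤ D) (hA : 0 ≤ A) (h : D ^ 2 ≤ A * D + B) : D ≤ A + Real.sqrt B := by
  by_cases h1 : D ≤ A
  · have := Real.sqrt_nonneg B; linarith
  · push Not at h1
    have h2 : (D - A) ^ 2 ≤ B := by nlinarith
    have h3 : D - A ≤ Real.sqrt B := Real.le_sqrt_of_sq_le h2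
    linarith

/-- **absorption in the covariance inequality**: the supremum over the high levels is attained -/
theorem l8t_cov_close {S : Type} {X : JtCtx S} {a bb CQ CA Kc : ℝ} {k ti : ℕ} {eb vv : ℕ → ℝ} {Pol es Lam eta EA etaT DH0 : ℝ}
    (hKc0 : 0 ≤ Kc)
    (hKc : ∀ DH, L8HCov X a bb CQ CA k ti eb vv Pol es Lam eta EA etaT DH → ∀ t0, ti ≤ t0 → t0 ≤ X.N →
      X.D2 t0 ≤ Kc * Pol * (es * X.Dd t0 * DH + Lam * X.Dd t0 + eta + EA + es ^ k + etaT))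
    (H : L8HCov X a bb CQ CA k ti eb vv Pol es Lam eta EA etaT DH0) (hPol : 0 ≤ Pol) (habs : Kc * Pol * es ≤ 1 / 2) :
    ∀ t0, ti ≤ t0 → t0 ≤ X.N → X.Dd t0 ≤ 2 * Kc * Pol * Lam + Real.sqrt (2 * Kc * Pol * (eta + EA + es ^ k + etaT)) := by
  intro t0 h1 h2
  obtain ⟨ts, hts, hmax⟩ := Finset.exists_max_image (Finset.Icc ti X.N) X.Dd ⟨t0, Finset.mem_Icc.mpr ⟨h1, h2⟩⟩
  obtain ⟨hs1, hs2⟩ := Finset.mem_Icc.mp hts
  have H' : L8HCov X a bb CQ CA k ti eb vv Pol es Lam eta EA etaT (X.Dd ts) :=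
    { H with DH_bd := fun t ht1 ht2 => hmax t (Finset.mem_Icc.mpr ⟨ht1, ht2⟩) }
  have h3 := hKc _ H' ts hs1 hs2
  have hD0 : 0 ≤ X.Dd ts := Real.sqrt_nonneg _
  have hD2 : X.Dd ts ^ 2 = X.D2 ts := Real.sq_sqrt (l8hk_D2_nonneg H.ok (by omega))
  have hKP : 0 ≤ Kc * Pol := mul_nonneg hKc0 hPol
  have hq : X.Dd ts ^ 2 ≤ (2 * Kc * Pol * Lam) * X.Dd ts + 2 * Kc * Pol * (eta + EA + es ^ k + etaT) := by
    rw [← hD2] at h3
    have h4 : Kc * Pol * es * X.Dd ts ^ 2 ≤ 1 / 2 * X.Dd ts ^ 2 := mul_le_mul_of_nonneg_right habs (sq_nonneg _)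
    nlinarith
  have h5 := l8t_quad hD0 (by have := H.Lam_nonneg; positivity) hq
  exact (hmax t0 (Finset.mem_Icc.mpr ⟨h1, h2⟩)).trans h5

/-- **absorption in the longitudinal inequality** -/
theorem l8t_long_close {S : Type} {X : JtCtx S} {a bb CQ CA Cd CB Kl : ℝ} {k t1 : ℕ} {mu Gp kk : ℕ → ℝ} {Bk : ℕ → ℕ → ℝ}
    {es EA etaT DH0 DH Ri IJ g0 : ℝ} (_hKl0 : 0 ≤ Kl)
    (hKl : ∀ DH, L8HLong X a bb CQ CA Cd CB k t1 mu Gp kk Bk es EA etaT DH Ri IJ → ∀ r, t1 ≤ r → r ≤ X.N →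
      |(1 - X.bC r * Gp r) * X.ff r - Gp r * X.dd r| ≤ Kl * (Ri + es * (|X.ff r| + |X.dd r| + DH + IJ) + etaT + es ^ k + EA))
    (H : L8HLong X a bb CQ CA Cd CB k t1 mu Gp kk Bk es EA etaT DH0 Ri IJ)
    (hDH : ∀ t, t1 ≤ t → t ≤ X.N → X.Dd t ≤ DH) (hg0 : 0 < g0) (habs : Kl * es ≤ g0 / 2) :
    ∀ r, t1 ≤ r → r ≤ X.N → g0 ≤ 1 - X.bC r * Gp r →
      |X.ff r| ≤ 2 / g0 * (|Gp r| * |X.dd r| + Kl * (Ri + es * (|X.dd r| + DH + IJ) + etaT + es ^ k + EA)) := by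
  intro r h1 h2 hg
  have H' : L8HLong X a bb CQ CA Cd CB k t1 mu Gp kk Bk es EA etaT DH Ri IJ := { H with DH_bd := hDH }
  have h3 := hKl _ H' r h1 h2
  have h4 : |(1 - X.bC r * Gp r) * X.ff r| ≤ |(1 - X.bC r * Gp r) * X.ff r - Gp r * X.dd r| + |Gp r * X.dd r| := by
    have := abs_add_le ((1 - X.bC r * Gp r) * X.ff r - Gp r * X.dd r) (Gp r * X.dd r)
    simpa using this
  rw [abs_mul, abs_mul (Gp r)] at h4
  have h5 : g0 * |X.ff r| ≤ |1 - X.bC r * Gp r| * |X.ff r| :=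
    mul_le_mul_of_nonneg_right (hg.trans (le_abs_self _)) (abs_nonneg _)
  have h6 : Kl * es * |X.ff r| ≤ g0 / 2 * |X.ff r| := mul_le_mul_of_nonneg_right habs (abs_nonneg _)
  have h7 : g0 / 2 * |X.ff r| ≤ |Gp r| * |X.dd r| + Kl * (Ri + es * (|X.dd r| + DH + IJ) + etaT + es ^ k + EA) := by nlinarith
  rw [div_mul_eq_mul_div, le_div_iff₀ hg0]
  linarith


/-- the record of the covariance equation is monotone in its numbers -/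
theorem L8HCov.mono {S : Type} {X : JtCtx S} {a bb CQ CA : ℝ} {k ti : ℕ} {eb vv : ℕ → ℝ} {Pol es Lam eta EA etaT DH Pol' Lam' eta' EA' etaT' DH' : ℝ}
    (H : L8HCov X a bb CQ CA k ti eb vv Pol es Lam eta EA etaT DH) (hPol : Pol ≤ Pol') (hLam : Lam ≤ Lam') (heta : eta ≤ eta') (hEA : EA ≤ EA')
    (hT : etaT ≤ etaT') (hDH : DH ≤ DH') : L8HCov X a bb CQ CA k ti eb vv Pol' es Lam' eta' EA' etaT' DH' :=
  { H with
    J_tail := fun t ht => (H.J_tail t ht).trans hT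
    DH_bd := fun t h1 h2 => (H.DH_bd t h1 h2).trans hDH
    a7 := fun t0 h1 h2 τ h3 h4 h5 h6 => by
      have := H.a7 t0 h1 h2 τ h3 h4 h5 h6
      unfold JtCtx.A7 at this ⊢
      linarith
    EA_nonneg := H.EA_nonneg.trans hEA
    h1 := fun t0 h1 h2 u hu hs => by
      obtain ⟨G, hG1, hG2, hG3⟩ := H.h1 t0 h1 h2 u hu hs
      exact ⟨G, hG1, fun τ => (hG2 τ).trans hPol, hG3⟩
    ls := fun n h1 h2 t0 h3 h4 Sto Det c d w h5 h6 h7 h8 h9 h10 h11 => by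
      have h12 := H.ls n h1 h2 t0 h3 h4 Sto Det c d w h5 h6 h7 h8 h9 h10 h11
      have h13 : Lam * X.Dd t0 ≤ Lam' * X.Dd t0 := mul_le_mul_of_nonneg_right hLam (Real.sqrt_nonneg _)
      linarith
    Lam_nonneg := H.Lam_nonneg.trans hLam
    eta_nonneg := H.eta_nonneg.trans heta }

/-- the record of the longitudinal equation is monotone in its numbers -/
theorem L8HLong.mono {S : Type} {X : JtCtx S} {a bb CQ CA Cd CB : ℝ} {k t1 : ℕ} {mu Gp kk : ℕ → ℝ} {Bk : ℕ → ℕ → ℝ}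
    {es EA etaT DH Ri IJ EA' etaT' DH' Ri' IJ' : ℝ} (H : L8HLong X a bb CQ CA Cd CB k t1 mu Gp kk Bk es EA etaT DH Ri IJ)
    (hEA : EA ≤ EA') (hT : etaT ≤ etaT') (hDH : DH ≤ DH') (hRi : Ri ≤ Ri') (hIJ : IJ ≤ IJ') :
    L8HLong X a bb CQ CA Cd CB k t1 mu Gp kk Bk es EA' etaT' DH' Ri' IJ' :=
  { H with
    J_tail := fun t ht => (H.J_tail t ht).trans hT
    DH_bd := fun t h1 h2 => (H.DH_bd t h1 h2).trans hDH
    a7 := fun r h1 h2 => by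
      have := H.a7 r h1 h2
      unfold JtCtx.A7 at this ⊢
      linarith
    EA_nonneg := H.EA_nonneg.trans hEA
    Ri_bd := H.Ri_bd.trans hRi
    IJ_bd := H.IJ_bd.trans hIJ }

/-! ## PART C. the forms of the leaves and the glue of `Exit/D15` -/

/-- the row Taylor degree: `l8tK * (δ_* / 2) = 7` -/
def l8tK : ℕ := 140000

/-- `ti` is the threshold cut of the mass `V`: the cuts `k ≥ ti` are those of mass `≥ V` -/
def L8In.Thr (I : L8In) (V : ℝ) (ti : ℕ) : Prop := ∀ k, k ≤ I.n → (ti ≤ k ↔ V ≤ I.v k)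

/-- `L8Ev.mono` which remembers the class and `N1 ≤ N` -/
theorem l8t_ev_mono {F : LlFix} {𝔹 : LlBase} {N0 N1 : ℕ} {R : LlPt → Prop} {Φ Ψ : L8In → Prop} (h : L8Ev F 𝔹 N0 R Φ) (hN : N0 ≤ N1)
    (hi : ∀ I : L8In, I.Ok → N1 ≤ I.p.N → R I.p → Φ I → Ψ I) : L8Ev F 𝔹 N1 R Ψ := by
  intro N s hN'
  filter_upwards [h N s (hN.trans hN')] with Fs hFs ell lam chiL chiE sm γ m hR hOk
  exact hi _ hOk hN' hR (hFs ell lam chiL chiE sm γ m hR hOk)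

/-- **BASIC**: dictionary jet context / statistics of the chain, threshold cuts -/
def L8tBasic (𝔹 : LlBase) (T : ℝ) : Prop :=
  ∀ F0, L8Fix 𝔹 T F0 → ∀ (pB : LLParB) (pS : ℝ), 0 < pS → pS ≤ 1 → ∃ N0 : ℕ, L8Ev (F0.wExp pB.sStar pB.eta pS) 𝔹 N0 l8Siz fun I =>
    (∀ k ≤ I.n, (I.X false).Sf k = I.S k ∧ (I.X false).D2 k = I.D2 k) ∧ ∀ V : ℝ, ∃ ti, I.Thr V ti

/-- **COV**: the hypotheses of the covariance equation at the threshold `V = x^ai`.      Order: the exponent `κ` of all polynomial losses and the threshold of `ai` FIRST; then `ai`; then `p_*`; then the loss `ε`; then constants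
(they may depend on everything but `N`) and `N0`.
`Pol = C x^(-κ (ai + p_*))` (cost of the pair inverse at the gap `c λ V²`), `es = x^(δ_*/2)`, `Lam = C x^(3 - ε - κ p_*) Z²`, `eta = x^7` ((D16)), `EA = C x^6` (contact), `etaT = x^7` ((D11)). -/
def L8tCov (𝔹 : LlBase) (T : ℝ) : Prop :=
  ∀ F0, L8Fix 𝔹 T F0 → ∀ pB : LLParB, LlcStB 𝔹 F0 pB → ∃ κ tA : ℝ, 1 ≤ κ ∧ 0 < tA ∧ ∀ ai, 0 < ai → ai ≤ tA → ∃ tp : ℝ, 0 < tp ∧ tp ≤ 1 ∧ ∀ pS, 0 < pS → pS ≤ tp →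
    ∀ ε, 0 < ε → ∃ (bb CQ CA C : ℝ) (N0 : ℕ), 0 ≤ C ∧ L8Ev (F0.wExp pB.sStar pB.eta pS) 𝔹 N0 l8Siz fun I =>
      1 ≤ I.Zc llDStar ∧ ∀ ti, I.Thr (I.x ^ ai) ti → ∃ eb vv : ℕ → ℝ,
        L8HCov (I.X false) 4 bb CQ CA l8tK ti eb vv (C * I.x ^ (-(κ * (ai + pS)))) (I.x ^ (llDStar / 2))
          (C * I.x ^ (3 - ε - κ * pS) * I.Zc llDStar ^ 2) (I.x ^ 7) (C * I.x ^ 6) (I.x ^ 7) 2

/-- **LONG**: the hypotheses of the longitudinal equation at the threshold `V_1 = x^a1`, with the cutoff `V_0 = x^a0` of the integral term.      `W = Z² + Z_g`.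
gap `c_g x^(p_* + 2 a1)`;   `Ri ≤ C x^(2 + a0 - p_* - ε) W`;   `IJ ≤ C x^(2 - p_* - ε) W`;   `|d| ≤ C x^(3 - ε)`. -/
def L8tLong (𝔹 : LlBase) (T : ℝ) : Prop :=
  ∀ F0, L8Fix 𝔹 T F0 → ∀ (pB : LLParB) (c : ℝ), LlcStB 𝔹 F0 pB → 0 < c → ∃ t0 : ℝ, 0 < t0 ∧ ∀ a0, 0 < a0 → a0 ≤ t0 → ∃ tA : ℝ, 0 < tA ∧ ∀ a1, 0 < a1 → a1 ≤ tA →
    ∃ tp : ℝ, 0 < tp ∧ tp ≤ 1 ∧ ∀ pS, 0 < pS → pS ≤ tp → ∀ ε, 0 < ε → ∃ (bb CQ CA Cd CB C cg : ℝ) (N0 : ℕ), 0 ≤ C ∧ 0 < cg ∧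
      L8Ev (F0.wExp pB.sStar pB.eta pS) 𝔹 N0 l8Siz fun I => ∀ t1, I.Thr (I.x ^ a1) t1 → ∃ (mu Gp kk : ℕ → ℝ) (Bk : ℕ → ℕ → ℝ) (Ri IJ : ℝ),
        L8HLong (I.X false) 4 bb CQ CA Cd CB l8tK t1 mu Gp kk Bk (I.x ^ (llDStar / 2)) (C * I.x ^ 6) (I.x ^ 7) 2 Ri IJ ∧
        (∀ r, t1 ≤ r → r ≤ I.n → cg * I.x ^ (pS + 2 * a1) ≤ 1 - (I.X false).bC r * Gp r ∧ |Gp r| ≤ C ∧ |I.d r| ≤ C * I.x ^ (3 - ε)) ∧
        Ri ≤ C * I.x ^ (2 + a0 - pS - ε) * (I.Zc llDStar ^ 2 + I.Zg c) ∧ IJ ≤ C * I.x ^ (2 - pS - ε) * (I.Zc llDStar ^ 2 + I.Zg c)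

/-- **LS**: (D16), first conclusion, in the shape `L8Ev`, as `l8t_cov` consumes it      (PRODUCER: `Exit/D16`, helper59 / helper297 / helper234).
The envelope `eb` and the sole coefficient `vv` are those of (D16) (`eb = min 1 (A' e)`, `e` = the envelope of `exit_dlow`; `vv = v / 4`): they must be the SAME in `ph_low`, in the parity bound and in `ls`; `Cb` = the bound of the matrix clock. -/
def L8tLs (𝔹 : LlBase) (T : ℝ) : Prop :=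
  ∀ F0, L8Fix 𝔹 T F0 → ∀ pB : LLParB, LlcStB 𝔹 F0 pB → ∃ κl p0 : ℝ, 0 ≤ κl ∧ 0 < p0 ∧ ∀ pS, 0 < pS → pS ≤ p0 → ∀ ai Cb ε : ℝ, 0 < ai → 0 ≤ Cb → 0 < ε →
    ∃ (C : ℝ) (N0 : ℕ), 0 ≤ C ∧ L8Ev (F0.wExp pB.sStar pB.eta pS) 𝔹 N0 l8Siz fun I =>
      1 ≤ I.Zc llDStar ∧ ∀ ti, I.Thr (I.x ^ ai) ti → ∃ eb vv : ℕ → ℝ, (∀ t, 0 ≤ eb t) ∧ (∀ t, eb t ≤ 1) ∧ (∀ t, 0 ≤ vv t) ∧
        (∀ t, t < ti → I.v t ≤ 4 * vv t) ∧ (∀ t, t < ti → Cb * |I.f t| + |I.d t| ≤ eb t) ∧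
        ∀ n, 1 ≤ n → n < l8tK → L8_LS1 (I.X false) ti eb vv (2 + 2 * n) n (C * I.x ^ (3 - ε - κl * pS) * I.Zc llDStar ^ 2) (I.x ^ 7)

/-- **LOW**: the low region inputs of the longitudinal equation (LL 08 l.1612-1650), in the shape `L8Ev`      (PRODUCER: `exit_dlow`: `Env.f_le`, `Env.d_le`, `Rnd.ref_Q` at `r = 1`, `Env.low` + `Env.bud` summed over the dyads, `Yc² ≤ x^(2 - p_*) Zc²`).
`v0` = the fixed mass below which the refined estimates hold; `Cb` = the bound of the matrix clock; `e` = the envelope. -/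
def L8tLow (𝔹 : LlBase) (T : ℝ) : Prop :=
  ∀ F0, L8Fix 𝔹 T F0 → ∀ pB : LLParB, LlcStB 𝔹 F0 pB → ∃ p0 : ℝ, 0 < p0 ∧ ∀ pS, 0 < pS → pS ≤ p0 → ∃ v0 : ℝ, 0 < v0 ∧ ∀ Cb ε : ℝ, 0 ≤ Cb → 0 < ε →
    ∃ (C : ℝ) (N0 : ℕ), 0 ≤ C ∧ L8Ev (F0.wExp pB.sStar pB.eta pS) 𝔹 N0 l8Siz fun I =>
      1 ≤ I.Zc llDStar ∧ ∃ e : ℕ → ℝ, (∀ t, 0 ≤ e t) ∧
        (∀ t ≤ I.n, I.v t ≤ v0 → Cb * |I.f t| + |I.d t| ≤ C * I.x ^ (-ε) * e t) ∧
        (∀ t ≤ I.n, I.v t ≤ v0 → I.A t ≤ (C * I.x ^ (-ε) * e t) ^ 2) ∧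
        ∑ t ∈ (range (I.n + 1)).filter (fun t => I.v t ≤ v0), I.dv t * e t ≤ C * I.x ^ (2 - pS - ε) * I.Zc llDStar ^ 2

theorem l8t_eqns_cite : True := by
  have := @l8tK.eq_1
  have := @L8In.Thr.eq_1
  have := @L8tBasic.eq_1
  have := @L8tCov.eq_1
  have := @L8tLong.eq_1
  have := @L8tLs.eq_1
  have := @L8tLow.eq_1
  trivial


/-! ### numerics -/

/-- every constant is below a negative power of `x = N^(-1/6)` for large `N` -/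
theorem l8t_large (K θ : ℝ) (hθ : 0 < θ) : ∃ N0 : ℕ, 1 ≤ N0 ∧ ∀ N : ℕ, N0 ≤ N → K ≤ ((N : ℝ) ^ (-(1 / 6) : ℝ)) ^ (-θ) := by
  have h := (tendsto_rpow_atTop (show 0 < θ / 6 by positivity)).comp tendsto_natCast_atTop_atTop
  obtain ⟨N0, hN0⟩ := ((h.eventually_ge_atTop K).exists_forall_of_atTop)
  refine ⟨max N0 1, le_max_right _ _, fun N hN => ?_⟩
  have := hN0 N ((le_max_left _ _).trans hN)
  rw [← Real.rpow_mul (Nat.cast_nonneg N)]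
  have e : (-(1 / 6) : ℝ) * -θ = θ / 6 := by ring
  rw [e]
  exact this

theorem l8t_x_pos (I : L8In) (h : 1 ≤ I.p.N) : 0 < I.x ∧ I.x ≤ 1 := by
  have hN : (1 : ℝ) ≤ (I.p.N : ℝ) := by exact_mod_cast h
  constructor
  · exact Real.rpow_pos_of_pos (lt_of_lt_of_le one_pos hN) _
  · exact Real.rpow_le_one_of_one_le_of_nonpos hN (by norm_num)

/-- powers of `x ∈ (0,1]` decrease in the exponent -/
theorem l8t_rle {x : ℝ} (hx0 : 0 < x) (hx1 : x ≤ 1) {a b : ℝ} (h : a ≤ b) : x ^ b ≤ x ^ a :=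
  Real.rpow_le_rpow_of_exponent_ge hx0 hx1 h

theorem l8t_pk {x δ : ℝ} (hx0 : 0 < x) (k : ℕ) (hk : (k : ℝ) * (δ / 2) = 7) : (x ^ (δ / 2)) ^ k = x ^ (7 : ℝ) := by
  rw [← Real.rpow_natCast, ← Real.rpow_mul hx0.le, mul_comm, hk]

/-- numerics of the covariance closure -/
theorem l8t_num_cov {x Z Kc C κ ai pS δ : ℝ} (hx0 : 0 < x) (hx1 : x ≤ 1) (hZ : 1 ≤ Z) (hKc : 0 ≤ Kc) (hC : 0 ≤ C) (hκ : 1 ≤ κ)
    (hai : 0 < ai) (hpS : 0 < pS) (hpS' : 2 * κ * pS ≤ ai) (hδ : 8 * κ * ai ≤ δ)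
    (hbig : 2 * Kc * C + 2 * Kc * C ^ 2 + Real.sqrt (2 * Kc * C * (3 + C)) ≤ x ^ (-(ai / 2))) (k : ℕ) (hk : (k : ℝ) * (δ / 2) = 7) :
    Kc * (C * x ^ (-(κ * (ai + pS)))) * x ^ (δ / 2) ≤ 1 / 2 ∧
    2 * Kc * (C * x ^ (-(κ * (ai + pS)))) * (C * x ^ (3 - ai / 2 - κ * pS) * Z ^ 2)
        + Real.sqrt (2 * Kc * (C * x ^ (-(κ * (ai + pS)))) * (x ^ 7 + C * x ^ 6 + (x ^ (δ / 2)) ^ k + x ^ 7))
      ≤ x ^ (3 - (κ + 2) * ai) * Z ^ 2 := by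
  have hs0 : 0 ≤ Real.sqrt (2 * Kc * C * (3 + C)) := Real.sqrt_nonneg _
  have hKC : 0 ≤ Kc * C := mul_nonneg hKc hC
  have hKC2 : 0 ≤ Kc * C ^ 2 := mul_nonneg hKc (sq_nonneg C)
  have hκai : ai ≤ κ * ai := le_mul_of_one_le_left hai.le hκ
  have hZ2 : 1 ≤ Z ^ 2 := one_le_pow₀ hZ
  constructor
  · have h1 : 2 * (Kc * C) ≤ x ^ (-(ai / 2)) := by nlinarith
    have e : Kc * (C * x ^ (-(κ * (ai + pS)))) * x ^ (δ / 2) = (Kc * C) * x ^ (-(κ * (ai + pS)) + δ / 2) := by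
      rw [Real.rpow_add hx0]; ring
    rw [e]
    have h2 : x ^ (-(κ * (ai + pS)) + δ / 2) ≤ x ^ (ai / 2) := l8t_rle hx0 hx1 (by nlinarith)
    have h3 : x ^ (-(ai / 2)) * x ^ (ai / 2) = 1 := by rw [← Real.rpow_add hx0]; simp
    have hp : 0 < x ^ (ai / 2) := Real.rpow_pos_of_pos hx0 _
    calc (Kc * C) * x ^ (-(κ * (ai + pS)) + δ / 2) ≤ (Kc * C) * x ^ (ai / 2) := mul_le_mul_of_nonneg_left h2 hKC
      _ ≤ (x ^ (-(ai / 2)) / 2) * x ^ (ai / 2) := mul_le_mul_of_nonneg_right (by linarith) hp.le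
      _ = 1 / 2 := by rw [div_mul_eq_mul_div, h3]
  · set E : ℝ := 3 - (κ + 3 / 2) * ai with hE
    have hxE : 0 < x ^ E := Real.rpow_pos_of_pos hx0 _
    -- first term
    have t1 : 2 * Kc * (C * x ^ (-(κ * (ai + pS)))) * (C * x ^ (3 - ai / 2 - κ * pS) * Z ^ 2) ≤ (2 * Kc * C ^ 2) * (x ^ E * Z ^ 2) := by
      have e : 2 * Kc * (C * x ^ (-(κ * (ai + pS)))) * (C * x ^ (3 - ai / 2 - κ * pS) * Z ^ 2)
          = (2 * Kc * C ^ 2) * (x ^ (-(κ * (ai + pS)) + (3 - ai / 2 - κ * pS)) * Z ^ 2) := by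
        rw [Real.rpow_add hx0]; ring
      rw [e]
      refine mul_le_mul_of_nonneg_left (mul_le_mul_of_nonneg_right (l8t_rle hx0 hx1 ?_) (by positivity)) (by positivity)
      rw [hE]; nlinarith
    -- second term
    have t2 : Real.sqrt (2 * Kc * (C * x ^ (-(κ * (ai + pS)))) * (x ^ 7 + C * x ^ 6 + (x ^ (δ / 2)) ^ k + x ^ 7))
        ≤ Real.sqrt (2 * Kc * C * (3 + C)) * (x ^ E * Z ^ 2) := by
      have h7 : x ^ 7 ≤ x ^ 6 := pow_le_pow_of_le_one hx0.le hx1 (by norm_num)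
      have hk7 : (x ^ (δ / 2)) ^ k = x ^ 7 := by
        rw [l8t_pk hx0 k hk]; exact_mod_cast Real.rpow_natCast x 7
      have s1 : x ^ 7 + C * x ^ 6 + (x ^ (δ / 2)) ^ k + x ^ 7 ≤ (3 + C) * x ^ 6 := by rw [hk7]; nlinarith
      have e6 : x ^ 6 = x ^ (6 : ℝ) := by exact_mod_cast (Real.rpow_natCast x 6).symm
      have s2 : 2 * Kc * (C * x ^ (-(κ * (ai + pS)))) * (x ^ 7 + C * x ^ 6 + (x ^ (δ / 2)) ^ k + x ^ 7)
          ≤ (2 * Kc * C * (3 + C)) * (x ^ E) ^ 2 := by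
        have hp : 0 ≤ 2 * Kc * (C * x ^ (-(κ * (ai + pS)))) := by positivity
        refine (mul_le_mul_of_nonneg_left s1 hp).trans ?_
        have e : 2 * Kc * (C * x ^ (-(κ * (ai + pS)))) * ((3 + C) * x ^ 6) = (2 * Kc * C * (3 + C)) * x ^ (-(κ * (ai + pS)) + 6) := by
          rw [Real.rpow_add hx0, e6]; ring
        rw [e]
        have e2 : (x ^ E) ^ 2 = x ^ (E * 2) := by
          rw [← Real.rpow_natCast, ← Real.rpow_mul hx0.le]; norm_num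
        rw [e2]
        refine mul_le_mul_of_nonneg_left (l8t_rle hx0 hx1 ?_) (by positivity)
        rw [hE]; nlinarith
      calc Real.sqrt (2 * Kc * (C * x ^ (-(κ * (ai + pS)))) * (x ^ 7 + C * x ^ 6 + (x ^ (δ / 2)) ^ k + x ^ 7))
          ≤ Real.sqrt ((2 * Kc * C * (3 + C)) * (x ^ E) ^ 2) := Real.sqrt_le_sqrt s2
        _ = Real.sqrt (2 * Kc * C * (3 + C)) * x ^ E := by
            rw [Real.sqrt_mul (by positivity), Real.sqrt_sq hxE.le]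
        _ ≤ Real.sqrt (2 * Kc * C * (3 + C)) * (x ^ E * Z ^ 2) :=
            mul_le_mul_of_nonneg_left (le_mul_of_one_le_right hxE.le hZ2) hs0
    have h1 : 2 * Kc * C ^ 2 + Real.sqrt (2 * Kc * C * (3 + C)) ≤ x ^ (-(ai / 2)) := by nlinarith
    have e3 : x ^ (3 - (κ + 2) * ai) = x ^ (-(ai / 2)) * x ^ E := by
      rw [← Real.rpow_add hx0, hE]; congr 1; ring
    calc _ ≤ (2 * Kc * C ^ 2) * (x ^ E * Z ^ 2) + Real.sqrt (2 * Kc * C * (3 + C)) * (x ^ E * Z ^ 2) := add_le_add t1 t2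
      _ = (2 * Kc * C ^ 2 + Real.sqrt (2 * Kc * C * (3 + C))) * (x ^ E * Z ^ 2) := by ring
      _ ≤ x ^ (-(ai / 2)) * (x ^ E * Z ^ 2) := mul_le_mul_of_nonneg_right h1 (by positivity)
      _ = x ^ (3 - (κ + 2) * ai) * Z ^ 2 := by rw [e3]; ring

/-- numerics of the longitudinal closure -/
theorem l8t_num_long {x Zc Zg Kl C cg CH a0 a1 bH pS δ : ℝ} (hx0 : 0 < x) (hx1 : x ≤ 1) (hZc : 1 ≤ Zc) (hZg : 1 ≤ Zg) (hKl : 0 ≤ Kl)
    (hC : 0 ≤ C) (hcg : 0 < cg) (ha0 : 0 < a0) (ha0δ : 4 * a0 ≤ δ) (ha01 : a0 ≤ 1 / 2) (ha1 : 0 < a1) (ha1' : 16 * a1 ≤ a0) (hCH : CH * a1 ≤ 1 / 2)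
    (hbH : 4 * bH ≤ a0) (hpS : 0 < pS) (hpS' : 16 * pS ≤ a0)
    (hbig : 2 * Kl / cg + 2 * (C ^ 2 + Kl * (4 * C + 3)) / cg ≤ x ^ (-(a0 / 8))) (k : ℕ) (hk : (k : ℝ) * (δ / 2) = 7) :
    Kl * x ^ (δ / 2) ≤ cg * x ^ (pS + 2 * a1) / 2 ∧
    ∀ Gp d Ri IJ : ℝ, |Gp| ≤ C → |d| ≤ C * x ^ (3 - a0 / 8) → Ri ≤ C * x ^ (2 + a0 - pS - a0 / 8) * (Zc ^ 2 + Zg) →
      IJ ≤ C * x ^ (2 - pS - a0 / 8) * (Zc ^ 2 + Zg) →
      2 / (cg * x ^ (pS + 2 * a1)) * (|Gp| * |d| + Kl * (Ri + x ^ (δ / 2) * (|d| + x ^ (3 - CH * a1) * Zc ^ 2 + IJ) + x ^ 7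
          + (x ^ (δ / 2)) ^ k + C * x ^ 6)) ≤ x ^ (2 + bH) * (Zc ^ 2 + Zg) := by
  have hA : 0 ≤ 2 * Kl / cg := by positivity
  have hB : 0 ≤ 2 * (C ^ 2 + Kl * (4 * C + 3)) / cg := by positivity
  have hq : 0 < x ^ (pS + 2 * a1) := Real.rpow_pos_of_pos hx0 _
  constructor
  · have h1 : 2 * Kl / cg ≤ x ^ (-(a0 / 8)) := by linarith
    have h2 : 2 * Kl ≤ x ^ (-(a0 / 8)) * cg := by rwa [div_le_iff₀ hcg] at h1
    have h3 : x ^ (-(a0 / 8)) * x ^ (δ / 2) ≤ x ^ (pS + 2 * a1) := by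
      rw [← Real.rpow_add hx0]
      exact l8t_rle hx0 hx1 (by linarith)
    have hd : 0 < x ^ (δ / 2) := Real.rpow_pos_of_pos hx0 _
    have h4 : 2 * Kl * x ^ (δ / 2) ≤ cg * x ^ (pS + 2 * a1) :=
      calc 2 * Kl * x ^ (δ / 2) ≤ x ^ (-(a0 / 8)) * cg * x ^ (δ / 2) := mul_le_mul_of_nonneg_right h2 hd.le
        _ = cg * (x ^ (-(a0 / 8)) * x ^ (δ / 2)) := by ring
        _ ≤ cg * x ^ (pS + 2 * a1) := mul_le_mul_of_nonneg_left h3 hcg.le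
    linarith
  · intro Gp d Ri IJ hGp hd hRi hIJ
    set W : ℝ := Zc ^ 2 + Zg with hW
    have hZc2 : 1 ≤ Zc ^ 2 := one_le_pow₀ hZc
    have hW1 : 1 ≤ W := by rw [hW]; linarith
    have hW0 : 0 < W := by linarith
    have hZW : Zc ^ 2 ≤ W := by rw [hW]; linarith
    set E : ℝ := 2 + bH + pS + 2 * a1 + a0 / 8 with hE
    have hxE : 0 < x ^ E := Real.rpow_pos_of_pos hx0 _
    have hM : 0 ≤ x ^ E * W := by positivity
    have hxd : 0 < x ^ (δ / 2) := Real.rpow_pos_of_pos hx0 _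
    have hxd1 : x ^ (δ / 2) ≤ 1 := Real.rpow_le_one hx0.le hx1 (by linarith)
    have up : ∀ e : ℝ, E ≤ e → x ^ e ≤ x ^ E * W := fun e he =>
      (l8t_rle hx0 hx1 he).trans (le_mul_of_one_le_right hxE.le hW1)
    have upW : ∀ e : ℝ, E ≤ e → x ^ e * W ≤ x ^ E * W := fun e he =>
      mul_le_mul_of_nonneg_right (l8t_rle hx0 hx1 he) hW0.le
    have hd0 : 0 ≤ |d| := abs_nonneg d
    -- the terms
    have t1 : |Gp| * |d| ≤ C ^ 2 * (x ^ E * W) :=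
      calc |Gp| * |d| ≤ C * (C * x ^ (3 - a0 / 8)) := mul_le_mul hGp hd hd0 hC
        _ = C ^ 2 * x ^ (3 - a0 / 8) := by ring
        _ ≤ C ^ 2 * (x ^ E * W) := mul_le_mul_of_nonneg_left (up _ (by rw [hE]; linarith)) (sq_nonneg C)
    have t2 : Ri ≤ C * (x ^ E * W) :=
      calc Ri ≤ C * (x ^ (2 + a0 - pS - a0 / 8) * W) := by rw [← mul_assoc]; exact hRi
        _ ≤ C * (x ^ E * W) := mul_le_mul_of_nonneg_left (upW _ (by rw [hE]; linarith)) hC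
    have t3 : x ^ (δ / 2) * |d| ≤ C * (x ^ E * W) :=
      calc x ^ (δ / 2) * |d| ≤ 1 * (C * x ^ (3 - a0 / 8)) := mul_le_mul hxd1 hd hd0 zero_le_one
        _ = C * x ^ (3 - a0 / 8) := one_mul _
        _ ≤ C * (x ^ E * W) := mul_le_mul_of_nonneg_left (up _ (by rw [hE]; linarith)) hC
    have t4 : x ^ (δ / 2) * (x ^ (3 - CH * a1) * Zc ^ 2) ≤ x ^ E * W :=
      calc x ^ (δ / 2) * (x ^ (3 - CH * a1) * Zc ^ 2) ≤ 1 * (x ^ (3 - CH * a1) * W) :=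
            mul_le_mul hxd1 (mul_le_mul_of_nonneg_left hZW (Real.rpow_pos_of_pos hx0 _).le) (by positivity) zero_le_one
        _ = x ^ (3 - CH * a1) * W := one_mul _
        _ ≤ x ^ E * W := upW _ (by rw [hE]; linarith)
    have t5 : x ^ (δ / 2) * IJ ≤ C * (x ^ E * W) :=
      calc x ^ (δ / 2) * IJ ≤ x ^ (δ / 2) * (C * x ^ (2 - pS - a0 / 8) * W) := mul_le_mul_of_nonneg_left hIJ hxd.le
        _ = C * (x ^ (δ / 2 + (2 - pS - a0 / 8)) * W) := by rw [Real.rpow_add hx0]; ring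
        _ ≤ C * (x ^ E * W) := mul_le_mul_of_nonneg_left (upW _ (by rw [hE]; linarith)) hC
    have e7 : x ^ 7 = x ^ (7 : ℝ) := by exact_mod_cast (Real.rpow_natCast x 7).symm
    have e6 : x ^ 6 = x ^ (6 : ℝ) := by exact_mod_cast (Real.rpow_natCast x 6).symm
    have t6 : x ^ 7 ≤ x ^ E * W := by rw [e7]; exact up _ (by rw [hE]; linarith)
    have t7 : (x ^ (δ / 2)) ^ k ≤ x ^ E * W := by rw [l8t_pk hx0 k hk]; exact up _ (by rw [hE]; linarith)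
    have t8 : C * x ^ 6 ≤ C * (x ^ E * W) := by
      rw [e6]; exact mul_le_mul_of_nonneg_left (up _ (by rw [hE]; linarith)) hC
    have s1 : Ri + x ^ (δ / 2) * (|d| + x ^ (3 - CH * a1) * Zc ^ 2 + IJ) + x ^ 7 + (x ^ (δ / 2)) ^ k + C * x ^ 6
        ≤ (4 * C + 3) * (x ^ E * W) := by
      have : x ^ (δ / 2) * (|d| + x ^ (3 - CH * a1) * Zc ^ 2 + IJ)
          = x ^ (δ / 2) * |d| + x ^ (δ / 2) * (x ^ (3 - CH * a1) * Zc ^ 2) + x ^ (δ / 2) * IJ := by ring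
      rw [this]
      linarith
    have s2 : |Gp| * |d| + Kl * (Ri + x ^ (δ / 2) * (|d| + x ^ (3 - CH * a1) * Zc ^ 2 + IJ) + x ^ 7 + (x ^ (δ / 2)) ^ k + C * x ^ 6)
        ≤ (C ^ 2 + Kl * (4 * C + 3)) * (x ^ E * W) := by
      have := mul_le_mul_of_nonneg_left s1 hKl
      nlinarith
    have h1 : 2 * (C ^ 2 + Kl * (4 * C + 3)) / cg ≤ x ^ (-(a0 / 8)) := by linarith
    have e1 : x ^ E = x ^ (pS + 2 * a1) * x ^ (2 + bH + a0 / 8) := by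
      rw [← Real.rpow_add hx0, hE]; congr 1; ring
    have e2 : x ^ (-(a0 / 8)) * x ^ (2 + bH + a0 / 8) = x ^ (2 + bH) := by
      rw [← Real.rpow_add hx0]; congr 1; ring
    calc 2 / (cg * x ^ (pS + 2 * a1)) * (|Gp| * |d| + Kl * (Ri + x ^ (δ / 2) * (|d| + x ^ (3 - CH * a1) * Zc ^ 2 + IJ) + x ^ 7
          + (x ^ (δ / 2)) ^ k + C * x ^ 6))
        ≤ 2 / (cg * x ^ (pS + 2 * a1)) * ((C ^ 2 + Kl * (4 * C + 3)) * (x ^ E * W)) :=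
          mul_le_mul_of_nonneg_left s2 (by positivity)
      _ = (2 * (C ^ 2 + Kl * (4 * C + 3)) / cg) * (x ^ (2 + bH + a0 / 8) * W) := by
          rw [e1]; field_simp
      _ ≤ x ^ (-(a0 / 8)) * (x ^ (2 + bH + a0 / 8) * W) := mul_le_mul_of_nonneg_right h1 (by positivity)
      _ = x ^ (2 + bH) * W := by rw [← mul_assoc, e2]

theorem l8t_K_eq : (l8tK : ℝ) * (llDStar / 2) = 7 := by
  unfold l8tK llDStar; norm_num

/-! ### one instance -/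

/-- the covariance closure at one instance -/
theorem l8t_inst_cov (I : L8In) {κ ai pS Kc bb CQ CA C : ℝ} (hN : 1 ≤ I.p.N) (hKc0 : 0 ≤ Kc)
    (hKc : ∀ (S : Type) (X : JtCtx S) (ti : ℕ) (eb vv : ℕ → ℝ) (Pol es Lam eta EA etaT DH : ℝ),
      L8HCov X 4 bb CQ CA l8tK ti eb vv Pol es Lam eta EA etaT DH → ∀ t0, ti ≤ t0 → t0 ≤ X.N →
        X.D2 t0 ≤ Kc * Pol * (es * X.Dd t0 * DH + Lam * X.Dd t0 + eta + EA + es ^ l8tK + etaT))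
    (hC : 0 ≤ C) (hκ : 1 ≤ κ) (hai : 0 < ai) (hpS : 0 < pS) (hpS' : 2 * κ * pS ≤ ai) (hδ : 8 * κ * ai ≤ llDStar)
    (hbig : 2 * Kc * C + 2 * Kc * C ^ 2 + Real.sqrt (2 * Kc * C * (3 + C)) ≤ I.x ^ (-(ai / 2)))
    (hZ : 1 ≤ I.Zc llDStar) (hthr : ∃ ti, I.Thr (I.x ^ ai) ti)
    (h : ∀ ti, I.Thr (I.x ^ ai) ti → ∃ eb vv : ℕ → ℝ,
        L8HCov (I.X false) 4 bb CQ CA l8tK ti eb vv (C * I.x ^ (-(κ * (ai + pS)))) (I.x ^ (llDStar / 2))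
          (C * I.x ^ (3 - ai / 2 - κ * pS) * I.Zc llDStar ^ 2) (I.x ^ 7) (C * I.x ^ 6) (I.x ^ 7) 2) :
    ∀ k ≤ I.n, I.x ^ ai ≤ I.v k → (I.X false).Dd k ≤ I.x ^ (3 - (κ + 2) * ai) * I.Zc llDStar ^ 2 := by
  obtain ⟨hx0, hx1⟩ := l8t_x_pos I hN
  obtain ⟨ti, hti⟩ := hthr
  obtain ⟨eb, vv, H⟩ := h ti hti
  obtain ⟨n1, n2⟩ := l8t_num_cov hx0 hx1 hZ hKc0 hC hκ hai hpS hpS' hδ hbig l8tK l8t_K_eq
  intro k hk hv
  have h1 := l8t_cov_close hKc0 (fun DH HD => hKc _ _ _ _ _ _ _ _ _ _ _ _ HD) H (by positivity) n1 k ((hti k hk).mpr hv) hk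
  exact h1.trans n2

/-- the longitudinal closure at one instance -/
theorem l8t_inst_long (I : L8In) {c CH a0 a1 bH pS Kl bb CQ CA Cd CB C cg : ℝ} (hN : 1 ≤ I.p.N) (hKl0 : 0 ≤ Kl)
    (hKl : ∀ (S : Type) (X : JtCtx S) (t1 : ℕ) (mu Gp kk : ℕ → ℝ) (Bk : ℕ → ℕ → ℝ) (es EA etaT DH Ri IJ : ℝ),
      L8HLong X 4 bb CQ CA Cd CB l8tK t1 mu Gp kk Bk es EA etaT DH Ri IJ → ∀ r, t1 ≤ r → r ≤ X.N →
        |(1 - X.bC r * Gp r) * X.ff r - Gp r * X.dd r| ≤ Kl * (Ri + es * (|X.ff r| + |X.dd r| + DH + IJ) + etaT + es ^ l8tK + EA))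
    (hC : 0 ≤ C) (hcg : 0 < cg) (ha0 : 0 < a0) (ha0δ : 4 * a0 ≤ llDStar) (ha01 : a0 ≤ 1 / 2) (ha1 : 0 < a1) (ha1' : 16 * a1 ≤ a0)
    (hCH : CH * a1 ≤ 1 / 2) (hbH : 4 * bH ≤ a0) (hpS : 0 < pS) (hpS' : 16 * pS ≤ a0)
    (hbig : 2 * Kl / cg + 2 * (C ^ 2 + Kl * (4 * C + 3)) / cg ≤ I.x ^ (-(a0 / 8)))
    (hZ : 1 ≤ I.Zc llDStar) (hthr : ∃ ti, I.Thr (I.x ^ a1) ti)
    (hdict : ∀ k ≤ I.n, (I.X false).Sf k = I.S k)
    (hD : ∀ k ≤ I.n, I.x ^ a1 ≤ I.v k → (I.X false).Dd k ≤ I.x ^ (3 - CH * a1) * I.Zc llDStar ^ 2)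
    (h : ∀ t1, I.Thr (I.x ^ a1) t1 → ∃ (mu Gp kk : ℕ → ℝ) (Bk : ℕ → ℕ → ℝ) (Ri IJ : ℝ),
        L8HLong (I.X false) 4 bb CQ CA Cd CB l8tK t1 mu Gp kk Bk (I.x ^ (llDStar / 2)) (C * I.x ^ 6) (I.x ^ 7) 2 Ri IJ ∧
        (∀ r, t1 ≤ r → r ≤ I.n → cg * I.x ^ (pS + 2 * a1) ≤ 1 - (I.X false).bC r * Gp r ∧ |Gp r| ≤ C ∧ |I.d r| ≤ C * I.x ^ (3 - a0 / 8)) ∧
        Ri ≤ C * I.x ^ (2 + a0 - pS - a0 / 8) * (I.Zc llDStar ^ 2 + I.Zg c) ∧ IJ ≤ C * I.x ^ (2 - pS - a0 / 8) * (I.Zc llDStar ^ 2 + I.Zg c)) :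
    ∀ k ≤ I.n, I.x ^ a1 ≤ I.v k → |I.f k| ≤ I.x ^ (2 + bH) * (I.Zc llDStar ^ 2 + I.Zg c) := by
  obtain ⟨hx0, hx1⟩ := l8t_x_pos I hN
  obtain ⟨t1, ht1⟩ := hthr
  obtain ⟨mu, Gp, kk, Bk, Ri, IJ, H, hg, hRi, hIJ⟩ := h t1 ht1
  have hZg : 1 ≤ I.Zg c := le_max_left _ _
  obtain ⟨n1, n2⟩ := l8t_num_long (CH := CH) (bH := bH) hx0 hx1 hZ hZg hKl0 hC hcg ha0 ha0δ ha01 ha1 ha1' hCH hbH hpS hpS' hbig l8tK l8t_K_eq
  intro k hk hv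
  have hk1 : t1 ≤ k := (ht1 k hk).mpr hv
  obtain ⟨g1, g2, g3⟩ := hg k hk1 hk
  have hdd : (I.X false).dd k = I.d k := by
    show (I.X false).hC k + (I.X false).bC k * (I.X false).qC k - (I.X false).KC k = I.hC k - I.KC k + I.bC k * I.q k
    obtain ⟨e1, -, e3, e4, e5⟩ := l8_X_eq I false k
    rw [e1, e3, e4, e5]; ring
  have hff : (I.X false).ff k = I.f k := by
    show (I.X false).Sf k - (I.X false).qC k = I.S k - I.q k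
    rw [hdict k hk, (l8_X_eq I false k).1]
  have h1 := l8t_long_close hKl0 (fun DH HD => hKl _ _ _ _ _ _ _ _ _ _ _ _ _ HD) H
    (DH := I.x ^ (3 - CH * a1) * I.Zc llDStar ^ 2) (fun t h1 h2 => hD t h2 ((ht1 t h2).mp h1)) (by positivity) n1 k hk1 hk g1
  rw [hff, hdd] at h1
  exact h1.trans (n2 _ _ _ _ g2 g3 hRi hIJ)


/-- numerics of the two mass integrals of the longitudinal equation -/
theorem l8t_num_ri {x Zc Zg CK Cl C2 c a0 pS ε ε' : ℝ} {k2 : ℕ} (hx0 : 0 < x) (hx1 : x ≤ 1) (hZc : 1 ≤ Zc) (hZg : 1 ≤ Zg) (hCK : 0 ≤ CK)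
    (hC2 : 0 ≤ C2) (ha0 : 0 < a0) (ha01 : a0 ≤ 1) (hc : 4 * a0 ≤ c) (hpS : 0 < pS) (hε' : 0 < ε')
    (hε : ((k2 : ℝ) + 2) * ε' ≤ ε) :
    C2 * (max 4 (x ^ (-ε'))) ^ k2 * (CK * (Cl * x ^ (-ε')) * x ^ a0 * (Cl * x ^ (2 - pS - ε') * Zc ^ 2)
        + x ^ (-ε') * CK * (2 / x ^ a0 * x ^ (2 + c / 2) * Zg) + 4 * (x ^ (-ε')) ^ 2 * x ^ 3)
      ≤ C2 * 4 ^ k2 * (CK * Cl ^ 2 + 2 * CK + 4) * x ^ (2 + a0 - pS - ε) * (Zc ^ 2 + Zg) ∧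
    CK * ((Cl * x ^ (-ε')) * (Cl * x ^ (2 - pS - ε') * Zc ^ 2) + 2 / x ^ a0 * x ^ (2 + c / 2) * Zg) + 4 * x ^ (-ε') * x ^ 3
      ≤ (CK * Cl ^ 2 + 2 * CK + 4) * x ^ (2 - pS - ε) * (Zc ^ 2 + Zg) := by
  set W : ℝ := Zc ^ 2 + Zg with hW
  have hZc2 : 1 ≤ Zc ^ 2 := one_le_pow₀ hZc
  have hW1 : 1 ≤ W := by rw [hW]; linarith
  have hW0 : 0 < W := by linarith
  have hZW : Zc ^ 2 ≤ W := by rw [hW]; linarith
  have hGW : Zg ≤ W := by rw [hW]; linarith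
  have hk0 : (0 : ℝ) ≤ k2 := Nat.cast_nonneg _
  have hkε : 0 ≤ (k2 : ℝ) * ε' := mul_nonneg hk0 hε'.le
  have hCl2 : 0 ≤ CK * Cl ^ 2 := mul_nonneg hCK (sq_nonneg _)
  have e3 : x ^ 3 = x ^ (3 : ℝ) := by exact_mod_cast (Real.rpow_natCast x 3).symm
  have T1 : ∀ s : ℝ, CK * (Cl * x ^ (-ε')) * x ^ s * (Cl * x ^ (2 - pS - ε') * Zc ^ 2) = CK * Cl ^ 2 * (x ^ (-ε' + s + (2 - pS - ε')) * Zc ^ 2) := by
    intro s
    rw [Real.rpow_add hx0, Real.rpow_add hx0]; ring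
  have T2 : 2 / x ^ a0 * x ^ (2 + c / 2) * Zg = 2 * (x ^ (2 + c / 2 - a0) * Zg) := by
    rw [Real.rpow_sub hx0]; ring
  have up : ∀ E e : ℝ, E ≤ e → x ^ e ≤ x ^ E * W := fun E e he =>
    (l8t_rle hx0 hx1 he).trans (le_mul_of_one_le_right (Real.rpow_pos_of_pos hx0 _).le hW1)
  have upZ : ∀ E e Z : ℝ, E ≤ e → 0 ≤ Z → Z ≤ W → x ^ e * Z ≤ x ^ E * W := fun E e Z he hZ0 hZ =>
    mul_le_mul (l8t_rle hx0 hx1 he) hZ hZ0 (Real.rpow_pos_of_pos hx0 _).le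
  constructor
  · set E0 : ℝ := 2 + a0 - pS - ε + k2 * ε' with hE0
    have hy1 : 1 ≤ x ^ (-ε') := Real.one_le_rpow_of_pos_of_le_one_of_nonpos hx0 hx1 (by linarith)
    have hmax : max 4 (x ^ (-ε')) ≤ 4 * x ^ (-ε') := max_le (by linarith) (by linarith)
    have hpow : (max 4 (x ^ (-ε'))) ^ k2 ≤ 4 ^ k2 * x ^ (-((k2 : ℝ) * ε')) := by
      calc (max 4 (x ^ (-ε'))) ^ k2 ≤ (4 * x ^ (-ε')) ^ k2 :=
            pow_le_pow_left₀ (le_trans (by norm_num) (le_max_left (4 : ℝ) _)) hmax _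
        _ = 4 ^ k2 * x ^ (-((k2 : ℝ) * ε')) := by
            rw [mul_pow, ← Real.rpow_natCast (x ^ (-ε')), ← Real.rpow_mul hx0.le]
            congr 2; ring
    have t1 : CK * (Cl * x ^ (-ε')) * x ^ a0 * (Cl * x ^ (2 - pS - ε') * Zc ^ 2) ≤ CK * Cl ^ 2 * (x ^ E0 * W) := by
      rw [T1]
      exact mul_le_mul_of_nonneg_left (upZ _ _ _ (by rw [hE0]; nlinarith) (by positivity) hZW) hCl2
    have t2 : x ^ (-ε') * CK * (2 / x ^ a0 * x ^ (2 + c / 2) * Zg) ≤ 2 * CK * (x ^ E0 * W) := by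
      rw [T2]
      have e : x ^ (-ε') * CK * (2 * (x ^ (2 + c / 2 - a0) * Zg)) = 2 * CK * (x ^ (-ε' + (2 + c / 2 - a0)) * Zg) := by
        rw [Real.rpow_add hx0]; ring
      rw [e]
      exact mul_le_mul_of_nonneg_left (upZ _ _ _ (by rw [hE0]; nlinarith) (by linarith) hGW) (by positivity)
    have t3 : 4 * (x ^ (-ε')) ^ 2 * x ^ 3 ≤ 4 * (x ^ E0 * W) := by
      have e : 4 * (x ^ (-ε')) ^ 2 * x ^ 3 = 4 * x ^ (-ε' * 2 + 3) := by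
        rw [Real.rpow_add hx0, Real.rpow_mul hx0.le, e3]
        norm_num
        ring
      rw [e]
      exact mul_le_mul_of_nonneg_left (up _ _ (by rw [hE0]; nlinarith)) (by norm_num)
    have hsum : CK * (Cl * x ^ (-ε')) * x ^ a0 * (Cl * x ^ (2 - pS - ε') * Zc ^ 2)
        + x ^ (-ε') * CK * (2 / x ^ a0 * x ^ (2 + c / 2) * Zg) + 4 * (x ^ (-ε')) ^ 2 * x ^ 3
        ≤ (CK * Cl ^ 2 + 2 * CK + 4) * (x ^ E0 * W) := by
      have : (CK * Cl ^ 2 + 2 * CK + 4) * (x ^ E0 * W) = CK * Cl ^ 2 * (x ^ E0 * W) + 2 * CK * (x ^ E0 * W) + 4 * (x ^ E0 * W) := by ring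
      rw [this]; linarith
    have hK0 : 0 ≤ (CK * Cl ^ 2 + 2 * CK + 4) * (x ^ E0 * W) := by positivity
    have hs0 : 0 ≤ CK * (Cl * x ^ (-ε')) * x ^ a0 * (Cl * x ^ (2 - pS - ε') * Zc ^ 2)
        + x ^ (-ε') * CK * (2 / x ^ a0 * x ^ (2 + c / 2) * Zg) + 4 * (x ^ (-ε')) ^ 2 * x ^ 3 := by
      rw [T1]
      have : 0 ≤ Zg := by linarith
      positivity
    calc _ ≤ C2 * (4 ^ k2 * x ^ (-((k2 : ℝ) * ε'))) * ((CK * Cl ^ 2 + 2 * CK + 4) * (x ^ E0 * W)) :=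
          mul_le_mul (mul_le_mul_of_nonneg_left hpow hC2) hsum hs0 (by positivity)
      _ = C2 * 4 ^ k2 * (CK * Cl ^ 2 + 2 * CK + 4) * (x ^ (-((k2 : ℝ) * ε')) * x ^ E0) * W := by ring
      _ = _ := by
          rw [← Real.rpow_add hx0]
          congr 3
          rw [hE0]; ring
  · set E0 : ℝ := 2 - pS - ε with hE0
    have t1 : CK * ((Cl * x ^ (-ε')) * (Cl * x ^ (2 - pS - ε') * Zc ^ 2)) ≤ CK * Cl ^ 2 * (x ^ E0 * W) := by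
      have e : CK * ((Cl * x ^ (-ε')) * (Cl * x ^ (2 - pS - ε') * Zc ^ 2)) = CK * Cl ^ 2 * (x ^ (-ε' + (2 - pS - ε')) * Zc ^ 2) := by
        rw [Real.rpow_add hx0]; ring
      rw [e]
      exact mul_le_mul_of_nonneg_left (upZ _ _ _ (by rw [hE0]; nlinarith) (by positivity) hZW) hCl2
    have t2 : CK * (2 / x ^ a0 * x ^ (2 + c / 2) * Zg) ≤ 2 * CK * (x ^ E0 * W) := by
      rw [T2]
      have e : CK * (2 * (x ^ (2 + c / 2 - a0) * Zg)) = 2 * CK * (x ^ (2 + c / 2 - a0) * Zg) := by ring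
      rw [e]
      exact mul_le_mul_of_nonneg_left (upZ _ _ _ (by rw [hE0]; nlinarith) (by linarith) hGW) (by positivity)
    have t3 : 4 * x ^ (-ε') * x ^ 3 ≤ 4 * (x ^ E0 * W) := by
      have e : 4 * x ^ (-ε') * x ^ 3 = 4 * x ^ (-ε' + 3) := by
        rw [Real.rpow_add hx0, e3]; ring
      rw [e]
      exact mul_le_mul_of_nonneg_left (up _ _ (by rw [hE0]; nlinarith)) (by norm_num)
    have : (CK * Cl ^ 2 + 2 * CK + 4) * x ^ E0 * W = CK * Cl ^ 2 * (x ^ E0 * W) + 2 * CK * (x ^ E0 * W) + 4 * (x ^ E0 * W) := by ring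
    rw [this, mul_add]
    linarith

/-! ### the glue -/

/-- **GLUE of `Exit/D15`** -/
theorem l8t_d15 {𝔹 : LlBase} {T : ℝ} (hcovA : L8_HI_COV) (hlongA : L8_HI_LONG) (hb : L8tBasic 𝔹 T) (hc : L8tCov 𝔹 T) (hl : L8tLong 𝔹 T) :
    L8xD15 𝔹 T := by
  intro F0 hF pB c hpB hc0
  obtain ⟨κ, tA, hκ, htA, hc⟩ := hc F0 hF pB hpB
  obtain ⟨t0, ht0, hl⟩ := hl F0 hF pB c hpB hc0
  have hδ : 0 < llDStar := by unfold llDStar; norm_num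
  have hκ0 : 0 < κ := by linarith
  refine ⟨κ + 2, min t0 (min (llDStar / 4) (1 / 2)), by linarith, by positivity, ?_⟩
  intro a0 ha0 ha0'
  have ha0a : a0 ≤ t0 := ha0'.trans (min_le_left _ _)
  have ha0b : a0 ≤ llDStar / 4 := ha0'.trans ((min_le_right _ _).trans (min_le_left _ _))
  have ha0c : a0 ≤ 1 / 2 := ha0'.trans ((min_le_right _ _).trans (min_le_right _ _))
  obtain ⟨tA1, htA1, hl⟩ := hl a0 ha0 ha0a
  refine ⟨a0 / 4, by positivity, ?_⟩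
  intro bH _ hbH'
  refine ⟨min tA (min tA1 (min (a0 / 16) (min (llDStar / (8 * κ)) (1 / (2 * (κ + 2)))))), by positivity, ?_⟩
  intro a1 ha1 ha1'
  have ha1a : a1 ≤ tA := ha1'.trans (min_le_left _ _)
  have ha1b : a1 ≤ tA1 := ha1'.trans ((min_le_right _ _).trans (min_le_left _ _))
  have ha1c : a1 ≤ a0 / 16 := ha1'.trans ((min_le_right _ _).trans ((min_le_right _ _).trans (min_le_left _ _)))
  have ha1d : a1 ≤ llDStar / (8 * κ) :=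
    ha1'.trans ((min_le_right _ _).trans ((min_le_right _ _).trans ((min_le_right _ _).trans (min_le_left _ _))))
  have ha1e : a1 ≤ 1 / (2 * (κ + 2)) :=
    ha1'.trans ((min_le_right _ _).trans ((min_le_right _ _).trans ((min_le_right _ _).trans (min_le_right _ _))))
  obtain ⟨tp1, htp1, htp1', hc1⟩ := hc a1 ha1 ha1a
  obtain ⟨tpl, htpl, _, hl⟩ := hl a1 ha1 ha1b
  refine ⟨min tA (llDStar / (8 * κ)), by positivity, ?_⟩
  intro a2 ha2 ha2'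
  have ha2a : a2 ≤ tA := ha2'.trans (min_le_left _ _)
  have ha2d : a2 ≤ llDStar / (8 * κ) := ha2'.trans (min_le_right _ _)
  obtain ⟨tp2, htp2, _, hc2⟩ := hc a2 ha2 ha2a
  refine ⟨min tp1 (min tp2 (min tpl (min (a1 / (2 * κ)) (min (a2 / (2 * κ)) (a0 / 16))))), by positivity, ?_⟩
  intro pS hpS hpS'
  have hp1 : pS ≤ tp1 := hpS'.trans (min_le_left _ _)
  have hp2 : pS ≤ tp2 := hpS'.trans ((min_le_right _ _).trans (min_le_left _ _))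
  have hp3 : pS ≤ tpl := hpS'.trans ((min_le_right _ _).trans ((min_le_right _ _).trans (min_le_left _ _)))
  have hp4 : pS ≤ a1 / (2 * κ) :=
    hpS'.trans ((min_le_right _ _).trans ((min_le_right _ _).trans ((min_le_right _ _).trans (min_le_left _ _))))
  have hp5 : pS ≤ a2 / (2 * κ) :=
    hpS'.trans ((min_le_right _ _).trans ((min_le_right _ _).trans ((min_le_right _ _).trans ((min_le_right _ _).trans (min_le_left _ _)))))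
  have hp6 : pS ≤ a0 / 16 :=
    hpS'.trans ((min_le_right _ _).trans ((min_le_right _ _).trans ((min_le_right _ _).trans ((min_le_right _ _).trans (min_le_right _ _)))))
  obtain ⟨bb1, CQ1, CA1, C1, N1, hC1, E1⟩ := hc1 pS hpS hp1 (a1 / 2) (by positivity)
  obtain ⟨bb2, CQ2, CA2, C2, N2, hC2, E2⟩ := hc2 pS hpS hp2 (a2 / 2) (by positivity)
  obtain ⟨bb3, CQ3, CA3, Cd, CB, C3, cg, N3, hC3, hcg, E3⟩ := hl pS hpS hp3 (a0 / 8) (by positivity)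
  obtain ⟨Nb, Eb⟩ := hb F0 hF pB pS hpS (hp1.trans htp1')
  obtain ⟨Kc1, hKc1, P1⟩ := hcovA l8tK 4 bb1 CQ1 CA1
  obtain ⟨Kc2, hKc2, P2⟩ := hcovA l8tK 4 bb2 CQ2 CA2
  obtain ⟨Kl, hKl, P3⟩ := hlongA l8tK 4 bb3 CQ3 CA3 Cd CB
  obtain ⟨M1, hM1, L1⟩ := l8t_large (2 * Kc1 * C1 + 2 * Kc1 * C1 ^ 2 + Real.sqrt (2 * Kc1 * C1 * (3 + C1))) (a1 / 2) (by positivity)
  obtain ⟨M2, _, L2⟩ := l8t_large (2 * Kc2 * C2 + 2 * Kc2 * C2 ^ 2 + Real.sqrt (2 * Kc2 * C2 * (3 + C2))) (a2 / 2) (by positivity)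
  obtain ⟨M3, _, L3⟩ := l8t_large (2 * Kl / cg + 2 * (C3 ^ 2 + Kl * (4 * C3 + 3)) / cg) (a0 / 8) (by positivity)
  refine ⟨max (max (max N1 N2) (max N3 Nb)) (max M1 (max M2 M3)), ?_⟩
  refine l8t_ev_mono ((E1.and E2).and (E3.and Eb)) (le_max_left _ _) ?_
  rintro I - hN - ⟨⟨⟨hZ, h1⟩, ⟨-, h2⟩⟩, ⟨h3, ⟨hdict, hthr⟩⟩⟩
  have hN1 : M1 ≤ I.p.N := le_trans ((le_max_left _ _).trans (le_max_right _ _)) hN
  have hN2 : M2 ≤ I.p.N := le_trans (((le_max_left _ _).trans (le_max_right _ _)).trans (le_max_right _ _)) hN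
  have hN3 : M3 ≤ I.p.N := le_trans (((le_max_right _ _).trans (le_max_right _ _)).trans (le_max_right _ _)) hN
  have hN0 : 1 ≤ I.p.N := hM1.trans hN1
  have q1 : 2 * κ * pS ≤ a1 := by rw [le_div_iff₀ (by positivity)] at hp4; linarith
  have q2 : 2 * κ * pS ≤ a2 := by rw [le_div_iff₀ (by positivity)] at hp5; linarith
  have q3 : 8 * κ * a1 ≤ llDStar := by rw [le_div_iff₀ (by positivity)] at ha1d; linarith
  have q4 : 8 * κ * a2 ≤ llDStar := by rw [le_div_iff₀ (by positivity)] at ha2d; linarith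
  have q5 : (κ + 2) * a1 ≤ 1 / 2 := by
    rw [le_div_iff₀ (by positivity)] at ha1e; linarith
  have D1 := l8t_inst_cov I hN0 hKc1 P1 hC1 hκ ha1 hpS q1 q3 (L1 _ hN1) hZ (hthr _) h1
  have D2 := l8t_inst_cov I hN0 hKc2 P2 hC2 hκ ha2 hpS q2 q4 (L2 _ hN2) hZ (hthr _) h2
  have hsq : ∀ (ai : ℝ) (k : ℕ), k ≤ I.n → (I.X false).Dd k ≤ I.x ^ (3 - (κ + 2) * ai) * I.Zc llDStar ^ 2 →
      I.D2 k ≤ (I.x ^ (3 - (κ + 2) * ai) * I.Zc llDStar ^ 2) ^ 2 := by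
    intro ai k hk hD
    rw [← (hdict k hk).2]
    by_cases h0 : 0 ≤ (I.X false).D2 k
    · have e : (I.X false).Dd k ^ 2 = (I.X false).D2 k := Real.sq_sqrt h0
      rw [← e]
      exact pow_le_pow_left₀ (Real.sqrt_nonneg _) hD 2
    · push Not at h0
      exact h0.le.trans (sq_nonneg _)
  refine ⟨?_, fun k hk hv => hsq a1 k hk (D1 k hk hv), fun k hk hv => hsq a2 k hk (D2 k hk hv)⟩
  exact l8t_inst_long I (CH := κ + 2) hN0 hKl P3 hC3 hcg ha0 (by linarith) ha0c ha1 (by linarith) q5 (by linarith) hpS (by linarith)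
    (L3 _ hN3) hZ (hthr _) (fun k hk => (hdict k hk).1) D1 h3

end Claimed.Agent.R286
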