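import Claimed.Agent.R286.L08.LsFit
import Claimed.Agent.R286.L08.HiTop

/-!
# Row 286 (S0533), folder L08, file LsFull : (D16), first conclusion: FROM `I.Full` (exports of `Exit/DLow`) TO THE EXIT FORM `L8xD16`      (architect helper59; head of the unit helper234; prefix `l8lq_` / `L8lq`)

TEX[LL:lem:statistics-low-sources].   Ruling of 234 (05:25Z): (b) the ONE-INSTANCE glue `L8lfB (I.sp false) S R  ⟹  L8_LS1 (I.X false) ..` = `L08/LsFin.lean` (234 / 225), cited here through the CONTRACT `L8LsInst`;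
(c) THIS FILE + `Exit/D16.lean`:

    exit_dlow (I.All e (C x^-θ) Yc 1 v0 v1 ..)  --(sec. 2: l8lq_B_of_full)-->  L8lfB (I.sp false) S R  --(L8LsInst)-->  L8_LS1 (I.X false) ti eb vv (2+2n) n (K cF (M + √η)) (K η)
        --(sec. 3: numbers)-->  L8_LS1 .. (C x^(3-ε-κ p_*) Zc²) (x^7)      --(sec. 4: L8Ev glue, `l8g_fine` for `LlStpAdm`)-->  `L8xD16` = the consumer form of helper51 (field `ls`, `ph_low`, parity coefficient of `L8tCov`).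

* sec. 1  small dictionary `I.sp false` ↔ `I` (`n, v, dv, a, S, D2, int`), scales `I.l8lqS : L13Scales`;
* sec. 2  `l8lq_B_of_full`, field by field;
* sec. 3  ONE instance: `L8lqNum` (numerical conditions), `l8lq_one`;  numbers: `l8lq_nb_le` (number of dyads `≲ x^-θ`), `l8lq_num_ok`, `l8lq_num_gain`;
* sec. 4  glue `l8lq_d16`.
CHOICES.   `θ = min(ε, a_i, δ_*)/40`;  source loss `A = C0 x^-θ`, `A1 = max(|C0|,1) x^-θ`, truncation `A' = (Cb + 2) A1 x^-θ`, `eb = min 1 (A' |e|)`, `vv = v / a`, `η = x^8`, `pm ≥ max(l8tK, 4/θ)`, `jm = 1`, `κ = s_* + 1 + η`.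
STATE 06:05Z: the file has NO open leaf (NUM1-NUM3 proved);   the only open input of `exit_d16` besides `exit_dlow`, `l8g_fine` is the contract `L8LsInst` (`l8lq_inst` in `Exit/D16.lean`).
-/

set_option autoImplicit false

namespace Claimed.Agent.R286

open MeasureTheory Finset

/-! ## 1. Dictionary -/

namespace L8In

variable (I : L8In)

theorem l8lq_n : (I.sp false).n = I.n := by
  show (llMat I.LP).length = I.LP.length
  simp [llMat]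

theorem l8lq_v (k : ℕ) : (I.sp false).v k = I.v k := rfl

theorem l8lq_dv (k : ℕ) : (I.sp false).dv k = I.dv k := rfl

theorem l8lq_a : (I.sp false).a = I.a := rfl

theorem l8lq_m_pos (hI : I.Ok) : 1 ≤ I.m := by
  have h1 := hI.pt.N2
  have h2 := hI.m_lo
  omega

theorem l8lq_a_eq (hs : l8Siz I.p) : I.a = 4 := by
  show (if I.p.sm then (4 : ℝ) else I.p.ell) = 4
  rw [hs.1]; rfl

theorem l8lq_x_pos (hI : I.Ok) : 0 < I.x ∧ I.x ≤ 1 := by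
  have h1 := hI.pt.N2
  have h2 : (1 : ℝ) ≤ (I.p.N : ℝ) := by exact_mod_cast (by omega : 1 ≤ I.p.N)
  constructor
  · exact Real.rpow_pos_of_pos (by linarith) _
  · exact Real.rpow_le_one_of_one_le_of_nonpos h2 (by norm_num)

theorem l8lq_ok (hI : I.Ok) (hs : l8Siz I.p) (hadm : LlStpAdm I.a I.LP) : (I.sp false).Ok :=
  l8i_ok I.m (I.l8lq_m_pos hI) I.a (by rw [I.l8lq_a_eq hs]; norm_num) I.P0 hadm.1

theorem l8lq_S (hs : l8Siz I.p) (hadm : LlStpAdm I.a I.LP) {k : ℕ} (hk : k ≤ I.n) : (I.sp false).S k = I.S k :=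
  l8i_S I.m I.a (by rw [I.l8lq_a_eq hs]; norm_num) I.P0 hadm.1 k (by rw [← I.l8lq_n] at hk; exact hk)

theorem l8lq_D2 (hs : l8Siz I.p) (hadm : LlStpAdm I.a I.LP) {k : ℕ} (hk : k ≤ I.n) : (I.sp false).D2 k = I.D2 k := by
  have hk' : k ≤ I.P0.length := by rw [← I.l8lq_n] at hk; exact hk
  show (I.sp false).B k - (I.sp false).S k ^ 2 = obB I.m I.a I.P0 0 k - obS I.m I.a I.P0 0 k ^ 2
  rw [I.l8lq_S hs hadm hk]
  have := l8i_B I.m I.a (by rw [I.l8lq_a_eq hs]; norm_num) I.P0 hadm.1 k hk'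
  rw [show (I.sp false).B k = obB I.m I.a I.P0 0 k from this]
  rfl

/-- mass integrals -/
theorem l8lq_int (lo hi : ℝ) (g : ℕ → ℝ) : I.int lo hi g = ∑ k ∈ (I.sp false).l8lfI lo hi, (I.sp false).dv k * g k := by
  unfold L8In.int L8P.l8lfI
  rw [I.l8lq_n]
  rfl

/-- the scales of the instance on a size path (capped majorant) -/
noncomputable def l8lqS (hx : 0 < I.x) (hl : 0 < I.lam) (hZ : 1 ≤ I.Zc llDStar) : L13Scales :=
  ⟨I.x, I.lam, I.Zc llDStar, I.F.sS, I.F.eta, hx, hl, hZ⟩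

theorem l8lq_S_U {hx : 0 < I.x} {hl : 0 < I.lam} {hZ : 1 ≤ I.Zc llDStar} (hU : I.x * I.lam ^ (-(I.F.sS / 2)) ≤ 1) :
    (I.l8lqS hx hl hZ).U = I.U := by
  show I.x * I.lam ^ (-I.F.sS / 2) = min 1 (I.x * I.lam ^ (-(I.F.sS / 2)))
  rw [min_eq_right hU, neg_div]

theorem l8lq_S_Y {hx : 0 < I.x} {hl : 0 < I.lam} {hZ : 1 ≤ I.Zc llDStar} (hU : I.x * I.lam ^ (-(I.F.sS / 2)) ≤ 1) :
    (I.l8lqS hx hl hZ).Y = I.Yc llDStar := by
  show (I.l8lqS hx hl hZ).U * I.Zc llDStar = I.U * I.Zc llDStar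
  rw [I.l8lq_S_U hU]

theorem l8lq_S_z0 {hx : 0 < I.x} {hl : 0 < I.lam} {hZ : 1 ≤ I.Zc llDStar} (r : ℝ) : (I.l8lqS hx hl hZ).z0 r = I.z0 r := rfl

end L8In

theorem l8lq_eqns_cite : True := by
  have := @L8In.l8lqS.eq_1
  trivial

/-! ## 2. `I.Full ⟹ L8lfB` -/

/-- an even power is monotone in the absolute value -/
theorem l8lq_pow_le {A A1 e : ℝ} (hA : |A| ≤ A1) (he : 0 ≤ e) (r : ℕ) : (A * e) ^ (2 * r) ≤ (A1 * e) ^ (2 * r) := by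
  rw [← (even_two_mul r).pow_abs, abs_mul, abs_of_nonneg he]
  exact pow_le_pow_left₀ (mul_nonneg (abs_nonneg _) he) (mul_le_mul_of_nonneg_right hA he) _

/-- a linear bound is monotone in the loss -/
theorem l8lq_lin_le {A A1 c : ℝ} (hA : |A| ≤ A1) (hc : 0 ≤ c) : A * c ≤ A1 * c :=
  mul_le_mul_of_nonneg_right ((le_abs_self A).trans hA) hc

/-- **the band form from the exports of `Exit/DLow`**, field by field -/
theorem l8lq_B_of_full (I : L8In) (hI : I.Ok) (hs : l8Siz I.p) (hadm : LlStpAdm I.a I.LP) {e : ℕ → ℝ} {A v0 v1 cE : ℝ} {pm jm : ℕ}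
    (hF : I.Full e A (I.Yc llDStar) 1 v0 v1 cE pm jm) (hx : 0 < I.x) (hl : 0 < I.lam) (hZ : 1 ≤ I.Zc llDStar)
    (hU : I.x * I.lam ^ (-(I.F.sS / 2)) ≤ 1) (hl1 : I.lam ≤ 1) (hs0 : 0 ≤ I.F.sS) (he0 : 0 ≤ I.F.eta)
    {A1 A' eta : ℝ} {dmax ti : ℕ} (hA : |A| ≤ A1) (hA1 : 1 ≤ A1) (hA' : 2 * A1 ≤ A') (hjm : 1 ≤ jm)
    (hY : I.Yc llDStar ≤ min 1 v0) (hti : ti ≤ I.n + 1) (hlv : ∀ l < ti, I.v l ≤ min 1 v0) (hle : ∀ l < ti, A' * e l ≤ 1)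
    (htail : (2 * A1 / A') ^ (2 * pm) ≤ eta) (hd1 : 1 ≤ dmax) (hd2 : dmax ≤ pm) :
    L8lfB (I.sp false) (I.l8lqS hx hl hZ) ⟨e, I.q, A1, A', min 1 v0, eta, 7 / 3, pm, dmax, ti⟩ := by
  have hSY : (I.l8lqS hx hl hZ).Y = I.Yc llDStar := I.l8lq_S_Y hU
  have hSU : (I.l8lqS hx hl hZ).U = I.U := I.l8lq_S_U hU
  have ha : I.a = 4 := I.l8lq_a_eq hs
  have hn : (I.sp false).n = I.n := I.l8lq_n
  have hYpos : 0 < I.Yc llDStar := hSY ▸ (I.l8lqS hx hl hZ).Y_pos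
  have hepos : ∀ k ≤ I.n, 0 < e k := fun k hk => lt_of_lt_of_le (Real.rpow_pos_of_pos hx _) (hF.env.lo k hk)
  have hact : ∀ k, k ≤ I.n → I.act false k := fun k hk => ⟨hk, fun h => by simp at h⟩
  have hvt : ∀ {r : ℝ}, r ≤ min 1 v0 → r ≤ v0 := fun h => h.trans (min_le_right _ _)
  have hz0 : ∀ {r : ℝ}, 0 < r → 0 ≤ I.z0 r := fun hr =>
    div_nonneg (pow_nonneg hx.le _) (mul_nonneg (Real.sqrt_nonneg _) (pow_nonneg hr.le _))
  refine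
    { hS := ⟨hl1, hs0, he0, by rw [hSY]; exact hY.trans (min_le_left _ _)⟩
      hA := hA1
      hA' := hA'
      a_ge := by show (1 : ℝ) ≤ I.a; rw [ha]; norm_num
      a_le := by show I.a ≤ 4; rw [ha]
      vt_le := min_le_left _ _
      Y_le := by rw [hSY]; exact hY
      ti_le := by rw [hn]; exact hti
      low_v := hlv
      low_e := hle
      tail := htail
      d_pos := hd1
      d_le := hd2
      cP_nonneg := by norm_num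
      pin := ?_
      e_pos := fun k hk => hepos k (hn ▸ hk)
      e_low := fun k hk hv => by rw [hSY] at hv ⊢; exact hF.env.low k (hn ▸ hk) hv
      bud := ?_
      f_le := ?_
      ref_X := ?_
      ref_L := ?_
      ref_Q := ?_
      d7_W0 := ?_
      d7_W1 := ?_
      d7_C := ?_
      d9 := ?_ }
  · have h := l8i_pin I.m (I.l8lq_m_pos hI) I.a (by rw [ha]; norm_num) I.P0 hadm.1 1 le_rfl
    have e1 : ((1 + (2 * ((1 : ℕ) : ℝ)) ^ 2 / 3) ^ 1 : ℝ) = 7 / 3 := by norm_num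
    rw [e1] at h
    exact h
  · intro r h1 h2
    rw [hSY] at h1 ⊢
    have hr : 0 < r := lt_of_lt_of_le hYpos h1
    have h := hF.env.bud r h1 (hvt h2)
    unfold L8In.band at h
    rw [I.l8lq_int] at h
    refine h.trans ?_
    rw [mul_assoc, mul_assoc]
    exact l8lq_lin_le hA (by positivity)
  · intro k hk hv
    have hk' : k ≤ I.n := hn ▸ hk
    rw [I.l8lq_S hs hadm hk']
    exact (hF.env.f_le k hk' (hvt hv)).trans (l8lq_lin_le hA (hepos k hk').le)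
  · intro r h1 h2 k hk hv
    have hk' : k ≤ I.n := hn ▸ hk
    exact (hF.unt.ref_X r h1 h2 k (hact k hk') (hvt hv)).trans (l8lq_pow_le hA (hepos k hk').le r)
  · intro r h1 h2 k hk hv
    have hk' : k ≤ I.n := hn ▸ hk
    exact (hF.unt.ref_L r h1 h2 k (hact k hk') (hvt hv)).trans (l8lq_pow_le hA (hepos k hk').le r)
  · intro r h1 h2 k hk hv k₁ k₂ hk1 hk2
    have hk' : k ≤ I.n := hn ▸ hk
    exact (hF.unt.ref_Q r h1 h2 k (hact k hk') (hvt hv) k₁ k₂ hk1 hk2).trans (l8lq_pow_le hA (hepos k hk').le r)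
  · intro r h1 h2
    rw [hSY] at h1
    have hr : 0 < r := lt_of_lt_of_le hYpos h1
    have h := hF.unt.d7_W r h1 (hvt h2) 0 (Nat.zero_le _)
    unfold L8In.band at h
    rw [I.l8lq_int] at h
    simp only [mul_zero, pow_zero, mul_one, if_true, one_pow] at h
    refine h.trans ?_
    rw [mul_assoc, mul_assoc]
    exact l8lq_lin_le hA (by have := hz0 hr; positivity)
  · intro r h1 h2
    rw [hSY] at h1 ⊢
    have hr : 0 < r := lt_of_lt_of_le hYpos h1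
    have h := hF.unt.d7_W r h1 (hvt h2) 1 hjm
    unfold L8In.band at h
    rw [I.l8lq_int] at h
    simp only [mul_one, one_ne_zero, if_false, one_pow, Nat.sub_self, pow_zero] at h
    refine h.trans ?_
    have e1 : ∀ a : ℝ, a * r * (I.z0 r ^ 2 * r ^ 3 * (I.Yc llDStar ^ 2 / r) ^ 2)
        = a * (r * (I.z0 r ^ 2 * r ^ 3 * (I.Yc llDStar ^ 2 / r) ^ 2)) := fun a => by ring
    show A * r * (I.z0 r ^ 2 * r ^ 3 * (I.Yc llDStar ^ 2 / r) ^ 2) ≤ A1 * r * (I.z0 r ^ 2 * r ^ 3 * (I.Yc llDStar ^ 2 / r) ^ 2)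
    rw [e1, e1]
    exact l8lq_lin_le hA (by have := hz0 hr; positivity)
  · intro r h1 h2
    rw [hSY] at h1
    have hr : 0 < r := lt_of_lt_of_le hYpos h1
    have h := hF.unt.d7_C r h1 (hvt h2)
    unfold L8In.band at h
    rw [I.l8lq_int] at h
    simp only [one_pow, mul_one] at h
    refine h.trans ?_
    rw [mul_assoc, mul_assoc]
    exact l8lq_lin_le hA (by have := hz0 hr; positivity)
  · intro w h1 h2
    rw [hSY] at h2 ⊢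
    rw [hSU]
    have h := hF.num.d9 w h1 h2
    rw [I.l8lq_int] at h
    have e1 : ∑ k ∈ (I.sp false).l8lfI (max w I.x) (2 * w), (I.sp false).dv k * (I.sp false).D2 k
        = ∑ k ∈ (I.sp false).l8lfI (max w I.x) (2 * w), (I.sp false).dv k * I.D2 k := by
      refine Finset.sum_congr rfl fun k hk => ?_
      have hk' : k ≤ I.n := by
        have := Finset.mem_range.1 (Finset.mem_filter.1 hk).1
        rw [hn] at this
        omega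
      rw [I.l8lq_D2 hs hadm hk']
    show ∑ k ∈ (I.sp false).l8lfI (max w I.x) (2 * w), (I.sp false).dv k * (I.sp false).D2 k ≤ _
    rw [e1]
    refine h.trans ?_
    rw [mul_assoc, mul_assoc]
    refine l8lq_lin_le hA ?_
    exact mul_nonneg hYpos.le (div_nonneg (mul_nonneg (pow_nonneg hx.le _) (Real.sqrt_nonneg _))
      (mul_nonneg (Real.sqrt_nonneg _) (Real.rpow_nonneg (le_max_of_le_left h1.le) _)))

/-! ## 3. One instance -/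

/-- **CONTRACT of the one-instance glue** (`L08/LsFin.lean`, 234 / 225): `l8l_link` + `l8l_abs` + `l8l_ch` (`abar = A0 = 4`) + `l8li_rep` + `l8lc_in_ok` + `l8lf_D_ok` + `l8lf_gain` + the pair dictionary.
`K = K_link nch Cch 4^(2 + k)` depends on `(n, k)` only. -/
def L8LsInst : Prop :=
  ∀ n k : ℕ, ∃ K : ℝ, 0 ≤ K ∧ ∀ (I : L8In) (S : L13Scales) (R : L8lfR), I.Ok → l8Siz I.p → LlStpAdm I.a I.LP → L8lfB (I.sp false) S R → n ≤ R.dmax →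
    L8_LS1 (I.X false) R.ti (fun l => min 1 (R.A' * |R.e l|)) (fun l => I.v l / I.a) k n
      (K * (l8lfC R.dmax R.cP * (l8lcM S (l8lfLo S R) (l8lfCs S) (l8lfNb S.Y R.vt) + √R.eta))) (K * R.eta)

/-- (D16) is monotone in its two numbers -/
theorem l8lq_ls1_mono {S : Type} {X : JtCtx S} {ti : ℕ} {eb vv : ℕ → ℝ} {k n : ℕ} {Lam eta Lam' eta' : ℝ}
    (h : L8_LS1 X ti eb vv k n Lam eta) (h1 : Lam ≤ Lam') (h2 : eta ≤ eta') : L8_LS1 X ti eb vv k n Lam' eta' := by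
  intro t0 h3 h4 Sto Det c d w h5 h6 h7 h8 h9 h10 h11
  have h12 := h t0 h3 h4 Sto Det c d w h5 h6 h7 h8 h9 h10 h11
  have h13 : Lam * X.Dd t0 ≤ Lam' * X.Dd t0 := mul_le_mul_of_nonneg_right h1 (Real.sqrt_nonneg _)
  linarith

/-- the numerical conditions of the fit at one instance: `A1` loss of the source, `A'` loss of the truncation envelope, `v0` top of the refined region, `x^ai` threshold, `Cb` bound of the matrix clock, `eta` tail -/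
structure L8lqNum (I : L8In) (A1 A' v0 ai Cb eta : ℝ) (pm : ℕ) : Prop where
  hl : 0 < I.lam
  hl1 : I.lam ≤ 1
  hU : I.x * I.lam ^ (-(I.F.sS / 2)) ≤ 1
  hs0 : 0 ≤ I.F.sS
  he0 : 0 ≤ I.F.eta
  hA1 : 1 ≤ A1
  hA' : (Cb + 2) * A1 ≤ A'
  hY : I.x ^ (llDStar / 3) ≤ min 1 v0
  hV : I.x ^ ai ≤ min 1 v0
  hlY : A' * I.x ^ (llDStar / 3) ≤ 1
  hlV : A' * (A1 * I.x ^ ai) ≤ 1
  htail : (2 * A1 / A') ^ (2 * pm) ≤ eta

/-- the gain of (D16) at one instance, before the choice of the numbers -/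
noncomputable def L8In.l8lqG (I : L8In) (A1 A' v0 eta : ℝ) (d : ℕ) : ℝ :=
  l8lfC d (7 / 3) * ((4 * A' ^ 2 * A1 * (l8lfNb I.x (I.Yc llDStar) + 1)) ^ 3 * (2 + l8lfNb (I.Yc llDStar) (min 1 v0)) ^ 2
    * (I.x ^ 3 * I.lam ^ (-(I.F.sS + (1 + I.F.eta))) * I.Zc llDStar ^ 2) + √eta)

theorem l8lq_eqns_cite2 : True := by
  have := @L8LsInst.eq_1
  have := @L8In.l8lqG.eq_1
  trivial

/-- the capped low scale is `≤ x^(δ_*/3)` -/
theorem l8lq_Yc_le (I : L8In) (hU : 0 < I.U) : I.Yc llDStar ≤ I.x ^ (llDStar / 3) := by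
  unfold L8In.Yc L8In.Zc
  calc I.U * min I.Z (I.x ^ (llDStar / 3) / I.U) ≤ I.U * (I.x ^ (llDStar / 3) / I.U) :=
        mul_le_mul_of_nonneg_left (min_le_right _ _) hU.le
    _ = I.x ^ (llDStar / 3) := by field_simp

/-- **(D16), first conclusion, at ONE instance**: envelope, sole coefficient, `ph_low`, and `L8_LS1` for all the degrees `n < d`, numbers not yet chosen -/
theorem l8lq_one {d : ℕ} (hd : 1 ≤ d) {Kf : ℕ → ℝ}
    (hK : ∀ n, ∀ (I : L8In) (S : L13Scales) (R : L8lfR), I.Ok → l8Siz I.p → LlStpAdm I.a I.LP → L8lfB (I.sp false) S R → n ≤ R.dmax →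
      L8_LS1 (I.X false) R.ti (fun l => min 1 (R.A' * |R.e l|)) (fun l => I.v l / I.a) (2 + 2 * n) n
        (Kf n * (l8lfC R.dmax R.cP * (l8lcM S (l8lfLo S R) (l8lfCs S) (l8lfNb S.Y R.vt) + √R.eta))) (Kf n * R.eta))
    (I : L8In) (hI : I.Ok) (hs : l8Siz I.p) (hadm : LlStpAdm I.a I.LP) (hZ : 1 ≤ I.Zc llDStar)
    {e : ℕ → ℝ} {A v0 v1 cE : ℝ} {pm jm : ℕ} (hF : I.Full e A (I.Yc llDStar) 1 v0 v1 cE pm jm)
    {A1 A' ai Cb eta : ℝ} (hA : |A| ≤ A1) (hCb : 0 ≤ Cb) (hN : L8lqNum I A1 A' v0 ai Cb eta pm) (hjm : 1 ≤ jm) (hdp : d ≤ pm)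
    (ti : ℕ) (hti : I.Thr (I.x ^ ai) ti) :
    ∃ eb vv : ℕ → ℝ, (∀ t, 0 ≤ eb t) ∧ (∀ t, eb t ≤ 1) ∧ (∀ t, 0 ≤ vv t) ∧ (∀ t, t < ti → I.v t ≤ 4 * vv t) ∧
      (∀ t, t < ti → Cb * |I.f t| + |I.d t| ≤ eb t) ∧
      ∀ n, 1 ≤ n → n < d → L8_LS1 (I.X false) ti eb vv (2 + 2 * n) n (Kf n * I.l8lqG A1 A' v0 eta d) (Kf n * eta) := by
  obtain ⟨hx, hx1⟩ := I.l8lq_x_pos hI
  have hP := I.l8lq_ok hI hs hadm
  have ha : I.a = 4 := I.l8lq_a_eq hs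
  have hUpos : 0 < I.U := lt_min one_pos (mul_pos hx (Real.rpow_pos_of_pos hN.hl _))
  have hYc := l8lq_Yc_le I hUpos
  have hYpos : 0 < I.Yc llDStar := mul_pos hUpos (lt_of_lt_of_le one_pos hZ)
  have hA1 := hN.hA1
  have hA'2 : 2 * A1 ≤ A' := by nlinarith [hN.hA']
  have hA'0 : 0 < A' := by linarith
  have hvn : I.v I.n = I.a := hP.v_term I.n (le_of_eq I.l8lq_n)
  have hxa : I.x ^ ai ≤ 1 := hN.hV.trans (min_le_left _ _)
  have htin : ti ≤ I.n := (hti I.n le_rfl).2 (by rw [hvn, ha]; linarith)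
  have hlow : ∀ l, l < ti → l ≤ I.n ∧ I.v l < I.x ^ ai := by
    intro l hl
    have hl' : l ≤ I.n := by omega
    refine ⟨hl', ?_⟩
    by_contra hc
    have := (hti l hl').2 (not_lt.1 hc)
    omega
  have hv0 : ∀ l, 0 ≤ I.v l := hP.v_nonneg
  have hlv : ∀ l < ti, I.v l ≤ min 1 v0 := fun l hl => (hlow l hl).2.le.trans hN.hV
  have hepos : ∀ k ≤ I.n, 0 < e k := fun k hk => lt_of_lt_of_le (Real.rpow_pos_of_pos hx _) (hF.env.lo k hk)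
  have hle : ∀ l < ti, A' * e l ≤ 1 := by
    intro l hl
    obtain ⟨hl', hv⟩ := hlow l hl
    by_cases hc : I.v l ≤ I.Yc llDStar
    · rw [hF.env.low l hl' hc]
      exact (mul_le_mul_of_nonneg_left hYc hA'0.le).trans hN.hlY
    · have h1 := hF.env.hi l hl' (not_le.1 hc).le
      have h2 : A * I.v l ≤ A1 * I.x ^ ai :=
        (l8lq_lin_le hA (hv0 l)).trans (mul_le_mul_of_nonneg_left hv.le (by linarith))
      exact (mul_le_mul_of_nonneg_left (h1.trans h2) hA'0.le).trans hN.hlV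
  have B := l8lq_B_of_full I hI hs hadm hF hx hN.hl hZ hN.hU hN.hl1 hN.hs0 hN.he0 hA hA1 hA'2 hjm (hYc.trans hN.hY)
    (by omega : ti ≤ I.n + 1) hlv hle hN.htail hd hdp
  refine ⟨fun l => min 1 (A' * |e l|), fun l => I.v l / I.a, fun t => l8lf_eb_nonneg B t, fun t => min_le_left _ _,
    fun t => div_nonneg (hv0 t) (by rw [ha]; norm_num), fun t _ => by rw [ha]; linarith, ?_, ?_⟩
  · intro t ht
    obtain ⟨ht', hv⟩ := hlow t ht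
    have heb : min 1 (A' * |e t|) = A' * e t := l8lf_eb_low B ht
    show _ ≤ min 1 (A' * |e t|)
    rw [heb]
    have he := (hepos t ht').le
    have hvt : I.v t ≤ v0 := (hlv t ht).trans (min_le_right _ _)
    have h1 : |I.f t| ≤ A1 * e t := (hF.env.f_le t ht' hvt).trans (l8lq_lin_le hA he)
    have hmax : max (I.v t) (I.Yc llDStar) ≤ 1 :=
      max_le ((hlv t ht).trans (min_le_left _ _)) ((hYc.trans hN.hY).trans (min_le_left _ _))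
    have hmax0 : 0 ≤ max (I.v t) (I.Yc llDStar) := le_max_of_le_left (hv0 t)
    have hc1 : I.lam * max (I.v t) (I.Yc llDStar) ^ 2 ≤ 1 :=
      mul_le_one₀ hN.hl1 (sq_nonneg _) (pow_le_one₀ hmax0 hmax)
    have h2 : |I.d t| ≤ A1 * e t := by
      have h3 := hF.env.d_le t ht' hvt
      have h4 : A * I.lam * max (I.v t) (I.Yc llDStar) ^ 2 * e t ≤ A1 * (I.lam * max (I.v t) (I.Yc llDStar) ^ 2 * e t) := by
        have := l8lq_lin_le hA (c := I.lam * max (I.v t) (I.Yc llDStar) ^ 2 * e t)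
          (mul_nonneg (mul_nonneg hN.hl.le (sq_nonneg _)) he)
        calc A * I.lam * max (I.v t) (I.Yc llDStar) ^ 2 * e t = A * (I.lam * max (I.v t) (I.Yc llDStar) ^ 2 * e t) := by ring
          _ ≤ _ := this
      have h5 : I.lam * max (I.v t) (I.Yc llDStar) ^ 2 * e t ≤ e t := by
        calc I.lam * max (I.v t) (I.Yc llDStar) ^ 2 * e t ≤ 1 * e t := mul_le_mul_of_nonneg_right hc1 he
          _ = e t := one_mul _
      have h6 : A1 * (I.lam * max (I.v t) (I.Yc llDStar) ^ 2 * e t) ≤ A1 * e t := mul_le_mul_of_nonneg_left h5 (by linarith)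
      have h7 := abs_nonneg (I.dd t)
      linarith
    have h8 : Cb * |I.f t| ≤ Cb * (A1 * e t) := mul_le_mul_of_nonneg_left h1 hCb
    have h9 : (Cb + 2) * A1 * e t ≤ A' * e t := mul_le_mul_of_nonneg_right hN.hA' he
    have h10 : 0 ≤ A1 * e t := mul_nonneg (by linarith) he
    nlinarith
  · intro n _ hn
    have h := hK n I _ _ hI hs hadm B hn.le
    have hG : l8lfC d (7 / 3) * (l8lcM (I.l8lqS hx hN.hl hZ) (l8lfLo (I.l8lqS hx hN.hl hZ) ⟨e, I.q, A1, A', min 1 v0, eta, 7 / 3, pm, d, ti⟩)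
          (l8lfCs (I.l8lqS hx hN.hl hZ)) (l8lfNb (I.l8lqS hx hN.hl hZ).Y (min 1 v0)) + √eta) = I.l8lqG A1 A' v0 eta d := by
      unfold L8In.l8lqG l8lcM l8lfLo l8lcT l8lfCs
      rw [I.l8lq_S_Y hN.hU]
      rfl
    rw [← hG]
    exact h

/-! ### numbers -/

theorem l8lq_C_nonneg (d : ℕ) {cP : ℝ} : 0 ≤ l8lfC d cP := by
  unfold l8lfC
  positivity

/-- NUM1: the number of dyads of `[lo, hi]`, `hi / lo ≤ 1 / x`, is subpower:   `2^(nb - 1) ≤ ⌊hi / lo⌋ ≤ 1 / x`, so `(nb - 1) log 2 ≤ log (1 / x) ≤ x^(-θ) / θ` (`Real.log_le_rpow_div`); `1 ≤ x^(-θ)` -/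
theorem l8lq_nb_le {lo hi x θ : ℝ} (hx : 0 < x) (hx1 : x ≤ 1) (hθ : 0 < θ) (h : hi / lo ≤ 1 / x) :
    (l8lfNb lo hi : ℝ) ≤ (1 / (θ * Real.log 2) + 1) * x ^ (-θ) := by
  unfold l8lfNb
  have hl2 : 0 < Real.log 2 := Real.log_pos (by norm_num)
  have hxθ : 1 ≤ x ^ (-θ) := Real.one_le_rpow_of_pos_of_le_one_of_nonpos hx hx1 (by linarith)
  have key : (Nat.log 2 ⌊hi / lo⌋₊ : ℝ) ≤ 1 / (θ * Real.log 2) * x ^ (-θ) := by
    by_cases hm : ⌊hi / lo⌋₊ = 0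
    · rw [hm]
      simp only [Nat.log_zero_right, Nat.cast_zero]
      positivity
    · have h1 : 2 ^ Nat.log 2 ⌊hi / lo⌋₊ ≤ ⌊hi / lo⌋₊ := Nat.pow_log_le_self 2 hm
      have hpos : 0 ≤ hi / lo := by
        by_contra hc
        exact hm (Nat.floor_of_nonpos (not_le.1 hc).le)
      have h2 : (⌊hi / lo⌋₊ : ℝ) ≤ hi / lo := Nat.floor_le hpos
      have h3 : ((2 : ℝ) ^ Nat.log 2 ⌊hi / lo⌋₊) ≤ 1 / x := by
        have : ((2 ^ Nat.log 2 ⌊hi / lo⌋₊ : ℕ) : ℝ) ≤ (⌊hi / lo⌋₊ : ℝ) := by exact_mod_cast h1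
        push_cast at this
        linarith
      have h4 : (Nat.log 2 ⌊hi / lo⌋₊ : ℝ) * Real.log 2 ≤ Real.log (1 / x) := by
        rw [← Real.log_pow]
        exact Real.log_le_log (by positivity) h3
      have h5 : Real.log (1 / x) ≤ (1 / x) ^ θ / θ := Real.log_le_rpow_div (by positivity) hθ
      have h6 : (1 / x) ^ θ = x ^ (-θ) := by rw [one_div, Real.inv_rpow hx.le, Real.rpow_neg hx.le]
      rw [h6] at h5
      have h7 : (Nat.log 2 ⌊hi / lo⌋₊ : ℝ) ≤ x ^ (-θ) / θ / Real.log 2 := by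
        rw [le_div_iff₀ hl2]
        linarith
      refine h7.trans (le_of_eq ?_)
      field_simp
  push_cast
  nlinarith

/-- on a size path the strength is `x^(p_*)` -/
theorem l8lq_lam (I : L8In) (hI : I.Ok) (hs : l8Siz I.p) : I.lam = I.x ^ I.F.pS := (hI.pt.sm_fin hs.1).1

/-- NUM2: the numerical conditions hold for large `N` (`hbig`: `l8t_large`).   `λ = x^(p_*)` (`sm_fin`), `A1 = C1 x^-θ`, `A' = (Cb + 2) A1 x^-θ`, `η = x^8`: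
`hU`: exponent `1 - p_* s/2 ≥ 0`;   `hY, hV`: `1 / min 1 v0 ≤ x^-θ`, `θ ≤ δ_*/3, ai`;   `hlY`: `(Cb+2) C1 x^(δ_*/3 - 2θ) ≤ x^(δ_*/3 - 3θ) ≤ 1`;   `hlV`: `(Cb+2) C1² x^(ai - 3θ) ≤ x^(ai - 4θ) ≤ 1`;
`htail`: `2 A1 / A' = 2/(Cb+2) x^θ ≤ x^θ`, `(x^θ)^(2 pm) = x^(2 pm θ) ≤ x^8`. -/
theorem l8lq_num_ok (I : L8In) (hI : I.Ok) (hs : l8Siz I.p) (h0 : 0 < I.F.pS) (h1 : I.F.pS ≤ 1) (hsS0 : 0 ≤ I.F.sS) (hsS1 : I.F.sS ≤ 1) (het : 0 ≤ I.F.eta)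
    {θ ai Cb C1 v0 : ℝ} {pm : ℕ} (hθ : 0 < θ) (hθa : 40 * θ ≤ ai) (hθd : 40 * θ ≤ llDStar) (hCb : 0 ≤ Cb) (hC1 : 1 ≤ C1) (hv0 : 0 < v0)
    (hpm : 8 ≤ 2 * pm * θ) (hbig : 1 / min 1 v0 + (Cb + 2) * C1 ^ 2 ≤ I.x ^ (-θ)) :
    L8lqNum I (C1 * I.x ^ (-θ)) ((Cb + 2) * (C1 * I.x ^ (-θ)) * I.x ^ (-θ)) v0 ai Cb (I.x ^ 8) pm := by
  obtain ⟨hx, hx1⟩ := I.l8lq_x_pos hI
  have hlam := l8lq_lam I hI hs
  have hu1 : 1 ≤ I.x ^ (-θ) := Real.one_le_rpow_of_pos_of_le_one_of_nonpos hx hx1 (by linarith)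
  have hu0 : 0 < I.x ^ (-θ) := by linarith
  have hw : 0 < min 1 v0 := lt_min one_pos hv0
  have hw' : 0 < 1 / min 1 v0 := by positivity
  have hCC : 0 ≤ (Cb + 2) * C1 ^ 2 := by positivity
  have hb1 : 1 / min 1 v0 ≤ I.x ^ (-θ) := by linarith
  have hb2 : (Cb + 2) * C1 ^ 2 ≤ I.x ^ (-θ) := by linarith
  have hb3 : (Cb + 2) * C1 ≤ I.x ^ (-θ) := by
    refine le_trans ?_ hb2
    have : C1 ≤ C1 ^ 2 := by nlinarith
    exact mul_le_mul_of_nonneg_left this (by linarith)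
  have hxθ : I.x ^ θ ≤ min 1 v0 := by
    have e : I.x ^ θ = 1 / I.x ^ (-θ) := by rw [Real.rpow_neg hx.le, one_div, inv_inv]
    rw [e, div_le_iff₀ hu0]
    rw [div_le_iff₀ hw] at hb1
    linarith
  have hle : ∀ {a b : ℝ}, a ≤ b → I.x ^ b ≤ I.x ^ a := fun h => Real.rpow_le_rpow_of_exponent_ge hx hx1 h
  have hone : ∀ {a : ℝ}, 0 ≤ a → I.x ^ a ≤ 1 := fun h => Real.rpow_le_one hx.le hx1 h
  refine ⟨by rw [hlam]; exact Real.rpow_pos_of_pos hx _, by rw [hlam]; exact hone h0.le, ?_, hsS0, het, ?_, ?_, ?_, ?_, ?_, ?_, ?_⟩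
  · rw [hlam, ← Real.rpow_mul hx.le]
    have : I.x * I.x ^ (I.F.pS * -(I.F.sS / 2)) = I.x ^ (1 + I.F.pS * -(I.F.sS / 2)) := by
      rw [Real.rpow_add hx, Real.rpow_one]
    rw [this]
    refine hone ?_
    nlinarith
  · nlinarith
  · have : 0 ≤ (Cb + 2) * (C1 * I.x ^ (-θ)) := by positivity
    nlinarith
  · exact (hle (by linarith)).trans hxθ
  · exact (hle (by linarith)).trans hxθ
  · have e : (Cb + 2) * (C1 * I.x ^ (-θ)) * I.x ^ (-θ) * I.x ^ (llDStar / 3)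
        = ((Cb + 2) * C1) * I.x ^ (-θ + -θ + llDStar / 3) := by
      rw [Real.rpow_add hx, Real.rpow_add hx]; ring
    rw [e]
    calc ((Cb + 2) * C1) * I.x ^ (-θ + -θ + llDStar / 3) ≤ I.x ^ (-θ) * I.x ^ (-θ + -θ + llDStar / 3) :=
          mul_le_mul_of_nonneg_right hb3 (Real.rpow_nonneg hx.le _)
      _ = I.x ^ (-θ + (-θ + -θ + llDStar / 3)) := by rw [← Real.rpow_add hx]
      _ ≤ 1 := hone (by linarith)
  · have e : (Cb + 2) * (C1 * I.x ^ (-θ)) * I.x ^ (-θ) * (C1 * I.x ^ (-θ) * I.x ^ ai)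
        = ((Cb + 2) * C1 ^ 2) * I.x ^ (-θ + -θ + -θ + ai) := by
      rw [Real.rpow_add hx, Real.rpow_add hx, Real.rpow_add hx]; ring
    rw [e]
    calc ((Cb + 2) * C1 ^ 2) * I.x ^ (-θ + -θ + -θ + ai) ≤ I.x ^ (-θ) * I.x ^ (-θ + -θ + -θ + ai) :=
          mul_le_mul_of_nonneg_right hb2 (Real.rpow_nonneg hx.le _)
      _ = I.x ^ (-θ + (-θ + -θ + -θ + ai)) := by rw [← Real.rpow_add hx]
      _ ≤ 1 := hone (by linarith)
  · have e : 2 * (C1 * I.x ^ (-θ)) / ((Cb + 2) * (C1 * I.x ^ (-θ)) * I.x ^ (-θ)) = 2 / (Cb + 2) * I.x ^ θ := by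
      rw [Real.rpow_neg hx.le]
      have := Real.rpow_pos_of_pos hx θ
      field_simp
    rw [e]
    have hxθ0 : 0 ≤ I.x ^ θ := Real.rpow_nonneg hx.le _
    have h2 : 2 / (Cb + 2) * I.x ^ θ ≤ I.x ^ θ := by
      have : 2 / (Cb + 2) ≤ 1 := by rw [div_le_one (by linarith)]; linarith
      nlinarith
    calc (2 / (Cb + 2) * I.x ^ θ) ^ (2 * pm) ≤ (I.x ^ θ) ^ (2 * pm) := pow_le_pow_left₀ (by positivity) h2 _
      _ = I.x ^ (θ * ((2 * pm : ℕ) : ℝ)) := by rw [← Real.rpow_natCast, ← Real.rpow_mul hx.le]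
      _ ≤ I.x ^ (8 : ℝ) := hle (by push_cast; linarith)
      _ = I.x ^ 8 := by exact_mod_cast Real.rpow_natCast I.x 8

theorem l8lq_sqrt8 {x : ℝ} (_hx : 0 ≤ x) : √(x ^ 8) = x ^ (4 : ℝ) := by
  rw [show x ^ 8 = (x ^ 4) ^ 2 by ring, Real.sqrt_sq (by positivity)]
  exact_mod_cast (Real.rpow_natCast x 4).symm

/-- pure numbers -/
theorem l8lq_gain_aux {u c Cb C1 J nb : ℝ} (hu : 1 ≤ u) (hc : 0 ≤ c) (hCb : 0 ≤ Cb) (hC1 : 1 ≤ C1) (hJ0 : 0 ≤ J) (hnb0 : 0 ≤ nb)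
    (hJ : J ≤ (c + 1) * u) (hnb : nb ≤ (c + 1) * u) :
    (4 * ((Cb + 2) * (C1 * u) * u) ^ 2 * (C1 * u) * (J + 1)) ^ 3 * (2 + nb) ^ 2 ≤ 64 * (Cb + 2) ^ 6 * C1 ^ 9 * (c + 3) ^ 5 * u ^ 20 := by
  have h1 : J + 1 ≤ (c + 3) * u := by nlinarith
  have h2 : 2 + nb ≤ (c + 3) * u := by nlinarith
  have h3 : 4 * ((Cb + 2) * (C1 * u) * u) ^ 2 * (C1 * u) * (J + 1) ≤ 4 * ((Cb + 2) * (C1 * u) * u) ^ 2 * (C1 * u) * ((c + 3) * u) :=
    mul_le_mul_of_nonneg_left h1 (by positivity)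
  have h4 : (4 * ((Cb + 2) * (C1 * u) * u) ^ 2 * (C1 * u) * (J + 1)) ^ 3 ≤ (4 * ((Cb + 2) * (C1 * u) * u) ^ 2 * (C1 * u) * ((c + 3) * u)) ^ 3 :=
    pow_le_pow_left₀ (by positivity) h3 3
  have h5 : (2 + nb) ^ 2 ≤ ((c + 3) * u) ^ 2 := pow_le_pow_left₀ (by positivity) h2 2
  calc (4 * ((Cb + 2) * (C1 * u) * u) ^ 2 * (C1 * u) * (J + 1)) ^ 3 * (2 + nb) ^ 2
      ≤ (4 * ((Cb + 2) * (C1 * u) * u) ^ 2 * (C1 * u) * ((c + 3) * u)) ^ 3 * ((c + 3) * u) ^ 2 :=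
        mul_le_mul h4 h5 (by positivity) (by positivity)
    _ = 64 * (Cb + 2) ^ 6 * C1 ^ 9 * (c + 3) ^ 5 * u ^ 20 := by ring

/-- the constant of NUM3 -/
noncomputable def l8lqC (d : ℕ) (θ Cb C1 : ℝ) : ℝ := l8lfC d (7 / 3) * (64 * (Cb + 2) ^ 6 * C1 ^ 9 * (1 / (θ * Real.log 2) + 3) ^ 5 + 1)

/-- NUM3: the gain.   `Lo = 4 A'² A1 (J + 1) = 4 (Cb+2)² C1³ x^(-5θ) (J + 1)`, `J + 1, 2 + nb ≤ c_θ x^-θ` (NUM1: `Yc / x ≤ 1 / x`, `min 1 v0 / Yc ≤ 1 / x` as `x ≤ U ≤ Yc ≤ 1`), so `Lo³ (2 + nb)² ≤ 64 (Cb+2)^6 C1^9 c_θ^5 x^(-20θ)`, `20 θ ≤ ε`;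
`x³ λ^(-Cs) = x^(3 - Cs p_*)`;   `√(x^8) = x^4 ≤ x^(3 - ε - Cs p_*) Zc²`. -/
theorem l8lq_num_gain (I : L8In) (hI : I.Ok) (hs : l8Siz I.p) (h0 : 0 < I.F.pS) (_h1 : I.F.pS ≤ 1) (hsS0 : 0 ≤ I.F.sS) (_hsS1 : I.F.sS ≤ 1) (het : 0 ≤ I.F.eta)
    (hZ : 1 ≤ I.Zc llDStar) {θ ε Cb C1 v0 : ℝ} (d : ℕ) (hθ : 0 < θ) (hθε : 40 * θ ≤ ε) (hCb : 0 ≤ Cb) (hC1 : 1 ≤ C1) (_hv0 : 0 < v0) :
    I.l8lqG (C1 * I.x ^ (-θ)) ((Cb + 2) * (C1 * I.x ^ (-θ)) * I.x ^ (-θ)) v0 (I.x ^ 8) d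
      ≤ l8lqC d θ Cb C1 * I.x ^ (3 - ε - (I.F.sS + (1 + I.F.eta)) * I.F.pS) * I.Zc llDStar ^ 2 := by
  obtain ⟨hx, hx1⟩ := I.l8lq_x_pos hI
  have hlam := l8lq_lam I hI hs
  have hl0 : 0 < I.lam := by rw [hlam]; exact Real.rpow_pos_of_pos hx _
  have hl1 : I.lam ≤ 1 := by rw [hlam]; exact Real.rpow_le_one hx.le hx1 h0.le
  have hu1 : 1 ≤ I.x ^ (-θ) := Real.one_le_rpow_of_pos_of_le_one_of_nonpos hx hx1 (by linarith)
  have hl2 : 0 < Real.log 2 := Real.log_pos (by norm_num)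
  have hle : ∀ {a b : ℝ}, a ≤ b → I.x ^ b ≤ I.x ^ a := fun h => Real.rpow_le_rpow_of_exponent_ge hx hx1 h
  have hδ : 0 < llDStar := by unfold llDStar; norm_num
  -- the scales
  have hUpos : 0 < I.U := lt_min one_pos (mul_pos hx (Real.rpow_pos_of_pos hl0 _))
  have hxU : I.x ≤ I.U := by
    refine le_min hx1 ?_
    have : 1 ≤ I.lam ^ (-(I.F.sS / 2)) := Real.one_le_rpow_of_pos_of_le_one_of_nonpos hl0 hl1 (by linarith)
    show I.x ≤ I.x * I.lam ^ (-(I.F.sS / 2))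
    nlinarith
  have hYc1 : I.Yc llDStar ≤ 1 := (l8lq_Yc_le I hUpos).trans (Real.rpow_le_one hx.le hx1 (by positivity))
  have hxY : I.x ≤ I.Yc llDStar := by
    unfold L8In.Yc
    nlinarith
  have hY0 : 0 < I.Yc llDStar := lt_of_lt_of_le hx hxY
  have hJ := l8lq_nb_le (lo := I.x) (hi := I.Yc llDStar) hx hx1 hθ (div_le_div_of_nonneg_right hYc1 hx.le)
  have hnb := l8lq_nb_le (lo := I.Yc llDStar) (hi := min 1 v0) hx hx1 hθ
    (div_le_div₀ zero_le_one (min_le_left _ _) hx hxY)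
  have haux := l8lq_gain_aux (c := 1 / (θ * Real.log 2)) hu1 (by positivity) hCb hC1 (Nat.cast_nonneg _) (Nat.cast_nonneg _) hJ hnb
  -- powers
  have e20 : (I.x ^ (-θ)) ^ 20 = I.x ^ (-(20 * θ)) := by
    rw [← Real.rpow_natCast, ← Real.rpow_mul hx.le]
    congr 1
    push_cast
    ring
  have eT : I.x ^ 3 * I.lam ^ (-(I.F.sS + (1 + I.F.eta))) = I.x ^ (3 - (I.F.sS + (1 + I.F.eta)) * I.F.pS) := by
    rw [hlam, ← Real.rpow_mul hx.le, ← Real.rpow_natCast I.x 3, ← Real.rpow_add hx]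
    congr 1
    push_cast
    ring
  have hZ2 : 1 ≤ I.Zc llDStar ^ 2 := one_le_pow₀ hZ
  set E : ℝ := 3 - ε - (I.F.sS + (1 + I.F.eta)) * I.F.pS with hE
  have hxE : 0 < I.x ^ E := Real.rpow_pos_of_pos hx _
  have hs8 : √(I.x ^ 8) ≤ I.x ^ E * I.Zc llDStar ^ 2 := by
    rw [l8lq_sqrt8 hx.le]
    have hprod : 0 ≤ (I.F.sS + (1 + I.F.eta)) * I.F.pS := mul_nonneg (by linarith) h0.le
    have h3 : I.x ^ (4 : ℝ) ≤ I.x ^ E := hle (by rw [hE]; linarith)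
    calc I.x ^ (4 : ℝ) ≤ I.x ^ E := h3
      _ = I.x ^ E * 1 := (mul_one _).symm
      _ ≤ I.x ^ E * I.Zc llDStar ^ 2 := mul_le_mul_of_nonneg_left hZ2 hxE.le
  have hK0 : 0 ≤ 64 * (Cb + 2) ^ 6 * C1 ^ 9 * (1 / (θ * Real.log 2) + 3) ^ 5 := by positivity
  have hmain : (4 * ((Cb + 2) * (C1 * I.x ^ (-θ)) * I.x ^ (-θ)) ^ 2 * (C1 * I.x ^ (-θ)) * ((l8lfNb I.x (I.Yc llDStar) : ℝ) + 1)) ^ 3
        * (2 + (l8lfNb (I.Yc llDStar) (min 1 v0) : ℝ)) ^ 2 * (I.x ^ 3 * I.lam ^ (-(I.F.sS + (1 + I.F.eta))) * I.Zc llDStar ^ 2)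
      ≤ 64 * (Cb + 2) ^ 6 * C1 ^ 9 * (1 / (θ * Real.log 2) + 3) ^ 5 * (I.x ^ E * I.Zc llDStar ^ 2) := by
    rw [eT]
    have hT0 : 0 ≤ I.x ^ (3 - (I.F.sS + (1 + I.F.eta)) * I.F.pS) * I.Zc llDStar ^ 2 := by positivity
    refine (mul_le_mul_of_nonneg_right haux hT0).trans ?_
    rw [e20]
    have e : 64 * (Cb + 2) ^ 6 * C1 ^ 9 * (1 / (θ * Real.log 2) + 3) ^ 5 * I.x ^ (-(20 * θ))
          * (I.x ^ (3 - (I.F.sS + (1 + I.F.eta)) * I.F.pS) * I.Zc llDStar ^ 2)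
        = 64 * (Cb + 2) ^ 6 * C1 ^ 9 * (1 / (θ * Real.log 2) + 3) ^ 5
          * (I.x ^ (-(20 * θ) + (3 - (I.F.sS + (1 + I.F.eta)) * I.F.pS)) * I.Zc llDStar ^ 2) := by
      rw [Real.rpow_add hx]; ring
    rw [e]
    refine mul_le_mul_of_nonneg_left (mul_le_mul_of_nonneg_right (hle ?_) (by positivity)) hK0
    rw [hE]; linarith
  unfold L8In.l8lqG l8lqC
  have hcF := l8lq_C_nonneg d (cP := 7 / 3)
  calc l8lfC d (7 / 3) * ((4 * ((Cb + 2) * (C1 * I.x ^ (-θ)) * I.x ^ (-θ)) ^ 2 * (C1 * I.x ^ (-θ)) * ((l8lfNb I.x (I.Yc llDStar) : ℝ) + 1)) ^ 3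
        * (2 + (l8lfNb (I.Yc llDStar) (min 1 v0) : ℝ)) ^ 2 * (I.x ^ 3 * I.lam ^ (-(I.F.sS + (1 + I.F.eta))) * I.Zc llDStar ^ 2) + √(I.x ^ 8))
      ≤ l8lfC d (7 / 3) * (64 * (Cb + 2) ^ 6 * C1 ^ 9 * (1 / (θ * Real.log 2) + 3) ^ 5 * (I.x ^ E * I.Zc llDStar ^ 2)
          + I.x ^ E * I.Zc llDStar ^ 2) := mul_le_mul_of_nonneg_left (add_le_add hmain hs8) hcF
    _ = l8lfC d (7 / 3) * (64 * (Cb + 2) ^ 6 * C1 ^ 9 * (1 / (θ * Real.log 2) + 3) ^ 5 + 1) * I.x ^ E * I.Zc llDStar ^ 2 := by ring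

theorem l8lq_eqns_cite3 : True := by
  have := @l8lqC.eq_1
  trivial

/-! ## 4. The glue -/

/-- `L8Ev.mono` which remembers the record of cut-offs, the class and `N1 ≤ N` -/
theorem l8lq_ev_mono {F : LlFix} {𝔹 : LlBase} {N0 N1 : ℕ} {R : LlPt → Prop} {Φ Ψ : L8In → Prop} (h : L8Ev F 𝔹 N0 R Φ) (hN : N0 ≤ N1)
    (hi : ∀ I : L8In, I.F = F → I.Ok → N1 ≤ I.p.N → R I.p → Φ I → Ψ I) : L8Ev F 𝔹 N1 R Ψ := by
  intro N s hN'
  filter_upwards [h N s (hN.trans hN')] with Fs hFs ell lam chiL chiE sm γ m hR hOk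
  exact hi _ rfl hOk hN' hR (hFs ell lam chiL chiE sm γ m hR hOk)

/-- a smaller class of points -/
theorem l8lq_ev_cls {F : LlFix} {𝔹 : LlBase} {N0 : ℕ} {R R' : LlPt → Prop} {Φ : L8In → Prop} (h : L8Ev F 𝔹 N0 R Φ) (hR : ∀ p, R' p → R p) :
    L8Ev F 𝔹 N0 R' Φ := by
  intro N s hN'
  filter_upwards [h N s hN'] with Fs hFs ell lam chiL chiE sm γ m hR' hOk
  exact hFs ell lam chiL chiE sm γ m (hR _ hR') hOk

/-- the form `L8tLs` of `L08/HiTop.lean` (helper51) with a general bound `d` of the degrees (`l8tK` is a huge numeral: it is kept out of the tactics) -/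
def L8lqLs (d : ℕ) (𝔹 : LlBase) (T : ℝ) : Prop :=
  ∀ F0, L8Fix 𝔹 T F0 → ∀ pB : LLParB, LlcStB 𝔹 F0 pB → ∃ κl p0 : ℝ, 0 ≤ κl ∧ 0 < p0 ∧ ∀ pS, 0 < pS → pS ≤ p0 → ∀ ai Cb ε : ℝ, 0 < ai → 0 ≤ Cb → 0 < ε →
    ∃ (C : ℝ) (N0 : ℕ), 0 ≤ C ∧ L8Ev (F0.wExp pB.sStar pB.eta pS) 𝔹 N0 l8Siz fun I =>
      1 ≤ I.Zc llDStar ∧ ∀ ti, I.Thr (I.x ^ ai) ti → ∃ eb vv : ℕ → ℝ, (∀ t, 0 ≤ eb t) ∧ (∀ t, eb t ≤ 1) ∧ (∀ t, 0 ≤ vv t) ∧
        (∀ t, t < ti → I.v t ≤ 4 * vv t) ∧ (∀ t, t < ti → Cb * |I.f t| + |I.d t| ≤ eb t) ∧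
        ∀ n, 1 ≤ n → n < d → L8_LS1 (I.X false) ti eb vv (2 + 2 * n) n (C * I.x ^ (3 - ε - κl * pS) * I.Zc llDStar ^ 2) (I.x ^ 7)

theorem l8lq_eqns_cite4 : True := by
  have := @L8lqLs.eq_1
  trivial

/-- **GLUE of `Exit/D16`**, general bound of the degrees -/
theorem l8lq_d16_gen (l8tK : ℕ) (hd : 1 ≤ l8tK) {𝔹 : LlBase} {T : ℝ} (hinst : L8LsInst) (hlow : L8xLow 𝔹 T) (hfine : L8gFine 𝔹 T) :
    L8lqLs l8tK 𝔹 T := by
  intro F0 hF pB hpB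
  obtain ⟨p0, cE, hp0, hcE, hlow⟩ := hlow F0 hF pB hpB
  have hsS0 : 0 ≤ pB.sStar := by
    have h1 := pB.tau_le
    unfold LLParB.sStar
    linarith
  have hsS1 : pB.sStar ≤ 1 := by
    have h1 := pB.tau_pos
    unfold LLParB.sStar
    linarith
  have het := pB.eta_pos
  refine ⟨pB.sStar + (1 + pB.eta), min p0 1, by linarith, lt_min hp0 one_pos, ?_⟩
  intro pS hpS hpS' ai Cb ε hai hCb hε
  have hpS1 : pS ≤ 1 := hpS'.trans (min_le_right _ _)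
  obtain ⟨v0, v1, hv0, hv1, hlow⟩ := hlow pS hpS (hpS'.trans (min_le_left _ _))
  have hδ : 0 < llDStar := by unfold llDStar; norm_num
  obtain ⟨θ, hθ, hθε, hθa, hθd⟩ : ∃ θ : ℝ, 0 < θ ∧ 40 * θ ≤ ε ∧ 40 * θ ≤ ai ∧ 40 * θ ≤ llDStar := by
    refine ⟨min ε (min ai llDStar) / 40, by positivity, ?_, ?_, ?_⟩
    · have := min_le_left ε (min ai llDStar); linarith
    · have := (min_le_right ε (min ai llDStar)).trans (min_le_left _ _); linarith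
    · have := (min_le_right ε (min ai llDStar)).trans (min_le_right _ _); linarith
  obtain ⟨pm, hpm1, hpm2⟩ : ∃ pm : ℕ, l8tK ≤ pm ∧ 8 ≤ 2 * (pm : ℝ) * θ := by
    obtain ⟨k, hk⟩ := exists_nat_ge (4 / θ)
    refine ⟨max l8tK k, le_max_left _ _, ?_⟩
    have h1 : (k : ℝ) ≤ (max l8tK k : ℕ) := by exact_mod_cast le_max_right _ _
    have h2 : 4 / θ ≤ (max l8tK k : ℕ) := hk.trans h1
    rw [div_le_iff₀ hθ] at h2
    linarith
  obtain ⟨C0, N0, hE⟩ := hlow 1 1 one_pos one_pos pm 1 θ hθ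
  obtain ⟨Nf, hEf⟩ := hfine F0 hF pB pS hpS hpS1 (fun _ => 1) (fun _ _ => one_pos)
  choose Kf hKf0 hKf using fun n => hinst n (2 + 2 * n)
  set Kt : ℝ := ∑ n ∈ range l8tK, Kf n with hKt
  have hKt0 : 0 ≤ Kt := Finset.sum_nonneg fun n _ => hKf0 n
  have hKle : ∀ n, n < l8tK → Kf n ≤ Kt := fun n hn =>
    Finset.single_le_sum (f := Kf) (fun i _ => hKf0 i) (Finset.mem_range.2 hn)
  set C1 : ℝ := max |C0| 1 with hC1d
  have hC1 : 1 ≤ C1 := le_max_right _ _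
  obtain ⟨M1, hM1, L1⟩ := l8t_large (1 / min 1 v0 + (Cb + 2) * C1 ^ 2 + Kt) θ hθ
  have hC0n : 0 ≤ l8lqC l8tK θ Cb C1 := by
    unfold l8lqC
    have := l8lq_C_nonneg l8tK (cP := 7 / 3)
    have h2 : 0 < Real.log 2 := Real.log_pos (by norm_num)
    positivity
  refine ⟨Kt * l8lqC l8tK θ Cb C1, max (max N0 Nf) M1, mul_nonneg hKt0 hC0n, ?_⟩
  refine l8lq_ev_mono (hE.and (l8lq_ev_cls hEf fun _ _ => trivial)) (le_max_left _ _) ?_
  rintro I hIF hI hN hs ⟨⟨hZ, e, hAll⟩, hfin⟩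
  refine ⟨hZ, fun ti hti => ?_⟩
  obtain ⟨hx, hx1⟩ := I.l8lq_x_pos hI
  have e1 : I.F.pS = pS := by rw [hIF]; rfl
  have e2 : I.F.sS = pB.sStar := by rw [hIF]; rfl
  have e3 : I.F.eta = pB.eta := by rw [hIF]; rfl
  have hbig := L1 I.p.N ((le_max_right _ _).trans hN)
  have hbig' : 1 / min 1 v0 + (Cb + 2) * C1 ^ 2 + Kt ≤ I.x ^ (-θ) := hbig
  have hw : 0 < min 1 v0 := lt_min one_pos hv0
  have hb1 : 1 / min 1 v0 + (Cb + 2) * C1 ^ 2 ≤ I.x ^ (-θ) := by linarith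
  have hb2 : Kt ≤ I.x ^ (-θ) := by
    have : 0 ≤ 1 / min 1 v0 + (Cb + 2) * C1 ^ 2 := by positivity
    linarith
  have hNum := l8lq_num_ok I hI hs (by rw [e1]; exact hpS) (by rw [e1]; exact hpS1) (by rw [e2]; exact hsS0) (by rw [e2]; exact hsS1)
    (by rw [e3]; exact het.le) (pm := pm) hθ hθa hθd hCb hC1 hv0 hpm2 hb1
  have hGain := l8lq_num_gain I hI hs (by rw [e1]; exact hpS) (by rw [e1]; exact hpS1) (by rw [e2]; exact hsS0) (by rw [e2]; exact hsS1)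
    (by rw [e3]; exact het.le) hZ l8tK hθ hθε hCb hC1 hv0
  rw [e1, e2, e3] at hGain
  have hxθ : 0 < I.x ^ (-θ) := Real.rpow_pos_of_pos hx _
  have hA : |C0 * I.x ^ (-θ)| ≤ C1 * I.x ^ (-θ) := by
    rw [abs_mul, abs_of_pos hxθ]
    exact mul_le_mul_of_nonneg_right (le_max_left _ _) hxθ.le
  obtain ⟨eb, vv, q1, q2, q3, q4, q5, q6⟩ := l8lq_one (d := l8tK) hd hKf I hI hs hfin.adm hZ
    ⟨hAll.env, hAll.num, hAll.unt⟩ hA hCb hNum le_rfl hpm1 ti hti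
  refine ⟨eb, vv, q1, q2, q3, q4, q5, fun n hn1 hn2 => l8lq_ls1_mono (q6 n hn1 hn2) ?_ ?_⟩
  · have hG0 : 0 ≤ l8lqC l8tK θ Cb C1 * I.x ^ (3 - ε - (pB.sStar + (1 + pB.eta)) * pS) * I.Zc llDStar ^ 2 := by positivity
    calc Kf n * I.l8lqG (C1 * I.x ^ (-θ)) ((Cb + 2) * (C1 * I.x ^ (-θ)) * I.x ^ (-θ)) v0 (I.x ^ 8) l8tK
        ≤ Kf n * (l8lqC l8tK θ Cb C1 * I.x ^ (3 - ε - (pB.sStar + (1 + pB.eta)) * pS) * I.Zc llDStar ^ 2) :=
          mul_le_mul_of_nonneg_left hGain (hKf0 n)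
      _ ≤ Kt * (l8lqC l8tK θ Cb C1 * I.x ^ (3 - ε - (pB.sStar + (1 + pB.eta)) * pS) * I.Zc llDStar ^ 2) :=
          mul_le_mul_of_nonneg_right (hKle n hn2) hG0
      _ = Kt * l8lqC l8tK θ Cb C1 * I.x ^ (3 - ε - (pB.sStar + (1 + pB.eta)) * pS) * I.Zc llDStar ^ 2 := by ring
  · -- `K x^8 ≤ x^(-θ) x^8 ≤ x^7`
    have h1 : Kf n ≤ I.x ^ (-θ) := (hKle n hn2).trans hb2
    have h2 : I.x ^ (-θ) * I.x ≤ 1 := by
      have : I.x ^ (-θ) * I.x = I.x ^ (-θ + 1) := by rw [Real.rpow_add hx, Real.rpow_one]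
      rw [this]
      refine Real.rpow_le_one hx.le hx1 ?_
      unfold llDStar at hθd
      linarith
    calc Kf n * I.x ^ 8 ≤ I.x ^ (-θ) * I.x ^ 8 := mul_le_mul_of_nonneg_right h1 (by positivity)
      _ = (I.x ^ (-θ) * I.x) * I.x ^ 7 := by ring
      _ ≤ 1 * I.x ^ 7 := mul_le_mul_of_nonneg_right h2 (by positivity)
      _ = I.x ^ 7 := one_mul _

/-- **GLUE of `Exit/D16`** -/
theorem l8lq_d16 {𝔹 : LlBase} {T : ℝ} (hinst : L8LsInst) (hlow : L8xLow 𝔹 T) (hfine : L8gFine 𝔹 T) : L8tLs 𝔹 T :=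
  l8lq_d16_gen l8tK (by unfold l8tK; norm_num) hinst hlow hfine

end Claimed.Agent.R286
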