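import Claimed.Agent.R286.L08.HiAd
import Claimed.Agent.R286.Exit.PairInv
import Claimed.Agent.R286.Exit.PairLong
import Claimed.Agent.R286.Fd.TrKit9c

/-!
# Row 286 (S0533), folder L08, file HiAdH : ADAPTERS of (D15), part H: the two exits of LL 05 in the shapes `L8H_H1`, `L8H_H2` of `L08/HiCtx`      (owner helper279; prefix `l8hh_`)

TEX[LL:prop:statistics-high] TEX[LL:inv:pair-inverse] TEX[LL:inv:sector-response]      `X = llJs n a P tl` (`L02/Defs`), `N = P.length`, `ms = llMs a P`.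
* `l8hh_relabel`   the labels `2 ≡ 0`, `3 ≡ 1` of `jtTabO` carry no attachment weight:  `absK 2 4 tabO (φ ∘ pull) = absK 2 2 tab2 φ`
                   (sign trick `tr_sumK_sign` + marginalisation consistency `tk9_sumK_comap` of the SIGNED sums);
* `l8hh_h1`        `exit_pair_inv` at `q0 = 2`, `τ = jtTabO N t0`, `b = retI * bC`  ⟹ `L8H_H1 X ti (C Λ^k)`
                   (`U := u` on trees, `0` elsewhere: `PkFn.symm` asks ALL tables; `G = θ pkRet sign(source)`);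
* `l8hh_h2`        `exit_pair_long` at `q0 = 0` ⟹ `L8H_H2 X mu (pkX2 a P) Bk`, `mu = l8lMu ms N` (`= p_(t+1) - p_t`), `|Bk r t| ≤ C Λ^k K_t`.
ALL PROVED (0 own sorry); consumers: `l8ha_h1`, `l8ha_h2` of `L08/HiFin.lean`.
-/

set_option autoImplicit false

namespace Claimed.Agent.R286

open Finset

/-! ## 1. signs -/

theorem l8hh_sg_sq (N q k : ℕ) (τ : JtTopo) : trSg N q k τ * trSg N q k τ = 1 := by
  unfold trSg
  rw [← Finset.prod_mul_distrib]
  refine Finset.prod_eq_one fun i _ => ?_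
  split_ifs <;> norm_num

theorem l8hh_sg_loc (N q k : ℕ) : TrLoc (q + k) (trSg N q k) := by
  intro τ₁ τ₂ h
  unfold trSg
  refine Finset.prod_congr rfl fun i hi => ?_
  rw [Finset.mem_range] at hi
  have : (Finset.range (q + i)).filter (fun y => τ₁ (q + i) y = N + 1) = (Finset.range (q + i)).filter fun y => τ₂ (q + i) y = N + 1 := by
    refine Finset.filter_congr fun y hy => ?_
    rw [Finset.mem_range] at hy
    rw [h (q + i) y (by omega) (by omega)]
  rw [this]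

/-- the total variation sum as a signed sum -/
theorem l8hh_abs_eq_sum {N q : ℕ} {τ : JtTopo} {ms : ℕ → ℝ} (hτ : IsTr N q τ) (hms : IsMs N ms) (k : ℕ) (Φ : JtTopo → ℝ) :
    trAbsK ms N k q τ Φ = trSumK ms N k q τ fun τ' => trSg N q k τ' * Φ τ' := by
  rw [tr_sumK_sign hτ hms]
  congr 1
  funext τ'
  rw [← mul_assoc, l8hh_sg_sq, one_mul]

/-! ## 2. relabelling -/

theorem l8hh_tabO_isTr (N t : ℕ) (ht : t ≤ N + 1) : IsTr N 4 (jtTabO N t) :=
  tr_comap_isTr (l8hk_tab2_isTr N t ht) (fun x => x % 2) fun x _ => Nat.mod_lt x (by norm_num)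

/-- reading of the four labels `0, 1, 2, 3` as `0, 1, 4, 5` -/
theorem l8hh_em (y : ℕ) (hy : y < 4) : tk9Em 2 4 (fun x => x) y = pkSub 2 4 5 y := by
  unfold tk9Em pkSub
  interval_cases y <;> simp

/-- one factor of the sign: a new label coincides with an earlier one, seen in the big tree or in the reduced one -/
theorem l8hh_coinc {N t0 : ℕ} {τ' : JtTopo} (hτ' : IsTr N 6 τ') (hag : ∀ y z, y < 4 → z < 4 → τ' y z = jtTabO N t0 y z) (i : ℕ) (hi : i < 2) :
    ((Finset.range (4 + i)).filter fun y => τ' (4 + i) y = N + 1).card = 0 ↔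
      ((Finset.range (2 + i)).filter fun y => τ' (tk9Em 2 4 (fun x => x) (2 + i)) (tk9Em 2 4 (fun x => x) y) = N + 1).card = 0 := by
  have e0 : tk9Em 2 4 (fun x => x) (2 + i) = 4 + i := by unfold tk9Em; rw [if_neg (by omega)]; omega
  rw [e0, Finset.card_eq_zero, Finset.card_eq_zero, Finset.filter_eq_empty_iff, Finset.filter_eq_empty_iff]
  constructor
  · intro h y hy
    rw [Finset.mem_range] at hy
    refine h (Finset.mem_range.2 ?_)
    unfold tk9Em
    split_ifs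
    · show y < 4 + i
      omega
    · omega
  · intro h y hy hy1
    rw [Finset.mem_range] at hy
    by_cases h2 : y < 2
    · exact h (Finset.mem_range.2 (show y < 2 + i by omega)) (by simpa [tk9Em, h2] using hy1)
    · by_cases h4 : y < 4
      · -- `y` coincides with `y - 2`
        have c1 : τ' y (y - 2) = N + 1 := by
          rw [hag y (y - 2) h4 (by omega)]
          have : y = 2 ∨ y = 3 := by omega
          rcases this with rfl | rfl <;> simp [jtTabO, jtTab2]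
        have u := hτ'.ultra (4 + i) y (y - 2) (by omega) (by omega) (by omega)
        have l := hτ'.le (4 + i) (y - 2) (by omega) (by omega)
        rw [hy1, c1, min_self] at u
        refine h (Finset.mem_range.2 (show y - 2 < 2 + i by omega)) ?_
        have : tk9Em 2 4 (fun x => x) (y - 2) = y - 2 := by unfold tk9Em; rw [if_pos (by omega)]
        rw [this]
        omega
      · refine h (Finset.mem_range.2 (show y - 2 < 2 + i by omega)) ?_
        have : tk9Em 2 4 (fun x => x) (y - 2) = y := by unfold tk9Em; rw [if_neg (by omega)]; omega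
        rw [this]
        exact hy1

theorem l8hh_sg_pull {N t0 : ℕ} {τ' : JtTopo} (hτ' : IsTr N 6 τ') (hag : ∀ y z, y < 4 → z < 4 → τ' y z = jtTabO N t0 y z) :
    trSg N 4 2 τ' = trSg N 2 2 fun y w => τ' (tk9Em 2 4 (fun x => x) y) (tk9Em 2 4 (fun x => x) w) := by
  unfold trSg
  refine Finset.prod_congr rfl fun i hi => ?_
  rw [Finset.mem_range] at hi
  have := l8hh_coinc hτ' hag i hi
  by_cases h : ((Finset.range (4 + i)).filter fun y => τ' (4 + i) y = N + 1).card = 0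
  · rw [if_pos h, if_pos (this.1 h)]
  · rw [if_neg h, if_neg fun h' => h (this.2 h')]

/-- **RELABELLING**: the absolute attachment of two labels to the tree `jtTabO` (`2 ≡ 0`, `3 ≡ 1`) is the absolute attachment to the pair -/
theorem l8hh_relabel {N : ℕ} {ms : ℕ → ℝ} (hms : IsMs N ms) {t0 : ℕ} (ht0 : t0 ≤ N + 1) (φ : JtTopo → ℝ) (hφ : TrLoc 4 φ) :
    trAbsK ms N 2 4 (jtTabO N t0) (fun τ' => φ (pkPull 2 4 5 τ')) = trAbsK ms N 2 2 (jtTab2 N t0) φ := by
  have hO := l8hh_tabO_isTr N t0 ht0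
  have h2 := l8hk_tab2_isTr N t0 ht0
  rw [l8hh_abs_eq_sum hO hms, l8hh_abs_eq_sum h2 hms]
  have hloc : TrLoc (2 + 2) fun τ => trSg N 2 2 τ * φ τ := by
    intro τ₁ τ₂ h
    show trSg N 2 2 τ₁ * φ τ₁ = trSg N 2 2 τ₂ * φ τ₂
    rw [l8hh_sg_loc N 2 2 τ₁ τ₂ h, hφ τ₁ τ₂ h]
  have hc := tk9_sumK_comap (ms := ms) 2 hO (fun x => x) (p := 2) (fun z hz => by omega) (fun τ => trSg N 2 2 τ * φ τ) hloc
  have e1 : trSumK ms N 2 4 (jtTabO N t0) (fun τ' => trSg N 4 2 τ' * φ (pkPull 2 4 5 τ'))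
      = trSumK ms N 2 4 (jtTabO N t0) fun τ' => (fun τ => trSg N 2 2 τ * φ τ)
          fun y w => τ' (tk9Em 2 4 (fun x => x) y) (tk9Em 2 4 (fun x => x) w) := by
    refine tr_sumK_congr hO 2 _ _ fun τ' hτ' hag => ?_
    simp only
    rw [l8hh_sg_pull hτ' hag]
    congr 1
    refine hφ _ _ fun y z hy hz => ?_
    unfold pkPull
    rw [l8hh_em y hy, l8hh_em z hz]
  rw [e1, hc]
  refine tr_sumK_tree_congr (fun y z hy hz => ?_) 2 _ hloc
  have : y % 2 = y := Nat.mod_eq_of_lt hy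
  have : z % 2 = z := Nat.mod_eq_of_lt hz
  simp [jtTabO, *]

/-! ## 3. locality, small facts -/

theorem l8hh_isTr_congr {N q : ℕ} {τ τ' : JtTopo} (h : ∀ x y, x < q → y < q → τ x y = τ' x y) (hτ : IsTr N q τ) : IsTr N q τ' where
  le := fun x y hx hy => by rw [← h x y hx hy]; exact hτ.le x y hx hy
  diag := fun x hx => by rw [← h x x hx hx]; exact hτ.diag x hx
  symm := fun x y hx hy => by rw [← h x y hx hy, ← h y x hy hx]; exact hτ.symm x y hx hy
  ultra := fun x y z hx hy hz => by rw [← h x y hx hy, ← h y z hy hz, ← h x z hx hz]; exact hτ.ultra x y z hx hy hz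

theorem l8hh_Mker_loc {S : Type} {X : JtCtx S} {a : ℝ} (h : X.Ok a) (r q i j : ℕ) {τ τ' : JtTopo} (hag : JtAgree r τ τ') :
    X.Mker r q i j τ = X.Mker r q i j τ' := by
  have e : X.nuK r τ = X.nuK r τ' := funext fun F => h.nuK_congr r τ τ' F hag
  unfold JtCtx.Mker JtCtx.Quo JtCtx.Nij JtCtx.Psi JtCtx.scM
  rw [e]

theorem l8hh_ret_mul {S : Type} (X : JtCtx S) {ti t0 : ℕ} (h1 : ti ≤ t0) (t : ℕ) :
    pkRet X.N (fun t => X.retI ti t * X.bC t) t0 t * X.retI ti t = pkRet X.N (fun t => X.retI ti t * X.bC t) t0 t := by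
  unfold pkRet
  by_cases h : t ≤ X.N ∧ (t = t0 ∨ X.retI ti t * X.bC t ≠ 0)
  · rw [if_pos h, one_mul]
    obtain ⟨hN, rfl | hb⟩ := h
    · unfold JtCtx.retI; rw [if_pos ⟨h1, hN⟩]
    · unfold JtCtx.retI at hb ⊢
      by_cases h' : ti ≤ t ∧ t ≤ X.N
      · rw [if_pos h']
      · rw [if_neg h', zero_mul] at hb; exact absurd rfl hb
  · rw [if_neg h, zero_mul]

theorem l8hh_ret_mem (N : ℕ) (b : ℕ → ℝ) (r t : ℕ) : 0 ≤ pkRet N b r t ∧ pkRet N b r t ≤ 1 := by
  unfold pkRet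
  split_ifs <;> norm_num

theorem l8hh_off_ret {S : Type} (X : JtCtx S) (ti : ℕ) (τ : JtTopo) : X.off 4 1 τ * X.retI ti (τ 4 5) = X.retI ti (τ 4 5) := by
  have : X.off 4 1 τ = if τ 4 5 ≤ X.N then 1 else 0 := by simp [JtCtx.off, jtC, jtD]
  rw [this]
  unfold JtCtx.retI
  by_cases h : τ 4 5 ≤ X.N
  · rw [if_pos h, one_mul]
  · rw [if_neg h, zero_mul, if_neg fun h' => h h'.2]

theorem l8hh_sub_lt (x : ℕ) (hx : x < 4) : pkSub 2 4 5 x < 6 := by
  unfold pkSub; split_ifs <;> omega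

theorem l8hh_sub_sh (x : ℕ) (hx : x < 4) : pkSub 2 4 5 x = jtSh 4 x := by
  unfold pkSub jtSh
  interval_cases x <;> simp

theorem l8hh_swap (x : ℕ) : pkSub 2 3 2 x = Equiv.swap 2 3 x := by
  rw [Equiv.swap_apply_def]; rfl

/-! ## 4. (H1) -/

/-- **(H1) in the shape of `HiCtx`** -/
theorem l8hh_h1 : ∃ (C : ℝ) (k : ℕ), 0 < C ∧ ∀ (n : ℕ) (a : ℝ) (P : LlStp) (tl : Option ℕ) (ti : ℕ) (Λ : ℝ), 0 < a → LlStpAdm a P →
    PkMul a P (fun t => (llJs n a P tl).retI ti t * (llJs n a P tl).bC t) Λ → L8H_H1 (llJs n a P tl) ti (C * Λ ^ k) := by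
  classical
  obtain ⟨C, k, hC, H⟩ := exit_pair_inv
  refine ⟨C, k, hC, ?_⟩
  intro n a P tl ti Λ ha hP hb t0 h1 h2 u hu hsym
  have hok := l8ha_ok n ha hP tl
  have hms : IsMs P.length (llMs a P) := ll2_law_isMs ha.le hP
  set X := llJs n a P tl with hX
  have hN : X.N = P.length := rfl
  set b : ℕ → ℝ := fun t => X.retI ti t * X.bC t with hbdef
  set U : JtTopo → ℝ := fun τ => if IsTr P.length 4 τ then u τ else 0 with hUdef
  have hUtr : ∀ τ, IsTr P.length 4 τ → U τ = u τ := fun τ hτ => by simp only [hUdef, if_pos hτ]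
  -- `U` is a symmetric pair function
  have hU : PkFn 2 U := by
    constructor
    · intro τ τ' h
      by_cases hτ : IsTr P.length 4 τ
      · rw [hUtr τ hτ, hUtr τ' (l8hh_isTr_congr h hτ)]
        exact hu τ τ' fun x y hx hy => (h x y hx hy).symm
      · have hτ' : ¬ IsTr P.length 4 τ' := fun h' => hτ (l8hh_isTr_congr (fun x y hx hy => (h x y hx hy).symm) h')
        simp only [hUdef, if_neg hτ, if_neg hτ']
    · intro τ
      have hlt : ∀ x, x < 4 → pkSub 2 3 2 x < 4 := fun x hx => by unfold pkSub; split_ifs <;> omega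
      have hpull : pkPull 2 (2 + 1) 2 τ = fun x y => τ (Equiv.swap 2 3 x) (Equiv.swap 2 3 y) := by
        funext x y
        show τ (pkSub 2 3 2 x) (pkSub 2 3 2 y) = _
        rw [l8hh_swap, l8hh_swap]
      by_cases hτ : IsTr P.length 4 τ
      · have h3 : IsTr P.length 4 (pkPull 2 (2 + 1) 2 τ) := tr_comap_isTr hτ (pkSub 2 3 2) hlt
        rw [hUtr τ hτ, hUtr _ h3, hpull]
        exact hsym τ hτ
      · have hτ' : ¬ IsTr P.length 4 (pkPull 2 (2 + 1) 2 τ) := by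
          intro h'
          apply hτ
          have := tr_comap_isTr h' (pkSub 2 3 2) hlt
          refine l8hh_isTr_congr (fun x y _ _ => ?_) this
          show τ (pkSub 2 3 2 (pkSub 2 3 2 x)) (pkSub 2 3 2 (pkSub 2 3 2 y)) = τ x y
          simp only [l8hh_swap, Equiv.swap_apply_self]
        simp only [hUdef, if_neg hτ, if_neg hτ']
  have hτO := l8hh_tabO_isTr P.length t0 (show t0 ≤ P.length + 1 by omega)
  have hO23 : jtTabO P.length t0 2 3 = t0 := by simp [jtTabO, jtTab2]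
  have key : |U (jtTabO P.length t0)| ≤ C * Λ ^ k * trAbsK (llMs a P) P.length 2 4 (jtTabO P.length t0) fun τ' =>
      pkRet P.length b t0 (τ' 4 5) * |pkL X 2 b U (pkPull 2 4 5 τ')| := by
    have := H n a P tl 2 b Λ U (jtTabO P.length t0) ha hP hb hU hτO (by show jtTabO P.length t0 2 3 ≤ P.length; rw [hO23]; exact h2)
    rw [show jtTabO P.length t0 2 (2 + 1) = t0 from hO23] at this
    exact this
  -- the source
  set L : JtTopo → ℝ := fun τ => u τ - X.Mop ti u τ with hL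
  have hΨloc : ∀ τ₁ τ₂ : JtTopo, (∀ y z, y < 4 + 2 → z < 4 + 2 → τ₁ y z = τ₂ y z) →
      X.retI ti (τ₁ 4 5) * X.Mker 6 4 2 3 τ₁ * X.bC (τ₁ 4 5) * u (fun x y => τ₁ (jtSh 4 x) (jtSh 4 y))
        = X.retI ti (τ₂ 4 5) * X.Mker 6 4 2 3 τ₂ * X.bC (τ₂ 4 5) * u fun x y => τ₂ (jtSh 4 x) (jtSh 4 y) := by
    intro τ₁ τ₂ h
    rw [h 4 5 (by norm_num) (by norm_num), l8hh_Mker_loc hok 6 4 2 3 (τ := τ₁) (τ' := τ₂) fun x y hx hy => (h x y hx hy).symm]
    congr 1
    refine hu _ _ fun x y hx hy => ?_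
    rw [← l8hh_sub_sh x hx, ← l8hh_sub_sh y hy]
    exact (h _ _ (l8hh_sub_lt x hx) (l8hh_sub_lt y hy)).symm
  have hLloc : JtLoc 4 L := by
    intro τ τ' hag
    simp only [hL]
    rw [hu τ τ' hag]
    congr 1
    exact tr_sumK_tree_congr (fun y z hy hz => (hag y z hy hz).symm) 2 _ hΨloc
  -- (H1) of the exit on trees
  have hLU : ∀ τ, IsTr P.length 4 τ → pkL X 2 b U τ = L τ := by
    intro τ hτ
    simp only [hL, pkL, pkM, JtCtx.Mop]
    rw [hUtr τ hτ]
    congr 1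
    refine tr_sumK_congr hτ 2 _ _ fun τ' hτ' _ => ?_
    have e1 : U (pkPull 2 (2 + 2) (2 + 3) τ') = u fun x y => τ' (jtSh 4 x) (jtSh 4 y) := by
      have h3 : IsTr P.length 4 (pkPull 2 (2 + 2) (2 + 3) τ') := tr_comap_isTr hτ' (pkSub 2 4 5) l8hh_sub_lt
      rw [hUtr _ h3]
      refine hu _ _ fun x y hx hy => ?_
      show τ' (jtSh 4 x) (jtSh 4 y) = τ' (pkSub 2 4 5 x) (pkSub 2 4 5 y)
      rw [l8hh_sub_sh x hx, l8hh_sub_sh y hy]
    rw [e1]
    have e2 := l8hh_off_ret X ti τ'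
    show X.off 4 1 τ' * X.Mker 6 4 2 3 τ' * (X.retI ti (τ' 4 5) * X.bC (τ' 4 5) * u fun x y => τ' (jtSh 4 x) (jtSh 4 y))
      = X.retI ti (τ' 4 5) * X.Mker 6 4 2 3 τ' * X.bC (τ' 4 5) * u fun x y => τ' (jtSh 4 x) (jtSh 4 y)
    calc _ = (X.off 4 1 τ' * X.retI ti (τ' 4 5)) * X.Mker 6 4 2 3 τ' * X.bC (τ' 4 5) * u fun x y => τ' (jtSh 4 x) (jtSh 4 y) := by ring
      _ = _ := by rw [e2]
  -- the majorant of the exit, relabelled
  set φ : JtTopo → ℝ := fun τ => pkRet P.length b t0 (τ 2 3) * |pkL X 2 b U τ| with hφ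
  have hφloc : TrLoc 4 φ := by
    intro τ₁ τ₂ h
    have e : pkL X 2 b U τ₁ = pkL X 2 b U τ₂ := by
      simp only [pkL, pkM]
      rw [hU.uses τ₁ τ₂ h]
      congr 1
      refine tr_sumK_tree_congr h 2 _ fun σ₁ σ₂ hσ => ?_
      have o : X.off (2 + 2) 1 σ₁ = X.off (2 + 2) 1 σ₂ := by
        have e45 : σ₁ 4 5 = σ₂ 4 5 := hσ 4 5 (by norm_num) (by norm_num)
        simp [JtCtx.off, jtC, jtD, e45]
      rw [o, l8hh_Mker_loc hok (2 + 4) (2 + 2) 2 (2 + 1) (τ := σ₁) (τ' := σ₂) fun x y hx hy => (hσ x y hx hy).symm,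
        hσ (2 + 2) (2 + 3) (by norm_num) (by norm_num),
        hU.uses (pkPull 2 (2 + 2) (2 + 3) σ₁) (pkPull 2 (2 + 2) (2 + 3) σ₂) fun x y hx hy =>
          hσ _ _ (l8hh_sub_lt x hx) (l8hh_sub_lt y hy)]
    simp only [hφ]
    rw [h 2 3 (by norm_num) (by norm_num), e]
  have hrel := l8hh_relabel hms (t0 := t0) (show t0 ≤ P.length + 1 by omega) φ hφloc
  have h2tr := l8hk_tab2_isTr P.length t0 (show t0 ≤ P.length + 1 by omega)
  set A : ℝ := trAbsK (llMs a P) P.length 2 2 (jtTab2 P.length t0) fun τ => pkRet P.length b t0 (τ 2 3) * |L τ| with hA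
  have hφA : trAbsK (llMs a P) P.length 2 2 (jtTab2 P.length t0) φ = A :=
    tr_absK_congr h2tr 2 _ _ fun τ hτ _ => by simp only [hφ]; rw [hLU τ hτ]
  have hA0 : 0 ≤ A := tra2_absK_nonneg 2 _ fun τ => mul_nonneg (l8hh_ret_mem _ _ _ _).1 (abs_nonneg _)
  have hPol : 0 ≤ C * Λ ^ k := mul_nonneg hC.le (pow_nonneg (zero_le_one.trans hb.one) k)
  have hbound : |u (jtTabO P.length t0)| ≤ C * Λ ^ k * A := by
    rw [← hUtr _ hτO, ← hφA, ← hrel]
    exact key
  -- the kernel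
  set θ : ℝ := if A = 0 then 0 else u (jtTabO P.length t0) / A with hθ
  have hθA : θ * A = u (jtTabO P.length t0) := by
    by_cases h0 : A = 0
    · rw [h0, mul_zero] at hbound ⊢
      exact (abs_eq_zero.1 (le_antisymm hbound (abs_nonneg _))).symm
    · rw [hθ, if_neg h0, div_mul_cancel₀ _ h0]
  have hθle : |θ| ≤ C * Λ ^ k := by
    by_cases h0 : A = 0
    · rw [hθ, if_pos h0, abs_zero]; exact hPol
    · have hApos : 0 < A := lt_of_le_of_ne hA0 (Ne.symm h0)
      rw [hθ, if_neg h0, abs_div, abs_of_pos hApos, div_le_iff₀ hApos]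
      exact hbound
  refine ⟨fun τ => θ * pkRet P.length b t0 (τ 2 3) * (if 0 ≤ L τ then 1 else -1), ?_, ?_, ?_⟩
  · intro τ τ' hag
    simp only
    rw [hag 2 3 (by norm_num) (by norm_num), hLloc τ τ' hag]
  · intro τ
    have r := l8hh_ret_mem P.length b t0 (τ 2 3)
    have s : |(if 0 ≤ L τ then (1 : ℝ) else -1)| = 1 := by split_ifs <;> simp
    rw [abs_mul, abs_mul, s, mul_one, abs_of_nonneg r.1]
    calc |θ| * pkRet P.length b t0 (τ 2 3) ≤ |θ| * 1 := mul_le_mul_of_nonneg_left r.2 (abs_nonneg _)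
      _ ≤ C * Λ ^ k := by rw [mul_one]; exact hθle
  · have e : (fun τ : JtTopo => θ * pkRet P.length b t0 (τ 2 3) * (if 0 ≤ L τ then 1 else -1) * X.retI ti (τ 2 3) * (u τ - X.Mop ti u τ))
        = fun τ => θ * (pkRet P.length b t0 (τ 2 3) * |L τ|) := by
      funext τ
      have r := l8hh_ret_mul X h1 (τ 2 3)
      have s : (if 0 ≤ L τ then (1 : ℝ) else -1) * L τ = |L τ| := by
        split_ifs with h
        · rw [one_mul, abs_of_nonneg h]
        · rw [abs_of_neg (not_le.1 h)]; ring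
      calc θ * pkRet P.length b t0 (τ 2 3) * (if 0 ≤ L τ then 1 else -1) * X.retI ti (τ 2 3) * (u τ - X.Mop ti u τ)
          = θ * (pkRet X.N b t0 (τ 2 3) * X.retI ti (τ 2 3)) * ((if 0 ≤ L τ then (1 : ℝ) else -1) * L τ) := by
            simp only [hL, hN]; ring
        _ = θ * (pkRet P.length b t0 (τ 2 3) * |L τ|) := by rw [r, s, hN]; ring
    show u (jtTabO P.length t0) = trAbsK (llMs a P) P.length 2 2 (jtTab2 P.length t0) _
    rw [e, tra2_absK_const_mul]
    exact hθA.symm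

/-! ## 5. (H2) -/

theorem l8hh_take_sum_mono (l : List ℝ) (hl : ∀ x ∈ l, 0 ≤ x) {i j : ℕ} (hij : i ≤ j) : (l.take i).sum ≤ (l.take j).sum := by
  obtain ⟨d, rfl⟩ := Nat.exists_eq_add_of_le hij
  rw [List.take_add, List.sum_append]
  have : 0 ≤ ((l.drop i).take d).sum := List.sum_nonneg fun x hx => hl x (List.mem_of_mem_drop (List.mem_of_mem_take hx))
  linarith

/-- the reference clock is nondecreasing along the stages -/
theorem l8hh_cumK_mono {a : ℝ} {P : LlStp} (hP : LlStpAdm a P) {i j : ℕ} (hij : i ≤ j) : llCumK P i ≤ llCumK P j := by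
  unfold llCumK
  rw [List.map_take, List.map_take]
  refine l8hh_take_sum_mono _ (fun x hx => ?_) hij
  obtain ⟨e, he, rfl⟩ := List.mem_map.1 hx
  have := (hP.2.2 ⟨e.m, 0, e.dK⟩ (List.mem_map.2 ⟨e, he, rfl⟩)).2.2.2
  exact this

/-- **(H2) in the shape of `HiCtx`**, with the bound of the kernel by the time of the integration variable -/
theorem l8hh_h2 : ∃ (C : ℝ) (k : ℕ), 0 < C ∧ ∀ (n : ℕ) (a : ℝ) (P : LlStp) (tl : Option ℕ) (Λ : ℝ), 0 < a → LlStpAdm a P →
    1 ≤ Λ → a ≤ Λ → a⁻¹ ≤ Λ → llCumK P P.length ≤ Λ →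
    ∃ Bk : ℕ → ℕ → ℝ, (∀ r t, r ≤ P.length → t ≤ P.length → |Bk r t| ≤ C * Λ ^ k * llCumK P t) ∧
      L8H_H2 (llJs n a P tl) (l8lMu (llMs a P) P.length) (pkX2 a P) Bk := by
  obtain ⟨C, k, hC, H⟩ := exit_pair_long
  refine ⟨C, k, hC, ?_⟩
  intro n a P tl Λ ha hP h1 h2 h3 h4
  obtain ⟨B, -, hbd, hid⟩ := H n a P tl Λ ha hP h1 h2 h3 h4
  refine ⟨fun r t => - B r t, fun r t hr ht => ?_, fun r hr g => ?_⟩
  · rw [abs_neg]
    refine (hbd r t hr ht).trans ?_
    exact mul_le_mul_of_nonneg_left (l8hh_cumK_mono hP (min_le_right r t)) (mul_nonneg hC.le (pow_nonneg (zero_le_one.trans h1) k))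
  · have hr' : r ≤ P.length := hr
    have e01 : jtTab2 P.length r 0 (0 + 1) = r := by simp [jtTab2]
    have := hid 0 g (jtTab2 P.length r) (l8hk_tab2_isTr P.length r (by omega)) (by rw [e01]; exact hr')
    rw [e01] at this
    have e : (llJs n a P tl).sumK 2 2 (jtTab2 (llJs n a P tl).N r)
        (fun τ => (llJs n a P tl).off 2 1 τ * (llJs n a P tl).Mker 4 2 0 1 τ * g (τ 2 3))
        = pkM (llJs n a P tl) 0 (fun τ' => g (τ' (0 + 2) (0 + 3))) (jtTab2 P.length r) := rfl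
    rw [e, this, sub_eq_add_neg, ← Finset.sum_neg_distrib]
    congr 1
    refine Finset.sum_congr rfl fun t ht => ?_
    rw [← l8ha_x_mu_eq a P (Nat.lt_succ_iff.1 (Finset.mem_range.1 ht))]
    ring

end Claimed.Agent.R286
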