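import Claimed.Agent.R286.L08.Glue
import Claimed.Agent.R286.Inv.Ker
import Claimed.Agent.R286.LL.PathsClkE
import Claimed.Agent.R286.L08.FineA
import Claimed.Agent.R286.L09.GridE6
import Claimed.Agent.R286.LL.PathsSwC

/-!
# Row 286 (S0533), folder L08, file HiClk : CHAIN LEVEL CLOCK FACTS ON THE SMOOTHED SIZE PATHS = PART B of `L08/HiFin.lean`      (owner helper17; prefix `l8ck_`, `L8ck`)

`l8hs_clk : L8xClk llBase T` (consumers: `I.HiB.clk` of `L08/HiFin.lean`, `Exit/D15.lean`).   The record `L8In.Clk` and the exit form `L8xClk` (architect helper234) are MOVED here verbatim from `L08/HiFin.lean`, which imports this file.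

    l8hs_clk  <=  l8ck_of_lk (glue)  <=  l8ck_path (path level)  +  l8ck_clk (transfer at one instance)  +  l8ck_lk (the link chain <-> path, ALL points)      ALL PROVED; 0 sorry in this file; the only open import is `l8g_fine` (fields `adm`, `dv_le`)

* Sec. 1  numerics: `l8ck_ev` (a property of `1/x` which holds eventually holds for `N ≥ N0`), `log³ t ≤ t^ε`, `log (2 t) + C ≤ t^ε`; (P1): `x^14 ≤ λ U² ≤ x²`, `λ₁ U³ ≤ x³`;
  `l8ck_d_le`: on a smoothed size path (`χ_lin = 1`, `χ_e = 0`) `|d(v)| ≤ x³ (log (2/x) + 2 + 2 |C_4|)` on `[0,a]` (`d = - h_*` before the mask (P4), `d = H_lo + H_lin` after it (P6)).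
* Sec. 2  `LlPt.ClkP` = the clock facts at ONE point on the CLOSED interval `[0,a]`;  `l8ck_path`: from `LlSec3` (`ref, adm, admEnd, p4, p5`); the gap (P5) at `z = q(v)` is extended to `v = 0` and `v = a` by continuity (`l8ck_gap_lim`).
* Sec. 3  `L8In.ClkLk η` = what the transfer consumes of a fine chain.   CUT `k + 1` READS THE CLOCKS AT THE MASS `v k` OF THE STAGE `k` (left end of its cell).   Every field is a field of `I.Fine` v2 (118) or follows from it in one line;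
  the `b`-fields are typed so that they are TRUE also on the chains which split the jump of `b` at the mass `0`;   `g_link` = `L9vV.gam1` (120, `L09/GridE6.lean`) at `t = llCumK P k`.
* Sec. 4  `l8ck_clk` the transfer, NON-asymptotic;   `l8ck_of_lk` the choice of the numbers: `η = x^16`, `c = min (c_5/4) (1/16)`, `C = max (max 1 C_K) (max (C_b + 1) 16)`, `v0` = the `v0` of (P2).
* Sec. 5  THE LINK, for every consumer (class `fun _ => True`): `l8ck_mod` (modulus on `[0,a]` off `J` `⟹` `L8fMod` of the clamp), `LlPt.ClkC` + `l8ck_cont` (from `LlSec3.adm, equi`: `J_b = {0}`, `J_h = {x}`, `J_K = ∅`),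
  **`l8ck_vals`** (EXACT VALUES of `bC, hC, KC` at the cut `k + 1` on EVERY chain, from `L08/FineA.lean` A5 of 214), `l8ck_prof` (`LpqProf` of the profile in use from `LlSec3.dirProf`; smoothed: `lsw_Asm_prof` of 281 at `v_b := 1/4`),
  **`l8ck_lk : L8ckLk llBase T`**.   The definition of `L9I.ps` (`= ghPs p.a (l9Fl Fs)`, Contract v5) is unfolded in `l8ck_ps` and in `l8ck_lk` (`l8ck_V_ev`) only.
-/

set_option autoImplicit false

namespace Claimed.Agent.R286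

open Set Filter Topology

/-! ## 1. numerics -/

/-- a property of `1/x` which holds eventually holds for all large `N` -/
theorem l8ck_ev {P : ℝ → Prop} (h : ∀ᶠ t in atTop, P t) : ∃ N0 : ℕ, ∀ p : LlPt, N0 ≤ p.N → P p.x⁻¹ := by
  have h1 : Tendsto (fun n : ℕ => ((n : ℝ)) ^ (1 / 6 : ℝ)) atTop atTop :=
    (tendsto_rpow_atTop (by norm_num : (0 : ℝ) < 1 / 6)).comp tendsto_natCast_atTop_atTop
  obtain ⟨N0, hN0⟩ := eventually_atTop.1 (h1.eventually h)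
  refine ⟨N0, fun p hp => ?_⟩
  have e : p.x⁻¹ = (p.N : ℝ) ^ (1 / 6 : ℝ) := by
    unfold LlPt.x
    rw [Real.rpow_neg (Nat.cast_nonneg _), inv_inv]
  rw [e]
  exact hN0 _ hp

theorem l8ck_x_neg {p : LlPt} (hN : 2 ≤ p.N) (ε : ℝ) : p.x ^ (-ε) = p.x⁻¹ ^ ε := by
  rw [Real.rpow_neg (lce_x_pos hN).le, Real.inv_rpow (lce_x_pos hN).le]

/-- `log³ t ≤ t^ε` -/
theorem l8ck_log3 {ε : ℝ} (hε : 0 < ε) : ∀ᶠ t : ℝ in atTop, Real.log t ^ 3 ≤ t ^ ε := by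
  have h := (isLittleO_log_rpow_atTop (by positivity : 0 < ε / 3)).bound (one_pos)
  filter_upwards [h, eventually_ge_atTop 1] with t ht h1
  have h0 : 0 ≤ Real.log t := Real.log_nonneg h1
  have ht0 : 0 ≤ t := by linarith
  rw [Real.norm_of_nonneg h0, Real.norm_of_nonneg (Real.rpow_nonneg ht0 _), one_mul] at ht
  calc Real.log t ^ 3 ≤ (t ^ (ε / 3)) ^ 3 := pow_le_pow_left₀ h0 ht 3
    _ = t ^ ε := by
      rw [← Real.rpow_natCast, ← Real.rpow_mul ht0]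
      congr 1
      push_cast
      ring

/-- `log (2 t) + C ≤ t^ε` -/
theorem l8ck_log1 {ε : ℝ} (hε : 0 < ε) (C : ℝ) : ∀ᶠ t : ℝ in atTop, Real.log (2 * t) + C ≤ t ^ ε := by
  have h := (isLittleO_log_rpow_atTop hε).bound (by norm_num : (0 : ℝ) < 1 / 2)
  have h2 := (tendsto_rpow_atTop hε).eventually_ge_atTop (2 * (Real.log 2 + C))
  filter_upwards [h, h2, eventually_ge_atTop 1] with t ht ht2 h1
  have h0 : 0 ≤ Real.log t := Real.log_nonneg h1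
  have ht0 : 0 < t := by linarith
  rw [Real.norm_of_nonneg h0, Real.norm_of_nonneg (Real.rpow_nonneg ht0.le _)] at ht
  rw [Real.log_mul (by norm_num) ht0.ne']
  linarith

/-- `C / t^k ≤ 1`-type smallness: `C x ≤ ε` for large `N` -/
theorem l8ck_small (C ε : ℝ) (hε : 0 < ε) : ∃ N0 : ℕ, ∀ p : LlPt, N0 ≤ p.N → C * p.x ≤ ε := by
  obtain ⟨N0, h⟩ := lce_x_small (ε / (|C| + 1)) (by positivity)
  refine ⟨max N0 2, fun p hp => ?_⟩
  have hx := h p ((le_max_left _ _).trans hp)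
  have hx0 := (lce_x_pos ((le_max_right _ _).trans hp)).le
  have h1 : (|C| + 1) * p.x ≤ ε := by
    rw [le_div_iff₀ (by positivity)] at hx
    linarith
  nlinarith [le_abs_self C]

section path

variable {p : LlPt} {F : LlFix} {𝔹 : LlBase}

/-- `λ U² ≤ x²` -/
theorem l8ck_lamU2 (hF : F.Ok) (hp : p.Ok F) : p.lam * p.U F ^ 2 ≤ p.x ^ 2 := by
  have hx0 := lce_x_pos hp.N2
  have hl0 := lce_lam_pos hp
  have hl1 := lce_lam_le_one hp hF.pS0.le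
  have hU0 := (lce_U_pos hp).le
  have hU1 : p.U F ≤ p.x * p.lam ^ (-(F.sS / 2)) := min_le_right _ _
  calc p.lam * p.U F ^ 2 ≤ p.lam * (p.x * p.lam ^ (-(F.sS / 2))) ^ 2 :=
        mul_le_mul_of_nonneg_left (pow_le_pow_left₀ hU0 hU1 2) hl0.le
    _ = p.x ^ 2 * (p.lam ^ (1 : ℝ) * (p.lam ^ (-(F.sS / 2))) ^ 2) := by rw [Real.rpow_one]; ring
    _ = p.x ^ 2 * p.lam ^ (1 + -(F.sS / 2) * 2) := by
        rw [← Real.rpow_natCast (p.lam ^ (-(F.sS / 2))) 2, ← Real.rpow_mul hl0.le, ← Real.rpow_add hl0]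
        norm_num
    _ ≤ p.x ^ 2 * 1 := by
        refine mul_le_mul_of_nonneg_left (Real.rpow_le_one hl0.le hl1 ?_) (by positivity)
        have := hF.sS1
        linarith
    _ = p.x ^ 2 := mul_one _

/-- `x^14 ≤ λ U²` -/
theorem l8ck_lamU2_lo (hF : F.Ok) (hp : p.Ok F) : p.x ^ 14 ≤ p.lam * p.U F ^ 2 := by
  have hx0 := lce_x_pos hp.N2
  have h1 : p.x ^ 12 ≤ p.lam := by
    have := hp.lam_lo
    rwa [show (12 : ℝ) = ((12 : ℕ) : ℝ) by norm_num, Real.rpow_natCast] at this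
  have h2 : p.x ^ 2 ≤ p.U F ^ 2 := pow_le_pow_left₀ hx0.le (lce_x_le_U hp hF.pS0.le hF.sS0.le) 2
  calc p.x ^ 14 = p.x ^ 12 * p.x ^ 2 := by ring
    _ ≤ p.lam * p.U F ^ 2 := mul_le_mul h1 h2 (by positivity) (lce_lam_pos hp).le

/-- `λ_1 U³ ≤ x³` (`λ ≤ 1`, `1 + η - 3 s_*/2 > 0`) -/
theorem l8ck_lamU3 (hF : F.Ok) (hp : p.Ok F) : 0 ≤ p.lam1 F * p.U F ^ 3 ∧ p.lam1 F * p.U F ^ 3 ≤ p.x ^ 3 := by
  have hx0 := lce_x_pos hp.N2
  have hl0 := lce_lam_pos hp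
  have hl1 := lce_lam_le_one hp hF.pS0.le
  have hU0 := (lce_U_pos hp).le
  have hU1 : p.U F ≤ p.x * p.lam ^ (-(F.sS / 2)) := min_le_right _ _
  have hlam1 : 0 ≤ p.lam1 F := Real.rpow_nonneg hl0.le _
  refine ⟨mul_nonneg hlam1 (pow_nonneg hU0 3), ?_⟩
  calc p.lam1 F * p.U F ^ 3 ≤ p.lam1 F * (p.x * p.lam ^ (-(F.sS / 2))) ^ 3 :=
        mul_le_mul_of_nonneg_left (pow_le_pow_left₀ hU0 hU1 3) hlam1
    _ = p.x ^ 3 * (p.lam ^ (1 + F.eta) * (p.lam ^ (-(F.sS / 2))) ^ 3) := by unfold LlPt.lam1; ring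
    _ = p.x ^ 3 * p.lam ^ (1 + F.eta + -(F.sS / 2) * 3) := by
        rw [← Real.rpow_natCast (p.lam ^ (-(F.sS / 2))) 3, ← Real.rpow_mul hl0.le, ← Real.rpow_add hl0]
        norm_num
    _ ≤ p.x ^ 3 * 1 := by
        refine mul_le_mul_of_nonneg_left (Real.rpow_le_one hl0.le hl1 ?_) (by positivity)
        have := hF.sS1; have := hF.eta0
        linarith
    _ = p.x ^ 3 := mul_one _

/-- the defect on a smoothed size path -/
theorem l8ck_d_le (hF : F.Ok) (hp : p.Ok F) (hsm : p.sm = true) (hcl : p.chiL = 1) {C4 v4 : ℝ}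
    (hmono : MonotoneOn (p.hS F 𝔹) (Icc 0 p.a)) (hnn : ∀ v ∈ Icc 0 p.a, 0 ≤ p.hS F 𝔹 v)
    (h4 : ∀ v ∈ Ioc 0 v4, p.hS F 𝔹 v ≤ C4 * p.lam * (v ^ 3 + v * p.U F ^ 2)) (hx4 : p.x ≤ v4) :
    (∀ v ∈ Icc 0 p.a, |p.d F 𝔹 v| ≤ p.x ^ 3 * (Real.log (2 * p.x⁻¹) + (2 + 2 * |C4|))) ∧
      p.hS F 𝔹 p.x ≤ p.x ^ 3 * (Real.log (2 * p.x⁻¹) + (2 + 2 * |C4|)) := by
  have hx0 := lce_x_pos hp.N2
  have hx1 := lce_x_lt_one hp.N2
  have hl0 := lce_lam_pos hp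
  have hl1 := lce_lam_le_one hp hF.pS0.le
  have ha := lce_a_mem hp
  have hxa : p.x ∈ Icc 0 p.a := ⟨hx0.le, by linarith [ha.1]⟩
  have hlog : 0 ≤ Real.log (2 * p.x⁻¹) := by
    refine Real.log_nonneg ?_
    have : 1 ≤ p.x⁻¹ := (one_le_inv₀ hx0).2 hx1.le
    linarith
  have hx3 : 0 < p.x ^ 3 := by positivity
  have hSx : p.hS F 𝔹 p.x ≤ p.x ^ 3 * (2 * |C4|) := by
    have h1 := h4 p.x ⟨hx0, hx4⟩
    have h2 := l8ck_lamU2 hF hp
    have h3 : p.lam * (p.x ^ 3 + p.x * p.U F ^ 2) ≤ 2 * p.x ^ 3 := by nlinarith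
    have h3' : 0 ≤ p.lam * (p.x ^ 3 + p.x * p.U F ^ 2) := by
      have := (lce_U_pos hp).le
      positivity
    calc p.hS F 𝔹 p.x ≤ C4 * (p.lam * (p.x ^ 3 + p.x * p.U F ^ 2)) := by linarith
      _ ≤ |C4| * (p.lam * (p.x ^ 3 + p.x * p.U F ^ 2)) := mul_le_mul_of_nonneg_right (le_abs_self _) h3'
      _ ≤ |C4| * (2 * p.x ^ 3) := mul_le_mul_of_nonneg_left h3 (abs_nonneg _)
      _ = p.x ^ 3 * (2 * |C4|) := by ring
  have hbig : p.x ^ 3 * (2 * |C4|) ≤ p.x ^ 3 * (Real.log (2 * p.x⁻¹) + (2 + 2 * |C4|)) :=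
    mul_le_mul_of_nonneg_left (by linarith) hx3.le
  refine ⟨fun v hv => ?_, hSx.trans hbig⟩
  rcases lt_or_ge v p.x with hvx | hvx
  · have e : p.d F 𝔹 v = - p.hS F 𝔹 v := by
      unfold LlPt.d LlPt.h
      rw [if_pos hvx]; ring
    rw [e, abs_neg, abs_of_nonneg (hnn v hv)]
    exact ((hmono hv hxa hvx.le).trans hSx).trans hbig
  · have e : p.d F 𝔹 v = p.Hlo F v + p.Hlin F v := by
      unfold LlPt.d LlPt.h
      rw [if_neg (not_lt.2 hvx), hcl, (hp.sm_fin hsm).2]; ring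
    obtain ⟨hU0, hU1⟩ := l8ck_lamU3 hF hp
    have hm1 : p.x ≤ min v p.ell := le_min hvx (by linarith [hp.ell1])
    have hm2 : min v p.ell ≤ 2 := (min_le_right _ _).trans (lce_ell_le hp)
    have hl_nn : 0 ≤ Real.log (min v p.ell / p.x) := Real.log_nonneg ((one_le_div hx0).2 hm1)
    have hl_le : Real.log (min v p.ell / p.x) ≤ Real.log (2 * p.x⁻¹) := by
      refine Real.log_le_log (div_pos (by linarith) hx0) ?_
      rw [div_eq_mul_inv]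
      exact mul_le_mul_of_nonneg_right hm2 (inv_nonneg.2 hx0.le)
    have h1 : 0 ≤ p.Hlo F v := mul_nonneg hU0 hl_nn
    have h2 : p.Hlo F v ≤ p.x ^ 3 * Real.log (2 * p.x⁻¹) := mul_le_mul hU1 hl_le hl_nn hx3.le
    have h3 : 0 ≤ p.Hlin F v := mul_nonneg hx3.le (le_max_left _ _)
    have h4' : p.Hlin F v ≤ p.x ^ 3 * 2 :=
      mul_le_mul_of_nonneg_left (max_le (by norm_num) (by linarith [hF.vb0])) hx3.le
    rw [e, abs_of_nonneg (by linarith)]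
    have : 0 ≤ p.x ^ 3 * (2 * |C4|) := by positivity
    nlinarith

end path

/-! ## 2. the path level -/

/-- the clock facts at ONE point of a smoothed size path, on the CLOSED mass interval -/
structure LlPt.ClkP (p : LlPt) (F : LlFix) (𝔹 : LlBase) (c Cb CK v0 D : ℝ) : Prop where
  b_nn : ∀ v ∈ Icc 0 p.a, 0 ≤ p.b F 𝔹 v
  b_le : ∀ v ∈ Icc 0 p.a, p.b F 𝔹 v ≤ Cb
  K_top : ∀ v ∈ Icc 0 p.a, p.K F 𝔹 v ≤ p.M
  K_le : ∀ v ∈ Icc 0 v0, p.K F 𝔹 v ≤ CK * v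
  q_nn : ∀ v ∈ Icc 0 p.a, 0 ≤ p.q F 𝔹 v
  q_le : ∀ v ∈ Icc 0 p.a, p.q F 𝔹 v ≤ 1
  q_zero : p.q F 𝔹 0 = 0
  gap : ∀ v ∈ Icc 0 p.a, c * p.lam * (v ^ 2 + p.U F ^ 2) ≤ 1 - p.b F 𝔹 v * p.Gam1 F 𝔹 (p.K F 𝔹 v)
  d_le : ∀ v ∈ Icc 0 p.a, |p.d F 𝔹 v| ≤ D
  hS_nn : 0 ≤ p.hS F 𝔹 p.x
  hS_le : p.hS F 𝔹 p.x ≤ D

/-- the gap passes to the limit -/
theorem l8ck_gap_lim {l : Filter ℝ} [l.NeBot] {b K g : ℝ → ℝ} {b0 K0 v0 c U : ℝ} (hb : Tendsto b l (𝓝 b0)) (hK : Tendsto K l (𝓝 K0))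
    (hK0 : ∀ᶠ v in l, 0 ≤ K v) (hK00 : 0 ≤ K0) (hg : ContinuousOn g (Ici 0)) (hv : Tendsto (fun v : ℝ => v) l (𝓝 v0))
    (h : ∀ᶠ v in l, c * (v ^ 2 + U ^ 2) ≤ 1 - b v * g (K v)) : c * (v0 ^ 2 + U ^ 2) ≤ 1 - b0 * g K0 := by
  have hgK : Tendsto (fun v => g (K v)) l (𝓝 (g K0)) :=
    (hg K0 hK00).tendsto.comp (tendsto_nhdsWithin_iff.2 ⟨hK, hK0⟩)
  have h1 : Tendsto (fun v => c * (v ^ 2 + U ^ 2)) l (𝓝 (c * (v0 ^ 2 + U ^ 2))) := ((hv.pow 2).add_const _).const_mul _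
  have h2 : Tendsto (fun v => 1 - b v * g (K v)) l (𝓝 (1 - b0 * g K0)) := (hb.mul hgK).const_sub 1
  exact le_of_tendsto_of_tendsto h1 h2 h

/-- **PATH LEVEL**: the P-list gives the clock facts on the closed interval, at all points of the smoothed size paths -/
theorem l8ck_path {F : LlFix} {𝔹 : LlBase} (h3 : LlSec3 𝔹 F) (hB : LlBaseProfile 𝔹 F.T) :
    ∃ c Cb CK v0 Cd : ℝ, 0 < c ∧ 0 < v0 ∧ ∃ N0 : ℕ, ∀ p : LlPt, p.Ok F → N0 ≤ p.N → l8Siz p →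
      p.ClkP F 𝔹 c Cb CK v0 (p.x ^ 3 * (Real.log (2 * p.x⁻¹) + Cd)) := by
  obtain ⟨cr, Cr, vr, hcr, hvr, Nr, hr⟩ := h3.ref
  obtain ⟨ca, Ca, hca, Na, ha⟩ := h3.adm
  obtain ⟨Ne, he⟩ := h3.admEnd
  obtain ⟨c4, C4, v4, hc4, hv4, N4, h4⟩ := h3.p4
  obtain ⟨c5, hc5, N5, h5⟩ := h3.p5
  obtain ⟨Nx, hx⟩ := lce_x_small (min vr v4) (lt_min hvr hv4)
  refine ⟨c5, Ca, Cr, vr, 2 + 2 * |C4|, hc5, hvr, max (max (max Nr Na) (max Ne N4)) (max N5 Nx), fun p hp hN hs => ?_⟩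
  have hR := hr p hp (by omega)
  obtain ⟨mb, mh, mhS, mK, mq, bd, binc, bmask⟩ := ha p hp (by omega)
  obtain ⟨eb, eh, ehS, eK, eq⟩ := he p hp (by omega)
  have h4p := h4 p hp (by omega)
  have h5p := h5 p hp (by omega)
  have hxs := hx p (by omega)
  have hF := h3.ok
  have hx0 := lce_x_pos hp.N2
  have ham := lce_a_mem hp
  have ha0 : 0 < p.a := by linarith [ham.1]
  have hK0 : p.K F 𝔹 0 = 0 := lce_K_zero hF hB hp
  have hKnn : ∀ v, 0 ≤ p.K F 𝔹 v := fun v => lce_K_nonneg v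
  have hqnn : ∀ v, 0 ≤ p.q F 𝔹 v := fun v => by
    have := lce_Gam_mono hR (mem_Ici.2 le_rfl) (mem_Ici.2 (hKnn v)) (hKnn v)
    rwa [hR.gam_zero] at this
  obtain ⟨hd, hSx⟩ := l8ck_d_le (𝔹 := 𝔹) hF hp hs.1 hs.2 mhS (fun v hv => (bd v hv).2.2.2.1) h4p.2 (hxs.trans (min_le_right _ _))
  have hxa : p.x ∈ Icc 0 p.a := ⟨hx0.le, by linarith [ham.1, lce_x_lt_one hp.N2]⟩
  -- the gap in the interior
  have hgi : ∀ v ∈ Ioo 0 p.a, c5 * p.lam * (v ^ 2 + p.U F ^ 2) ≤ 1 - p.b F 𝔹 v * p.Gam1 F 𝔹 (p.K F 𝔹 v) := by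
    intro v hv
    have := (h5p v hv (p.q F 𝔹 v) (hqnn v)).1
    simpa using this
  refine ⟨fun v hv => hca.le.trans (bd v hv).1, fun v hv => (bd v hv).2.1, fun v hv => ?_, fun v hv => ?_, fun v _ => hqnn v,
    fun v _ => hR.gam_le _ (hKnn v), by unfold LlPt.q; rw [hK0, hR.gam_zero], fun v hv => ?_, hd, (bd _ hxa).2.2.2.1, hSx⟩
  · -- K ≤ M
    refine (mK hv ⟨ha0.le, le_rfl⟩ hv.2).trans (le_of_tendsto eK ?_)
    filter_upwards [Ioo_mem_nhdsLT ha0] with w hw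
    have h1 := hR.K_top w hw
    rw [if_pos hs.1] at h1
    have h2 : 1 ≤ p.ell ^ 2 := one_le_pow₀ hp.ell1
    nlinarith [hKnn w]
  · rcases hv.1.eq_or_lt with rfl | h0
    · rw [hK0]; simp
    · exact hR.K_hi0 v h0 hv.2
  · rcases hv.1.eq_or_lt with rfl | h0
    · -- the left end
      have t1 : Tendsto (p.b F 𝔹) (𝓝[>] 0) (𝓝 (p.b F 𝔹 0)) := by
        refine tendsto_const_nhds.congr' ?_
        filter_upwards [Ioc_mem_nhdsGT hx0] with w hw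
        exact (bmask w ⟨hw.1.le, hw.2⟩).symm
      have t2 : Tendsto (p.K F 𝔹) (𝓝[>] 0) (𝓝 (p.K F 𝔹 0)) := by
        rw [hK0]
        have t3 : Tendsto (fun w : ℝ => Cr * w) (𝓝[>] 0) (𝓝 0) :=
          ((continuous_const.mul continuous_id).tendsto' 0 0 (by simp)).mono_left nhdsWithin_le_nhds
        refine tendsto_of_tendsto_of_tendsto_of_le_of_le' tendsto_const_nhds t3 (Eventually.of_forall hKnn) ?_
        filter_upwards [Ioc_mem_nhdsGT hvr] with w hw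
        exact hR.K_hi0 w hw.1 hw.2
      exact l8ck_gap_lim t1 t2 (Eventually.of_forall hKnn) (hKnn 0) hR.g1_cont (tendsto_id.mono_left nhdsWithin_le_nhds)
        (by filter_upwards [Ioo_mem_nhdsGT ha0] with w hw using hgi w hw)
    · rcases hv.2.eq_or_lt with rfl | h1
      · exact l8ck_gap_lim eb eK (Eventually.of_forall hKnn) (hKnn _) hR.g1_cont (tendsto_id.mono_left nhdsWithin_le_nhds)
          (by filter_upwards [Ioo_mem_nhdsLT ha0] with w hw using hgi w hw)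
      · exact hgi v ⟨h0, h1⟩

/-! ## 3. the records of the chain level -/

namespace L8In

variable (I : L8In)

/-- **chain level clock facts** at one instance on a smoothed size path.   `c, C, v0` constants, `A` = subpower loss (`x^(-ε)`; it dominates `M = log³(1/x)`).
Path level sources: `adm, b_le, hK` (P3), `LlAdm`;  `K_top, K_le` (P2) `K_top`, `K_hi0`;  `G_*` (P2);  `gap` (P5) at `z = q`;  `d_le`: (P6) on `v ≥ x` (`χ_e = 0`: `d = H_lo + H_lin`, `λ₁ U³ ≤ x³`), (P4) on `v < x` (`d = - h_*`).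
CHAIN level: `q k = llQs` and `pkX2` are the scalar numbers of the STEP profile of the chain: closeness to the path numbers for fine chains (`I.Fine η`), uniformly in `(γ, ℓ)`. -/
structure Clk (c C v0 A : ℝ) : Prop where
  adm : LlStpAdm I.a I.LP
  b_le : ∀ k, I.bC k ≤ C
  hK : ∀ k, |I.hC k - I.KC k| ≤ C
  K_top : I.KC I.n ≤ A
  K_le : ∀ k ≤ I.n, I.v k ≤ v0 → I.KC k ≤ C * I.v k
  G_nonneg : ∀ k ≤ I.n, 0 ≤ pkX2 I.a I.LP k
  G_le : ∀ k ≤ I.n, pkX2 I.a I.LP k ≤ C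
  gap : ∀ k ≤ I.n, c * I.lam * I.v k ^ 2 ≤ 1 - I.bC k * pkX2 I.a I.LP k
  d_le : ∀ k ≤ I.n, |I.d k| ≤ A * I.x ^ 3

/-- what the transfer consumes of a fine chain: the cut `k + 1` reads the clocks at the mass `v k` of the stage `k` -/
structure ClkLk (η : ℝ) : Prop where
  adm : LlStpAdm I.a I.LP
  dv_le : ∀ k ≤ I.n, I.dv k ≤ η
  b_nn : ∀ k < I.n, 0 ≤ I.bC (k + 1)
  b_le : ∀ k < I.n, I.bC (k + 1) ≤ I.p.b I.F I.𝔹 (I.v k)
  b_eq : ∀ k < I.n, 0 < I.v k → I.bC (k + 1) = I.p.b I.F I.𝔹 (I.v k)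
  K_eq : ∀ k < I.n, I.KC (k + 1) = I.p.K I.F I.𝔹 (I.v k)
  h_eq : ∀ k < I.n, I.v k ≠ I.x → I.hC (k + 1) = I.p.h I.F I.𝔹 (I.v k)
  h_jump : ∀ k < I.n, I.v k = I.x → 0 ≤ I.hC (k + 1) ∧ I.hC (k + 1) ≤ I.p.h I.F I.𝔹 I.x
  q_left : ∀ k < I.n, |I.q (k + 1) - I.p.q I.F I.𝔹 (I.v k)| ≤ η
  g_link : ∀ k ≤ I.n, |pkX2 I.a I.LP k - I.p.Gam1 I.F I.𝔹 (I.KC k)| ≤ η

end L8In

/-- `0 ≤ E χ² ≤ a²` -/
theorem l8ck_G {a : ℝ} (ha : 0 < a) {P : LlStp} (hP : LlStpAdm a P) (t : ℕ) : 0 ≤ pkX2 a P t ∧ pkX2 a P t ≤ a ^ 2 := by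
  have hA := ick_adm ha hP
  have hE : ScE 0 (fun z => icX a (pkPi P) t z ^ 2) := ((ic_X_Bd a (pkPi P) t 0).pow 2).scE
  rw [ick_X2 hP]
  refine ⟨icg_Ex_nonneg _ _ _ hE (fun z => sq_nonneg _), icg_Ex_le _ _ _ hE (fun z => ?_)⟩
  exact pow_le_pow_left₀ (ict_X_pos hA t z).le (ict_X_le hA t z) 2

section chain

variable (I : L8In)

theorem l8ck_zero : I.bC 0 = 0 ∧ I.hC 0 = 0 ∧ I.KC 0 = 0 := by
  refine ⟨?_, ?_, ?_⟩
  · simp [L8In.bC, skCumB]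
  · simp [L8In.hC, skCumH]
  · simp [L8In.KC, llCumK]

theorem l8ck_late {k : ℕ} (hk : I.n ≤ k) : I.bC k = I.bC I.n ∧ I.hC k = I.hC I.n ∧ I.KC k = I.KC I.n := by
  have h1 : I.P0.length = I.n := by simp [L8In.P0, L8In.n, llMat]
  refine ⟨?_, ?_, ?_⟩
  · unfold L8In.bC skCumB
    rw [List.take_of_length_le (by omega), List.take_of_length_le (by omega)]
  · unfold L8In.hC skCumH
    rw [List.take_of_length_le (by omega), List.take_of_length_le (by omega)]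
  · unfold L8In.KC llCumK
    rw [List.take_of_length_le (by unfold L8In.n at hk; omega), List.take_of_length_le (by unfold L8In.n; omega)]

/-- a property of the three cumulated clocks: the cut `0` and the cuts `i + 1`, `i < n` -/
theorem l8ck_cases {Φ : ℝ → ℝ → ℝ → Prop} (h0 : Φ 0 0 0) (hs : ∀ i < I.n, Φ (I.bC (i + 1)) (I.hC (i + 1)) (I.KC (i + 1))) (k : ℕ) :
    Φ (I.bC k) (I.hC k) (I.KC k) := by
  have key : ∀ j ≤ I.n, Φ (I.bC j) (I.hC j) (I.KC j) := by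
    intro j hj
    rcases j with _ | i
    · obtain ⟨e1, e2, e3⟩ := l8ck_zero I
      rw [e1, e2, e3]; exact h0
    · exact hs i hj
  rcases le_total k I.n with h | h
  · exact key k h
  · obtain ⟨e1, e2, e3⟩ := l8ck_late I h
    rw [e1, e2, e3]; exact key _ le_rfl

theorem l8ck_v_succ (k : ℕ) : I.v (k + 1) = I.v k + I.dv (k + 1) := by
  simp [L8In.v, L8In.dv, skGap]

end chain

/-- **TRANSFER**: path facts + link `⟹` chain facts, at one instance -/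
theorem l8ck_clk {I : L8In} {c5 Cb CK v0 D η A : ℝ} (hOk : I.Ok) (hF : I.F.Ok) (hs : l8Siz I.p) (hP : I.p.ClkP I.F I.𝔹 c5 Cb CK v0 D) (hL : I.ClkLk η)
    (hc5 : 0 < c5) (hη0 : 0 ≤ η) (hηU : η ≤ I.U) (hη1 : Cb * η ≤ c5 / 2 * (I.lam * I.U ^ 2)) (hD : D + Cb * η ≤ 1)
    (hA1 : I.p.M ≤ A) (hA2 : D + Cb * η ≤ A * I.x ^ 3) (hA0 : 0 ≤ A) :
    I.Clk (min (c5 / 4) (1 / 16)) (max (max 1 CK) (max (Cb + 1) 16)) v0 A := by
  have ha4 : I.p.a = 4 := by unfold LlPt.a; rw [if_pos hs.1]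
  have ha4' : I.a = 4 := ha4
  have ha0 : 0 < I.a := by rw [ha4']; norm_num
  have hv : ∀ k, I.v k ∈ Icc 0 I.p.a := fun k => pin_ms_bd ha0 _ hL.adm.1 k
  have hdv : ∀ k, 0 ≤ I.dv k := fun k => pin_gap_nonneg ha0 _ hL.adm.1 k
  have hx0 : 0 < I.x := lce_x_pos hOk.pt.N2
  have hl0 : 0 < I.lam := lce_lam_pos hOk.pt
  have hl1 : I.lam ≤ 1 := lce_lam_le_one hOk.pt hF.pS0.le
  have hU0 : 0 < I.U := lce_U_pos hOk.pt
  have hxa : I.x ∈ Icc 0 I.p.a := ⟨hx0.le, by rw [ha4]; linarith [lce_x_lt_one hOk.pt.N2, show I.x = I.p.x from rfl]⟩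
  have hCb : 0 ≤ Cb := (hP.b_nn 0 ⟨le_rfl, by rw [ha4]; norm_num⟩).trans (hP.b_le 0 ⟨le_rfl, by rw [ha4]; norm_num⟩)
  have hCη : 0 ≤ Cb * η := mul_nonneg hCb hη0
  have hD0 : 0 ≤ D := hP.hS_nn.trans hP.hS_le
  set C : ℝ := max (max 1 CK) (max (Cb + 1) 16) with hC
  have hC1 : 1 ≤ C := le_max_of_le_left (le_max_left _ _)
  have hCK : CK ≤ C := le_max_of_le_left (le_max_right _ _)
  have hCb1 : Cb + 1 ≤ C := le_max_of_le_right (le_max_left _ _)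
  have hC16 : 16 ≤ C := le_max_of_le_right (le_max_right _ _)
  -- `hC - h_*` at the cut `i + 1`
  have hdef : ∀ i < I.n, |I.hC (i + 1) - I.p.hS I.F I.𝔹 (I.v i)| ≤ D := by
    intro i hi
    by_cases hvx : I.v i = I.x
    · obtain ⟨j1, j2⟩ := hL.h_jump i hi hvx
      have h1 := abs_le.1 (hP.d_le I.x hxa)
      have e : I.p.d I.F I.𝔹 I.x = I.p.h I.F I.𝔹 I.x - I.p.hS I.F I.𝔹 I.x := rfl
      have h2 : I.p.hS I.F I.𝔹 I.x ≤ D := hP.hS_le
      rw [hvx, abs_le]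
      constructor <;> linarith [h1.2]
    · rw [hL.h_eq i hi hvx]
      exact hP.d_le _ (hv i)
  have hbq : ∀ v ∈ Icc 0 I.p.a, 0 ≤ I.p.b I.F I.𝔹 v * I.p.q I.F I.𝔹 v ∧ I.p.b I.F I.𝔹 v * I.p.q I.F I.𝔹 v ≤ Cb := by
    intro v hv'
    have h1 := hP.b_nn v hv'
    have h2 := hP.b_le v hv'
    have h3 := hP.q_nn v hv'
    have h4 := hP.q_le v hv'
    exact ⟨mul_nonneg h1 h3, by nlinarith⟩
  have hSe : ∀ v, I.p.hS I.F I.𝔹 v = I.p.K I.F I.𝔹 v - I.p.b I.F I.𝔹 v * I.p.q I.F I.𝔹 v := fun _ => rfl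
  refine ⟨hL.adm, ?_, ?_, ?_, ?_, fun k _ => (l8ck_G ha0 hL.adm k).1, fun k _ => ?_, ?_, ?_⟩
  · -- b ≤ C
    intro k
    refine l8ck_cases I (Φ := fun b _ _ => b ≤ C) (by linarith) (fun i hi => ?_) k
    linarith [hL.b_le i hi, hP.b_le _ (hv i)]
  · -- |h - K| ≤ C
    intro k
    refine l8ck_cases I (Φ := fun _ h K => |h - K| ≤ C) (by simp; linarith) (fun i hi => ?_) k
    have h1 := abs_le.1 (hdef i hi)
    have h2 := hbq _ (hv i)
    rw [hL.K_eq i hi, abs_le]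
    have e := hSe (I.v i)
    constructor <;> linarith [h1.1, h1.2, h2.1, h2.2]
  · -- K top
    refine l8ck_cases I (Φ := fun _ _ K => K ≤ A) hA0 (fun i hi => ?_) I.n
    rw [hL.K_eq i hi]
    exact (hP.K_top _ (hv i)).trans hA1
  · -- K ≤ C v
    intro k hk hkv
    rcases k with _ | i
    · rw [(l8ck_zero I).2.2]
      exact mul_nonneg (by linarith) (hv 0).1
    · have h1 : I.v i ≤ I.v (i + 1) := by rw [l8ck_v_succ]; linarith [hdv (i + 1)]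
      rw [hL.K_eq i hk]
      calc I.p.K I.F I.𝔹 (I.v i) ≤ CK * I.v i := hP.K_le _ ⟨(hv i).1, h1.trans hkv⟩
        _ ≤ C * I.v i := mul_le_mul_of_nonneg_right hCK (hv i).1
        _ ≤ C * I.v (i + 1) := mul_le_mul_of_nonneg_left h1 (by linarith)
  · have := (l8ck_G ha0 hL.adm k).2
    have e : I.a ^ 2 = 16 := by rw [ha4']; norm_num
    linarith
  · -- the gap
    intro k hk
    have hc1 : min (c5 / 4) (1 / 16) ≤ c5 / 4 := min_le_left _ _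
    have hc2 : min (c5 / 4) (1 / 16) ≤ 1 / 16 := min_le_right _ _
    have hc0 : 0 < min (c5 / 4) (1 / 16) := lt_min (by linarith) (by norm_num)
    rcases k with _ | i
    · rw [(l8ck_zero I).1, zero_mul, sub_zero]
      have h1 := (hv 0).1
      have h2 := (hv 0).2
      rw [ha4] at h2
      have h3 : I.v 0 ^ 2 ≤ 16 := by nlinarith
      calc min (c5 / 4) (1 / 16) * I.lam * I.v 0 ^ 2 ≤ 1 / 16 * 1 * 16 := by
            refine mul_le_mul (mul_le_mul hc2 hl1 hl0.le (by norm_num)) h3 (sq_nonneg _) (by norm_num)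
        _ = 1 := by norm_num
    · have hg := abs_le.1 (hL.g_link (i + 1) hk)
      rw [hL.K_eq i hk] at hg
      have hgap := hP.gap _ (hv i)
      have hb0 := hP.b_nn _ (hv i)
      have hb1 := hP.b_le _ (hv i)
      have h3' : I.bC (i + 1) * pkX2 I.a I.LP (i + 1) ≤ I.p.b I.F I.𝔹 (I.v i) * pkX2 I.a I.LP (i + 1) :=
        mul_le_mul_of_nonneg_right (hL.b_le i hk) (l8ck_G ha0 hL.adm (i + 1)).1
      have h1 : I.v (i + 1) ≤ I.v i + I.U := by rw [l8ck_v_succ]; linarith [hL.dv_le (i + 1) hk]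
      have h2 : I.v (i + 1) ^ 2 ≤ 2 * (I.v i ^ 2 + I.U ^ 2) := by
        have := (hv (i + 1)).1
        nlinarith [sq_nonneg (I.v i - I.U), (hv i).1]
      have h3 : I.p.b I.F I.𝔹 (I.v i) * pkX2 I.a I.LP (i + 1) ≤ I.p.b I.F I.𝔹 (I.v i) * I.p.Gam1 I.F I.𝔹 (I.p.K I.F I.𝔹 (I.v i)) + Cb * η := by
        have : I.p.b I.F I.𝔹 (I.v i) * η ≤ Cb * η := mul_le_mul_of_nonneg_right hb1 hη0
        nlinarith [hg.2]
      have h4 : min (c5 / 4) (1 / 16) * I.lam * I.v (i + 1) ^ 2 ≤ c5 / 2 * (I.lam * (I.v i ^ 2 + I.U ^ 2)) := by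
        calc min (c5 / 4) (1 / 16) * I.lam * I.v (i + 1) ^ 2 ≤ c5 / 4 * I.lam * (2 * (I.v i ^ 2 + I.U ^ 2)) :=
              mul_le_mul (mul_le_mul_of_nonneg_right hc1 hl0.le) h2 (sq_nonneg _) (by positivity)
          _ = c5 / 2 * (I.lam * (I.v i ^ 2 + I.U ^ 2)) := by ring
      have h5 : c5 / 2 * (I.lam * I.U ^ 2) ≤ c5 / 2 * (I.lam * (I.v i ^ 2 + I.U ^ 2)) := by
        refine mul_le_mul_of_nonneg_left (mul_le_mul_of_nonneg_left ?_ hl0.le) (by linarith)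
        nlinarith [sq_nonneg (I.v i)]
      have e : c5 * I.p.lam * (I.v i ^ 2 + I.p.U I.F ^ 2) = c5 / 2 * (I.lam * (I.v i ^ 2 + I.U ^ 2)) + c5 / 2 * (I.lam * (I.v i ^ 2 + I.U ^ 2)) := by
        show c5 * I.lam * (I.v i ^ 2 + I.U ^ 2) = _
        ring
      linarith
  · -- the defect
    intro k hk
    rcases k with _ | i
    · obtain ⟨e1, e2, e3⟩ := l8ck_zero I
      have : I.d 0 = 0 := by unfold L8In.d; rw [e1, e2, e3]; ring
      rw [this, abs_zero]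
      positivity
    · have h1 := abs_le.1 (hdef i hk)
      have h2 := abs_le.1 (hL.q_left i hk)
      have hb0 := hP.b_nn _ (hv i)
      have hb1 := hP.b_le _ (hv i)
      have e : I.d (i + 1) = (I.hC (i + 1) - I.p.hS I.F I.𝔹 (I.v i)) + (I.bC (i + 1) * I.q (i + 1) - I.p.b I.F I.𝔹 (I.v i) * I.p.q I.F I.𝔹 (I.v i)) := by
        unfold L8In.d
        rw [hL.K_eq i hk, hSe]; ring
      have h3 : |I.bC (i + 1) * I.q (i + 1) - I.p.b I.F I.𝔹 (I.v i) * I.p.q I.F I.𝔹 (I.v i)| ≤ Cb * η := by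
        rcases (hv i).1.eq_or_lt with h0 | h0
        · have hq := hL.q_left i hk
          rw [← h0, hP.q_zero, sub_zero] at hq
          rw [← h0, hP.q_zero, mul_zero, sub_zero, abs_mul, abs_of_nonneg (hL.b_nn i hk)]
          exact mul_le_mul ((hL.b_le i hk).trans hb1) hq (abs_nonneg _) hCb
        · rw [hL.b_eq i hk h0, ← mul_sub, abs_mul, abs_of_nonneg hb0]
          exact mul_le_mul hb1 (hL.q_left i hk) (abs_nonneg _) hCb
      refine le_trans ?_ hA2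
      rw [e]
      exact (abs_add_le _ _).trans (add_le_add (hdef i hk) h3)

/-! ## 4. the exit form -/

/-- EXIT FORM of the chain level clock facts: the constants may depend on everything but `N`; the loss is subpower -/
def L8xClk (𝔹 : LlBase) (T : ℝ) : Prop :=
  ∀ F0, L8Fix 𝔹 T F0 → ∀ (pB : LLParB) (pS : ℝ), 0 < pS → pS ≤ 1 → ∃ c C v0 : ℝ, 0 < c ∧ 1 ≤ C ∧ 0 < v0 ∧ ∀ ε : ℝ, 0 < ε → ∃ N0 : ℕ,
    L8Ev (F0.wExp pB.sStar pB.eta pS) 𝔹 N0 l8Siz fun I => I.Clk c C v0 (I.x ^ (-ε))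

/-- FORM of the link: ALL points (direct and smoothed) -/
def L8ckLk (𝔹 : LlBase) (T : ℝ) : Prop :=
  ∀ F0, L8Fix 𝔹 T F0 → ∀ (pB : LLParB) (pS : ℝ), 0 < pS → pS ≤ 1 → ∃ N0 : ℕ,
    L8Ev (F0.wExp pB.sStar pB.eta pS) 𝔹 N0 (fun _ => True) fun I => I.ClkLk (I.x ^ 16)

/-- **GLUE** -/
theorem l8ck_of_lk {𝔹 : LlBase} {T : ℝ} (hlk : L8ckLk 𝔹 T) : L8xClk 𝔹 T := by
  intro F0 hF pB pS h0 h1
  have hE := llc_expOk pB h0 h1
  have h3 := (hF.2.2 _ _ _ hE).sec3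
  have hB : LlBaseProfile 𝔹 (F0.wExp pB.sStar pB.eta pS).T := by
    rw [show (F0.wExp pB.sStar pB.eta pS).T = T from hF.1]; exact hF.2.1
  obtain ⟨c5, Cb, CK, v0, Cd, hc5, hv0, Np, hp⟩ := l8ck_path h3 hB
  refine ⟨min (c5 / 4) (1 / 16), max (max 1 CK) (max (Cb + 1) 16), v0, lt_min (by linarith) (by norm_num),
    le_max_of_le_left (le_max_left _ _), hv0, fun ε hε => ?_⟩
  obtain ⟨Nl, hl⟩ := hlk F0 hF pB pS h0 h1
  obtain ⟨N1, hN1⟩ := l8ck_ev (l8ck_log3 hε)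
  obtain ⟨N2, hN2⟩ := l8ck_ev (l8ck_log1 hε (Cd + 1))
  obtain ⟨N3, hN3⟩ := l8ck_ev (l8ck_log1 one_pos (Cd + 1))
  obtain ⟨N4, hN4⟩ := l8ck_small |Cb| (min 1 (c5 / 2)) (lt_min one_pos (by linarith))
  refine ⟨max (max (max Np Nl) (max N1 N2)) (max N3 N4), ?_⟩
  intro N s hN
  filter_upwards [hl N s (by omega)] with Fs hFs ell lam chiL chiE sm γ m hR hOk
  have hL := hFs ell lam chiL chiE sm γ m trivial hOk
  set I : L8In := ⟨F0.wExp pB.sStar pB.eta pS, 𝔹, ll04Pt N ell lam chiL chiE sm γ, m, s, Fs⟩ with hI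
  have hIN : I.p.N = N := rfl
  have hP := hp I.p hOk.pt (by rw [hIN]; omega) hR
  have hx0 : 0 < I.p.x := lce_x_pos hOk.pt.N2
  have hx1 : I.p.x < 1 := lce_x_lt_one hOk.pt.N2
  have n1 := hN1 I.p (by rw [hIN]; omega)
  have n2 := hN2 I.p (by rw [hIN]; omega)
  have n3 := hN3 I.p (by rw [hIN]; omega)
  have n4 := hN4 I.p (by rw [hIN]; omega)
  have hCbx : Cb * I.p.x ≤ |Cb| * I.p.x := mul_le_mul_of_nonneg_right (le_abs_self _) hx0.le
  have hCb0 : 0 ≤ |Cb| * I.p.x := by positivity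
  have hA : I.x ^ (-ε) = I.p.x⁻¹ ^ ε := l8ck_x_neg hOk.pt.N2 ε
  have hx3 : 0 < I.p.x ^ 3 := by positivity
  -- `C_b η ≤ x³`
  have hp13 : I.p.x ^ 12 ≤ 1 := pow_le_one₀ hx0.le hx1.le
  have e1 : Cb * I.x ^ 16 ≤ I.p.x ^ 3 * 1 := by
    have : Cb * I.x ^ 16 = I.p.x ^ 3 * ((Cb * I.p.x) * I.p.x ^ 12) := by show Cb * I.p.x ^ 16 = _; ring
    rw [this]
    refine mul_le_mul_of_nonneg_left ?_ hx3.le
    calc Cb * I.p.x * I.p.x ^ 12 ≤ |Cb| * I.p.x * I.p.x ^ 12 := mul_le_mul_of_nonneg_right hCbx (by positivity)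
      _ ≤ 1 * 1 := mul_le_mul (n4.trans (min_le_left _ _)) hp13 (by positivity) (by norm_num)
      _ = 1 := by norm_num
  have e2 : I.p.x ^ 3 * (Real.log (2 * I.p.x⁻¹) + Cd) + Cb * I.x ^ 16 ≤ I.p.x ^ 3 * (Real.log (2 * I.p.x⁻¹) + (Cd + 1)) := by
    nlinarith
  refine l8ck_clk hOk h3.ok hR hP hL hc5 (by positivity) ?_ ?_ ?_ ?_ ?_ (Real.rpow_nonneg hx0.le _)
  · -- η ≤ U
    refine le_trans ?_ (lce_x_le_U hOk.pt h3.ok.pS0.le h3.ok.sS0.le)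
    calc I.x ^ 16 = I.p.x * I.p.x ^ 15 := by show I.p.x ^ 16 = _; ring
      _ ≤ I.p.x * 1 := mul_le_mul_of_nonneg_left (pow_le_one₀ hx0.le hx1.le) hx0.le
      _ = I.p.x := mul_one _
  · -- C_b η ≤ (c5/2) λ U²
    have h14 := l8ck_lamU2_lo h3.ok hOk.pt
    calc Cb * I.x ^ 16 = (Cb * I.p.x) * I.p.x * I.p.x ^ 14 := by show Cb * I.p.x ^ 16 = _; ring
      _ ≤ (|Cb| * I.p.x) * I.p.x * I.p.x ^ 14 := by
          refine mul_le_mul_of_nonneg_right (mul_le_mul_of_nonneg_right hCbx hx0.le) (by positivity)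
      _ ≤ (c5 / 2) * 1 * I.p.x ^ 14 := by
          refine mul_le_mul_of_nonneg_right (mul_le_mul (n4.trans (min_le_right _ _)) hx1.le hx0.le (by linarith)) (by positivity)
      _ ≤ c5 / 2 * (I.lam * I.U ^ 2) := by
          rw [mul_one]
          exact mul_le_mul_of_nonneg_left h14 (by linarith)
  · -- D + C_b η ≤ 1
    refine e2.trans ?_
    rw [Real.rpow_one] at n3
    calc I.p.x ^ 3 * (Real.log (2 * I.p.x⁻¹) + (Cd + 1)) ≤ I.p.x ^ 3 * I.p.x⁻¹ := mul_le_mul_of_nonneg_left n3 hx3.le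
      _ = I.p.x ^ 2 := by field_simp
      _ ≤ 1 := pow_le_one₀ hx0.le hx1.le
  · -- M ≤ A
    rw [hA]
    unfold LlPt.M
    rwa [one_div]
  · rw [hA]
    refine e2.trans ?_
    rw [mul_comm (I.p.x⁻¹ ^ ε)]
    exact mul_le_mul_of_nonneg_left n2 hx3.le

/-! ## 5. the link -/

/-- a modulus of a clock on `[0,a]` off the masses of `J` is a modulus of its clamp -/
theorem l8ck_mod {a : ℝ} {c : ℝ → ℝ} {J : Finset ℝ} {δ η : ℝ} (ha : 0 ≤ a) (hη : 0 ≤ η) (h0 : (0 : ℝ) ∈ J ∨ c 0 = 0)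
    (hc : ∀ v v', 0 ≤ v → v ≤ v' → v' ≤ a → v' - v ≤ δ → (∀ j ∈ J, ¬ (v < j ∧ j ≤ v')) → c v' - c v ≤ η) :
    L8fMod (ghClamp a c) J δ η := by
  intro w w' hww hd hfree
  unfold ghClamp
  by_cases hw' : w' < 0
  · rw [if_pos hw', if_pos (lt_of_le_of_lt hww hw')]
    simpa using hη
  · have hw'0 : 0 ≤ w' := not_lt.1 hw'
    rw [if_neg hw']
    by_cases hw : w < 0
    · rw [if_pos hw, sub_zero]
      rcases h0 with h0 | h0
      · exact absurd ⟨hw, hw'0⟩ (hfree 0 h0)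
      · have := hc 0 (min w' a) le_rfl (le_min hw'0 ha) (min_le_right _ _) (by linarith [min_le_left w' a])
          (fun j hj h => hfree j hj ⟨by linarith [h.1], h.2.trans (min_le_left _ _)⟩)
        rw [h0, sub_zero] at this
        exact this
    · have hw0 : 0 ≤ w := not_lt.1 hw
      rw [if_neg hw]
      refine hc (min w a) (min w' a) (le_min hw0 ha) (min_le_min_right a hww) (min_le_right _ _) ?_ (fun j hj h => ?_)
      · rcases le_total w a with h1 | h1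
        · rw [min_eq_left h1]; linarith [min_le_left w' a]
        · rw [min_eq_right h1, min_eq_right (h1.trans hww)]; linarith
      · rcases le_total w a with h1 | h1
        · rw [min_eq_left h1] at h
          exact hfree j hj ⟨h.1, h.2.trans (min_le_left _ _)⟩
        · rw [min_eq_right h1] at h
          linarith [h.1, h.2.trans (min_le_right w' a)]

/-- the clocks at one point: admissible, continuous off the jump of `b` at `0` and the jump of `h` at the mask `x` -/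
structure LlPt.ClkC (p : LlPt) (F : LlFix) (𝔹 : LlBase) : Prop where
  cb : GhClk1 p.a (p.b F 𝔹)
  ch : GhClk1 p.a (p.h F 𝔹)
  cK : GhClk1 p.a (p.K F 𝔹)
  mb : ∀ η > 0, ∃ δ > 0, L8fMod (ghClamp p.a (p.b F 𝔹)) {0} δ η
  mh : ∀ η > 0, ∃ δ > 0, L8fMod (ghClamp p.a (p.h F 𝔹)) {p.x} δ η
  mK : ∀ η > 0, ∃ δ > 0, L8fMod (ghClamp p.a (p.K F 𝔹)) ∅ δ η

theorem l8ck_cont {F : LlFix} {𝔹 : LlBase} (h3 : LlSec3 𝔹 F) (hB : LlBaseProfile 𝔹 F.T) :
    ∃ N0 : ℕ, ∀ p : LlPt, p.Ok F → N0 ≤ p.N → p.ClkC F 𝔹 := by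
  obtain ⟨ca, Ca, hca, Na, ha⟩ := h3.adm
  obtain ⟨Ne, he⟩ := h3.equi
  refine ⟨max Na Ne, fun p hp hN => ?_⟩
  obtain ⟨mb, mh, mhS, mK, mq, bd, binc, bmask⟩ := ha p hp (by omega)
  have ham := lce_a_mem hp
  have ha0 : 0 ≤ p.a := by linarith [ham.1]
  have h0a : (0 : ℝ) ∈ Icc 0 p.a := ⟨le_rfl, ha0⟩
  have hx0 := lce_x_pos hp.N2
  have hh0 : p.h F 𝔹 0 = 0 := by unfold LlPt.h; rw [if_pos hx0]
  have hK0 := lce_K_zero h3.ok hB hp
  refine ⟨⟨mb, hca.le.trans (bd 0 h0a).1⟩, ⟨mh, (bd 0 h0a).2.2.1⟩, ⟨mK, (bd 0 h0a).2.2.2.2⟩, fun η hη => ?_, fun η hη => ?_, fun η hη => ?_⟩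
  · obtain ⟨δ, hδ, H⟩ := he p.N (by omega) η hη
    exact ⟨δ, hδ, l8ck_mod ha0 hη.le (Or.inl (Finset.mem_singleton_self 0)) fun v v' h1 h2 h3 h4 _ => (H p hp rfl v v' h1 h2 h3 h4).2.2.1⟩
  · obtain ⟨δ, hδ, H⟩ := he p.N (by omega) η hη
    refine ⟨δ, hδ, l8ck_mod ha0 hη.le (Or.inr hh0) fun v v' h1 h2 h3 h4 hfree => (H p hp rfl v v' h1 h2 h3 h4).2.2.2.2 ?_⟩
    rcases lt_or_ge v p.x with h | h
    · left
      by_contra hc
      exact hfree p.x (Finset.mem_singleton_self _) ⟨h, not_lt.1 hc⟩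
    · exact Or.inr h
  · obtain ⟨δ, hδ, H⟩ := he p.N (by omega) η hη
    exact ⟨δ, hδ, l8ck_mod ha0 hη.le (Or.inr hK0) fun v v' h1 h2 h3 h4 _ => (H p hp rfl v v' h1 h2 h3 h4).1⟩

/-- the chain of the instance is the sorted list of the valid positions of a finite set      (the definition of `L9I.ps` is unfolded HERE and in `l8ck_lk` only) -/
theorem l8ck_ps (I : L8In) : ∃ Fs' : Finset GhPos, I.i9.ps I.p = ghPs I.p.a Fs' := ⟨l9Fl I.Fs, rfl⟩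

/-- **EXACT VALUES**: the cut `k + 1` reads the clocks at the mass `v k`, on EVERY chain -/
theorem l8ck_vals {I : L8In} (hC : I.p.ClkC I.F I.𝔹) (ha : 0 ≤ I.p.a) {k : ℕ} (hk : k < I.n) :
    (0 ≤ I.bC (k + 1) ∧ I.bC (k + 1) ≤ I.p.b I.F I.𝔹 (I.v k) ∧ (0 < I.v k → I.bC (k + 1) = I.p.b I.F I.𝔹 (I.v k))) ∧
    I.KC (k + 1) = I.p.K I.F I.𝔹 (I.v k) ∧ (I.v k ≠ I.x → I.hC (k + 1) = I.p.h I.F I.𝔹 (I.v k)) ∧
    (0 ≤ I.hC (k + 1) ∧ I.hC (k + 1) ≤ I.p.h I.F I.𝔹 (I.v k)) := by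
  obtain ⟨Fs', hps⟩ := l8ck_ps I
  have hall : ∀ r ∈ I.i9.ps I.p, r.Ok I.p.a := by
    rw [hps]
    intro r hr
    exact (gh_os_ps_mem.1 hr).2
  have hlen : I.n = (I.i9.ps I.p).length := l8f_stp_length I.p.a _ _ _ (I.i9.ps I.p) 0 0 0
  have hk' : k < (I.i9.ps I.p).length := hlen ▸ hk
  obtain ⟨e1, e2, e3⟩ := l8f_cum I.p.a (I.p.b I.F I.𝔹) (I.p.h I.F I.𝔹) (I.p.K I.F I.𝔹) (I.i9.ps I.p) k hk'
  have ev : I.v k = (I.i9.ps I.p)[k].u := l8f_ms_lt I.p.a _ _ _ (I.i9.ps I.p) k hk'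
  have hok := hall _ (List.getElem_mem hk')
  have eb : I.bC (k + 1) = ghAt I.p.a (I.p.b I.F I.𝔹) (I.i9.ps I.p)[k] := e1
  have eh : I.hC (k + 1) = ghAt I.p.a (I.p.h I.F I.𝔹) (I.i9.ps I.p)[k] := e2
  have eK : I.KC (k + 1) = ghAt I.p.a (I.p.K I.F I.𝔹) (I.i9.ps I.p)[k] := e3
  rw [eb, eh, eK, ev]
  have hbm := l8f_at_mem ha hC.cb hC.mb hok
  refine ⟨⟨hbm.1, hbm.2, fun h => l8f_at_cont ha hC.cb hC.mb hok (Or.inl ?_)⟩, l8f_at_cont ha hC.cK hC.mK hok (Or.inl (by simp)),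
    fun h => l8f_at_cont ha hC.ch hC.mh hok (Or.inl ?_), l8f_at_mem ha hC.ch hC.mh hok⟩
  · rw [Finset.mem_singleton]; exact h.ne'
  · rw [Finset.mem_singleton]; exact h

/-- the mass profile in use is admissible (direct: `LlSec3.dirProf`; smoothed: `lsw_Asm_prof`, which does not see `v_b`) -/
theorem l8ck_prof {F : LlFix} {𝔹 : LlBase} (h3 : LlSec3 𝔹 F) :
    ∃ N0 : ℕ, ∀ p : LlPt, p.Ok F → N0 ≤ p.N → LpqProf (p.Aprof F 𝔹) (if p.sm then p.M else 𝔹.xiS F.T) (p.a / p.ell) := by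
  obtain ⟨hpT, N1, H1⟩ := h3.dirProf
  have hF := h3.ok
  set F' : LlFix := { F with vb := 1 / 4 } with hF'd
  have hF' : F'.Ok := { hF with vb0 := by norm_num }
  have cv : ∀ p : LlPt, p.Ok F' → p.Ok F := fun p h => ⟨h.N2, h.ell1, h.ell2, h.lam_lo, h.lam_hi, h.g0, h.gu, h.chiL, h.chiE, h.sm_fin⟩
  have cv' : ∀ p : LlPt, p.Ok F → p.Ok F' := fun p h => ⟨h.N2, h.ell1, h.ell2, h.lam_lo, h.lam_hi, h.g0, h.gu, h.chiL, h.chiE, h.sm_fin⟩
  have hprof' : LlDirProf 𝔹 F' := ⟨hpT, N1, fun p hp hN => H1 p (cv p hp) hN⟩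
  obtain ⟨N2, H2⟩ := lsw_ok_large 𝔹 F' hF' (by norm_num) hprof'
  refine ⟨max N1 N2, fun p hp hN => ?_⟩
  have hell : 0 < p.ell := by linarith [hp.ell1]
  cases hsm : p.sm with
  | false =>
    have eA : p.Aprof F 𝔹 = p.Adir F 𝔹 := by unfold LlPt.Aprof; rw [hsm]; rfl
    have ea : p.a / p.ell = 1 := by rw [lce_a_direct hsm, div_self hell.ne']
    rw [eA, ea]
    simpa using (H1 p hp (by omega)).1
  | true =>
    have ok := H2 p (cv' p hp) (by omega) hsm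
    have h := lsw_Asm_prof ok
    have eA : p.Aprof F 𝔹 = p.Asm F' 𝔹 := by rw [lsw_sm_Aprof p F 𝔹 hsm]; rfl
    rw [eA, lsw_sm_a p hsm]
    simpa using h

/-- `l9v_ev` of 120 on the chains IN USE `ghPs p.a (l9Fl Fs)` (the grids survive the filter: `l9_fl_grid`) -/
theorem l8ck_V_ev (F : LlFix) (N : ℕ) {η : ℝ} (hη : 0 < η) : ∀ᶠ Fs : Finset GhPos in atTop, ∀ p : LlPt, p.N = N → p.Ok F →
    LpqProf (p.Aprof F llBase) (if p.sm then p.M else llBase.xiS F.T) (p.a / p.ell) → L9vV p F (ghPs p.a (l9Fl Fs)) η := by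
  set p0 : LlPt := ⟨N, 1, 1, 0, fun _ => 0, 0, 0, false⟩ with hp0
  set τ : ℝ := max 0 (max p0.M (llBase.xiS F.T)) with hτd
  obtain ⟨C, hC0, hC⟩ := l9v_pt τ (le_max_left _ _)
  obtain ⟨k, hk⟩ := slc_pow_small (C := C * 4) hη
  filter_upwards [eventually_ge_atTop (ghGrid 4 k)] with Fs hFs p hN hp hA
  obtain ⟨hj, ha4⟩ := l9v_pt_rg hp
  have hΞ : (if p.sm then p.M else llBase.xiS F.T) ≤ τ := by
    split_ifs
    · rw [l9v_M_congr (p' := p0) hN]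
      exact (le_max_left _ _).trans (le_max_right _ _)
    · exact (le_max_right _ _).trans (le_max_right _ _)
  have h := hC p F _ (4 / 2 ^ k) (ghPs p.a (l9Fl Fs)) hp.ell1 hj ha4 hA hΞ (by positivity) (l9v_net_ps (by norm_num) k (l9_fl_grid hFs) ha4)
  have hle : C * (4 / 2 ^ k) ≤ η := by
    have : C * (4 / 2 ^ k) = C * 4 / 2 ^ k := by ring
    rw [this]
    exact hk.le
  exact ⟨fun t ht k h1 h4 z => (h.jet t ht k h1 h4 z).trans hle, fun t ht => (h.gam t ht).trans hle,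
    fun t ht => (h.gam1 t ht).trans hle, fun k hk => (h.q k hk).trans hle, h.pos, h.cut⟩

/-- **THE LINK**, at ALL points (direct and smoothed).   `adm`, `dv_le`: `l8g_fine`;  the values of the clocks: `l8ck_vals` (every chain);  `q_left`, `g_link`: `l8ck_V_ev` (= `l9v_ev` of 120 on the chains in use) -/
theorem l8ck_lk (T : ℝ) (hT : 1 < T) : L8ckLk llBase T := by
  intro F0 hF pB pS h0 h1
  have hE := llc_expOk pB h0 h1
  have h3 := (hF.2.2 _ _ _ hE).sec3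
  have hB : LlBaseProfile llBase (F0.wExp pB.sStar pB.eta pS).T := by
    rw [show (F0.wExp pB.sStar pB.eta pS).T = T from hF.1]; exact hF.2.1
  obtain ⟨Nc, hc⟩ := l8ck_cont h3 hB
  obtain ⟨Np, hp⟩ := l8ck_prof h3
  have hpos : ∀ N : ℕ, 2 ≤ N → 0 < ((N : ℝ) ^ (-(1 / 6) : ℝ)) ^ 16 := fun N hN =>
    pow_pos (Real.rpow_pos_of_pos (by exact_mod_cast (by omega : 0 < N)) _) _
  obtain ⟨Nf, hf⟩ := l8g_fine T hT F0 hF pB pS h0 h1 (fun N => ((N : ℝ) ^ (-(1 / 6) : ℝ)) ^ 16) hpos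
  refine ⟨max (max Nc Np) (max Nf 2), ?_⟩
  intro N s hN
  filter_upwards [hf N s (by omega), l8ck_V_ev (F0.wExp pB.sStar pB.eta pS) N (hpos N (by omega))] with Fs hFs hV ell lam chiL chiE sm γ m hR hOk
  have hfine := hFs ell lam chiL chiE sm γ m trivial hOk
  set I : L8In := ⟨F0.wExp pB.sStar pB.eta pS, llBase, ll04Pt N ell lam chiL chiE sm γ, m, s, Fs⟩ with hI
  have hIN : I.p.N = N := rfl
  have hVV : L9vV I.p I.F (ghPs I.p.a (l9Fl Fs)) (I.x ^ 16) := hV I.p rfl hOk.pt (hp I.p hOk.pt (by rw [hIN]; omega))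
  have hC := hc I.p hOk.pt (by rw [hIN]; omega)
  have ha : 0 ≤ I.p.a := by linarith [(lce_a_mem hOk.pt).1]
  refine ⟨hfine.adm, hfine.dv_le, fun k hk => (l8ck_vals hC ha hk).1.1, fun k hk => (l8ck_vals hC ha hk).1.2.1,
    fun k hk => (l8ck_vals hC ha hk).1.2.2, fun k hk => (l8ck_vals hC ha hk).2.1, fun k hk => (l8ck_vals hC ha hk).2.2.1,
    fun k hk hv => ?_, fun k hk => ?_, fun k _ => ?_⟩
  · have := (l8ck_vals hC ha hk).2.2.2
    rwa [hv] at this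
  · have h1 := hVV.q (k + 1) hk
    have h2 : llCumK (l9vP I.p I.F (ghPs I.p.a (l9Fl Fs))) (k + 1) = I.p.K I.F I.𝔹 (I.v k) := (l8ck_vals hC ha hk).2.1
    rw [h2] at h1
    exact h1
  · have h1 := hVV.g k
    unfold l9vPi at h1
    rw [ick_pi] at h1
    exact h1

/-- **PRODUCER of the chain level clock facts** -/
theorem l8hs_clk (T : ℝ) (hT : 1 < T) : L8xClk llBase T := l8ck_of_lk (l8ck_lk T hT)

theorem l8ck_eqns_cite : True := by
  have := @L8xClk.eq_1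
  have := @L8ckLk.eq_1
  trivial

end Claimed.Agent.R286
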