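import Claimed.Agent.R286.L08.LsAbs
import Claimed.Agent.R286.L08.HiCtx
import Claimed.Agent.R286.Fd.TrA1

/-!
# Row 286 (S0533), folder L08, file LsCh : FLAT CHARTS of the absolute allocation measure      (architect helper234; prefix `L8L` / `l8l_`)

PURE COMBINATORICS on `Defs/Tr.lean` (`trAbs`, `trAbsK`, `trWt`, `trAtt`).   LL 08 l.1369-1383 ("on each fixed tree shape the absolute joint density of freely placed distinct fork
vertices is bounded ... ties to a low vertex reuse its freely integrated coordinate ... no initially free low fork requires an atomic time measure"); design D4 of helper60.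

`L8LCharted .. 𝓐` : the functional `𝓐` on LOCAL functions of tables with `q` labels is a finite sum of chart sums with bounded nonnegative densities.
* base: `𝓐 Φ = Φ (jtTab2 N t0)`: one chart, two vertices: `0` = the old fork (atom at `t0`), `1` = "coincidence / diagonal" (atom at `N + 1`);
* step: one more label `q`.  For `τ = tab co`:  `trAbs ms N q τ Φ = ∑_{x < q} ∑_{j ≤ N+1} |trWt ..| Φ (trAtt N q τ x j)`.   New charts = old chart × type, one more vertex `Fin.last nv`: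
   with `Z = {z < q : j ≤ τ x z}` (the labels through the attachment point; an indicator in the density),
   T1 `(x, Z)`  `j = N + 1` (coincidence, weight `ms N`): new vertex unused, atom at `N + 1`; `vtx' q z = vtx x z`, `vtx' q q = vtx x x`;
   T2 `(x, Z)`  `j ≤ N`, `trDeg = 1` (NEW FORK inside an edge, weight `ms j - trPm ms j = mu j`): reference measure `mu` on the levels `≤ N`; `vtx' q z = last` for `z ∈ Z`, `= vtx x z` otherwise;
   T3 `(x, Z, z₀)`  `j = τ x z₀ ≤ N`, `z₀` least (EXISTING FORK, weight `≤ q * ms N`): new vertex unused (atom at `N + 1`); `vtx' q z = vtx x z₀` for `z ∈ Z`, `= vtx x z` otherwise.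
   `vtx' q q = vtx x x` (diagonal).  Labels `> q`: anything (only local `Φ`).   `Val.same` is checked in the header of the step lemma.
-/

set_option autoImplicit false

namespace Claimed.Agent.R286

open Finset

/-- weight of the level `l` in mass integrals -/
def l8lMu (ms : ℕ → ℝ) (N l : ℕ) : ℝ := if l ≤ N then ms l - trPm ms l else 0

/-- the functional `𝓐` on local functions of tables with `q` labels is a sum of at most `nch` chart sums (`nv` vertices, levels `≤ N + 1`) with densities in `[0, Cch]` -/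
def L8LCharted (N : ℕ) (mu : ℕ → ℝ) (t0 ti q nv nch : ℕ) (Cch A0 : ℝ) (𝓐 : (JtTopo → ℝ) → ℝ) : Prop :=
  ∃ (ι : Type) (_ : Fintype ι) (Ch : ι → L8LCh nv) (ρ : ι → (Fin nv → ℕ) → ℝ), Fintype.card ι ≤ nch ∧
    (∀ i, (Ch i).Ok mu ti A0) ∧ (∀ i, (Ch i).L = N + 2) ∧ (∀ i co, 0 ≤ ρ i co ∧ ρ i co ≤ Cch) ∧
    (∀ i co, ρ i co ≠ 0 → (Ch i).Val (IsTr N q) q t0 ti co) ∧
    ∀ Φ, JtLoc q Φ → 𝓐 Φ = ∑ i, ∑ co ∈ (Ch i).box, (Ch i).wt co * ρ i co * Φ ((Ch i).tab co)

/-- a table with two values: `N + 1` on the relation `e`, `t0` off it -/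
theorem l8l_ch_base_gen (N : ℕ) (mu : ℕ → ℝ) (hmu : ∀ l, 0 ≤ mu l) (t0 ti q : ℕ) (h1 : ti ≤ t0) (h2 : t0 ≤ N) (A0 : ℝ) (hA0 : 1 ≤ A0)
    (e : ℕ → ℕ → Prop) [DecidableRel e] (hsymm : ∀ x y, e x y ↔ e y x) (h01 : ¬ e 0 1)
    (htr : IsTr N q fun x y => if e x y then N + 1 else t0) :
    L8LCharted N mu t0 ti q 2 1 1 A0 fun Φ => Φ fun x y => if e x y then N + 1 else t0 := by
  set cs : Fin 2 → ℕ := fun j => if j = 0 then t0 else N + 1 with hcs
  set Ch : L8LCh 2 := ⟨fun x y => if e x y then 1 else 0, fun j l => if l = cs j then 1 else 0, N + 2⟩ with hCh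
  have hcsge : ∀ j, ti ≤ cs j := by
    intro j
    simp only [hcs]
    split_ifs <;> omega
  have hcslt : ∀ j, cs j < N + 2 := by
    intro j
    simp only [hcs]
    split_ifs <;> omega
  have htab : Ch.tab cs = fun x y => if e x y then N + 1 else t0 := by
    funext x y
    simp only [L8LCh.tab, hCh, hcs]
    by_cases h : e x y <;> simp [h]
  refine ⟨Unit, inferInstance, fun _ => Ch, fun _ co => if co = cs then 1 else 0, by simp, ?_, fun _ => rfl, ?_, ?_, ?_⟩
  · intro _
    refine ⟨?_, ?_, ?_, ?_⟩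
    · intro x y
      simp only [hCh]
      by_cases h : e x y
      · rw [if_pos h, if_pos ((hsymm x y).1 h)]
      · rw [if_neg h, if_neg (fun h' => h ((hsymm x y).2 h'))]
    · intro j l
      simp only [hCh]
      split_ifs <;> norm_num
    · intro j
      simp only [hCh]
      rw [Finset.sum_ite_eq' (range (N + 2)) (cs j) (fun _ => (1 : ℝ)), if_pos (Finset.mem_range.2 (hcslt j))]
      exact hA0
    · intro j l hl
      simp only [hCh]
      rw [if_neg (by have := hcsge j; omega)]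
      exact hmu l
  · intro _ co
    beta_reduce
    split_ifs <;> norm_num
  · intro _ co hco
    beta_reduce at hco ⊢
    have hc : co = cs := by
      by_contra h
      exact hco (if_neg h)
    subst hc
    refine ⟨?_, ?_, ?_⟩
    · rw [htab]; exact htr
    · simp [hCh, hcs, h01]
    · intro x y x' y' _ _ _ _ _ _ _ hlow _
      exact absurd hlow (by have := hcsge (Ch.vtx x y); omega)
  · intro Φ _
    simp only [Finset.univ_unique, Finset.sum_singleton]
    rw [Finset.sum_eq_single cs]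
    · rw [if_pos rfl, htab]
      have : Ch.wt cs = 1 := by
        simp [L8LCh.wt, hCh]
      rw [this]
      ring
    · intro co _ hne
      rw [if_neg hne]
      ring
    · intro hn
      exfalso
      apply hn
      simp only [L8LCh.box, Fintype.mem_piFinset]
      intro j
      exact Finset.mem_range.2 (hcslt j)

theorem l8l_tab2_isTr (N t0 q : ℕ) (h2 : t0 ≤ N) (e : ℕ → ℕ → Prop) [DecidableRel e] (hr : ∀ x, e x x) (hs : ∀ x y, e x y → e y x)
    (ht : ∀ x y z, e x y → e y z → e x z) : IsTr N q fun x y => if e x y then N + 1 else t0 := by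
  refine ⟨?_, ?_, ?_, ?_⟩
  · intro x y _ _
    split_ifs <;> omega
  · intro x _
    simp [hr x]
  · intro x y _ _
    by_cases h : e x y
    · rw [if_pos h, if_pos (hs _ _ h)]
    · rw [if_neg h, if_neg (fun h' => h (hs _ _ h'))]
  · intro x y z _ _ _
    by_cases h1 : e x y <;> by_cases h3 : e y z <;> by_cases h4 : e x z <;> simp [h1, h3, h4] <;> first | omega | (exact absurd (ht _ _ _ h1 h3) h4)

/-- base: the old pair alone -/
theorem l8l_ch_base (N : ℕ) (mu : ℕ → ℝ) (hmu : ∀ l, 0 ≤ mu l) (t0 ti : ℕ) (h1 : ti ≤ t0) (h2 : t0 ≤ N) (A0 : ℝ) (hA0 : 1 ≤ A0) :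
    L8LCharted N mu t0 ti 2 2 1 1 A0 fun Φ => Φ (jtTab2 N t0) :=
  l8l_ch_base_gen N mu hmu t0 ti 2 h1 h2 A0 hA0 (fun x y => x = y) (fun _ _ => eq_comm) (by norm_num)
    (l8l_tab2_isTr N t0 2 h2 _ (fun _ => rfl) (fun _ _ h => h.symm) (fun _ _ _ h h' => h.trans h'))

/-- base: the old pair, each label doubled (`2 = 0`, `3 = 1`) -/
theorem l8l_ch_baseO (N : ℕ) (mu : ℕ → ℝ) (hmu : ∀ l, 0 ≤ mu l) (t0 ti : ℕ) (h1 : ti ≤ t0) (h2 : t0 ≤ N) (A0 : ℝ) (hA0 : 1 ≤ A0) :
    L8LCharted N mu t0 ti 4 2 1 1 A0 fun Φ => Φ (jtTabO N t0) :=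
  l8l_ch_base_gen N mu hmu t0 ti 4 h1 h2 A0 hA0 (fun x y => x % 2 = y % 2) (fun _ _ => eq_comm) (by norm_num)
    (l8l_tab2_isTr N t0 4 h2 _ (fun _ => rfl) (fun _ _ h => h.symm) (fun _ _ _ h h' => h.trans h'))

/-- locality of one allocation -/
theorem l8l_abs_loc (ms : ℕ → ℝ) (N q : ℕ) (Φ : JtTopo → ℝ) (hΦ : JtLoc (q + 1) Φ) : JtLoc q fun τ => trAbs ms N q τ Φ := by
  intro τ τ' hag
  unfold trAbs
  refine Finset.sum_congr rfl fun x hx => Finset.sum_congr rfl fun j _ => ?_
  have hx' := Finset.mem_range.1 hx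
  rw [tr_wt_congr (τ := τ) (τ' := τ') (fun y z hy hz => (hag y z hy hz).symm) x j hx']
  congr 1
  apply hΦ
  intro y z hy hz
  unfold trAtt
  by_cases h1 : y = q <;> by_cases h2 : z = q
  · simp [h1, h2]
  · simp only [h1, h2, if_true, if_false]
    rw [hag x z hx' (by omega)]
  · simp only [h1, h2, if_true, if_false]
    rw [hag y x (by omega) hx']
  · simp only [h1, h2, if_false]
    exact hag y z (by omega) (by omega)

/-- CONTRACT (CH): `k` new labels over the old pair -/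
def L8_LS_CH : Prop :=
  ∀ (k : ℕ) (abar : ℝ), ∃ (nch : ℕ) (Cch : ℝ), 0 ≤ Cch ∧ ∀ (N : ℕ) (ms : ℕ → ℝ) (t0 ti : ℕ) (A0 : ℝ),
    IsMs N ms → ms N ≤ abar → abar ≤ A0 → 1 ≤ A0 → ti ≤ t0 → t0 ≤ N →
    L8LCharted N (l8lMu ms N) t0 ti (2 + k) (2 + k) nch Cch A0 fun Φ => trAbsK ms N k 2 (jtTab2 N t0) Φ

/-- CONTRACT (CH), doubled old pair: `k` new labels over the table `jtTabO` (4 labels, 2 vertices) -/
def L8_LS_CHO : Prop :=
  ∀ (k : ℕ) (abar : ℝ), ∃ (nch : ℕ) (Cch : ℝ), 0 ≤ Cch ∧ ∀ (N : ℕ) (ms : ℕ → ℝ) (t0 ti : ℕ) (A0 : ℝ),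
    IsMs N ms → ms N ≤ abar → abar ≤ A0 → 1 ≤ A0 → ti ≤ t0 → t0 ≤ N →
    L8LCharted N (l8lMu ms N) t0 ti (4 + k) (2 + k) nch Cch A0 fun Φ => trAbsK ms N k 4 (jtTabO N t0) Φ

theorem l8l_ch_eqns_cite : True := by
  have := @l8lMu.eq_1
  have := @L8LCharted.eq_1
  have := @L8_LS_CH.eq_1
  have := @L8_LS_CHO.eq_1
  trivial

end Claimed.Agent.R286
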