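import Claimed.Agent.R286.L08.SPC
import Claimed.Agent.R286.L08.Glue
import Claimed.Agent.R286.L08.HiCov
import Claimed.Agent.R286.L08.HiLong
import Claimed.Agent.R286.L09.Par
import Claimed.Agent.R286.Exit.PairInv
import Claimed.Agent.R286.Exit.PairLong
import Claimed.Agent.R286.Exit.LL02A7
import Claimed.Agent.R286.L08.LsCh
import Claimed.Agent.R286.L08.HiAdH
import Claimed.Agent.R286.L08.HiClk

/-!
# Row 286 (S0533), folder L08, file HiFin : (D15) AT ONE CONCRETE INSTANCE `I : L8In`, NON-asymptotic      (architect helper234; prefix `l8ha_` adapters, `l8hs_` supplies, `l8hf_` instance)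

TEX[LL:prop:statistics-high].   The abstract core of (D15) lives on `X : JtCtx S` (`L08/HiCtx, HiCov` (280: proved), `HiLong` (221: proved), `HiTop` (221)).   Here: `X = I.X false = llJs I.m I.a I.LP none`, smoothed size path (`a = 4`).
No `∀ᶠ`, no `N0` in PARTS A, C, D: ONE inequality at ONE instance, all constants named.   The asymptotic glue (`Exit/D15.lean`, cutter helper51) only chooses the numbers.

## PART A. ADAPTER CONTRACTS (fine level, any admissible fine path).   PROVED in `L08/HiAd.lean` (helper57, imported): `l8ha_ok` (`Ok`), `l8ha_x_a7_cov`, `l8ha_x_a7_long` ((A7), error `C / n`), `l8ha_dens` (`Cd = 16 a + 48 a²`, `mu = l8lMu (llMs a P) P.length`), small fields `l8ha_msk, _sum_zero, _q_ref, _b_bd, _cell_nonneg, _cell_sum`.   Here only the contracts of (H1), (H2) (helper279, `L08/HiAdH.lean`): each `sorry` = `exact` of his theorem.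
## PART B. CHAIN LEVEL CLOCK FACTS on the smoothed size paths: record `L8In.Clk`, exit form `L8xClk`, producer `l8hs_clk`.
## PART C. DICTIONARY `I.X false` ↔ `I.S, I.D2, I.A, I.sp false`.
## PART D. THE INSTANCE.
* `I.HiB`  base inputs (clocks, (D11) at the order `2 r`, smallness `hes`);   `I.HiIn` = base + threshold level `ti` + (D16) in the form `L8_LS1` with ANY envelope `eb`, sole coefficient `vv`, gain `Lam`, tail `eta`;
* `l8hf_cov_hyp : L8HCov (I.X false) 4 ..`,   `l8hf_long_hyp : L8HLong (I.X false) 4 ..`   (the producers of the two abstract records);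
* **(V)** `l8hf_var`  : `√D2(t) ≤ 2 Kv Λ^kI Lam + √(2 Kv Λ^kI (eta + 1/m + es^kT + etaT))` for `t ≥ ti`, if `Kv Λ^kI es ≤ 1/2`;   `Λ = I.Lb = max(4, Ac, 2 CK, 1/(cK λ v(ti)²))`, `kI` = the ABSOLUTE degree of `exit_pair_inv`;
* **(M)** `l8hf_mean` : `|f(t)| ≤ (2/g) (CK Ac x³ + Km (Λ'^k2 RiS + es (Ac x³ + DH + IJS) + etaT + es^kT + 1/m))` for `t ≥ t1`, if `Km es ≤ g/2`, `g ≤ 1 - b Γ'`;   `Λ' = max(4, Ac)`;
* `l8hf_Ri`, `l8hf_IJ` : the two mass integrals (LL 08 l.1612-1650): low part by the integrated envelope, high part by Cauchy-Schwarz and the DEFINITION of `Z_g`.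
-/

set_option autoImplicit false

namespace Claimed.Agent.R286

open Finset MeasureTheory

/-! ## PART A -/

/-- CONTRACT of the adapter (H1): `C`, `kI` absolute -/
def L8haH1 (C : ℝ) (kI : ℕ) : Prop :=
  ∀ (n : ℕ) (a : ℝ) (P : LlStp) (tl : Option ℕ) (ti : ℕ) (Λ : ℝ), 0 < a → LlStpAdm a P →
    PkMul a P (fun t => (llJs n a P tl).retI ti t * skCumB (llMat P) t) Λ → L8H_H1 (llJs n a P tl) ti (C * Λ ^ kI)

/-- **(H1)** in the form of `L08/HiCtx.lean`      (OWNER helper279, `L08/HiAdH.lean`).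
PLAN.  `X = llJs n a P tl`, `b t = X.retI ti t * X.bC t`, `U τ = if IsTr N 4 τ then u τ else 0` (`PkFn 2 U`).   `exit_pair_inv` at `q0 = 2`, `τ = jtTabO N t0`;  on trees `pkL X 2 b U σ = u σ - X.Mop ti u σ`, `pkRet N b t0 t ≤ X.retI ti t`;
the duplicate labels `2 ≡ 0`, `3 ≡ 1` are invisible for the absolute rule (a non-minimal leaf has weight `0`, `trDeg` counts classes): `absK 2 4 tabO (Φ ∘ jtSh 4) = absK 2 2 tab2 Φ`;   sign trick `G = θ C Λ^k sign (source)`. -/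
theorem l8ha_h1 : ∃ (C : ℝ) (kI : ℕ), 0 < C ∧ L8haH1 C kI := l8hh_h1

/-- CONTRACT of the adapter (H2), with the post kernel bound (the earlier time: `K (min r t) ≤ K t`) -/
def L8haH2 (C : ℝ) (k2 : ℕ) : Prop :=
  ∀ (n : ℕ) (a : ℝ) (P : LlStp) (tl : Option ℕ) (Λ : ℝ), 0 < a → LlStpAdm a P → 1 ≤ Λ → a ≤ Λ → a⁻¹ ≤ Λ → llCumK P P.length ≤ Λ →
    ∃ Bk : ℕ → ℕ → ℝ, (∀ r t, r ≤ P.length → t ≤ P.length → |Bk r t| ≤ C * Λ ^ k2 * llCumK P t) ∧
      L8H_H2 (llJs n a P tl) (l8lMu (llMs a P) P.length) (pkX2 a P) Bk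

/-- **(H2)**: `exit_pair_long` at `q0 = 0`, `Bk = - B`, `mu t = p_(t+1) - p_t`      (OWNER helper279) -/
theorem l8ha_h2 : ∃ (C : ℝ) (k2 : ℕ), 0 < C ∧ L8haH2 C k2 := l8hh_h2

/-! ## PART B -/

-- `L8In.Clk`, `L8xClk`, `l8hs_clk : L8xClk llBase T` = `L08/HiClk.lean` (helper17), imported

/-! ## PART C -/

/-- the untilted context of an instance, unfolded -/
theorem l8hs_X (I : L8In) : I.X false = llJs I.m I.a I.LP none := rfl

/-- tree numbers of a pair: dictionary `trNu` / `GhTree.nu` -/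
theorem l8hs_pair_nu {n : ℕ} (a : ℝ) (P : SkStp) {N u : ℕ} (hu : u ≤ N) (T : SkCfg n → SkCfg n → ℝ) :
    trNu (skBase n a) (skLvs n P) 2 (jtTab2 N u) 0 (fun σ => T (σ 0) (σ 1))
      = (obT2 u).nu (skBase n a) (skLvs n P) 0 (fun _ σ => T (σ 0) (σ 1)) := by
  unfold trNu GhTree.nu
  have e : (fun t => trRep 2 (jtTab2 N u) t) = (obT2 u).rep := by
    funext t b
    rw [obt_rep]
    by_cases h : t < u
    · rw [if_pos h]; exact slk_trRep_lt hu h b
    · rw [if_neg h]; exact slk_trRep_ge (not_lt.mp h) b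
  rw [e]
  congr 1

/-- `S`, `D²`, `A = ν[(Q - q)²]` of `L08/Defs.lean` are the tree numbers of `L08/HiCtx.lean`   (`obt_S_two`, `obt_B_two` of `Fd/ObsTw`, `tr_nu_of_ghTree` of `Fd/TrB1`, `tr_nu_congr`; linearity: `ll2_law`) -/
theorem l8hs_dic (I : L8In) (hm : 0 < I.m) (ha : 0 < I.a) (hadm : LlStpAdm I.a I.LP) (k : ℕ) (hk : k ≤ I.n) :
    (I.X false).Sf k = I.S k ∧ (I.X false).D2 k = I.D2 k ∧
      (I.X false).nu 2 (jtTab2 (I.X false).N k) (fun σ => ((I.X false).ov (σ 0) (σ 1) - I.q k) ^ 2) = I.A k := by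
  have hP : SkAdm I.a I.P0 := hadm.1
  have hk0 : k ≤ I.LP.length := hk
  have hk' : k ≤ I.P0.length := by simpa [L8In.P0, llMat] using hk0
  have hlaw := ll2_law_nu I.m ha hadm none
  have hS : llNu I.m I.a I.LP none 2 (jtTab2 I.LP.length k) (fun σ => skOv (σ 0) (σ 1)) = I.S k := by
    unfold llNu llMv
    rw [l8hs_pair_nu I.a (llMat I.LP) hk0 (fun s t => skOv s t)]
    exact obt_S_two hm ha _ hP 0 k hk'
  have hB : llNu I.m I.a I.LP none 2 (jtTab2 I.LP.length k) (fun σ => skOv (σ 0) (σ 1) ^ 2) = I.B k := by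
    unfold llNu llMv
    rw [l8hs_pair_nu I.a (llMat I.LP) hk0 (fun s t => skOv s t ^ 2)]
    exact obt_B_two hm ha _ hP 0 k hk'
  have key : ∀ c : ℝ, llNu I.m I.a I.LP none 2 (jtTab2 I.LP.length k) (fun σ => (skOv (σ 0) (σ 1) - c) ^ 2)
      = I.B k - 2 * c * I.S k + c ^ 2 := by
    intro c
    have e : (fun σ : ℕ → SkCfg I.m => (skOv (σ 0) (σ 1) - c) ^ 2)
        = fun σ => (skOv (σ 0) (σ 1) ^ 2 - (2 * c) * skOv (σ 0) (σ 1)) + c ^ 2 := by
      funext σ; ring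
    rw [e, hlaw.add, hlaw.sub, hlaw.const_mul, hlaw.const, hB, hS]
  have hSf : (I.X false).Sf k = I.S k := hS
  refine ⟨hSf, ?_, key _⟩
  unfold JtCtx.D2
  rw [hSf]
  refine (key _).trans ?_
  unfold L8In.D2 L8In.B L8In.S obD2
  ring

/-- a function of the overlap of a pair which shares `k` stages: tree number = integral under the fork law of the single path   (`l8li_rep` at `r = 2` + `marg2` of `L08/LsInst.lean`, or `l8i_fork` + `tr_nu_of_ghTree`; `Q = skOv`: `obt_ov`) -/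
theorem l8hs_nu2 (I : L8In) (hm : 0 < I.m) (ha : 0 < I.a) (hadm : LlStpAdm I.a I.LP) (k : ℕ) (hk : k ≤ I.n) (g : ℝ → ℝ) (hg : Measurable g)
    (hb : ∃ c, ∀ y, |g y| ≤ c) :
    (I.X false).nu 2 (jtTab2 (I.X false).N k) (fun σ => g ((I.X false).ov (σ 0) (σ 1))) = ∫ p, g ((I.sp false).Q p) ∂(I.sp false).fork k := by
  have hP : SkAdm I.a I.P0 := hadm.1
  have hk0 : k ≤ I.LP.length := hk
  have hk' : k ≤ I.P0.length := by simpa [L8In.P0, llMat] using hk0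
  obtain ⟨c, hc⟩ := hb
  have h1 : llNu I.m I.a I.LP none 2 (jtTab2 I.LP.length k) (fun σ => g (skOv (σ 0) (σ 1)))
      = (obT2 k).nu (skBase I.m I.a) (skLvs I.m (llMat I.LP)) 0 (fun _ σ => g (skOv (σ 0) (σ 1))) := by
    unfold llNu llMv
    exact l8hs_pair_nu I.a (llMat I.LP) hk0 (fun s t => g (skOv s t))
  have hQ : ∀ p : SkOm I.m × SkOm I.m, (I.sp false).Q p = skOv p.1.2 p.2.2 := by
    intro p
    rw [obt_ov hm]
    rfl
  have hmeas : Measurable fun p : SkOm I.m × SkOm I.m => g (skOv (skSp2 p 0) (skSp2 p 1)) := by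
    have h0 : Measurable fun q : SkCfg I.m × SkCfg I.m => g (skOv q.1 q.2) := measurable_of_finite _
    exact h0.comp ((measurable_snd.comp measurable_fst).prodMk (measurable_snd.comp measurable_snd))
  have h2 := l8i_fork I.m I.a ha I.P0 hP k hk' (fun _ σ => g (skOv (σ 0) (σ 1))) hmeas c (fun _ _ => hc _)
  refine h1.trans (h2.symm.trans ?_)
  refine integral_congr_ae (Filter.Eventually.of_forall fun p => ?_)
  show g (skOv (skSp2 p 0) (skSp2 p 1)) = g ((I.sp false).Q p)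
  rw [hQ]
  rfl

/-! ## PART D -/

namespace L8In

variable (I : L8In)

/-- `x^(δ_*/2)` -/
noncomputable def es : ℝ := I.x ^ (llDStar / 2)

/-- the tail of (D11) at the order `2 r`: Markov for `|Q - q| > es / (2 CK)` -/
noncomputable def etaT (CK C11 : ℝ) (r : ℕ) : ℝ := (2 * CK * C11 * I.x ^ llDStar / I.es) ^ (2 * r)

/-- the size `Λ` of the data of the pair inverse with the levels `≥ ti` retained -/
noncomputable def Lb (cK CK Ac : ℝ) (ti : ℕ) : ℝ := max (max 4 Ac) (max (2 * CK) (cK * I.lam * I.v ti ^ 2)⁻¹)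

/-- `∫ K |b f + d| dv` on the chain -/
noncomputable def RiS : ℝ := ∑ t ∈ range (I.n + 1), I.dv t * I.KC t * |I.bC t * I.f t + I.d t|

/-- majorant of `∫ ‖J‖₂ dv` on the chain -/
noncomputable def IJS (CK : ℝ) : ℝ := ∑ t ∈ range (I.n + 1), I.dv t * (CK * Real.sqrt (I.A t) + |I.d t|)

/-- **base inputs of (D15) at one instance** -/
structure HiB (kT r : ℕ) (cK CK v0 Ac C11 : ℝ) : Prop where
  ok : I.Ok
  siz : l8Siz I.p
  clk : I.Clk cK CK v0 Ac
  cK_pos : 0 < cK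
  CK_ge : 1 ≤ CK
  Ac_ge : 1 ≤ Ac
  kT_ge : 2 ≤ kT
  r_pos : 1 ≤ r
  C11_nonneg : 0 ≤ C11
  /-- (D11), terminal pair, order `2 r`, untilted, ALL levels -/
  d11 : ∀ k ≤ I.n, I.moF false k r (fun ω => (I.sp false).Q ω - I.q k) ≤ (C11 * I.x ^ llDStar) ^ (2 * r)
  /-- `|b f + d| ≤ es / 2` at all levels -/
  hes : 2 * (CK * C11 * I.x ^ llDStar + Ac * I.x ^ 3) ≤ I.es

/-- **inputs of the covariance equation**: threshold level `ti`, (D16) -/
structure HiIn (kT ti r : ℕ) (eb vv : ℕ → ℝ) (cK CK v0 Ac C11 Cv Lam eta : ℝ) : Prop where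
  base : I.HiB kT r cK CK v0 Ac C11
  hti : ti ≤ I.n
  v_pos : 0 < I.v ti
  eb_nonneg : ∀ t, 0 ≤ eb t
  eb_le : ∀ t, eb t ≤ 1
  vv_nonneg : ∀ t, 0 ≤ vv t
  /-- the deterministic low factors are below the envelope -/
  ph_low : ∀ t, t < ti → |I.bC t * I.f t + I.d t| ≤ eb t
  /-- `K ≲ v` at the low levels (parity coefficient) -/
  Cv_nonneg : 0 ≤ Cv
  K_vv : ∀ t, t < ti → I.KC t ≤ Cv * vv t
  /-- (D16), first conclusion -/
  ls : ∀ n, 1 ≤ n → n < kT → L8_LS1 (I.X false) ti eb vv (2 + 2 * n) n Lam eta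
  Lam_nonneg : 0 ≤ Lam
  eta_nonneg : 0 ≤ eta

end L8In

theorem l8hf_take_mono_aux (l : List ℝ) (h : ∀ x ∈ l, 0 ≤ x) : Monotone fun k => (l.take k).sum := by
  intro i j hij
  have e : l.take j = l.take i ++ (l.take j).drop i := by
    have := (List.take_append_drop i (l.take j)).symm
    rwa [List.take_take, min_eq_left hij] at this
  simp only
  rw [e, List.sum_append]
  have : 0 ≤ ((l.take j).drop i).sum :=
    List.sum_nonneg fun x hx => h x (List.mem_of_mem_take (List.mem_of_mem_drop hx))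
  linarith

theorem l8hf_take_nonneg_aux (l : List ℝ) (h : ∀ x ∈ l, 0 ≤ x) (k : ℕ) : 0 ≤ (l.take k).sum :=
  List.sum_nonneg fun x hx => h x (List.mem_of_mem_take hx)

theorem l8hf_ms_aux (a : ℝ) (P : LlStp) (j : ℕ) : llMs a P j = skMs a (llMat P) j := by
  unfold llMs skMs llMat
  rw [List.getD_eq_getElem?_getD, List.map_map]
  rfl

/-- elementary facts of an instance on a size path: `a = 4`, `0 < x < 1`, `m ≥ 1`, `v` monotone, `dv ≥ 0`, `∑ dv = a`, `b, K` nonnegative and monotone   (`I.Ok`, `SkAdm`) -/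
theorem l8hf_basic (I : L8In) (hI : I.Ok) (hs : l8Siz I.p) (hadm : LlStpAdm I.a I.LP) :
    I.a = 4 ∧ 0 < I.x ∧ I.x < 1 ∧ 0 < I.m ∧ Monotone I.v ∧ (∀ k, 0 ≤ I.v k) ∧ (∀ k, I.v k ≤ 4) ∧ (∀ k, 0 ≤ I.dv k) ∧ ∑ k ∈ range (I.n + 1), I.dv k = 4 ∧
      Monotone I.bC ∧ (∀ k, 0 ≤ I.bC k) ∧ Monotone I.KC ∧ (∀ k, 0 ≤ I.KC k) ∧ ∀ k ≤ I.n, l8lMu (llMs I.a I.LP) I.n k = I.dv k := by
  have ha : I.a = 4 := by
    unfold L8In.a LlPt.a
    rw [hs.1]; simp
  have hN : (2 : ℝ) ≤ (I.p.N : ℝ) := by exact_mod_cast hI.pt.N2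
  have hx0 : 0 < I.x := Real.rpow_pos_of_pos (by linarith) _
  have hx1 : I.x < 1 := Real.rpow_lt_one_of_one_lt_of_neg (by linarith) (by norm_num)
  have hm : 0 < I.m := by have := hI.m_lo; have := hI.pt.N2; omega
  have ha0 : 0 < I.a := by rw [ha]; norm_num
  have hok := l8i_ok I.m hm I.a ha0 I.P0 hadm.1
  have hv : ∀ k, (skSP I.m I.a I.P0).v k = I.v k := fun _ => rfl
  have hmono : Monotone I.v := hok.v_mono
  have hnn : ∀ k, 0 ≤ I.v k := hok.v_nonneg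
  have hle : ∀ k, I.v k ≤ 4 := fun k => by
    have := (skSP I.m I.a I.P0).l8sb_v_le_a hok k
    rw [← ha]; exact this
  have hdv : ∀ k, I.dv k = I.v k - (if k = 0 then 0 else I.v (k - 1)) := fun _ => rfl
  have hdv0 : ∀ k, 0 ≤ I.dv k := by
    intro k
    rw [hdv]
    by_cases h0 : k = 0
    · rw [if_pos h0, sub_zero]; exact hnn k
    · rw [if_neg h0, sub_nonneg]; exact hmono (Nat.sub_le k 1)
  have hsum : ∀ N, ∑ k ∈ range (N + 1), I.dv k = I.v N := by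
    intro N
    induction N with
    | zero => simp [hdv]
    | succ N ih => rw [Finset.sum_range_succ, ih, hdv]; simp
  have hlen : (skSP I.m I.a I.P0).n = I.n := by
    show (llMat I.LP).length = I.LP.length
    simp [llMat]
  have hvn : I.v I.n = 4 := by
    have := hok.v_term I.n (le_of_eq hlen)
    rw [← ha]; exact this
  have hb : ∀ x ∈ I.P0.map SkInc.db, 0 ≤ x := by
    intro x hx
    obtain ⟨e, he, rfl⟩ := List.mem_map.1 hx
    exact (hadm.1.2 e he).2.2.1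
  have hK : ∀ x ∈ I.LP.map LlInc.dK, 0 ≤ x := by
    intro x hx
    obtain ⟨e, he, rfl⟩ := List.mem_map.1 hx
    have : (⟨e.m, 0, e.dK⟩ : SkInc) ∈ llSc I.LP := List.mem_map.2 ⟨e, he, rfl⟩
    exact (hadm.2.2 _ this).2.2.2
  have ebC : I.bC = fun k => ((I.P0.map SkInc.db).take k).sum := by
    funext k
    unfold L8In.bC skCumB
    rw [List.map_take]
  have eKC : I.KC = fun k => ((I.LP.map LlInc.dK).take k).sum := by
    funext k
    unfold L8In.KC llCumK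
    rw [List.map_take]
  refine ⟨ha, hx0, hx1, hm, hmono, hnn, hle, hdv0, by rw [hsum, hvn], ?_, ?_, ?_, ?_, ?_⟩
  · rw [ebC]; exact l8hf_take_mono_aux _ hb
  · intro k; rw [ebC]; exact l8hf_take_nonneg_aux _ hb k
  · rw [eKC]; exact l8hf_take_mono_aux _ hK
  · intro k; rw [eKC]; exact l8hf_take_nonneg_aux _ hK k
  · intro k hk
    unfold l8lMu trPm
    rw [if_pos hk, hdv, l8hf_ms_aux]
    by_cases h0 : k = 0
    · simp only [h0, if_true]; rfl
    · simp only [h0, if_false]; rw [l8hf_ms_aux]; rfl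

/-- `D² ≥ 0`, `A = D² + f²`, `A ≥ 0`, `|f| ≤ √A` -/
theorem l8hf_A_aux (I : L8In) (hm : 0 < I.m) (ha : 0 < I.a) (hadm : LlStpAdm I.a I.LP) (k : ℕ) (hk : k ≤ I.n) :
    0 ≤ I.D2 k ∧ I.A k = I.D2 k + I.f k ^ 2 ∧ 0 ≤ I.A k ∧ |I.f k| ≤ Real.sqrt (I.A k) := by
  have hok := l8i_ok I.m hm I.a ha I.P0 hadm.1
  have hk' : k ≤ I.P0.length := by
    have : I.P0.length = I.n := by show (llMat I.LP).length = I.LP.length; simp [llMat]
    rw [this]; exact hk
  have hD : 0 ≤ I.D2 k := by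
    have h1 := (skSP I.m I.a I.P0).l8s_fork_var_Q hok k
    have h2 : (skSP I.m I.a I.P0).D2 k = I.D2 k := by
      unfold L8P.D2 L8In.D2 obD2
      rw [l8i_S I.m I.a ha I.P0 hadm.1 k hk', l8i_B I.m I.a ha I.P0 hadm.1 k hk']
    rw [← h2, ← h1]
    exact integral_nonneg fun p => sq_nonneg _
  have hA : I.A k = I.D2 k + I.f k ^ 2 := by
    unfold L8In.A L8In.D2 L8In.f obD2 L8In.B L8In.S
    ring
  have hA0 : 0 ≤ I.A k := by rw [hA]; positivity
  refine ⟨hD, hA, hA0, ?_⟩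
  rw [← Real.sqrt_sq_eq_abs]
  exact Real.sqrt_le_sqrt (by rw [hA]; linarith)

theorem l8hf_jensen_aux {Ω : Type} [MeasurableSpace Ω] {μ : Measure Ω} [IsProbabilityMeasure μ] {g : Ω → ℝ} (hg : L8Bd g)
    (r : ℕ) (hr : 1 ≤ r) {B : ℝ} (hB : 0 ≤ B) (h : ∫ ω, g ω ^ (2 * r) ∂μ ≤ B ^ (2 * r)) : |∫ ω, g ω ∂μ| ≤ B := by
  have hc := (even_two_mul r).convexOn_pow (𝕜 := ℝ)
  have h1 := hc.map_integral_le (μ := μ) (f := g) (continuous_pow (2 * r)).continuousOn isClosed_univ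
    (ae_of_all _ fun _ => Set.mem_univ _) (hg.integrable μ) ((hg.pow (2 * r)).integrable μ)
  have h2 : |∫ ω, g ω ∂μ| ^ (2 * r) ≤ B ^ (2 * r) := by
    rw [pow_mul, sq_abs, ← pow_mul]
    exact h1.trans h
  exact le_of_pow_le_pow_left₀ (by omega) hB h2

/-- `|f| ≤ C11 x^δ_*` at every level (Jensen / Cauchy-Schwarz from the moment of order `2 r`; `∫ Q d fork = S`: `l8lc_QX_mean` or `l8hs_dic` + `l8hs_nu2`) -/
theorem l8hf_f_le (I : L8In) {kT r : ℕ} {cK CK v0 Ac C11 : ℝ} (h : I.HiB kT r cK CK v0 Ac C11) (k : ℕ) (hk : k ≤ I.n) :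
    |I.f k| ≤ C11 * I.x ^ llDStar := by
  obtain ⟨ha, hx0, _, hm, _⟩ := l8hf_basic I h.ok h.siz h.clk.adm
  have ha0 : 0 < I.a := by rw [ha]; norm_num
  have hok := l8i_ok I.m hm I.a ha0 I.P0 h.clk.adm.1
  have := (skSP I.m I.a I.P0).l8s_fork_prob hok k
  have hk' : k ≤ I.P0.length := by
    have : I.P0.length = I.n := by show (llMat I.LP).length = I.LP.length; simp [llMat]
    rw [this]; exact hk
  have hQb : L8Bd (fun p => (skSP I.m I.a I.P0).Q p) :=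
    ⟨((skSP I.m I.a I.P0).l8s_fork_Q_bd_aux hok).1, 1, ((skSP I.m I.a I.P0).l8s_fork_Q_bd_aux hok).2⟩
  have hg : L8Bd (fun p => (skSP I.m I.a I.P0).Q p - I.q k) := hQb.sub (l8Bd_const _)
  have e : I.f k = ∫ p, ((skSP I.m I.a I.P0).Q p - I.q k) ∂((skSP I.m I.a I.P0).fork k) := by
    rw [integral_sub (hQb.integrable _) (integrable_const _), (skSP I.m I.a I.P0).l8s_fork_Q hok k,
      l8i_S I.m I.a ha0 I.P0 h.clk.adm.1 k hk']
    simp
    rfl
  rw [e]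
  exact l8hf_jensen_aux hg r h.r_pos (mul_nonneg h.C11_nonneg (Real.rpow_nonneg hx0.le _)) (h.d11 k hk)

/-- `ph = b f + d`, and it is `≤ es / 2` at every level -/
theorem l8hf_ph (I : L8In) {kT r : ℕ} {cK CK v0 Ac C11 : ℝ} (h : I.HiB kT r cK CK v0 Ac C11) (k : ℕ) (hk : k ≤ I.n) :
    (I.X false).ph k = I.bC k * I.f k + I.d k ∧ |(I.X false).ph k| ≤ I.es / 2 := by
  obtain ⟨ha, hx0, _, hm, _, _, _, _, _, _, hb0, _⟩ := l8hf_basic I h.ok h.siz h.clk.adm
  have ha0 : 0 < I.a := by rw [ha]; norm_num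
  have e : (I.X false).ph k = I.bC k * I.f k + I.d k := by
    have h1 := (l8hs_dic I hm ha0 h.clk.adm k hk).1
    unfold JtCtx.ph
    rw [h1]
    show I.hC k + I.bC k * I.S k - I.KC k = _
    unfold L8In.f L8In.d
    ring
  refine ⟨e, ?_⟩
  rw [e]
  have h1 := l8hf_f_le I h k hk
  have h2 := h.clk.d_le k hk
  have h3 := h.clk.b_le k
  have h4 := h.hes
  have h5 : |I.bC k * I.f k| ≤ CK * (C11 * I.x ^ llDStar) := by
    rw [abs_mul, abs_of_nonneg (hb0 k)]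
    exact mul_le_mul h3 h1 (abs_nonneg _) (by linarith [h.CK_ge])
  calc |I.bC k * I.f k + I.d k| ≤ |I.bC k * I.f k| + |I.d k| := abs_add_le _ _
    _ ≤ I.es / 2 := by linarith

/-- the tail of the row mismatch: `J = b (Q - q) + d`, `|d| ≤ es / 2`, Markov at the order `2 r` (`l8hs_nu2` with `g` = the indicator) -/
theorem l8hf_J_tail (I : L8In) {kT r : ℕ} {cK CK v0 Ac C11 : ℝ} (h : I.HiB kT r cK CK v0 Ac C11) (t : ℕ) (ht : t ≤ I.n) :
    (I.X false).nu 2 (jtTab2 (I.X false).N t) (fun σ => if I.es < |(I.X false).J (jtTab2 (I.X false).N t) σ 0 1| then 1 else 0) ≤ I.etaT CK C11 r := by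
  obtain ⟨ha, hx0, _, hm, _, _, _, _, _, _, hb0, _⟩ := l8hf_basic I h.ok h.siz h.clk.adm
  have ha0 : 0 < I.a := by rw [ha]; norm_num
  have hok := l8i_ok I.m hm I.a ha0 I.P0 h.clk.adm.1
  have := (skSP I.m I.a I.P0).l8s_fork_prob hok t
  have : IsProbabilityMeasure ((I.sp false).fork t) := (skSP I.m I.a I.P0).l8s_fork_prob hok t
  have hes0 : 0 < I.es := Real.rpow_pos_of_pos hx0 _
  set g : ℝ → ℝ := fun y => if I.es < |I.hC t + I.bC t * y - I.KC t| then 1 else 0 with hg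
  have hgm : Measurable g := by
    refine Measurable.ite ?_ measurable_const measurable_const
    exact measurableSet_lt measurable_const (by fun_prop)
  have hgb : ∀ y, |g y| ≤ 1 := by
    intro y
    simp only [hg]
    split_ifs <;> simp
  have e : (fun σ : ℕ → SkCfg I.m => if I.es < |(I.X false).J (jtTab2 (I.X false).N t) σ 0 1| then (1 : ℝ) else 0)
      = fun σ => g ((I.X false).ov (σ 0) (σ 1)) := by
    funext σ
    have e1 : (I.X false).J (jtTab2 (I.X false).N t) σ 0 1 = I.hC t + I.bC t * (I.X false).ov (σ 0) (σ 1) - I.KC t := by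
      have e0 : jtTab2 (I.X false).N t 0 1 = t := by simp [jtTab2]
      unfold JtCtx.J JtCtx.Qs
      rw [e0]
      have e2 : (I.X false).msk t = 1 := rfl
      rw [e2, one_mul]
      rfl
    rw [e1]
  rw [e, l8hs_nu2 I hm ha0 h.clk.adm t ht g hgm ⟨1, hgb⟩]
  have hQb : L8Bd (fun p => (skSP I.m I.a I.P0).Q p) :=
    ⟨((skSP I.m I.a I.P0).l8s_fork_Q_bd_aux hok).1, 1, ((skSP I.m I.a I.P0).l8s_fork_Q_bd_aux hok).2⟩
  have hd : |I.d t| ≤ I.es / 2 := by
    have h2 := h.clk.d_le t ht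
    have h4 := h.hes
    have h5 : 0 ≤ CK * C11 * I.x ^ llDStar :=
      mul_nonneg (mul_nonneg (by linarith [h.CK_ge]) h.C11_nonneg) (Real.rpow_nonneg hx0.le _)
    linarith
  have hpt : ∀ y : ℝ, g y ≤ (2 * CK / I.es) ^ (2 * r) * (y - I.q t) ^ (2 * r) := by
    intro y
    rw [← mul_pow]
    simp only [hg]
    split_ifs with hc
    · have e3 : I.hC t + I.bC t * y - I.KC t = I.bC t * (y - I.q t) + I.d t := by unfold L8In.d; ring
      rw [e3] at hc
      have h6 : |I.bC t * (y - I.q t) + I.d t| ≤ CK * |y - I.q t| + I.es / 2 := by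
        refine (abs_add_le _ _).trans (add_le_add ?_ hd)
        rw [abs_mul, abs_of_nonneg (hb0 t)]
        exact mul_le_mul_of_nonneg_right (h.clk.b_le t) (abs_nonneg _)
      have h7 : 1 ≤ |2 * CK / I.es * (y - I.q t)| := by
        rw [abs_mul, abs_of_nonneg (by have := h.CK_ge; positivity), div_mul_eq_mul_div, le_div_iff₀ hes0]
        linarith
      rw [pow_mul, ← sq_abs, ← pow_mul]
      exact one_le_pow₀ h7
    · rw [pow_mul]; positivity
  have hgQ : L8Bd (fun p => g ((skSP I.m I.a I.P0).Q p)) := ⟨hgm.comp hQb.1, 1, fun p => hgb _⟩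
  have hR : L8Bd (fun p => (2 * CK / I.es) ^ (2 * r) * ((skSP I.m I.a I.P0).Q p - I.q t) ^ (2 * r)) :=
    ((hQb.sub (l8Bd_const _)).pow _).const_mul _
  calc ∫ p, g ((I.sp false).Q p) ∂(I.sp false).fork t
      ≤ ∫ p, (2 * CK / I.es) ^ (2 * r) * ((skSP I.m I.a I.P0).Q p - I.q t) ^ (2 * r) ∂((skSP I.m I.a I.P0).fork t) :=
        integral_mono (hgQ.integrable _) (hR.integrable _) fun p => hpt _
    _ = (2 * CK / I.es) ^ (2 * r) * I.moF false t r (fun ω => (I.sp false).Q ω - I.q t) := by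
        rw [integral_const_mul]; rfl
    _ ≤ (2 * CK / I.es) ^ (2 * r) * (C11 * I.x ^ llDStar) ^ (2 * r) :=
        mul_le_mul_of_nonneg_left (h.d11 t ht) (by rw [pow_mul]; positivity)
    _ = I.etaT CK C11 r := by
        unfold L8In.etaT
        rw [← mul_pow]
        congr 1
        ring

/-- the data of the pair inverse: `b = ret * bC`: `sup ≤ CK`, variation `≤ 2 CK` (monotone + one jump), `K_top ≤ Ac`, gap `≥ cK λ v(ti)²` on the retained levels (`v` monotone), `= 1` elsewhere -/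
theorem l8hf_pkmul (I : L8In) {kT r : ℕ} {cK CK v0 Ac C11 : ℝ} (h : I.HiB kT r cK CK v0 Ac C11) (ti : ℕ) (hti : ti ≤ I.n) (hv : 0 < I.v ti) :
    PkMul I.a I.LP (fun t => (I.X false).retI ti t * skCumB (llMat I.LP) t) (I.Lb cK CK Ac ti) := by
  obtain ⟨ha, hx0, _, hm, hvm, hv0, _, _, _, hbm, hb0, _⟩ := l8hf_basic I h.ok h.siz h.clk.adm
  have h4 : 4 ≤ I.Lb cK CK Ac ti := (le_max_left _ _).trans (le_max_left _ _)
  have hAc : Ac ≤ I.Lb cK CK Ac ti := (le_max_right _ _).trans (le_max_left _ _)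
  have h2C : 2 * CK ≤ I.Lb cK CK Ac ti := (le_max_left _ _).trans (le_max_right _ _)
  have hinv : (cK * I.lam * I.v ti ^ 2)⁻¹ ≤ I.Lb cK CK Ac ti := (le_max_right _ _).trans (le_max_right _ _)
  have hCK := h.CK_ge
  have hlam : 0 < I.lam := lt_of_lt_of_le (Real.rpow_pos_of_pos hx0 _) h.ok.pt.lam_lo
  have hret : ∀ t, (I.X false).retI ti t = if ti ≤ t ∧ t ≤ I.n then 1 else 0 := fun _ => rfl
  have hbC : ∀ t, skCumB (llMat I.LP) t = I.bC t := fun _ => rfl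
  have hr0 : ∀ t, 0 ≤ (I.X false).retI ti t := fun t => by rw [hret]; split_ifs <;> norm_num
  have hr1 : ∀ t, (I.X false).retI ti t ≤ 1 := fun t => by rw [hret]; split_ifs <;> norm_num
  have hβ0 : ∀ t, 0 ≤ (I.X false).retI ti t * skCumB (llMat I.LP) t := fun t => mul_nonneg (hr0 t) (hb0 t)
  have hβC : ∀ t, (I.X false).retI ti t * skCumB (llMat I.LP) t ≤ CK := fun t => by
    calc _ ≤ 1 * I.bC t := mul_le_mul_of_nonneg_right (hr1 t) (hb0 t)
      _ ≤ CK := by rw [one_mul]; exact h.clk.b_le t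
  refine ⟨by linarith, by rw [ha]; exact h4, by rw [ha]; linarith, h.clk.K_top.trans hAc, hβ0,
    fun t _ => (hβC t).trans (by linarith), ?_, ?_⟩
  · have hstep : ∀ t ∈ range I.LP.length, |(I.X false).retI ti (t + 1) * skCumB (llMat I.LP) (t + 1)
        - (I.X false).retI ti t * skCumB (llMat I.LP) t|
        = (I.X false).retI ti (t + 1) * skCumB (llMat I.LP) (t + 1) - (I.X false).retI ti t * skCumB (llMat I.LP) t := by
      intro t ht
      have ht' : t + 1 ≤ I.n := Finset.mem_range.1 ht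
      refine abs_of_nonneg (sub_nonneg.2 ?_)
      by_cases hc : ti ≤ t
      · rw [hret, hret, if_pos ⟨hc, by omega⟩, if_pos ⟨by omega, ht'⟩, one_mul, one_mul]
        exact hbm (Nat.le_succ t)
      · rw [hret t, if_neg (fun hh => hc hh.1), zero_mul]
        exact hβ0 _
    rw [Finset.sum_congr rfl hstep,
      Finset.sum_range_sub (fun t => (I.X false).retI ti t * skCumB (llMat I.LP) t)]
    have := hβC I.LP.length
    have := hβ0 0
    linarith
  · intro t ht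
    have hL0 : 0 < I.Lb cK CK Ac ti := by linarith
    by_cases hc : ti ≤ t
    · rw [hret, if_pos ⟨hc, ht⟩, one_mul]
      have h1 := h.clk.gap t ht
      have hpos : 0 < cK * I.lam * I.v ti ^ 2 := by have := h.cK_pos; positivity
      have h2 : cK * I.lam * I.v ti ^ 2 ≤ cK * I.lam * I.v t ^ 2 := by
        have := h.cK_pos
        have := pow_le_pow_left₀ hv.le (hvm hc) 2
        gcongr
      have h3 : (I.Lb cK CK Ac ti)⁻¹ ≤ cK * I.lam * I.v ti ^ 2 := by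
        rw [inv_le_comm₀ hL0 hpos]; exact hinv
      exact h3.trans (h2.trans h1)
    · rw [hret, if_neg (fun hh => hc hh.1), zero_mul, zero_mul, sub_zero]
      exact inv_le_one_of_one_le₀ (by linarith)

/-- **PRODUCER of the record of the covariance equation.**   `ok`: `l8ha_ok`;  `ph_*`: `l8hf_ph`;  `J_tail`: `l8hf_J_tail`;  `a7`: `l8ha_x_a7_cov kT CK` (`M0 = CK`; `LlBd CK I.LP` from `clk.b_le`, `clk.hK`);  `h1`: `H1` + `l8hf_pkmul`;
`quo`: `l9p_quo_abs`;  `par`: `l9p_l8h_par` with `vv' = Cv • vv`;   `CQ` = max over `n < kT` of the constants (`a = 4`). -/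
theorem l8hf_cov_hyp {C1 : ℝ} {kI : ℕ} (H1 : L8haH1 C1 kI) (kT : ℕ) (CK Cv : ℝ) : ∃ CQ CA : ℝ, 0 ≤ CA ∧
    ∀ (I : L8In) (ti r : ℕ) (eb vv : ℕ → ℝ) (cK v0 Ac C11 Lam eta DH : ℝ), I.HiIn kT ti r eb vv cK CK v0 Ac C11 Cv Lam eta →
      (∀ t, ti ≤ t → t ≤ I.n → (I.X false).Dd t ≤ DH) →
      L8HCov (I.X false) 4 CK CQ CA kT ti eb vv (C1 * I.Lb cK CK Ac ti ^ kI) I.es Lam eta (CA / I.m) (I.etaT CK C11 r) DH := by
  rcases Nat.eq_zero_or_pos kT with rfl | hkT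
  · exact ⟨0, 0, le_rfl, fun I ti r eb vv cK v0 Ac C11 Lam eta DH h _ => absurd h.base.kT_ge (by norm_num)⟩
  obtain ⟨CA, hCA, hA7⟩ := l8ha_x_a7_cov kT CK
  refine ⟨∑ n ∈ range kT, l9pQC (range n) * (1 + l9pC 4 (4 + 2 * n) * Cv), CA, hCA, ?_⟩
  intro I ti r eb vv cK v0 Ac C11 Lam eta DH h hDH
  have hb := h.base
  have hadm := hb.clk.adm
  obtain ⟨ha4, hx0, hx1, hm, -, -, -, -, -, -, hb0, -, -, -⟩ := l8hf_basic I hb.ok hb.siz hadm
  have ha : 0 < I.a := by rw [ha4]; norm_num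
  have hbd : LlBd CK I.LP := fun t => ⟨hb.clk.b_le t, hb.clk.hK t⟩
  have hes0 : 0 ≤ I.es := Real.rpow_nonneg hx0.le _
  have hes1 : I.es ≤ 1 := Real.rpow_le_one hx0.le hx1.le (by unfold llDStar; norm_num)
  have hok : (I.X false).Ok I.a := l8ha_ok I.m ha hadm none
  rw [ha4] at hok
  have hCv := h.Cv_nonneg
  have hterm : ∀ n, 0 ≤ l9pQC (range n) * (1 + l9pC 4 (4 + 2 * n) * Cv) := fun n =>
    mul_nonneg (l9p_QC_nonneg _) (add_nonneg zero_le_one (mul_nonneg (l9p_C_nonneg _ _) hCv))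
  have hsum : ∀ n, n < kT → l9pQC (range n) * (1 + l9pC 4 (4 + 2 * n) * Cv)
      ≤ ∑ n ∈ range kT, l9pQC (range n) * (1 + l9pC 4 (4 + 2 * n) * Cv) := fun n hn =>
    Finset.single_le_sum (f := fun n => l9pQC (range n) * (1 + l9pC 4 (4 + 2 * n) * Cv)) (fun i _ => hterm i) (Finset.mem_range.2 hn)
  exact
    { ok := hok
      msk := fun _ => rfl
      k_pos := hb.kT_ge
      b_bd := fun t => by
        show |I.bC t| ≤ CK
        rw [abs_of_nonneg (hb0 t)]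
        exact hb.clk.b_le t
      es_nonneg := hes0
      es_le := hes1
      eb_nonneg := h.eb_nonneg
      eb_le := h.eb_le
      vv_nonneg := h.vv_nonneg
      ph_low := fun t ht => by
        rw [(l8hf_ph I hb t (le_trans ht.le h.hti)).1]
        exact h.ph_low t ht
      ph_high := fun t _ htN => ((l8hf_ph I hb t htN).2).trans (by linarith)
      J_tail := fun t ht => l8hf_J_tail I hb t ht
      DH_bd := hDH
      a7 := fun t0 _ ht0 τ hτ _ _ _ => hA7 I.m I.a I.LP t0 τ hm ha (by rw [ha4]) hadm hbd hτ ht0 hkT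
      CA_nonneg := hCA
      EA_nonneg := div_nonneg hCA (Nat.cast_nonneg _)
      h1 := H1 I.m I.a I.LP none ti (I.Lb cK CK Ac ti) ha hadm (l8hf_pkmul I hb ti h.hti h.v_pos)
      ls := h.ls
      Lam_nonneg := h.Lam_nonneg
      eta_nonneg := h.eta_nonneg
      quo := fun n hn τ _ => by
        refine (l9p_quo_abs ha hadm.2 I.m none (4 + 2 * n) 4 2 3 (range n) τ).trans (le_trans ?_ (hsum n hn))
        have := mul_nonneg (l9p_QC_nonneg (range n)) (mul_nonneg (l9p_C_nonneg 4 (4 + 2 * n)) hCv)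
        nlinarith
      par := fun n _ hn => by
        have hp : L8H_PAR (I.X false) ti (fun t => Cv * vv t) 4 2 3 n (l9pQC (range n) * l9pC I.a (4 + 2 * n)) :=
          l9p_l8h_par ha hadm.2 I.m none (ti := ti) (le_trans h.hti (Nat.le_succ _)) (vv := fun t => Cv * vv t) h.K_vv
            (q := 4) (i := 2) (j := 3) (by norm_num) (by norm_num) (by norm_num) n
        rw [ha4] at hp
        intro τ hτ s hs hlow hhigh hoth
        refine (hp τ hτ s hs hlow hhigh hoth).trans ?_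
        have hv := h.vv_nonneg (τ (jtC 4 s) (jtD 4 s))
        have h1 := mul_le_mul_of_nonneg_right (hsum n hn) hv
        refine le_trans ?_ h1
        have := mul_nonneg (l9p_QC_nonneg (range n)) hv
        nlinarith }

/-- absorption: `D² ≤ A D + B ⟹ D ≤ A + √B` -/
theorem l8hf_absorb {D A B : ℝ} (hA : 0 ≤ A) (hB : 0 ≤ B) (h : D ^ 2 ≤ A * D + B) : D ≤ A + Real.sqrt B := by
  by_contra hc
  have hc' : A + Real.sqrt B < D := not_le.1 hc
  have hs := Real.sqrt_nonneg B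
  have hsq := Real.sq_sqrt hB
  have hD : 0 < D := lt_of_le_of_lt (add_nonneg hA hs) hc'
  have h1 : (A + Real.sqrt B) * D < D * D := mul_lt_mul_of_pos_right hc' hD
  have h2 : Real.sqrt B * Real.sqrt B ≤ Real.sqrt B * D := mul_le_mul_of_nonneg_left (by linarith) hs
  nlinarith

/-- **(V): the variance at the levels `≥ ti`**      (`l8h_cov`, `l8hf_cov_hyp` with `DH = sup`, absorption `D² ≤ 2 a D + 2 b ⟹ D ≤ 2 a + √(2 b)`: `L08/HiTop.lean`) -/
theorem l8hf_var {C1 : ℝ} {kI : ℕ} (hC1 : 0 < C1) (H1 : L8haH1 C1 kI) (kT : ℕ) (CK Cv : ℝ) : ∃ Kv : ℝ, 0 ≤ Kv ∧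
    ∀ (I : L8In) (ti r : ℕ) (eb vv : ℕ → ℝ) (cK v0 Ac C11 Lam eta : ℝ), I.HiIn kT ti r eb vv cK CK v0 Ac C11 Cv Lam eta →
      Kv * I.Lb cK CK Ac ti ^ kI * I.es ≤ 1 / 2 → ∀ t, ti ≤ t → t ≤ I.n →
      Real.sqrt (I.D2 t) ≤ 2 * Kv * I.Lb cK CK Ac ti ^ kI * Lam
        + Real.sqrt (2 * Kv * I.Lb cK CK Ac ti ^ kI * (eta + 1 / I.m + I.es ^ kT + I.etaT CK C11 r)) := by
  obtain ⟨CQ, CA, hCA, hcov⟩ := l8hf_cov_hyp H1 kT CK Cv
  obtain ⟨Kc, hKc, hmain⟩ := l8h_cov kT 4 CK CQ CA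
  have hM1 : (1 : ℝ) ≤ max 1 CA := le_max_left _ _
  refine ⟨Kc * C1 * max 1 CA, by positivity, ?_⟩
  intro I ti r eb vv cK v0 Ac C11 Lam eta h hsm t ht htn
  have hb := h.base
  have hadm := hb.clk.adm
  obtain ⟨ha4, hx0, hx1, hm, -, -, -, -, -, -, -, -, -, -⟩ := l8hf_basic I hb.ok hb.siz hadm
  have ha : 0 < I.a := by rw [ha4]; norm_num
  set X := I.X false with hX
  set Λ := I.Lb cK CK Ac ti ^ kI with hΛ
  have hΛ0 : 0 ≤ Λ := by
    refine pow_nonneg ?_ _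
    unfold L8In.Lb
    exact le_trans (by norm_num) (le_trans (le_max_left (4 : ℝ) Ac) (le_max_left _ _))
  have hes0 : 0 ≤ I.es := Real.rpow_nonneg hx0.le _
  have hetaT : 0 ≤ I.etaT CK C11 r := by
    unfold L8In.etaT
    rw [pow_mul]
    exact pow_nonneg (sq_nonneg _) _
  have hm' : (0 : ℝ) < I.m := Nat.cast_pos.2 hm
  obtain ⟨ts, hts, hmax⟩ := Finset.exists_max_image (Finset.Icc ti I.n) (fun t => X.Dd t) ⟨t, Finset.mem_Icc.2 ⟨ht, htn⟩⟩
  obtain ⟨hts1, hts2⟩ := Finset.mem_Icc.1 hts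
  set D := X.Dd ts with hD
  have hD0 : 0 ≤ D := Real.sqrt_nonneg _
  have hH := hcov I ti r eb vv cK v0 Ac C11 Lam eta D h (fun t h1 h2 => hmax t (Finset.mem_Icc.2 ⟨h1, h2⟩))
  have hineq := hmain _ X ti eb vv _ _ _ _ _ _ _ hH ts hts1 hts2
  have hD2 : X.D2 ts = D ^ 2 := by
    rw [hD]
    unfold JtCtx.Dd
    rw [Real.sq_sqrt (l8hk_D2_nonneg hH.ok (le_trans hts2 (Nat.le_succ _)))]
  rw [hD2] at hineq
  set M := max 1 CA with hM
  set R := eta + 1 / (I.m : ℝ) + I.es ^ kT + I.etaT CK C11 r with hR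
  have hR0 : 0 ≤ R := by
    have := h.eta_nonneg
    have h2 : 0 ≤ 1 / (I.m : ℝ) := by positivity
    have h3 : 0 ≤ I.es ^ kT := pow_nonneg hes0 _
    rw [hR]; linarith
  have hLam := h.Lam_nonneg
  set Pp := Kc * C1 * M * Λ with hPp
  have hPp0 : 0 ≤ Pp := by positivity
  -- the right side is below `Pp * (es D² + Lam D + R)`
  have hCAm : CA / (I.m : ℝ) ≤ M * (1 / (I.m : ℝ)) := by
    rw [mul_one_div]
    exact div_le_div_of_nonneg_right (le_max_right _ _) hm'.le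
  have hstep : Kc * (C1 * Λ) * (I.es * D * D + Lam * D + eta + CA / (I.m : ℝ) + I.es ^ kT + I.etaT CK C11 r)
      ≤ Pp * (I.es * D * D + Lam * D + R) := by
    have hK : 0 ≤ Kc * (C1 * Λ) := by positivity
    have e : Pp * (I.es * D * D + Lam * D + R) = Kc * (C1 * Λ) * (M * (I.es * D * D + Lam * D + R)) := by rw [hPp]; ring
    rw [e]
    refine mul_le_mul_of_nonneg_left ?_ hK
    have t1 : 0 ≤ I.es * D * D := by positivity
    have t2 : 0 ≤ Lam * D := by positivity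
    have t3 := h.eta_nonneg
    have t4 : 0 ≤ I.es ^ kT := pow_nonneg hes0 _
    have u1 : I.es * D * D ≤ M * (I.es * D * D) := le_mul_of_one_le_left t1 hM1
    have u2 : Lam * D ≤ M * (Lam * D) := le_mul_of_one_le_left t2 hM1
    have u3 : eta ≤ M * eta := le_mul_of_one_le_left t3 hM1
    have u4 : I.es ^ kT ≤ M * I.es ^ kT := le_mul_of_one_le_left t4 hM1
    have u5 : I.etaT CK C11 r ≤ M * I.etaT CK C11 r := le_mul_of_one_le_left hetaT hM1
    rw [hR]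
    nlinarith
  have hall := hineq.trans hstep
  have hsm' : Pp * I.es ≤ 1 / 2 := by
    have e : Pp * I.es = Kc * C1 * M * Λ * I.es := by rw [hPp]
    rw [e]; exact hsm
  have hq : D ^ 2 ≤ (2 * Pp * Lam) * D + 2 * Pp * R := by
    have h1 : Pp * I.es * D ^ 2 ≤ 1 / 2 * D ^ 2 := mul_le_mul_of_nonneg_right hsm' (sq_nonneg _)
    nlinarith
  have hfin := l8hf_absorb (by positivity) (by positivity) hq
  have hle : X.Dd t ≤ D := hmax t (Finset.mem_Icc.2 ⟨ht, htn⟩)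
  have hdd : Real.sqrt (I.D2 t) = X.Dd t := by
    unfold JtCtx.Dd
    rw [(l8hs_dic I hm ha hadm t htn).2.1]
  rw [hdd]
  refine hle.trans (hfin.trans (le_of_eq ?_))
  rw [hPp]
  congr 1
  · ring
  · congr 1; ring

/-- `‖J‖₂ ≤ CK √A + |d|` (Minkowski; `l8hs_dic`) -/
theorem l8hf_Jn_le (I : L8In) {kT r : ℕ} {cK CK v0 Ac C11 : ℝ} (h : I.HiB kT r cK CK v0 Ac C11) (t : ℕ) (ht : t ≤ I.n) :
    (I.X false).Jn t ≤ CK * Real.sqrt (I.A t) + |I.d t| := by
  obtain ⟨ha, hx0, _, hm, _, _, _, _, _, _, hb0, _⟩ := l8hf_basic I h.ok h.siz h.clk.adm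
  have ha0 : 0 < I.a := by rw [ha]; norm_num
  have hX : (I.X false).Ok I.a := l8ha_ok I.m ha0 h.clk.adm none
  obtain ⟨hD, hA, hA0, hf⟩ := l8hf_A_aux I hm ha0 h.clk.adm t ht
  have hN : (I.X false).N = I.n := rfl
  unfold JtCtx.Jn
  rw [l8hl_nu_J_sq hX (fun _ => rfl) (by rw [hN]; omega), (l8hf_ph I h t ht).1, (l8hs_dic I hm ha0 h.clk.adm t ht).2.1]
  have hbC : (I.X false).bC t = I.bC t := rfl
  rw [hbC]
  set s := Real.sqrt (I.A t) with hs
  have hs0 : 0 ≤ s := Real.sqrt_nonneg _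
  have hs2 : s ^ 2 = I.D2 t + I.f t ^ 2 := by rw [hs, Real.sq_sqrt hA0, hA]
  have hCK := h.CK_ge
  rw [Real.sqrt_le_iff]
  refine ⟨by positivity, ?_⟩
  have h1 : I.f t * I.d t ≤ s * |I.d t| := by
    calc I.f t * I.d t ≤ |I.f t * I.d t| := le_abs_self _
      _ = |I.f t| * |I.d t| := abs_mul _ _
      _ ≤ s * |I.d t| := mul_le_mul_of_nonneg_right hf (abs_nonneg _)
  have h2 : I.bC t ^ 2 * I.D2 t + (I.bC t * I.f t + I.d t) ^ 2 ≤ (I.bC t * s + |I.d t|) ^ 2 := by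
    have e1 : I.bC t ^ 2 * I.D2 t + (I.bC t * I.f t + I.d t) ^ 2
        = I.bC t ^ 2 * s ^ 2 + 2 * I.bC t * (I.f t * I.d t) + I.d t ^ 2 := by rw [hs2]; ring
    have e2 : (I.bC t * s + |I.d t|) ^ 2 = I.bC t ^ 2 * s ^ 2 + 2 * I.bC t * (s * |I.d t|) + I.d t ^ 2 := by
      rw [← sq_abs (I.d t)]; ring
    rw [e1, e2]
    have := mul_le_mul_of_nonneg_left h1 (mul_nonneg zero_le_two (hb0 t))
    linarith
  refine h2.trans (pow_le_pow_left₀ (by have := hb0 t; positivity) ?_ 2)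
  have := mul_le_mul_of_nonneg_right (h.clk.b_le t) hs0
  linarith

/-- **PRODUCER of the record of the longitudinal equation.**   `CB = 1`: the cost `C2 Λ'^k2` of the post kernel is put in `kk`.   `mu = l8lMu (llMs a LP) n` (`= I.dv` on the levels `≤ n`). -/
theorem l8hf_long_hyp {C2 : ℝ} {k2 : ℕ} (hC2 : 0 < C2) (H2 : L8haH2 C2 k2) (kT : ℕ) (CK : ℝ) : ∃ CQ CA Cd : ℝ, 0 ≤ CA ∧
    ∀ (I : L8In) (t1 r : ℕ) (cK v0 Ac C11 DH : ℝ), I.HiB kT r cK CK v0 Ac C11 → (∀ t, t1 ≤ t → t ≤ I.n → (I.X false).Dd t ≤ DH) →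
      ∃ Bk : ℕ → ℕ → ℝ, L8HLong (I.X false) 4 CK CQ CA Cd 1 kT t1 (l8lMu (llMs I.a I.LP) I.n) (pkX2 I.a I.LP)
        (fun t => C2 * max 4 Ac ^ k2 * I.KC t) Bk I.es (CA / I.m) (I.etaT CK C11 r) DH (C2 * max 4 Ac ^ k2 * I.RiS) (I.IJS CK) := by
  obtain ⟨CA, hCA, HA⟩ := l8ha_x_a7_long kT CK
  refine ⟨∑ n ∈ range kT, l9pQC (range n), CA, 16 * 4 + 48 * 4 ^ 2, hCA, ?_⟩
  intro I t1 r cK v0 Ac C11 DH h hDH
  obtain ⟨ha, hx0, hx1, hm, _, _, _, hdv0, _, _, hb0, _, hK0, hmu⟩ := l8hf_basic I h.ok h.siz h.clk.adm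
  have ha0 : 0 < I.a := by rw [ha]; norm_num
  have hadm := h.clk.adm
  have hN : (I.X false).N = I.n := rfl
  have hbd : LlBd CK I.LP := fun t => ⟨h.clk.b_le t, h.clk.hK t⟩
  have hΛ4 : (4 : ℝ) ≤ max 4 Ac := le_max_left _ _
  have hΛ0 : (0 : ℝ) < max 4 Ac := by linarith
  have hc0 : 0 ≤ C2 * max 4 Ac ^ k2 := by positivity
  obtain ⟨Bk, hBk, hH2⟩ := H2 I.m I.a I.LP none (max 4 Ac) ha0 hadm (by linarith) (by rw [ha]; exact hΛ4)
    (by rw [ha]; linarith) (h.clk.K_top.trans (le_max_right _ _))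
  have hes0 : 0 ≤ I.es := Real.rpow_nonneg hx0.le _
  have hes1 : I.es ≤ 1 := Real.rpow_le_one hx0.le hx1.le (by unfold llDStar; norm_num)
  have hm0 : (0 : ℝ) < I.m := by exact_mod_cast hm
  refine ⟨Bk, ?_⟩
  exact
  { ok := by have h0 : (I.X false).Ok I.a := l8ha_ok I.m ha0 hadm none; rw [ha] at h0; exact h0
    msk := fun _ => rfl
    k_pos := h.kT_ge
    sum_zero := fun _ _ _ => rfl
    q_ref := fun _ => rfl
    b_bd := fun t => l8ha_b_bd I.m hadm hbd none t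
    es_nonneg := hes0
    ph_bd := fun t ht => ((l8hf_ph I h t ht).2).trans (by linarith)
    J_tail := fun t ht => l8hf_J_tail I h t ht
    DH_bd := hDH
    a7 := fun r' _ hr' => HA I.m I.a I.LP r' hm ha0 (by rw [ha]) hadm hbd hr' (by have := h.kT_ge; omega)
    CA_nonneg := hCA
    EA_nonneg := div_nonneg hCA hm0.le
    h2 := hH2
    mu_nonneg := fun t => l8ha_cell_nonneg ha0 hadm t
    mu_sum := by
      have := l8ha_cell_sum I.a I.LP
      rw [ha] at this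
      exact le_of_eq (by rw [← this, ha]; rfl)
    kk_nonneg := fun t => mul_nonneg hc0 (hK0 t)
    Bk_bd := fun r' t hr' ht => by rw [one_mul]; exact hBk r' t hr' ht
    CB_nonneg := zero_le_one
    Ri_bd := by
      unfold L8In.RiS
      rw [Finset.mul_sum]
      refine le_of_eq (Finset.sum_congr rfl fun t ht => ?_)
      have ht' : t ≤ I.n := Nat.lt_succ_iff.1 (Finset.mem_range.1 ht)
      rw [hmu t ht', (l8hf_ph I h t ht').1]
      ring
    dens := fun r' hr' g hg => by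
      have h0 : (I.X false).absK 2 2 (jtTab2 (I.X false).N r') (fun τ => if τ 2 3 ≤ (I.X false).N then g (τ 2 3) else 0)
          ≤ (16 * I.a + 48 * I.a ^ 2) * (g r' + ∑ t ∈ range ((I.X false).N + 1), l8lMu (llMs I.a I.LP) I.n t * g t) :=
        l8ha_dens I.m ha0 hadm none r' hr' g hg
      have e : 16 * I.a + 48 * I.a ^ 2 = 16 * 4 + 48 * 4 ^ 2 := by rw [ha]
      rw [e] at h0
      exact h0
    Cd_nonneg := by norm_num
    IJ_bd := by
      unfold L8In.IJS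
      refine Finset.sum_le_sum fun t ht => ?_
      have ht' : t ≤ I.n := Nat.lt_succ_iff.1 (Finset.mem_range.1 ht)
      rw [hmu t ht']
      exact mul_le_mul_of_nonneg_left (l8hf_Jn_le I h t ht') (hdv0 t)
    quo := fun n hn τ _ => by
      refine (l9p_quo_abs ha0 hadm.2 I.m none _ _ _ _ _ τ).trans ?_
      exact Finset.single_le_sum (f := fun n => l9pQC (range n)) (fun _ _ => l9p_QC_nonneg _) (Finset.mem_range.2 hn) }

/-- arithmetic of the absorption in (M) -/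
theorem l8hf_mean_aux {Kl c C2 CA g es f d b Gp CK A3 DH IJ T E LR m : ℝ} (hKl0 : 0 ≤ Kl) (hc1 : 1 ≤ c) (hcC : C2 ≤ c) (hcA : CA ≤ c)
    (hg : 0 < g) (hes0 : 0 ≤ es) (hG0 : 0 ≤ Gp) (hG1 : Gp ≤ CK) (hd : |d| ≤ A3) (hDH0 : 0 ≤ DH) (hIJ0 : 0 ≤ IJ) (hT0 : 0 ≤ T)
    (hE0 : 0 ≤ E) (hLR : 0 ≤ LR) (hm0 : 0 < m) (hgt : g ≤ 1 - b * Gp) (habs : Kl * c * es ≤ g / 2)
    (h3 : |(1 - b * Gp) * f - Gp * d| ≤ Kl * (C2 * LR + es * (|f| + |d| + DH + IJ) + T + E + CA / m)) :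
    |f| ≤ 2 / g * (CK * A3 + Kl * c * (LR + es * (A3 + DH + IJ) + T + E + 1 / m)) := by
  have hA3 : 0 ≤ A3 := (abs_nonneg _).trans hd
  have hCK : 0 ≤ CK := hG0.trans hG1
  have a1 : C2 * LR ≤ c * LR := mul_le_mul_of_nonneg_right hcC hLR
  have a2 : es * (|d| + DH + IJ) ≤ c * (es * (A3 + DH + IJ)) := by
    have b1 : es * (|d| + DH + IJ) ≤ es * (A3 + DH + IJ) := mul_le_mul_of_nonneg_left (by linarith) hes0
    have b2 : 0 ≤ es * (A3 + DH + IJ) := mul_nonneg hes0 (by linarith)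
    exact b1.trans (le_mul_of_one_le_left b2 hc1)
  have a3 : T ≤ c * T := le_mul_of_one_le_left hT0 hc1
  have a4 : E ≤ c * E := le_mul_of_one_le_left hE0 hc1
  have a5 : CA / m ≤ c * (1 / m) := by
    rw [mul_one_div]; exact div_le_div_of_nonneg_right hcA hm0.le
  have h4 : C2 * LR + es * (|d| + DH + IJ) + T + E + CA / m ≤ c * (LR + es * (A3 + DH + IJ) + T + E + 1 / m) := by
    have e : c * (LR + es * (A3 + DH + IJ) + T + E + 1 / m) = c * LR + c * (es * (A3 + DH + IJ)) + c * T + c * E + c * (1 / m) := by ring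
    rw [e]; linarith
  have h4' := mul_le_mul_of_nonneg_left h4 hKl0
  have h5 : |(1 - b * Gp) * f - Gp * d| ≤ Kl * es * |f| + Kl * c * (LR + es * (A3 + DH + IJ) + T + E + 1 / m) := by
    refine h3.trans ?_
    have e : Kl * (C2 * LR + es * (|f| + |d| + DH + IJ) + T + E + CA / m)
        = Kl * es * |f| + Kl * (C2 * LR + es * (|d| + DH + IJ) + T + E + CA / m) := by ring
    rw [e, mul_assoc Kl c]
    linarith
  have h6 : |(1 - b * Gp) * f| ≤ |(1 - b * Gp) * f - Gp * d| + |Gp * d| := by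
    have := abs_add_le ((1 - b * Gp) * f - Gp * d) (Gp * d)
    simpa using this
  rw [abs_mul, abs_mul Gp, abs_of_nonneg hG0] at h6
  have h7 : g * |f| ≤ |1 - b * Gp| * |f| := mul_le_mul_of_nonneg_right (hgt.trans (le_abs_self _)) (abs_nonneg _)
  have h8 : Kl * es * |f| ≤ g / 2 * |f| := by
    refine mul_le_mul_of_nonneg_right (le_trans ?_ habs) (abs_nonneg _)
    have h0 : 0 ≤ Kl * es := mul_nonneg hKl0 hes0
    have : Kl * c * es = c * (Kl * es) := by ring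
    rw [this]
    exact le_mul_of_one_le_left h0 hc1
  have h9 : Gp * |d| ≤ CK * A3 := mul_le_mul hG1 hd (abs_nonneg _) hCK
  rw [div_mul_eq_mul_div, le_div_iff₀ hg]
  linarith

/-- **(M): the mean at the levels `≥ t1`**      (`l8hl_long`, `l8hf_long_hyp`, absorption of `Km es |f|` by the gap `g`: `L08/HiTop.lean`; `|Γ' d| ≤ CK Ac x³`) -/
theorem l8hf_mean {C2 : ℝ} {k2 : ℕ} (hC2 : 0 < C2) (H2 : L8haH2 C2 k2) (kT : ℕ) (CK : ℝ) : ∃ Km : ℝ, 0 ≤ Km ∧
    ∀ (I : L8In) (t1 r : ℕ) (cK v0 Ac C11 DH g : ℝ), I.HiB kT r cK CK v0 Ac C11 → (∀ t, t1 ≤ t → t ≤ I.n → Real.sqrt (I.D2 t) ≤ DH) →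
      0 < g → (∀ t, t1 ≤ t → t ≤ I.n → g ≤ 1 - I.bC t * pkX2 I.a I.LP t) → Km * I.es ≤ g / 2 → ∀ t, t1 ≤ t → t ≤ I.n →
      |I.f t| ≤ 2 / g * (CK * Ac * I.x ^ 3
        + Km * (max 4 Ac ^ k2 * I.RiS + I.es * (Ac * I.x ^ 3 + DH + I.IJS CK) + I.etaT CK C11 r + I.es ^ kT + 1 / I.m)) := by
  obtain ⟨CQ, CA, Cd, hCA, HL⟩ := l8hf_long_hyp hC2 H2 kT CK
  obtain ⟨Kl, hKl0, hKl⟩ := l8hl_long kT 4 CK CQ CA Cd 1
  have hc1 : 1 ≤ max 1 (max C2 CA) := le_max_left _ _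
  have hcC : C2 ≤ max 1 (max C2 CA) := (le_max_left _ _).trans (le_max_right _ _)
  have hcA : CA ≤ max 1 (max C2 CA) := (le_max_right _ _).trans (le_max_right _ _)
  refine ⟨Kl * max 1 (max C2 CA), mul_nonneg hKl0 (by linarith), ?_⟩
  intro I t1 r cK v0 Ac C11 DH g h hDH hg hgap habs t ht1 ht
  obtain ⟨ha, hx0, hx1, hm, _, _, _, hdv0, _, _, hb0, _, hK0, hmu⟩ := l8hf_basic I h.ok h.siz h.clk.adm
  have ha0 : 0 < I.a := by rw [ha]; norm_num
  have hadm := h.clk.adm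
  have hm0 : (0 : ℝ) < I.m := by exact_mod_cast hm
  have hD : ∀ s, t1 ≤ s → s ≤ I.n → (I.X false).Dd s ≤ DH := by
    intro s hs1 hs
    unfold JtCtx.Dd
    rw [(l8hs_dic I hm ha0 hadm s hs).2.1]
    exact hDH s hs1 hs
  obtain ⟨Bk, HH⟩ := HL I t1 r cK v0 Ac C11 DH h hD
  have h3 := hKl _ (I.X false) t1 _ _ _ Bk _ _ _ _ _ _ HH t ht1 ht
  have eff : (I.X false).ff t = I.f t := by
    unfold JtCtx.ff
    rw [(l8hs_dic I hm ha0 hadm t ht).1]
    rfl
  have edd : (I.X false).dd t = I.d t := by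
    show I.hC t + I.bC t * I.q t - I.KC t = _
    unfold L8In.d
    ring
  have ebC : (I.X false).bC t = I.bC t := rfl
  rw [eff, edd, ebC, mul_assoc C2] at h3
  have hCK := h.CK_ge
  have hΛ0 : (0 : ℝ) < max 4 Ac := lt_of_lt_of_le (by norm_num) (le_max_left _ _)
  have hRi0 : 0 ≤ I.RiS := Finset.sum_nonneg fun s _ => mul_nonneg (mul_nonneg (hdv0 s) (hK0 s)) (abs_nonneg _)
  have hIJ0 : 0 ≤ I.IJS CK := Finset.sum_nonneg fun s _ =>
    mul_nonneg (hdv0 s) (add_nonneg (mul_nonneg (by linarith) (Real.sqrt_nonneg _)) (abs_nonneg _))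
  have hT0 : 0 ≤ I.etaT CK C11 r := by unfold L8In.etaT; rw [pow_mul]; exact pow_nonneg (sq_nonneg _) _
  have hes0 : 0 ≤ I.es := Real.rpow_nonneg hx0.le _
  rw [mul_assoc CK]
  exact l8hf_mean_aux hKl0 hc1 hcC hcA hg hes0 (h.clk.G_nonneg t ht) (h.clk.G_le t ht) (h.clk.d_le t ht)
    ((Real.sqrt_nonneg _).trans (hDH t ht1 ht)) hIJ0 hT0 (pow_nonneg hes0 _) (mul_nonneg (pow_nonneg hΛ0.le _) hRi0) hm0
    (hgap t ht1 ht) habs h3

/-- Cauchy-Schwarz above `V0` and the DEFINITION of `Z_g`: `∑_{v ≥ V0} dv √A ≤ (∑ dv v⁻²)^(1/2) (∑ dv v² A)^(1/2) ≤ (2 / V0) x^(2 + c/2) Z_g`      (`A = D² + f² ≥ 0`) -/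
theorem l8hf_high_int (I : L8In) (hI : I.Ok) (hs : l8Siz I.p) (hadm : LlStpAdm I.a I.LP) (c V0 : ℝ) (hV0 : 0 < V0) :
    ∑ t ∈ (range (I.n + 1)).filter (fun t => V0 ≤ I.v t), I.dv t * Real.sqrt (I.A t) ≤ 2 / V0 * I.x ^ (2 + c / 2) * I.Zg c := by
  obtain ⟨ha, hx0, _, hm, _, hv0, hv4, hdv0, hsum, _⟩ := l8hf_basic I hI hs hadm
  have ha0 : 0 < I.a := by rw [ha]; norm_num
  set s := (range (I.n + 1)).filter (fun t => V0 ≤ I.v t) with hsdef
  have hsn : ∀ t ∈ s, t ≤ I.n := fun t ht => Nat.lt_succ_iff.1 (Finset.mem_range.1 (Finset.mem_filter.1 ht).1)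
  have hA0 : ∀ t ∈ range (I.n + 1), 0 ≤ I.A t := fun t ht =>
    (l8hf_A_aux I hm ha0 hadm t (Nat.lt_succ_iff.1 (Finset.mem_range.1 ht))).2.2.1
  set Tall := I.int 0 I.a fun k => I.v k ^ 2 * I.A k with hTall
  have h1 : ∑ t ∈ s, I.dv t * Real.sqrt (I.A t) ≤ 1 / V0 * ∑ t ∈ s, I.dv t * (I.v t * Real.sqrt (I.A t)) := by
    rw [Finset.mul_sum]
    refine Finset.sum_le_sum fun t ht => ?_
    have hvt : V0 ≤ I.v t := (Finset.mem_filter.1 ht).2
    have h2 : 1 ≤ I.v t / V0 := by rw [le_div_iff₀ hV0]; linarith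
    have h3 : 0 ≤ I.dv t * Real.sqrt (I.A t) := mul_nonneg (hdv0 t) (Real.sqrt_nonneg _)
    calc I.dv t * Real.sqrt (I.A t) = 1 * (I.dv t * Real.sqrt (I.A t)) := (one_mul _).symm
      _ ≤ I.v t / V0 * (I.dv t * Real.sqrt (I.A t)) := mul_le_mul_of_nonneg_right h2 h3
      _ = 1 / V0 * (I.dv t * (I.v t * Real.sqrt (I.A t))) := by ring
  have h2 : (∑ t ∈ s, I.dv t * (I.v t * Real.sqrt (I.A t))) ^ 2 ≤ 4 * Tall := by
    have hcs := Finset.sum_mul_sq_le_sq_mul_sq s (fun t => Real.sqrt (I.dv t))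
      (fun t => Real.sqrt (I.dv t) * (I.v t * Real.sqrt (I.A t)))
    have e1 : ∀ t ∈ s, Real.sqrt (I.dv t) * (Real.sqrt (I.dv t) * (I.v t * Real.sqrt (I.A t)))
        = I.dv t * (I.v t * Real.sqrt (I.A t)) := fun t _ => by
      rw [← mul_assoc, Real.mul_self_sqrt (hdv0 t)]
    have e2 : ∀ t ∈ s, Real.sqrt (I.dv t) ^ 2 = I.dv t := fun t _ => Real.sq_sqrt (hdv0 t)
    have e3 : ∀ t ∈ s, (Real.sqrt (I.dv t) * (I.v t * Real.sqrt (I.A t))) ^ 2 = I.dv t * (I.v t ^ 2 * I.A t) := fun t ht => by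
      rw [mul_pow, mul_pow, Real.sq_sqrt (hdv0 t), Real.sq_sqrt (hA0 t (Finset.mem_filter.1 ht).1)]
    rw [Finset.sum_congr rfl e1, Finset.sum_congr rfl e2, Finset.sum_congr rfl e3] at hcs
    have h3 : ∑ t ∈ s, I.dv t ≤ 4 := by
      rw [← hsum]
      exact Finset.sum_le_sum_of_subset_of_nonneg (Finset.filter_subset _ _) fun t _ _ => hdv0 t
    have h4 : ∑ t ∈ s, I.dv t * (I.v t ^ 2 * I.A t) ≤ Tall := by
      rw [hTall]
      unfold L8In.int
      refine Finset.sum_le_sum_of_subset_of_nonneg ?_ fun t ht _ => ?_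
      · intro t ht
        rw [Finset.mem_filter] at ht ⊢
        exact ⟨ht.1, hv0 t, by rw [ha]; exact hv4 t⟩
      · exact mul_nonneg (hdv0 t) (mul_nonneg (sq_nonneg _) (hA0 t (Finset.mem_filter.1 ht).1))
    have h5 : 0 ≤ ∑ t ∈ s, I.dv t * (I.v t ^ 2 * I.A t) := Finset.sum_nonneg fun t ht =>
      mul_nonneg (hdv0 t) (mul_nonneg (sq_nonneg _) (hA0 t (Finset.mem_filter.1 ht).1))
    calc _ ≤ (∑ t ∈ s, I.dv t) * ∑ t ∈ s, I.dv t * (I.v t ^ 2 * I.A t) := hcs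
      _ ≤ 4 * Tall := mul_le_mul h3 h4 h5 (by norm_num)
  have h3 : ∑ t ∈ s, I.dv t * (I.v t * Real.sqrt (I.A t)) ≤ 2 * Real.sqrt Tall := by
    have e : 2 * Real.sqrt Tall = Real.sqrt (4 * Tall) := by
      rw [Real.sqrt_mul (by norm_num), show (4 : ℝ) = 2 ^ 2 by norm_num, Real.sqrt_sq (by norm_num)]
    rw [e]
    exact Real.le_sqrt_of_sq_le h2
  have h4 : Real.sqrt Tall ≤ I.x ^ (2 + c / 2) * I.Zg c := by
    have h5 : I.x ^ (-2 - c / 2) * Real.sqrt Tall ≤ I.Zg c := le_max_right _ _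
    have h6 := mul_le_mul_of_nonneg_left h5 (Real.rpow_nonneg hx0.le (2 + c / 2))
    rw [← mul_assoc, ← Real.rpow_add hx0, show 2 + c / 2 + (-2 - c / 2) = 0 by ring, Real.rpow_zero, one_mul] at h6
    exact h6
  calc _ ≤ 1 / V0 * ∑ t ∈ s, I.dv t * (I.v t * Real.sqrt (I.A t)) := h1
    _ ≤ 1 / V0 * (2 * (I.x ^ (2 + c / 2) * I.Zg c)) := by
        refine mul_le_mul_of_nonneg_left (h3.trans ?_) (by positivity)
        linarith
    _ = 2 / V0 * I.x ^ (2 + c / 2) * I.Zg c := by ring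

theorem l8hf_split_aux (I : L8In) (V0 : ℝ) (g : ℕ → ℝ) :
    ∑ t ∈ range (I.n + 1), g t = ∑ t ∈ (range (I.n + 1)).filter (fun t => I.v t < V0), g t
      + ∑ t ∈ (range (I.n + 1)).filter (fun t => V0 ≤ I.v t), g t := by
  rw [← Finset.sum_filter_add_sum_filter_not (range (I.n + 1)) (fun t => I.v t < V0)]
  congr 1
  refine Finset.sum_congr (Finset.filter_congr fun t _ => ?_) fun _ _ => rfl
  exact not_lt

/-- **the integral term** (LL 08 l.1612-1630).   Below `V0`: `K ≤ CK v ≤ CK V0`, `|b f + d| ≤ Bf e`;   above: `K ≤ Ac`, `|f| ≤ √A`, `l8hf_high_int`, `|d| ≤ Ac x³`, `∑ dv = 4`. -/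
theorem l8hf_Ri (I : L8In) {kT r : ℕ} {cK CK v0 Ac C11 : ℝ} (h : I.HiB kT r cK CK v0 Ac C11) (c V0 Bf E1 : ℝ) (e : ℕ → ℝ) (hV0 : 0 < V0) (hV : V0 ≤ v0)
    (hlow : ∀ t ≤ I.n, I.v t < V0 → |I.bC t * I.f t + I.d t| ≤ Bf * e t) (hBf : 0 ≤ Bf) (he : ∀ t, 0 ≤ e t)
    (hE1 : ∑ t ∈ (range (I.n + 1)).filter (fun t => I.v t < V0), I.dv t * e t ≤ E1) :
    I.RiS ≤ CK * Bf * V0 * E1 + Ac * CK * (2 / V0 * I.x ^ (2 + c / 2) * I.Zg c) + 4 * Ac ^ 2 * I.x ^ 3 := by
  obtain ⟨ha, hx0, _, hm, _, hv0, _, hdv0, hsum, _, hb0, hKm, hK0, _⟩ := l8hf_basic I h.ok h.siz h.clk.adm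
  have ha0 : 0 < I.a := by rw [ha]; norm_num
  have hCK := h.CK_ge
  have hAc := h.Ac_ge
  have hhi := l8hf_high_int I h.ok h.siz h.clk.adm c V0 hV0
  unfold L8In.RiS
  rw [l8hf_split_aux I V0]
  have hn : ∀ {p : ℕ → Prop} [DecidablePred p] {t : ℕ}, t ∈ (range (I.n + 1)).filter p → t ≤ I.n := fun ht =>
    Nat.lt_succ_iff.1 (Finset.mem_range.1 (Finset.mem_filter.1 ht).1)
  have hL : ∑ t ∈ (range (I.n + 1)).filter (fun t => I.v t < V0), I.dv t * I.KC t * |I.bC t * I.f t + I.d t|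
      ≤ CK * Bf * V0 * E1 := by
    calc _ ≤ ∑ t ∈ (range (I.n + 1)).filter (fun t => I.v t < V0), CK * Bf * V0 * (I.dv t * e t) := by
          refine Finset.sum_le_sum fun t ht => ?_
          have hvt : I.v t < V0 := (Finset.mem_filter.1 ht).2
          have h1 : I.KC t ≤ CK * V0 := (h.clk.K_le t (hn ht) (hvt.le.trans hV)).trans
            (mul_le_mul_of_nonneg_left hvt.le (by linarith))
          have h2 := hlow t (hn ht) hvt
          calc I.dv t * I.KC t * |I.bC t * I.f t + I.d t| ≤ I.dv t * (CK * V0) * (Bf * e t) :=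
                mul_le_mul (mul_le_mul_of_nonneg_left h1 (hdv0 t)) h2 (abs_nonneg _)
                  (mul_nonneg (hdv0 t) (by positivity))
            _ = CK * Bf * V0 * (I.dv t * e t) := by ring
      _ = CK * Bf * V0 * ∑ t ∈ (range (I.n + 1)).filter (fun t => I.v t < V0), I.dv t * e t := by rw [Finset.mul_sum]
      _ ≤ CK * Bf * V0 * E1 := mul_le_mul_of_nonneg_left hE1 (by positivity)
  have hH : ∑ t ∈ (range (I.n + 1)).filter (fun t => V0 ≤ I.v t), I.dv t * I.KC t * |I.bC t * I.f t + I.d t|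
      ≤ Ac * CK * (2 / V0 * I.x ^ (2 + c / 2) * I.Zg c) + 4 * Ac ^ 2 * I.x ^ 3 := by
    calc _ ≤ ∑ t ∈ (range (I.n + 1)).filter (fun t => V0 ≤ I.v t),
            (Ac * CK * (I.dv t * Real.sqrt (I.A t)) + Ac ^ 2 * I.x ^ 3 * I.dv t) := by
          refine Finset.sum_le_sum fun t ht => ?_
          have h1 : I.KC t ≤ Ac := (hKm (hn ht)).trans h.clk.K_top
          have hf := (l8hf_A_aux I hm ha0 h.clk.adm t (hn ht)).2.2.2
          have h2 : |I.bC t * I.f t + I.d t| ≤ CK * Real.sqrt (I.A t) + Ac * I.x ^ 3 := by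
            refine (abs_add_le _ _).trans (add_le_add ?_ (h.clk.d_le t (hn ht)))
            rw [abs_mul, abs_of_nonneg (hb0 t)]
            exact mul_le_mul (h.clk.b_le t) hf (abs_nonneg _) (by linarith)
          calc I.dv t * I.KC t * |I.bC t * I.f t + I.d t| ≤ I.dv t * Ac * (CK * Real.sqrt (I.A t) + Ac * I.x ^ 3) :=
                mul_le_mul (mul_le_mul_of_nonneg_left h1 (hdv0 t)) h2 (abs_nonneg _)
                  (mul_nonneg (hdv0 t) (by linarith))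
            _ = Ac * CK * (I.dv t * Real.sqrt (I.A t)) + Ac ^ 2 * I.x ^ 3 * I.dv t := by ring
      _ = Ac * CK * ∑ t ∈ (range (I.n + 1)).filter (fun t => V0 ≤ I.v t), I.dv t * Real.sqrt (I.A t)
            + Ac ^ 2 * I.x ^ 3 * ∑ t ∈ (range (I.n + 1)).filter (fun t => V0 ≤ I.v t), I.dv t := by
          rw [Finset.sum_add_distrib, Finset.mul_sum, Finset.mul_sum]
      _ ≤ Ac * CK * (2 / V0 * I.x ^ (2 + c / 2) * I.Zg c) + Ac ^ 2 * I.x ^ 3 * 4 := by
          refine add_le_add (mul_le_mul_of_nonneg_left hhi (by positivity)) (mul_le_mul_of_nonneg_left ?_ (by positivity))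
          rw [← hsum]
          exact Finset.sum_le_sum_of_subset_of_nonneg (Finset.filter_subset _ _) fun t _ _ => hdv0 t
      _ = _ := by ring
  linarith

/-- **the integrated second norm** (LL 08 l.1640-1650) -/
theorem l8hf_IJ (I : L8In) {kT r : ℕ} {cK CK v0 Ac C11 : ℝ} (h : I.HiB kT r cK CK v0 Ac C11) (c V0 Af E1 : ℝ) (e : ℕ → ℝ) (hV0 : 0 < V0)
    (hlow : ∀ t ≤ I.n, I.v t < V0 → I.A t ≤ (Af * e t) ^ 2) (hAf : 0 ≤ Af) (he : ∀ t, 0 ≤ e t)
    (hE1 : ∑ t ∈ (range (I.n + 1)).filter (fun t => I.v t < V0), I.dv t * e t ≤ E1) :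
    I.IJS CK ≤ CK * (Af * E1 + 2 / V0 * I.x ^ (2 + c / 2) * I.Zg c) + 4 * Ac * I.x ^ 3 := by
  obtain ⟨ha, hx0, _, hm, _, hv0, _, hdv0, hsum, _⟩ := l8hf_basic I h.ok h.siz h.clk.adm
  have hCK := h.CK_ge
  have hAc := h.Ac_ge
  have hhi := l8hf_high_int I h.ok h.siz h.clk.adm c V0 hV0
  have hn : ∀ {p : ℕ → Prop} [DecidablePred p] {t : ℕ}, t ∈ (range (I.n + 1)).filter p → t ≤ I.n := fun ht =>
    Nat.lt_succ_iff.1 (Finset.mem_range.1 (Finset.mem_filter.1 ht).1)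
  have e1 : I.IJS CK = CK * ∑ t ∈ range (I.n + 1), I.dv t * Real.sqrt (I.A t) + ∑ t ∈ range (I.n + 1), I.dv t * |I.d t| := by
    unfold L8In.IJS
    rw [Finset.mul_sum, ← Finset.sum_add_distrib]
    exact Finset.sum_congr rfl fun t _ => by ring
  have h1 : ∑ t ∈ range (I.n + 1), I.dv t * |I.d t| ≤ 4 * Ac * I.x ^ 3 := by
    calc _ ≤ ∑ t ∈ range (I.n + 1), I.dv t * (Ac * I.x ^ 3) := Finset.sum_le_sum fun t ht =>
          mul_le_mul_of_nonneg_left (h.clk.d_le t (Nat.lt_succ_iff.1 (Finset.mem_range.1 ht))) (hdv0 t)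
      _ = 4 * Ac * I.x ^ 3 := by rw [← Finset.sum_mul, hsum]; ring
  have h2 : ∑ t ∈ (range (I.n + 1)).filter (fun t => I.v t < V0), I.dv t * Real.sqrt (I.A t) ≤ Af * E1 := by
    calc _ ≤ ∑ t ∈ (range (I.n + 1)).filter (fun t => I.v t < V0), Af * (I.dv t * e t) := by
          refine Finset.sum_le_sum fun t ht => ?_
          have h3 : Real.sqrt (I.A t) ≤ Af * e t := by
            rw [Real.sqrt_le_iff]
            exact ⟨mul_nonneg hAf (he t), hlow t (hn ht) (Finset.mem_filter.1 ht).2⟩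
          calc I.dv t * Real.sqrt (I.A t) ≤ I.dv t * (Af * e t) := mul_le_mul_of_nonneg_left h3 (hdv0 t)
            _ = Af * (I.dv t * e t) := by ring
      _ = Af * ∑ t ∈ (range (I.n + 1)).filter (fun t => I.v t < V0), I.dv t * e t := by rw [Finset.mul_sum]
      _ ≤ Af * E1 := mul_le_mul_of_nonneg_left hE1 hAf
  rw [e1, l8hf_split_aux I V0]
  have h3 := mul_le_mul_of_nonneg_left (add_le_add h2 hhi) (by linarith : (0 : ℝ) ≤ CK)
  linarith

theorem l8hf_eqns_cite : True := by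
  have := @L8haH1.eq_1
  have := @L8haH2.eq_1
  have := @L8In.es.eq_1
  have := @L8In.etaT.eq_1
  have := @L8In.Lb.eq_1
  have := @L8In.RiS.eq_1
  have := @L8In.IJS.eq_1
  trivial

end Claimed.Agent.R286
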