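import Claimed.Agent.R286.L08.HiFin
import Claimed.Agent.R286.L08.HiTop
import Claimed.Agent.R286.Exit.DLow

/-!
# Row 286 (S0533), folder L08, file HiLow : THE LOW REGION OF THE LONGITUDINAL INTEGRALS OF (D15)      (owner helper279; form `L8tLow` typed by helper221 in `L08/HiTop.lean`; prefix `l8tl_`)

TEX[LL:prop:statistics-high] LL 08 l.1612-1650.      SUPPLY of `l8t_long` (`Exit/D15.lean`, glue of 221): below a FIXED mass `v0` the envelope `e` of `exit_dlow` dominates `C_b |f| + |d|` and `sqrt A`, and its mass integral is `<= C x^(2 - p_* - eps) Z_c^2`.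
* abstract (sequences only): `l8tl_cells` (the cells of mass `<= r` add up to `<= r`), `l8tl_band` (one dyadic band: `e <= e^2 / (2 th) + th / 2`, `th = Y^2 / r`, no Cauchy-Schwarz), `l8tl_sum` (`J` bands from `Y` to `V0`);
* one instance: `l8tl_QX`, `l8tl_A_eq` (`A = int (Q - q)^2 d fork`), `l8tl_inst` (from `I.Env`, `Rnd.ref_Q` at `r = 1`);
* numerics: `l8tl_num_J` (`J <= K x^(-eps/2)`), `l8tl_num_Y` (`x <= Y_c <= 1`, `Y_c^2 <= x^(2 - p_*) Z_c^2`), `l8tl_num_fin`;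
* **`l8t_low : L8tLow llBase T`** from `exit_dlow` (`pm = 1`, loss `eps / 2`) and `l8g_fine` (admissibility of the chain).      The constant of `exit_dlow` is not known to be positive: `0 < C x^(-eps/2)` follows from `Env.lo`, `Env.hi` at the last cut.
0 own sorry.
-/

set_option autoImplicit false

namespace Claimed.Agent.R286

open Finset MeasureTheory

/-! ### the low region of the longitudinal integrals (helper279) -/

/-- the cells of mass `≤ r` add up to at most `r` -/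
theorem l8tl_cells (v dv : ℕ → ℝ) (hv : Monotone v) (hdv : ∀ k, dv k = v k - (if k = 0 then 0 else v (k - 1))) {r : ℝ} (hr : 0 ≤ r) (N : ℕ) :
    ∑ k ∈ (range (N + 1)).filter (fun k => v k ≤ r), dv k ≤ r := by
  have hsum : ∀ N, ∑ k ∈ range (N + 1), dv k = v N := by
    intro N
    induction N with
    | zero => simp [hdv]
    | succ N ih => rw [Finset.sum_range_succ, ih, hdv]; simp
  induction N with
  | zero =>
    by_cases h : v 0 ≤ r
    · rw [Finset.filter_true_of_mem (fun k hk => by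
        have : k = 0 := by simpa using hk
        rw [this]; exact h), hsum]
      exact h
    · rw [Finset.filter_false_of_mem (fun k hk => by
        have : k = 0 := by simpa using hk
        rw [this]; exact h)]
      simpa using hr
  | succ N ih =>
    by_cases h : v (N + 1) ≤ r
    · rw [Finset.filter_true_of_mem (fun k hk => (hv (Nat.lt_succ_iff.1 (Finset.mem_range.1 hk))).trans h), hsum]
      exact h
    · rw [Finset.range_add_one, Finset.filter_insert, if_neg h]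
      exact ih

/-- one dyadic band: `∑ dv e ≤ (A / 2 + 1) Y²` from `∑ dv e² ≤ A r (Y²/r)²` -/
theorem l8tl_band (v dv e : ℕ → ℝ) (n : ℕ) (hv : Monotone v) (hdv : ∀ k, dv k = v k - (if k = 0 then 0 else v (k - 1))) (hdv0 : ∀ k, 0 ≤ dv k)
    {A Y r : ℝ} (hY : 0 < Y) (hr : 0 < r)
    (hbud : ∑ k ∈ (range (n + 1)).filter (fun k => r ≤ v k ∧ v k ≤ 2 * r), dv k * e k ^ 2 ≤ A * r * (Y ^ 2 / r) ^ 2) :
    ∑ k ∈ (range (n + 1)).filter (fun k => r ≤ v k ∧ v k ≤ 2 * r), dv k * e k ≤ (A / 2 + 1) * Y ^ 2 := by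
  set B := (range (n + 1)).filter (fun k => r ≤ v k ∧ v k ≤ 2 * r) with hB
  set θ := Y ^ 2 / r with hθ
  have hθ0 : 0 < θ := by positivity
  have h1 : ∀ k ∈ B, dv k * e k ≤ 1 / (2 * θ) * (dv k * e k ^ 2) + θ / 2 * dv k := by
    intro k _
    have h2 : e k ≤ e k ^ 2 / (2 * θ) + θ / 2 := by
      rw [← sub_nonneg]
      have : e k ^ 2 / (2 * θ) + θ / 2 - e k = (e k - θ) ^ 2 / (2 * θ) := by field_simp; ring
      rw [this]; positivity
    calc dv k * e k ≤ dv k * (e k ^ 2 / (2 * θ) + θ / 2) := mul_le_mul_of_nonneg_left h2 (hdv0 k)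
      _ = _ := by ring
  have h3 : ∑ k ∈ B, dv k ≤ 2 * r := by
    refine le_trans ?_ (l8tl_cells v dv hv hdv (by positivity : 0 ≤ 2 * r) n)
    refine Finset.sum_le_sum_of_subset_of_nonneg ?_ fun k _ _ => hdv0 k
    intro k hk
    rw [hB, Finset.mem_filter] at hk
    exact Finset.mem_filter.2 ⟨hk.1, hk.2.2⟩
  calc ∑ k ∈ B, dv k * e k ≤ ∑ k ∈ B, (1 / (2 * θ) * (dv k * e k ^ 2) + θ / 2 * dv k) := Finset.sum_le_sum h1
    _ = 1 / (2 * θ) * ∑ k ∈ B, dv k * e k ^ 2 + θ / 2 * ∑ k ∈ B, dv k := by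
        rw [Finset.sum_add_distrib, Finset.mul_sum, Finset.mul_sum]
    _ ≤ 1 / (2 * θ) * (A * r * θ ^ 2) + θ / 2 * (2 * r) :=
        add_le_add (mul_le_mul_of_nonneg_left hbud (by positivity)) (mul_le_mul_of_nonneg_left h3 (by positivity))
    _ = (A / 2 + 1) * Y ^ 2 := by
        rw [hθ]; field_simp

/-- **the integrated envelope below `V0`**: cells below `Y` telescope, then `J` dyadic bands -/
theorem l8tl_sum (v dv e : ℕ → ℝ) (n : ℕ) (hv : Monotone v) (hdv : ∀ k, dv k = v k - (if k = 0 then 0 else v (k - 1))) (hdv0 : ∀ k, 0 ≤ dv k)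
    (he : ∀ k ≤ n, 0 ≤ e k) {A Y vt V0 : ℝ} (hY : 0 < Y) (hA : 0 ≤ A) (hlow : ∀ k ≤ n, v k ≤ Y → e k = Y)
    (hbud : ∀ r, Y ≤ r → r ≤ vt → ∑ k ∈ (range (n + 1)).filter (fun k => r ≤ v k ∧ v k ≤ 2 * r), dv k * e k ^ 2 ≤ A * r * (Y ^ 2 / r) ^ 2)
    (hV : V0 ≤ vt) (J : ℕ) (hJ : V0 ≤ 2 ^ J * Y) :
    ∑ k ∈ (range (n + 1)).filter (fun k => v k < V0), dv k * e k ≤ (1 + J * (A / 2 + 1)) * Y ^ 2 := by
  have hn : ∀ {p : ℕ → Prop} [DecidablePred p] {t : ℕ}, t ∈ (range (n + 1)).filter p → t ≤ n := fun ht =>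
    Nat.lt_succ_iff.1 (Finset.mem_range.1 (Finset.mem_filter.1 ht).1)
  have key : ∀ j : ℕ, ∑ k ∈ (range (n + 1)).filter (fun k => v k < V0 ∧ v k ≤ 2 ^ j * Y), dv k * e k ≤ (1 + j * (A / 2 + 1)) * Y ^ 2 := by
    intro j
    induction j with
    | zero =>
      have h1 : ∑ k ∈ (range (n + 1)).filter (fun k => v k < V0 ∧ v k ≤ 2 ^ 0 * Y), dv k * e k
          ≤ ∑ k ∈ (range (n + 1)).filter (fun k => v k ≤ Y), dv k * Y := by
        refine (Finset.sum_le_sum_of_subset_of_nonneg (t := (range (n + 1)).filter (fun k => v k ≤ Y)) ?_ ?_).trans (le_of_eq ?_)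
        · intro k hk
          rw [Finset.mem_filter] at hk ⊢
          exact ⟨hk.1, by simpa using hk.2.2⟩
        · intro k hk _
          exact mul_nonneg (hdv0 k) (he k (hn hk))
        · refine Finset.sum_congr rfl fun k hk => ?_
          rw [hlow k (hn hk) (Finset.mem_filter.1 hk).2]
      rw [← Finset.sum_mul] at h1
      have h2 := mul_le_mul_of_nonneg_right (l8tl_cells v dv hv hdv hY.le n) hY.le
      simp only [Nat.cast_zero, zero_mul, add_zero, one_mul]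
      nlinarith
    | succ j ih =>
      rw [← Finset.sum_filter_add_sum_filter_not _ (fun k => v k ≤ 2 ^ j * Y)]
      have hpow : (2 : ℝ) ^ j * Y ≤ 2 ^ (j + 1) * Y := by
        rw [pow_succ]; nlinarith [pow_pos (two_pos : (0 : ℝ) < 2) j]
      have e1 : ((range (n + 1)).filter (fun k => v k < V0 ∧ v k ≤ 2 ^ (j + 1) * Y)).filter (fun k => v k ≤ 2 ^ j * Y)
          = (range (n + 1)).filter (fun k => v k < V0 ∧ v k ≤ 2 ^ j * Y) := by
        rw [Finset.filter_filter]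
        refine Finset.filter_congr fun k _ => ?_
        constructor
        · rintro ⟨⟨h1, _⟩, h3⟩; exact ⟨h1, h3⟩
        · rintro ⟨h1, h3⟩; exact ⟨⟨h1, h3.trans hpow⟩, h3⟩
      rw [e1]
      have h2 : ∑ k ∈ ((range (n + 1)).filter (fun k => v k < V0 ∧ v k ≤ 2 ^ (j + 1) * Y)).filter (fun k => ¬ v k ≤ 2 ^ j * Y), dv k * e k
          ≤ (A / 2 + 1) * Y ^ 2 := by
        set B' := ((range (n + 1)).filter (fun k => v k < V0 ∧ v k ≤ 2 ^ (j + 1) * Y)).filter (fun k => ¬ v k ≤ 2 ^ j * Y) with hB'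
        rcases B'.eq_empty_or_nonempty with h0 | ⟨k0, hk0⟩
        · rw [h0, Finset.sum_empty]; positivity
        · have hk0' := hk0
          rw [hB', Finset.mem_filter, Finset.mem_filter] at hk0'
          have hr0 : 0 < (2 : ℝ) ^ j * Y := by positivity
          have hrY : Y ≤ 2 ^ j * Y := le_mul_of_one_le_left hY.le (one_le_pow₀ (by norm_num))
          have hrV : (2 : ℝ) ^ j * Y ≤ vt := by
            have := hk0'.1.2.1
            have := not_le.1 hk0'.2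
            linarith
          refine le_trans ?_ (l8tl_band v dv e n hv hdv hdv0 hY hr0 (hbud _ hrY hrV))
          refine Finset.sum_le_sum_of_subset_of_nonneg ?_ fun k hk _ => mul_nonneg (hdv0 k) (he k (hn hk))
          intro k hk
          rw [hB', Finset.mem_filter, Finset.mem_filter] at hk
          rw [Finset.mem_filter]
          refine ⟨hk.1.1, (not_le.1 hk.2).le, ?_⟩
          have := hk.1.2.2
          rw [pow_succ] at this
          linarith
      push_cast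
      nlinarith
  refine le_trans (le_of_eq ?_) (key J)
  refine Finset.sum_congr (Finset.filter_congr fun k _ => ?_) fun _ _ => rfl
  exact ⟨fun h => ⟨h, (h.le).trans hJ⟩, fun h => h.1⟩


/-- beyond the last revelation the projected pair is the terminal pair -/
theorem l8tl_QX (I : L8In) (hI : I.Ok) (hs : l8Siz I.p) (hadm : LlStpAdm I.a I.LP) (p : SkOm I.m × SkOm I.m) :
    (I.sp false).QX (I.n + 1) (I.n + 1) p = (I.sp false).Q p := by
  obtain ⟨ha, _, _, hm, _⟩ := l8hf_basic I hI hs hadm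
  have hP : (I.sp false).Ok := l8i_ok I.m hm I.a (by rw [ha]; norm_num) (I.P false) (ll2_mv_adm hadm none)
  have hn : (I.sp false).n < I.n + 1 := by
    show (llMat I.LP).length < I.LP.length + 1
    simp [llMat]
  simp only [L8P.QX, L8P.Q, (I.sp false).l8s_X_term hP hn]

/-- `A = ν[(Q - q)²]` under the fork law of the single path -/
theorem l8tl_A_eq (I : L8In) (hI : I.Ok) (hs : l8Siz I.p) (hadm : LlStpAdm I.a I.LP) (t : ℕ) (ht : t ≤ I.n) :
    I.A t = ∫ p, ((I.sp false).Q p - I.q t) ^ 2 ∂(I.sp false).fork t := by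
  obtain ⟨ha, _, _, hm, _⟩ := l8hf_basic I hI hs hadm
  have ha0 : 0 < I.a := by rw [ha]; norm_num
  have hok := l8i_ok I.m hm I.a ha0 I.P0 hadm.1
  have := (skSP I.m I.a I.P0).l8s_fork_prob hok t
  have ht' : t ≤ I.P0.length := by
    have : I.P0.length = I.n := by show (llMat I.LP).length = I.LP.length; simp [llMat]
    rw [this]; exact ht
  have hQb : L8Bd (fun p => (skSP I.m I.a I.P0).Q p) :=
    ⟨((skSP I.m I.a I.P0).l8s_fork_Q_bd_aux hok).1, 1, ((skSP I.m I.a I.P0).l8s_fork_Q_bd_aux hok).2⟩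
  have hS : (skSP I.m I.a I.P0).S t = I.S t := l8i_S I.m I.a ha0 I.P0 hadm.1 t ht'
  have hD : (skSP I.m I.a I.P0).D2 t = I.D2 t := by
    unfold L8P.D2 L8In.D2 obD2
    rw [l8i_S I.m I.a ha0 I.P0 hadm.1 t ht', l8i_B I.m I.a ha0 I.P0 hadm.1 t ht']
  have h1 := (skSP I.m I.a I.P0).l8s_fork_var_Q hok t
  have h2 := (skSP I.m I.a I.P0).l8s_fork_Q hok t
  rw [hS] at h1 h2
  rw [hD] at h1
  have hg1 : L8Bd (fun p => (skSP I.m I.a I.P0).Q p - I.S t) := hQb.sub (l8Bd_const _)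
  show I.A t = ∫ p, ((skSP I.m I.a I.P0).Q p - I.q t) ^ 2 ∂(skSP I.m I.a I.P0).fork t
  have e : ∀ p, ((skSP I.m I.a I.P0).Q p - I.q t) ^ 2
      = ((skSP I.m I.a I.P0).Q p - I.S t) ^ 2 + (2 * I.f t * ((skSP I.m I.a I.P0).Q p - I.S t) + I.f t ^ 2) := by
    intro p; unfold L8In.f; ring
  simp only [e]
  have i1 : Integrable (fun p => ((skSP I.m I.a I.P0).Q p - I.S t) ^ 2) ((skSP I.m I.a I.P0).fork t) := (hg1.pow 2).integrable _
  have i2 : Integrable (fun p => 2 * I.f t * ((skSP I.m I.a I.P0).Q p - I.S t)) ((skSP I.m I.a I.P0).fork t) := (hg1.integrable _).const_mul _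
  have i3 : Integrable (fun _ : SkOm I.m × SkOm I.m => I.f t ^ 2) ((skSP I.m I.a I.P0).fork t) := integrable_const _
  have i23 : Integrable (fun p => 2 * I.f t * ((skSP I.m I.a I.P0).Q p - I.S t) + I.f t ^ 2) ((skSP I.m I.a I.P0).fork t) := i2.add i3
  rw [integral_add i1 i23, integral_add i2 i3, integral_const_mul,
    integral_sub (hQb.integrable _) (integrable_const _), h1, h2]
  simp
  exact (l8hf_A_aux I hm ha0 hadm t ht).2.1

/-- **the low region at one instance**: what `l8hf_Ri`, `l8hf_IJ` ask below `V0`, from the envelope of `exit_dlow` -/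
theorem l8tl_inst (I : L8In) (hI : I.Ok) (hs : l8Siz I.p) (hadm : LlStpAdm I.a I.LP) {e : ℕ → ℝ} {A Y Zh vt vp cE Cb V0 : ℝ} {pm jm : ℕ}
    (hE : I.Env e A Y vt cE) (hR : I.Rnd false e A Y Zh vt vp pm jm) (hpm : 1 ≤ pm) (hA : 0 ≤ A) (hCb : 0 ≤ Cb) (hlam : I.lam ≤ 1)
    (hY : 0 < Y) (hY1 : Y ≤ 1) (hV : V0 ≤ vt) (hV1 : V0 ≤ 1) (J : ℕ) (hJ : V0 ≤ 2 ^ J * Y) :
    (∀ t ≤ I.n, I.v t < V0 → Cb * |I.f t| + |I.d t| ≤ (Cb + 1) * A * |e t|) ∧
    (∀ t ≤ I.n, I.v t < V0 → I.A t ≤ (A * |e t|) ^ 2) ∧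
    ∑ t ∈ (range (I.n + 1)).filter (fun t => I.v t < V0), I.dv t * |e t| ≤ (1 + J * (A / 2 + 1)) * Y ^ 2 := by
  obtain ⟨ha, hx0, _, hm, hvm, hv0, _, hdv0, _, _, hb0, _⟩ := l8hf_basic I hI hs hadm
  have he0 : ∀ t ≤ I.n, 0 < e t := fun t ht => lt_of_lt_of_le (Real.rpow_pos_of_pos hx0 _) (hE.lo t ht)
  have habs : ∀ t ≤ I.n, |e t| = e t := fun t ht => abs_of_pos (he0 t ht)
  have hlam0 : 0 ≤ I.lam := le_trans (Real.rpow_pos_of_pos hx0 _).le hI.pt.lam_lo
  refine ⟨fun t ht hv => ?_, fun t ht hv => ?_, ?_⟩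
  · rw [habs t ht]
    have h1 := hE.f_le t ht (hv.le.trans hV)
    have h2 := hE.d_le t ht (hv.le.trans hV)
    have hAe : 0 ≤ A * e t := mul_nonneg hA (he0 t ht).le
    have hmx : max (I.v t) Y ^ 2 ≤ 1 := pow_le_one₀ (le_max_of_le_right hY.le) (max_le (hv.le.trans hV1) hY1)
    have hmx0 : 0 ≤ max (I.v t) Y ^ 2 := sq_nonneg _
    have h3 : A * I.lam * max (I.v t) Y ^ 2 * e t ≤ A * e t := by
      have : I.lam * max (I.v t) Y ^ 2 ≤ 1 := mul_le_one₀ hlam hmx0 hmx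
      calc A * I.lam * max (I.v t) Y ^ 2 * e t = (I.lam * max (I.v t) Y ^ 2) * (A * e t) := by ring
        _ ≤ 1 * (A * e t) := mul_le_mul_of_nonneg_right this hAe
        _ = A * e t := one_mul _
    have h4 : |I.d t| ≤ A * e t := by have := abs_nonneg (I.dd t); linarith
    have h5 : Cb * |I.f t| ≤ Cb * (A * e t) := mul_le_mul_of_nonneg_left h1 hCb
    linarith
  · rw [habs t ht, l8tl_A_eq I hI hs hadm t ht]
    have h1 := hR.ref_Q 1 le_rfl hpm t ⟨ht, by simp⟩ (hv.le.trans hV) (I.n + 1) (I.n + 1) (by omega) (by omega)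
    have e1 : (fun ω => (I.sp false).QX (I.n + 1) (I.n + 1) ω - I.q t) = fun ω => (I.sp false).Q ω - I.q t := by
      funext ω; rw [l8tl_QX I hI hs hadm]
    rw [e1] at h1
    exact h1
  · have e1 : ∑ t ∈ (range (I.n + 1)).filter (fun t => I.v t < V0), I.dv t * |e t|
        = ∑ t ∈ (range (I.n + 1)).filter (fun t => I.v t < V0), I.dv t * e t :=
      Finset.sum_congr rfl fun t ht => by
        rw [habs t (Nat.lt_succ_iff.1 (Finset.mem_range.1 (Finset.mem_filter.1 ht).1))]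
    rw [e1]
    exact l8tl_sum I.v I.dv e I.n hvm (fun _ => rfl) hdv0 (fun t ht => (he0 t ht).le) hY hA hE.low hE.bud hV J hJ


/-! ### numerics -/

/-- the number of dyads from `x` to `1` is subpower -/
theorem l8tl_num_J {x ε : ℝ} (hx0 : 0 < x) (hx1 : x < 1) (hε : 0 < ε) :
    ∃ J : ℕ, 1 ≤ 2 ^ J * x ∧ (J : ℝ) ≤ (2 / (ε * Real.log 2) + 1) * x ^ (-(ε / 2)) := by
  have hl2 : 0 < Real.log 2 := Real.log_pos (by norm_num)
  have hinv : 0 < 1 / x := by positivity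
  have hinv1 : 1 ≤ 1 / x := by rw [le_div_iff₀ hx0]; linarith
  have hlb0 : 0 ≤ Real.logb 2 (1 / x) := Real.logb_nonneg (by norm_num) hinv1
  have hy1 : 1 ≤ x ^ (-(ε / 2)) := Real.one_le_rpow_of_pos_of_le_one_of_nonpos hx0 hx1.le (by linarith)
  refine ⟨⌈Real.logb 2 (1 / x)⌉₊, ?_, ?_⟩
  · have h1 : (2 : ℝ) ^ (Real.logb 2 (1 / x)) ≤ (2 : ℝ) ^ ((⌈Real.logb 2 (1 / x)⌉₊ : ℕ) : ℝ) :=
      Real.rpow_le_rpow_of_exponent_le (by norm_num) (Nat.le_ceil _)
    rw [Real.rpow_logb (by norm_num) (by norm_num) hinv, Real.rpow_natCast] at h1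
    have h2 := mul_le_mul_of_nonneg_right h1 hx0.le
    have h3 : 1 / x * x = 1 := by field_simp
    rw [h3] at h2
    exact h2
  · have h1 : ((⌈Real.logb 2 (1 / x)⌉₊ : ℕ) : ℝ) ≤ Real.logb 2 (1 / x) + 1 := (Nat.ceil_lt_add_one hlb0).le
    have h2 : Real.log (1 / x) ≤ (1 / x) ^ (ε / 2) / (ε / 2) := Real.log_le_rpow_div hinv.le (by positivity)
    have e1 : (1 / x) ^ (ε / 2) = x ^ (-(ε / 2)) := by
      rw [one_div, Real.inv_rpow hx0.le, Real.rpow_neg hx0.le]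
    rw [e1] at h2
    have h3 : Real.logb 2 (1 / x) ≤ 2 / (ε * Real.log 2) * x ^ (-(ε / 2)) := by
      unfold Real.logb
      rw [div_le_iff₀ hl2]
      refine h2.trans (le_of_eq ?_)
      field_simp
    nlinarith

theorem l8tl_num_fin {y C KJ Jr : ℝ} (hy1 : 1 ≤ y) (hC : 0 < C) (hKJ : 0 ≤ KJ) (_hJ0 : 0 ≤ Jr) (hJ : Jr ≤ KJ * y) :
    1 + Jr * (C * y / 2 + 1) ≤ (1 + KJ * (C / 2 + 1)) * (y * y) := by
  have h3 : C * y / 2 + 1 ≤ (C / 2 + 1) * y := by nlinarith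
  have h4 : Jr * (C * y / 2 + 1) ≤ (KJ * y) * ((C / 2 + 1) * y) := mul_le_mul hJ h3 (by positivity) (by positivity)
  have h6 : (1 : ℝ) ≤ y * y := by nlinarith
  nlinarith

/-- the capped low scale: `x ≤ Y_c ≤ 1`, `Y_c² ≤ x^(2 - p_*) Z_c²` -/
theorem l8tl_num_Y (I : L8In) {pS : ℝ} (hx0 : 0 < I.x) (hx1 : I.x < 1) (hlam : I.lam = I.x ^ pS) (hpS : 0 < pS) (hs0 : 0 ≤ I.F.sS) (hs1 : I.F.sS ≤ 1)
    (hZ : 1 ≤ I.Zc llDStar) :
    I.x ≤ I.Yc llDStar ∧ I.Yc llDStar ≤ 1 ∧ I.Yc llDStar ^ 2 ≤ I.x ^ (2 - pS) * I.Zc llDStar ^ 2 := by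
  have hl0 : 0 < I.lam := by rw [hlam]; exact Real.rpow_pos_of_pos hx0 _
  have hl1 : I.lam ≤ 1 := by rw [hlam]; exact Real.rpow_le_one hx0.le hx1.le hpS.le
  have hU : I.U = min 1 (I.x * I.lam ^ (-(I.F.sS / 2))) := rfl
  have hp1 : 1 ≤ I.lam ^ (-(I.F.sS / 2)) := Real.one_le_rpow_of_pos_of_le_one_of_nonpos hl0 hl1 (by linarith)
  have hxU : I.x ≤ I.U := by
    rw [hU]; exact le_min hx1.le (le_mul_of_one_le_right hx0.le hp1)
  have hU0 : 0 < I.U := hx0.trans_le hxU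
  have hUle : I.U ≤ I.x * I.lam ^ (-(I.F.sS / 2)) := by rw [hU]; exact min_le_right _ _
  refine ⟨?_, ?_, ?_⟩
  · unfold L8In.Yc
    exact hxU.trans (le_mul_of_one_le_right hU0.le hZ)
  · unfold L8In.Yc
    have h1 : I.Zc llDStar ≤ I.x ^ (llDStar / 3) / I.U := min_le_right _ _
    have h2 := mul_le_mul_of_nonneg_left h1 hU0.le
    rw [mul_div_cancel₀ _ hU0.ne'] at h2
    exact h2.trans (Real.rpow_le_one hx0.le hx1.le (by unfold llDStar; norm_num))
  · unfold L8In.Yc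
    rw [mul_pow]
    refine mul_le_mul_of_nonneg_right ?_ (sq_nonneg _)
    have h1 : I.U ^ 2 ≤ (I.x * I.lam ^ (-(I.F.sS / 2))) ^ 2 := pow_le_pow_left₀ hU0.le hUle 2
    refine h1.trans ?_
    have e1 : (I.x * I.lam ^ (-(I.F.sS / 2))) ^ 2 = I.x ^ (2 - pS * I.F.sS) := by
      rw [hlam, ← Real.rpow_mul hx0.le, ← Real.rpow_natCast (I.x * _) 2, Real.mul_rpow hx0.le (Real.rpow_nonneg hx0.le _),
        ← Real.rpow_mul hx0.le, ← Real.rpow_add hx0]
      congr 1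
      push_cast
      ring
    rw [e1]
    exact Real.rpow_le_rpow_of_exponent_ge hx0 hx1.le (by nlinarith)

/-- `L8Ev.mono` which remembers the record of cut-offs -/
theorem l8tl_ev_mono {F : LlFix} {𝔹 : LlBase} {N0 : ℕ} {R : LlPt → Prop} {Φ Ψ : L8In → Prop} (h : L8Ev F 𝔹 N0 R Φ)
    (hi : ∀ I : L8In, I.F = F → I.Ok → R I.p → Φ I → Ψ I) : L8Ev F 𝔹 N0 R Ψ := by
  intro N s hN'
  filter_upwards [h N s hN'] with Fs hFs ell lam chiL chiE sm γ m hR hOk
  exact hi _ rfl hOk hR (hFs ell lam chiL chiE sm γ m hR hOk)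

/-- **LOW from `exit_dlow`** -/
theorem l8t_low (T : ℝ) (hT : 1 < T) : L8tLow llBase T := by
  intro F0 hF pB hpB
  obtain ⟨p0, cE, hp0, hcE, hlow⟩ := exit_dlow T hT F0 hF pB hpB
  refine ⟨min p0 1, lt_min hp0 one_pos, ?_⟩
  intro pS hpS hpS'
  obtain ⟨v0, v1, hv0, hv1, hlow⟩ := hlow pS hpS (hpS'.trans (min_le_left _ _))
  refine ⟨min v0 1 / 2, by positivity, ?_⟩
  intro Cb ε hCb hε
  obtain ⟨C, N1, E1⟩ := hlow 1 1 one_pos one_pos 1 0 (ε / 2) (by positivity)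
  obtain ⟨N2, E2⟩ := L8Ev.of_fine (l8g_fine T hT) hF pB hpS (hpS'.trans (min_le_right _ _)) 0 0 (R := l8Siz)
    (Φ := fun I => LlStpAdm I.a I.LP) (fun I _ _ _ _ _ hf => hf.adm)
  have hl2 : 0 < Real.log 2 := Real.log_pos (by norm_num)
  set KJ : ℝ := 2 / (ε * Real.log 2) + 1 with hKJ
  have hKJ0 : 0 ≤ KJ := by positivity
  set C' : ℝ := max ((Cb + 1) * |C|) (1 + KJ * (|C| / 2 + 1)) with hC'
  have hC'0 : 0 ≤ C' := le_trans (by positivity) (le_max_left _ _)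
  refine ⟨C', max N1 N2, hC'0, ?_⟩
  refine l8tl_ev_mono (E1.and E2) ?_
  rintro I hIF hI hs ⟨⟨hZ, e, hAll⟩, hadm⟩
  refine ⟨hZ, fun t => |e t|, fun t => abs_nonneg _, ?_⟩
  obtain ⟨ha, hx0, hx1, hm, hvm, hvnn, _, hdv0, _, _, _, _⟩ := l8hf_basic I hI hs hadm
  have hlam : I.lam = I.x ^ pS := by
    have := (hI.pt.sm_fin hs.1).1
    rw [hIF] at this
    exact this
  have hl1 : I.lam ≤ 1 := by rw [hlam]; exact Real.rpow_le_one hx0.le hx1.le hpS.le
  have hsS : I.F.sS = 1 / 2 - pB.tau := by rw [hIF]; rfl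
  have hτ0 := pB.tau_pos
  have hτ1 := pB.tau_le
  obtain ⟨hY0, hY1, hY2⟩ := l8tl_num_Y I hx0 hx1 hlam hpS (by rw [hsS]; linarith) (by rw [hsS]; linarith) hZ
  have hYpos : 0 < I.Yc llDStar := hx0.trans_le hY0
  obtain ⟨J, hJ1, hJ2⟩ := l8tl_num_J hx0 hx1 hε
  set y : ℝ := I.x ^ (-(ε / 2)) with hy
  have hy1 : 1 ≤ y := Real.one_le_rpow_of_pos_of_le_one_of_nonpos hx0 hx1.le (by linarith)
  have hyy : y * y = I.x ^ (-ε) := by rw [hy, ← Real.rpow_add hx0]; congr 1; ring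
  have hyle : y ≤ I.x ^ (-ε) := by rw [← hyy]; exact le_mul_of_one_le_left (by linarith) hy1
  -- the loss is positive
  have hvn : I.v I.n = 4 := by
    show skMs I.a I.P0 I.n = 4
    unfold skMs
    rw [List.getD_eq_default _ _ (by simp [L8In.P0, L8In.n, llMat]), ha]
  have hApos : 0 < C * y := by
    have h1 := hAll.env.hi I.n le_rfl (by rw [hvn]; linarith)
    have h2 := hAll.env.lo I.n le_rfl
    have h3 : 0 < I.x ^ cE := Real.rpow_pos_of_pos hx0 _
    rw [hvn] at h1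
    linarith
  have hCpos : 0 < C := by
    by_contra h
    have := mul_nonpos_of_nonpos_of_nonneg (not_lt.1 h) (by linarith : 0 ≤ y)
    linarith
  have hCabs : |C| = C := abs_of_pos hCpos
  have hV1 : min v0 1 ≤ 2 ^ J * I.Yc llDStar := by
    have h1 : (2 : ℝ) ^ J * I.x ≤ 2 ^ J * I.Yc llDStar := mul_le_mul_of_nonneg_left hY0 (by positivity)
    exact (min_le_right _ _).trans (hJ1.trans h1)
  obtain ⟨c1, c2, c3⟩ := l8tl_inst I hI hs hadm hAll.env hAll.unt le_rfl hApos.le hCb hl1 hYpos hY1 (min_le_left v0 1) (min_le_right v0 1) J hV1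
  have hlt : ∀ t, I.v t ≤ min v0 1 / 2 → I.v t < min v0 1 := fun t ht => by
    have : 0 < min v0 1 := lt_min hv0 one_pos
    linarith
  have hAle : C * y ≤ C' * I.x ^ (-ε) := by
    have h1 : C ≤ C' := by
      refine le_trans ?_ (le_max_left _ _)
      rw [hCabs]; exact le_mul_of_one_le_left hCpos.le (by linarith)
    exact mul_le_mul h1 hyle (by linarith) hC'0
  refine ⟨fun t ht hv => ?_, fun t ht hv => ?_, ?_⟩
  · refine (c1 t ht (hlt t hv)).trans ?_
    refine mul_le_mul_of_nonneg_right ?_ (abs_nonneg _)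
    have h1 : (Cb + 1) * C ≤ C' := by rw [← hCabs]; exact le_max_left _ _
    calc (Cb + 1) * (C * y) = (Cb + 1) * C * y := by ring
      _ ≤ C' * I.x ^ (-ε) := mul_le_mul h1 hyle (by linarith) hC'0
  · refine (c2 t ht (hlt t hv)).trans ?_
    exact pow_le_pow_left₀ (mul_nonneg hApos.le (abs_nonneg _)) (mul_le_mul_of_nonneg_right hAle (abs_nonneg _)) 2
  · have h1 : ∑ t ∈ (range (I.n + 1)).filter (fun t => I.v t ≤ min v0 1 / 2), I.dv t * |e t|
        ≤ ∑ t ∈ (range (I.n + 1)).filter (fun t => I.v t < min v0 1), I.dv t * |e t| := by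
      refine Finset.sum_le_sum_of_subset_of_nonneg ?_ fun t _ _ => mul_nonneg (hdv0 t) (abs_nonneg _)
      intro t ht
      rw [Finset.mem_filter] at ht ⊢
      exact ⟨ht.1, hlt t ht.2⟩
    refine h1.trans (c3.trans ?_)
    have h2 : 1 + (J : ℝ) * (C * y / 2 + 1) ≤ C' * I.x ^ (-ε) := by
      have h5 : 1 + KJ * (C / 2 + 1) ≤ C' := by rw [← hCabs]; exact le_max_right _ _
      refine (l8tl_num_fin hy1 hCpos hKJ0 (Nat.cast_nonneg J) hJ2).trans ?_
      rw [hyy]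
      exact mul_le_mul_of_nonneg_right h5 (Real.rpow_pos_of_pos hx0 _).le
    have e1 : I.x ^ (2 - pS - ε) = I.x ^ (-ε) * I.x ^ (2 - pS) := by rw [← Real.rpow_add hx0]; congr 1; ring
    calc (1 + (J : ℝ) * (C * y / 2 + 1)) * I.Yc llDStar ^ 2 ≤ (C' * I.x ^ (-ε)) * (I.x ^ (2 - pS) * I.Zc llDStar ^ 2) :=
          mul_le_mul h2 hY2 (sq_nonneg _) (mul_nonneg hC'0 (Real.rpow_pos_of_pos hx0 _).le)
      _ = C' * I.x ^ (2 - pS - ε) * I.Zc llDStar ^ 2 := by rw [e1]; ring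

end Claimed.Agent.R286
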