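import Claimed.Agent.R286.L08.Glue
import Claimed.Agent.R286.L02.Inst
import Claimed.Agent.R286.L09.RedProb
import Claimed.Agent.R286.L09.Trs

/-!
# Row 286 (S0533), folder L08, file DList : THE DICTIONARY  LL 08 → LL 09      (owner helper220; ordered by helper224 + helper75; prefix `l8d_`)

The exits of LL 08 (`L8xDir, L8xLow, L8xD11, L8xD15`; records `I.Env, I.Num, I.Rnd, I.All` of `L08/Defs.lean`) speak of the SINGLE PATH `I.sp tl : L8P` (integrals `I.mo`, `I.moF` under `μ`, `fork k`).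
The nodes of LL 09 speak of the TREE NUMBERS of the jet context `I.X tl = llJs m a LP ..` (`X.nu q τ`, `X.Dl`, `l9sMom`, `L9rEnv`, `L9rChg`, `L9sIns`, `L9tOk`, `L9rPos`).      This file translates, at ONE instance.

STANDING HYPOTHESES: `I.Std` = (`0 < a`, `1 ≤ m`, `LlStpAdm a LP`): from `I.Ok` + `I.Fine η` (`l8d_std`).
§1 STRUCTURE     `l8d_law` (`JtCtx.Law`), `l8d_pos` (`L9rPos`), `l8d_tok` (`L9tOk`), masks `l8d_msk_act / l8d_msk_off`, masses `l8d_ms`, `l8d_mu` (`l9rMu = I.dv`), mass integrals `l8d_int` (`I.int` as a filtered sum, `l9sInt`).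
§2 PAIR MARGINAL `l8d_pair`  : `X.nu 2 (trPair n t) (g (ov (σ 0) (σ 1))) = ∫ g(Q) ∂fork t`;      `l8d_pair_tr` : the same at a pair `(c, d)` of ANY tree;      `l8d_QX_top` : `QX k₁ k₂ = Q` for `k₁, k₂ > n`.
§3 MOMENTS       `l8d_lyap` (orders `j ≤ r`), `l8d_mom` : `I.moF tl t r (Q - q) ≤ B^(2r)` ⟹ `l9sMom X j t ≤ B^j`, `j ≤ 2r`;   `l8d_mom_off` (masked cuts: `|q|^j`);   `l8d_env` (`L9rEnv`), `l8d_dl_tr` (any tree).
§4 SECOND MOMENTS `l8d_S, l8d_B` (`ν[Q] = S`, `ν[Q²] = B`, untilted), `l8d_A` (`ν[Δ²] = A = D² + f²`), `l8d_D2` (`ν[(Q - S)²] = D²`), `l8d_f_le`.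
§5 RESAMPLING    `l8d_chg` : Cor. 8.7 (`Rnd.proj`) ⟹ `L9rChg X j v c (2 B)`.      Tools: `l8d_eff` (a test sees the effective drivers only), 4-label law against the fork law.
§6 RECORDS       corollaries of `I.Rnd` / of the conclusion of `L8xD11`: `l8d_rnd_env`, `l8d_rnd_raw`, `l8d_rnd_chg`, `l8d_d11_ins` (`L9sIns`).
-/

set_option autoImplicit false

namespace Claimed.Agent.R286

open MeasureTheory Set Filter Finset

noncomputable section

namespace L8In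

/-- standing hypotheses of the dictionary at one instance -/
structure Std (I : L8In) : Prop where
  a_pos : 0 < I.a
  m_pos : 1 ≤ I.m
  adm : LlStpAdm I.a I.LP

end L8In

variable {I : L8In}

/-! ## §1 structure -/

/-- the option which codes the ensemble -/
def l8dTl (I : L8In) (tl : Bool) : Option ℕ := if tl then some I.js else none

theorem l8d_X_eq (I : L8In) (tl : Bool) : I.X tl = llJs I.m I.a I.LP (l8dTl I tl) := rfl

theorem l8d_P_eq (I : L8In) (tl : Bool) : I.P tl = llMv (l8dTl I tl) I.LP := rfl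

theorem l8d_N (I : L8In) (tl : Bool) : (I.X tl).N = I.n := rfl

theorem l8d_P_len (I : L8In) (tl : Bool) : (I.P tl).length = I.n := ll2_mv_len _ _

theorem l8d_P_adm (h : I.Std) (tl : Bool) : SkAdm I.a (I.P tl) := ll2_mv_adm h.adm _

/-- the laws of `L02/Law.lean` -/
theorem l8d_law (h : I.Std) (tl : Bool) : (I.X tl).Law (llMs I.a I.LP) := ll2_law I.m h.a_pos h.adm _

/-- the positive laws in the form of RED (282) -/
theorem l8d_pos (h : I.Std) (tl : Bool) : L9rPos (I.X tl) where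
  rep := fun q τ _ => (l8d_law h tl).nu.rep q τ
  congr := fun q τ τ' P hag => (l8d_law h tl).nu.congr q τ τ' hag P
  comap := fun q p τ hτ f hf P hP => (l8d_law h tl).nu.comap q p τ hτ f hf P hP

/-- the hypotheses of `L09/TrAbs.lean` (65) -/
theorem l8d_tok (h : I.Std) (tl : Bool) : L9tOk (I.X tl) (fun r τ => IsTr I.n r τ) := l9s_ok (l8d_law h tl)

theorem l8d_msk_act {tl : Bool} {k : ℕ} (hk : I.act tl k) : (I.X tl).msk k = 1 := by
  cases tl with
  | false => rfl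
  | true =>
    show (if I.js < k then (1 : ℝ) else 0) = 1
    rw [if_pos (hk.2 rfl)]

theorem l8d_msk_off {k : ℕ} (hk : k ≤ I.js) : (I.X true).msk k = 0 := by
  show (if I.js < k then (1 : ℝ) else 0) = 0
  rw [if_neg (by omega)]

/-- the masses of the signed calculus are the masses of LL 08 -/
theorem l8d_ms (I : L8In) (k : ℕ) : llMs I.a I.LP k = I.v k := by
  unfold llMs L8In.v skMs L8In.P0
  have e : (llMat I.LP).map SkInc.m = I.LP.map LlInc.m := ll2_mv_mass none I.LP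
  rw [e, List.getD_eq_getElem?_getD]

theorem l8d_mu (I : L8In) (k : ℕ) : l9rMu (llMs I.a I.LP) k = I.dv k := by
  unfold l9rMu trPm L8In.dv skGap
  simp only [l8d_ms]
  rfl

/-- `∫ g dv` over all the cuts, in the notation of 65 -/
theorem l8d_int_all (I : L8In) (g : ℕ → ℝ) : l9sInt (llMs I.a I.LP) I.n g = ∑ k ∈ range (I.n + 1), I.dv k * g k := by
  unfold l9sInt
  refine Finset.sum_congr rfl fun k _ => ?_
  rw [← l8d_mu]
  rfl


/-! ## §2 the pair marginal -/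

/-- the overlap of the two branches is the overlap of the terminal spins -/
theorem l8d_Q (n : ℕ) (a : ℝ) (P : SkStp) (ω : SkOm n × SkOm n) : (skSP n a P).Q ω = skOv ω.1.2 ω.2.2 := by
  rcases Nat.eq_zero_or_pos n with rfl | hn
  · simp [L8P.Q, skOv]
  · rw [obt_ov hn]
    rfl

/-- terminal endpoints: `QX k₁ k₂ = Q` for `k₁, k₂ > n` -/
theorem l8d_QX_top (n : ℕ) (a : ℝ) (P : SkStp) {k₁ k₂ : ℕ} (h₁ : P.length < k₁) (h₂ : P.length < k₂) (ω : SkOm n × SkOm n) :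
    (skSP n a P).QX k₁ k₂ ω = (skSP n a P).Q ω := by
  unfold L8P.QX L8P.Q
  refine Finset.sum_congr rfl fun i _ => ?_
  rw [l8i_X_gt n a P k₁ h₁, l8i_X_gt n a P k₂ h₂]
  rfl

theorem l8d_spin_meas {n : ℕ} (G : SkCfg n → SkCfg n → ℝ) : Measurable fun p : SkOm n × SkOm n => G p.1.2 p.2.2 :=
  (Measurable.of_discrete (f := fun q : SkCfg n × SkCfg n => G q.1 q.2)).comp
    ((measurable_snd.comp measurable_fst).prodMk (measurable_snd.comp measurable_snd))

theorem l8d_spin_bdd {n : ℕ} (G : SkCfg n → SkCfg n → ℝ) : ∃ c : ℝ, ∀ σ σ', |G σ σ'| ≤ c :=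
  ⟨∑ σ, ∑ σ', |G σ σ'|, fun σ σ' =>
    (Finset.single_le_sum (f := fun σ' => |G σ σ'|) (fun _ _ => abs_nonneg _) (Finset.mem_univ σ')).trans
      (Finset.single_le_sum (f := fun σ => ∑ σ', |G σ σ'|) (fun _ _ => Finset.sum_nonneg fun _ _ => abs_nonneg _) (Finset.mem_univ σ))⟩

/-- **two labels, general step path**: spin tests under the fork law are the tree numbers of `Defs/Tr` -/
theorem l8d_fork_tr (n : ℕ) {a : ℝ} (ha : 0 < a) {P : SkStp} (hP : SkAdm a P) {t : ℕ} (ht : t ≤ P.length) (G : SkCfg n → SkCfg n → ℝ) :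
    trNu (skBase n a) (skLvs n P) 2 (trPair P.length t) 0 (fun σ => G (σ 0) (σ 1)) = ∫ ω, G ω.1.2 ω.2.2 ∂(skSP n a P).fork t := by
  obtain ⟨c, hc⟩ := l8d_spin_bdd G
  have h1 := l8i_fork n a ha P hP t ht (fun _ σ => G (σ 0) (σ 1)) (l8d_spin_meas G) c fun _ σ => hc _ _
  have h2 := tr_nu_of_ghTree (skBase n a) (skLvs n P) (obT2 t) 0 fun σ => G (σ 0) (σ 1)
  have e : ∀ p : SkOm n × SkOm n, G (skSp2 p 0) (skSp2 p 1) = G p.1.2 p.2.2 := fun p => by simp [skSp2]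
  simp only [e] at h1
  rw [h1, h2]
  refine tr_nu_congr _ _ (fun x y hx hy => ?_) _ _
  have hl : (skLvs n P).length = P.length := by simp [skLvs]
  simp only [trPair, trOf, hx, hy, and_self, dite_true, hl]
  split_ifs
  · rfl
  · show t = min t (P.length + 1)
    omega

/-- **THE PAIR MARGINAL**, two labels -/
theorem l8d_pair (h : I.Std) (tl : Bool) {t : ℕ} (ht : t ≤ I.n) (g : ℝ → ℝ) :
    (I.X tl).nu 2 (trPair I.n t) (fun σ => g ((I.X tl).ov (σ 0) (σ 1))) = ∫ ω, g ((I.sp tl).Q ω) ∂(I.sp tl).fork t := by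
  have h1 := l8d_fork_tr I.m h.a_pos (l8d_P_adm h tl) (t := t) (by rw [l8d_P_len]; exact ht) fun σ σ' => g (skOv σ σ')
  rw [l8d_P_len] at h1
  simp only [L8In.sp, l8d_Q]
  exact h1

/-- **THE PAIR MARGINAL** at a pair of distinct leaves of any tree -/
theorem l8d_pair_tr (h : I.Std) (tl : Bool) {q : ℕ} {τ : JtTopo} (hτ : IsTr I.n q τ) {c d : ℕ} (hc : c < q) (hd : d < q) (hcd : τ c d ≤ I.n)
    (g : ℝ → ℝ) :
    (I.X tl).nu q τ (fun σ => g ((I.X tl).ov (σ c) (σ d))) = ∫ ω, g ((I.sp tl).Q ω) ∂(I.sp tl).fork (τ c d) := by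
  rw [← l8d_pair h tl hcd g]
  have hX := l8d_law h tl
  have h1 := hX.nu.comap q 2 τ hτ (fun x => if x = 0 then c else d) (fun x _ => by
    show (if x = 0 then c else d) < q
    split_ifs <;> assumption)
    (fun σ' => g ((I.X tl).ov (σ' 0) (σ' 1)))
    (fun σ σ' hh => by
      show g ((I.X tl).ov (σ 0) (σ 1)) = g ((I.X tl).ov (σ' 0) (σ' 1))
      rw [hh 0 (by norm_num), hh 1 (by norm_num)])
  simp only [if_true, one_ne_zero, if_false] at h1
  rw [h1]
  refine hX.nu.congr 2 _ _ (fun x y hx hy => ?_) _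
  unfold trPair
  have hx' : x = 0 ∨ x = 1 := by omega
  have hy' : y = 0 ∨ y = 1 := by omega
  rcases hx' with rfl | rfl <;> rcases hy' with rfl | rfl
  · simpa using hτ.diag c hc
  · simp
  · simpa using hτ.symm d c hd hc
  · simpa using hτ.diag d hd


/-! ## §3 moments -/

/-- Lyapunov: the moments of order `j ≤ r` -/
theorem l8d_lyap {S : Type} [Fintype S] [Inhabited S] {X : JtCtx S} (hX : L9rPos X) {q : ℕ} {τ : JtTopo} (hτ : IsTr X.N q τ)
    (Y : (ℕ → S) → ℝ) {j r : ℕ} (hj : j ≤ r) (hr : 1 ≤ r) {B : ℝ} (hB : 0 ≤ B) (h : X.nu q τ (fun σ => |Y σ| ^ r) ≤ B ^ r) :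
    X.nu q τ (fun σ => |Y σ| ^ j) ≤ B ^ j := by
  have h1 := l9r_nu_holder hX hτ (Finset.range j) r (by simpa using hj) hr (fun _ σ => |Y σ|) (fun _ => B) (fun _ _ => hB)
    (fun _ _ => by simpa only [abs_abs] using h)
  simp only [Finset.prod_const, Finset.card_range] at h1
  exact (le_abs_self _).trans h1

theorem l8d_pair_isTr (N : ℕ) {t : ℕ} (ht : t ≤ N) : IsTr N 2 (trPair N t) := l9s_isTr_pair N t (by omega)

theorem l8d_Dl_pair {S : Type} (X : JtCtx S) (N t : ℕ) (σ : ℕ → S) : X.Dl (trPair N t) σ 0 1 = X.msk t * X.ov (σ 0) (σ 1) - X.qC t := by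
  simp [JtCtx.Dl, JtCtx.Qs, trPair]

/-- the moments of `Δ` at a pair are integrals under the fork law -/
theorem l8d_mom_eq (h : I.Std) (tl : Bool) {t : ℕ} (ht : t ≤ I.n) (j : ℕ) :
    l9sMom (I.X tl) j t = ∫ ω, |(I.X tl).msk t * (I.sp tl).Q ω - I.q t| ^ j ∂(I.sp tl).fork t := by
  unfold l9sMom
  simp only [l8d_Dl_pair]
  exact l8d_pair h tl ht fun y => |(I.X tl).msk t * y - I.q t| ^ j

/-- terminal endpoints in the records -/
theorem l8d_moF_top (I : L8In) (tl : Bool) (t r : ℕ) (c : ℝ) {k₁ k₂ : ℕ} (h₁ : I.n < k₁) (h₂ : I.n < k₂) :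
    I.moF tl t r (fun ω => (I.sp tl).QX k₁ k₂ ω - c) = I.moF tl t r fun ω => (I.sp tl).Q ω - c := by
  unfold L8In.moF
  have e : ∀ ω, (I.sp tl).QX k₁ k₂ ω = (I.sp tl).Q ω := fun ω =>
    l8d_QX_top I.m I.a (I.P tl) (by rw [l8d_P_len]; exact h₁) (by rw [l8d_P_len]; exact h₂) ω
  simp only [e]

/-- **moments of `Δ` at an ACTIVE pair** from a moment of order `2 r` under the fork law -/
theorem l8d_mom (h : I.Std) {tl : Bool} {t : ℕ} (ht : I.act tl t) {r j : ℕ} (hr : 1 ≤ r) (hj : j ≤ 2 * r) {B : ℝ}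
    (hm : I.moF tl t r (fun ω => (I.sp tl).Q ω - I.q t) ≤ B ^ (2 * r)) : l9sMom (I.X tl) j t ≤ |B| ^ j := by
  have h1 : l9sMom (I.X tl) (2 * r) t ≤ |B| ^ (2 * r) := by
    rw [l8d_mom_eq h tl ht.1, l8d_msk_act ht, (even_two_mul r).pow_abs]
    simp only [one_mul, (even_two_mul r).pow_abs]
    exact hm
  exact l8d_lyap (l8d_pos h tl) (l8d_pair_isTr I.n ht.1) _ hj (by omega) (abs_nonneg B) h1

/-- masked pairs of the tilted ensemble: `Δ = - q` -/
theorem l8d_mom_off (h : I.Std) {t : ℕ} (ht : t ≤ I.js) (j : ℕ) : l9sMom (I.X true) j t = |I.q t| ^ j := by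
  unfold l9sMom
  simp only [l8d_Dl_pair, l8d_msk_off ht, zero_mul, zero_sub, abs_neg]
  exact (l8d_law h true).nu.const 2 _ _

/-- the same in the form of RED -/
theorem l8d_env (h : I.Std) {tl : Bool} {t : ℕ} (ht : I.act tl t) {r j : ℕ} (hr : 1 ≤ r) (hj : j ≤ 2 * r) {B : ℝ}
    (hm : I.moF tl t r (fun ω => (I.sp tl).Q ω - I.q t) ≤ B ^ (2 * r)) : L9rEnv (I.X tl) j t |B| := by
  have h1 := l8d_mom h ht hr hj hm
  unfold l9sMom at h1
  simp only [l8d_Dl_pair] at h1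
  exact h1

/-- the same at a pair of any tree -/
theorem l8d_dl_tr (h : I.Std) {tl : Bool} {q : ℕ} {τ : JtTopo} (hτ : IsTr I.n q τ) {c d : ℕ} (hc : c < q) (hd : d < q) (ht : I.act tl (τ c d))
    {r j : ℕ} (hr : 1 ≤ r) (hj : j ≤ 2 * r) {B : ℝ} (hm : I.moF tl (τ c d) r (fun ω => (I.sp tl).Q ω - I.q (τ c d)) ≤ B ^ (2 * r)) :
    (I.X tl).nu q τ (fun σ => |(I.X tl).Dl τ σ c d| ^ j) ≤ |B| ^ j := by
  rw [l9s_mom_pair (l8d_law h tl) hτ hc hd fun y => |y| ^ j]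
  exact l8d_mom h ht hr hj hm

/-! ## §4 first and second moments, untilted -/

theorem l8d_tr_T2 (n : ℕ) (a : ℝ) (P : SkStp) {t : ℕ} (ht : t ≤ P.length) (G : SkCfg n → SkCfg n → ℝ) :
    trNu (skBase n a) (skLvs n P) 2 (trPair P.length t) 0 (fun σ => G (σ 0) (σ 1))
      = (obT2 t).nu (skBase n a) (skLvs n P) 0 fun _ σ => G (σ 0) (σ 1) := by
  rw [tr_nu_of_ghTree (skBase n a) (skLvs n P) (obT2 t) 0 fun σ => G (σ 0) (σ 1)]
  refine tr_nu_congr _ _ (fun x y hx hy => ?_) _ _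
  have hl : (skLvs n P).length = P.length := by simp [skLvs]
  simp only [trPair, trOf, hx, hy, and_self, dite_true, hl]
  split_ifs
  · rfl
  · show t = min t (P.length + 1)
    omega

theorem l8d_S (h : I.Std) {t : ℕ} (ht : t ≤ I.n) : (I.X false).nu 2 (trPair I.n t) (fun σ => (I.X false).ov (σ 0) (σ 1)) = I.S t := by
  have h1 := l8d_tr_T2 I.m I.a (I.P false) (t := t) (by rw [l8d_P_len]; exact ht) fun σ σ' => skOv σ σ'
  rw [l8d_P_len, ob_S_two h.m_pos h.a_pos _ (l8d_P_adm h false) 0 t (by rw [l8d_P_len]; exact ht)] at h1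
  exact h1

theorem l8d_B (h : I.Std) {t : ℕ} (ht : t ≤ I.n) : (I.X false).nu 2 (trPair I.n t) (fun σ => (I.X false).ov (σ 0) (σ 1) ^ 2) = I.B t := by
  have h1 := l8d_tr_T2 I.m I.a (I.P false) (t := t) (by rw [l8d_P_len]; exact ht) fun σ σ' => skOv σ σ' ^ 2
  rw [l8d_P_len, ob_B_two h.m_pos h.a_pos _ (l8d_P_adm h false) 0 t (by rw [l8d_P_len]; exact ht)] at h1
  exact h1

/-- second moment about a constant -/
theorem l8d_sq (h : I.Std) {t : ℕ} (ht : t ≤ I.n) (c : ℝ) :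
    (I.X false).nu 2 (trPair I.n t) (fun σ => ((I.X false).ov (σ 0) (σ 1) - c) ^ 2) = I.B t - 2 * c * I.S t + c ^ 2 := by
  have hX := (l8d_law h false).nu
  have e : (fun σ : ℕ → SkCfg I.m => ((I.X false).ov (σ 0) (σ 1) - c) ^ 2)
      = fun σ => ((I.X false).ov (σ 0) (σ 1) ^ 2 + (-(2 * c)) * (I.X false).ov (σ 0) (σ 1)) + c ^ 2 := by
    funext σ; ring
  rw [e, hX.add, hX.add, hX.const_mul, hX.const, l8d_S h ht, l8d_B h ht]
  ring

theorem l8d_A_eq (I : L8In) (t : ℕ) : I.A t = I.D2 t + I.f t ^ 2 := by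
  unfold L8In.A L8In.D2 L8In.f obD2 L8In.B L8In.S
  ring

/-- `ν[Δ²] = A = D² + f²` -/
theorem l8d_A (h : I.Std) {t : ℕ} (ht : t ≤ I.n) : l9sMom (I.X false) 2 t = I.A t := by
  unfold l9sMom
  simp only [l8d_Dl_pair, sq_abs, l8d_msk_act (I := I) (tl := false) ⟨ht, by simp⟩, one_mul]
  exact l8d_sq h ht (I.q t)

/-- `ν[(Q - S)²] = D²` -/
theorem l8d_D2 (h : I.Std) {t : ℕ} (ht : t ≤ I.n) :
    (I.X false).nu 2 (trPair I.n t) (fun σ => ((I.X false).ov (σ 0) (σ 1) - I.S t) ^ 2) = I.D2 t := by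
  rw [l8d_sq h ht]
  unfold L8In.D2 obD2 L8In.B L8In.S
  ring

/-- the same under the fork law -/
theorem l8d_moF_sq (h : I.Std) {t : ℕ} (ht : t ≤ I.n) (c : ℝ) :
    I.moF false t 1 (fun ω => (I.sp false).Q ω - c) = I.B t - 2 * c * I.S t + c ^ 2 := by
  rw [← l8d_sq h ht c, l8d_pair h false ht fun y => (y - c) ^ 2]
  rfl

/-- `|f| ≤ ‖Q - q‖_2` -/
theorem l8d_f_sq_le (h : I.Std) {t : ℕ} (ht : t ≤ I.n) : I.f t ^ 2 ≤ I.A t := by
  rw [l8d_A_eq]
  have : 0 ≤ I.D2 t := by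
    rw [← l8d_D2 h ht]
    exact (l8d_law h false).nu.nonneg 2 _ fun σ => sq_nonneg _
  linarith


/-! ## §5 resampling -/

section eff

variable {S ι : Type} [Fintype S] [Fintype ι]

/-- a test sees the EFFECTIVE drivers only -/
theorem l8d_eff (B : GhB S) : ∀ (ls : List (GhLv S ι)) {q : ℕ} (rep : ℕ → Fin q → Fin q), (∀ t a, rep t (rep t a) = rep t a) →
    ∀ (G : Fin q → S → ℝ) (P : (ℕ → Fin q → ι → ℝ) → (Fin q → S) → ℝ),
    ghNu B ls rep G P = ghNu B ls rep G fun η σ => P (fun t a => η t (rep t a)) σ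
  | [], _, _, _, _, _ => rfl
  | l :: ls, q, rep, hr, G, P => by
      simp only [ghNu]
      refine integral_congr_ae (Filter.Eventually.of_forall fun W => ?_)
      simp only
      rw [l8d_eff B ls (fun t => rep (t + 1)) (fun t a => hr (t + 1) a) _ fun η σ => P (ghCons (fun a => W (rep 0 a)) η) σ]
      congr 2
      funext η σ
      congr 1
      funext t a
      cases t with
      | zero => simp [ghCons, hr]
      | succ t => rfl

/-- two branches read off a table of `q` labels: drivers of the labels `α t`, `β t`, spins of the labels `a`, `b` -/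
def l8dJ {q : ℕ} (α β : ℕ → Fin q) (a b : Fin q) (x : GhmTΩ S ι q) : SpiOm S ι × SpiOm S ι :=
  ((fun t => x.1 t (α t), x.2 a), (fun t => x.1 t (β t), x.2 b))

omit [Fintype S] [Fintype ι] in
theorem l8d_J_meas [MeasurableSpace S] {q : ℕ} (α β : ℕ → Fin q) (a b : Fin q) : Measurable (l8dJ (S := S) (ι := ι) α β a b) := by
  unfold l8dJ
  refine Measurable.prodMk (Measurable.prodMk ?_ ?_) (Measurable.prodMk ?_ ?_)
  · exact measurable_pi_lambda _ fun t => (measurable_pi_apply (α t)).comp ((measurable_pi_apply t).comp measurable_fst)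
  · exact (measurable_pi_apply a).comp measurable_snd
  · exact measurable_pi_lambda _ fun t => (measurable_pi_apply (β t)).comp ((measurable_pi_apply t).comp measurable_fst)
  · exact (measurable_pi_apply b).comp measurable_snd

end eff

/-- **RESAMPLING**: a pair which splits at `v`, minus its copy resampled after the cut `c ≥ v`, against the projection of the pair at the cut `c` -/
theorem l8d_resample (n : ℕ) (hn : 1 ≤ n) {a : ℝ} (ha : 0 < a) {P : SkStp} (hP : SkAdm a P) {v c : ℕ} (hvc : v ≤ c) (hc : c ≤ P.length)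
    {ρ : ℕ} (hρ : 1 ≤ ρ) :
    trNu (skBase n a) (skLvs n P) 4 (l9rT4 P.length v c) 0 (fun σ => (skOv (σ 0) (σ 1) - skOv (σ 2) (σ 3)) ^ (2 * ρ))
      ≤ 2 ^ (2 * ρ) * ∫ ω, ((skSP n a P).Q ω - (skSP n a P).QX c c ω) ^ (2 * ρ) ∂(skSP n a P).fork v := by
  have hB : (skBase n a).Ok := obt_base_ok n ha
  have hnn : GhNn (skLvs n P) := (l8i_adm hP).ghNn le_rfl
  have hok := l8i_ok n hn a ha P hP
  have hl : (skLvs n P).length = P.length := by simp [skLvs]
  have hτ : IsTr (skLvs n P).length 4 (l9rT4 P.length v c) := by rw [hl]; exact l9r_t4_isTr hvc (by omega)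
  set rep : ℕ → Fin 4 → Fin 4 := fun t => trRep 4 (l9rT4 P.length v c) (min t (skLvs n P).length) with hrepdef
  have hrep : GhRepOk rep := tb2_repOk_min hτ
  -- the integrand
  set F : SkOm n × SkOm n → ℝ := fun ω => ((skSP n a P).Q ω - (skSP n a P).QX c c ω) ^ (2 * ρ) with hF
  have hFbd : L8Bd F := by
    have hQ : L8Bd (skSP n a P).Q := by
      rw [funext (l8d_Q n a P)]
      exact ⟨l8d_spin_meas _, 1, fun ω => ll2_ov_abs _ _⟩
    refine l8k_bd_pow (l8k_bd_sub hQ (l8k_bd_sum _ fun i _ => l8k_bd_mul ?_ ?_)) _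
    · exact l8k_bd_comp measurable_fst ((skSP n a P).l8s_X_bd hok c i)
    · exact l8k_bd_comp measurable_snd ((skSP n a P).l8s_X_bd hok c i)
  obtain ⟨hFm, C, hFC⟩ := hFbd
  -- locality of the projected pair
  have hloc : ∀ ω ω' : SkOm n × SkOm n, (∀ t < c, ω.1.1 t = ω'.1.1 t) → (∀ t < c, ω.2.1 t = ω'.2.1 t) →
      (skSP n a P).QX c c ω = (skSP n a P).QX c c ω' := by
    intro ω ω' h1 h2
    simp only [L8P.QX, l8i_X n a ha P hP c hc, obXp, obFld]
    rw [obu_pre_loc _ c _ _ h1, obu_pre_loc _ c _ _ h2]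
  -- the fork law as a two-label number
  have hfork : ∫ ω, F ω ∂(skSP n a P).fork v
      = ghNu (skBase n a) (skLvs n P) (obT2 v).rep (fun _ => 0) fun η σ => F (l8dJ (fun _ => 0) (fun _ => 1) 0 1 (η, σ)) := by
    have e : ∀ p : SkOm n × SkOm n, F (l8dJ (fun _ => 0) (fun _ => 1) 0 1 (skDr2 p, skSp2 p)) = F p := fun p => by
      congr 1
    have h1 := l8i_fork n a ha P hP v (hvc.trans hc) (fun η σ => F (l8dJ (fun _ => 0) (fun _ => 1) 0 1 (η, σ)))
      (by simp only [e]; exact hFm) C fun _ _ => hFC _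
    simp only [e] at h1
    exact h1
  -- marginals of the four-label law
  have hmarg : ∀ x y : Fin 4, l9rT4 P.length v c x.1 y.1 = v → x ≠ y →
      ghNu (skBase n a) (skLvs n P) rep (fun _ => 0) (fun η σ => F (l8dJ (fun _ => x) (fun _ => y) x y (η, σ))) = ∫ ω, F ω ∂(skSP n a P).fork v := by
    intro x y hxy hne
    rw [hfork]
    have h1 := gh_n_inv (skBase n a) hB (skLvs n P) hnn (![x, y] : Fin 2 → Fin 4) rep (obT2 v).rep hrep (gh_n_rep_ok _) (fun t p p' => by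
      rw [gh_n_rep_iff, hrepdef, tb2_rep_iff hτ]
      have hyx : l9rT4 P.length v c y.1 x.1 = v := by rw [hτ.symm _ _ y.2 x.2]; exact hxy
      have hsh : (obT2 v).sh p p' = v := rfl
      rw [hsh]
      fin_cases p <;> fin_cases p' <;> simp [hxy, hyx, hne, hne.symm, hl] <;> omega)
      (fun _ => 0) (fun _ _ _ => rfl) (fun η σ => F (l8dJ (fun _ => 0) (fun _ => 1) 0 1 (η, σ)))
    exact h1
  -- effective drivers
  have heff : ∀ x y : Fin 4,
      ghNu (skBase n a) (skLvs n P) rep (fun _ => 0) (fun η σ => F (l8dJ (fun _ => x) (fun _ => y) x y (η, σ)))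
        = ghNu (skBase n a) (skLvs n P) rep (fun _ => 0) (fun η σ => F (l8dJ (fun t => rep t x) (fun t => rep t y) x y (η, σ))) :=
    fun x y => l8d_eff (skBase n a) (skLvs n P) rep hrep.idem _ _
  -- the four-label law as a measure
  have hμ : IsProbabilityMeasure (ghmT (skBase n a) (skLvs n P) rep fun _ => 0) := (ghmt_markov hB hnn rep).isProbabilityMeasure _
  have hFJ : ∀ (α β : ℕ → Fin 4) (x y : Fin 4), Measurable fun z : GhmTΩ (SkCfg n) (SkDr n) 4 => F (l8dJ α β x y z) :=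
    fun α β x y => hFm.comp (l8d_J_meas α β x y)
  have hint : ∀ (α β : ℕ → Fin 4) (x y : Fin 4), ∫ z, F (l8dJ α β x y z) ∂(ghmT (skBase n a) (skLvs n P) rep fun _ => 0)
      = ghNu (skBase n a) (skLvs n P) rep (fun _ => 0) fun η σ => F (l8dJ α β x y (η, σ)) := fun α β x y =>
    ghmt_integral_bdd hB hnn rep _ _ (hFJ α β x y) C fun _ => hFC _
  have hFi : ∀ (α β : ℕ → Fin 4) (x y : Fin 4), Integrable (fun z => F (l8dJ α β x y z)) (ghmT (skBase n a) (skLvs n P) rep fun _ => 0) :=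
    fun α β x y => ghmt_integrable_of_bdd hB hnn rep _ _ (hFJ α β x y) C fun _ => hFC _
  set W : GhmTΩ (SkCfg n) (SkDr n) 4 → ℝ := fun z => (skOv (z.2 0) (z.2 1) - skOv (z.2 2) (z.2 3)) ^ (2 * ρ) with hWdef
  have hWm : Measurable W :=
    (Measurable.of_discrete (f := fun σ : Fin 4 → SkCfg n => (skOv (σ 0) (σ 1) - skOv (σ 2) (σ 3)) ^ (2 * ρ))).comp measurable_snd
  have hWb : ∀ z, |W z| ≤ 2 ^ (2 * ρ) := fun z => by
    rw [hWdef, abs_pow]
    refine pow_le_pow_left₀ (abs_nonneg _) ?_ _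
    have h1 := ll2_ov_abs (z.2 0) (z.2 1)
    have h2 := ll2_ov_abs (z.2 2) (z.2 3)
    have h3 := abs_sub (skOv (z.2 0) (z.2 1)) (skOv (z.2 2) (z.2 3))
    linarith
  have hW : trNu (skBase n a) (skLvs n P) 4 (l9rT4 P.length v c) 0 (fun σ => (skOv (σ 0) (σ 1) - skOv (σ 2) (σ 3)) ^ (2 * ρ))
      = ∫ z, W z ∂(ghmT (skBase n a) (skLvs n P) rep fun _ => 0) := by
    rw [ghmt_integral_bdd hB hnn rep _ W hWm _ hWb]
    unfold trNu
    rw [tb2_nu_rep_congr _ _ (fun t => trRep 4 (l9rT4 P.length v c) t) rep (fun t ht => by simp only [hrepdef, min_eq_left ht])]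
    rfl
  have hrr : ∀ t < c, rep t 2 = rep t 0 ∧ rep t 3 = rep t 1 := by
    intro t ht
    simp only [hrepdef]
    rw [tb2_rep_iff hτ, tb2_rep_iff hτ]
    refine ⟨Or.inr ?_, Or.inr ?_⟩
    · show min t (skLvs n P).length < c
      omega
    · show min t (skLvs n P).length < c
      omega
  have hpt : ∀ z, W z ≤ 2 ^ (2 * ρ - 1) *
      (F (l8dJ (fun t => rep t 0) (fun t => rep t 1) 0 1 z) + F (l8dJ (fun t => rep t 2) (fun t => rep t 3) 2 3 z)) := by
    intro z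
    have e : (skSP n a P).QX c c (l8dJ (fun t => rep t 2) (fun t => rep t 3) 2 3 z)
        = (skSP n a P).QX c c (l8dJ (fun t => rep t 0) (fun t => rep t 1) 0 1 z) := by
      refine hloc _ _ (fun t ht => ?_) (fun t ht => ?_)
      · show z.1 t (rep t 2) = z.1 t (rep t 0)
        rw [(hrr t ht).1]
      · show z.1 t (rep t 3) = z.1 t (rep t 1)
        rw [(hrr t ht).2]
    simp only [hF, l8d_Q, e]
    have h1 := Even.add_pow_le (a := skOv (z.2 0) (z.2 1) - (skSP n a P).QX c c (l8dJ (fun t => rep t 0) (fun t => rep t 1) 0 1 z))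
      (b := -(skOv (z.2 2) (z.2 3) - (skSP n a P).QX c c (l8dJ (fun t => rep t 0) (fun t => rep t 1) 0 1 z))) (even_two_mul ρ)
    rw [(even_two_mul ρ).neg_pow] at h1
    refine le_trans (le_of_eq ?_) h1
    rw [hWdef]
    ring
  calc trNu (skBase n a) (skLvs n P) 4 (l9rT4 P.length v c) 0 (fun σ => (skOv (σ 0) (σ 1) - skOv (σ 2) (σ 3)) ^ (2 * ρ))
      = ∫ z, W z ∂(ghmT (skBase n a) (skLvs n P) rep fun _ => 0) := hW
    _ ≤ ∫ z, 2 ^ (2 * ρ - 1) * (F (l8dJ (fun t => rep t 0) (fun t => rep t 1) 0 1 z) + F (l8dJ (fun t => rep t 2) (fun t => rep t 3) 2 3 z))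
          ∂(ghmT (skBase n a) (skLvs n P) rep fun _ => 0) :=
        integral_mono (ghmt_integrable_of_bdd hB hnn rep _ W hWm _ hWb) (((hFi _ _ _ _).add (hFi _ _ _ _)).const_mul _) hpt
    _ = 2 ^ (2 * ρ - 1) * ((∫ ω, F ω ∂(skSP n a P).fork v) + ∫ ω, F ω ∂(skSP n a P).fork v) := by
        rw [integral_const_mul, integral_add (hFi _ _ _ _) (hFi _ _ _ _), hint, hint, ← heff, ← heff,
          hmarg 0 1 (by simp [l9rT4]) (by decide), hmarg 2 3 (by simp [l9rT4]) (by decide)]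
    _ = 2 ^ (2 * ρ) * ∫ ω, F ω ∂(skSP n a P).fork v := by
        obtain ⟨k, rfl⟩ : ∃ k, ρ = k + 1 := ⟨ρ - 1, by omega⟩
        have e : 2 * (k + 1) - 1 = 2 * k + 1 := by omega
        rw [e, show 2 * (k + 1) = (2 * k + 1) + 1 by ring, pow_succ (2 : ℝ) (2 * k + 1)]
        ring

/-- **Cor. 8.7 in the RESAMPLING form of RED** (282): from the projection bound of order `2 r` under the fork law -/
theorem l8d_chg (h : I.Std) (tl : Bool) {v c : ℕ} (hvc : v ≤ c) (hc : c ≤ I.n) {r j : ℕ} (hr : 1 ≤ r) (hj : j ≤ 2 * r) {B : ℝ}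
    (hm : I.moF tl v r (fun ω => (I.sp tl).Q ω - (I.sp tl).QX c c ω) ≤ B ^ (2 * r)) : L9rChg (I.X tl) j v c (2 * |B|) := by
  have hX := l8d_law h tl
  have hτ : IsTr (I.X tl).N 4 (l9rT4 (I.X tl).N v c) := l9r_t4_isTr hvc (Nat.le_succ_of_le hc)
  have h1 := l8d_resample I.m h.m_pos h.a_pos (l8d_P_adm h tl) hvc (by rw [l8d_P_len]; exact hc) hr
  rw [l8d_P_len] at h1
  have h2 : (I.X tl).nu 4 (l9rT4 (I.X tl).N v c) (fun σ => |(I.X tl).msk v * ((I.X tl).ov (σ 0) (σ 1) - (I.X tl).ov (σ 2) (σ 3))| ^ (2 * r))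
      ≤ (2 * |B|) ^ (2 * r) := by
    calc (I.X tl).nu 4 (l9rT4 (I.X tl).N v c) (fun σ => |(I.X tl).msk v * ((I.X tl).ov (σ 0) (σ 1) - (I.X tl).ov (σ 2) (σ 3))| ^ (2 * r))
        ≤ (I.X tl).nu 4 (l9rT4 (I.X tl).N v c) (fun σ => ((I.X tl).ov (σ 0) (σ 1) - (I.X tl).ov (σ 2) (σ 3)) ^ (2 * r)) := by
          refine hX.nu.mono 4 _ fun σ => ?_
          rw [(even_two_mul r).pow_abs, mul_pow]
          have h0 : 0 ≤ ((I.X tl).ov (σ 0) (σ 1) - (I.X tl).ov (σ 2) (σ 3)) ^ (2 * r) := (even_two_mul r).pow_nonneg _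
          rcases hX.msk v with e | e <;> rw [e]
          · rw [zero_pow (by omega), zero_mul]; exact h0
          · rw [one_pow, one_mul]
      _ ≤ 2 ^ (2 * r) * ∫ ω, ((I.sp tl).Q ω - (I.sp tl).QX c c ω) ^ (2 * r) ∂(I.sp tl).fork v := h1
      _ ≤ 2 ^ (2 * r) * B ^ (2 * r) := mul_le_mul_of_nonneg_left hm (by positivity)
      _ = (2 * |B|) ^ (2 * r) := by rw [mul_pow, (even_two_mul r).pow_abs]
  exact l8d_lyap (l8d_pos h tl) hτ _ hj (by omega) (by positivity) h2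

/-! ## §6 the records of `L08/Defs.lean` in tree numbers -/

/-- the standing hypotheses from `I.Ok` and the fineness of the chain -/
theorem l8d_std (hOk : I.Ok) {η : ℝ} (hF : I.Fine η) : I.Std where
  a_pos := by
    have h1 := hOk.pt.ell1
    show 0 < (if I.p.sm then (4 : ℝ) else I.p.ell)
    split_ifs
    · norm_num
    · linarith
  m_pos := by
    have h1 := hOk.pt.N2
    have h2 := hOk.m_lo
    omega
  adm := hF.adm

theorem l8d_QX_fun (I : L8In) (tl : Bool) {k₁ k₂ : ℕ} (h₁ : I.n < k₁) (h₂ : I.n < k₂) : (I.sp tl).QX k₁ k₂ = (I.sp tl).Q :=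
  funext fun ω => l8d_QX_top I.m I.a (I.P tl) (by rw [l8d_P_len]; exact h₁) (by rw [l8d_P_len]; exact h₂) ω

/-- the masses are nondecreasing along the cuts -/
theorem l8d_v_mono (h : I.Std) {i j : ℕ} (hij : i ≤ j) (hj : j ≤ I.n) : I.v i ≤ I.v j := by
  rw [← l8d_ms, ← l8d_ms]
  exact (l8d_law h false).isMs.mono i j hij hj

section rnd

variable {tl : Bool} {e : ℕ → ℝ} {A Y Zh vt vp : ℝ} {pm jm : ℕ}

/-- (D2), second line: moments of `Δ` at an active pair of mass `≤ vt` -/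
theorem l8d_rnd_mom (h : I.Std) (hR : I.Rnd tl e A Y Zh vt vp pm jm) (hpm : 1 ≤ pm) {t : ℕ} (ht : I.act tl t) (hv : I.v t ≤ vt) {j : ℕ}
    (hj : j ≤ 2 * pm) : l9sMom (I.X tl) j t ≤ |A * e t| ^ j := by
  refine l8d_mom h ht hpm hj ?_
  have h1 := hR.ref_Q pm hpm le_rfl t ht hv (I.n + 1) (I.n + 1) (ht.1.trans (Nat.le_succ _)) (ht.1.trans (Nat.le_succ _))
  rwa [l8d_QX_fun I tl (Nat.lt_succ_self _) (Nat.lt_succ_self _)] at h1

/-- the same in the form of RED -/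
theorem l8d_rnd_env (h : I.Std) (hR : I.Rnd tl e A Y Zh vt vp pm jm) (hpm : 1 ≤ pm) {t : ℕ} (ht : I.act tl t) (hv : I.v t ≤ vt) {j : ℕ}
    (hj : j ≤ 2 * pm) : L9rEnv (I.X tl) j t |A * e t| := by
  refine l8d_env h ht hpm hj ?_
  have h1 := hR.ref_Q pm hpm le_rfl t ht hv (I.n + 1) (I.n + 1) (ht.1.trans (Nat.le_succ _)) (ht.1.trans (Nat.le_succ _))
  rwa [l8d_QX_fun I tl (Nat.lt_succ_self _) (Nat.lt_succ_self _)] at h1

/-- the same at a pair of any tree -/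
theorem l8d_rnd_tr (h : I.Std) (hR : I.Rnd tl e A Y Zh vt vp pm jm) (hpm : 1 ≤ pm) {q : ℕ} {τ : JtTopo} (hτ : IsTr I.n q τ) {c d : ℕ}
    (hc : c < q) (hd : d < q) (ht : I.act tl (τ c d)) (hv : I.v (τ c d) ≤ vt) {j : ℕ} (hj : j ≤ 2 * pm) :
    (I.X tl).nu q τ (fun σ => |(I.X tl).Dl τ σ c d| ^ j) ≤ |A * e (τ c d)| ^ j := by
  rw [l9s_mom_pair (l8d_law h tl) hτ hc hd fun y => |y| ^ j]
  exact l8d_rnd_mom h hR hpm ht hv hj

/-- (D2), first line: moments of the overlap at an active pair -/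
theorem l8d_rnd_raw (h : I.Std) (hR : I.Rnd tl e A Y Zh vt vp pm jm) (hpm : 1 ≤ pm) {t : ℕ} (ht : I.act tl t) {j : ℕ} (hj : j ≤ 2 * pm) :
    (I.X tl).nu 2 (trPair I.n t) (fun σ => |(I.X tl).ov (σ 0) (σ 1)| ^ j) ≤ |A * (I.v t + Y)| ^ j := by
  refine l8d_lyap (l8d_pos h tl) (l8d_pair_isTr I.n ht.1) (fun σ => (I.X tl).ov (σ 0) (σ 1)) hj (by omega) (abs_nonneg _) ?_
  rw [l8d_pair h tl ht.1 fun y => |y| ^ (2 * pm)]
  have h1 := hR.raw_Q pm hpm le_rfl t ht (I.n + 1) (I.n + 1) (ht.1.trans (Nat.le_succ _)) (ht.1.trans (Nat.le_succ _))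
  rw [l8d_QX_fun I tl (Nat.lt_succ_self _) (Nat.lt_succ_self _)] at h1
  simp only [(even_two_mul pm).pow_abs]
  exact h1

/-- Cor. 8.7 in the resampling form: pair split at mass `≤ c'/8`, copy resampled after a cut `c` of mass in `[c', 2 c']` -/
theorem l8d_rnd_chg (h : I.Std) (hR : I.Rnd tl e A Y Zh vt vp pm jm) (hpm : 1 ≤ pm) {c' : ℝ} (h0 : 0 < c') (hY : Y ≤ c') (hvp : c' ≤ vp) {v c : ℕ}
    (hv : I.act tl v) (hv8 : I.v v ≤ c' / 8) (hc : c ≤ I.n) (hc1 : c' ≤ I.v c) (hc2 : I.v c ≤ 2 * c') {j : ℕ} (hj : j ≤ 2 * pm) :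
    L9rChg (I.X tl) j v c (2 * |A * (I.z0 c' * c')|) := by
  have hvc : v ≤ c := by
    by_contra hcon
    have := l8d_v_mono h (i := c) (j := v) (by omega) hv.1
    linarith
  refine l8d_chg h tl hvc hc hpm hj ?_
  have h1 := hR.proj pm hpm le_rfl c' hY hvp v c hv hv8 hc1 hc2 (I.n + 1) (I.n + 1) (hc.trans (Nat.le_succ _)) (hc.trans (Nat.le_succ _))
  rwa [l8d_QX_fun I tl (Nat.lt_succ_self _) (Nat.lt_succ_self _)] at h1

/-- second moment about the UNTILTED mean: the integrand of `d7_Q`, `d9_Q` as a tree number -/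
theorem l8d_rnd_var (h : I.Std) (tl : Bool) {t : ℕ} (ht : t ≤ I.n) :
    I.moF tl t 1 (fun ω => (I.sp tl).Q ω - I.S t) = (I.X tl).nu 2 (trPair I.n t) fun σ => ((I.X tl).ov (σ 0) (σ 1) - I.S t) ^ 2 :=
  (l8d_pair h tl ht fun y => (y - I.S t) ^ (2 * 1)).symm

end rnd

/-- the conclusion of `L8xD11` at one instance and one ensemble -/
def L8In.D11 (I : L8In) (tl : Bool) (r : ℕ) (B : ℝ) : Prop :=
  ∀ k, I.act tl k → ∀ k₁ k₂, k ≤ k₁ → k ≤ k₂ → I.moF tl k r (fun ω => (I.sp tl).QX k₁ k₂ ω - I.q k) ≤ B ^ (2 * r)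

/-- (D11): moments of `Δ` at every active pair -/
theorem l8d_d11_mom (h : I.Std) {tl : Bool} {r : ℕ} {B : ℝ} (hD : I.D11 tl r B) (hr : 1 ≤ r) {t : ℕ} (ht : I.act tl t) {j : ℕ} (hj : j ≤ 2 * r) :
    l9sMom (I.X tl) j t ≤ |B| ^ j := by
  refine l8d_mom h ht hr hj ?_
  have h1 := hD t ht (I.n + 1) (I.n + 1) (ht.1.trans (Nat.le_succ _)) (ht.1.trans (Nat.le_succ _))
  rwa [l8d_QX_fun I tl (Nat.lt_succ_self _) (Nat.lt_succ_self _)] at h1

/-- `|f| = |S - q| ≤ ‖Q - q‖` -/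
theorem l8d_f_le (h : I.Std) {r : ℕ} {B : ℝ} (hr : 1 ≤ r) {t : ℕ} (ht : t ≤ I.n)
    (hm : I.moF false t r (fun ω => (I.sp false).Q ω - I.q t) ≤ B ^ (2 * r)) : |I.f t| ≤ |B| := by
  have h1 := l8d_mom h (tl := false) (t := t) ⟨ht, by simp⟩ hr (j := 2) (by omega) hm
  rw [l8d_A h ht] at h1
  have h2 := (l8d_f_sq_le h ht).trans h1
  exact abs_le_of_sq_le_sq h2 (abs_nonneg _)

/-- **the hypotheses `L9sIns` of 65** (size path): (D11) at the active pairs, `|q| ≤ sg` at the masked ones -/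
theorem l8d_ins (h : I.Std) {tl : Bool} {r k : ℕ} {B M0 sg : ℝ} (hr : 1 ≤ r) (hk : k ≤ 2 * r) (hD : I.D11 tl r B) (hM0 : 0 ≤ M0) (hsg : 0 < sg)
    (hB : |B| ≤ sg) (hb : ∀ t ≤ I.n, |I.bC t| ≤ M0) (hd : ∀ t ≤ I.n, |I.d t| ≤ sg) (hq : tl = true → ∀ t ≤ I.js, |I.q t| ≤ sg) :
    L9sIns (I.X tl) k M0 sg where
  M0_nn := hM0
  sg_pos := hsg
  b_le := hb
  d_le := hd
  mom_le := fun t ht => by
    by_cases hact : I.act tl t
    · exact (l8d_d11_mom h hD hr hact hk).trans (pow_le_pow_left₀ (abs_nonneg _) hB k)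
    · have htl : tl = true := by
        by_contra hne
        exact hact ⟨ht, fun h' => absurd h' hne⟩
      subst htl
      have hjs : t ≤ I.js := by
        by_contra hne
        exact hact ⟨ht, fun _ => by omega⟩
      rw [l8d_mom_off h hjs]
      exact pow_le_pow_left₀ (abs_nonneg _) (hq rfl t hjs) k

theorem l8d_eqns_cite : True := by
  have := @l8dTl.eq_1
  have := @l8dJ.eq_1
  have := @L8In.D11.eq_1
  trivial

end

end Claimed.Agent.R286
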