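import Claimed.Agent.R286.L08.LsAbs

/-!
# Row 286 (S0533), folder L08, file LsTwo : LOW SOURCES, SECOND CONCLUSION OF (D16) (tilted minus untilted, no test)      (owner helper62; head of the unit helper234; prefix `L8T` / `l8t_`)

TEX[LL:lem:statistics-low-sources], second conclusion: "compare its tilted and untilted expectations on the stop, with no `P`, using `δ* = Q* - S_v` in the tilted law
and the same deterministic coefficients in both laws"; LL 08 l.1360-1368 and l.1480-1487.      FINE level, NON-asymptotic, Mathlib only.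

NO NEW CORE: the statement is DERIVED from the contract `L8_LS_ABS` of `L08/LsAbs.lean` (first conclusion) by the **MIXTURE TRICK**:
* `Ω' = Ω × Bool`; `law' τ = ½ law_false τ ⊗ δ_false + ½ law_true τ ⊗ δ_true` (all the labels carry the same flag): again a consistent family of tree laws (`l8t_mix_ok`);
* the retained test is the flag `P0 = ± 1`: centred, `Dab = 1`, and `∫ P0 ∏ fac' d law' = ½ (ν_true[∏ fac_true] - ν_false[∏ fac_false])`;
* the ancestor powers are centred at the mean of the mixture; the centred bounds follow (factor `2`) from the bounds in each ensemble with ANY common deterministic centring `ref`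
  (the paper: the UNTILTED mean; provider: transfer (A4) + Hoelder, LL 08 l.889-900);
* the labels `0, 1` = a pair which separates at a HIGH level on the support of the weight (LL 09 l.349: "a base pair at mass at least `V_2`"); its level is not prescribed:
  the sum is sliced along this coordinate (atom at `t0`, the factor `mm (vtx 0 1) t0` outside, total `≤ A0`).
STATE: kit (sec. 1), GLUE `l8t_two` and the leaves T1-T7 (helper133) PROVED: the file has no open leaf.
`e : Bool` = ensemble (`false` = untilted, `true` = tilted).      In the tilted ensemble a masked pair (`v < s`) has the deterministic factor `- S_v`: there `Xi = 0`, `al` = raw bound.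
-/

set_option autoImplicit false

namespace Claimed.Agent.R286

open MeasureTheory Finset
open scoped ENNReal

/-- observables and numbers of the two ensembles -/
structure L8TIn (Ω : Type) [MeasurableSpace Ω] where
  /-- the levels `< ti` are LOW -/
  ti : ℕ
  /-- ancestor value at the level `l` -/
  Xi : Bool → ℕ → Ω → ℝ
  /-- the stochastic factor number `s` of a pair which separates at the level `l` -/
  fac : Bool → ℕ → ℕ → Ω × Ω → ℝ
  /-- the common deterministic centring of `Xi l ^ p` (the paper: the untilted mean) -/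
  ref : ℕ → ℕ → ℝ
  mu : ℕ → ℝ
  vv : ℕ → ℝ
  eb : ℕ → ℝ
  al : ℕ → ℝ
  eta : ℝ
  dmax : ℕ
  a0 : ℝ
  a1 : ℝ
  av : ℝ
  c0 : ℝ
  c1 : ℝ
  cv : ℝ
  E1 : ℝ

/-- the sum centred at `ref`, weights `κ` -/
noncomputable def L8TIn.cs {Ω : Type} [MeasurableSpace Ω] (I : L8TIn Ω) (e : Bool) (p : ℕ) (κ : ℕ → ℝ) (ω : Ω) : ℝ :=
  ∑ l ∈ range I.ti, κ l * (I.Xi e l ω ^ p - I.ref p l)

/-- the analytic inputs, in BOTH ensembles -/
structure L8TIn.Ok {Ω : Type} [MeasurableSpace Ω] (I : L8TIn Ω) (T : Bool → L8L Ω) : Prop where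
  Xi_meas : ∀ e l, Measurable (I.Xi e l)
  Xi_bd : ∀ e l ω, |I.Xi e l ω| ≤ 1
  share : ∀ e l t, l ≤ t → ∀ᵐ p ∂(T e).fork t, I.Xi e l p.1 = I.Xi e l p.2
  fac_meas : ∀ e s l, Measurable (I.fac e s l)
  fac_bd : ∀ e s l p, |I.fac e s l p| ≤ 2
  al_nonneg : ∀ l, 0 ≤ I.al l
  ali : ∀ e s l, l < I.ti → ∫ p, (I.fac e s l p - I.Xi e l p.1) ^ 2 ∂(T e).fork l ≤ I.al l ^ 2
  eta_nonneg : 0 ≤ I.eta
  tailX : ∀ e l, l < I.ti → (T e).μ.real {ω | I.eb l < |I.Xi e l ω|} ≤ I.eta
  tailF : ∀ e s l, l < I.ti → ((T e).fork l).real {p | I.eb l < |I.fac e s l p|} ≤ I.eta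
  eb_nonneg : ∀ l, 0 ≤ I.eb l
  eb_le : ∀ l, I.eb l ≤ 1
  mean : ∀ e p l, 1 ≤ p → p ≤ I.dmax → l < I.ti → |∫ ω, I.Xi e l ω ^ p ∂(T e).μ| ≤ I.eb l ^ p
  mu_nonneg : ∀ l, 0 ≤ I.mu l
  vv_nonneg : ∀ l, 0 ≤ I.vv l
  vv_le : ∀ l, I.vv l ≤ 1
  ha0 : ∑ l ∈ range I.ti, I.mu l * I.al l ≤ I.a0
  ha1 : ∑ l ∈ range I.ti, I.mu l * I.eb l * I.al l ≤ I.a1
  hav : ∑ l ∈ range I.ti, I.mu l * I.vv l * I.al l ≤ I.av
  hE1 : ∑ l ∈ range I.ti, I.mu l * I.eb l ≤ I.E1
  c0_nonneg : 0 ≤ I.c0
  c1_nonneg : 0 ≤ I.c1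
  cv_nonneg : 0 ≤ I.cv
  cen0 : ∀ e (κ : ℕ → ℝ), (∀ l, |κ l| ≤ I.mu l) → ∫ ω, I.cs e 1 κ ω ^ 2 ∂(T e).μ ≤ I.c0 ^ 2
  cenv : ∀ e (κ : ℕ → ℝ), (∀ l, |κ l| ≤ I.mu l * I.vv l) → ∫ ω, I.cs e 1 κ ω ^ 2 ∂(T e).μ ≤ I.cv ^ 2
  cen1 : ∀ e (p q : ℕ) (κ : ℕ → ℝ), 1 ≤ p → 2 ≤ p + q → p + q ≤ I.dmax → (∀ l, |κ l| ≤ I.mu l * I.eb l ^ q) →
    ∫ ω, I.cs e p κ ω ^ 2 ∂(T e).μ ≤ I.c1 ^ 2

/-- the gain (the centred costs are doubled by the change of centring) -/
def L8TIn.gain {Ω : Type} [MeasurableSpace Ω] (I : L8TIn Ω) : ℝ :=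
  max (I.a1 + 2 * I.c1) (max (I.av + 2 * I.cv) ((I.a0 + 2 * I.c0) * I.E1))

/-- the chart sum of one ensemble, no test -/
noncomputable def l8tSum {Ω : Type} [MeasurableSpace Ω] (T : L8L Ω) (fac : ℕ → ℕ → Ω × Ω → ℝ) {nv : ℕ} (Ch : L8LCh nv)
    (w : (Fin nv → ℕ) → ℝ) (Sto : Finset ℕ) (c d : ℕ → ℕ) : ℝ :=
  ∑ co ∈ Ch.box, Ch.wt co * w co *
    ∫ ω, ∏ s ∈ Sto, fac s (co (Ch.vtx (c s) (d s))) (ω (c s), ω (d s)) ∂T.law (Ch.tab co)

/-- the common hypotheses; the weight `w` and the chart are COMMON to the two ensembles; the labels `0, 1` separate at a high level on the support -/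
structure L8THyp {Ω : Type} [MeasurableSpace Ω] (T : Bool → L8L Ω) (I : L8TIn Ω) {nv : ℕ} (Ch : L8LCh nv) (n r : ℕ) (A0 : ℝ)
    (w : (Fin nv → ℕ) → ℝ) (Sto Det : Finset ℕ) (c d : ℕ → ℕ) : Prop where
  hT : ∀ e, (T e).Ok
  hI : I.Ok T
  hr : ∀ e, (T e).r = r
  hA0 : 1 ≤ A0
  hCh : Ch.Ok I.mu I.ti A0
  ne : Sto.Nonempty
  disj : Disjoint Sto Det
  sub : Sto ∪ Det ⊆ range n
  deg : n ≤ I.dmax
  lab : ∀ s ∈ Sto ∪ Det, c s < r ∧ d s < r ∧ c s ≠ d s
  high : ∀ co, w co ≠ 0 → I.ti ≤ co (Ch.vtx 0 1)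
  val : ∀ co, w co ≠ 0 → Ch.Val (fun τ => ∀ e, (T e).V τ) r (co (Ch.vtx 0 1)) I.ti co
  low : ∀ co, w co ≠ 0 → ∀ s ∈ Sto ∪ Det, co (Ch.vtx (c s) (d s)) < I.ti
  maj : ∀ co, |w co| ≤ (∏ s ∈ Det, I.eb (co (Ch.vtx (c s) (d s)))) *
    if (Sto ∪ Det).card = 1 then ∏ s ∈ Sto, I.vv (co (Ch.vtx (c s) (d s))) else 1

/-- CONTRACT: (D16), second conclusion, chart form -/
def L8_LS_TWO : Prop :=
  ∀ n nv r : ℕ, ∃ K : ℝ, 0 ≤ K ∧ ∀ (Ω : Type) [MeasurableSpace Ω] (T : Bool → L8L Ω) (I : L8TIn Ω) (Ch : L8LCh nv) (A0 : ℝ)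
    (w : (Fin nv → ℕ) → ℝ) (Sto Det : Finset ℕ) (c d : ℕ → ℕ), L8THyp T I Ch n r A0 w Sto Det c d →
    |l8tSum (T true) (I.fac true) Ch w Sto c d - l8tSum (T false) (I.fac false) Ch w Sto c d|
      ≤ K * A0 ^ (nv + 1) * (I.gain + I.eta)

theorem l8t_defs_eqns_cite : True := by
  have := @L8TIn.cs.eq_1
  have := @L8TIn.gain.eq_1
  have := @l8tSum.eq_1
  have := @L8_LS_TWO.eq_1
  trivial

/-! ## 1. Half-half mixtures (kit, proved) -/

section mx
variable {α β γ : Type} [MeasurableSpace α] [MeasurableSpace β] [MeasurableSpace γ]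

/-- the half-half mixture of the images of two measures -/
noncomputable def l8tMx (ν : Bool → Measure α) (f : Bool → α → β) : Measure β :=
  (2⁻¹ : ℝ≥0∞) • (ν false).map (f false) + (2⁻¹ : ℝ≥0∞) • (ν true).map (f true)

theorem l8t_mx_prob {ν : Bool → Measure α} {f : Bool → α → β} (hν : ∀ e, IsProbabilityMeasure (ν e))
    (hf : ∀ e, Measurable (f e)) : IsProbabilityMeasure (l8tMx ν f) := by
  constructor
  have h0 := (Measure.isProbabilityMeasure_map (μ := ν false) (hf false).aemeasurable).measure_univ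
  have h1 := (Measure.isProbabilityMeasure_map (μ := ν true) (hf true).aemeasurable).measure_univ
  simp only [l8tMx, Measure.add_apply, Measure.smul_apply, h0, h1, smul_eq_mul, mul_one]
  exact ENNReal.inv_two_add_inv_two

theorem l8t_mx_map {ν : Bool → Measure α} {f : Bool → α → β} (hf : ∀ e, Measurable (f e)) {h : β → γ} (hh : Measurable h) :
    (l8tMx ν f).map h = l8tMx ν (fun e => h ∘ f e) := by
  simp only [l8tMx]
  rw [Measure.map_add _ _ hh, Measure.map_smul, Measure.map_smul, Measure.map_map hh (hf false), Measure.map_map hh (hf true)]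

theorem l8t_mx_of_map {δ : Type} [MeasurableSpace δ] {ν : Bool → Measure δ} {k : Bool → δ → α} (hk : ∀ e, Measurable (k e))
    {f : Bool → α → β} (hf : ∀ e, Measurable (f e)) :
    l8tMx (fun e => (ν e).map (k e)) f = l8tMx ν (fun e => f e ∘ k e) := by
  simp only [l8tMx]
  rw [Measure.map_map (hf false) (hk false), Measure.map_map (hf true) (hk true)]

theorem l8t_mx_integrable {ν : Bool → Measure α} {f : Bool → α → β} (hf : ∀ e, Measurable (f e)) {g : β → ℝ} (hg : Measurable g) :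
    Integrable g (l8tMx ν f) ↔ ∀ e, Integrable (fun a => g (f e a)) (ν e) := by
  have h2 : (2⁻¹ : ℝ≥0∞) ≠ 0 := by simp
  have h3 : (2⁻¹ : ℝ≥0∞) ≠ ⊤ := by simp
  simp only [l8tMx]
  rw [integrable_add_measure, integrable_smul_measure h2 h3, integrable_smul_measure h2 h3,
    integrable_map_measure hg.aestronglyMeasurable (hf false).aemeasurable,
    integrable_map_measure hg.aestronglyMeasurable (hf true).aemeasurable]
  constructor
  · rintro ⟨a, b⟩ e
    cases e
    · exact a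
    · exact b
  · intro h
    exact ⟨h false, h true⟩

theorem l8t_mx_integral {ν : Bool → Measure α} {f : Bool → α → β} (hf : ∀ e, Measurable (f e)) {g : β → ℝ} (hg : Measurable g)
    (hi : ∀ e, Integrable (fun a => g (f e a)) (ν e)) :
    ∫ b, g b ∂l8tMx ν f = (∫ a, g (f false a) ∂ν false + ∫ a, g (f true a) ∂ν true) / 2 := by
  have h2 : (2⁻¹ : ℝ≥0∞) ≠ 0 := by simp
  have h3 : (2⁻¹ : ℝ≥0∞) ≠ ⊤ := by simp
  simp only [l8tMx]
  rw [integral_add_measure, integral_smul_measure, integral_smul_measure,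
    integral_map (hf false).aemeasurable hg.aestronglyMeasurable,
    integral_map (hf true).aemeasurable hg.aestronglyMeasurable]
  · simp only [ENNReal.toReal_inv, ENNReal.toReal_ofNat, smul_eq_mul]
    ring
  · rw [integrable_smul_measure h2 h3, integrable_map_measure hg.aestronglyMeasurable (hf false).aemeasurable]
    exact hi false
  · rw [integrable_smul_measure h2 h3, integrable_map_measure hg.aestronglyMeasurable (hf true).aemeasurable]
    exact hi true

theorem l8t_mx_real {ν : Bool → Measure α} [∀ e, IsFiniteMeasure (ν e)] {f : Bool → α → β} (hf : ∀ e, Measurable (f e)) {s : Set β} (hs : MeasurableSet s) :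
    (l8tMx ν f).real s = ((ν false).real (f false ⁻¹' s) + (ν true).real (f true ⁻¹' s)) / 2 := by
  simp only [l8tMx, Measure.real, Measure.add_apply, Measure.smul_apply, smul_eq_mul,
    Measure.map_apply (hf false) hs, Measure.map_apply (hf true) hs]
  rw [ENNReal.toReal_add (by finiteness) (by finiteness), ENNReal.toReal_mul, ENNReal.toReal_mul]
  simp only [ENNReal.toReal_inv, ENNReal.toReal_ofNat]
  ring

theorem l8t_mx_ae {ν : Bool → Measure α} {f : Bool → α → β} (hf : ∀ e, Measurable (f e)) {p : β → Prop} (hp : MeasurableSet {b | p b})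
    (h : ∀ e, ∀ᵐ a ∂ν e, p (f e a)) : ∀ᵐ b ∂l8tMx ν f, p b := by
  simp only [l8tMx]
  rw [ae_add_measure_iff]
  constructor
  · apply Measure.ae_smul_measure
    rw [ae_map_iff (hf false).aemeasurable hp]
    exact h false
  · apply Measure.ae_smul_measure
    rw [ae_map_iff (hf true).aemeasurable hp]
    exact h true

end mx

/-! ## 2. The mixture of the two ensembles -/

section mix
variable {Ω : Type} [MeasurableSpace Ω]

/-- all the labels get the flag `e` -/
def l8tEmb (e : Bool) (w : ℕ → Ω) : ℕ → Ω × Bool := fun x => (w x, e)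

/-- the two branches get the flag `e` -/
def l8tEmb2 (e : Bool) (p : Ω × Ω) : (Ω × Bool) × (Ω × Bool) := ((p.1, e), (p.2, e))

/-- one path gets the flag `e` -/
def l8tEmb1 (e : Bool) (ω : Ω) : Ω × Bool := (ω, e)

/-- the mixture of the two families of tree laws -/
noncomputable def l8tMixT (T : Bool → L8L Ω) : L8L (Ω × Bool) where
  r := (T false).r
  V := fun τ => ∀ e, (T e).V τ
  law := fun τ => l8tMx (fun e => (T e).law τ) l8tEmb
  fork := fun l => l8tMx (fun e => (T e).fork l) l8tEmb2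
  μ := l8tMx (fun e => (T e).μ) l8tEmb1

/-- the inputs of the mixture; the retained test is the flag; `t0` = the level of the slice -/
noncomputable def l8tMixI (I : L8TIn Ω) (t0 : ℕ) : L8LIn (Ω × Bool) where
  t0 := t0
  ti := I.ti
  P0 := fun p => if p.1.2 then 1 else -1
  Xi := fun l ω => I.Xi ω.2 l ω.1
  fac := fun s l p => I.fac p.1.2 s l (p.1.1, p.2.1)
  mu := I.mu
  vv := I.vv
  eb := I.eb
  al := I.al
  Dab := 1
  eta := I.eta
  dmax := I.dmax
  a0 := I.a0
  a1 := I.a1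
  av := I.av
  c0 := 2 * I.c0
  c1 := 2 * I.c1
  cv := 2 * I.cv
  E1 := I.E1

theorem l8t_mix_eqns_cite : True := by
  have := @l8tMx.eq_1
  have := @l8tEmb.eq_1
  have := @l8tEmb2.eq_1
  have := @l8tEmb1.eq_1
  have := @l8tMixT.eq_1
  have := @l8tMixI.eq_1
  trivial

/-- LEAF T1 (free) (restriction consistency transports integrability: apply `rc` to `min |G| n`, monotone convergence) -/
theorem l8t_rc_integrable {T : L8L Ω} (hT : T.Ok) {τ τ' : ℕ → ℕ → ℕ} (hτ : T.V τ) (hτ' : T.V τ') (R : Finset ℕ) {G : (ℕ → Ω) → ℝ}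
    (hG : Measurable G) (hd : DependsOn G (R : Set ℕ)) (h : ∀ x ∈ R, ∀ y ∈ R, x ≠ y → τ x y = τ' x y)
    (hi : Integrable G (T.law τ)) : Integrable G (T.law τ') := by
  have hp := hT.prob τ hτ
  have hp' := hT.prob τ' hτ'
  have hFm : ∀ n : ℕ, Measurable fun ω => min |G ω| (n : ℝ) := fun n => hG.abs.min measurable_const
  have hFd : ∀ n : ℕ, DependsOn (fun ω => min |G ω| (n : ℝ)) (R : Set ℕ) := fun n ω ω' hω => by
    simp only [hd hω]
  have hF0 : ∀ (n : ℕ) ω, 0 ≤ min |G ω| (n : ℝ) := fun n ω => le_min (abs_nonneg _) (Nat.cast_nonneg n)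
  have hFi : ∀ (n : ℕ) (ν : Measure (ℕ → Ω)) [IsProbabilityMeasure ν], Integrable (fun ω => min |G ω| (n : ℝ)) ν :=
    fun n ν _ => Integrable.of_bound (hFm n).aestronglyMeasurable n (Filter.Eventually.of_forall fun ω => by
      rw [Real.norm_eq_abs, abs_of_nonneg (hF0 n ω)]; exact min_le_right _ _)
  have key : ∀ n : ℕ, ∫⁻ ω, ENNReal.ofReal (min |G ω| (n : ℝ)) ∂T.law τ' ≤ ENNReal.ofReal (∫ ω, |G ω| ∂T.law τ) := by
    intro n
    rw [← ofReal_integral_eq_lintegral_ofReal (hFi n _) (Filter.Eventually.of_forall (hF0 n)),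
      ← hT.rc τ τ' hτ hτ' R _ (hFm n) (hFd n) ⟨n, fun ω => by
        rw [abs_of_nonneg (hF0 n ω)]; exact min_le_right _ _⟩ h]
    exact ENNReal.ofReal_le_ofReal (integral_mono (hFi n _) hi.abs fun ω => min_le_left _ _)
  have ht : Filter.Tendsto (fun n : ℕ => ∫⁻ ω, ENNReal.ofReal (min |G ω| (n : ℝ)) ∂T.law τ') Filter.atTop
      (nhds (∫⁻ ω, ENNReal.ofReal |G ω| ∂T.law τ')) := by
    refine lintegral_tendsto_of_tendsto_of_monotone (fun n => (hFm n).ennreal_ofReal.aemeasurable)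
      (Filter.Eventually.of_forall fun ω n m hnm => ENNReal.ofReal_le_ofReal
        (min_le_min le_rfl (by exact_mod_cast hnm))) (Filter.Eventually.of_forall fun ω => ?_)
    refine tendsto_atTop_of_eventually_const (i₀ := ⌈|G ω|⌉₊) fun n hn => ?_
    rw [min_eq_left ((Nat.le_ceil _).trans (by exact_mod_cast hn))]
  refine ⟨hG.aestronglyMeasurable, ?_⟩
  rw [hasFiniteIntegral_iff_norm]
  exact lt_of_le_of_lt (le_of_tendsto' ht key) ENNReal.ofReal_lt_top

/-- LEAF T2 (free): the mixture is a consistent family of tree laws (`l8t_mx_prob`, `l8t_mx_map`, `l8t_mx_of_map`; `rc`: `l8t_mx_integrable`, `l8t_mx_integral`, T1) -/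
theorem l8t_mix_ok {T : Bool → L8L Ω} (hT : ∀ e, (T e).Ok) {r : ℕ} (hr : ∀ e, (T e).r = r) : (l8tMixT T).Ok := by
  have hE : ∀ e : Bool, Measurable (l8tEmb (Ω := Ω) e) := fun e =>
    measurable_pi_lambda _ fun x => (measurable_pi_apply x).prodMk measurable_const
  have hE2 : ∀ e : Bool, Measurable (l8tEmb2 (Ω := Ω) e) := fun e =>
    (measurable_fst.prodMk measurable_const).prodMk (measurable_snd.prodMk measurable_const)
  have hE1 : ∀ e : Bool, Measurable (l8tEmb1 (Ω := Ω) e) := fun e => measurable_id.prodMk measurable_const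
  have hrr : ∀ e, (T e).r = (T false).r := fun e => (hr e).trans (hr false).symm
  refine ⟨(hT false).two, fun τ hτ => l8t_mx_prob (fun e => (hT e).prob τ (hτ e)) hE,
    fun l => l8t_mx_prob (fun e => (hT e).probF l) hE2, l8t_mx_prob (fun e => (hT e).probM) hE1,
    fun τ hτ => (hT false).symm τ (hτ false), fun τ hτ => (hT false).ultra τ (hτ false), ?_, ?_, ?_⟩
  · intro τ hτ x y hx hy hxy
    have hk : Measurable fun w : ℕ → Ω => (w x, w y) := (measurable_pi_apply x).prodMk (measurable_pi_apply y)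
    have hk' : Measurable fun w : ℕ → Ω × Bool => (w x, w y) := (measurable_pi_apply x).prodMk (measurable_pi_apply y)
    show (l8tMx (fun e => (T e).law τ) l8tEmb).map (fun w => (w x, w y)) = l8tMx (fun e => (T e).fork (τ x y)) l8tEmb2
    have e1 : (fun e => (T e).fork (τ x y)) = fun e => ((T e).law τ).map (fun w : ℕ → Ω => (w x, w y)) := by
      funext e
      exact ((hT e).marg2 τ (hτ e) x y (by rw [hrr e]; exact hx) (by rw [hrr e]; exact hy) hxy).symm
    rw [l8t_mx_map hE hk', e1, l8t_mx_of_map (fun _ => hk) hE2]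
    rfl
  · intro l
    show (l8tMx (fun e => (T e).fork l) l8tEmb2).map Prod.fst = l8tMx (fun e => (T e).μ) l8tEmb1
    have e1 : (fun e => (T e).μ) = fun e => ((T e).fork l).map Prod.fst := by
      funext e
      exact ((hT e).fst l).symm
    rw [l8t_mx_map hE2 measurable_fst, e1, l8t_mx_of_map (fun _ => measurable_fst) hE1]
    rfl
  · intro τ τ' hτ hτ' R F hF hd hbd h
    obtain ⟨M, hM⟩ := hbd
    show ∫ w, F w ∂l8tMx (fun e => (T e).law τ) l8tEmb = ∫ w, F w ∂l8tMx (fun e => (T e).law τ') l8tEmb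
    have hFe : ∀ e, Measurable fun a : ℕ → Ω => F (l8tEmb e a) := fun e => hF.comp (hE e)
    have hde : ∀ e, DependsOn (fun a : ℕ → Ω => F (l8tEmb e a)) (R : Set ℕ) := fun e a a' haa =>
      hd fun i hi => by simp only [l8tEmb, haa i hi]
    by_cases hi : ∀ e, Integrable (fun a => F (l8tEmb e a)) ((T e).law τ)
    · have hi' : ∀ e, Integrable (fun a => F (l8tEmb e a)) ((T e).law τ') := fun e =>
        l8t_rc_integrable (hT e) (hτ e) (hτ' e) R (hFe e) (hde e) h (hi e)
      rw [l8t_mx_integral hE hF hi, l8t_mx_integral hE hF hi',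
        (hT false).rc τ τ' (hτ false) (hτ' false) R _ (hFe false) (hde false) ⟨M, fun a => hM _⟩ h,
        (hT true).rc τ τ' (hτ true) (hτ' true) R _ (hFe true) (hde true) ⟨M, fun a => hM _⟩ h]
    · have hi' : ¬ ∀ e, Integrable (fun a => F (l8tEmb e a)) ((T e).law τ') := fun hc => hi fun e =>
        l8t_rc_integrable (hT e) (hτ' e) (hτ e) R (hFe e) (hde e) (fun x hx y hy hxy => (h x hx y hy hxy).symm) (hc e)
      rw [integral_undef (fun hc => hi ((l8t_mx_integrable hE hF).1 hc)),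
        integral_undef (fun hc => hi' ((l8t_mx_integrable hE hF).1 hc))]

/-- LEAF T3 (free) (change of centring).  `F e` = the sum centred at `ref`, `m e` its mean: `|m e| ≤ c`, and the sum centred at the mean of the mixture is `F e - (m false + m true)/2` -/
theorem l8t_recentre {ν : Bool → Measure Ω} (hν : ∀ e, IsProbabilityMeasure (ν e)) {F : Bool → Ω → ℝ} (hF : ∀ e, Measurable (F e))
    {b c : ℝ} (hb : ∀ e ω, |F e ω| ≤ b) (hc : 0 ≤ c) (h : ∀ e, ∫ ω, F e ω ^ 2 ∂ν e ≤ c ^ 2) (e : Bool) :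
    ∫ ω, (F e ω - (∫ ω', F false ω' ∂ν false + ∫ ω', F true ω' ∂ν true) / 2) ^ 2 ∂ν e ≤ (2 * c) ^ 2 := by
  have hbi : ∀ e' {g : Ω → ℝ} {k : ℝ}, Measurable g → (∀ ω, |g ω| ≤ k) → Integrable g (ν e') := fun e' {g k} hm hk =>
    have := hν e'
    Integrable.of_bound hm.aestronglyMeasurable k (Filter.Eventually.of_forall fun ω => by simpa using hk ω)
  have hFi : ∀ e', Integrable (F e') (ν e') := fun e' => hbi e' (hF e') (hb e')
  have hF2 : ∀ e', Integrable (fun ω => F e' ω ^ 2) (ν e') := fun e' => hbi e' (k := b ^ 2) ((hF e').pow_const 2) fun ω => by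
    rw [abs_pow]; exact pow_le_pow_left₀ (abs_nonneg _) (hb e' ω) 2
  have hexp : ∀ e' (a : ℝ), ∫ ω, (F e' ω - a) ^ 2 ∂ν e' = ∫ ω, F e' ω ^ 2 ∂ν e' - 2 * a * ∫ ω, F e' ω ∂ν e' + a ^ 2 := by
    intro e' a
    have := hν e'
    have e1 : (fun ω => (F e' ω - a) ^ 2) = fun ω => F e' ω ^ 2 - (2 * a) * F e' ω + a ^ 2 := by
      funext ω; ring
    have h1 : Integrable (fun ω => (2 * a) * F e' ω) (ν e') := (hFi e').const_mul _
    have h2 : Integrable (fun ω => F e' ω ^ 2 - (2 * a) * F e' ω) (ν e') := (hF2 e').sub h1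
    rw [e1, integral_add h2 (integrable_const _), integral_sub (hF2 e') h1, integral_const_mul, integral_const]
    simp
  have hm : ∀ e', (∫ ω, F e' ω ∂ν e') ^ 2 ≤ c ^ 2 := by
    intro e'
    have h0 : 0 ≤ ∫ ω, (F e' ω - ∫ ω', F e' ω' ∂ν e') ^ 2 ∂ν e' := integral_nonneg fun ω => sq_nonneg _
    rw [hexp] at h0
    nlinarith [h e']
  have hmf := abs_le_of_sq_le_sq' (hm false) hc
  have hmt := abs_le_of_sq_le_sq' (hm true) hc
  have hme := abs_le_of_sq_le_sq' (hm e) hc
  rw [hexp]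
  set a := (∫ ω', F false ω' ∂ν false + ∫ ω', F true ω' ∂ν true) / 2 with ha
  have ha1 : -c ≤ a := by rw [ha]; linarith [hmf.1, hmt.1]
  have ha2 : a ≤ c := by rw [ha]; linarith [hmf.2, hmt.2]
  have h3 := h e
  nlinarith [mul_nonneg (sub_nonneg.2 ha2) (sub_nonneg.2 hme.2), mul_nonneg (sub_nonneg.2 ha2) (by linarith [hme.1] : 0 ≤ (∫ ω, F e ω ∂ν e) + c),
    mul_nonneg (by linarith : 0 ≤ a + c) (sub_nonneg.2 hme.2), mul_nonneg (by linarith : 0 ≤ a + c) (by linarith [hme.1] : 0 ≤ (∫ ω, F e ω ∂ν e) + c),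
    mul_nonneg (sub_nonneg.2 ha2) (by linarith : 0 ≤ a + c)]

/-- a function which depends measurably on a measurable flag -/
theorem l8t_meas_flag {α : Type} [MeasurableSpace α] {f : Bool → α → ℝ} (hf : ∀ e, Measurable (f e)) {b : α → Bool}
    (hb : Measurable b) : Measurable fun a => f (b a) a := by
  have e : (fun a => f (b a) a) = fun a => if b a = true then f true a else f false a := by
    funext a
    cases b a <;> simp
  rw [e]
  exact Measurable.ite (hb (measurableSet_singleton true)) (hf true) (hf false)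

/-- bounded measurable functions are integrable -/
theorem l8t_int_bdd {α : Type} [MeasurableSpace α] (μ : Measure α) [IsProbabilityMeasure μ] {g : α → ℝ} (hm : Measurable g)
    {k : ℝ} (hk : ∀ a, |g a| ≤ k) : Integrable g μ :=
  Integrable.of_bound hm.aestronglyMeasurable k (Filter.Eventually.of_forall fun a => by simpa using hk a)

theorem l8t_emb_meas (e : Bool) : Measurable (l8tEmb (Ω := Ω) e) :=
  measurable_pi_lambda _ fun x => (measurable_pi_apply x).prodMk measurable_const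

theorem l8t_emb2_meas (e : Bool) : Measurable (l8tEmb2 (Ω := Ω) e) :=
  (measurable_fst.prodMk measurable_const).prodMk (measurable_snd.prodMk measurable_const)

theorem l8t_emb1_meas (e : Bool) : Measurable (l8tEmb1 (Ω := Ω) e) := measurable_id.prodMk measurable_const

theorem l8t_P0_meas (I : L8TIn Ω) (t0 : ℕ) : Measurable (l8tMixI I t0).P0 :=
  l8t_meas_flag (f := fun e _ => if e = true then (1 : ℝ) else -1) (fun _ => measurable_const)
    (b := fun p : (Ω × Bool) × (Ω × Bool) => p.1.2) (measurable_snd.comp measurable_fst)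

theorem l8t_fac_meas {T : Bool → L8L Ω} {I : L8TIn Ω} (hI : I.Ok T) (t0 s l : ℕ) : Measurable ((l8tMixI I t0).fac s l) :=
  l8t_meas_flag (f := fun e (p : (Ω × Bool) × (Ω × Bool)) => I.fac e s l (p.1.1, p.2.1))
    (fun e => (hI.fac_meas e s l).comp ((measurable_fst.comp measurable_fst).prodMk (measurable_fst.comp measurable_snd)))
    (b := fun p : (Ω × Bool) × (Ω × Bool) => p.1.2) (measurable_snd.comp measurable_fst)

theorem l8t_Xi_meas {T : Bool → L8L Ω} {I : L8TIn Ω} (hI : I.Ok T) (t0 l : ℕ) : Measurable ((l8tMixI I t0).Xi l) :=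
  l8t_meas_flag (f := fun e (ω : Ω × Bool) => I.Xi e l ω.1) (fun e => (hI.Xi_meas e l).comp measurable_fst)
    (b := fun ω : Ω × Bool => ω.2) measurable_snd

/-- the mean of a power of the ancestor value in the mixture -/
theorem l8t_am {T : Bool → L8L Ω} (hT : ∀ e, (T e).Ok) {I : L8TIn Ω} (hI : I.Ok T) (t0 p l : ℕ) :
    (l8tMixI I t0).am (l8tMixT T) p l
      = (∫ ω, I.Xi false l ω ^ p ∂(T false).μ + ∫ ω, I.Xi true l ω ^ p ∂(T true).μ) / 2 := by
  unfold L8LIn.am
  show ∫ ω, (l8tMixI I t0).Xi l ω ^ p ∂l8tMx (fun e => (T e).μ) l8tEmb1 = _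
  rw [l8t_mx_integral l8t_emb1_meas ((l8t_Xi_meas hI t0 l).pow_const p) fun e => ?_]
  · rfl
  · have := (hT e).probM
    refine l8t_int_bdd _ (k := 1) (((l8t_Xi_meas hI t0 l).pow_const p).comp (l8t_emb1_meas e)) fun a => ?_
    show |I.Xi e l a ^ p| ≤ 1
    rw [abs_pow]
    exact pow_le_one₀ (abs_nonneg _) (hI.Xi_bd e l a)

/-- the centred sums of the mixture -/
theorem l8t_cen {T : Bool → L8L Ω} (hT : ∀ e, (T e).Ok) {I : L8TIn Ω} (hI : I.Ok T) (t0 p : ℕ) (κ : ℕ → ℝ) {c : ℝ} (hc : 0 ≤ c)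
    (h : ∀ e, ∫ ω, I.cs e p κ ω ^ 2 ∂(T e).μ ≤ c ^ 2) :
    ∫ ω, (l8tMixI I t0).cs (l8tMixT T) p κ ω ^ 2 ∂(l8tMixT T).μ ≤ (2 * c) ^ 2 := by
  have hpM : ∀ e, IsProbabilityMeasure (T e).μ := fun e => (hT e).probM
  have hXp : ∀ e l ω, |I.Xi e l ω ^ p| ≤ 1 := fun e l ω => by
    rw [abs_pow]; exact pow_le_one₀ (abs_nonneg _) (hI.Xi_bd e l ω)
  have hXi : ∀ e l, Integrable (fun ω => I.Xi e l ω ^ p) (T e).μ := fun e l =>
    l8t_int_bdd _ ((hI.Xi_meas e l).pow_const p) (hXp e l)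
  have hFm : ∀ e, Measurable (I.cs e p κ) := fun e => by
    unfold L8TIn.cs
    exact Finset.measurable_sum _ fun l _ => (((hI.Xi_meas e l).pow_const p).sub_const _).const_mul _
  have hFb : ∀ e ω, |I.cs e p κ ω| ≤ ∑ l ∈ range I.ti, |κ l| * (1 + |I.ref p l|) := fun e ω => by
    unfold L8TIn.cs
    refine (Finset.abs_sum_le_sum_abs _ _).trans (Finset.sum_le_sum fun l _ => ?_)
    rw [abs_mul]
    exact mul_le_mul_of_nonneg_left ((abs_sub _ _).trans (by linarith [hXp e l ω])) (abs_nonneg _)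
  have hmean : ∀ e, ∫ ω, I.cs e p κ ω ∂(T e).μ = ∑ l ∈ range I.ti, κ l * ((∫ ω, I.Xi e l ω ^ p ∂(T e).μ) - I.ref p l) := by
    intro e
    unfold L8TIn.cs
    have hs : ∀ l, Integrable (fun ω => I.Xi e l ω ^ p - I.ref p l) (T e).μ := fun l => (hXi e l).sub (integrable_const _)
    have hs' : ∀ l ∈ range I.ti, Integrable (fun ω => κ l * (I.Xi e l ω ^ p - I.ref p l)) (T e).μ := fun l _ => (hs l).const_mul _
    rw [integral_finsetSum _ hs']
    refine Finset.sum_congr rfl fun l _ => ?_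
    rw [integral_const_mul, integral_sub (hXi e l) (integrable_const _), integral_const]
    simp
  have hid : ∀ e ω, (l8tMixI I t0).cs (l8tMixT T) p κ (l8tEmb1 e ω)
      = I.cs e p κ ω - (∫ ω', I.cs false p κ ω' ∂(T false).μ + ∫ ω', I.cs true p κ ω' ∂(T true).μ) / 2 := by
    intro e ω
    rw [hmean, hmean]
    unfold L8LIn.cs L8TIn.cs
    simp only [l8t_am hT hI]
    show ∑ l ∈ range I.ti, κ l * (I.Xi e l ω ^ p - _) = _
    rw [← Finset.sum_add_distrib, Finset.sum_div, ← Finset.sum_sub_distrib]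
    refine Finset.sum_congr rfl fun l _ => ?_
    ring
  have hgm : Measurable fun ω => (l8tMixI I t0).cs (l8tMixT T) p κ ω ^ 2 := by
    unfold L8LIn.cs
    exact (Finset.measurable_sum _ fun l _ => (((l8t_Xi_meas hI t0 l).pow_const p).sub_const _).const_mul _).pow_const 2
  have hR := fun e => l8t_recentre hpM hFm hFb hc h e
  show ∫ ω, (l8tMixI I t0).cs (l8tMixT T) p κ ω ^ 2 ∂l8tMx (fun e => (T e).μ) l8tEmb1 ≤ _
  rw [l8t_mx_integral l8t_emb1_meas hgm fun e => ?_]
  · simp only [hid]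
    linarith [hR false, hR true]
  · simp only [hid]
    set m := (∫ ω', I.cs false p κ ω' ∂(T false).μ + ∫ ω', I.cs true p κ ω' ∂(T true).μ) / 2
    refine l8t_int_bdd _ (k := ((∑ l ∈ range I.ti, |κ l| * (1 + |I.ref p l|)) + |m|) ^ 2) (((hFm e).sub_const _).pow_const 2) fun a => ?_
    rw [abs_pow]
    exact pow_le_pow_left₀ (abs_nonneg _) ((abs_sub _ _).trans (by linarith [hFb e a])) 2

/-- LEAF T4 (free): the inputs of the mixture (`l8t_mx_integral`, `l8t_mx_real`, `l8t_mx_ae`; `cen*`: T3) -/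
theorem l8t_mixI_ok {T : Bool → L8L Ω} (hT : ∀ e, (T e).Ok) {I : L8TIn Ω} (hI : I.Ok T) {t0 : ℕ} (ht0 : I.ti ≤ t0) :
    (l8tMixI I t0).Ok (l8tMixT T) := by
  have hpF : ∀ e l, IsProbabilityMeasure ((T e).fork l) := fun e l => (hT e).probF l
  have hpM : ∀ e, IsProbabilityMeasure (T e).μ := fun e => (hT e).probM
  have hPm := l8t_P0_meas I t0
  have hfm := l8t_fac_meas hI t0
  have hXm := l8t_Xi_meas hI t0
  have hP2 : ∀ p, (l8tMixI I t0).P0 p ^ 2 = 1 := fun p => by
    show (if p.1.2 = true then (1 : ℝ) else -1) ^ 2 = 1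
    split_ifs <;> norm_num
  have hPb : ∀ p, |(l8tMixI I t0).P0 p| ≤ 2 := fun p => by
    show |if p.1.2 = true then (1 : ℝ) else -1| ≤ 2
    split_ifs <;> norm_num
  have hprF : ∀ l, IsProbabilityMeasure ((l8tMixT T).fork l) := fun l => l8t_mx_prob (fun e => hpF e l) l8t_emb2_meas
  refine
    { le := ht0, P0_meas := hPm, P0_bd := hPb, P0_mean := ?_, P0_sq := ?_, Dab_nonneg := zero_le_one,
      Xi_meas := hXm, Xi_bd := fun l ω => hI.Xi_bd ω.2 l ω.1, share := ?_, fac_meas := hfm,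
      fac_bd := fun s l p => hI.fac_bd p.1.2 s l _, al_nonneg := hI.al_nonneg, ali := ?_, eta_nonneg := hI.eta_nonneg,
      tailX := ?_, tailF := ?_, eb_nonneg := hI.eb_nonneg, eb_le := hI.eb_le, mean := ?_, mu_nonneg := hI.mu_nonneg,
      vv_nonneg := hI.vv_nonneg, vv_le := hI.vv_le, ha0 := hI.ha0, ha1 := hI.ha1, hav := hI.hav, hE1 := hI.hE1,
      c0_nonneg := mul_nonneg zero_le_two hI.c0_nonneg, c1_nonneg := mul_nonneg zero_le_two hI.c1_nonneg,
      cv_nonneg := mul_nonneg zero_le_two hI.cv_nonneg,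
      cen0 := fun κ hκ => l8t_cen hT hI t0 1 κ hI.c0_nonneg fun e => hI.cen0 e κ hκ,
      cenv := fun κ hκ => l8t_cen hT hI t0 1 κ hI.cv_nonneg fun e => hI.cenv e κ hκ,
      cen1 := fun p q κ hp hpq hd hκ => l8t_cen hT hI t0 p κ hI.c1_nonneg fun e => hI.cen1 e p q κ hp hpq hd hκ }
  · show ∫ p, (l8tMixI I t0).P0 p ∂l8tMx (fun e => (T e).fork t0) l8tEmb2 = 0
    rw [l8t_mx_integral l8t_emb2_meas hPm fun e => l8t_int_bdd _ (hPm.comp (l8t_emb2_meas e)) fun a => hPb _]
    simp [l8tMixI, l8tEmb2]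
  · have := hprF t0
    show ∫ p, (l8tMixI I t0).P0 p ^ 2 ∂(l8tMixT T).fork t0 ≤ (1 : ℝ) ^ 2
    simp only [hP2]
    simp
  · intro l t hlt
    show ∀ᵐ p ∂l8tMx (fun e => (T e).fork t) l8tEmb2, (l8tMixI I t0).Xi l p.1 = (l8tMixI I t0).Xi l p.2
    exact l8t_mx_ae l8t_emb2_meas (measurableSet_eq_fun ((hXm l).comp measurable_fst) ((hXm l).comp measurable_snd))
      fun e => hI.share e l t hlt
  · intro s l hl
    show ∫ p, ((l8tMixI I t0).fac s l p - (l8tMixI I t0).Xi l p.1) ^ 2 ∂l8tMx (fun e => (T e).fork l) l8tEmb2 ≤ I.al l ^ 2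
    have hgm : Measurable fun p : (Ω × Bool) × (Ω × Bool) => ((l8tMixI I t0).fac s l p - (l8tMixI I t0).Xi l p.1) ^ 2 :=
      ((hfm s l).sub ((hXm l).comp measurable_fst)).pow_const 2
    rw [l8t_mx_integral l8t_emb2_meas hgm fun e => l8t_int_bdd _ (k := (2 + 1) ^ 2) (hgm.comp (l8t_emb2_meas e)) fun a => ?_]
    · have h0 := hI.ali false s l hl
      have h1 := hI.ali true s l hl
      have e0 : ∀ e, (∫ a, ((l8tMixI I t0).fac s l (l8tEmb2 e a) - (l8tMixI I t0).Xi l (l8tEmb2 e a).1) ^ 2 ∂(T e).fork l)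
          = ∫ p, (I.fac e s l p - I.Xi e l p.1) ^ 2 ∂(T e).fork l := fun e => rfl
      rw [e0, e0]
      linarith
    · show |(I.fac e s l (a.1, a.2) - I.Xi e l a.1) ^ 2| ≤ (2 + 1) ^ 2
      rw [abs_pow]
      exact pow_le_pow_left₀ (abs_nonneg _) ((abs_sub _ _).trans (add_le_add (hI.fac_bd e s l _) (hI.Xi_bd e l _))) 2
  · intro l hl
    show (l8tMx (fun e => (T e).μ) l8tEmb1).real {ω | I.eb l < |(l8tMixI I t0).Xi l ω|} ≤ I.eta
    rw [l8t_mx_real l8t_emb1_meas (measurableSet_lt measurable_const (hXm l).abs)]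
    have h0 := hI.tailX false l hl
    have h1 := hI.tailX true l hl
    have e0 : ∀ e, l8tEmb1 e ⁻¹' {ω | I.eb l < |(l8tMixI I t0).Xi l ω|} = {ω | I.eb l < |I.Xi e l ω|} := fun e => rfl
    rw [e0, e0]
    linarith
  · intro s l hl
    show (l8tMx (fun e => (T e).fork l) l8tEmb2).real {p | I.eb l < |(l8tMixI I t0).fac s l p|} ≤ I.eta
    rw [l8t_mx_real l8t_emb2_meas (measurableSet_lt measurable_const (hfm s l).abs)]
    have h0 := hI.tailF false s l hl
    have h1 := hI.tailF true s l hl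
    have e0 : ∀ e, l8tEmb2 e ⁻¹' {p | I.eb l < |(l8tMixI I t0).fac s l p|} = {p | I.eb l < |I.fac e s l p|} := fun e => rfl
    rw [e0, e0]
    linarith
  · intro p l hp hpd hl
    rw [l8t_am hT hI]
    show _ ≤ I.eb l ^ p
    have h0 := abs_le.1 (hI.mean false p l hp hpd hl)
    have h1 := abs_le.1 (hI.mean true p l hp hpd hl)
    exact abs_le.2 ⟨by linarith [h0.1, h1.1], by linarith [h0.2, h1.2]⟩

/-- LEAF T5 (free): the integral with the flag = half of the difference of the two ensembles -/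
theorem l8t_mix_int {T : Bool → L8L Ω} (hT : ∀ e, (T e).Ok) {I : L8TIn Ω} (hI : I.Ok T) (t0 : ℕ) {τ : ℕ → ℕ → ℕ} (hτ : ∀ e, (T e).V τ)
    (Sto : Finset ℕ) (lv c d : ℕ → ℕ) :
    ∫ ω, (l8tMixI I t0).P0 (ω 0, ω 1) * ∏ s ∈ Sto, (l8tMixI I t0).fac s (lv s) (ω (c s), ω (d s)) ∂(l8tMixT T).law τ
      = ((∫ ω, ∏ s ∈ Sto, I.fac true s (lv s) (ω (c s), ω (d s)) ∂(T true).law τ)
          - ∫ ω, ∏ s ∈ Sto, I.fac false s (lv s) (ω (c s), ω (d s)) ∂(T false).law τ) / 2 := by
  have hfm := l8t_fac_meas hI t0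
  have hgm : Measurable fun ω : ℕ → Ω × Bool =>
      (l8tMixI I t0).P0 (ω 0, ω 1) * ∏ s ∈ Sto, (l8tMixI I t0).fac s (lv s) (ω (c s), ω (d s)) :=
    ((l8t_P0_meas I t0).comp ((measurable_pi_apply 0).prodMk (measurable_pi_apply 1))).mul
      (Finset.measurable_prod _ fun s _ => (hfm s (lv s)).comp ((measurable_pi_apply (c s)).prodMk (measurable_pi_apply (d s))))
  have hpm : ∀ e, Measurable fun ω : ℕ → Ω => ∏ s ∈ Sto, I.fac e s (lv s) (ω (c s), ω (d s)) := fun e =>
    Finset.measurable_prod _ fun s _ => (hI.fac_meas e s (lv s)).comp ((measurable_pi_apply (c s)).prodMk (measurable_pi_apply (d s)))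
  have hpi : ∀ e, Integrable (fun ω : ℕ → Ω => ∏ s ∈ Sto, I.fac e s (lv s) (ω (c s), ω (d s))) ((T e).law τ) := fun e => by
    have := (hT e).prob τ (hτ e)
    refine l8t_int_bdd _ (k := 2 ^ Sto.card) (hpm e) fun a => ?_
    rw [Finset.abs_prod]
    calc ∏ s ∈ Sto, |I.fac e s (lv s) (a (c s), a (d s))| ≤ ∏ _s ∈ Sto, (2 : ℝ) :=
          Finset.prod_le_prod (fun s _ => abs_nonneg _) fun s _ => hI.fac_bd e s _ _
      _ = 2 ^ Sto.card := by simp
  have e0 : ∀ e (a : ℕ → Ω), (l8tMixI I t0).P0 (l8tEmb e a 0, l8tEmb e a 1) *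
      ∏ s ∈ Sto, (l8tMixI I t0).fac s (lv s) (l8tEmb e a (c s), l8tEmb e a (d s))
      = (if e = true then (1 : ℝ) else -1) * ∏ s ∈ Sto, I.fac e s (lv s) (a (c s), a (d s)) := fun e a => rfl
  show ∫ ω, (l8tMixI I t0).P0 (ω 0, ω 1) * ∏ s ∈ Sto, (l8tMixI I t0).fac s (lv s) (ω (c s), ω (d s))
      ∂l8tMx (fun e => (T e).law τ) l8tEmb = _
  rw [l8t_mx_integral l8t_emb_meas hgm fun e => by simp only [e0]; exact (hpi e).const_mul _]
  simp only [e0, integral_const_mul]
  simp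
  ring

end mix

/-! ## 3. Slicing along the level of the pair `(0, 1)` -/

/-- the chart with an atom at the level `t0` of the vertex `j0` -/
def L8LCh.l8tAt {nv : ℕ} (Ch : L8LCh nv) (j0 : Fin nv) (t0 : ℕ) : L8LCh nv where
  vtx := Ch.vtx
  mm := fun j l => if j = j0 then (if l = t0 then 1 else 0) else Ch.mm j l
  L := Ch.L

theorem l8t_at_eqns_cite : True := by
  have := @L8LCh.l8tAt.eq_1
  trivial

/-- LEAF T6 (free): validity of the sliced chart (`ti ≤ t0`: the atom is not low) -/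
theorem l8t_at_ok {nv : ℕ} {Ch : L8LCh nv} {mu : ℕ → ℝ} {ti : ℕ} {A0 : ℝ} (h : Ch.Ok mu ti A0) (hA0 : 1 ≤ A0) (hmu : ∀ l, 0 ≤ mu l)
    (j0 : Fin nv) {t0 : ℕ} (ht0 : ti ≤ t0) : (Ch.l8tAt j0 t0).Ok mu ti A0 := by
  refine ⟨h.vsymm, fun j l => ?_, fun j => ?_, fun j l hl => ?_⟩
  · show 0 ≤ (if j = j0 then (if l = t0 then (1 : ℝ) else 0) else Ch.mm j l)
    split_ifs
    · exact zero_le_one
    · exact le_rfl
    · exact h.nonneg j l
  · show ∑ l ∈ range Ch.L, (if j = j0 then (if l = t0 then (1 : ℝ) else 0) else Ch.mm j l) ≤ A0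
    by_cases hj : j = j0
    · simp only [if_pos hj]
      rw [Finset.sum_ite_eq' (range Ch.L) t0 (fun _ => (1 : ℝ))]
      split_ifs
      · exact hA0
      · exact zero_le_one.trans hA0
    · simp only [if_neg hj]
      exact h.mass j
  · show (if j = j0 then (if l = t0 then (1 : ℝ) else 0) else Ch.mm j l) ≤ mu l
    by_cases hj : j = j0
    · rw [if_pos hj, if_neg (by omega)]
      exact hmu l
    · rw [if_neg hj]
      exact h.low j l hl

/-- LEAF T7 (free): the slicing identity (`Ch.wt co = mm j0 (co j0) * (Ch.l8tAt j0 (co j0)).wt co`, `Finset.sum_comm`) -/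
theorem l8t_slice {nv : ℕ} (Ch : L8LCh nv) (j0 : Fin nv) (G : (Fin nv → ℕ) → ℝ) :
    ∑ co ∈ Ch.box, Ch.wt co * G co
      = ∑ t0 ∈ range Ch.L, Ch.mm j0 t0 * ∑ co ∈ (Ch.l8tAt j0 t0).box, (Ch.l8tAt j0 t0).wt co * (if co j0 = t0 then G co else 0) := by
  have hbox : ∀ t0, (Ch.l8tAt j0 t0).box = Ch.box := fun _ => rfl
  have hwt : ∀ co : Fin nv → ℕ, Ch.mm j0 (co j0) * (Ch.l8tAt j0 (co j0)).wt co = Ch.wt co := by
    intro co
    unfold L8LCh.wt
    rw [← Finset.mul_prod_erase univ (fun j => Ch.mm j (co j)) (mem_univ j0),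
      ← Finset.mul_prod_erase univ (fun j => (Ch.l8tAt j0 (co j0)).mm j (co j)) (mem_univ j0)]
    have e1 : (Ch.l8tAt j0 (co j0)).mm j0 (co j0) = 1 := by simp [L8LCh.l8tAt]
    have e2 : ∏ j ∈ univ.erase j0, (Ch.l8tAt j0 (co j0)).mm j (co j) = ∏ j ∈ univ.erase j0, Ch.mm j (co j) :=
      Finset.prod_congr rfl fun j hj => by simp [L8LCh.l8tAt, ne_of_mem_erase hj]
    rw [e1, e2, one_mul]
  simp only [hbox, Finset.mul_sum]
  rw [Finset.sum_comm]
  refine Finset.sum_congr rfl fun co hco => ?_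
  have hL : co j0 ∈ range Ch.L := Fintype.mem_piFinset.1 hco j0
  rw [Finset.sum_eq_single_of_mem (co j0) hL fun t _ ht => by rw [if_neg (Ne.symm ht)]; ring]
  rw [if_pos rfl, ← mul_assoc, hwt]

/-- **(D16), second conclusion, from the first one**.      GLUE (owner helper62): T7 with `j0 = vtx 0 1`; for `t0 < ti` the slice vanishes (`high`); for `ti ≤ t0`: `L8_LS_ABS` for
`l8tMixT T`, `l8tMixI I t0`, `Ch.l8tAt j0 t0`, `w_t0 co = if co j0 = t0 then w co else 0` (T2, T4, T6), T5; `∑ mm j0 t0 ≤ A0`; `K = 2 K_ABS`. -/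
theorem l8t_two (h : L8_LS_ABS) : L8_LS_TWO := by
  intro n nv r
  obtain ⟨K, hK, H⟩ := h n nv r
  refine ⟨2 * K, by positivity, ?_⟩
  intro Ω _ T I Ch A0 w Sto Det c d Hy
  set j0 : Fin nv := Ch.vtx 0 1 with hj0
  set X : Bool → (Fin nv → ℕ) → ℝ := fun e co =>
    ∫ ω, ∏ s ∈ Sto, I.fac e s (co (Ch.vtx (c s) (d s))) (ω (c s), ω (d s)) ∂(T e).law (Ch.tab co) with hX
  have hA0 : 0 ≤ A0 := le_trans zero_le_one Hy.hA0
  have e1 : l8tSum (T true) (I.fac true) Ch w Sto c d - l8tSum (T false) (I.fac false) Ch w Sto c d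
      = ∑ co ∈ Ch.box, Ch.wt co * (w co * (X true co - X false co)) := by
    unfold l8tSum
    rw [← Finset.sum_sub_distrib]
    refine Finset.sum_congr rfl fun co _ => ?_
    simp only [hX]
    ring
  rw [e1, l8t_slice Ch j0]
  set Bd : ℝ := 2 * (K * A0 ^ nv * (I.gain + I.eta)) with hBd
  have hgain : 0 ≤ K * A0 ^ nv * (I.gain + I.eta) := by
    have hI := Hy.hI
    have ha1 : 0 ≤ I.a1 := le_trans (Finset.sum_nonneg fun l _ =>
      mul_nonneg (mul_nonneg (hI.mu_nonneg l) (hI.eb_nonneg l)) (hI.al_nonneg l)) hI.ha1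
    have : 0 ≤ I.gain := le_trans (by linarith [hI.c1_nonneg]) (le_max_left _ _)
    exact mul_nonneg (mul_nonneg hK (pow_nonneg hA0 _)) (add_nonneg this hI.eta_nonneg)
  have hsl : ∀ t0 ∈ range Ch.L, |∑ co ∈ (Ch.l8tAt j0 t0).box, (Ch.l8tAt j0 t0).wt co *
      (if co j0 = t0 then w co * (X true co - X false co) else 0)| ≤ Bd := by
    intro t0 _
    by_cases ht : I.ti ≤ t0
    · have hyp : L8LHyp (l8tMixT T) (l8tMixI I t0) (Ch.l8tAt j0 t0) n r A0 (fun co => if co j0 = t0 then w co else 0) Sto Det c d :=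
        { hT := l8t_mix_ok Hy.hT Hy.hr
          hI := l8t_mixI_ok Hy.hT Hy.hI ht
          hr := Hy.hr false
          hA0 := Hy.hA0
          hCh := l8t_at_ok Hy.hCh Hy.hA0 Hy.hI.mu_nonneg j0 ht
          ne := Hy.ne
          disj := Hy.disj
          sub := Hy.sub
          deg := Hy.deg
          lab := Hy.lab
          val := by
            intro co hco
            by_cases hc : co j0 = t0
            · simp only [hc, if_true] at hco
              have hv := Hy.val co hco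
              exact ⟨hv.tree, hc, hv.same⟩
            · simp [hc] at hco
          low := by
            intro co hco
            by_cases hc : co j0 = t0
            · simp only [hc, if_true] at hco
              exact Hy.low co hco
            · simp [hc] at hco
          maj := by
            intro co
            have hm := Hy.maj co
            by_cases hc : co j0 = t0
            · simp only [hc, if_true]
              exact hm
            · simp only [hc, if_false, abs_zero]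
              exact le_trans (abs_nonneg _) hm }
      have hb := H (Ω × Bool) (l8tMixT T) (l8tMixI I t0) (Ch.l8tAt j0 t0) A0 (fun co => if co j0 = t0 then w co else 0) Sto Det c d hyp
      have e2 : l8lSum (l8tMixT T) (l8tMixI I t0) (Ch.l8tAt j0 t0) (fun co => if co j0 = t0 then w co else 0) Sto c d
          = (∑ co ∈ (Ch.l8tAt j0 t0).box, (Ch.l8tAt j0 t0).wt co *
              (if co j0 = t0 then w co * (X true co - X false co) else 0)) / 2 := by
        unfold l8lSum
        rw [Finset.sum_div]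
        refine Finset.sum_congr rfl fun co _ => ?_
        by_cases hc : co j0 = t0
        · by_cases hw : w co = 0
          · simp [hc, hw]
          · have hv := Hy.val co hw
            have := l8t_mix_int Hy.hT Hy.hI t0 (τ := Ch.tab co) hv.tree Sto (fun s => co (Ch.vtx (c s) (d s))) c d
            simp only [hc, if_true]
            have e3 : (Ch.l8tAt j0 t0).tab co = Ch.tab co := rfl
            have e4 : (Ch.l8tAt j0 t0).vtx = Ch.vtx := rfl
            rw [e3, e4, this]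
            simp only [hX]
            ring
        · simp [hc]
      have e5 : (l8tMixI I t0).Dab * (l8tMixI I t0).gain + (l8tMixI I t0).eta = I.gain + I.eta := by
        show (1 : ℝ) * I.gain + I.eta = _
        rw [one_mul]
      rw [e2, e5, abs_div, abs_of_pos (by norm_num : (0 : ℝ) < 2), div_le_iff₀ (by norm_num : (0 : ℝ) < 2)] at hb
      rw [hBd]
      linarith
    · have hz : ∑ co ∈ (Ch.l8tAt j0 t0).box, (Ch.l8tAt j0 t0).wt co *
          (if co j0 = t0 then w co * (X true co - X false co) else 0) = 0 := by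
        refine Finset.sum_eq_zero fun co _ => ?_
        by_cases hc : co j0 = t0
        · have hw : w co = 0 := by
            by_contra hw
            have := Hy.high co hw
            rw [← hj0, hc] at this
            exact ht this
          simp [hw]
        · simp [hc]
      rw [hz, abs_zero, hBd]
      linarith
  calc |∑ t0 ∈ range Ch.L, Ch.mm j0 t0 * ∑ co ∈ (Ch.l8tAt j0 t0).box, (Ch.l8tAt j0 t0).wt co *
          (if co j0 = t0 then w co * (X true co - X false co) else 0)|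
      ≤ ∑ t0 ∈ range Ch.L, Ch.mm j0 t0 * Bd := by
        refine (Finset.abs_sum_le_sum_abs _ _).trans (Finset.sum_le_sum fun t0 ht0 => ?_)
        rw [abs_mul, abs_of_nonneg (Hy.hCh.nonneg j0 t0)]
        exact mul_le_mul_of_nonneg_left (hsl t0 ht0) (Hy.hCh.nonneg j0 t0)
    _ = (∑ t0 ∈ range Ch.L, Ch.mm j0 t0) * Bd := by rw [Finset.sum_mul]
    _ ≤ A0 * Bd := mul_le_mul_of_nonneg_right (Hy.hCh.mass j0) (by rw [hBd]; linarith)
    _ = 2 * K * A0 ^ (nv + 1) * (I.gain + I.eta) := by rw [hBd, pow_succ]; ring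

end Claimed.Agent.R286
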