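import Claimed.Agent.R286.L08.LsCost
import Claimed.Agent.R286.L08.LsTwo

/-!
# Row 286 (S0533), folder L08, file LsT2 : INSTANCE of the inputs `L8TIn` of the SECOND conclusion of (D16) on a PAIR of abstract single paths      (owner helper297; head of the unit helper234; prefix `l8u_` / `L8u`)

TEX[LL:lem:statistics-low-sources], second conclusion (LL 08 l.1360-1368, l.1480-1487: "In the comparison version all moving stochastic times here are active; the same fixed marginal reasoning and (A4) suffice.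
After successive replacements the deterministic product .. cancels across ensembles").      PRODUCER of `L8TIn.Ok` (`L08/LsTwo.lean`, 62).      FINE level, NON-asymptotic.

`P : Bool → L8P Ω m` = the two single paths (`false` untilted, `true` tilted) on the SAME path space.   `D : L8uD` = numbers: `S0` = the UNTILTED mean (common centring of both ensembles), `js` = tilt stage (the levels `l ≤ js`
are MASKED in the tilted ensemble: `Q^* = 0`, the factor is the number `- S0 l`), `tY` = first level treated by aliases (the levels `< tY` are raw; every masked low level is raw: field `act`).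
* `Xi e l = |X_l|² - S0 l` (`0` on the raw levels),  `fac e s l = msk e l * Q - S0 l`,  `ref p l` = the UNTILTED mean of `Xi^p`,  `θ e l = 2 L_l - S0 l`;
* `al l` bounds the second norm of `fac - Xi` in BOTH ensembles;
* the ONLY deep input = the centred path sums (D10) in both ensembles, centred at the UNTILTED mean (`I.Rnd tl .. .d10`, tilted: transfer (A4) + Hoelder, unit TIL of 187): fields `cen0`, `cenv`, `cen1` on
  `l8uCs e p κ = ∑_{tY ≤ l < ti} κ_l (θ_{e,l}^p - E_false θ_{false,l}^p)` with the costs `d0, dw, d1`;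
* the `2L` alias is paid here, twice (in the ensemble `e`, and in the untilted mean): `c0 = d0 + 2 a0`, `cv = dw + 2 av`, `c1 = d1 + 2 (d a1 + 3·4^d √η ms)`.
**`l8u_in_ok`** : `D.Ok P → (l8uIn P D).Ok T` for any two families of tree laws whose one and two label marginals are those of `P e`.
-/

set_option autoImplicit false

namespace Claimed.Agent.R286

open MeasureTheory Finset

/-- the numbers of the two-ensemble instance -/
structure L8uD where
  /-- tilt stage: the levels `l ≤ js` are masked in the tilted ensemble -/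
  js : ℕ
  /-- the levels `< tY` are treated by raw bounds -/
  tY : ℕ
  /-- the levels `< ti` are low -/
  ti : ℕ
  /-- weight of a level in mass integrals -/
  dv : ℕ → ℝ
  /-- mass of a level -/
  v : ℕ → ℝ
  /-- terminal mass -/
  a : ℝ
  /-- the UNTILTED mean of the overlap of a pair which separates at the level `l` -/
  S0 : ℕ → ℝ
  /-- truncation envelope -/
  eb : ℕ → ℝ
  /-- alias cost, both ensembles -/
  al : ℕ → ℝ
  /-- tail probability -/
  eta : ℝ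
  /-- maximal degree -/
  dmax : ℕ
  /-- costs of the centred path sums: linear with bounded coefficient / degree `≥ 2` / linear with coefficient `O(v)` -/
  d0 : ℝ
  d1 : ℝ
  dw : ℝ

namespace L8uD
variable (D : L8uD)

/-- the mask of the ensemble `e` at the level `l` -/
def msk (e : Bool) (l : ℕ) : ℝ := if e then (if D.js < l then 1 else 0) else 1

/-- the level data for the cost table of `L08/LsCost.lean` (`ew` is idle) -/
noncomputable def N : L8lcN := ⟨D.tY, D.ti, D.dv, fun l => D.v l / D.a, D.eb, D.al, fun _ => 0⟩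

end L8uD

section defs
variable {Ω : Type} [MeasurableSpace Ω] {m : ℕ} (P : Bool → L8P Ω m) (D : L8uD)

/-- `θ = 2 L_l - S0 l` -/
noncomputable def l8uTh (e : Bool) (l : ℕ) (ω : Ω) : ℝ := 2 * (P e).L l ω - D.S0 l

/-- `ξ = |X_l|² - S0 l` -/
noncomputable def l8uXr (e : Bool) (l : ℕ) (ω : Ω) : ℝ := (P e).nX l ω - D.S0 l

/-- the ancestor value: `ξ`, and `0` on the raw levels -/
noncomputable def l8uXi (e : Bool) (l : ℕ) (ω : Ω) : ℝ := if l < D.tY then 0 else l8uXr P D e l ω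

/-- the stochastic factor `δ^* = Q^* - S0` -/
noncomputable def l8uFac (e : Bool) (_s l : ℕ) (p : Ω × Ω) : ℝ := D.msk e l * (P e).Q p - D.S0 l

/-- the centred path sum: powers of `θ` in the ensemble `e`, centred at the UNTILTED mean -/
noncomputable def l8uCs (e : Bool) (p : ℕ) (κ : ℕ → ℝ) (ω : Ω) : ℝ :=
  ∑ l ∈ Ico D.tY D.ti, κ l * (l8uTh P D e l ω ^ p - ∫ ω', l8uTh P D false l ω' ^ p ∂(P false).μ)

/-- **the inputs of the second conclusion** -/
noncomputable def l8uIn : L8TIn Ω where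
  ti := D.ti
  Xi := l8uXi P D
  fac := l8uFac P D
  ref := fun p l => ∫ ω, l8uXi P D false l ω ^ p ∂(P false).μ
  mu := D.dv
  vv := fun l => D.v l / D.a
  eb := D.eb
  al := D.al
  eta := D.eta
  dmax := D.dmax
  a0 := D.N.a0
  a1 := D.N.a1
  av := D.N.av
  c0 := D.d0 + 2 * D.N.a0
  c1 := D.d1 + 2 * (D.dmax * D.N.a1 + 3 * 4 ^ D.dmax * √D.eta * D.N.ms)
  cv := D.dw + 2 * D.N.av
  E1 := D.N.E1

/-- **the hypotheses of the two-ensemble instance** -/
structure L8uD.Ok : Prop where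
  hP : ∀ e, (P e).Ok
  le1 : D.tY ≤ D.ti
  /-- the alias levels are active -/
  act : ∀ l, D.tY ≤ l → l < D.ti → D.js < l
  a_pos : 0 < D.a
  dv_nonneg : ∀ l, 0 ≤ D.dv l
  v_nonneg : ∀ l, 0 ≤ D.v l
  v_le : ∀ l, D.v l ≤ D.a
  S0_nonneg : ∀ l, 0 ≤ D.S0 l
  S0_le : ∀ l, D.S0 l ≤ 1
  eb_nonneg : ∀ l, 0 ≤ D.eb l
  eb_le : ∀ l, D.eb l ≤ 1
  al_nonneg : ∀ l, 0 ≤ D.al l
  eta_nonneg : 0 ≤ D.eta
  d0_nonneg : 0 ≤ D.d0
  d1_nonneg : 0 ≤ D.d1
  dw_nonneg : 0 ≤ D.dw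
  /-- raw levels: second norm of the factor about the untilted mean (masked: the number `S0 l`) -/
  raw : ∀ e l, l < D.tY → ∫ p, l8uFac P D e 0 l p ^ 2 ∂(P e).fork l ≤ D.al l ^ 2
  /-- alias levels: (D7), second line, in both ensembles -/
  ali : ∀ e l, D.tY ≤ l → l < D.ti → 4 * ∫ ω, (P e).xCx l ω ∂(P e).μ + ∫ ω, (P e).trC2 l ω ∂(P e).μ ≤ D.al l ^ 2
  tailX : ∀ e l, D.tY ≤ l → l < D.ti → (P e).μ.real {ω | D.eb l < |l8uXr P D e l ω|} ≤ D.eta
  tailL : ∀ e l, D.tY ≤ l → l < D.ti → (P e).μ.real {ω | D.eb l < |l8uTh P D e l ω|} ≤ D.eta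
  tailF : ∀ e l, l < D.ti → ((P e).fork l).real {p | D.eb l < |l8uFac P D e 0 l p|} ≤ D.eta
  mean : ∀ e p l, 1 ≤ p → p ≤ D.dmax → D.tY ≤ l → l < D.ti → |∫ ω, l8uXr P D e l ω ^ p ∂(P e).μ| ≤ D.eb l ^ p
  /-- (D10), both ensembles, centred at the untilted mean -/
  cen0 : ∀ e (κ : ℕ → ℝ), (∀ l, |κ l| ≤ D.dv l) → ∫ ω, l8uCs P D e 1 κ ω ^ 2 ∂(P e).μ ≤ D.d0 ^ 2
  cenv : ∀ e (κ : ℕ → ℝ), (∀ l, |κ l| ≤ D.dv l * (D.v l / D.a)) → ∫ ω, l8uCs P D e 1 κ ω ^ 2 ∂(P e).μ ≤ D.dw ^ 2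
  cen1 : ∀ e (p q : ℕ) (κ : ℕ → ℝ), 1 ≤ p → 2 ≤ p + q → p + q ≤ D.dmax → (∀ l, |κ l| ≤ D.dv l * D.eb l ^ q) →
    ∫ ω, l8uCs P D e p κ ω ^ 2 ∂(P e).μ ≤ D.d1 ^ 2

end defs

theorem l8u_eqns_cite : True := by
  have := @L8uD.msk.eq_1
  have := @L8uD.N.eq_1
  have := @l8uTh.eq_1
  have := @l8uXr.eq_1
  have := @l8uXi.eq_1
  have := @l8uFac.eq_1
  have := @l8uCs.eq_1
  have := @l8uIn.eq_1
  trivial

/-! ## 1. generic lemmas -/

/-- second norm of the alias of a power (generic form of `l8lc_pow_alias`): on `{|ξ| ≤ eb, |θ| ≤ eb}`: `|ξ^p - θ^p| ≤ p eb^(p-1) |ξ - θ|`; off: `≤ 2·4^p`, probability `≤ 2 eta` -/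
theorem l8u_pow_alias {α : Type} [MeasurableSpace α] (ν : Measure α) [IsProbabilityMeasure ν] {ξ θ : α → ℝ} (hξ : Measurable ξ) (hθ : Measurable θ)
    (bξ : ∀ x, |ξ x| ≤ 1) (bθ : ∀ x, |θ x| ≤ 4) {eb al eta : ℝ} (heb : 0 ≤ eb) (hal : 0 ≤ al) (heta : 0 ≤ eta)
    (h2 : ∫ x, (θ x - ξ x) ^ 2 ∂ν ≤ al ^ 2) (tξ : ν.real {x | eb < |ξ x|} ≤ eta) (tθ : ν.real {x | eb < |θ x|} ≤ eta) (p : ℕ) :
    ∫ x, (ξ x ^ p - θ x ^ p) ^ 2 ∂ν ≤ (p * eb ^ (p - 1) * al + 3 * 4 ^ p * √eta) ^ 2 := by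
  classical
  have hξb : L8Bd ξ := ⟨hξ, 1, bξ⟩
  have hθb : L8Bd θ := ⟨hθ, 4, bθ⟩
  have hAm : MeasurableSet {x | eb < |ξ x|} := measurableSet_lt measurable_const hξ.abs
  have hBm : MeasurableSet {x | eb < |θ x|} := measurableSet_lt measurable_const hθ.abs
  have h4 : (1:ℝ) ≤ 4 ^ p := one_le_pow₀ (by norm_num)
  have pt : ∀ x, (ξ x ^ p - θ x ^ p) ^ 2
      ≤ (p * eb ^ (p - 1)) ^ 2 * (θ x - ξ x) ^ 2
        + (2 * 4 ^ p) ^ 2 * (Set.indicator {x | eb < |ξ x|} 1 x + Set.indicator {x | eb < |θ x|} 1 x) := by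
    intro x
    have b0 : |ξ x ^ p - θ x ^ p| ≤ 2 * 4 ^ p := by
      have e1 : |ξ x ^ p| ≤ 1 := by
        rw [abs_pow]
        exact pow_le_one₀ (abs_nonneg _) (bξ x)
      have e2 : |θ x ^ p| ≤ 4 ^ p := by
        rw [abs_pow]
        exact pow_le_pow_left₀ (abs_nonneg _) (bθ x) p
      calc |ξ x ^ p - θ x ^ p| ≤ |ξ x ^ p| + |θ x ^ p| := abs_sub _ _
        _ ≤ 2 * 4 ^ p := by linarith
    have b1 : (ξ x ^ p - θ x ^ p) ^ 2 ≤ (2 * 4 ^ p) ^ 2 := by
      rw [← sq_abs]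
      exact pow_le_pow_left₀ (abs_nonneg _) b0 2
    have t0 : 0 ≤ (p * eb ^ (p - 1)) ^ 2 * (θ x - ξ x) ^ 2 := by positivity
    have i1 : (0:ℝ) ≤ Set.indicator {x | eb < |ξ x|} 1 x := Set.indicator_nonneg (fun _ _ => zero_le_one) _
    have i2 : (0:ℝ) ≤ Set.indicator {x | eb < |θ x|} 1 x := Set.indicator_nonneg (fun _ _ => zero_le_one) _
    have c0 : (0:ℝ) ≤ (2 * 4 ^ p) ^ 2 := by positivity
    by_cases hA : eb < |ξ x|
    · have : Set.indicator {x | eb < |ξ x|} (1 : α → ℝ) x = 1 := Set.indicator_of_mem (by exact hA) _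
      rw [this]
      nlinarith [mul_nonneg c0 i2]
    · by_cases hB : eb < |θ x|
      · have : Set.indicator {x | eb < |θ x|} (1 : α → ℝ) x = 1 := Set.indicator_of_mem (by exact hB) _
        rw [this]
        nlinarith [mul_nonneg c0 i1]
      · have g := L8P.l8lc_h_pow_sub (not_lt.1 hA) (not_lt.1 hB) p
        have g2 : (ξ x ^ p - θ x ^ p) ^ 2 ≤ (p * eb ^ (p - 1) * |ξ x - θ x|) ^ 2 := by
          rw [← sq_abs]
          exact pow_le_pow_left₀ (abs_nonneg _) g 2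
        rw [mul_pow, sq_abs] at g2
        have e3 : (ξ x - θ x) ^ 2 = (θ x - ξ x) ^ 2 := by ring
        rw [e3] at g2
        nlinarith [mul_nonneg c0 (add_nonneg i1 i2)]
  have iA : Integrable (Set.indicator {x | eb < |ξ x|} (1 : α → ℝ)) ν := (integrable_const (1:ℝ)).indicator hAm
  have iB : Integrable (Set.indicator {x | eb < |θ x|} (1 : α → ℝ)) ν := (integrable_const (1:ℝ)).indicator hBm
  have iD : Integrable (fun x => (θ x - ξ x) ^ 2) ν := ((hθb.sub hξb).pow 2).integrable _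
  have iL : Integrable (fun x => (ξ x ^ p - θ x ^ p) ^ 2) ν := (((hξb.pow p).sub (hθb.pow p)).pow 2).integrable _
  have iAB : Integrable (fun x => Set.indicator {x | eb < |ξ x|} (1 : α → ℝ) x + Set.indicator {x | eb < |θ x|} (1 : α → ℝ) x) ν := iA.add iB
  have iR : Integrable (fun x => (p * eb ^ (p - 1)) ^ 2 * (θ x - ξ x) ^ 2
        + (2 * 4 ^ p) ^ 2 * (Set.indicator {x | eb < |ξ x|} 1 x + Set.indicator {x | eb < |θ x|} 1 x)) ν :=
    (iD.const_mul _).add (iAB.const_mul _)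
  have k1 := integral_mono iL iR pt
  have k2 : ∫ x, ((p * eb ^ (p - 1)) ^ 2 * (θ x - ξ x) ^ 2
        + (2 * 4 ^ p) ^ 2 * (Set.indicator {x | eb < |ξ x|} 1 x + Set.indicator {x | eb < |θ x|} 1 x)) ∂ν
      = (p * eb ^ (p - 1)) ^ 2 * ∫ x, (θ x - ξ x) ^ 2 ∂ν + (2 * 4 ^ p) ^ 2 * (ν.real {x | eb < |ξ x|} + ν.real {x | eb < |θ x|}) := by
    rw [integral_add (iD.const_mul _) (iAB.const_mul _), integral_const_mul, integral_const_mul,
      integral_add iA iB, integral_indicator_one hAm, integral_indicator_one hBm]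
  rw [k2] at k1
  have hs := Real.sq_sqrt heta
  have hs0 := Real.sqrt_nonneg eta
  have c1 : (0:ℝ) ≤ p * eb ^ (p - 1) := by positivity
  have k6 : (p * eb ^ (p - 1)) ^ 2 * ∫ x, (θ x - ξ x) ^ 2 ∂ν ≤ (p * eb ^ (p - 1)) ^ 2 * al ^ 2 := mul_le_mul_of_nonneg_left h2 (by positivity)
  have k7 : (2 * (4:ℝ) ^ p) ^ 2 * (ν.real {x | eb < |ξ x|} + ν.real {x | eb < |θ x|}) ≤ (2 * (4:ℝ) ^ p) ^ 2 * (2 * √eta ^ 2) :=
    mul_le_mul_of_nonneg_left (by rw [hs]; linarith) (by positivity)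
  have k8 : 0 ≤ (p * eb ^ (p - 1) * al) * ((4:ℝ) ^ p * √eta) := by positivity
  have k9 : 0 ≤ ((4:ℝ) ^ p * √eta) ^ 2 := sq_nonneg _
  calc ∫ x, (ξ x ^ p - θ x ^ p) ^ 2 ∂ν
      ≤ (p * eb ^ (p - 1)) ^ 2 * al ^ 2 + (2 * (4:ℝ) ^ p) ^ 2 * (2 * √eta ^ 2) := by linarith
    _ = (p * eb ^ (p - 1) * al) ^ 2 + 8 * ((4:ℝ) ^ p * √eta) ^ 2 := by ring
    _ ≤ (p * eb ^ (p - 1) * al) ^ 2 + 6 * ((p * eb ^ (p - 1) * al) * ((4:ℝ) ^ p * √eta)) + 9 * ((4:ℝ) ^ p * √eta) ^ 2 := by linarith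
    _ = (p * eb ^ (p - 1) * al + 3 * 4 ^ p * √eta) ^ 2 := by ring

/-- a mean is bounded by the second norm -/
theorem l8u_mean_le {α : Type} [MeasurableSpace α] (ν : Measure α) [IsProbabilityMeasure ν] {f : α → ℝ} (hf : L8Bd f) {B : ℝ} (hB : 0 ≤ B)
    (h : ∫ x, f x ^ 2 ∂ν ≤ B ^ 2) : |∫ x, f x ∂ν| ≤ B := by
  have h1 := l8lc_mean_of_mom ν hf.1 hf.2 1 hB (by simpa using h)
  simpa using h1

/-! ## 2. the instance -/

section inst
variable {Ω : Type} [MeasurableSpace Ω] {m : ℕ} {P : Bool → L8P Ω m} {D : L8uD}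

theorem l8u_Xr_bd (hD : D.Ok P) (e : Bool) (l : ℕ) : L8Bd (l8uXr P D e l) := ((P e).l8s_nX_bd_aux (hD.hP e) l).sub (l8Bd_const _)

theorem l8u_Xr_le (hD : D.Ok P) (e : Bool) (l : ℕ) (ω : Ω) : |l8uXr P D e l ω| ≤ 1 := by
  unfold l8uXr
  rw [abs_le]
  constructor <;> linarith [(P e).l8c_nX_nonneg l ω, (P e).l8s_nX_le_one (hD.hP e) l ω, hD.S0_nonneg l, hD.S0_le l]

theorem l8u_Th_le (hD : D.Ok P) (e : Bool) (l : ℕ) (ω : Ω) : |l8uTh P D e l ω| ≤ 4 := by
  have h1 := abs_le.1 ((P e).l8s_L_abs_le (hD.hP e) l ω)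
  unfold l8uTh
  rw [abs_le]
  constructor <;> linarith [h1.1, h1.2, hD.S0_nonneg l, hD.S0_le l]

theorem l8u_Th_bd (hD : D.Ok P) (e : Bool) (l : ℕ) : L8Bd (l8uTh P D e l) :=
  ⟨(((P e).l8s_L_bd (hD.hP e) l).1.const_mul 2).sub_const _, 4, l8u_Th_le hD e l⟩

/-- the `2 L` alias -/
theorem l8u_alias_L (hD : D.Ok P) (e : Bool) {l : ℕ} (h1 : D.tY ≤ l) (h2 : l < D.ti) :
    ∫ ω, (l8uTh P D e l ω - l8uXr P D e l ω) ^ 2 ∂(P e).μ ≤ D.al l ^ 2 := by
  have e1 : ∀ ω, l8uTh P D e l ω - l8uXr P D e l ω = 2 * (P e).L l ω - (P e).nX l ω := fun ω => by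
    unfold l8uTh l8uXr
    ring
  simp only [e1]
  rw [(P e).l8s_alias_L (hD.hP e) l]
  linarith [hD.ali e l h1 h2, (P e).l8c_trC2_nonneg l]

/-- the `2 L` alias of a power -/
theorem l8u_alias_pow (hD : D.Ok P) (e : Bool) {l : ℕ} (h1 : D.tY ≤ l) (h2 : l < D.ti) (p : ℕ) :
    ∫ ω, (l8uXr P D e l ω ^ p - l8uTh P D e l ω ^ p) ^ 2 ∂(P e).μ ≤ (p * D.eb l ^ (p - 1) * D.al l + 3 * 4 ^ p * √D.eta) ^ 2 := by
  have := (hD.hP e).prob
  exact l8u_pow_alias (P e).μ (l8u_Xr_bd hD e l).1 (l8u_Th_bd hD e l).1 (l8u_Xr_le hD e l) (l8u_Th_le hD e l) (hD.eb_nonneg l) (hD.al_nonneg l)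
    hD.eta_nonneg (l8u_alias_L hD e h1 h2) (hD.tailX e l h1 h2) (hD.tailL e l h1 h2) p

/-- **from the path sums to the sums of ancestor values**: the alias is paid in the ensemble `e` and in the untilted mean -/
theorem l8u_cen (hD : D.Ok P) (e : Bool) (p : ℕ) (κ g β : ℕ → ℝ) (hg : ∀ l, 0 ≤ g l) (hκ : ∀ l, |κ l| ≤ D.dv l * g l) {d : ℝ} (hd : 0 ≤ d)
    (hc : ∫ ω, l8uCs P D e p κ ω ^ 2 ∂(P e).μ ≤ d ^ 2) (hβ0 : ∀ l, 0 ≤ β l)
    (hβ : ∀ e l, D.tY ≤ l → l < D.ti → ∫ ω, (l8uXr P D e l ω ^ p - l8uTh P D e l ω ^ p) ^ 2 ∂(P e).μ ≤ β l ^ 2) :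
    ∫ ω, (∑ l ∈ Ico D.tY D.ti, κ l * (l8uXr P D e l ω ^ p - ∫ ω', l8uXr P D false l ω' ^ p ∂(P false).μ)) ^ 2 ∂(P e).μ
      ≤ (d + 2 * ∑ l ∈ Ico D.tY D.ti, D.dv l * g l * β l) ^ 2 := by
  have := (hD.hP e).prob
  have hpf := (hD.hP false).prob
  have hξ := l8u_Xr_bd hD
  have hθ := l8u_Th_bd hD
  have hfb : ∀ e l, L8Bd (fun ω => l8uXr P D e l ω ^ p - l8uTh P D e l ω ^ p) := fun e l => ((hξ e l).pow p).sub ((hθ e l).pow p)
  set Bs : ℝ := ∑ l ∈ Ico D.tY D.ti, D.dv l * g l * β l with hBs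
  have hBs0 : 0 ≤ Bs := Finset.sum_nonneg fun l _ => mul_nonneg (mul_nonneg (hD.dv_nonneg l) (hg l)) (hβ0 l)
  set c3 : ℝ := ∑ l ∈ Ico D.tY D.ti, κ l * ∫ ω', (l8uXr P D false l ω' ^ p - l8uTh P D false l ω' ^ p) ∂(P false).μ with hc3
  have hκ2 : ∀ l, κ l ^ 2 ≤ (D.dv l * g l) ^ 2 := fun l => by
    rw [← sq_abs]
    exact pow_le_pow_left₀ (abs_nonneg _) (hκ l) 2
  -- the alias in the ensemble `e`
  have h2 : ∫ ω, (∑ l ∈ Ico D.tY D.ti, κ l * (l8uXr P D e l ω ^ p - l8uTh P D e l ω ^ p)) ^ 2 ∂(P e).μ ≤ Bs ^ 2 := by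
    refine L8P.l8lc_h_mink (P e).μ _ _ _ (fun l _ => (hfb e l).const_mul _)
      (fun l _ => mul_nonneg (mul_nonneg (hD.dv_nonneg l) (hg l)) (hβ0 l)) (fun l hl => ?_)
    rw [mul_pow (D.dv l * g l)]
    simp only [mul_pow (κ l)]
    rw [integral_const_mul]
    exact mul_le_mul (hκ2 l) (hβ e l (Finset.mem_Ico.1 hl).1 (Finset.mem_Ico.1 hl).2) (integral_nonneg fun ω => sq_nonneg _) (sq_nonneg _)
  -- the alias in the untilted mean
  have h3 : |c3| ≤ Bs := by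
    refine (Finset.abs_sum_le_sum_abs _ _).trans (Finset.sum_le_sum fun l hl => ?_)
    rw [abs_mul]
    exact mul_le_mul (hκ l) (l8u_mean_le (P false).μ (hfb false l) (hβ0 l) (hβ false l (Finset.mem_Ico.1 hl).1 (Finset.mem_Ico.1 hl).2))
      (abs_nonneg _) (mul_nonneg (hD.dv_nonneg l) (hg l))
  have h3' : ∫ _ω, (-c3) ^ 2 ∂(P e).μ ≤ Bs ^ 2 := by
    simp only [integral_const, probReal_univ, smul_eq_mul, one_mul]
    rw [neg_sq, ← sq_abs]
    exact pow_le_pow_left₀ (abs_nonneg _) h3 2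
  have e0 : ∀ ω, ∑ l ∈ Ico D.tY D.ti, κ l * (l8uXr P D e l ω ^ p - ∫ ω', l8uXr P D false l ω' ^ p ∂(P false).μ)
      = l8uCs P D e p κ ω + (∑ l ∈ Ico D.tY D.ti, κ l * (l8uXr P D e l ω ^ p - l8uTh P D e l ω ^ p) + -c3) := by
    intro ω
    rw [hc3, l8uCs, ← Finset.sum_neg_distrib, ← Finset.sum_add_distrib, ← Finset.sum_add_distrib]
    refine Finset.sum_congr rfl fun l _ => ?_
    rw [integral_sub (((hξ false l).pow p).integrable _) (((hθ false l).pow p).integrable _)]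
    ring
  simp only [e0]
  have b1 : L8Bd (l8uCs P D e p κ) := L8Bd.sum _ fun l _ => (((hθ e l).pow p).sub (l8Bd_const _)).const_mul _
  have b2 : L8Bd (fun ω => ∑ l ∈ Ico D.tY D.ti, κ l * (l8uXr P D e l ω ^ p - l8uTh P D e l ω ^ p)) := L8Bd.sum _ fun l _ => (hfb e l).const_mul _
  have b3 : L8Bd (fun _ : Ω => -c3) := l8Bd_const _
  have h23 := L8P.l8lc_h_mink2 (P e).μ b2 b3 hBs0 hBs0 h2 h3'
  have h123 := L8P.l8lc_h_mink2 (P e).μ b1 (b2.add b3) hd (add_nonneg hBs0 hBs0) hc h23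
  refine h123.trans (le_of_eq ?_)
  ring

/-- the centred sum of the instance lives on the alias levels -/
theorem l8u_cs_eq (hD : D.Ok P) (e : Bool) {p : ℕ} (hp : 1 ≤ p) (κ : ℕ → ℝ) (ω : Ω) :
    (l8uIn P D).cs e p κ ω = ∑ l ∈ Ico D.tY D.ti, κ l * (l8uXr P D e l ω ^ p - ∫ ω', l8uXr P D false l ω' ^ p ∂(P false).μ) := by
  have hp0 : p ≠ 0 := by omega
  show ∑ l ∈ range D.ti, κ l * (l8uXi P D e l ω ^ p - ∫ ω', l8uXi P D false l ω' ^ p ∂(P false).μ) = _
  rw [Finset.range_eq_Ico, ← Finset.sum_Ico_consecutive _ (Nat.zero_le _) hD.le1]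
  have z : ∑ l ∈ Ico 0 D.tY, κ l * (l8uXi P D e l ω ^ p - ∫ ω', l8uXi P D false l ω' ^ p ∂(P false).μ) = 0 := by
    refine Finset.sum_eq_zero fun l hl => ?_
    have hl' : l < D.tY := (Finset.mem_Ico.1 hl).2
    simp [l8uXi, hl', hp0]
  rw [z, zero_add]
  refine Finset.sum_congr rfl fun l hl => ?_
  have hl' : ¬ l < D.tY := not_lt.2 (Finset.mem_Ico.1 hl).1
  simp only [l8uXi, hl', if_false]

/-- **INSTANCE THEOREM**: the inputs of the second conclusion hold for the pair of single paths; `T e` = any families of tree laws whose one and two label marginals are those of `P e` -/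
theorem l8u_in_ok (hD : D.Ok P) {T : Bool → L8L Ω} (hμ : ∀ e, (T e).μ = (P e).μ) (hf : ∀ e l, (T e).fork l = (P e).fork l) : (l8uIn P D).Ok T := by
  have n1 := hD.dv_nonneg
  have n2 : ∀ l, 0 ≤ D.v l / D.a := fun l => div_nonneg (hD.v_nonneg l) hD.a_pos.le
  have n3 := hD.eb_nonneg
  have n4 := hD.al_nonneg
  have ha0 : 0 ≤ D.N.a0 := Finset.sum_nonneg fun l _ => mul_nonneg (n1 l) (n4 l)
  have ha1 : 0 ≤ D.N.a1 := Finset.sum_nonneg fun l _ => mul_nonneg (mul_nonneg (n1 l) (n3 l)) (n4 l)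
  have hav : 0 ≤ D.N.av := Finset.sum_nonneg fun l _ => mul_nonneg (mul_nonneg (n1 l) (n2 l)) (n4 l)
  have hms : 0 ≤ D.N.ms := Finset.sum_nonneg fun l _ => n1 l
  have hs0 := Real.sqrt_nonneg D.eta
  have hmk : ∀ e l, 0 ≤ D.msk e l ∧ D.msk e l ≤ 1 := by
    intro e l
    unfold L8uD.msk
    split_ifs <;> norm_num
  have hfm : ∀ e s l, Measurable (l8uFac P D e s l) := fun e s l => (((P e).l8s_fork_Q_bd_aux (hD.hP e)).1.const_mul _).sub_const _
  have hfb : ∀ e s l p, |l8uFac P D e s l p| ≤ 2 := by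
    intro e s l p
    have h1 := abs_le.1 (((P e).l8s_fork_Q_bd_aux (hD.hP e)).2 p)
    obtain ⟨m0, m1⟩ := hmk e l
    unfold l8uFac
    rw [abs_le]
    constructor <;> nlinarith [h1.1, h1.2, hD.S0_nonneg l, hD.S0_le l]
  -- linear regimes
  have hlin : ∀ (e : Bool) (g : ℕ → ℝ), (∀ l, 0 ≤ g l) → ∀ κ : ℕ → ℝ, (∀ l, |κ l| ≤ D.dv l * g l) → ∀ d : ℝ, 0 ≤ d →
      ∫ ω, l8uCs P D e 1 κ ω ^ 2 ∂(P e).μ ≤ d ^ 2 →
      ∫ ω, (l8uIn P D).cs e 1 κ ω ^ 2 ∂(T e).μ ≤ (d + 2 * ∑ l ∈ range D.ti, D.dv l * g l * D.al l) ^ 2 := by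
    intro e g hg κ hκ d hd hc
    simp only [l8u_cs_eq hD e le_rfl κ, hμ]
    refine (l8u_cen hD e 1 κ g D.al hg hκ hd hc n4 fun e l h1 h2 => ?_).trans ?_
    · have e1 : ∀ ω, (l8uXr P D e l ω ^ 1 - l8uTh P D e l ω ^ 1) ^ 2 = (l8uTh P D e l ω - l8uXr P D e l ω) ^ 2 := fun ω => by ring
      simp only [e1]
      exact l8u_alias_L hD e h1 h2
    · refine pow_le_pow_left₀ (add_nonneg hd (mul_nonneg (by norm_num)
        (Finset.sum_nonneg fun l _ => mul_nonneg (mul_nonneg (n1 l) (hg l)) (n4 l)))) ?_ 2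
      have := l8lc_Ico_le_range D.tY D.ti (fun l => D.dv l * g l * D.al l) fun l => mul_nonneg (mul_nonneg (n1 l) (hg l)) (n4 l)
      linarith
  exact
  { Xi_meas := fun e l => by
      show Measurable (l8uXi P D e l)
      unfold l8uXi
      split_ifs
      · exact measurable_const
      · exact (l8u_Xr_bd hD e l).1
    Xi_bd := fun e l ω => by
      show |l8uXi P D e l ω| ≤ 1
      unfold l8uXi
      split_ifs
      · simp
      · exact l8u_Xr_le hD e l ω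
    share := fun e l t hlt => by
      rw [hf]
      refine (P e).l8s_fork_prefix (hD.hP e) t ?_
      show Measurable[(P e).ℱ t] (l8uXi P D e l)
      unfold l8uXi l8uXr
      split_ifs
      · exact measurable_const
      · exact (((P e).l8s_nX_meas_aux (hD.hP e) l).mono ((P e).ℱ.mono hlt) le_rfl).sub_const _
    fac_meas := hfm
    fac_bd := hfb
    al_nonneg := n4
    ali := fun e s l hl => by
      rw [hf]
      show ∫ p, (l8uFac P D e s l p - l8uXi P D e l p.1) ^ 2 ∂(P e).fork l ≤ D.al l ^ 2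
      by_cases hY : l < D.tY
      · simp only [l8uXi, hY, if_true, sub_zero]
        exact hD.raw e l hY
      · have hact := hD.act l (not_lt.1 hY) hl
        have e1 : ∀ p : Ω × Ω, l8uFac P D e s l p - l8uXi P D e l p.1 = (P e).Q p - (P e).nX l p.1 := fun p => by
          have : D.msk e l = 1 := by
            unfold L8uD.msk
            cases e <;> simp [hact]
          simp only [l8uFac, l8uXi, l8uXr, hY, if_false, this]
          ring
        simp only [e1]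
        rw [(P e).l8s_fork_alias_Q (hD.hP e) l]
        linarith [hD.ali e l (not_lt.1 hY) hl, (P e).l8c_xCx_nonneg (hD.hP e) l]
    eta_nonneg := hD.eta_nonneg
    tailX := by
      intro e l hl
      show (T e).μ.real {ω | D.eb l < |l8uXi P D e l ω|} ≤ D.eta
      rw [hμ]
      by_cases hY : l < D.tY
      · have : {ω | D.eb l < |l8uXi P D e l ω|} = ∅ := by
          ext ω
          simp only [l8uXi, hY, if_true, abs_zero, Set.mem_ofPred_eq, Set.mem_empty_iff_false, iff_false, not_lt]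
          exact hD.eb_nonneg l
        rw [this]
        simpa using hD.eta_nonneg
      · have e1 : {ω | D.eb l < |l8uXi P D e l ω|} = {ω | D.eb l < |l8uXr P D e l ω|} := by
          ext ω
          simp only [l8uXi, hY, if_false]
        rw [e1]
        exact hD.tailX e l (not_lt.1 hY) hl
    tailF := fun e s l hl => by rw [hf]; exact hD.tailF e l hl
    eb_nonneg := n3
    eb_le := hD.eb_le
    mean := by
      intro e p l hp1 hp2 hl
      show |∫ ω, l8uXi P D e l ω ^ p ∂(T e).μ| ≤ D.eb l ^ p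
      rw [hμ]
      by_cases hY : l < D.tY
      · have : ∀ ω, l8uXi P D e l ω ^ p = 0 := fun ω => by
          simp only [l8uXi, hY, if_true]
          exact zero_pow (by omega)
        simp only [this, integral_zero, abs_zero]
        exact pow_nonneg (hD.eb_nonneg l) p
      · have : ∀ ω, l8uXi P D e l ω ^ p = l8uXr P D e l ω ^ p := fun ω => by
          simp only [l8uXi, hY, if_false]
        simp only [this]
        exact hD.mean e p l hp1 hp2 (not_lt.1 hY) hl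
    mu_nonneg := n1
    vv_nonneg := n2
    vv_le := fun l => (div_le_one hD.a_pos).2 (hD.v_le l)
    ha0 := le_rfl
    ha1 := le_rfl
    hav := le_rfl
    hE1 := le_rfl
    c0_nonneg := add_nonneg hD.d0_nonneg (mul_nonneg (by norm_num) ha0)
    c1_nonneg := add_nonneg hD.d1_nonneg (mul_nonneg (by norm_num) (add_nonneg (mul_nonneg (Nat.cast_nonneg _) ha1)
      (mul_nonneg (mul_nonneg (by positivity) hs0) hms)))
    cv_nonneg := add_nonneg hD.dw_nonneg (mul_nonneg (by norm_num) hav)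
    cen0 := by
      intro e κ hκ
      refine (hlin e (fun _ => 1) (fun _ => zero_le_one) κ (fun l => by rw [mul_one]; exact hκ l) D.d0 hD.d0_nonneg (hD.cen0 e κ hκ)).trans (le_of_eq ?_)
      simp only [mul_one]
      rfl
    cenv := by
      intro e κ hκ
      exact hlin e (fun l => D.v l / D.a) n2 κ hκ D.dw hD.dw_nonneg (hD.cenv e κ hκ)
    cen1 := by
      intro e p q κ hp hpq hd hκ
      replace hd : p + q ≤ D.dmax := hd
      simp only [l8u_cs_eq hD e hp κ, hμ]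
      refine (l8u_cen hD e p κ (fun l => D.eb l ^ q) (fun l => p * D.eb l ^ (p - 1) * D.al l + 3 * 4 ^ p * √D.eta) (fun l => pow_nonneg (n3 l) q) hκ
        hD.d1_nonneg (hD.cen1 e p q κ hp hpq hd hκ)
        (fun l => add_nonneg (mul_nonneg (mul_nonneg (Nat.cast_nonneg _) (pow_nonneg (n3 l) _)) (n4 l)) (by positivity))
        fun e l h1 h2 => l8u_alias_pow hD e h1 h2 p).trans ?_
      have hBn : 0 ≤ ∑ l ∈ Ico D.tY D.ti, D.dv l * D.eb l ^ q * (p * D.eb l ^ (p - 1) * D.al l + 3 * 4 ^ p * √D.eta) :=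
        Finset.sum_nonneg fun l _ => mul_nonneg (mul_nonneg (n1 l) (pow_nonneg (n3 l) q))
          (add_nonneg (mul_nonneg (mul_nonneg (Nat.cast_nonneg _) (pow_nonneg (n3 l) _)) (n4 l)) (by positivity))
      refine pow_le_pow_left₀ (add_nonneg hD.d1_nonneg (mul_nonneg (by norm_num) hBn)) ?_ 2
      show _ ≤ D.d1 + 2 * (D.dmax * D.N.a1 + 3 * 4 ^ D.dmax * √D.eta * D.N.ms)
      have hpR : (p : ℝ) ≤ (D.dmax : ℝ) := by
        have : p ≤ D.dmax := by omega
        exact_mod_cast this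
      have m2 : ∑ l ∈ Ico D.tY D.ti, D.dv l * D.eb l ^ q * (p * D.eb l ^ (p - 1) * D.al l + 3 * 4 ^ p * √D.eta)
          ≤ D.dmax * D.N.a1 + 3 * 4 ^ D.dmax * √D.eta * D.N.ms := by
        have t1 : ∀ l ∈ Ico D.tY D.ti, D.dv l * D.eb l ^ q * (p * D.eb l ^ (p - 1) * D.al l + 3 * 4 ^ p * √D.eta)
            ≤ D.dmax * (D.dv l * D.eb l * D.al l) + 3 * 4 ^ D.dmax * √D.eta * D.dv l := by
          intro l _
          have u1 : D.eb l ^ q * D.eb l ^ (p - 1) ≤ D.eb l := by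
            rw [← pow_add]
            calc D.eb l ^ (q + (p - 1)) ≤ D.eb l ^ 1 := pow_le_pow_of_le_one (n3 l) (hD.eb_le l) (by omega)
              _ = D.eb l := pow_one _
          have u2 : D.eb l ^ q ≤ 1 := pow_le_one₀ (n3 l) (hD.eb_le l)
          have u3 : (4:ℝ) ^ p ≤ 4 ^ D.dmax := pow_le_pow_right₀ (by norm_num) (by omega)
          have v1 : (p : ℝ) * (D.eb l ^ q * D.eb l ^ (p - 1)) ≤ D.dmax * D.eb l :=
            mul_le_mul hpR u1 (mul_nonneg (pow_nonneg (n3 l) _) (pow_nonneg (n3 l) _)) (Nat.cast_nonneg _)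
          have v2 : D.eb l ^ q * (4:ℝ) ^ p ≤ 1 * 4 ^ D.dmax := mul_le_mul u2 u3 (by positivity) zero_le_one
          have w1 := mul_le_mul_of_nonneg_right v1 (mul_nonneg (n1 l) (n4 l))
          have w2 := mul_le_mul_of_nonneg_right v2 (mul_nonneg (mul_nonneg (by norm_num : (0:ℝ) ≤ 3) hs0) (n1 l))
          calc D.dv l * D.eb l ^ q * (p * D.eb l ^ (p - 1) * D.al l + 3 * 4 ^ p * √D.eta)
              = (p : ℝ) * (D.eb l ^ q * D.eb l ^ (p - 1)) * (D.dv l * D.al l) + D.eb l ^ q * (4:ℝ) ^ p * (3 * √D.eta * D.dv l) := by ring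
            _ ≤ D.dmax * D.eb l * (D.dv l * D.al l) + 1 * 4 ^ D.dmax * (3 * √D.eta * D.dv l) := add_le_add w1 w2
            _ = D.dmax * (D.dv l * D.eb l * D.al l) + 3 * 4 ^ D.dmax * √D.eta * D.dv l := by ring
        refine (Finset.sum_le_sum t1).trans ?_
        rw [Finset.sum_add_distrib, ← Finset.mul_sum, ← Finset.mul_sum]
        refine add_le_add (mul_le_mul_of_nonneg_left ?_ (Nat.cast_nonneg _)) le_rfl
        exact Finset.sum_le_sum_of_subset_of_nonneg (fun _ hl => Finset.mem_range.2 (Finset.mem_Ico.1 hl).2)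
          fun l _ _ => mul_nonneg (mul_nonneg (n1 l) (n3 l)) (n4 l)
      linarith }

end inst

end Claimed.Agent.R286
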