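import Claimed.Agent.R286.L08.LsFit
import Claimed.Agent.R286.L08.LsT2

/-!
# Row 286 (S0533), folder L08, file LsT3 : (D16), SECOND conclusion, LAYER B: from the BAND FORM of the low-region statistics of the two ensembles to `L8uD.Ok` and to the gain      (owner helper225; design helper297; prefix `l8u_` / `L8u`)

TEX[LL:lem:statistics-low-sources], second conclusion.      ABSTRACT pair of single paths `P : Bool → L8P Ω m` (`false` untilted, `true` tilted), FINE level, NON-asymptotic.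

    L8uB P S R js jm  --(U1 + U2: l8u_D_ok)-->  (l8uD P S R js).Ok P  --(L08/LsT2: l8u_in_ok)-->  (l8uIn P D).Ok T
    L8uB P S R js jm  --(U3: l8u_N_ok)-->  D.N.Ok S (4 Lo) C1 R0 R1 Bd rr  --(U4: l8u_gain)-->  (l8uIn P D).gain ≤ ..

* `L8uB` = `L8lfB (P false) S R` (62 / 59: the untilted band form) + the TILTED fields on the ACTIVE cuts (`js < k`): (D2) refined, (D7) line 2, (D9), + (D10) in BOTH ensembles centred at the UNTILTED mean.
* `l8uD` = the numbers: levels, dyads, envelope of 62 (`L08/LsFit.lean` sec. 1);  `al l² = mm false l + mm true l` (SUM of the two ensembles);  `d0, dw, d1` = sums over the dyads above `Y` of the costs of (D10).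
PROTOCOL: every `sorry` is ONE LEAF with a named PROVER (U1 = 225, U2 = 71, U3 + U4 = 280): replace ONLY your sorry, helpers just above it, land directly.   A false or awkward statement: one line to helper225.
-/

set_option autoImplicit false

namespace Claimed.Agent.R286

open MeasureTheory Finset

section abs
variable {Ω : Type} [MeasurableSpace Ω] {m : ℕ}

/-- **band form of the two ensembles** -/
structure L8uB (P : Bool → L8P Ω m) (S : L13Scales) (R : L8lfR) (js jm : ℕ) : Prop where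
  /-- the untilted ensemble (59: `l8lq_B_of_full`) -/
  base : L8lfB (P false) S R
  ok : ∀ e, (P e).Ok
  d_jm : R.dmax ≤ jm
  /-- the masked levels have a mass `< x` -/
  js_x : ∀ l ≤ js, (P false).v l < S.x
  /-- (D1)/(D2): `S ≲ v + Y` -/
  s_le : ∀ k ≤ (P false).n, (P false).S k ≤ R.A * ((P false).v k + S.Y)
  /-- (D2), second line, tilted, active cuts -/
  ref_X : ∀ r, 1 ≤ r → r ≤ R.pm → ∀ k ≤ (P false).n, js < k → (P false).v k ≤ R.vt →
    ∫ ω, ((P true).nX k ω - R.q k) ^ (2 * r) ∂(P true).μ ≤ (R.A * R.e k) ^ (2 * r)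
  ref_L : ∀ r, 1 ≤ r → r ≤ R.pm → ∀ k ≤ (P false).n, js < k → (P false).v k ≤ R.vt →
    ∫ ω, (2 * (P true).L k ω - R.q k) ^ (2 * r) ∂(P true).μ ≤ (R.A * R.e k) ^ (2 * r)
  ref_Q : ∀ r, 1 ≤ r → r ≤ R.pm → ∀ k ≤ (P false).n, js < k → (P false).v k ≤ R.vt →
    ∫ p, ((P true).Q p - R.q k) ^ (2 * r) ∂(P true).fork k ≤ (R.A * R.e k) ^ (2 * r)
  /-- (D7), second line, tilted -/
  d7_C : ∀ r, S.Y ≤ r → r ≤ R.vt →
    ∑ k ∈ (P false).l8lfI r (2 * r), (P false).dv k * ∫ ω, ((P true).xCx k ω + (P true).trC2 k ω) ∂(P true).μ ≤ R.A * r * (S.z0 r ^ 2 * r ^ 2)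
  /-- (D9), tilted, about the UNTILTED mean -/
  d9_Q : ∀ w, 0 < w → w ≤ 2 * S.Y →
    ∑ k ∈ (P false).l8lfI (max w S.x) (2 * w), (P false).dv k * ∫ p, ((P true).Q p - (P false).S k) ^ 2 ∂(P true).fork k
      ≤ R.A * S.Y * (S.x ^ 3 * √S.Y / (√S.lam1 * max w S.U ^ (3 / 2 : ℝ)))
  /-- (D10), both ensembles, centred at the UNTILTED mean -/
  d10 : ∀ e r, S.Y ≤ r → r ≤ R.vt → ∀ j, 1 ≤ j → j ≤ jm → ∀ c : ℕ → ℕ → ℝ, (∀ i ≤ j, ∀ k ≤ (P false).n, |c i k| ≤ R.e k ^ (j - i)) →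
    ∫ ω, (∑ k ∈ (P false).l8lfI r (2 * r), (P false).dv k * (∑ i ∈ range (j + 1), c i k * (2 * (P e).L k ω - (P false).S k) ^ i
        - ∫ ω', ∑ i ∈ range (j + 1), c i k * (2 * (P false).L k ω' - (P false).S k) ^ i ∂(P false).μ)) ^ 2 ∂(P e).μ
      ≤ (R.A * r * (S.z0 r * r * (if j = 1 then 1 else S.Y ^ 2 / r * r ^ (j - 2)))) ^ 2

/-- second moment of the replacement of a stochastic factor by the ancestor value, ensemble `e`: raw levels / alias levels -/
noncomputable def l8uMm (P : Bool → L8P Ω m) (S : L13Scales) (R : L8lfR) (js : ℕ) (e : Bool) (l : ℕ) : ℝ :=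
  if l < (P false).l8lfTY S.Y R.ti then
    ∫ p, ((if e then (if js < l then (1 : ℝ) else 0) else 1) * (P e).Q p - (P false).S l) ^ 2 ∂(P e).fork l
  else 4 * ∫ ω, (P e).xCx l ω ∂(P e).μ + ∫ ω, (P e).trC2 l ω ∂(P e).μ

end abs

/-- the cost of (D10) on one dyad, degree `1` -/
noncomputable def l8uC0 (S : L13Scales) (R : L8lfR) (b : Fin (l8lfNb S.Y R.vt)) : ℝ :=
  R.A * l8lfRr S R b * (S.z0 (l8lfRr S R b) * l8lfRr S R b)

/-- the cost of (D10) on one dyad, degree `≥ 2` -/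
noncomputable def l8uC1 (S : L13Scales) (R : L8lfR) (b : Fin (l8lfNb S.Y R.vt)) : ℝ :=
  R.A * l8lfRr S R b * (S.z0 (l8lfRr S R b) * l8lfRr S R b * (S.Y ^ 2 / l8lfRr S R b))

section abs
variable {Ω : Type} [MeasurableSpace Ω] {m : ℕ}

/-- **the numbers of the two-ensemble instance** -/
noncomputable def l8uD (P : Bool → L8P Ω m) (S : L13Scales) (R : L8lfR) (js : ℕ) : L8uD where
  js := js
  tY := (P false).l8lfTY S.Y R.ti
  ti := R.ti
  dv := (P false).dv
  v := (P false).v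
  a := (P false).a
  S0 := (P false).S
  eb := fun l => min 1 (R.A' * |R.e l|)
  al := fun l => √(l8uMm P S R js false l + l8uMm P S R js true l)
  eta := R.eta
  dmax := R.dmax
  d0 := ∑ b, l8uC0 S R b
  d1 := ∑ b, R.A' ^ R.dmax * l8uC1 S R b
  dw := ∑ b, 2 * l8lfRr S R b * l8uC0 S R b

end abs

theorem l8u_t3_eqns_cite : True := by
  have := @l8uMm.eq_1
  have := @l8uC0.eq_1
  have := @l8uC1.eq_1
  have := @l8uD.eq_1
  trivial

/-! ## U3, U4: generic forms (one path `P`, ANY alias cost `al`; numbers only)      (helper280) -/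

section gen
variable {Ω : Type} [MeasurableSpace Ω] {m : ℕ} {P : L8P Ω m} {S : L13Scales} {R : L8lfR}

/-- N2, generic: one dyad of `[x, Y]`, any `g ≥ 0` with TWICE the (D9) band bound -/
theorem l8u_g_d9_dy (hP : P.Ok) (H : L8lfB P S R) (g : ℕ → ℝ) (hg : ∀ k, 0 ≤ g k) {w : ℝ} (h1 : S.x ≤ w)
    (hd9 : ∑ k ∈ P.l8lfI w (2 * w), P.dv k * g k ≤ 2 * (R.A * S.Y * (S.x ^ 3 * √S.Y / (√S.lam1 * max w S.U ^ (3 / 2 : ℝ))))) :
    S.Y * ∑ k ∈ P.l8lfI w (2 * w), P.dv k * √(g k) ≤ 2 * R.A * l8lcT S (l8lfC1 S) := by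
  have hx := S.hx
  have hY := S.Y_pos
  have hw : 0 < w := lt_of_lt_of_le hx h1
  have hA := H.hA
  have hT := l8lc_T_pos (S := S) (l8lfC1 S)
  have hsum : ∑ k ∈ P.l8lfI w (2 * w), P.dv k * (1 : ℝ) ^ 2 ≤ 2 * w := by
    simp only [one_pow, mul_one]
    exact P.l8lf_sum_dv_le hP _ (by linarith) fun l hl => (Finset.mem_filter.1 hl).2.2
  have hsq : ∑ k ∈ P.l8lfI w (2 * w), P.dv k * √(g k) ^ 2
      ≤ 2 * (R.A * S.Y * (S.x ^ 3 * √S.Y / (√S.lam1 * max w S.U ^ (3 / 2 : ℝ)))) := by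
    refine le_trans (le_of_eq ?_) hd9
    exact Finset.sum_congr rfl fun k _ => by rw [Real.sq_sqrt (hg k)]
  have hnum := l8lf_d9_num H.hS hw
  have hcs := l8lc_cs (P.l8lfI w (2 * w)) P.dv (fun _ => (1 : ℝ)) (fun k => √(g k)) (fun k _ => P.l8c_dv_nonneg hP k) hsum hsq
    (c := 2 * R.A * l8lcT S (l8lfC1 S) / S.Y) (by positivity) (by
      rw [div_pow, le_div_iff₀ (by positivity)]
      calc 2 * w * (2 * (R.A * S.Y * (S.x ^ 3 * √S.Y / (√S.lam1 * max w S.U ^ (3 / 2 : ℝ))))) * S.Y ^ 2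
          = 4 * R.A * (S.Y ^ 2 * (w * (S.Y * (S.x ^ 3 * √S.Y / (√S.lam1 * max w S.U ^ (3 / 2 : ℝ)))))) := by ring
        _ ≤ 4 * R.A * l8lcT S (l8lfC1 S) ^ 2 := by gcongr
        _ ≤ (2 * R.A) * (2 * R.A) * l8lcT S (l8lfC1 S) ^ 2 := by
            have : 4 * R.A ≤ (2 * R.A) * (2 * R.A) := by nlinarith
            gcongr
        _ = (2 * R.A * l8lcT S (l8lfC1 S)) ^ 2 := by ring)
  simp only [one_mul] at hcs
  rw [le_div_iff₀ hY] at hcs
  linarith

/-- T1, generic: first moment consequence of (D9) for any `al ≤ √g` on `R1` -/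
theorem l8u_g_t_d9 (hP : P.Ok) (H : L8lfB P S R) (g : ℕ → ℝ) (hg : ∀ k, 0 ≤ g k)
    (hd9 : ∀ w, S.x ≤ w → w ≤ S.Y →
      ∑ k ∈ P.l8lfI w (2 * w), P.dv k * g k ≤ 2 * (R.A * S.Y * (S.x ^ 3 * √S.Y / (√S.lam1 * max w S.U ^ (3 / 2 : ℝ)))))
    (al : ℕ → ℝ) (hal : ∀ l ∈ P.l8lfR1 S R, al l ≤ √(g l)) :
    S.Y * ∑ l ∈ P.l8lfR1 S R, P.dv l * al l ≤ l8lfLo S R * l8lcT S (l8lfC1 S) := by
  have hx := S.hx
  have hY := S.Y_pos
  have hxY := l8lc_x_le_Y H.hS
  have hA := H.hA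
  have hA' := H.hA'
  have hT := l8lc_T_pos (S := S) (l8lfC1 S)
  set J := l8lfNb S.x S.Y with hJ
  set Bd : Fin J → Finset ℕ := fun j => P.l8lfI (S.x * 2 ^ (j : ℕ)) (2 * (S.x * 2 ^ (j : ℕ))) with hBd
  have hf : ∀ l, 0 ≤ P.dv l * √(g l) := fun l => mul_nonneg (P.l8c_dv_nonneg hP l) (Real.sqrt_nonneg _)
  have hsub : P.l8lfR1 S R ⊆ univ.biUnion Bd := by
    intro l hl
    obtain ⟨h1, h2⟩ := Finset.mem_filter.1 hl
    have h3 := Finset.mem_range.1 h1
    have hlt := P.l8lf_TY_lt h3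
    obtain ⟨b, hb, h4, h5⟩ := l8lf_dy_cover hx h2 hlt.le
    refine Finset.mem_biUnion.2 ⟨⟨b, hb⟩, Finset.mem_univ _, ?_⟩
    have hti := P.l8lf_TY_le S.Y R.ti
    have := H.ti_le
    exact Finset.mem_filter.2 ⟨Finset.mem_range.2 (by omega), h4, h5⟩
  have h0 : ∑ l ∈ P.l8lfR1 S R, P.dv l * al l ≤ ∑ l ∈ P.l8lfR1 S R, P.dv l * √(g l) :=
    Finset.sum_le_sum fun l hl => mul_le_mul_of_nonneg_left (hal l hl) (P.l8c_dv_nonneg hP l)
  have h1 : ∑ l ∈ P.l8lfR1 S R, P.dv l * √(g l) ≤ ∑ j, ∑ l ∈ Bd j, P.dv l * √(g l) :=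
    (Finset.sum_le_sum_of_subset_of_nonneg hsub fun l _ _ => hf l).trans (l8lc_biUnion_le Bd _ hf)
  have h2 : ∀ j : Fin J, S.Y * ∑ l ∈ Bd j, P.dv l * √(g l) ≤ 2 * R.A * l8lcT S (l8lfC1 S) := by
    intro j
    have h3 : S.x ≤ S.x * 2 ^ (j : ℕ) := by
      have : (1 : ℝ) ≤ 2 ^ (j : ℕ) := one_le_pow₀ (by norm_num)
      nlinarith
    exact l8u_g_d9_dy hP H g hg h3 (hd9 _ h3 (l8lf_dy_le hx hxY j.2))
  calc S.Y * ∑ l ∈ P.l8lfR1 S R, P.dv l * al l ≤ S.Y * ∑ j, ∑ l ∈ Bd j, P.dv l * √(g l) :=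
        mul_le_mul_of_nonneg_left (h0.trans h1) hY.le
    _ = ∑ j, S.Y * ∑ l ∈ Bd j, P.dv l * √(g l) := Finset.mul_sum _ _ _
    _ ≤ ∑ _j : Fin J, 2 * R.A * l8lcT S (l8lfC1 S) := Finset.sum_le_sum fun j _ => h2 j
    _ = J * (2 * R.A) * l8lcT S (l8lfC1 S) := by simp; ring
    _ ≤ l8lfLo S R * l8lcT S (l8lfC1 S) := by
        refine mul_le_mul_of_nonneg_right ?_ hT.le
        unfold l8lfLo
        rw [← hJ]
        have hJ0 : (0 : ℝ) ≤ J := Nat.cast_nonneg _
        have h4 : 1 ≤ R.A' ^ 2 := one_le_pow₀ (by linarith)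
        have h5 : 2 * R.A ≤ 4 * R.A' ^ 2 * R.A := by nlinarith
        calc (J : ℝ) * (2 * R.A) ≤ (J + 1) * (4 * R.A' ^ 2 * R.A) := by
              apply mul_le_mul (by linarith) h5 (by linarith) (by linarith)
          _ = 4 * R.A' ^ 2 * R.A * (J + 1) := by ring

/-- **the band inputs of the table, generic alias cost** `al`: raw bound below `x`, first moment consequence of (D9) on `[x, Y)`, (D7) line 2 on the dyads; `ew = 0` -/
theorem l8u_g_N_ok (hP : P.Ok) (H : L8lfB P S R) (al : ℕ → ℝ) (hal : ∀ l, 0 ≤ al l)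
    (hr0 : ∀ l ∈ P.l8lfR0 S R, al l ≤ 2 * l8lfLo S R * S.Y)
    (hd9 : S.Y * ∑ l ∈ P.l8lfR1 S R, P.dv l * al l ≤ 2 * l8lfLo S R * l8lcT S (l8lfC1 S))
    (ha2 : ∀ b, ∑ l ∈ P.l8lfBd S R b, P.dv l * al l ^ 2 ≤ 2 * l8lfLo S R * (l8lfRr S R b * (S.z0 (l8lfRr S R b) * l8lfRr S R b) ^ 2)) :
    (⟨P.l8lfTY S.Y R.ti, R.ti, P.dv, fun l => P.v l / P.a, fun l => min 1 (R.A' * |R.e l|), al, fun _ => 0⟩ : L8lcN).Ok S
      (2 * l8lfLo S R) (l8lfC1 S) (P.l8lfR0 S R) (P.l8lfR1 S R) (P.l8lfBd S R) (l8lfRr S R) := by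
  have K := l8lf_N_ok hP H 0
  have hLo : 1 ≤ l8lfLo S R := K.hLo
  have hY := S.Y_pos
  have hx := S.hx
  have hr : ∀ b, 0 < l8lfRr S R b := fun b => lt_of_lt_of_le hY (K.rY b)
  have up : ∀ {a c : ℝ}, 0 ≤ c → a ≤ l8lfLo S R * c → a ≤ 2 * l8lfLo S R * c := by
    intro a c hc h
    have : 0 ≤ l8lfLo S R * c := mul_nonneg (by linarith) hc
    linarith
  exact
  { hLo := by linarith
    le := K.le
    mu_nonneg := K.mu_nonneg
    vv_nonneg := K.vv_nonneg
    eb_nonneg := K.eb_nonneg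
    al_nonneg := hal
    ew_nonneg := fun _ => le_rfl
    low := K.low
    high := K.high
    m0 := K.m0
    v0 := fun l hl => up hx.le (K.v0 l hl)
    e0 := fun l hl => up hY.le (K.e0 l hl)
    r0 := hr0
    m1 := up hY.le K.m1
    v1 := fun l hl => up hY.le (K.v1 l hl)
    e1 := fun l hl => up hY.le (K.e1 l hl)
    d9 := hd9
    rY := K.rY
    r1 := K.r1
    mb := fun b => up (hr b).le (K.mb b)
    vb := fun b l hl => up (hr b).le (K.vb b l hl)
    e2 := fun b => up (by have := hr b; positivity) (K.e2 b)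
    a2 := ha2
    w0 := fun b => by
      have := hr b
      have hz := S.z0_pos this
      simp only [mul_zero, Finset.sum_const_zero]
      positivity
    w1 := fun b => by
      have := hr b
      have hz := S.z0_pos this
      simp only [mul_zero, Finset.sum_const_zero]
      positivity }

end gen

section gain
variable {S : L13Scales} {N : L8lcN} {β : Type} [Fintype β] {Lo C1 : ℝ} {R0 R1 : Finset ℕ} {Bd : β → Finset ℕ} {rr : β → ℝ}

/-- **the gain of the two-ensemble table, numbers only**: alias part `l8lc_alias_le`; the centred costs `d0, dw, d1` = sums over the dyads of the (D10) bounds -/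
theorem l8u_g_gain (h : L8lcOk S) (H : N.Ok S Lo C1 R0 R1 Bd rr) {Cs : ℝ} (h1 : S.s ≤ Cs) (h2 : C1 ≤ Cs) (h3 : (1 + S.eta) / 2 ≤ Cs)
    {A Ap eta : ℝ} (hA0 : 0 ≤ A) (hA : A ≤ Lo) (hAp : 1 ≤ Ap) (hms : N.ms ≤ 1) (d : ℕ) {d0 d1 dw : ℝ}
    (hd0 : d0 ≤ ∑ b, A * (rr b * (S.z0 (rr b) * rr b)))
    (hdw : dw ≤ ∑ b, 2 * A * (rr b * rr b * (S.z0 (rr b) * rr b)))
    (hd1 : d1 ≤ ∑ b, Ap ^ d * A * (rr b * (S.z0 (rr b) * rr b) * (S.Y ^ 2 / rr b))) :
    max (N.a1 + 2 * (d1 + 2 * (d * N.a1 + 3 * 4 ^ d * √eta * N.ms)))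
        (max (N.av + 2 * (dw + 2 * N.av)) ((N.a0 + 2 * (d0 + 2 * N.a0)) * N.E1))
      ≤ (11 + 4 * d + 12 * 4 ^ d) * (Ap ^ d * l8lcM S Lo Cs (Fintype.card β) + √eta) := by
  obtain ⟨A1, A2, A3⟩ := l8lc_alias_le h H h1 h2 h3
  have hLo1 := H.hLo
  have hLo : 0 ≤ Lo := by linarith
  set n : ℝ := (Fintype.card β : ℝ) with hn
  have hn0 : 0 ≤ n := Nat.cast_nonneg _
  set Ts := l8lcT S Cs with hTs
  have hTs0 : 0 < Ts := l8lc_T_pos Cs
  have hG := l8lc_G_pos (S := S)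
  have t3 : l8lcG S ≤ Ts := l8lc_G_le.trans (l8lc_T_mono h h3)
  have hM : l8lcM S Lo Cs (Fintype.card β) = Lo ^ 3 * (2 + n) ^ 2 * Ts := rfl
  set M := l8lcM S Lo Cs (Fintype.card β) with hMd
  have hM0 : 0 ≤ M := by rw [hM]; positivity
  have hY := S.Y_pos
  have hr : ∀ b, 0 < rr b := fun b => lt_of_lt_of_le hY (H.rY b)
  have hLo2 : Lo ≤ Lo ^ 2 := by nlinarith
  have hLo3 : Lo ^ 2 ≤ Lo ^ 3 := by nlinarith [sq_nonneg Lo]
  have hn2 : n ≤ (2 + n) ^ 2 := by nlinarith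
  have hE1 : 0 ≤ N.E1 := Finset.sum_nonneg fun l _ => mul_nonneg (H.mu_nonneg l) (H.eb_nonneg l)
  have hms0 : 0 ≤ N.ms := Finset.sum_nonneg fun l _ => H.mu_nonneg l
  have hse := Real.sqrt_nonneg eta
  have hApd : 1 ≤ Ap ^ d := one_le_pow₀ hAp
  have hd0' : (0 : ℝ) ≤ d := Nat.cast_nonneg _
  have h4d : (1 : ℝ) ≤ 4 ^ d := one_le_pow₀ (by norm_num)
  -- `A n G ≤ M`
  have kAG : A * (n * l8lcG S) ≤ M := by
    rw [hM]
    calc A * (n * l8lcG S) ≤ Lo ^ 3 * ((2 + n) ^ 2 * Ts) :=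
          mul_le_mul (hA.trans (hLo2.trans hLo3)) (mul_le_mul hn2 t3 hG.le (by positivity)) (by positivity) (by positivity)
      _ = _ := by ring
  -- sole
  have kw : dw ≤ 2 * M := by
    refine hdw.trans ?_
    have : ∑ b, 2 * A * (rr b * rr b * (S.z0 (rr b) * rr b)) = ∑ _b : β, 2 * A * l8lcG S :=
      Finset.sum_congr rfl fun b _ => by rw [l8lc_sole (hr b)]
    rw [this]
    simp only [Finset.sum_const, Finset.card_univ, nsmul_eq_mul]
    rw [← hn]
    linarith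
  -- tied
  have k1 : d1 ≤ Ap ^ d * M := by
    refine hd1.trans ?_
    have : ∑ b, Ap ^ d * A * (rr b * (S.z0 (rr b) * rr b) * (S.Y ^ 2 / rr b)) ≤ ∑ _b : β, Ap ^ d * A * l8lcG S := by
      refine Finset.sum_le_sum fun b _ => mul_le_mul_of_nonneg_left ?_ (by positivity)
      have := l8lc_tied (S := S) (H.rY b) (H.r1 b) 0
      rwa [pow_zero, mul_one] at this
    refine this.trans ?_
    simp only [Finset.sum_const, Finset.card_univ, nsmul_eq_mul]
    rw [← hn]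
    calc n * (Ap ^ d * A * l8lcG S) = Ap ^ d * (A * (n * l8lcG S)) := by ring
      _ ≤ Ap ^ d * M := mul_le_mul_of_nonneg_left kAG (by positivity)
  -- distinct
  have k0 : d0 * N.E1 ≤ M := by
    have e1 := l8lc_E1_le h H
    rw [← hn] at e1
    have s0 : (∑ b, A * (rr b * (S.z0 (rr b) * rr b))) * S.Y ^ 2 ≤ n * (A * (l8lcG S * S.Y)) := by
      rw [Finset.sum_mul]
      have : ∑ b, A * (rr b * (S.z0 (rr b) * rr b)) * S.Y ^ 2 ≤ ∑ _b : β, A * (l8lcG S * S.Y) := by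
        refine Finset.sum_le_sum fun b _ => ?_
        rw [mul_assoc]
        exact mul_le_mul_of_nonneg_left (l8lc_dist (S := S) (H.rY b)) hA0
      refine this.trans (le_of_eq ?_)
      simp only [Finset.sum_const, Finset.card_univ, nsmul_eq_mul]
      rfl
    have sn : 0 ≤ ∑ b, A * (rr b * (S.z0 (rr b) * rr b)) :=
      Finset.sum_nonneg fun b _ => by
        have := hr b
        have := S.z0_pos this
        positivity
    calc d0 * N.E1 ≤ (∑ b, A * (rr b * (S.z0 (rr b) * rr b))) * N.E1 := mul_le_mul_of_nonneg_right hd0 hE1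
      _ ≤ (∑ b, A * (rr b * (S.z0 (rr b) * rr b))) * (Lo ^ 2 * (2 + n) * S.Y ^ 2) := mul_le_mul_of_nonneg_left e1 sn
      _ = Lo ^ 2 * (2 + n) * ((∑ b, A * (rr b * (S.z0 (rr b) * rr b))) * S.Y ^ 2) := by ring
      _ ≤ Lo ^ 2 * (2 + n) * (n * (A * (l8lcG S * S.Y))) := mul_le_mul_of_nonneg_left s0 (by positivity)
      _ = (A * Lo ^ 2) * ((2 + n) * n) * (l8lcG S * S.Y) := by ring
      _ ≤ (Lo * Lo ^ 2) * ((2 + n) * (2 + n)) * (Ts * 1) := by
          have := h.Y_le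
          gcongr
          linarith
      _ = M := by rw [hM]; ring
  have kM : M ≤ Ap ^ d * M := by nlinarith
  generalize Ap ^ d * M = X at *
  generalize (4 : ℝ) ^ d = F at *
  generalize √eta = s at *
  generalize (d : ℝ) = D at *
  have kt : F * s * N.ms ≤ F * s := by
    have : 0 ≤ F * s := mul_nonneg (by linarith) hse
    nlinarith
  have hX : 0 ≤ X := hM0.trans kM
  have hdX : 0 ≤ D * X := mul_nonneg hd0' hX
  have h4X : 0 ≤ F * X := mul_nonneg (by linarith) hX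
  have hdS : 0 ≤ D * s := mul_nonneg hd0' hse
  have hFs : 0 ≤ F * s := mul_nonneg (by linarith) hse
  have hda1 : D * N.a1 ≤ D * X := mul_le_mul_of_nonneg_left (A1.trans kM) hd0'
  have eR : (11 + 4 * D + 12 * F) * (X + s) = 11 * X + 4 * (D * X) + 12 * (F * X) + 11 * s + 4 * (D * s) + 12 * (F * s) := by ring
  rw [eR]
  refine max_le ?_ (max_le ?_ ?_)
  · have : N.a1 + 2 * (d1 + 2 * (D * N.a1 + 3 * F * s * N.ms)) = N.a1 + 2 * d1 + 4 * (D * N.a1) + 12 * (F * s * N.ms) := by ring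
    rw [this]
    linarith
  · linarith
  · have : (N.a0 + 2 * (d0 + 2 * N.a0)) * N.E1 = 5 * (N.a0 * N.E1) + 2 * (d0 * N.E1) := by ring
    rw [this]
    linarith

end gain

section thms
variable {Ω : Type} [MeasurableSpace Ω] {m : ℕ} {P : Bool → L8P Ω m} {S : L13Scales} {R : L8lfR} {js jm : ℕ}

/-! ## U1. Moments, tails, means in both ensembles      (PROVER helper225) -/

/-- (D2) refined, both ensembles, active cuts -/
theorem l8u_ref_X (H : L8uB P S R js jm) (e : Bool) {r : ℕ} (h1 : 1 ≤ r) (h2 : r ≤ R.pm) {k : ℕ} (hk : k ≤ (P false).n) (ha : e = true → js < k)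
    (hv : (P false).v k ≤ R.vt) : ∫ ω, ((P e).nX k ω - R.q k) ^ (2 * r) ∂(P e).μ ≤ (R.A * R.e k) ^ (2 * r) := by
  cases e
  · exact H.base.ref_X r h1 h2 k hk hv
  · exact H.ref_X r h1 h2 k hk (ha rfl) hv

theorem l8u_ref_L (H : L8uB P S R js jm) (e : Bool) {r : ℕ} (h1 : 1 ≤ r) (h2 : r ≤ R.pm) {k : ℕ} (hk : k ≤ (P false).n) (ha : e = true → js < k)
    (hv : (P false).v k ≤ R.vt) : ∫ ω, (2 * (P e).L k ω - R.q k) ^ (2 * r) ∂(P e).μ ≤ (R.A * R.e k) ^ (2 * r) := by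
  cases e
  · exact H.base.ref_L r h1 h2 k hk hv
  · exact H.ref_L r h1 h2 k hk (ha rfl) hv

theorem l8u_ref_Q (H : L8uB P S R js jm) (e : Bool) {r : ℕ} (h1 : 1 ≤ r) (h2 : r ≤ R.pm) {k : ℕ} (hk : k ≤ (P false).n) (ha : e = true → js < k)
    (hv : (P false).v k ≤ R.vt) : ∫ p, ((P e).Q p - R.q k) ^ (2 * r) ∂(P e).fork k ≤ (R.A * R.e k) ^ (2 * r) := by
  cases e
  · have h := H.base.ref_Q r h1 h2 k hk hv (max k ((P false).n + 1)) (max k ((P false).n + 1)) (le_max_left _ _) (le_max_left _ _)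
    have hn : (P false).n < max k ((P false).n + 1) := lt_of_lt_of_le (Nat.lt_succ_self _) (le_max_right _ _)
    simpa only [(P false).l8lf_QX_term (H.ok false) hn hn] using h
  · exact H.ref_Q r h1 h2 k hk (ha rfl) hv

/-- moments about the UNTILTED mean -/
theorem l8u_mom_X (H : L8uB P S R js jm) (e : Bool) {r : ℕ} (h1 : 1 ≤ r) (h2 : r ≤ R.pm) {k : ℕ} (hk : k ≤ (P false).n) (ha : e = true → js < k)
    (hv : (P false).v k ≤ R.vt) : ∫ ω, ((P e).nX k ω - (P false).S k) ^ (2 * r) ∂(P e).μ ≤ (2 * (R.A * R.e k)) ^ (2 * r) := by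
  have := (H.ok e).prob
  exact l8lf_recentre (P e).μ ((P e).l8s_nX_bd_aux (H.ok e) k).1 ((P e).l8s_nX_bd_aux (H.ok e) k).2 r h1 (l8lf_Ae_nonneg H.base hk)
    (H.base.f_le k hk hv) (l8u_ref_X H e h1 h2 hk ha hv)

theorem l8u_mom_L (H : L8uB P S R js jm) (e : Bool) {r : ℕ} (h1 : 1 ≤ r) (h2 : r ≤ R.pm) {k : ℕ} (hk : k ≤ (P false).n) (ha : e = true → js < k)
    (hv : (P false).v k ≤ R.vt) : ∫ ω, (2 * (P e).L k ω - (P false).S k) ^ (2 * r) ∂(P e).μ ≤ (2 * (R.A * R.e k)) ^ (2 * r) := by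
  have := (H.ok e).prob
  have hb := ((P e).l8s_L_bd (H.ok e) k).const_mul 2
  exact l8lf_recentre (P e).μ (f := fun ω => 2 * (P e).L k ω) hb.1 hb.2 r h1 (l8lf_Ae_nonneg H.base hk) (H.base.f_le k hk hv)
    (l8u_ref_L H e h1 h2 hk ha hv)

theorem l8u_mom_Q (H : L8uB P S R js jm) (e : Bool) {r : ℕ} (h1 : 1 ≤ r) (h2 : r ≤ R.pm) {k : ℕ} (hk : k ≤ (P false).n) (ha : e = true → js < k)
    (hv : (P false).v k ≤ R.vt) : ∫ p, ((P e).Q p - (P false).S k) ^ (2 * r) ∂(P e).fork k ≤ (2 * (R.A * R.e k)) ^ (2 * r) := by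
  have := (P e).l8s_fork_prob (H.ok e) k
  exact l8lf_recentre ((P e).fork k) ((P e).l8s_fork_Q_bd_aux (H.ok e)).1 ⟨1, ((P e).l8s_fork_Q_bd_aux (H.ok e)).2⟩ r h1 (l8lf_Ae_nonneg H.base hk)
    (H.base.f_le k hk hv) (l8u_ref_Q H e h1 h2 hk ha hv)

/-- the alias levels are active -/
theorem l8u_act (H : L8uB P S R js jm) {l : ℕ} (h1 : (P false).l8lfTY S.Y R.ti ≤ l) (h2 : l < R.ti) : js < l := by
  by_contra hc
  have h3 := H.js_x l (not_lt.1 hc)
  have h4 := (P false).l8lf_TY_ge (H.ok false) h1 h2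
  have h5 := l8lc_x_le_Y H.base.hS
  linarith

/-- a level of mass `≥ x` is active -/
theorem l8u_act_x (H : L8uB P S R js jm) {l : ℕ} (h : S.x ≤ (P false).v l) : js < l := by
  by_contra hc
  have h3 := H.js_x l (not_lt.1 hc)
  linarith

theorem l8u_mm_nonneg (H : L8uB P S R js jm) (e : Bool) (l : ℕ) : 0 ≤ l8uMm P S R js e l := by
  unfold l8uMm
  by_cases h : l < (P false).l8lfTY S.Y R.ti
  · rw [if_pos h]
    exact integral_nonneg fun _ => sq_nonneg _
  · rw [if_neg h]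
    have h1 := (P e).l8c_xCx_nonneg (H.ok e) l
    have h2 := (P e).l8c_trC2_nonneg l
    linarith

theorem l8u_mm_le (H : L8uB P S R js jm) (e : Bool) (l : ℕ) : l8uMm P S R js e l ≤ (l8uD P S R js).al l ^ 2 := by
  show _ ≤ √(l8uMm P S R js false l + l8uMm P S R js true l) ^ 2
  rw [Real.sq_sqrt (add_nonneg (l8u_mm_nonneg H false l) (l8u_mm_nonneg H true l))]
  cases e
  · linarith [l8u_mm_nonneg H true l]
  · linarith [l8u_mm_nonneg H false l]

/-- a masked level: `S ≤ 2 A Y` -/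
theorem l8u_S_masked (H : L8uB P S R js jm) {l : ℕ} (hl : l ≤ (P false).n) (hv : (P false).v l ≤ S.Y) : (P false).S l ≤ 2 * (R.A * R.e l) := by
  have h1 := H.s_le l hl
  rw [H.base.e_low l hl hv]
  have hA := H.base.hA
  nlinarith

theorem l8u_C0_nonneg (H : L8lfB (P false) S R) (b : Fin (l8lfNb S.Y R.vt)) : 0 ≤ l8uC0 S R b := by
  obtain ⟨h1, -, -, -⟩ := l8lf_t_rr H b
  have := S.z0_pos h1
  have := H.hA
  unfold l8uC0
  positivity

theorem l8u_C1_nonneg (H : L8lfB (P false) S R) (b : Fin (l8lfNb S.Y R.vt)) : 0 ≤ l8uC1 S R b := by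
  obtain ⟨h1, -, -, -⟩ := l8lf_t_rr H b
  have := S.z0_pos h1
  have := H.hA
  have := S.Y_pos
  unfold l8uC1
  positivity

/-! ## U2. The centred path sums from (D10): disjoint pieces of the dyads + Minkowski      (PROVER helper71) -/

/-- the text of (D10) in both ensembles, centred at the untilted mean, band form -/
def L8uD10 (P : Bool → L8P Ω m) (S : L13Scales) (R : L8lfR) (jm : ℕ) : Prop :=
  ∀ e r, S.Y ≤ r → r ≤ R.vt → ∀ j, 1 ≤ j → j ≤ jm → ∀ c : ℕ → ℕ → ℝ, (∀ i ≤ j, ∀ k ≤ (P false).n, |c i k| ≤ R.e k ^ (j - i)) →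
    ∫ ω, (∑ k ∈ (P false).l8lfI r (2 * r), (P false).dv k * (∑ i ∈ range (j + 1), c i k * (2 * (P e).L k ω - (P false).S k) ^ i
        - ∫ ω', ∑ i ∈ range (j + 1), c i k * (2 * (P false).L k ω' - (P false).S k) ^ i ∂(P false).μ)) ^ 2 ∂(P e).μ
      ≤ (R.A * r * (S.z0 r * r * (if j = 1 then 1 else S.Y ^ 2 / r * r ^ (j - 2)))) ^ 2

/-- the cost of one dyad in (D10) -/
noncomputable def l8uB10 (S : L13Scales) (R : L8lfR) (j : ℕ) (r : ℝ) : ℝ :=
  R.A * r * (S.z0 r * r * (if j = 1 then 1 else S.Y ^ 2 / r * r ^ (j - 2)))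

/-- **one dyad, one power** -/
theorem l8u_band_gen {P : Bool → L8P Ω m} {S : L13Scales} {R : L8lfR} {jm : ℕ} (hPf : (P false).Ok)
    (hepos : ∀ k ≤ (P false).n, 0 < R.e k) (hd10 : L8uD10 P S R jm)
    (e : Bool) {r : ℝ} (h1 : S.Y ≤ r) (h2 : r ≤ R.vt) {p j : ℕ} (hp : 1 ≤ p) (hpj : p ≤ j) (hj : j ≤ jm)
    (K : Finset ℕ) (hK : K ⊆ (P false).l8lfI r (2 * r)) (κ : ℕ → ℝ) {sc : ℝ} (hsc : 0 ≤ sc)
    (hκ : ∀ l ∈ K, |κ l| ≤ (P false).dv l * (sc * R.e l ^ (j - p))) :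
    ∫ ω, (∑ l ∈ K, κ l * ((2 * (P e).L l ω - (P false).S l) ^ p - ∫ ω', (2 * (P false).L l ω' - (P false).S l) ^ p ∂(P false).μ)) ^ 2 ∂(P e).μ
      ≤ (sc * l8uB10 S R j r) ^ 2 := by
  classical
  rcases eq_or_lt_of_le hsc with h0 | h0
  · have hz : ∀ l ∈ K, κ l = 0 := fun l hl => by
      have := hκ l hl
      rw [← h0, zero_mul, mul_zero] at this
      exact abs_nonpos_iff.1 this
    have : ∀ ω, ∑ l ∈ K, κ l * ((2 * (P e).L l ω - (P false).S l) ^ p - ∫ ω', (2 * (P false).L l ω' - (P false).S l) ^ p ∂(P false).μ) = 0 :=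
      fun ω => Finset.sum_eq_zero fun l hl => by rw [hz l hl, zero_mul]
    simp only [this]
    simp [← h0]
  · set c : ℕ → ℕ → ℝ := fun i k => if i = p ∧ k ∈ K then κ k / (P false).dv k / sc else 0 with hc
    have hn : ∀ k ∈ K, k ≤ (P false).n := fun k hk =>
      Nat.lt_succ_iff.1 (Finset.mem_range.1 (Finset.mem_filter.1 (hK hk)).1)
    have hcb : ∀ i ≤ j, ∀ k ≤ (P false).n, |c i k| ≤ R.e k ^ (j - i) := by
      intro i _ k hk
      have he := (hepos k hk).le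
      by_cases h : i = p ∧ k ∈ K
      · simp only [hc, if_pos h]
        obtain ⟨rfl, hkK⟩ := h
        have hdv := (P false).l8c_dv_nonneg hPf k
        have h3 := hκ k hkK
        rcases eq_or_lt_of_le hdv with hd | hd
        · rw [← hd]; simp [pow_nonneg he]
        · rw [abs_div, abs_div, abs_of_pos hd, abs_of_pos h0, div_le_iff₀ h0, div_le_iff₀ hd]
          calc |κ k| ≤ (P false).dv k * (sc * R.e k ^ (j - i)) := h3
            _ = R.e k ^ (j - i) * sc * (P false).dv k := by ring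
      · simp only [hc, if_neg h, abs_zero]
        exact pow_nonneg he _
    have key := hd10 e r h1 h2 j (hp.trans hpj) hj c hcb
    have hsum : ∀ (k : ℕ) (θ : ℝ), ∑ i ∈ range (j + 1), c i k * θ ^ i = (if k ∈ K then κ k / (P false).dv k / sc else 0) * θ ^ p := by
      intro k θ
      rw [Finset.sum_eq_single p]
      · simp [hc]
      · intro i _ hi
        simp [hc, hi]
      · intro h
        exact absurd (Finset.mem_range.2 (Nat.lt_succ_of_le hpj)) h
    simp only [hsum, integral_const_mul] at key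
    have e1 : ∀ ω, ∑ l ∈ K, κ l * ((2 * (P e).L l ω - (P false).S l) ^ p - ∫ ω', (2 * (P false).L l ω' - (P false).S l) ^ p ∂(P false).μ)
        = sc * ∑ k ∈ (P false).l8lfI r (2 * r), (P false).dv k * ((if k ∈ K then κ k / (P false).dv k / sc else 0) * (2 * (P e).L k ω - (P false).S k) ^ p
          - (if k ∈ K then κ k / (P false).dv k / sc else 0) * ∫ ω', (2 * (P false).L k ω' - (P false).S k) ^ p ∂(P false).μ) := by
      intro ω
      rw [Finset.mul_sum, ← Finset.sum_subset hK]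
      · refine Finset.sum_congr rfl fun l hl => ?_
        rw [if_pos hl]
        have hdv := (P false).l8c_dv_nonneg hPf l
        rcases eq_or_lt_of_le hdv with hd | hd
        · have h3 := hκ l hl
          rw [← hd, zero_mul] at h3
          rw [abs_nonpos_iff.1 h3, ← hd]
          simp
        · field_simp
      · intro k _ hk
        rw [if_neg hk]
        simp
    simp only [e1, mul_pow]
    rw [integral_const_mul]
    exact mul_le_mul_of_nonneg_left key (sq_nonneg _)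

theorem l8u_u2_eqns_cite : True := by
  have := @L8uD10.eq_1
  have := @l8uB10.eq_1
  trivial

theorem l8u_B10_nonneg {S : L13Scales} {R : L8lfR} (hA : 0 ≤ R.A) (j : ℕ) {r : ℝ} (hr : 0 < r) : 0 ≤ l8uB10 S R j r := by
  unfold l8uB10
  have h1 := (S.z0_pos hr).le
  have h2 := S.Y_pos.le
  split_ifs <;> positivity

/-- **the centred path sum over the alias levels**: fiberwise split along a chosen dyad + Minkowski -/
theorem l8u_cs_gen {P : Bool → L8P Ω m} {S : L13Scales} {R : L8lfR} {jm : ℕ} (D : L8uD) (hP : ∀ e, (P e).Ok)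
    (hepos : ∀ k ≤ (P false).n, 0 < R.e k) (hA : 0 ≤ R.A) (hd10 : L8uD10 P S R jm) (hS0 : ∀ l, D.S0 l = (P false).S l)
    (hcov : Ico D.tY D.ti ⊆ univ.biUnion ((P false).l8lfBd S R))
    (hr : ∀ b, S.Y ≤ l8lfRr S R b ∧ l8lfRr S R b ≤ R.vt)
    (e : Bool) {p j : ℕ} (hp : 1 ≤ p) (hpj : p ≤ j) (hj : j ≤ jm) (κ : ℕ → ℝ) (sc : Fin (l8lfNb S.Y R.vt) → ℝ) (hsc : ∀ b, 0 ≤ sc b)
    (hκ : ∀ b, ∀ l ∈ (P false).l8lfBd S R b, l ∈ Ico D.tY D.ti → |κ l| ≤ (P false).dv l * (sc b * R.e l ^ (j - p))) :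
    ∫ ω, l8uCs P D e p κ ω ^ 2 ∂(P e).μ ≤ (∑ b, sc b * l8uB10 S R j (l8lfRr S R b)) ^ 2 := by
  classical
  have := (hP e).prob
  set β : ℕ → Option (Fin (l8lfNb S.Y R.vt)) := fun l => if h : ∃ b, l ∈ (P false).l8lfBd S R b then some h.choose else none with hβ
  have hβs : ∀ l b, β l = some b → l ∈ (P false).l8lfBd S R b := by
    intro l b h
    simp only [hβ] at h
    split_ifs at h with h'
    · have := h'.choose_spec
      rw [Option.some.inj h] at this
      exact this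
  have hβn : ∀ l ∈ Ico D.tY D.ti, β l ≠ none := by
    intro l hl h
    simp only [hβ] at h
    split_ifs at h with h'
    obtain ⟨b, -, hb⟩ := Finset.mem_biUnion.1 (hcov hl)
    exact h' ⟨b, hb⟩
  set f : ℕ → Ω → ℝ := fun l ω => κ l * ((2 * (P e).L l ω - (P false).S l) ^ p - ∫ ω', (2 * (P false).L l ω' - (P false).S l) ^ p ∂(P false).μ) with hf
  have e0 : ∀ ω, l8uCs P D e p κ ω = ∑ b, ∑ l ∈ (Ico D.tY D.ti).filter (fun l => β l = some b), f l ω := by
    intro ω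
    have h1 : l8uCs P D e p κ ω = ∑ l ∈ Ico D.tY D.ti, f l ω := by
      unfold l8uCs l8uTh
      simp only [hS0, hf]
    rw [h1, ← Finset.sum_fiberwise (Ico D.tY D.ti) β, Fintype.sum_option]
    have h2 : (Ico D.tY D.ti).filter (fun l => β l = none) = ∅ := by
      rw [Finset.filter_eq_empty_iff]
      exact hβn
    rw [h2, Finset.sum_empty, zero_add]
  simp only [e0]
  have hfb : ∀ l, L8Bd (f l) := fun l =>
    (((((P e).l8s_L_bd (hP e) l).const_mul 2).sub (l8Bd_const _)).pow p |>.sub (l8Bd_const _)).const_mul _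
  refine L8P.l8lc_h_mink (P e).μ _ _ _ (fun b _ => L8Bd.sum _ fun l _ => hfb l)
    (fun b _ => mul_nonneg (hsc b) (l8u_B10_nonneg hA j (lt_of_lt_of_le S.Y_pos (hr b).1))) (fun b _ => ?_)
  refine l8u_band_gen (hP false) hepos hd10 e (hr b).1 (hr b).2 hp hpj hj _ ?_ κ (hsc b) ?_
  · intro l hl
    exact hβs l b (Finset.mem_filter.1 hl).2
  · intro l hl
    exact hκ b l (hβs l b (Finset.mem_filter.1 hl).2) (Finset.mem_filter.1 hl).1


/-- U2a: one dyad, one power `p ≤ j`, coefficients `≤ sc e^(j-p)`.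
ROUTE: `H.d10 e (rr b) .. j .. (fun i k => if i = p then c k / sc else 0)` (`l8lf_t_rr` for `Y ≤ rr b ≤ vt` and `Bd b = I (rr b) (2 rr b)`; for `i ≠ p`: `0 ≤ e k ^ _` by `H.base.e_pos`, `k ≤ n`);
`∑ i ∈ range (j + 1), (if i = p ..) * θ^i = c k / sc * θ^p` (`Finset.sum_eq_single p`), `integral_const_mul`; the integrand is `sc⁻¹ *` ours. -/
theorem l8u_band (H : L8uB P S R js jm) (e : Bool) (b : Fin (l8lfNb S.Y R.vt)) {j p : ℕ} (hp : 1 ≤ p) (hpj : p ≤ j) (hj : j ≤ jm) (c : ℕ → ℝ) {sc : ℝ}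
    (hsc : 0 < sc) (hc : ∀ k ≤ (P false).n, |c k| ≤ sc * R.e k ^ (j - p)) :
    ∫ ω, (∑ k ∈ (P false).l8lfBd S R b, (P false).dv k * (c k * ((2 * (P e).L k ω - (P false).S k) ^ p
        - ∫ ω', (2 * (P false).L k ω' - (P false).S k) ^ p ∂(P false).μ))) ^ 2 ∂(P e).μ
      ≤ (sc * (R.A * l8lfRr S R b * (S.z0 (l8lfRr S R b) * l8lfRr S R b *
          (if j = 1 then 1 else S.Y ^ 2 / l8lfRr S R b * l8lfRr S R b ^ (j - 2))))) ^ 2 := by
  have hrr := l8lf_t_rr H.base b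
  have key := l8u_band_gen (H.ok false) H.base.e_pos H.d10 e hrr.2.1 hrr.2.2.1 hp hpj hj ((P false).l8lfBd S R b) (by rw [hrr.2.2.2])
    (fun k => (P false).dv k * c k) hsc.le (fun l hl => by
      have hl' : l ≤ (P false).n := Nat.lt_succ_iff.1 (Finset.mem_range.1 (Finset.mem_filter.1 hl).1)
      have hdv := (P false).l8c_dv_nonneg (H.ok false) l
      rw [abs_mul, abs_of_nonneg hdv]
      exact mul_le_mul_of_nonneg_left (hc l hl') hdv)
  have e1 : ∀ ω, ∑ k ∈ (P false).l8lfBd S R b, (P false).dv k * (c k * ((2 * (P e).L k ω - (P false).S k) ^ p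
        - ∫ ω', (2 * (P false).L k ω' - (P false).S k) ^ p ∂(P false).μ))
      = ∑ k ∈ (P false).l8lfBd S R b, (P false).dv k * c k * ((2 * (P e).L k ω - (P false).S k) ^ p
        - ∫ ω', (2 * (P false).L k ω' - (P false).S k) ^ p ∂(P false).μ) :=
    fun ω => Finset.sum_congr rfl fun k _ => (mul_assoc _ _ _).symm
  simp only [e1]
  exact key

/-- U2b: the whole sum.   ROUTE: choose for every `l ∈ Ico tY ti` a dyad `bOf l` which contains it (`l8lf_t_high`; `Fin nb` is nonempty: `nb = log .. + 1`); `Finset.sum_fiberwise`;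
`c_b k = if k ∈ Ico tY ti ∧ bOf k = b then κ k / dv k else 0` (`dv k * (κ k / dv k) = κ k`: as in `L8P.l8lc_h_wt`); U2a on each dyad; Minkowski `L8P.l8lc_h_mink` over `b`. -/
theorem l8u_cs_le (H : L8uB P S R js jm) (e : Bool) {j p : ℕ} (hp : 1 ≤ p) (hpj : p ≤ j) (hj : j ≤ jm) (κ : ℕ → ℝ) (sc : Fin (l8lfNb S.Y R.vt) → ℝ)
    (hsc : ∀ b, 0 < sc b)
    (hκ : ∀ b, ∀ l ∈ (P false).l8lfBd S R b, l < R.ti → |κ l| ≤ (P false).dv l * (sc b * R.e l ^ (j - p))) :
    ∫ ω, l8uCs P (l8uD P S R js) e p κ ω ^ 2 ∂(P e).μ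
      ≤ (∑ b, sc b * (R.A * l8lfRr S R b * (S.z0 (l8lfRr S R b) * l8lfRr S R b *
          (if j = 1 then 1 else S.Y ^ 2 / l8lfRr S R b * l8lfRr S R b ^ (j - 2))))) ^ 2 := by
  exact l8u_cs_gen (l8uD P S R js) H.ok H.base.e_pos (zero_le_one.trans H.base.hA) H.d10 (fun _ => rfl) (l8lf_t_high (H.ok false) H.base)
    (fun b => ⟨(l8lf_t_rr H.base b).2.1, (l8lf_t_rr H.base b).2.2.1⟩) e hp hpj hj κ sc (fun b => (hsc b).le)
    (fun b l hl hI => hκ b l hl (Finset.mem_Ico.1 hI).2)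

/-- U2c (`j = p = 1`, `sc = 1`) -/
theorem l8u_cen0 (H : L8uB P S R js jm) (hjm : 1 ≤ jm) (e : Bool) (κ : ℕ → ℝ) (hκ : ∀ l, |κ l| ≤ (P false).dv l) :
    ∫ ω, l8uCs P (l8uD P S R js) e 1 κ ω ^ 2 ∂(P e).μ ≤ (∑ b, l8uC0 S R b) ^ 2 := by
  have key := l8u_cs_le H e (j := 1) (p := 1) le_rfl le_rfl hjm κ (fun _ => 1) (fun _ => one_pos) (fun b l _ _ => by simpa using hκ l)
  refine key.trans (le_of_eq ?_)
  congr 1
  refine Finset.sum_congr rfl fun b _ => ?_
  simp [l8uC0]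

/-- U2d (`j = p = 1`, `sc b = 2 rr b`: `v l / a ≤ 2 rr b` on the dyad `b`, `a ≥ 1`) -/
theorem l8u_cenv (H : L8uB P S R js jm) (hjm : 1 ≤ jm) (e : Bool) (κ : ℕ → ℝ) (hκ : ∀ l, |κ l| ≤ (P false).dv l * ((P false).v l / (P false).a)) :
    ∫ ω, l8uCs P (l8uD P S R js) e 1 κ ω ^ 2 ∂(P e).μ ≤ (∑ b, 2 * l8lfRr S R b * l8uC0 S R b) ^ 2 := by
  have key := l8u_cs_le H e (j := 1) (p := 1) le_rfl le_rfl hjm κ (fun b => 2 * l8lfRr S R b)
    (fun b => mul_pos two_pos (l8lf_t_rr H.base b).1) (fun b l hl _ => by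
      have hdv := (P false).l8c_dv_nonneg (H.ok false) l
      have hv : (P false).v l ≤ 2 * l8lfRr S R b := (Finset.mem_filter.1 hl).2.2
      have h1 : (P false).v l / (P false).a ≤ (P false).v l := div_le_self ((H.ok false).v_nonneg l) H.base.a_ge
      refine (hκ l).trans (mul_le_mul_of_nonneg_left ?_ hdv)
      simpa using h1.trans hv)
  refine key.trans (le_of_eq ?_)
  congr 1
  refine Finset.sum_congr rfl fun b _ => ?_
  simp [l8uC0]

/-- U2e (`j = p + q`, `sc = A'^dmax`: `eb ≤ A' e` (`l8lf_eb_le`), `A'^q ≤ A'^dmax`; `rr b ^ (j - 2) ≤ 1`) -/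
theorem l8u_cen1 (H : L8uB P S R js jm) (e : Bool) (p q : ℕ) (κ : ℕ → ℝ) (hp : 1 ≤ p) (hpq : 2 ≤ p + q) (hd : p + q ≤ R.dmax)
    (hκ : ∀ l, |κ l| ≤ (P false).dv l * (min 1 (R.A' * |R.e l|)) ^ q) :
    ∫ ω, l8uCs P (l8uD P S R js) e p κ ω ^ 2 ∂(P e).μ ≤ (∑ b, R.A' ^ R.dmax * l8uC1 S R b) ^ 2 := by
  have hA'1 : 1 ≤ R.A' := by linarith [H.base.hA, H.base.hA']
  have hA'0 : 0 < R.A' := by linarith
  have hsc0 : 0 < R.A' ^ R.dmax := pow_pos hA'0 _
  have key := l8u_cs_le H e (j := p + q) (p := p) hp (Nat.le_add_right _ _) (hd.trans H.d_jm) κ (fun _ => R.A' ^ R.dmax)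
    (fun _ => hsc0) (fun b l hl _ => by
      have hl' : l ≤ (P false).n := Nat.lt_succ_iff.1 (Finset.mem_range.1 (Finset.mem_filter.1 hl).1)
      have hdv := (P false).l8c_dv_nonneg (H.ok false) l
      have he := (H.base.e_pos l hl').le
      refine (hκ l).trans (mul_le_mul_of_nonneg_left ?_ hdv)
      rw [Nat.add_sub_cancel_left]
      calc (min 1 (R.A' * |R.e l|)) ^ q ≤ (R.A' * R.e l) ^ q := pow_le_pow_left₀ (l8lf_eb_nonneg H.base l) (l8lf_eb_le H.base hl') q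
        _ = R.A' ^ q * R.e l ^ q := mul_pow _ _ _
        _ ≤ R.A' ^ R.dmax * R.e l ^ q :=
          mul_le_mul_of_nonneg_right (pow_le_pow_right₀ hA'1 (by omega)) (pow_nonneg he q))
  refine key.trans (pow_le_pow_left₀ (Finset.sum_nonneg fun b _ => mul_nonneg hsc0.le
    (l8u_B10_nonneg (zero_le_one.trans H.base.hA) (p + q) (l8lf_t_rr H.base b).1)) (Finset.sum_le_sum fun b _ =>
      mul_le_mul_of_nonneg_left ?_ hsc0.le) 2)
  obtain ⟨h1, h2, h3, -⟩ := l8lf_t_rr H.base b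
  have hz := (S.z0_pos h1).le
  have hY := S.Y_pos.le
  have hA := zero_le_one.trans H.base.hA
  unfold l8uB10 l8uC1
  rw [if_neg (by omega)]
  have h4 : l8lfRr S R b ^ (p + q - 2) ≤ 1 := pow_le_one₀ h1.le (h3.trans H.base.vt_le)
  have h5 : S.Y ^ 2 / l8lfRr S R b * l8lfRr S R b ^ (p + q - 2) ≤ S.Y ^ 2 / l8lfRr S R b :=
    mul_le_of_le_one_right (by positivity) h4
  gcongr

/-! ## U1 (end). The hypotheses of the two-ensemble instance -/

/-- **the hypotheses of the two-ensemble instance** -/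
theorem l8u_D_ok (H : L8uB P S R js jm) : (l8uD P S R js).Ok P where
  hP := H.ok
  le1 := (P false).l8lf_TY_le _ _
  act := fun l h1 h2 => l8u_act H h1 h2
  a_pos := (H.ok false).a_pos
  dv_nonneg := (P false).l8c_dv_nonneg (H.ok false)
  v_nonneg := (H.ok false).v_nonneg
  v_le := fun l => by
    have h := (H.ok false).v_mono (le_max_left l (P false).n)
    rw [(H.ok false).v_term _ (le_max_right _ _)] at h
    exact h
  S0_nonneg := (P false).l8s_S_nonneg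
  S0_le := (P false).l8s_S_le_one (H.ok false)
  eb_nonneg := l8lf_eb_nonneg H.base
  eb_le := fun _ => min_le_left _ _
  al_nonneg := fun _ => Real.sqrt_nonneg _
  eta_nonneg := le_trans ((even_two_mul R.pm).pow_nonneg _) H.base.tail
  d0_nonneg := by
    show 0 ≤ ∑ b, l8uC0 S R b
    exact Finset.sum_nonneg fun b _ => l8u_C0_nonneg H.base b
  d1_nonneg := by
    show 0 ≤ ∑ b, R.A' ^ R.dmax * l8uC1 S R b
    exact Finset.sum_nonneg fun b _ => mul_nonneg (pow_nonneg (l8lf_A'_pos H.base).le _) (l8u_C1_nonneg H.base b)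
  dw_nonneg := by
    show 0 ≤ ∑ b, 2 * l8lfRr S R b * l8uC0 S R b
    exact Finset.sum_nonneg fun b _ => mul_nonneg (mul_nonneg (by norm_num) (l8lf_t_rr H.base b).1.le) (l8u_C0_nonneg H.base b)
  raw := fun e l hl => by
    replace hl : l < (P false).l8lfTY S.Y R.ti := hl
    have h := l8u_mm_le H e l
    unfold l8uMm at h
    rw [if_pos hl] at h
    exact h
  ali := fun e l h1 _ => by
    replace h1 : (P false).l8lfTY S.Y R.ti ≤ l := h1
    have h := l8u_mm_le H e l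
    unfold l8uMm at h
    rw [if_neg (not_lt.2 h1)] at h
    exact h
  tailX := fun e l h1 h2 => by
    have := (H.ok e).prob
    have hl := l8lf_le_n H.base h2
    have hb := ((P e).l8s_nX_bd_aux (H.ok e) l).sub (l8Bd_const ((P false).S l))
    show (P e).μ.real {ω | min 1 (R.A' * |R.e l|) < |(P e).nX l ω - (P false).S l|} ≤ R.eta
    rw [l8lf_eb_low H.base h2]
    exact l8lf_tail (P e).μ hb.1 hb.2 R.pm (H.base.e_pos l hl) (l8lf_A'_pos H.base)
      (l8u_mom_X H e (H.base.d_pos.trans H.base.d_le) le_rfl hl (fun _ => l8u_act H h1 h2) (H.base.low_v l h2)) H.base.tail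
  tailL := fun e l h1 h2 => by
    have := (H.ok e).prob
    have hl := l8lf_le_n H.base h2
    have hb := (((P e).l8s_L_bd (H.ok e) l).const_mul 2).sub (l8Bd_const ((P false).S l))
    show (P e).μ.real {ω | min 1 (R.A' * |R.e l|) < |2 * (P e).L l ω - (P false).S l|} ≤ R.eta
    rw [l8lf_eb_low H.base h2]
    exact l8lf_tail (P e).μ hb.1 hb.2 R.pm (H.base.e_pos l hl) (l8lf_A'_pos H.base)
      (l8u_mom_L H e (H.base.d_pos.trans H.base.d_le) le_rfl hl (fun _ => l8u_act H h1 h2) (H.base.low_v l h2)) H.base.tail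
  tailF := fun e l h2 => by
    have := (P e).l8s_fork_prob (H.ok e) l
    have hl := l8lf_le_n H.base h2
    have heta : 0 ≤ R.eta := le_trans ((even_two_mul R.pm).pow_nonneg _) H.base.tail
    show ((P e).fork l).real {p | min 1 (R.A' * |R.e l|) < |(if e then (if js < l then (1 : ℝ) else 0) else 1) * (P e).Q p - (P false).S l|} ≤ R.eta
    rw [l8lf_eb_low H.base h2]
    by_cases hm : e = true ∧ l ≤ js
    · -- masked: the factor is the number `- S`
      obtain ⟨he, hj⟩ := hm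
      have hv : (P false).v l ≤ S.Y := (H.js_x l hj).le.trans (l8lc_x_le_Y H.base.hS)
      have h3 := l8u_S_masked H hl hv
      have h4 := (P false).l8s_S_nonneg l
      have h5 : 2 * (R.A * R.e l) ≤ R.A' * R.e l := by
        have := mul_le_mul_of_nonneg_right H.base.hA' (H.base.e_pos l hl).le
        linarith
      have hemp : {p : Ω × Ω | R.A' * R.e l < |(if e then (if js < l then (1 : ℝ) else 0) else 1) * (P e).Q p - (P false).S l|} = ∅ := by
        ext p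
        simp only [he, if_true, if_neg (not_lt.2 hj), zero_mul, zero_sub, abs_neg, abs_of_nonneg h4, Set.mem_ofPred_eq,
          Set.mem_empty_iff_false, iff_false, not_lt]
        linarith
      rw [hemp]
      simpa using heta
    · have ha : e = true → js < l := fun he => by
        by_contra hc
        exact hm ⟨he, not_lt.1 hc⟩
      have e1 : (if e then (if js < l then (1 : ℝ) else 0) else 1) = 1 := by
        cases e
        · rfl
        · simp [ha rfl]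
      simp only [e1, one_mul]
      have hq := (P e).l8s_fork_Q_bd_aux (H.ok e)
      have hq' : L8Bd (P e).Q := ⟨hq.1, 1, hq.2⟩
      have hb : L8Bd fun p => (P e).Q p - (P false).S l := hq'.sub (l8Bd_const ((P false).S l))
      exact l8lf_tail ((P e).fork l) hb.1 hb.2 R.pm (H.base.e_pos l hl) (l8lf_A'_pos H.base)
        (l8u_mom_Q H e (H.base.d_pos.trans H.base.d_le) le_rfl hl ha (H.base.low_v l h2)) H.base.tail
  mean := fun e p l hp1 hp2 h1 h2 => by
    have := (H.ok e).prob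
    have hl := l8lf_le_n H.base h2
    have hb := ((P e).l8s_nX_bd_aux (H.ok e) l).sub (l8Bd_const ((P false).S l))
    show |∫ ω, ((P e).nX l ω - (P false).S l) ^ p ∂(P e).μ| ≤ (min 1 (R.A' * |R.e l|)) ^ p
    rw [l8lf_eb_low H.base h2]
    have he := (H.base.e_pos l hl).le
    have hA := H.base.hA
    have h5 := l8lc_mean_of_mom (P e).μ hb.1 hb.2 p (B := 2 * (R.A * R.e l))
      (by positivity) (l8u_mom_X H e hp1 (hp2.trans H.base.d_le) hl (fun _ => l8u_act H h1 h2) (H.base.low_v l h2))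
    refine h5.trans (pow_le_pow_left₀ (by positivity) ?_ p)
    calc 2 * (R.A * R.e l) = 2 * R.A * R.e l := by ring
      _ ≤ R.A' * R.e l := mul_le_mul_of_nonneg_right H.base.hA' he
  cen0 := fun e κ hκ => l8u_cen0 H (H.base.d_pos.trans H.d_jm) e κ hκ
  cenv := fun e κ hκ => l8u_cenv H (H.base.d_pos.trans H.d_jm) e κ hκ
  cen1 := fun e p q κ hp hpq hd hκ => l8u_cen1 H e p q κ hp hpq hd hκ

/-! ## U3. The band inputs of the cost table      (PROVER helper280) -/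

/-- U3a: first moment consequence of (D9) for ANY nonnegative `g` with the band bound of (D9) (generalisation of `l8lf_d9_dy` + `l8lf_t_d9` of 62 from `P.D2` to `g`; copy the two proofs) -/
theorem l8u_d9_gen (H : L8lfB (P false) S R) (hP : (P false).Ok) (g : ℕ → ℝ) (hg : ∀ k, 0 ≤ g k)
    (hd9 : ∀ w, 0 < w → w ≤ 2 * S.Y → ∑ k ∈ (P false).l8lfI (max w S.x) (2 * w), (P false).dv k * g k
      ≤ R.A * S.Y * (S.x ^ 3 * √S.Y / (√S.lam1 * max w S.U ^ (3 / 2 : ℝ)))) :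
    S.Y * ∑ l ∈ (P false).l8lfR1 S R, (P false).dv l * √(g l) ≤ l8lfLo S R * l8lcT S (l8lfC1 S) := by
  refine l8u_g_t_d9 hP H g hg (fun w h1 h2 => ?_) (fun l => √(g l)) fun _ _ => le_rfl
  have hw : 0 < w := lt_of_lt_of_le S.hx h1
  have h3 := hd9 w hw (by linarith [S.Y_pos])
  rw [max_eq_left h1] at h3
  have h4 : 0 ≤ ∑ k ∈ (P false).l8lfI w (2 * w), (P false).dv k * g k :=
    Finset.sum_nonneg fun k _ => mul_nonneg ((P false).l8c_dv_nonneg hP k) (hg k)
  linarith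

/-- U3b: raw levels, both ensembles: `mm e l ≤ (2 A Y)²` (active: `l8u_mom_Q` with `r = 1`; masked: `l8u_S_masked`; `e l = Y`: `e_low`, `l8lf_TY_lt`) -/
theorem l8u_mm_raw (H : L8uB P S R js jm) (e : Bool) {l : ℕ} (hl : l < (P false).l8lfTY S.Y R.ti) : l8uMm P S R js e l ≤ (2 * (R.A * S.Y)) ^ 2 := by
  have := (P e).l8s_fork_prob (H.ok e) l
  have hti : l < R.ti := lt_of_lt_of_le hl ((P false).l8lf_TY_le _ _)
  have hn := l8lf_le_n H.base hti
  have hv : (P false).v l < S.Y := (P false).l8lf_TY_lt hl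
  have he : R.e l = S.Y := H.base.e_low l hn hv.le
  unfold l8uMm
  rw [if_pos hl]
  by_cases hm : e = true ∧ l ≤ js
  · obtain ⟨he', hj⟩ := hm
    have h3 := l8u_S_masked H hn hv.le
    rw [he] at h3
    have h4 := (P false).l8s_S_nonneg l
    subst he'
    simp only [if_true, if_neg (not_lt.2 hj), zero_mul, zero_sub, integral_const, probReal_univ, smul_eq_mul, one_mul, even_two.neg_pow]
    exact pow_le_pow_left₀ h4 h3 2
  · have ha : e = true → js < l := fun he' => by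
      by_contra hc
      exact hm ⟨he', not_lt.1 hc⟩
    have e1 : (if e then (if js < l then (1 : ℝ) else 0) else 1) = 1 := by
      cases e
      · rfl
      · simp [ha rfl]
    simp only [e1, one_mul]
    have h5 := l8u_mom_Q H e (r := 1) le_rfl (H.base.d_pos.trans H.base.d_le) hn ha (H.base.low_v l hti)
    rw [he] at h5
    simpa using h5

/-- U3c: field `d9` (`√(a + b) ≤ √a + √b`: `l8lc_sqrt_add_le`; on `R1`: `mm false l = D2 l` (`l8s_fork_var_Q`) with `H.base.d9`, `mm true l = ∫ (Q - S)²` (`l8u_act_x`) with `H.d9_Q`; U3a twice) -/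
theorem l8u_t_d9 (H : L8uB P S R js jm) :
    S.Y * ∑ l ∈ (P false).l8lfR1 S R, (P false).dv l * (l8uD P S R js).al l ≤ 2 * l8lfLo S R * l8lcT S (l8lfC1 S) := by
  have hP := H.ok false
  have hT := l8lc_T_pos (S := S) (l8lfC1 S)
  have hLo : 0 ≤ l8lfLo S R := le_trans (by have := H.base.hA; have := l8lf_A'_pos H.base; positivity) (l8lf_Lo_ge H.base)
  set g : ℕ → ℝ := fun k => ∫ p, ((P false).Q p - (P false).S k) ^ 2 ∂(P false).fork k + ∫ p, ((P true).Q p - (P false).S k) ^ 2 ∂(P true).fork k with hg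
  have hg0 : ∀ k, 0 ≤ g k := fun k => add_nonneg (integral_nonneg fun _ => sq_nonneg _) (integral_nonneg fun _ => sq_nonneg _)
  have key := l8u_g_t_d9 hP H.base g hg0 (fun w h1 h2 => by
      have hw : 0 < w := lt_of_lt_of_le S.hx h1
      have h3 := H.base.d9 w hw (by linarith [S.Y_pos])
      have h4 := H.d9_Q w hw (by linarith [S.Y_pos])
      rw [max_eq_left h1] at h3 h4
      have e1 : ∑ k ∈ (P false).l8lfI w (2 * w), (P false).dv k * g k
          = ∑ k ∈ (P false).l8lfI w (2 * w), (P false).dv k * (P false).D2 k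
            + ∑ k ∈ (P false).l8lfI w (2 * w), (P false).dv k * ∫ p, ((P true).Q p - (P false).S k) ^ 2 ∂(P true).fork k := by
        rw [← Finset.sum_add_distrib]
        refine Finset.sum_congr rfl fun k _ => ?_
        rw [hg]
        simp only
        rw [(P false).l8s_fork_var_Q hP k]
        ring
      rw [e1]
      linarith) (l8uD P S R js).al (fun l hl => by
      obtain ⟨h1, h2⟩ := Finset.mem_filter.1 hl
      have h3 : l < (P false).l8lfTY S.Y R.ti := Finset.mem_range.1 h1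
      have h4 := l8u_act_x H h2
      show √(l8uMm P S R js false l + l8uMm P S R js true l) ≤ _
      unfold l8uMm
      rw [if_pos h3, if_pos h3]
      simp [hg, h4])
  refine key.trans ?_
  nlinarith [mul_nonneg hLo hT.le]

/-- U3d: field `a2` (on a dyad above `Y`: `tY ≤ l` (`l8lf_TY_lt`), `al² = mm false + mm true`, `4 E xCx + E trC2 ≤ 4 E (xCx + trC2)`, `H.base.d7_C` + `H.d7_C`; copy of `l8lf_t_a2`) -/
theorem l8u_t_a2 (H : L8uB P S R js jm) (b : Fin (l8lfNb S.Y R.vt)) :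
    ∑ l ∈ (P false).l8lfBd S R b, (P false).dv l * (l8uD P S R js).al l ^ 2
      ≤ 2 * l8lfLo S R * (l8lfRr S R b * (S.z0 (l8lfRr S R b) * l8lfRr S R b) ^ 2) := by
  obtain ⟨hr0, hrY, hrv, hBd⟩ := l8lf_t_rr H.base b
  rw [hBd]
  have h2 := H.base.d7_C _ hrY hrv
  have h2' := H.d7_C _ hrY hrv
  have h3 := (l8lf_t_Lo H.base).2.1
  have hz := S.z0_pos hr0
  have hbx : ∀ e l, L8Bd ((P e).xCx l) := fun e l =>
    L8Bd.sum _ fun i _ => L8Bd.sum _ fun j _ => (((P e).l8s_X_bd (H.ok e) l i).mul ((P e).l8s_W_bd_C (H.ok e) l i j)).mul ((P e).l8s_X_bd (H.ok e) l j)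
  have hbt : ∀ e l, L8Bd ((P e).trC2 l) := fun e l => L8Bd.sum _ fun i _ => L8Bd.sum _ fun j _ => ((P e).l8s_W_bd_C (H.ok e) l i j).pow 2
  have h1 : ∀ l ∈ (P false).l8lfI (l8lfRr S R b) (2 * l8lfRr S R b),
      (P false).dv l * (l8uD P S R js).al l ^ 2
        ≤ 4 * ((P false).dv l * ∫ ω, ((P false).xCx l ω + (P false).trC2 l ω) ∂(P false).μ)
          + 4 * ((P false).dv l * ∫ ω, ((P true).xCx l ω + (P true).trC2 l ω) ∂(P true).μ) := by
    intro l hl
    have hv : l8lfRr S R b ≤ (P false).v l := (Finset.mem_filter.1 hl).2.1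
    have hnl : ¬ l < (P false).l8lfTY S.Y R.ti := by
      intro hc
      have := (P false).l8lf_TY_lt (Y := S.Y) (ti := R.ti) hc
      linarith
    have hd := (P false).l8c_dv_nonneg (H.ok false) l
    have hmm : ∀ e, l8uMm P S R js e l ≤ 4 * ∫ ω, ((P e).xCx l ω + (P e).trC2 l ω) ∂(P e).μ := by
      intro e
      have := (H.ok e).prob
      have hx := (P e).l8c_xCx_nonneg (H.ok e) l
      have ht := (P e).l8c_trC2_nonneg l
      unfold l8uMm
      rw [if_neg hnl, integral_add ((hbx e l).integrable _) ((hbt e l).integrable _)]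
      linarith
    have e1 : (l8uD P S R js).al l ^ 2 = l8uMm P S R js false l + l8uMm P S R js true l :=
      Real.sq_sqrt (add_nonneg (l8u_mm_nonneg H false l) (l8u_mm_nonneg H true l))
    rw [e1]
    nlinarith [hmm false, hmm true]
  calc ∑ l ∈ (P false).l8lfI (l8lfRr S R b) (2 * l8lfRr S R b), (P false).dv l * (l8uD P S R js).al l ^ 2
      ≤ ∑ l ∈ (P false).l8lfI (l8lfRr S R b) (2 * l8lfRr S R b),
          (4 * ((P false).dv l * ∫ ω, ((P false).xCx l ω + (P false).trC2 l ω) ∂(P false).μ)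
          + 4 * ((P false).dv l * ∫ ω, ((P true).xCx l ω + (P true).trC2 l ω) ∂(P true).μ)) := Finset.sum_le_sum h1
    _ = 4 * ∑ l ∈ (P false).l8lfI (l8lfRr S R b) (2 * l8lfRr S R b), (P false).dv l * ∫ ω, ((P false).xCx l ω + (P false).trC2 l ω) ∂(P false).μ
        + 4 * ∑ l ∈ (P false).l8lfI (l8lfRr S R b) (2 * l8lfRr S R b), (P false).dv l * ∫ ω, ((P true).xCx l ω + (P true).trC2 l ω) ∂(P true).μ := by
        rw [Finset.sum_add_distrib, Finset.mul_sum, Finset.mul_sum]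
    _ ≤ 4 * (R.A * l8lfRr S R b * (S.z0 (l8lfRr S R b) ^ 2 * l8lfRr S R b ^ 2)) + 4 * (R.A * l8lfRr S R b * (S.z0 (l8lfRr S R b) ^ 2 * l8lfRr S R b ^ 2)) := by
        gcongr
    _ = 2 * (4 * R.A) * (l8lfRr S R b * (S.z0 (l8lfRr S R b) * l8lfRr S R b) ^ 2) := by ring
    _ ≤ 2 * l8lfLo S R * (l8lfRr S R b * (S.z0 (l8lfRr S R b) * l8lfRr S R b) ^ 2) :=
        mul_le_mul_of_nonneg_right (by linarith) (by positivity)

/-- **U3: the band inputs of the table** (all the fields which do not see `al` are those of `l8lf_N_ok (H.ok false) H.base 0`, monotone in `Lo`; `w0`, `w1`: `ew = 0`) -/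
theorem l8u_N_ok (H : L8uB P S R js jm) :
    (l8uD P S R js).N.Ok S (2 * l8lfLo S R) (l8lfC1 S) ((P false).l8lfR0 S R) ((P false).l8lfR1 S R) ((P false).l8lfBd S R) (l8lfRr S R) := by
  refine l8u_g_N_ok (H.ok false) H.base _ (fun _ => Real.sqrt_nonneg _) (fun l hl => ?_) (l8u_t_d9 H) (l8u_t_a2 H)
  have hl' : l < (P false).l8lfTY S.Y R.ti := Finset.mem_range.1 (Finset.mem_filter.1 hl).1
  have h1 := l8u_mm_raw H false hl'
  have h2 := l8u_mm_raw H true hl'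
  have h3 := (l8lf_t_Lo H.base).2.1
  have hA := H.base.hA
  have hY := S.Y_pos
  have h4 : 4 * R.A * S.Y ≤ 2 * l8lfLo S R * S.Y := mul_le_mul_of_nonneg_right (by linarith) hY.le
  refine le_trans (Real.sqrt_le_iff.2 ⟨by positivity, ?_⟩) h4
  nlinarith [sq_nonneg (R.A * S.Y)]

/-! ## U4. The gain      (PROVER helper280) -/

/-- U4a: the costs of (D10): `dw = 2 A nb G` (`l8lc_sole`), `d1 ≤ A'^dmax A nb G` (`l8lc_tied`, `n = 0`), `d0 Y² ≤ A nb G Y` (`l8lc_dist`) -/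
theorem l8u_d_le (H : L8lfB (P false) S R) :
    (∑ b, 2 * l8lfRr S R b * l8uC0 S R b) ≤ 2 * R.A * l8lfNb S.Y R.vt * l8lcG S ∧
    (∑ b, R.A' ^ R.dmax * l8uC1 S R b) ≤ R.A' ^ R.dmax * R.A * l8lfNb S.Y R.vt * l8lcG S ∧
    (∑ b, l8uC0 S R b) * S.Y ^ 2 ≤ R.A * l8lfNb S.Y R.vt * l8lcG S * S.Y := by
  have hA := H.hA
  have hA' := l8lf_A'_pos H
  have hr : ∀ b, 0 < l8lfRr S R b ∧ S.Y ≤ l8lfRr S R b ∧ l8lfRr S R b ≤ 1 := fun b => by
    obtain ⟨h1, h2, h3, -⟩ := l8lf_t_rr H b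
    exact ⟨h1, h2, h3.trans H.vt_le⟩
  refine ⟨?_, ?_, ?_⟩
  · have : ∑ b, 2 * l8lfRr S R b * l8uC0 S R b = ∑ _b : Fin (l8lfNb S.Y R.vt), 2 * R.A * l8lcG S :=
      Finset.sum_congr rfl fun b _ => by
        rw [← l8lc_sole (S := S) (hr b).1]
        unfold l8uC0
        ring
    rw [this]
    simp only [Finset.sum_const, Finset.card_univ, Fintype.card_fin, nsmul_eq_mul]
    exact le_of_eq (by ring)
  · have : ∑ b, R.A' ^ R.dmax * l8uC1 S R b ≤ ∑ _b : Fin (l8lfNb S.Y R.vt), R.A' ^ R.dmax * R.A * l8lcG S := by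
      refine Finset.sum_le_sum fun b _ => ?_
      have h := l8lc_tied (S := S) (hr b).2.1 (hr b).2.2 0
      rw [pow_zero, mul_one] at h
      unfold l8uC1
      calc R.A' ^ R.dmax * (R.A * l8lfRr S R b * (S.z0 (l8lfRr S R b) * l8lfRr S R b * (S.Y ^ 2 / l8lfRr S R b)))
          = R.A' ^ R.dmax * R.A * (l8lfRr S R b * (S.z0 (l8lfRr S R b) * l8lfRr S R b) * (S.Y ^ 2 / l8lfRr S R b)) := by ring
        _ ≤ R.A' ^ R.dmax * R.A * l8lcG S := mul_le_mul_of_nonneg_left h (by positivity)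
    refine this.trans (le_of_eq ?_)
    simp only [Finset.sum_const, Finset.card_univ, Fintype.card_fin, nsmul_eq_mul]
    ring
  · rw [Finset.sum_mul]
    have : ∑ b, l8uC0 S R b * S.Y ^ 2 ≤ ∑ _b : Fin (l8lfNb S.Y R.vt), R.A * (l8lcG S * S.Y) := by
      refine Finset.sum_le_sum fun b _ => ?_
      have h := l8lc_dist (S := S) (hr b).2.1
      unfold l8uC0
      calc R.A * l8lfRr S R b * (S.z0 (l8lfRr S R b) * l8lfRr S R b) * S.Y ^ 2
          = R.A * (l8lfRr S R b * (S.z0 (l8lfRr S R b) * l8lfRr S R b) * S.Y ^ 2) := by ring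
        _ ≤ R.A * (l8lcG S * S.Y) := mul_le_mul_of_nonneg_left h (by linarith)
    refine this.trans (le_of_eq ?_)
    simp only [Finset.sum_const, Finset.card_univ, Fintype.card_fin, nsmul_eq_mul]
    ring

/-- the constant of the gain -/
noncomputable def l8uCg (d : ℕ) : ℝ := 20 + 4 * d + 12 * 4 ^ d

/-- **U4: the gain**.   `gain = max (a1 + 2 c1) (max (av + 2 cv) ((a0 + 2 c0) E1))`, `c0 = d0 + 2 a0`, `cv = dw + 2 av`, `c1 = d1 + 2 (dmax a1 + 3·4^dmax √η ms)`;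
alias part: `l8lc_alias_le` (with `Lo' = 2 Lo`);  `E1 ≤ Lo'² (2 + nb) Y²` (`l8lc_E1_le`);  `G ≤ T((1+η)/2) ≤ T(Cs)` (`l8lc_G_le`, `l8lc_T_mono`);  `ms ≤ 1`;  `A, nb, .. ≤ Lo'³ (2 + nb)²`. -/
theorem l8u_gain (H : L8uB P S R js jm) :
    (l8uIn P (l8uD P S R js)).gain ≤ l8uCg R.dmax * (R.A' ^ R.dmax * l8lcM S (2 * l8lfLo S R) (l8lfCs S) (l8lfNb S.Y R.vt) + √R.eta) := by
  have hP := H.ok false
  have hN := l8u_N_ok H
  have hs := H.base.hS.s_nonneg
  have he := H.base.hS.eta_nonneg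
  have hA := H.base.hA
  have hA' := H.base.hA'
  have heta : 0 ≤ R.eta := le_trans ((even_two_mul R.pm).pow_nonneg _) H.base.tail
  have hms : (l8uD P S R js).N.ms ≤ 1 := by
    refine le_trans ?_ H.base.vt_le
    exact (P false).l8lf_sum_dv_le hP _ (le_trans S.Y_pos.le H.base.Y_le) fun l hl => H.base.low_v l (Finset.mem_Ico.1 hl).2
  have hLoA : R.A ≤ 2 * l8lfLo S R := by
    have := (l8lf_t_Lo H.base).2.2
    linarith
  have key := l8u_g_gain H.base.hS hN (Cs := l8lfCs S) (by unfold l8lfCs; linarith) (by unfold l8lfC1 l8lfCs; linarith)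
    (by unfold l8lfCs; linarith) (A := R.A) (Ap := R.A') (eta := R.eta) (by linarith) hLoA (by linarith) hms R.dmax
    (d0 := ∑ b, l8uC0 S R b) (d1 := ∑ b, R.A' ^ R.dmax * l8uC1 S R b) (dw := ∑ b, 2 * l8lfRr S R b * l8uC0 S R b)
    (le_of_eq (Finset.sum_congr rfl fun b _ => by unfold l8uC0; ring))
    (le_of_eq (Finset.sum_congr rfl fun b _ => by unfold l8uC0; ring))
    (le_of_eq (Finset.sum_congr rfl fun b _ => by unfold l8uC1; ring))
  rw [Fintype.card_fin] at key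
  refine le_trans key ?_
  have hLo : 0 ≤ l8lfLo S R := le_trans (by have := l8lf_A'_pos H.base; positivity) (l8lf_Lo_ge H.base)
  have hM0 : 0 ≤ l8lcM S (2 * l8lfLo S R) (l8lfCs S) (l8lfNb S.Y R.vt) := by
    unfold l8lcM
    have := l8lc_T_pos (S := S) (l8lfCs S)
    positivity
  have hX : 0 ≤ R.A' ^ R.dmax * l8lcM S (2 * l8lfLo S R) (l8lfCs S) (l8lfNb S.Y R.vt) + √R.eta :=
    add_nonneg (mul_nonneg (pow_nonneg (l8lf_A'_pos H.base).le _) hM0) (Real.sqrt_nonneg _)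
  refine mul_le_mul_of_nonneg_right ?_ hX
  unfold l8uCg
  linarith

end thms

theorem l8u_t3_eqns_cite2 : True := by
  have := @l8uCg.eq_1
  trivial

end Claimed.Agent.R286
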