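import Claimed.Agent.R286.L08.LsLk2
import Claimed.Agent.R286.L08.LsT3
import Claimed.Agent.R286.L08.LsFull
import Claimed.Agent.R286.L08.DList

/-!
# Row 286 (S0533), folder L08, file LsT2I : (D16), SECOND conclusion, THE SK SIDE at one instance `I : L8In`      (owner helper225; with helper297; head of the unit helper234; prefix `l8v_` / `L8v`)

TEX[LL:lem:statistics-low-sources], second conclusion.
* sec. 1  DICTIONARY, BOTH ensembles `tl`: the single path `I.sp tl` against the numbers of `L08/Defs.lean` (`n, a, v, dv, S, int, band, mo, moF, ex`), against the jet contexts `I.X tl` (`ov, msk, Sf`),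
          against the tree laws `l8tSk` of `L08/LsLk2.lean` (`μ`, `fork`), against the allocation masses (`l8lMu`).
* sec. 2  **`l8v_B_of_all`** : `I.All` (exports of `Exit/DLow`) + the stop + `I.Fine` ⟹ the band form `L8uB I.sp S R I.js jm` of `L08/LsT3.lean`, field by field (the untilted half = `l8lq_B_of_full` of helper59).
* sec. 4  NUMBERS of the exit (helper280): `L8In.l8lrG`, `l8lr_G_eq`, **`l8lr_num_gain`**, `l8lr_num_gain_K`, `l8lr_num_ok`.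
* sec. 3  **`l8v_fit`** : `L8TFit`;      **`l8v_ls2`** : (D16), second conclusion, at ONE instance, from `L8uB` (`l8t_link_sk` of helper297).

    exit_dlow  --(sec. 2)-->  L8uB I.sp S R I.js jm  --(LsT3: l8u_D_ok, l8u_gain; LsT2: l8u_in_ok)-->  L8TFit  --(l8t_link_sk)-->  L8_LS2 (I.X false) (I.X true) ti eb vv k n (K (gain + η))      --(Exit/D16b, helper71)-->  exit
-/

set_option autoImplicit false

namespace Claimed.Agent.R286

open MeasureTheory Finset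

/-! ## 1. Dictionary -/

section dic
variable (I : L8In)

theorem l8v_n (tl : Bool) : (I.sp tl).n = I.n := l8d_P_len I tl

theorem l8v_a (tl : Bool) : (I.sp tl).a = I.a := rfl

/-- the two ensembles have the same masses -/
theorem l8v_v (tl : Bool) : (I.sp tl).v = I.v := by
  funext k
  show skMs I.a (I.P tl) k = skMs I.a I.P0 k
  unfold skMs
  rw [l8d_P_eq, ll2_mv_mass, show I.P0 = llMv none I.LP from rfl, ll2_mv_mass]

theorem l8v_dv (tl : Bool) : (I.sp tl).dv = I.dv := by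
  funext k
  show (I.sp tl).v k - (if k = 0 then 0 else (I.sp tl).v (k - 1)) = skGap I.a I.P0 k
  rw [l8v_v]
  rfl

variable {I}

theorem l8v_ok (h : I.Std) (tl : Bool) : (I.sp tl).Ok := l8i_ok I.m h.m_pos I.a h.a_pos (I.P tl) (l8d_P_adm h tl)

variable (I)

/-- the tree laws of `L08/LsLk2.lean` at the instance -/
noncomputable def l8vT (r : ℕ) : Bool → L8L (SkOm I.m) := l8tSk I.m I.a I.LP I.js r

theorem l8v_T_mu (r : ℕ) (e : Bool) : (l8vT I r e).μ = (I.sp e).μ := by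
  cases e <;> rfl

theorem l8v_T_fork (r : ℕ) (e : Bool) (l : ℕ) : (l8vT I r e).fork l = (I.sp e).fork l := by
  cases e <;> rfl

theorem l8v_X_false : I.X false = llJs I.m I.a I.LP none := rfl

theorem l8v_X_true : I.X true = llJs I.m I.a I.LP (some I.js) := rfl

theorem l8v_ov (tl : Bool) (p : SkOm I.m × SkOm I.m) : (I.X tl).ov p.1.2 p.2.2 = (I.sp tl).Q p := (l8d_Q I.m I.a (I.P tl) p).symm

theorem l8v_msk_true (l : ℕ) : (I.X true).msk l = if I.js < l then 1 else 0 := rfl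

theorem l8v_msk_false (l : ℕ) : (I.X false).msk l = 1 := rfl

/-- the allocation masses -/
theorem l8v_mu : l8lMu (llMs I.a I.LP) I.LP.length = fun l => if l ≤ I.n then I.dv l else 0 := by
  funext l
  unfold l8lMu
  by_cases hl : l ≤ I.LP.length
  · rw [if_pos hl, if_pos (show l ≤ I.n from hl), ← l8d_mu]
    rfl
  · rw [if_neg hl, if_neg (show ¬ l ≤ I.n from hl)]

variable {I}

/-- beyond the terminal draw the cells are empty -/
theorem l8v_dv_gt (h : I.Std) {l : ℕ} (hl : I.n < l) : I.dv l = 0 := by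
  have hP := l8v_ok h false
  rw [← l8v_dv I false]
  unfold L8P.dv
  have h0 : l ≠ 0 := by omega
  rw [if_neg h0, hP.v_term l (by rw [l8v_n]; omega), hP.v_term (l - 1) (by rw [l8v_n]; omega), sub_self]

theorem l8v_mu' (h : I.Std) : l8lMu (llMs I.a I.LP) I.LP.length = I.dv := by
  rw [l8v_mu]
  funext l
  by_cases hl : l ≤ I.n
  · rw [if_pos hl]
  · rw [if_neg hl, l8v_dv_gt h (by omega)]

/-- the untilted mean on the single path -/
theorem l8v_S (h : I.Std) {k : ℕ} (hk : k ≤ I.n) : (I.sp false).S k = I.S k :=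
  l8i_S I.m I.a h.a_pos I.P0 h.adm.1 k (by rw [show I.P0.length = I.n from l8d_P_len I false]; exact hk)

/-- the untilted mean in the jet context -/
theorem l8v_Sf (h : I.Std) {k : ℕ} (hk : k ≤ I.n) : (I.X false).Sf k = (I.sp false).S k := by
  rw [l8v_S h hk]
  exact l8d_S h hk

end dic

/-! ## 2. `I.All` + stop ⟹ `L8uB` -/

/-- a square is monotone in the loss -/
theorem l8v_sq_le {A A1 c : ℝ} (hA : |A| ≤ A1) (hc : 0 ≤ c) : (A * c) ^ 2 ≤ (A1 * c) ^ 2 := by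
  rw [← sq_abs (A * c), abs_mul, abs_of_nonneg hc]
  exact pow_le_pow_left₀ (mul_nonneg (abs_nonneg _) hc) (mul_le_mul_of_nonneg_right hA hc) 2

/-- **the band form of the two ensembles from the exports of `Exit/DLow`**, on the stop -/
theorem l8v_B_of_all (I : L8In) (hI : I.Ok) (hs : l8Siz I.p) {η : ℝ} (hfin : I.Fine η) {e : ℕ → ℝ} {A v0 v1 cE εs qs : ℝ} {pm jm : ℕ}
    (hF : I.All e A (I.Yc llDStar) 1 v0 v1 cE εs qs pm jm) (hst : I.s = qs * I.x ^ (1 + εs)) (hstop : I.Stop (I.x ^ εs))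
    (hx : 0 < I.x) (hl : 0 < I.lam) (hZ : 1 ≤ I.Zc llDStar)
    (hU : I.x * I.lam ^ (-(I.F.sS / 2)) ≤ 1) (hl1 : I.lam ≤ 1) (hs0 : 0 ≤ I.F.sS) (he0 : 0 ≤ I.F.eta)
    {A1 A' eta : ℝ} {dmax ti : ℕ} (hA : |A| ≤ A1) (hA1 : 1 ≤ A1) (hA' : 2 * A1 ≤ A') (hjm : 1 ≤ jm)
    (hY : I.Yc llDStar ≤ min 1 v0) (hti : ti ≤ I.n + 1) (hlv : ∀ l < ti, I.v l ≤ min 1 v0) (hle : ∀ l < ti, A' * e l ≤ 1)
    (htail : (2 * A1 / A') ^ (2 * pm) ≤ eta) (hd1 : 1 ≤ dmax) (hd2 : dmax ≤ pm) (hd3 : dmax ≤ jm) :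
    L8uB I.sp (I.l8lqS hx hl hZ) ⟨e, I.q, A1, A', min 1 v0, eta, 7 / 3, pm, dmax, ti⟩ I.js jm := by
  have hS := l8d_std hI hfin
  have hadm := hfin.adm
  have Rt := hF.til hst hstop
  have hSY : (I.l8lqS hx hl hZ).Y = I.Yc llDStar := I.l8lq_S_Y hU
  have hSU : (I.l8lqS hx hl hZ).U = I.U := I.l8lq_S_U hU
  have hn : (I.sp false).n = I.n := I.l8lq_n
  have hYpos : 0 < I.Yc llDStar := hSY ▸ (I.l8lqS hx hl hZ).Y_pos
  have hepos : ∀ k ≤ I.n, 0 < e k := fun k hk => lt_of_lt_of_le (Real.rpow_pos_of_pos hx _) (hF.env.lo k hk)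
  have hvt : ∀ {r : ℝ}, r ≤ min 1 v0 → r ≤ v0 := fun h => h.trans (min_le_right _ _)
  have hz0 : ∀ {r : ℝ}, 0 < r → 0 ≤ I.z0 r := fun hr =>
    div_nonneg (pow_nonneg hx.le _) (mul_nonneg (Real.sqrt_nonneg _) (pow_nonneg hr.le _))
  have hv0 : ∀ k, 0 ≤ I.v k := (l8v_ok hS false).v_nonneg
  have hmem : ∀ {lo hi : ℝ} {k : ℕ}, k ∈ (I.sp false).l8lfI lo hi → k ≤ I.n := by
    intro lo hi k hk
    have := Finset.mem_range.1 (Finset.mem_filter.1 hk).1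
    rw [hn] at this
    omega
  refine
    { base := l8lq_B_of_full I hI hs hadm ⟨hF.env, hF.num, hF.unt⟩ hx hl hZ hU hl1 hs0 he0 hA hA1 hA' hjm hY hti hlv hle htail hd1 hd2
      ok := l8v_ok hS
      d_jm := hd3
      js_x := ?_
      s_le := ?_
      ref_X := ?_
      ref_L := ?_
      ref_Q := ?_
      d7_C := ?_
      d9_Q := ?_
      d10 := ?_ }
  · intro l hl'
    have h1 := l8d_v_mono hS hl' hfin.js_lt.le
    rw [hfin.js_m] at h1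
    exact lt_of_le_of_lt h1 hI.s_lt
  · intro k hk
    have hk' : k ≤ I.n := hn ▸ hk
    rw [l8v_S hS hk', hSY]
    exact (hF.num.s_le k hk').trans (l8lq_lin_le hA (add_nonneg (hv0 k) hYpos.le))
  · intro r h1 h2 k hk hj hv
    have hk' : k ≤ I.n := hn ▸ hk
    exact (Rt.ref_X r h1 h2 k ⟨hk', fun _ => hj⟩ (hvt hv)).trans (l8lq_pow_le hA (hepos k hk').le r)
  · intro r h1 h2 k hk hj hv
    have hk' : k ≤ I.n := hn ▸ hk
    exact (Rt.ref_L r h1 h2 k ⟨hk', fun _ => hj⟩ (hvt hv)).trans (l8lq_pow_le hA (hepos k hk').le r)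
  · intro r h1 h2 k hk hj hv
    have hk' : k ≤ I.n := hn ▸ hk
    have h := Rt.ref_Q r h1 h2 k ⟨hk', fun _ => hj⟩ (hvt hv) (I.n + 1) (I.n + 1) (by omega) (by omega)
    rw [l8d_QX_fun I true (Nat.lt_succ_self _) (Nat.lt_succ_self _)] at h
    exact h.trans (l8lq_pow_le hA (hepos k hk').le r)
  · intro r h1 h2
    rw [hSY] at h1
    have hr : 0 < r := lt_of_lt_of_le hYpos h1
    have h := Rt.d7_C r h1 (hvt h2)
    unfold L8In.band at h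
    rw [I.l8lq_int] at h
    simp only [one_pow, mul_one] at h
    refine h.trans ?_
    rw [mul_assoc, mul_assoc]
    exact l8lq_lin_le hA (by have := hz0 hr; positivity)
  · intro w h1 h2
    rw [hSY] at h2 ⊢
    rw [hSU]
    have h := Rt.d9_Q w h1 h2
    rw [I.l8lq_int] at h
    have e1 : ∑ k ∈ (I.sp false).l8lfI (max w I.x) (2 * w), (I.sp false).dv k * ∫ p, ((I.sp true).Q p - (I.sp false).S k) ^ 2 ∂(I.sp true).fork k
        = ∑ k ∈ (I.sp false).l8lfI (max w I.x) (2 * w), (I.sp false).dv k * I.moF true k 1 fun ω => (I.sp true).Q ω - I.S k := by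
      refine Finset.sum_congr rfl fun k hk => ?_
      rw [l8v_S hS (hmem hk)]
      rfl
    show ∑ k ∈ (I.sp false).l8lfI (max w I.x) (2 * w), (I.sp false).dv k * ∫ p, ((I.sp true).Q p - (I.sp false).S k) ^ 2 ∂(I.sp true).fork k ≤ _
    rw [e1]
    refine h.trans ?_
    rw [mul_assoc, mul_assoc]
    refine l8lq_lin_le hA ?_
    exact mul_nonneg hYpos.le (div_nonneg (mul_nonneg (pow_nonneg hx.le _) (Real.sqrt_nonneg _))
      (mul_nonneg (Real.sqrt_nonneg _) (Real.rpow_nonneg (le_max_of_le_left h1.le) _)))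
  · intro tl r h1 h2 j hj1 hj2 c hc
    rw [hSY] at h1 ⊢
    have hr : 0 < r := lt_of_lt_of_le hYpos h1
    have hR : I.Rnd tl e A (I.Yc llDStar) 1 v0 v1 pm jm := by
      cases tl
      · exact hF.unt
      · exact Rt
    have h := hR.d10 r h1 (hvt h2) j hj1 hj2 c (fun i hi k hk => hc i hi k (hn.symm ▸ hk))
    unfold L8In.band L8In.ex at h
    simp only [I.l8lq_int] at h
    have e1 : ∀ ω, ∑ k ∈ (I.sp false).l8lfI r (2 * r), (I.sp false).dv k * (∑ i ∈ range (j + 1), c i k * (2 * (I.sp tl).L k ω - (I.sp false).S k) ^ i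
          - ∫ ω', ∑ i ∈ range (j + 1), c i k * (2 * (I.sp false).L k ω' - (I.sp false).S k) ^ i ∂(I.sp false).μ)
        = ∑ k ∈ (I.sp false).l8lfI r (2 * r), (I.sp false).dv k * (I.pol tl c j k ω - ∫ ω', I.pol false c j k ω' ∂(I.sp false).μ) := by
      intro ω
      refine Finset.sum_congr rfl fun k hk => ?_
      rw [l8v_S hS (hmem hk)]
      rfl
    simp only [e1]
    refine h.trans ?_
    have e2 : ∀ a : ℝ, a * r * (I.z0 r * r * 1 * (if j = 1 then 1 else I.Yc llDStar ^ 2 / r * r ^ (j - 2)))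
        = a * (r * (I.z0 r * r * (if j = 1 then 1 else I.Yc llDStar ^ 2 / r * r ^ (j - 2)))) := fun a => by ring
    have e3 : ∀ a : ℝ, a * r * ((I.l8lqS hx hl hZ).z0 r * r * (if j = 1 then 1 else I.Yc llDStar ^ 2 / r * r ^ (j - 2)))
        = a * (r * (I.z0 r * r * (if j = 1 then 1 else I.Yc llDStar ^ 2 / r * r ^ (j - 2)))) := fun a => by
      rw [I.l8lq_S_z0]; ring
    rw [e2]
    show _ ≤ (A1 * r * ((I.l8lqS hx hl hZ).z0 r * r * (if j = 1 then 1 else I.Yc llDStar ^ 2 / r * r ^ (j - 2)))) ^ 2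
    rw [e3]
    refine l8v_sq_le hA (mul_nonneg hr.le (mul_nonneg (mul_nonneg (hz0 hr) hr.le) ?_))
    split_ifs
    · exact zero_le_one
    · positivity

/-! ## 3. Fit and (D16), second conclusion, at one instance -/

/-- the bound of the gain -/
noncomputable def l8vG (S : L13Scales) (R : L8lfR) : ℝ :=
  l8uCg R.dmax * (R.A' ^ R.dmax * l8lcM S (2 * l8lfLo S R) (l8lfCs S) (l8lfNb S.Y R.vt) + √R.eta)

theorem l8v_eqns_cite : True := by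
  have := @l8vT.eq_1
  have := @l8vG.eq_1
  trivial

/-- **FIT**: the analytic inputs of the two ensembles belong to the jet contexts of the instance -/
theorem l8v_fit (I : L8In) (hS : I.Std) {S : L13Scales} {R : L8lfR} {jm : ℕ} (H : L8uB I.sp S R I.js jm) (k n : ℕ) (hn : n ≤ R.dmax) :
    L8TFit (I.X false) (I.X true) (l8vT I (2 + k)) Prod.snd (l8uIn I.sp (l8uD I.sp S R I.js)) R.ti n (fun l => min 1 (R.A' * |R.e l|))
      (fun l => I.v l / I.a) (l8lMu (llMs I.a I.LP) I.LP.length) (l8vG S R) R.eta where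
  ok := l8u_in_ok (l8u_D_ok H) (l8v_T_mu I _) (l8v_T_fork I _)
  hti := rfl
  heb := rfl
  hvv := rfl
  hmu := (l8v_mu' hS).symm
  hd := hn
  hg := l8u_gain H
  he := le_rfl
  hf0 := fun s l p hl => by
    have hl' : l ≤ I.n := by
      have h1 := H.base.ti_le
      rw [l8v_n] at h1
      omega
    show (1 : ℝ) * (I.sp false).Q p - (I.sp false).S l = _
    rw [l8v_Sf hS hl', l8v_ov, one_mul]
  hf1 := fun s l p hl => by
    have hl' : l ≤ I.n := by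
      have h1 := H.base.ti_le
      rw [l8v_n] at h1
      omega
    show (if I.js < l then (1 : ℝ) else 0) * (I.sp true).Q p - (I.sp false).S l = _
    rw [l8v_Sf hS hl', l8v_ov, l8v_msk_true]

/-- **(D16), second conclusion, at one instance**, from the band form `L8uB` of the low-region statistics of the two ensembles.      `K` depends on the numbers `k` of new labels and `n` of low factors only. -/
theorem l8v_ls2 (k n : ℕ) : ∃ K : ℝ, 0 ≤ K ∧ ∀ (I : L8In) (S : L13Scales) (R : L8lfR) (jm : ℕ), I.Std → I.a ≤ 4 → L8uB I.sp S R I.js jm → n ≤ R.dmax →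
    L8_LS2 (I.X false) (I.X true) R.ti (fun l => min 1 (R.A' * |R.e l|)) (fun l => I.v l / I.a) k n (K * (l8vG S R + R.eta)) := by
  obtain ⟨K, hK, h⟩ := l8t_link_sk k n
  refine ⟨K, hK, fun I S R jm hS ha H hn => ?_⟩
  exact h I.m I.a I.LP I.js R.ti _ _ _ _ _ hS.a_pos ha hS.adm (l8v_fit I hS H k n hn)

/-! ## 4. Numbers of the exit `Exit/D16b`      (helper280; prefix `l8lr_`; mirror of NUM2, NUM3 of helper59, `L08/LsFull.lean`) -/

/-- the gain of (D16), second conclusion, at one instance, before the choice of the numbers (unfolded form of `l8vG`) -/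
noncomputable def L8In.l8lrG (I : L8In) (A1 A' v0 eta : ℝ) (d : ℕ) : ℝ :=
  l8uCg d * (A' ^ d * ((2 * (4 * A' ^ 2 * A1 * (l8lfNb I.x (I.Yc llDStar) + 1))) ^ 3 * (2 + l8lfNb (I.Yc llDStar) (min 1 v0)) ^ 2
    * (I.x ^ 3 * I.lam ^ (-(I.F.sS + (1 + I.F.eta))) * I.Zc llDStar ^ 2)) + √eta)

/-- the constant of the main term -/
noncomputable def l8lrK (d : ℕ) (θ Cb C1 : ℝ) : ℝ := 512 * (Cb + 2) ^ (6 + d) * C1 ^ (9 + d) * (1 / (θ * Real.log 2) + 3) ^ 5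

/-- the constant of NUM3' -/
noncomputable def l8lrC (d : ℕ) (θ Cb C1 : ℝ) : ℝ := l8uCg d * (l8lrK d θ Cb C1 + 1) + 1

theorem l8lr_eqns_cite : True := by
  have := @L8In.l8lrG.eq_1
  have := @l8lrK.eq_1
  have := @l8lrC.eq_1
  trivial

theorem l8lr_Cg_nonneg (d : ℕ) : 0 ≤ l8uCg d := by
  unfold l8uCg
  positivity

theorem l8lr_K_nonneg (d : ℕ) {θ Cb C1 : ℝ} (hθ : 0 < θ) (hCb : 0 ≤ Cb) (hC1 : 1 ≤ C1) : 0 ≤ l8lrK d θ Cb C1 := by
  have hl2 : 0 < Real.log 2 := Real.log_pos (by norm_num)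
  unfold l8lrK
  positivity

/-- BRIDGE: the bound `l8vG` of the gain at the scales and the parameters of `l8v_B_of_all` is `I.l8lrG` -/
theorem l8lr_G_eq (I : L8In) {hx : 0 < I.x} {hl : 0 < I.lam} {hZ : 1 ≤ I.Zc llDStar} (hU : I.x * I.lam ^ (-(I.F.sS / 2)) ≤ 1)
    (e q : ℕ → ℝ) (A1 A' v0 eta cP : ℝ) (pm d ti : ℕ) :
    l8vG (I.l8lqS hx hl hZ) ⟨e, q, A1, A', min 1 v0, eta, cP, pm, d, ti⟩ = I.l8lrG A1 A' v0 eta d := by
  unfold L8In.l8lrG l8vG l8lcM l8lfLo l8lcT l8lfCs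
  simp only
  rw [I.l8lq_S_Y hU]
  rfl

/-- pure numbers -/
theorem l8lr_gain_aux {u c Cb C1 J nb : ℝ} (d : ℕ) (hu : 1 ≤ u) (hc : 0 ≤ c) (hCb : 0 ≤ Cb) (hC1 : 1 ≤ C1) (hJ0 : 0 ≤ J) (hnb0 : 0 ≤ nb)
    (hJ : J ≤ (c + 1) * u) (hnb : nb ≤ (c + 1) * u) :
    ((Cb + 2) * (C1 * u) * u) ^ d * ((2 * (4 * ((Cb + 2) * (C1 * u) * u) ^ 2 * (C1 * u) * (J + 1))) ^ 3 * (2 + nb) ^ 2)
      ≤ 512 * (Cb + 2) ^ (6 + d) * C1 ^ (9 + d) * (c + 3) ^ 5 * u ^ (20 + 2 * d) := by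
  have h := l8lq_gain_aux hu hc hCb hC1 hJ0 hnb0 hJ hnb
  calc ((Cb + 2) * (C1 * u) * u) ^ d * ((2 * (4 * ((Cb + 2) * (C1 * u) * u) ^ 2 * (C1 * u) * (J + 1))) ^ 3 * (2 + nb) ^ 2)
      = (8 * ((Cb + 2) * (C1 * u) * u) ^ d) * ((4 * ((Cb + 2) * (C1 * u) * u) ^ 2 * (C1 * u) * (J + 1)) ^ 3 * (2 + nb) ^ 2) := by ring
    _ ≤ (8 * ((Cb + 2) * (C1 * u) * u) ^ d) * (64 * (Cb + 2) ^ 6 * C1 ^ 9 * (c + 3) ^ 5 * u ^ 20) :=
        mul_le_mul_of_nonneg_left h (by positivity)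
    _ = 512 * (Cb + 2) ^ (6 + d) * C1 ^ (9 + d) * (c + 3) ^ 5 * u ^ (20 + 2 * d) := by
        rw [mul_pow, mul_pow, mul_pow, pow_add, pow_add, pow_add, pow_mul, sq, mul_pow]
        ring

/-- NUM3', main term, ANY tail `eta`:   `A'^d (2 Lo)³ (2 + nb)² ≤ 512 (Cb+2)^(6+d) C1^(9+d) c_θ^5 x^(-(20+2d)θ)`, `(20 + 2 d) θ ≤ ε`;   `x³ λ^(-Cs) = x^(3 - Cs p_*)` -/
theorem l8lr_num_main (I : L8In) (hI : I.Ok) (hs : l8Siz I.p) (h0 : 0 < I.F.pS) (hsS0 : 0 ≤ I.F.sS) (hZ : 1 ≤ I.Zc llDStar)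
    {θ ε Cb C1 : ℝ} (v0 : ℝ) (d : ℕ) (hθ : 0 < θ) (hθε : (20 + 2 * d) * θ ≤ ε) (hCb : 0 ≤ Cb) (hC1 : 1 ≤ C1) (eta : ℝ) :
    I.l8lrG (C1 * I.x ^ (-θ)) ((Cb + 2) * (C1 * I.x ^ (-θ)) * I.x ^ (-θ)) v0 eta d
      ≤ l8uCg d * (l8lrK d θ Cb C1 * (I.x ^ (3 - ε - (I.F.sS + (1 + I.F.eta)) * I.F.pS) * I.Zc llDStar ^ 2) + √eta) := by
  obtain ⟨hx, hx1⟩ := I.l8lq_x_pos hI
  have hlam := l8lq_lam I hI hs
  have hl0 : 0 < I.lam := by rw [hlam]; exact Real.rpow_pos_of_pos hx _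
  have hl1 : I.lam ≤ 1 := by rw [hlam]; exact Real.rpow_le_one hx.le hx1 h0.le
  have hu1 : 1 ≤ I.x ^ (-θ) := Real.one_le_rpow_of_pos_of_le_one_of_nonpos hx hx1 (by linarith)
  have hl2 : 0 < Real.log 2 := Real.log_pos (by norm_num)
  have hle : ∀ {a b : ℝ}, a ≤ b → I.x ^ b ≤ I.x ^ a := fun h => Real.rpow_le_rpow_of_exponent_ge hx hx1 h
  have hδ : 0 < llDStar := by unfold llDStar; norm_num
  -- the scales
  have hUpos : 0 < I.U := lt_min one_pos (mul_pos hx (Real.rpow_pos_of_pos hl0 _))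
  have hxU : I.x ≤ I.U := by
    refine le_min hx1 ?_
    have : 1 ≤ I.lam ^ (-(I.F.sS / 2)) := Real.one_le_rpow_of_pos_of_le_one_of_nonpos hl0 hl1 (by linarith)
    show I.x ≤ I.x * I.lam ^ (-(I.F.sS / 2))
    nlinarith
  have hYc1 : I.Yc llDStar ≤ 1 := (l8lq_Yc_le I hUpos).trans (Real.rpow_le_one hx.le hx1 (by positivity))
  have hxY : I.x ≤ I.Yc llDStar := by
    unfold L8In.Yc
    nlinarith
  have hJ := l8lq_nb_le (lo := I.x) (hi := I.Yc llDStar) hx hx1 hθ (div_le_div_of_nonneg_right hYc1 hx.le)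
  have hnb := l8lq_nb_le (lo := I.Yc llDStar) (hi := min 1 v0) hx hx1 hθ
    (div_le_div₀ zero_le_one (min_le_left _ _) hx hxY)
  have haux := l8lr_gain_aux (c := 1 / (θ * Real.log 2)) d hu1 (by positivity) hCb hC1 (Nat.cast_nonneg _) (Nat.cast_nonneg _) hJ hnb
  -- powers
  have e20 : (I.x ^ (-θ)) ^ (20 + 2 * d) = I.x ^ (-((20 + 2 * d) * θ)) := by
    rw [← Real.rpow_natCast, ← Real.rpow_mul hx.le]
    congr 1
    push_cast
    ring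
  have eT : I.x ^ 3 * I.lam ^ (-(I.F.sS + (1 + I.F.eta))) = I.x ^ (3 - (I.F.sS + (1 + I.F.eta)) * I.F.pS) := by
    rw [hlam, ← Real.rpow_mul hx.le, ← Real.rpow_natCast I.x 3, ← Real.rpow_add hx]
    congr 1
    push_cast
    ring
  set E : ℝ := 3 - ε - (I.F.sS + (1 + I.F.eta)) * I.F.pS with hE
  have hK0 := l8lr_K_nonneg d hθ hCb hC1
  have hmain : ((Cb + 2) * (C1 * I.x ^ (-θ)) * I.x ^ (-θ)) ^ d *
        ((2 * (4 * ((Cb + 2) * (C1 * I.x ^ (-θ)) * I.x ^ (-θ)) ^ 2 * (C1 * I.x ^ (-θ)) * ((l8lfNb I.x (I.Yc llDStar) : ℝ) + 1))) ^ 3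
        * (2 + (l8lfNb (I.Yc llDStar) (min 1 v0) : ℝ)) ^ 2 * (I.x ^ 3 * I.lam ^ (-(I.F.sS + (1 + I.F.eta))) * I.Zc llDStar ^ 2))
      ≤ l8lrK d θ Cb C1 * (I.x ^ E * I.Zc llDStar ^ 2) := by
    rw [eT, ← mul_assoc]
    have hT0 : 0 ≤ I.x ^ (3 - (I.F.sS + (1 + I.F.eta)) * I.F.pS) * I.Zc llDStar ^ 2 := by positivity
    refine (mul_le_mul_of_nonneg_right haux hT0).trans ?_
    rw [e20]
    have e : 512 * (Cb + 2) ^ (6 + d) * C1 ^ (9 + d) * (1 / (θ * Real.log 2) + 3) ^ 5 * I.x ^ (-((20 + 2 * d) * θ))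
          * (I.x ^ (3 - (I.F.sS + (1 + I.F.eta)) * I.F.pS) * I.Zc llDStar ^ 2)
        = l8lrK d θ Cb C1 * (I.x ^ (-((20 + 2 * d) * θ) + (3 - (I.F.sS + (1 + I.F.eta)) * I.F.pS)) * I.Zc llDStar ^ 2) := by
      rw [Real.rpow_add hx]; unfold l8lrK; ring
    rw [e]
    refine mul_le_mul_of_nonneg_left (mul_le_mul_of_nonneg_right (hle ?_) (by positivity)) hK0
    rw [hE]; linarith
  unfold L8In.l8lrG
  exact mul_le_mul_of_nonneg_left (add_le_add hmain le_rfl) (l8lr_Cg_nonneg d)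

/-- **NUM3'**: the gain plus the tail, `η = x^8` (so that NUM2 `l8lq_num_ok` of helper59 is reused as it is):   `√(x^8) = x^4`, `x^8 ≤ x^4 ≤ x^(3 - ε - Cs p_*) Zc²` -/
theorem l8lr_num_gain (I : L8In) (hI : I.Ok) (hs : l8Siz I.p) (h0 : 0 < I.F.pS) (hsS0 : 0 ≤ I.F.sS) (het : 0 ≤ I.F.eta) (hZ : 1 ≤ I.Zc llDStar)
    {θ ε Cb C1 : ℝ} (v0 : ℝ) (d : ℕ) (hθ : 0 < θ) (hθε : (20 + 2 * d) * θ ≤ ε) (hCb : 0 ≤ Cb) (hC1 : 1 ≤ C1) :
    I.l8lrG (C1 * I.x ^ (-θ)) ((Cb + 2) * (C1 * I.x ^ (-θ)) * I.x ^ (-θ)) v0 (I.x ^ 8) d + I.x ^ 8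
      ≤ l8lrC d θ Cb C1 * I.x ^ (3 - ε - (I.F.sS + (1 + I.F.eta)) * I.F.pS) * I.Zc llDStar ^ 2 := by
  obtain ⟨hx, hx1⟩ := I.l8lq_x_pos hI
  have hle : ∀ {a b : ℝ}, a ≤ b → I.x ^ b ≤ I.x ^ a := fun h => Real.rpow_le_rpow_of_exponent_ge hx hx1 h
  have hm := l8lr_num_main I hI hs h0 hsS0 hZ v0 d hθ hθε hCb hC1 (I.x ^ 8)
  set E : ℝ := 3 - ε - (I.F.sS + (1 + I.F.eta)) * I.F.pS with hE
  have hZ2 : 1 ≤ I.Zc llDStar ^ 2 := one_le_pow₀ hZ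
  have hxE : 0 < I.x ^ E := Real.rpow_pos_of_pos hx _
  have hε : 0 ≤ ε := by
    have : 0 ≤ (20 + 2 * (d : ℝ)) * θ := by positivity
    linarith
  have h4 : I.x ^ (4 : ℝ) ≤ I.x ^ E * I.Zc llDStar ^ 2 := by
    have hprod : 0 ≤ (I.F.sS + (1 + I.F.eta)) * I.F.pS := mul_nonneg (by linarith) h0.le
    have h3 : I.x ^ (4 : ℝ) ≤ I.x ^ E := hle (by rw [hE]; linarith)
    calc I.x ^ (4 : ℝ) ≤ I.x ^ E := h3
      _ = I.x ^ E * 1 := (mul_one _).symm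
      _ ≤ I.x ^ E * I.Zc llDStar ^ 2 := mul_le_mul_of_nonneg_left hZ2 hxE.le
  have h8 : I.x ^ 8 ≤ I.x ^ (4 : ℝ) := by
    have : I.x ^ 8 = I.x ^ (8 : ℝ) := by exact_mod_cast (Real.rpow_natCast I.x 8).symm
    rw [this]
    exact hle (by norm_num)
  rw [l8lq_sqrt8 hx.le] at hm
  have hCg := l8lr_Cg_nonneg d
  have h5 : l8uCg d * (l8lrK d θ Cb C1 * (I.x ^ E * I.Zc llDStar ^ 2) + I.x ^ (4 : ℝ))
      ≤ l8uCg d * (l8lrK d θ Cb C1 * (I.x ^ E * I.Zc llDStar ^ 2) + I.x ^ E * I.Zc llDStar ^ 2) :=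
    mul_le_mul_of_nonneg_left (add_le_add le_rfl h4) hCg
  calc _ ≤ l8uCg d * (l8lrK d θ Cb C1 * (I.x ^ E * I.Zc llDStar ^ 2) + I.x ^ E * I.Zc llDStar ^ 2) + I.x ^ E * I.Zc llDStar ^ 2 :=
        add_le_add (hm.trans h5) (h8.trans h4)
    _ = l8lrC d θ Cb C1 * I.x ^ E * I.Zc llDStar ^ 2 := by unfold l8lrC; ring

/-- NUM3'', ANY tail `η = x^(2 K0)`: the tail is kept apart -/
theorem l8lr_num_gain_K (I : L8In) (hI : I.Ok) (hs : l8Siz I.p) (h0 : 0 < I.F.pS) (hsS0 : 0 ≤ I.F.sS) (hZ : 1 ≤ I.Zc llDStar)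
    {θ ε Cb C1 : ℝ} (v0 : ℝ) (d K0 : ℕ) (hθ : 0 < θ) (hθε : (20 + 2 * d) * θ ≤ ε) (hCb : 0 ≤ Cb) (hC1 : 1 ≤ C1) :
    I.l8lrG (C1 * I.x ^ (-θ)) ((Cb + 2) * (C1 * I.x ^ (-θ)) * I.x ^ (-θ)) v0 (I.x ^ (2 * K0)) d + I.x ^ (2 * K0)
      ≤ l8uCg d * l8lrK d θ Cb C1 * I.x ^ (3 - ε - (I.F.sS + (1 + I.F.eta)) * I.F.pS) * I.Zc llDStar ^ 2 + (l8uCg d + 1) * I.x ^ K0 := by
  obtain ⟨hx, hx1⟩ := I.l8lq_x_pos hI
  have hm := l8lr_num_main I hI hs h0 hsS0 hZ v0 d hθ hθε hCb hC1 (I.x ^ (2 * K0))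
  have e1 : √(I.x ^ (2 * K0)) = I.x ^ K0 := by
    rw [mul_comm, pow_mul, Real.sqrt_sq (by positivity)]
  have e2 : I.x ^ (2 * K0) ≤ I.x ^ K0 := pow_le_pow_of_le_one hx.le hx1 (by omega)
  rw [e1] at hm
  calc _ ≤ l8uCg d * (l8lrK d θ Cb C1 * (I.x ^ (3 - ε - (I.F.sS + (1 + I.F.eta)) * I.F.pS) * I.Zc llDStar ^ 2) + I.x ^ K0) + I.x ^ K0 :=
        add_le_add hm e2
    _ = _ := by ring

/-- NUM2', ANY tail `η = x^(2 K0)`, `K0 ≥ 4` (`pm ≥ K0 / θ`): all the fields but `htail` are those of `l8lq_num_ok` -/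
theorem l8lr_num_ok (I : L8In) (hI : I.Ok) (hs : l8Siz I.p) (h0 : 0 < I.F.pS) (h1 : I.F.pS ≤ 1) (hsS0 : 0 ≤ I.F.sS) (hsS1 : I.F.sS ≤ 1) (het : 0 ≤ I.F.eta)
    {θ ai Cb C1 v0 : ℝ} {pm K0 : ℕ} (hθ : 0 < θ) (hθa : 40 * θ ≤ ai) (hθd : 40 * θ ≤ llDStar) (hCb : 0 ≤ Cb) (hC1 : 1 ≤ C1) (hv0 : 0 < v0)
    (hK0 : 4 ≤ K0) (hpm : (K0 : ℝ) ≤ pm * θ) (hbig : 1 / min 1 v0 + (Cb + 2) * C1 ^ 2 ≤ I.x ^ (-θ)) :
    L8lqNum I (C1 * I.x ^ (-θ)) ((Cb + 2) * (C1 * I.x ^ (-θ)) * I.x ^ (-θ)) v0 ai Cb (I.x ^ (2 * K0)) pm := by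
  obtain ⟨hx, hx1⟩ := I.l8lq_x_pos hI
  have hK4 : (4 : ℝ) ≤ K0 := by exact_mod_cast hK0
  have B := l8lq_num_ok I hI hs h0 h1 hsS0 hsS1 het hθ hθa hθd hCb hC1 hv0 (pm := pm) (by linarith) hbig
  refine ⟨B.hl, B.hl1, B.hU, B.hs0, B.he0, B.hA1, B.hA', B.hY, B.hV, B.hlY, B.hlV, ?_⟩
  have hle : ∀ {a b : ℝ}, a ≤ b → I.x ^ b ≤ I.x ^ a := fun h => Real.rpow_le_rpow_of_exponent_ge hx hx1 h
  have e : 2 * (C1 * I.x ^ (-θ)) / ((Cb + 2) * (C1 * I.x ^ (-θ)) * I.x ^ (-θ)) = 2 / (Cb + 2) * I.x ^ θ := by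
    rw [Real.rpow_neg hx.le]
    have := Real.rpow_pos_of_pos hx θ
    field_simp
  rw [e]
  have hxθ0 : 0 ≤ I.x ^ θ := Real.rpow_nonneg hx.le _
  have h2 : 2 / (Cb + 2) * I.x ^ θ ≤ I.x ^ θ := by
    have : 2 / (Cb + 2) ≤ 1 := by rw [div_le_one (by linarith)]; linarith
    nlinarith
  calc (2 / (Cb + 2) * I.x ^ θ) ^ (2 * pm) ≤ (I.x ^ θ) ^ (2 * pm) := pow_le_pow_left₀ (by positivity) h2 _
    _ = I.x ^ (θ * ((2 * pm : ℕ) : ℝ)) := by rw [← Real.rpow_natCast, ← Real.rpow_mul hx.le]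
    _ ≤ I.x ^ (((2 * K0 : ℕ) : ℝ)) := hle (by push_cast; linarith)
    _ = I.x ^ (2 * K0) := Real.rpow_natCast I.x (2 * K0)

end Claimed.Agent.R286
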