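import Claimed.Agent.R286.L08.Defs
import Claimed.Agent.R286.L09.Fin

/-!
# Row 286 (S0533), folder L08, file GlueZK : KIT AND THE TWO HALVES OF THE ASSEMBLY OF `Exit/DCS` (LL Lemma 8.8)      (owner helper49, for helper75; prefix `l8zk_`)

CONSUMER: `l8z_cs_asm` (`L08/GlueZ.lean`).      TeX: 08-statistics.tex l.924-997.      TEX[LL:lem:statistics-coarse]
* K1-K3  measure theory: lower integral on a product against an iterated integral of a MEASURABLE majorant (the exceptional null set of the second variable may depend on the first: no joint measurability of the speed is asked);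
         `∫_0^1 (1-τ)^(-1/2) dτ = 2`.
* K4-K6  arithmetic of the exponents: `λ (x + e_1) U⁴ ≤ 2 x^(5+c)`, `x⁶/√λ₁ ≤ x^(5+1/4)`, `x³ √λ₁ U² ≤ x^(5 + p_*((1+η)/2 - s_*))`.
* `l8zk_sw`  the two multiplier sweeps (`L9Switch`) from the pointwise speed and `E_γ Z⁴` (`Z ≤ Z⁴`).
* `l8zk_co`  the contribution of `Y > x^κ` to the strength sweep (`L9Coarse`): POINTWISE Markov `1_{UZ > x^κ} ≤ (U Z)⁴ x^(-4κ)` (the event needs no measurability).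
-/

set_option autoImplicit false

namespace Claimed.Agent.R286

open MeasureTheory Set Filter
open scoped ENNReal

/-- K1. lower integral on a product against an iterated integral of a measurable majorant; the exceptional null set may depend on the first variable -/
theorem l8zk_lint {Ω : Type} [MeasurableSpace Ω] (μ : Measure Ω) [SFinite μ] (ν : Measure ℝ) [SFinite ν]
    (f G : Ω × ℝ → ℝ≥0∞) (hG : Measurable G) (h : ∀ γ, ∀ᵐ τ ∂ν, f (γ, τ) ≤ G (γ, τ)) :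
    ∫⁻ z, f z ∂(μ.prod ν) ≤ ∫⁻ τ, ∫⁻ γ, G (γ, τ) ∂μ ∂ν := by
  obtain ⟨g, hgm, hgf, hge⟩ := exists_measurable_le_lintegral_eq (μ.prod ν) f
  rw [hge, lintegral_prod g hgm.aemeasurable]
  have h1 : ∫⁻ γ, ∫⁻ τ, g (γ, τ) ∂ν ∂μ ≤ ∫⁻ γ, ∫⁻ τ, G (γ, τ) ∂ν ∂μ := by
    refine lintegral_mono fun γ => lintegral_mono_ae ?_
    filter_upwards [h γ] with τ hτ
    exact (hgf (γ, τ)).trans hτ
  refine h1.trans (le_of_eq ?_)
  exact lintegral_lintegral_swap (f := fun γ τ => G (γ, τ)) hG.aemeasurable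

/-- K2. the form used for Lemma 8.8 -/
theorem l8zk_main {Ω : Type} [MeasurableSpace Ω] (μ : Measure Ω) [SFinite μ] (ν : Measure ℝ) [SFinite ν]
    (f : Ω × ℝ → ℝ≥0∞) (M : Ω × ℝ → ℝ) (hM : Measurable M) (hM0 : ∀ z, 0 ≤ M z) (w : ℝ → ℝ) (hw : Measurable w) (K Wt : ℝ) (hWt : 0 ≤ Wt)
    (h : ∀ γ, ∀ᵐ τ ∂ν, f (γ, τ) ≤ ENNReal.ofReal (w τ * M (γ, τ)))
    (hK : ∀ τ, ∫⁻ γ, ENNReal.ofReal (M (γ, τ)) ∂μ ≤ ENNReal.ofReal K)
    (hW : ∫⁻ τ, ENNReal.ofReal (w τ) ∂ν ≤ ENNReal.ofReal Wt) :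
    ∫⁻ z, f z ∂(μ.prod ν) ≤ ENNReal.ofReal (Wt * K) := by
  have hG : Measurable fun z : Ω × ℝ => ENNReal.ofReal (w z.2 * M z) := ((hw.comp measurable_snd).mul hM).ennreal_ofReal
  refine (l8zk_lint μ ν f _ hG h).trans ?_
  have h1 : ∀ τ, ∫⁻ γ, ENNReal.ofReal (w τ * M (γ, τ)) ∂μ ≤ ENNReal.ofReal (w τ) * ENNReal.ofReal K := by
    intro τ
    have e : ∀ γ, ENNReal.ofReal (w τ * M (γ, τ)) = ENNReal.ofReal (w τ) * ENNReal.ofReal (M (γ, τ)) :=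
      fun γ => ENNReal.ofReal_mul' (hM0 _)
    simp only [e]
    have hm : Measurable fun γ : Ω => ENNReal.ofReal (M (γ, τ)) := (hM.comp (measurable_id.prodMk measurable_const)).ennreal_ofReal
    rw [lintegral_const_mul _ hm]
    exact mul_le_mul_right (hK τ) _
  calc ∫⁻ τ, ∫⁻ γ, ENNReal.ofReal (w τ * M (γ, τ)) ∂μ ∂ν ≤ ∫⁻ τ, ENNReal.ofReal (w τ) * ENNReal.ofReal K ∂ν := lintegral_mono h1
    _ = (∫⁻ τ, ENNReal.ofReal (w τ) ∂ν) * ENNReal.ofReal K := lintegral_mul_const _ hw.ennreal_ofReal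
    _ ≤ ENNReal.ofReal Wt * ENNReal.ofReal K := mul_le_mul_left hW _
    _ = ENNReal.ofReal (Wt * K) := (ENNReal.ofReal_mul hWt).symm

/-- K3. `∫_0^1 (1-τ)^(-1/2) dτ = 2` -/
theorem l8zk_sqrt_int (B : ℝ) (hB : 0 ≤ B) :
    ∫⁻ τ, ENNReal.ofReal (B * (1 - τ) ^ (-(1 / 2) : ℝ)) ∂(volume.restrict (Icc (0 : ℝ) 1)) ≤ ENNReal.ofReal (2 * B) := by
  have hi0 : IntervalIntegrable (fun y : ℝ => y ^ (-(1 / 2) : ℝ)) volume 0 1 := intervalIntegral.intervalIntegrable_rpow' (by norm_num)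
  have hi1 : IntervalIntegrable (fun τ : ℝ => (1 - τ) ^ (-(1 / 2) : ℝ)) volume 0 1 := by
    have := hi0.comp_sub_left 1
    simpa using this.symm
  have hi : IntegrableOn (fun τ : ℝ => B * (1 - τ) ^ (-(1 / 2) : ℝ)) (Icc (0 : ℝ) 1) := by
    have := (hi1.const_mul B)
    rw [intervalIntegrable_iff_integrableOn_Icc_of_le zero_le_one] at this
    exact this
  have hnn : 0 ≤ᵐ[volume.restrict (Icc (0 : ℝ) 1)] fun τ : ℝ => B * (1 - τ) ^ (-(1 / 2) : ℝ) := by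
    rw [EventuallyLE, ae_restrict_iff' measurableSet_Icc]
    refine Eventually.of_forall fun τ hτ => ?_
    exact mul_nonneg hB (Real.rpow_nonneg (by linarith [hτ.2]) _)
  rw [← ofReal_integral_eq_lintegral_ofReal hi hnn]
  refine ENNReal.ofReal_le_ofReal (le_of_eq ?_)
  rw [integral_Icc_eq_integral_Ioc, ← intervalIntegral.integral_of_le zero_le_one, intervalIntegral.integral_const_mul,
    intervalIntegral.integral_comp_sub_left (fun y : ℝ => y ^ (-(1 / 2) : ℝ)) 1, integral_rpow (Or.inl (by norm_num))]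
  norm_num
  ring

/-- K4. arithmetic of the coarse part: `λ (x + e_1) U⁴ ≤ 2 x^(5+c)` -/
theorem l8zk_co_num {x lam sS eta pS : ℝ} (hx0 : 0 < x) (hx1 : x ≤ 1) (hl0 : 0 < lam) (hl1 : lam ≤ x ^ pS)
    (hs : 2 / 5 ≤ sS) (hs1 : sS < 1 / 2) (he0 : 0 < eta) (he1 : eta ≤ 1) :
    lam * (x + x ^ 3 / (Real.sqrt (lam ^ (1 + eta)) * (min 1 (x * lam ^ (-(sS / 2)))) ^ (3 / 2 : ℝ))) * (min 1 (x * lam ^ (-(sS / 2)))) ^ 4
      ≤ 2 * x ^ (5 + min (pS * (1 - 2 * sS)) ((1 - eta) / sS - 2)) := by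
  have hsS : 0 < sS := by linarith
  set y := x * lam ^ (-(sS / 2)) with hy
  have hy0 : 0 < y := mul_pos hx0 (Real.rpow_pos_of_pos hl0 _)
  set U := min 1 y with hU
  have hU0 : 0 < U := lt_min one_pos hy0
  have hU1 : U ≤ 1 := min_le_left _ _
  have hUy : U ≤ y := min_le_right _ _
  set θ := (1 - eta) / sS with hθ
  have hθ52 : θ ≤ 5 / 2 := by
    rw [hθ, div_le_iff₀ hsS]
    linarith
  -- first term
  have t1 : lam * x * U ^ 4 ≤ x ^ (5 + pS * (1 - 2 * sS)) := by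
    have a1 : U ^ 4 ≤ y ^ 4 := pow_le_pow_left₀ hU0.le hUy 4
    have a2 : y ^ 4 = x ^ 4 * lam ^ (-(2 * sS)) := by
      rw [hy, mul_pow, ← Real.rpow_natCast (lam ^ (-(sS / 2))) 4, ← Real.rpow_mul hl0.le]
      congr 2
      push_cast
      ring
    have a3 : lam * lam ^ (-(2 * sS)) = lam ^ (1 - 2 * sS) := by
      rw [sub_eq_add_neg, Real.rpow_add hl0, Real.rpow_one]
    have a4 : lam ^ (1 - 2 * sS) ≤ (x ^ pS) ^ (1 - 2 * sS) := Real.rpow_le_rpow hl0.le hl1 (by linarith)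
    have a5 : (x ^ pS) ^ (1 - 2 * sS) = x ^ (pS * (1 - 2 * sS)) := (Real.rpow_mul hx0.le _ _).symm
    have a6 : x ^ (5 + pS * (1 - 2 * sS)) = x ^ 5 * x ^ (pS * (1 - 2 * sS)) := by
      rw [Real.rpow_add hx0, ← Real.rpow_natCast x 5]
      norm_num
    calc lam * x * U ^ 4 ≤ lam * x * y ^ 4 := mul_le_mul_of_nonneg_left a1 (by positivity)
      _ = x ^ 5 * (lam * lam ^ (-(2 * sS))) := by rw [a2]; ring
      _ ≤ x ^ 5 * x ^ (pS * (1 - 2 * sS)) := by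
          rw [a3, ← a5]
          exact mul_le_mul_of_nonneg_left a4 (by positivity)
      _ = _ := a6.symm
  -- second term
  have t2 : lam * (x ^ 3 / (Real.sqrt (lam ^ (1 + eta)) * U ^ (3 / 2 : ℝ))) * U ^ 4 ≤ x ^ (5 + (θ - 2)) := by
    have b1 : U ^ 4 = U ^ (3 / 2 : ℝ) * U ^ (5 / 2 : ℝ) := by
      rw [← Real.rpow_add hU0, ← Real.rpow_natCast U 4]
      norm_num
    have b2 : Real.sqrt (lam ^ (1 + eta)) = lam ^ ((1 + eta) / 2) := by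
      rw [Real.sqrt_eq_rpow, ← Real.rpow_mul hl0.le]
      congr 1
      ring
    have b3 : U ^ (5 / 2 : ℝ) ≤ y ^ θ :=
      (Real.rpow_le_rpow_of_exponent_ge hU0 hU1 hθ52).trans (Real.rpow_le_rpow hU0.le hUy (by rw [hθ]; apply div_nonneg <;> linarith))
    have b4 : y ^ θ = x ^ θ * lam ^ (-((1 - eta) / 2)) := by
      rw [hy, Real.mul_rpow hx0.le (Real.rpow_nonneg hl0.le _), ← Real.rpow_mul hl0.le]
      congr 2
      rw [hθ]
      field_simp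
    have hU32 : 0 < U ^ (3 / 2 : ℝ) := Real.rpow_pos_of_pos hU0 _
    have hl2 : 0 < lam ^ ((1 + eta) / 2) := Real.rpow_pos_of_pos hl0 _
    have b5 : lam * (x ^ 3 / (lam ^ ((1 + eta) / 2) * U ^ (3 / 2 : ℝ))) * (U ^ (3 / 2 : ℝ) * U ^ (5 / 2 : ℝ))
        = x ^ 3 * (lam / lam ^ ((1 + eta) / 2)) * U ^ (5 / 2 : ℝ) := by
      field_simp
    have b6 : lam / lam ^ ((1 + eta) / 2) = lam ^ ((1 - eta) / 2) := by
      have : lam ^ ((1 - eta) / 2) = lam ^ (1 - (1 + eta) / 2) := by congr 1; ring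
      rw [this, Real.rpow_sub hl0, Real.rpow_one]
    have b7 : lam ^ ((1 - eta) / 2) * lam ^ (-((1 - eta) / 2)) = 1 := by
      rw [← Real.rpow_add hl0, add_neg_cancel, Real.rpow_zero]
    have b8 : x ^ (5 + (θ - 2)) = x ^ 3 * x ^ θ := by
      rw [← Real.rpow_natCast x 3, ← Real.rpow_add hx0]
      congr 1
      push_cast
      ring
    rw [b2, b1, b5, b6]
    calc x ^ 3 * lam ^ ((1 - eta) / 2) * U ^ (5 / 2 : ℝ) ≤ x ^ 3 * lam ^ ((1 - eta) / 2) * y ^ θ :=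
          mul_le_mul_of_nonneg_left b3 (mul_nonneg (by positivity) (Real.rpow_nonneg hl0.le _))
      _ = x ^ 3 * x ^ θ * (lam ^ ((1 - eta) / 2) * lam ^ (-((1 - eta) / 2))) := by rw [b4]; ring
      _ = _ := by rw [b7, mul_one, b8]
  have m1 : x ^ (5 + pS * (1 - 2 * sS)) ≤ x ^ (5 + min (pS * (1 - 2 * sS)) (θ - 2)) :=
    Real.rpow_le_rpow_of_exponent_ge hx0 hx1 (by linarith [min_le_left (pS * (1 - 2 * sS)) (θ - 2)])
  have m2 : x ^ (5 + (θ - 2)) ≤ x ^ (5 + min (pS * (1 - 2 * sS)) (θ - 2)) :=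
    Real.rpow_le_rpow_of_exponent_ge hx0 hx1 (by linarith [min_le_right (pS * (1 - 2 * sS)) (θ - 2)])
  calc lam * (x + x ^ 3 / (Real.sqrt (lam ^ (1 + eta)) * U ^ (3 / 2 : ℝ))) * U ^ 4
      = lam * x * U ^ 4 + lam * (x ^ 3 / (Real.sqrt (lam ^ (1 + eta)) * U ^ (3 / 2 : ℝ))) * U ^ 4 := by ring
    _ ≤ _ := by linarith

/-- K5. arithmetic of the first multiplier sweep -/
theorem l8zk_sw1_num {x eta pS : ℝ} (hx0 : 0 < x) (hx1 : x ≤ 1) (hp1 : pS ≤ 1) (he0 : 0 < eta) (he1 : eta ≤ 1 / 2) :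
    x ^ 6 / Real.sqrt ((x ^ pS) ^ (1 + eta)) ≤ x ^ (5 + 1 / 4 : ℝ) := by
  have b2 : Real.sqrt ((x ^ pS) ^ (1 + eta)) = x ^ (pS * (1 + eta) / 2) := by
    rw [Real.sqrt_eq_rpow, ← Real.rpow_mul hx0.le, ← Real.rpow_mul hx0.le]
    congr 1
    ring
  rw [b2, ← Real.rpow_natCast x 6, ← Real.rpow_sub hx0]
  refine Real.rpow_le_rpow_of_exponent_ge hx0 hx1 ?_
  push_cast
  nlinarith

/-- K6. arithmetic of the second multiplier sweep -/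
theorem l8zk_sw2_num {x sS eta pS : ℝ} (hx0 : 0 < x) :
    x ^ 3 * Real.sqrt ((x ^ pS) ^ (1 + eta)) * (min 1 (x * (x ^ pS) ^ (-(sS / 2)))) ^ 2 ≤ x ^ (5 + pS * ((1 + eta) / 2 - sS)) := by
  have b2 : Real.sqrt ((x ^ pS) ^ (1 + eta)) = x ^ (pS * (1 + eta) / 2) := by
    rw [Real.sqrt_eq_rpow, ← Real.rpow_mul hx0.le, ← Real.rpow_mul hx0.le]
    congr 1
    ring
  have hy0 : 0 < x * (x ^ pS) ^ (-(sS / 2)) := mul_pos hx0 (Real.rpow_pos_of_pos (Real.rpow_pos_of_pos hx0 _) _)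
  have a1 : (min 1 (x * (x ^ pS) ^ (-(sS / 2)))) ^ 2 ≤ (x * (x ^ pS) ^ (-(sS / 2))) ^ 2 :=
    pow_le_pow_left₀ (lt_min one_pos hy0).le (min_le_right _ _) 2
  have a2 : (x * (x ^ pS) ^ (-(sS / 2))) ^ 2 = x ^ (2 - pS * sS) := by
    rw [← Real.rpow_mul hx0.le, ← Real.rpow_natCast _ 2]
    nth_rewrite 1 [← Real.rpow_one x]
    rw [← Real.rpow_add hx0, ← Real.rpow_mul hx0.le]
    congr 1
    push_cast
    ring
  rw [b2]
  calc x ^ 3 * x ^ (pS * (1 + eta) / 2) * (min 1 (x * (x ^ pS) ^ (-(sS / 2)))) ^ 2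
      ≤ x ^ 3 * x ^ (pS * (1 + eta) / 2) * x ^ (2 - pS * sS) := by
        rw [← a2]
        exact mul_le_mul_of_nonneg_left a1 (mul_nonneg (by positivity) (Real.rpow_nonneg hx0.le _))
    _ = _ := by
        rw [← Real.rpow_natCast x 3, ← Real.rpow_add hx0, ← Real.rpow_add hx0]
        congr 1
        push_cast
        ring

/-! ## points, thresholds -/

theorem l8zk_pt_ok (F : LlFix) {N : ℕ} (hN : 2 ≤ N) {ell lam chiL chiE : ℝ} (hl : ell ∈ Icc (1 : ℝ) ((2 : ℝ) ^ (1 / 6 : ℝ)))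
    (h1 : skX N ^ (12 : ℝ) ≤ lam) (h2 : lam ≤ skX N ^ F.pS) (hL : chiL ∈ Icc (0 : ℝ) 1) (hE : chiE ∈ Icc (0 : ℝ) 1) (γ : Fin (N + 1) → ℝ) :
    (ll04Pt N ell lam chiL chiE false γ).Ok F := by
  have hcl : ∀ y, ll04Cl y ∈ Icc (-4 : ℝ) 4 := fun y => ⟨by linarith [(ll04w_cl_mem y).1], by linarith [(ll04w_cl_mem y).2]⟩
  refine ⟨hN, hl.1, hl.2, h1, h2, hcl _, fun h => ?_, hL, hE, fun h => absurd h (by simp [ll04Pt])⟩
  show (if hh : h < N then ll04Cl (γ ⟨h + 1, Nat.succ_lt_succ hh⟩) else 1 / 2) ∈ Icc (-4 : ℝ) 4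
  split_ifs
  · exact hcl _
  · constructor <;> norm_num

theorem l8zk_dir1 (F : LlFix) (N : ℕ) (ell : ℝ) (γ : Fin (N + 1) → ℝ) (τ : ℝ) :
    ll04Dir F N ell 1 γ τ = ll04Pt N ell (skX N ^ F.pS) (ll04U 1 τ) 1 false γ := by
  simp [ll04Dir]

theorem l8zk_dir2 (F : LlFix) (N : ℕ) (ell : ℝ) (γ : Fin (N + 1) → ℝ) (τ : ℝ) :
    ll04Dir F N ell 2 γ τ = ll04Pt N ell (skX N ^ F.pS) 1 (1 - ll04U 1 τ) false γ := by
  simp [ll04Dir]

/-- the test `s = q x^(1+ε)` lies in the window `(0, x)` for large `N` -/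
theorem l8zk_small (q ε : ℝ) (hq : 0 < q) (hε : 0 < ε) :
    ∃ N0 : ℕ, ∀ N, N0 ≤ N → 2 ≤ N ∧ 0 < q * skX N ^ (1 + ε) ∧ q * skX N ^ (1 + ε) < skX N := by
  have hlim : Tendsto (fun N : ℕ => skX N ^ ε) atTop (nhds 0) := by
    have h1 : Tendsto (fun N : ℕ => (N : ℝ) ^ (-(ε / 6))) atTop (nhds 0) :=
      (tendsto_rpow_neg_atTop (by positivity : 0 < ε / 6)).comp tendsto_natCast_atTop_atTop
    refine h1.congr fun N => ?_
    unfold skX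
    rw [← Real.rpow_mul (Nat.cast_nonneg N)]
    congr 1
    ring
  obtain ⟨N0, hN0⟩ := eventually_atTop.1 (hlim.eventually (gt_mem_nhds (show 0 < 1 / q by positivity)))
  refine ⟨max N0 2, fun N hN => ?_⟩
  have hN2 : 2 ≤ N := le_trans (le_max_right _ _) hN
  have hx := ll04w_x_mem (N := N) (by omega)
  have h1 := hN0 N (le_trans (le_max_left _ _) hN)
  refine ⟨hN2, mul_pos hq (Real.rpow_pos_of_pos hx.1 _), ?_⟩
  rw [Real.rpow_add hx.1, Real.rpow_one]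
  have h2 : q * skX N ^ ε < 1 := by
    rw [lt_div_iff₀ hq] at h1
    linarith
  nlinarith [hx.1]

/-! ## the multiplier sweeps -/

/-- **Lemma 8.8, second part** -/
theorem l8zk_sw {𝔹 : LlBase} {F : LlFix} {c : ℝ} (hs1 : F.sS < 1 / 2) (he0 : 0 < F.eta) (he1 : F.eta ≤ 1 / 2) (hp0 : 0 < F.pS) (hp1 : F.pS ≤ 1)
    (hM : L8MomSw 𝔹 (l8Mj c) F)
    (hsw : ∀ εs qs δ : ℝ, 0 < εs → 0 < qs → 0 < δ → ∃ (C : ℝ) (N0 : ℕ),
      L8Ev F 𝔹 N0 (fun p => p.sm = false ∧ p.lam = p.x ^ F.pS) fun I => I.s = qs * I.x ^ (1 + εs) → I.Stop (I.x ^ εs) →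
        (I.p.chiE = 1 → 0 < I.p.chiL → I.p.chiL < 1 → |deriv (fun c => I.i9.psi { I.p with chiL := c } I.m) I.p.chiL| ≤ C * I.x ^ (-δ) * I.Z * (I.x ^ 6 / Real.sqrt I.lam1)) ∧
        (I.p.chiL = 1 → 0 < I.p.chiE → I.p.chiE < 1 → |deriv (fun c => I.i9.psi { I.p with chiE := c } I.m) I.p.chiE| ≤
          C * I.x ^ (-δ) * I.Z * (I.p.chiE ^ (-(1 / 2) : ℝ) * (I.x ^ 3 * Real.sqrt I.lam1 * I.U ^ 2)))) :
    L9Switch 𝔹 F := by
  set c' : ℝ := min (1 / 4) (F.pS * ((1 + F.eta) / 2 - F.sS)) with hc'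
  have hc'0 : 0 < c' := lt_min (by norm_num) (mul_pos hp0 (by linarith))
  refine ⟨c' / 2, by positivity, 1, one_pos, fun ε hε _ q hq => ?_⟩
  obtain ⟨C1, N1, h1⟩ := hM (c' / 4) (by positivity)
  obtain ⟨C2, N2, h2⟩ := hsw ε q (c' / 4) hε hq (by positivity)
  obtain ⟨N3, h3⟩ := l8zk_small q ε hq hε
  refine ⟨2 * |C2| * |C1|, max (max N1 N2) N3, fun N hN => ?_⟩
  have hN1 : N1 ≤ N := le_trans (le_trans (le_max_left _ _) (le_max_left _ _)) hN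
  have hN2 : N2 ≤ N := le_trans (le_trans (le_max_right _ _) (le_max_left _ _)) hN
  obtain ⟨hN', hs0, hsx⟩ := h3 N (le_trans (le_max_right _ _) hN)
  have hx := ll04w_x_mem (N := N) (by omega)
  have := ll04a_prob N
  filter_upwards [h1 N hN1, h2 N (q * skX N ^ (1 + ε)) hN2] with Fs a1 a2
  intro m hm1 hm2 ell hell i hi
  obtain ⟨mz, hz⟩ := a1 m hm1 hm2 ell hell i
  set x := skX N with hxd
  have hx0 : 0 < x := hx.1
  have hxδ : 0 < x ^ (-(c' / 4)) := Real.rpow_pos_of_pos hx.1 _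
  have hx5 : 0 < x ^ (5 + c') := Real.rpow_pos_of_pos hx.1 _
  have hl12 : x ^ (12 : ℝ) ≤ x ^ F.pS := Real.rpow_le_rpow_of_exponent_ge hx.1 hx.2 (by linarith)
  -- the common end of the two cases
  have fin : ∀ (w : ℝ → ℝ), Measurable w →
      (∀ γ : Fin (N + 1) → ℝ, ∀ τ ∈ Ioo (0 : ℝ) 1, q * x ^ (1 + ε) * (m : ℝ) * (⟨F, 𝔹, q * x ^ (1 + ε), Fs, m⟩ : L9I).psi (ll04Dir F N ell i γ τ) m ≤ 4 * x ^ ε →
        |deriv (fun t' => (⟨F, 𝔹, q * x ^ (1 + ε), Fs, m⟩ : L9I).psi (ll04Dir F N ell i γ t') m) τ|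
          ≤ w τ * (l8Mj c).Z F 𝔹 Fs (ll04Dir F N ell i γ τ) m ^ 4) →
      ∫⁻ τ, ENNReal.ofReal (w τ) ∂(volume.restrict (Icc (0 : ℝ) 1)) ≤ ENNReal.ofReal (2 * (|C2| * x ^ (-(c' / 4)) * x ^ (5 + c'))) →
      ∫⁻ z : (Fin (N + 1) → ℝ) × ℝ, (if q * x ^ (1 + ε) * (m : ℝ) * (⟨F, 𝔹, q * x ^ (1 + ε), Fs, m⟩ : L9I).psi (ll04Dir F N ell i z.1 z.2) m ≤ 4 * x ^ ε
          then ENNReal.ofReal |deriv (fun t' => (⟨F, 𝔹, q * x ^ (1 + ε), Fs, m⟩ : L9I).psi (ll04Dir F N ell i z.1 t') m) z.2| else 0)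
        ∂((ll04Mu N).prod (volume.restrict (Icc (0 : ℝ) 1))) ≤ ENNReal.ofReal (2 * |C2| * |C1| * x ^ (5 + c' / 2)) := by
    intro w hw hpt hW
    have key := l8zk_main (ll04Mu N) (volume.restrict (Icc (0 : ℝ) 1))
      (fun z : (Fin (N + 1) → ℝ) × ℝ => if q * x ^ (1 + ε) * (m : ℝ) * (⟨F, 𝔹, q * x ^ (1 + ε), Fs, m⟩ : L9I).psi (ll04Dir F N ell i z.1 z.2) m ≤ 4 * x ^ ε
          then ENNReal.ofReal |deriv (fun t' => (⟨F, 𝔹, q * x ^ (1 + ε), Fs, m⟩ : L9I).psi (ll04Dir F N ell i z.1 t') m) z.2| else 0)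
      (fun z => (l8Mj c).Z F 𝔹 Fs (ll04Dir F N ell i z.1 z.2) m ^ 4) (mz.pow_const 4) (fun z => by positivity) w hw
      (C1 * x ^ (-(c' / 4))) (2 * (|C2| * x ^ (-(c' / 4)) * x ^ (5 + c'))) (by positivity) ?_ (fun τ => (hz τ).2) hW
    · refine key.trans (ENNReal.ofReal_le_ofReal ?_)
      have e1 : x ^ (-(c' / 4)) * x ^ (5 + c') * x ^ (-(c' / 4)) = x ^ (5 + c' / 2) := by
        rw [← Real.rpow_add hx.1, ← Real.rpow_add hx.1]
        congr 1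
        ring
      calc 2 * (|C2| * x ^ (-(c' / 4)) * x ^ (5 + c')) * (C1 * x ^ (-(c' / 4)))
          = 2 * |C2| * C1 * (x ^ (-(c' / 4)) * x ^ (5 + c') * x ^ (-(c' / 4))) := by ring
        _ ≤ 2 * |C2| * |C1| * (x ^ (-(c' / 4)) * x ^ (5 + c') * x ^ (-(c' / 4))) :=
            mul_le_mul_of_nonneg_right (mul_le_mul_of_nonneg_left (le_abs_self C1) (by positivity)) (by positivity)
        _ = _ := by rw [e1]
    · intro γ
      rw [ae_restrict_iff' measurableSet_Icc]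
      refine l9f_ae_Ioo 1 _ (Eventually.of_forall fun τ hτ => ?_)
      show (if _ then _ else _) ≤ _
      split_ifs with hst
      · exact ENNReal.ofReal_le_ofReal (hpt γ τ hτ hst)
      · exact bot_le
  have hi' : i = 1 ∨ i = 2 := by
    fin_cases i
    · exact absurd rfl hi
    · exact Or.inl rfl
    · exact Or.inr rfl
  have hc14 : x ^ (5 + 1 / 4 : ℝ) ≤ x ^ (5 + c') := Real.rpow_le_rpow_of_exponent_ge hx.1 hx.2 (by linarith [min_le_left (1 / 4 : ℝ) (F.pS * ((1 + F.eta) / 2 - F.sS))])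
  have hc2 : x ^ (5 + F.pS * ((1 + F.eta) / 2 - F.sS)) ≤ x ^ (5 + c') :=
    Real.rpow_le_rpow_of_exponent_ge hx.1 hx.2 (by linarith [min_le_right (1 / 4 : ℝ) (F.pS * ((1 + F.eta) / 2 - F.sS))])
  have hZ4 : ∀ Z : ℝ, 1 ≤ Z → Z ≤ Z ^ 4 := fun Z hZ => by
    have : (1 : ℝ) ≤ Z ^ 3 := one_le_pow₀ hZ
    nlinarith
  rcases hi' with rfl | rfl
  · -- `i = 1`
    refine fin (fun _ => |C2| * x ^ (-(c' / 4)) * x ^ (5 + c')) measurable_const (fun γ τ hτ hst => ?_) ?_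
    · have hpt : ll04Dir F N ell 1 γ τ = ll04Pt N ell (x ^ F.pS) τ 1 false γ := by
        rw [l8zk_dir1, ll04w_U_of_mem ⟨hτ.1.le, hτ.2.le⟩]
      have hOk : (L8In.mk F 𝔹 (ll04Pt N ell (x ^ F.pS) τ 1 false γ) m (q * x ^ (1 + ε)) Fs).Ok :=
        ⟨l8zk_pt_ok F hN' hell hl12 le_rfl ⟨hτ.1.le, hτ.2.le⟩ ⟨zero_le_one, le_rfl⟩ γ, hm1, hm2, hs0, hsx⟩
      have hb := (a2 ell (x ^ F.pS) τ 1 false γ m ⟨rfl, rfl⟩ hOk rfl (by rw [hpt] at hst; exact hst)).1 rfl hτ.1 hτ.2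
      have hZ := (l8_Z_eq _ hOk.pt c).1
      have hZ1 := (hz τ).1 γ
      rw [hpt] at hZ1 ⊢
      have hZ' : (l8Mj c).Z F 𝔹 Fs (ll04Pt N ell (x ^ F.pS) τ 1 false γ) m
          = (L8In.mk F 𝔹 (ll04Pt N ell (x ^ F.pS) τ 1 false γ) m (q * x ^ (1 + ε)) Fs).Z := hZ
      rw [hZ'] at hZ1 ⊢
      set Z := (L8In.mk F 𝔹 (ll04Pt N ell (x ^ F.pS) τ 1 false γ) m (q * x ^ (1 + ε)) Fs).Z with hZd
      have hd : deriv (fun t' => (⟨F, 𝔹, q * x ^ (1 + ε), Fs, m⟩ : L9I).psi (ll04Dir F N ell 1 γ t') m) τ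
          = deriv (fun c => (⟨F, 𝔹, q * x ^ (1 + ε), Fs, m⟩ : L9I).psi (ll04Pt N ell (x ^ F.pS) c 1 false γ) m) τ := by
        rw [← l9f_deriv_clamp (fun c => (⟨F, 𝔹, q * x ^ (1 + ε), Fs, m⟩ : L9I).psi (ll04Pt N ell (x ^ F.pS) c 1 false γ) m) 1 τ hτ]
        refine congrArg (fun f => deriv f τ) (funext fun t' => ?_)
        rw [l8zk_dir1]
      rw [hd]
      have hnum := l8zk_sw1_num (x := x) (eta := F.eta) (pS := F.pS) hx.1 hx.2 hp1 he0 he1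
      have hb' : |deriv (fun c => (⟨F, 𝔹, q * x ^ (1 + ε), Fs, m⟩ : L9I).psi (ll04Pt N ell (x ^ F.pS) c 1 false γ) m) τ|
          ≤ C2 * x ^ (-(c' / 4)) * Z * (x ^ 6 / Real.sqrt ((x ^ F.pS) ^ (1 + F.eta))) := hb
      have hq0 : 0 ≤ x ^ 6 / Real.sqrt ((x ^ F.pS) ^ (1 + F.eta)) := by positivity
      have hZ0 : 0 ≤ Z := by linarith
      calc _ ≤ C2 * x ^ (-(c' / 4)) * Z * (x ^ 6 / Real.sqrt ((x ^ F.pS) ^ (1 + F.eta))) := hb'
        _ ≤ |C2| * x ^ (-(c' / 4)) * Z * (x ^ 6 / Real.sqrt ((x ^ F.pS) ^ (1 + F.eta))) := by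
            refine mul_le_mul_of_nonneg_right (mul_le_mul_of_nonneg_right (mul_le_mul_of_nonneg_right (le_abs_self C2) hxδ.le) hZ0) hq0
        _ ≤ |C2| * x ^ (-(c' / 4)) * Z ^ 4 * x ^ (5 + c') :=
            mul_le_mul (mul_le_mul_of_nonneg_left (hZ4 Z hZ1) (by positivity)) (hnum.trans hc14) hq0 (by positivity)
        _ = _ := by ring
    · rw [lintegral_const, Measure.restrict_apply MeasurableSet.univ, univ_inter, Real.volume_Icc, sub_zero, ENNReal.ofReal_one, mul_one]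
      refine ENNReal.ofReal_le_ofReal ?_
      have : 0 ≤ |C2| * x ^ (-(c' / 4)) * x ^ (5 + c') := by positivity
      linarith
  · -- `i = 2`
    refine fin (fun τ => |C2| * x ^ (-(c' / 4)) * x ^ (5 + c') * (1 - τ) ^ (-(1 / 2) : ℝ))
      (measurable_const.mul ((measurable_const.sub measurable_id).pow_const _)) (fun γ τ hτ hst => ?_)
      (l8zk_sqrt_int _ (by positivity))
    have h1τ : 0 < 1 - τ := by linarith [hτ.2]
    have hpt : ll04Dir F N ell 2 γ τ = ll04Pt N ell (x ^ F.pS) 1 (1 - τ) false γ := by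
      rw [l8zk_dir2, ll04w_U_of_mem ⟨hτ.1.le, hτ.2.le⟩]
    have hOk : (L8In.mk F 𝔹 (ll04Pt N ell (x ^ F.pS) 1 (1 - τ) false γ) m (q * x ^ (1 + ε)) Fs).Ok :=
      ⟨l8zk_pt_ok F hN' hell hl12 le_rfl ⟨zero_le_one, le_rfl⟩ ⟨h1τ.le, by linarith [hτ.1]⟩ γ, hm1, hm2, hs0, hsx⟩
    have hb := (a2 ell (x ^ F.pS) 1 (1 - τ) false γ m ⟨rfl, rfl⟩ hOk rfl (by rw [hpt] at hst; exact hst)).2 rfl h1τ (by show 1 - τ < 1; linarith [hτ.1])
    have hZ := (l8_Z_eq _ hOk.pt c).1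
    have hZ1 := (hz τ).1 γ
    rw [hpt] at hZ1 ⊢
    have hZ' : (l8Mj c).Z F 𝔹 Fs (ll04Pt N ell (x ^ F.pS) 1 (1 - τ) false γ) m
        = (L8In.mk F 𝔹 (ll04Pt N ell (x ^ F.pS) 1 (1 - τ) false γ) m (q * x ^ (1 + ε)) Fs).Z := hZ
    rw [hZ'] at hZ1 ⊢
    set Z := (L8In.mk F 𝔹 (ll04Pt N ell (x ^ F.pS) 1 (1 - τ) false γ) m (q * x ^ (1 + ε)) Fs).Z with hZd
    have hd : deriv (fun t' => (⟨F, 𝔹, q * x ^ (1 + ε), Fs, m⟩ : L9I).psi (ll04Dir F N ell 2 γ t') m) τ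
        = (-1) * deriv (fun c => (⟨F, 𝔹, q * x ^ (1 + ε), Fs, m⟩ : L9I).psi (ll04Pt N ell (x ^ F.pS) 1 c false γ) m) (1 - τ) := by
      have e1 := l9f_deriv_aff (fun c => (⟨F, 𝔹, q * x ^ (1 + ε), Fs, m⟩ : L9I).psi (ll04Pt N ell (x ^ F.pS) 1 c false γ) m) (-1) 1 τ
      have e2 : (-1 : ℝ) * τ + 1 = 1 - τ := by ring
      rw [e2] at e1
      rw [← e1, ← l9f_deriv_clamp (fun t => (⟨F, 𝔹, q * x ^ (1 + ε), Fs, m⟩ : L9I).psi (ll04Pt N ell (x ^ F.pS) 1 (-1 * t + 1) false γ) m) 1 τ hτ]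
      refine congrArg (fun f => deriv f τ) (funext fun t' => ?_)
      rw [l8zk_dir2]
      have e3 : (-1 : ℝ) * ll04U 1 t' + 1 = 1 - ll04U 1 t' := by ring
      rw [e3]
    rw [hd, abs_mul, abs_neg, abs_one, one_mul]
    have hnum := l8zk_sw2_num (x := x) (sS := F.sS) (eta := F.eta) (pS := F.pS) hx.1
    have hb' : |deriv (fun c => (⟨F, 𝔹, q * x ^ (1 + ε), Fs, m⟩ : L9I).psi (ll04Pt N ell (x ^ F.pS) 1 c false γ) m) (1 - τ)|
        ≤ C2 * x ^ (-(c' / 4)) * Z * ((1 - τ) ^ (-(1 / 2) : ℝ)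
          * (x ^ 3 * Real.sqrt ((x ^ F.pS) ^ (1 + F.eta)) * (min 1 (x * (x ^ F.pS) ^ (-(F.sS / 2)))) ^ 2)) := hb
    have hr0 : 0 ≤ (1 - τ) ^ (-(1 / 2) : ℝ) := Real.rpow_nonneg h1τ.le _
    have hq0 : 0 ≤ x ^ 3 * Real.sqrt ((x ^ F.pS) ^ (1 + F.eta)) * (min 1 (x * (x ^ F.pS) ^ (-(F.sS / 2)))) ^ 2 := by positivity
    have hZ0 : 0 ≤ Z := by linarith
    calc _ ≤ C2 * x ^ (-(c' / 4)) * Z * ((1 - τ) ^ (-(1 / 2) : ℝ)
          * (x ^ 3 * Real.sqrt ((x ^ F.pS) ^ (1 + F.eta)) * (min 1 (x * (x ^ F.pS) ^ (-(F.sS / 2)))) ^ 2)) := hb'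
      _ ≤ |C2| * x ^ (-(c' / 4)) * Z * ((1 - τ) ^ (-(1 / 2) : ℝ)
          * (x ^ 3 * Real.sqrt ((x ^ F.pS) ^ (1 + F.eta)) * (min 1 (x * (x ^ F.pS) ^ (-(F.sS / 2)))) ^ 2)) := by
          refine mul_le_mul_of_nonneg_right (mul_le_mul_of_nonneg_right (mul_le_mul_of_nonneg_right (le_abs_self C2) hxδ.le) hZ0)
            (mul_nonneg hr0 hq0)
      _ ≤ |C2| * x ^ (-(c' / 4)) * Z ^ 4 * ((1 - τ) ^ (-(1 / 2) : ℝ) * x ^ (5 + c')) :=
          mul_le_mul (mul_le_mul_of_nonneg_left (hZ4 Z hZ1) (by positivity)) (mul_le_mul_of_nonneg_left (hnum.trans hc2) hr0)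
            (mul_nonneg hr0 hq0) (by positivity)
      _ = _ := by ring

/-! ## the strength sweep, `Y > x^κ` -/

/-- `x^12 ≤ e^t ≤ x^(p_*)` on the range of `t = log λ` -/
theorem l8zk_exp_mem (F : LlFix) {N : ℕ} (hN : 1 ≤ N) {t : ℝ} (ht : t ∈ l9LamRg F N) : skX N ^ (12 : ℝ) ≤ Real.exp t ∧ Real.exp t ≤ skX N ^ F.pS := by
  have hx := (ll04w_x_mem hN).1
  rw [Real.rpow_def_of_pos hx, Real.rpow_def_of_pos hx]
  exact ⟨Real.exp_le_exp.2 (by rw [mul_comm]; exact ht.1.le), Real.exp_le_exp.2 (by rw [mul_comm]; exact ht.2.le)⟩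

/-- strict version, at an interior parameter -/
theorem l8zk_exp_lt (F : LlFix) {N : ℕ} (hN : 2 ≤ N) (hp : F.pS < 12) {τ : ℝ} (hτ : τ ∈ Ioo (0 : ℝ) 1) :
    skX N ^ (12 : ℝ) < Real.exp (l9T F N τ) ∧ Real.exp (l9T F N τ) < skX N ^ F.pS := by
  have hx := (ll04w_x_mem (N := N) (by omega)).1
  have hxlt : skX N < 1 := by
    unfold skX
    exact Real.rpow_lt_one_of_one_lt_of_neg (by exact_mod_cast (by omega : 1 < N)) (by norm_num)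
  have hlog : Real.log (skX N) < 0 := Real.log_neg hx hxlt
  have hapos : 0 < (F.pS - 12) * Real.log (skX N) := mul_pos_of_neg_of_neg (by linarith) hlog
  rw [Real.rpow_def_of_pos hx, Real.rpow_def_of_pos hx, l9f_T_eq F N τ]
  constructor
  · refine Real.exp_lt_exp.2 ?_
    nlinarith [mul_pos hapos hτ.1]
  · refine Real.exp_lt_exp.2 ?_
    have : (F.pS - 12) * Real.log (skX N) * τ < (F.pS - 12) * Real.log (skX N) := by nlinarith [hτ.2]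
    nlinarith

/-- the margin of the exponents of the first part is positive -/
theorem l8zk_c_pos {sS eta pS : ℝ} (hs : 0 < sS) (hs1 : sS < 1 / 2) (he : eta < 1 - 2 * sS) (hp0 : 0 < pS) :
    0 < min (pS * (1 - 2 * sS)) ((1 - eta) / sS - 2) := by
  refine lt_min (mul_pos hp0 (by linarith)) ?_
  rw [sub_pos, lt_div_iff₀ hs]
  linarith

/-- **Lemma 8.8, first part** -/
theorem l8zk_co {𝔹 : LlBase} {F : LlFix} {c : ℝ} (hs : 2 / 5 ≤ F.sS) (hs1 : F.sS < 1 / 2) (he0 : 0 < F.eta) (he : F.eta < 1 - 2 * F.sS) (hp0 : 0 < F.pS)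
    (hp1 : F.pS ≤ 1) (hM : L8MomSw 𝔹 (l8Mj c) F)
    (hco : ∀ εs qs δ : ℝ, 0 < εs → 0 < qs → 0 < δ → ∃ (C : ℝ) (N0 : ℕ),
      L8Ev F 𝔹 N0 l8Dir fun I => I.s = qs * I.x ^ (1 + εs) → I.Stop (I.x ^ εs) → I.x ^ (12 : ℝ) < I.lam → I.lam < I.x ^ F.pS → I.i9.Dif (fun t => I.p.wLam t) (Real.log I.lam) →
        |deriv (fun t => I.i9.psi (I.p.wLam t) I.m) (Real.log I.lam)| ≤ C * I.x ^ (-δ) * I.lam * (I.x + I.x ^ 3 / (Real.sqrt I.lam1 * I.U ^ (3 / 2 : ℝ))))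
    (hdif : ∃ N0 : ℕ, ∀ N, N0 ≤ N → ∀ (s : ℝ) (Fs : Finset GhPos) (m : ℕ), ∀ ell ∈ Icc (1 : ℝ) ((2 : ℝ) ^ (1 / 6 : ℝ)),
      ∀ γ : Fin (N + 1) → ℝ, ∀ᵐ t : ℝ, t ∈ l9LamRg F N → (⟨F, 𝔹, s, Fs, m⟩ : L9I).Dif (l9PtL N ell γ) t)
    (κ : ℝ) (hκ : 16 * κ ≤ min (F.pS * (1 - 2 * F.sS)) ((1 - F.eta) / F.sS - 2)) (c2 : ℝ) :
    L9Coarse 𝔹 (l8Mj c2) κ F := by
  have hsS : 0 < F.sS := by linarith
  set c' : ℝ := min (F.pS * (1 - 2 * F.sS)) ((1 - F.eta) / F.sS - 2) with hc'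
  have hc'0 : 0 < c' := l8zk_c_pos hsS hs1 he hp0
  set δ : ℝ := c' / 8 with hδ
  have hδ0 : 0 < δ := by positivity
  refine ⟨c' / 4, by positivity, 1, one_pos, fun ε hε _ q hq => ?_⟩
  obtain ⟨C1, N1, h1⟩ := hM δ hδ0
  obtain ⟨C2, N2, h2⟩ := hco ε q δ hε hq hδ0
  obtain ⟨N3, h3⟩ := l8zk_small q ε hq hε
  obtain ⟨N4, h4⟩ := hdif
  refine ⟨24 / δ * |C2| * |C1|, max (max N1 N2) (max N3 N4), fun N hN => ?_⟩
  have hN1 : N1 ≤ N := le_trans (le_trans (le_max_left _ _) (le_max_left _ _)) hN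
  have hN2 : N2 ≤ N := le_trans (le_trans (le_max_right _ _) (le_max_left _ _)) hN
  have hN4 : N4 ≤ N := le_trans (le_trans (le_max_right _ _) (le_max_right _ _)) hN
  obtain ⟨hN', hs0, hsx⟩ := h3 N (le_trans (le_trans (le_max_left _ _) (le_max_right _ _)) hN)
  have hN1' : 1 ≤ N := by omega
  have hx := ll04w_x_mem (N := N) hN1'
  have := ll04a_prob N
  filter_upwards [h1 N hN1, h2 N (q * skX N ^ (1 + ε)) hN2] with Fs a1 a2
  intro m hm1 hm2 ell hell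
  obtain ⟨mz, hz⟩ := a1 m hm1 hm2 ell hell 0
  have hxlt : skX N < 1 := by
    unfold skX
    exact Real.rpow_lt_one_of_one_lt_of_neg (by exact_mod_cast (by omega : 1 < N)) (by norm_num)
  set x := skX N with hxd
  have hx0 : 0 < x := hx.1
  have hxδ : 0 < x ^ (-δ) := Real.rpow_pos_of_pos hx.1 _
  have hx5 : 0 < x ^ (5 + c') := Real.rpow_pos_of_pos hx.1 _
  have hxκ : 0 < x ^ (-(4 * κ)) := Real.rpow_pos_of_pos hx.1 _
  have hlog : Real.log x < 0 := Real.log_neg hx0 hxlt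
  set a : ℝ := (F.pS - 12) * Real.log x with ha
  have ha0 : a ≠ 0 := mul_ne_zero (by linarith) hlog.ne
  have haB : |a| ≤ 12 * (x ^ (-δ) / δ) := by
    rw [ha, abs_mul]
    refine mul_le_mul ?_ (l9f_log hx hδ0) (abs_nonneg _) (by norm_num)
    rw [abs_of_nonpos (by linarith)]
    linarith
  set B : ℝ := 12 * (x ^ (-δ) / δ) * (|C2| * x ^ (-δ)) * (x ^ (-(4 * κ)) * (2 * x ^ (5 + c'))) with hB
  have hB0 : 0 ≤ B := by positivity
  have key := l8zk_main (ll04Mu N) (volume.restrict (Icc (0 : ℝ) 1))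
    (fun z : (Fin (N + 1) → ℝ) × ℝ => if q * x ^ (1 + ε) * (m : ℝ) * (⟨F, 𝔹, q * x ^ (1 + ε), Fs, m⟩ : L9I).psi (ll04Dir F N ell 0 z.1 z.2) m ≤ 4 * x ^ ε ∧
            x ^ κ < (ll04Dir F N ell 0 z.1 z.2).U F * (l8Mj c2).Z F 𝔹 Fs (ll04Dir F N ell 0 z.1 z.2) m
          then ENNReal.ofReal |deriv (fun t' => (⟨F, 𝔹, q * x ^ (1 + ε), Fs, m⟩ : L9I).psi (ll04Dir F N ell 0 z.1 t') m) z.2| else 0)
    (fun z => (l8Mj c).Z F 𝔹 Fs (ll04Dir F N ell 0 z.1 z.2) m ^ 4) (mz.pow_const 4) (fun z => by positivity) (fun _ => B) measurable_const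
    (C1 * x ^ (-δ)) B hB0 ?_ (fun τ => (hz τ).2) ?_
  · refine key.trans (ENNReal.ofReal_le_ofReal ?_)
    have e1 : x ^ (-δ) * x ^ (-δ) * x ^ (-(4 * κ)) * x ^ (5 + c') * x ^ (-δ) ≤ x ^ (5 + c' / 4) := by
      rw [← Real.rpow_add hx.1, ← Real.rpow_add hx.1, ← Real.rpow_add hx.1, ← Real.rpow_add hx.1]
      refine Real.rpow_le_rpow_of_exponent_ge hx.1 hx.2 ?_
      rw [hδ]
      linarith
    calc B * (C1 * x ^ (-δ)) = 24 / δ * |C2| * C1 * (x ^ (-δ) * x ^ (-δ) * x ^ (-(4 * κ)) * x ^ (5 + c') * x ^ (-δ)) := by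
          rw [hB]; ring
      _ ≤ 24 / δ * |C2| * |C1| * (x ^ (-δ) * x ^ (-δ) * x ^ (-(4 * κ)) * x ^ (5 + c') * x ^ (-δ)) :=
          mul_le_mul_of_nonneg_right (mul_le_mul_of_nonneg_left (le_abs_self C1) (by positivity)) (by positivity)
      _ ≤ _ := mul_le_mul_of_nonneg_left e1 (by positivity)
  · intro γ
    rw [ae_restrict_iff' measurableSet_Icc]
    have hd1 := l9f_ae_aff a (12 * Real.log x) ha0 _ (h4 N hN4 (q * x ^ (1 + ε)) Fs m ell hell γ)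
    refine l9f_ae_Ioo 1 _ ?_
    filter_upwards [hd1] with τ hdτ hτ
    show (if _ then _ else _) ≤ _
    split_ifs with hst
    swap
    · exact bot_le
    refine ENNReal.ofReal_le_ofReal ?_
    obtain ⟨hst, hev⟩ := hst
    have hτ' : τ ∈ Icc (0 : ℝ) 1 := ⟨hτ.1.le, hτ.2.le⟩
    have hT : l9T F N τ = a * τ + 12 * Real.log x := l9f_T_eq F N τ
    rw [← hT] at hdτ
    set t := l9T F N τ with ht
    have htm : t ∈ l9LamRg F N := l9f_T_mem F ha0 (by linarith) hN1' hτ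
    have hDif := hdτ htm
    have hpt : ll04Dir F N ell 0 γ τ = ll04Pt N ell (Real.exp t) 0 1 false γ := by
      rw [l9f_dir0_pt F hN1', ll04w_U_of_mem hτ']
      rfl
    obtain ⟨hl1, hl2⟩ := l8zk_exp_mem F hN1' htm
    have hOk : (L8In.mk F 𝔹 (ll04Pt N ell (Real.exp t) 0 1 false γ) m (q * x ^ (1 + ε)) Fs).Ok :=
      ⟨l8zk_pt_ok F hN' hell hl1 hl2 ⟨le_rfl, zero_le_one⟩ ⟨zero_le_one, le_rfl⟩ γ, hm1, hm2, hs0, hsx⟩
    have hlg : Real.log (L8In.mk F 𝔹 (ll04Pt N ell (Real.exp t) 0 1 false γ) m (q * x ^ (1 + ε)) Fs).lam = t := Real.log_exp t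
    obtain ⟨hl1', hl2'⟩ := l8zk_exp_lt F hN' (by linarith) hτ
    have hb := a2 ell (Real.exp t) 0 1 false γ m ⟨rfl, rfl, rfl⟩ hOk rfl (by rw [hpt] at hst; exact hst) hl1' hl2' (by rw [hlg]; exact hDif)
    rw [hlg] at hb
    have hZ := (l8_Z_eq _ hOk.pt c).1
    have hZ1 := (hz τ).1 γ
    rw [hpt] at hZ1 hev ⊢
    have hZ' : (l8Mj c).Z F 𝔹 Fs (ll04Pt N ell (Real.exp t) 0 1 false γ) m
        = (L8In.mk F 𝔹 (ll04Pt N ell (Real.exp t) 0 1 false γ) m (q * x ^ (1 + ε)) Fs).Z := hZ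
    have hZ'' : (l8Mj c2).Z F 𝔹 Fs (ll04Pt N ell (Real.exp t) 0 1 false γ) m
        = (L8In.mk F 𝔹 (ll04Pt N ell (Real.exp t) 0 1 false γ) m (q * x ^ (1 + ε)) Fs).Z := hZ
    rw [hZ'] at hZ1 ⊢
    rw [hZ''] at hev
    set Z := (L8In.mk F 𝔹 (ll04Pt N ell (Real.exp t) 0 1 false γ) m (q * x ^ (1 + ε)) Fs).Z with hZd
    rw [l9f_dir0_deriv F hN1' ell γ (fun p => (⟨F, 𝔹, q * x ^ (1 + ε), Fs, m⟩ : L9I).psi p m) hτ, abs_mul]
    set lam := Real.exp t with hlam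
    have hlam0 : 0 < lam := Real.exp_pos t
    set U := min 1 (x * lam ^ (-(F.sS / 2))) with hU
    have hU0 : 0 < U := lt_min one_pos (mul_pos hx0 (Real.rpow_pos_of_pos hlam0 _))
    have hb' : |deriv (fun t' => (⟨F, 𝔹, q * x ^ (1 + ε), Fs, m⟩ : L9I).psi (l9PtL N ell γ t') m) t|
        ≤ C2 * x ^ (-δ) * lam * (x + x ^ 3 / (Real.sqrt (lam ^ (1 + F.eta)) * U ^ (3 / 2 : ℝ))) := hb
    have hev' : x ^ κ < U * Z := hev
    have hnum : lam * (x + x ^ 3 / (Real.sqrt (lam ^ (1 + F.eta)) * U ^ (3 / 2 : ℝ))) * U ^ 4 ≤ 2 * x ^ (5 + c') :=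
      l8zk_co_num hx.1 hx.2 hlam0 hl2 hs hs1 he0 (by linarith)
    set E := lam * (x + x ^ 3 / (Real.sqrt (lam ^ (1 + F.eta)) * U ^ (3 / 2 : ℝ))) with hE
    have hE0 : 0 ≤ E := by positivity
    have hZ0 : 0 ≤ Z := by linarith
    have hmk : 1 ≤ x ^ (-(4 * κ)) * (U * Z) ^ 4 := by
      have g1 : (x ^ κ) ^ 4 ≤ (U * Z) ^ 4 := pow_le_pow_left₀ (Real.rpow_nonneg hx0.le _) hev'.le 4
      have g2 : (x ^ κ) ^ 4 = x ^ (4 * κ) := by
        rw [← Real.rpow_natCast (x ^ κ) 4, ← Real.rpow_mul hx0.le]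
        congr 1
        push_cast
        ring
      have g3 : x ^ (-(4 * κ)) * x ^ (4 * κ) = 1 := by rw [← Real.rpow_add hx0, neg_add_cancel, Real.rpow_zero]
      calc (1 : ℝ) = x ^ (-(4 * κ)) * x ^ (4 * κ) := g3.symm
        _ ≤ _ := mul_le_mul_of_nonneg_left (by rw [← g2]; exact g1) hxκ.le
    have hb2 : |deriv (fun t' => (⟨F, 𝔹, q * x ^ (1 + ε), Fs, m⟩ : L9I).psi (l9PtL N ell γ t') m) t| ≤ |C2| * x ^ (-δ) * E := by
      refine hb'.trans ?_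
      have : C2 * x ^ (-δ) * lam * (x + x ^ 3 / (Real.sqrt (lam ^ (1 + F.eta)) * U ^ (3 / 2 : ℝ))) = C2 * x ^ (-δ) * E := by rw [hE]; ring
      rw [this]
      exact mul_le_mul_of_nonneg_right (mul_le_mul_of_nonneg_right (le_abs_self C2) hxδ.le) hE0
    have hE2 : E ≤ x ^ (-(4 * κ)) * (2 * x ^ (5 + c')) * Z ^ 4 := by
      calc E = E * 1 := (mul_one E).symm
        _ ≤ E * (x ^ (-(4 * κ)) * (U * Z) ^ 4) := mul_le_mul_of_nonneg_left hmk hE0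
        _ = x ^ (-(4 * κ)) * (E * U ^ 4) * Z ^ 4 := by ring
        _ ≤ _ := mul_le_mul_of_nonneg_right (mul_le_mul_of_nonneg_left hnum hxκ.le) (by positivity)
    calc |a| * |deriv (fun t' => (⟨F, 𝔹, q * x ^ (1 + ε), Fs, m⟩ : L9I).psi (l9PtL N ell γ t') m) t|
        ≤ 12 * (x ^ (-δ) / δ) * (|C2| * x ^ (-δ) * (x ^ (-(4 * κ)) * (2 * x ^ (5 + c')) * Z ^ 4)) :=
          mul_le_mul haB (hb2.trans (mul_le_mul_of_nonneg_left hE2 (by positivity))) (abs_nonneg _) (by positivity)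
      _ = B * Z ^ 4 := by rw [hB]; ring
  · rw [lintegral_const, Measure.restrict_apply MeasurableSet.univ, univ_inter, Real.volume_Icc, sub_zero, ENNReal.ofReal_one, mul_one]

end Claimed.Agent.R286
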