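import Claimed.Agent.R286.L08.CS
import Claimed.Agent.R286.L09.Contract
import Claimed.Agent.R286.L09.IncGlue
import Claimed.Agent.R286.LL04.Contract
import Claimed.Agent.R286.Brg.PrLeaf
import Claimed.Agent.R286.L08.GlueZK
import Claimed.Agent.R286.LL04.ClkY

/-!
# Row 286 (S0533), folder L08, file CSP : COARSE PATHS AND MULTIPLIER CHANGES, FROM THE STEP LEVEL TO `L9Coarse`, `L9Switch`      (owner helper78; prefix `l8y_`, `L8y`, `l8y`)

TEX[LL:lem:statistics-coarse-switch]  (LL 08-statistics l.925-1010).   EXPORTS (targets typed by 216 in `L09/Contract.lean`, consumed by `l9_fin`):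

    l8y_coarse : L8yClk + L9Reg + L9Mom  ⟹  L9Coarse 𝔹 Mj κ F      (κ small)
    l8y_switch : L8yClk + L8yTile        ⟹  L9Switch 𝔹 F

SUPPLIES (closed `Prop`s, to be proved by their owners):
* `L8yClk 𝔹 F`   (LL03: 272 / 253)   the direct clocks at FUNCTION level: admissible, `b` constant on `[0,x]`, logarithmic lower slope `λ_1 U³` of `h` on `[x,ℓ]` (03 l.425-437: `h - H_lo` nondecreasing),
                  equicontinuity in the mass (uniform in the parameters), sup-Lipschitz in `λ` with constant `C x^(-δ)` (03 l.469-479 "all dotted clocks are `O_∘(λ)`"), `|H_e| ≲_∘ 1`.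
* `L8yTile 𝔹 F`  (LL08: 228 + 246)   `E ∫ H² W dv ≲ χ_e⁻¹ x⁶ λ_1⁻¹ Z² {x⁶ | λ_1² U⁴}` ((D5), (D7) tiles on macroscopic bands, 08 l.985-1000), on the reduced chain.
* `L9Reg`, `L9Mom` (216, `L09/Contract`): only "a.e. `t`, all `γ`: the clock values of the chain are differentiable" and `E_γ Z⁴`.

STRUCTURE.   1. the reduced chain `l8yStp a x b h ps` of a pair of clocks (generic clocks: `L8yCk`; conditions on the positions: `L8yCh`);   2. supplies;   3. pointwise bounds at the LL level;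
4. arithmetic of the exponents;   5. integration in `(γ, t)`.
-/

set_option autoImplicit false

namespace Claimed.Agent.R286

open MeasureTheory Set Filter
open scoped ENNReal

noncomputable section

/-! ## 1. The reduced chain -/

/-- the REDUCED step path of the clocks `b, h` on the chain `ps`: `b 0` at the mass `0`, then the positions of mass `≥ x` -/
def l8yStp (a x : ℝ) (b h : ℝ → ℝ) (ps : List GhPos) : SkStp :=
  ⟨0, b 0, 0⟩ :: skCStp a b h (b 0) 0 (ps.filter fun p => decide (x ≤ p.u))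

/-- the clocks to which the reduction applies -/
structure L8yCk (a x : ℝ) (b h : ℝ → ℝ) : Prop where
  hb : GhClk1 a b
  hh : GhClk1 a h
  b0 : ∀ v ∈ Icc 0 x, b v = b 0
  h0 : ∀ v ∈ Ico 0 x, h v = 0
  cb : ContinuousOn b (Icc 0 a)
  ch : ContinuousOn h (Icc x a)

/-- the conditions on the positions: `(0,1), (s,1), (x,0), (x,1)`; the fractions `i/J` of the jump at `x`; every mass of `[x,a]` has a position within `g` below it -/
structure L8yCh (a x s g : ℝ) (J : ℕ) (Fs : Finset GhPos) : Prop where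
  p0 : ghPosA 0 ∈ Fs
  ps : ghPosA s ∈ Fs
  fr : ∀ i ≤ J, ghPosF x (i / J) ∈ Fs
  grid : ∀ u ∈ Icc x a, ∃ p ∈ Fs, p.Ok a ∧ u - g ≤ p.u ∧ p.u ≤ u

/-! #### helpers (helper97): one-sided limits of a clamped clock -/

theorem l8y_h_left {a u y : ℝ} {c : ℝ → ℝ} (h0 : 0 < u) (h1 : u ≤ a) (hc : Tendsto c (nhdsWithin u (Iio u)) (nhds y)) :
    Function.leftLim (ghClamp a c) u = y := by
  refine leftLim_eq_of_tendsto (hc.congr' ?_)
  filter_upwards [Ioo_mem_nhdsLT h0] with v hv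
  unfold ghClamp
  rw [if_neg (not_lt.2 hv.1.le), min_eq_left (hv.2.le.trans h1)]

theorem l8y_h_right {a u y : ℝ} {c : ℝ → ℝ} (h0 : 0 ≤ u) (h1 : u < a) (hc : Tendsto c (nhdsWithin u (Ioi u)) (nhds y)) :
    Function.rightLim (ghClamp a c) u = y := by
  refine rightLim_eq_of_tendsto (hc.congr' ?_)
  filter_upwards [Ioo_mem_nhdsGT h1] with v hv
  unfold ghClamp
  rw [if_neg (not_lt.2 (h0.trans hv.1.le)), min_eq_left hv.2.le]

/-- a clock which is continuous on `[l,a]`: both limits at a mass `u ∈ (l,a]`, the right limit at `l` -/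
theorem l8y_h_cont {a l u : ℝ} {c : ℝ → ℝ} (hl : 0 ≤ l) (hc : ContinuousOn c (Icc l a)) (h1 : u ≤ a) :
    (l < u → Function.leftLim (ghClamp a c) u = c u) ∧ (l ≤ u → Function.rightLim (ghClamp a c) u = c u) := by
  constructor
  · intro h0
    refine l8y_h_left (hl.trans_lt h0) h1 ?_
    exact (hc u ⟨h0.le, h1⟩).tendsto.mono_left
      (nhdsWithin_le_of_mem (Filter.mem_of_superset (Ioo_mem_nhdsLT h0) fun v hv => ⟨hv.1.le, hv.2.le.trans h1⟩))
  · intro h0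
    rcases h1.eq_or_lt with rfl | h1'
    · exact gh_os_right_top u c (hl.trans h0) le_rfl
    · refine l8y_h_right (hl.trans h0) h1' ?_
      exact (hc u ⟨h0, h1⟩).tendsto.mono_left
        (nhdsWithin_le_of_mem (Filter.mem_of_superset (Ioo_mem_nhdsGT h1') fun v hv => ⟨h0.trans hv.1.le, hv.2.le⟩))

/-- a clock which vanishes on `[0,x)`: the left limit at `u ≤ x`, the right limit at `u < x` -/
theorem l8y_h_van {a x u : ℝ} {c : ℝ → ℝ} (hxa : x ≤ a) (hc : ∀ v ∈ Ico 0 x, c v = 0) (h0 : 0 ≤ u) :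
    (u ≤ x → Function.leftLim (ghClamp a c) u = 0) ∧ (u < x → Function.rightLim (ghClamp a c) u = 0) := by
  constructor
  · intro h1
    rcases h0.eq_or_lt with rfl | h0'
    · exact gh_os_left_zero a c le_rfl
    · refine l8y_h_left h0' (h1.trans hxa) (tendsto_const_nhds.congr' ?_)
      filter_upwards [Ioo_mem_nhdsLT h0'] with v hv
      exact (hc v ⟨hv.1.le, hv.2.trans_le h1⟩).symm
  · intro h1
    refine l8y_h_right h0 (h1.trans_le hxa) (tendsto_const_nhds.congr' ?_)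
    filter_upwards [Ioo_mem_nhdsGT h1] with v hv
    exact (hc v ⟨h0.trans hv.1.le, hv.2⟩).symm

/-- PROOF: `eventually_atTop`, `F0 = {(0,1), (s,1)} ∪ {(x, i/J)} ∪ {(x + i g, 1) : i ≤ ⌈2/g⌉}`; for `u ∈ [x, a]` take `i = ⌊(u - x)/g⌋`. -/
theorem l8y_ch_ev {x s g : ℝ} (hx : 0 < x) (hg : 0 < g) (J : ℕ) :
    ∀ᶠ Fs : Finset GhPos in atTop, ∀ a : ℝ, x ≤ a → a ≤ 2 → L8yCh a x s g J Fs := by
  classical
  filter_upwards [eventually_ge_atTop (({ghPosA 0, ghPosA s} : Finset GhPos) ∪ ((Finset.range (J + 1)).image fun i : ℕ => ghPosF x ((i : ℝ) / J))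
    ∪ ((Finset.range (⌈2 / g⌉₊ + 1)).image fun i : ℕ => ghPosA (x + i * g)))] with Fs hF a hxa ha2
  refine ⟨hF (by simp), hF (by simp), fun i hi => hF ?_, fun u hu => ?_⟩
  · refine Finset.mem_union_left _ (Finset.mem_union_right _ (Finset.mem_image.2 ⟨i, Finset.mem_range.2 (by omega), rfl⟩))
  · have h0 : 0 ≤ (u - x) / g := div_nonneg (by linarith [hu.1]) hg.le
    have h1 : (⌊(u - x) / g⌋₊ : ℝ) ≤ (u - x) / g := Nat.floor_le h0
    have h2 : (u - x) / g < ⌊(u - x) / g⌋₊ + 1 := Nat.lt_floor_add_one _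
    rw [le_div_iff₀ hg] at h1
    rw [div_lt_iff₀ hg] at h2
    have h3 : ⌊(u - x) / g⌋₊ ≤ ⌈2 / g⌉₊ := by
      refine (Nat.floor_le_ceil _).trans (Nat.ceil_mono ?_)
      exact div_le_div_of_nonneg_right (by linarith [hu.2]) hg.le
    refine ⟨ghPosA (x + (⌊(u - x) / g⌋₊ : ℝ) * g), hF (Finset.mem_union_right _ (Finset.mem_image.2 ⟨_, Finset.mem_range.2 (by omega), rfl⟩)), ?_, ?_, ?_⟩
    · refine gh_os_posA_ok ?_ ?_
      · have : 0 ≤ (⌊(u - x) / g⌋₊ : ℝ) * g := by positivity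
        linarith
      · linarith [hu.2]
    · show u - g ≤ x + (⌊(u - x) / g⌋₊ : ℝ) * g
      linarith
    · show x + (⌊(u - x) / g⌋₊ : ℝ) * g ≤ u
      linarith

/-- clock values at the positions, for continuous clocks.
PROOF: `ghAt = leftLim + lam (rightLim - leftLim)` of `ghClamp`; `leftLim_eq_of_tendsto`, `rightLim_eq_of_tendsto`, `gh_os_left_zero`, `gh_os_right_top`. -/
theorem l8y_at_val {a x : ℝ} (hx : 0 < x) (hxa : x ≤ a) {b h : ℝ → ℝ} (hck : L8yCk a x b h) {p : GhPos} (hp : p.Ok a) :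
    ghAt a b p = (if p.u = 0 then p.lam * b 0 else b p.u) ∧
      ghAt a h p = (if p.u < x then 0 else if p.u = x then p.lam * h x else h p.u) := by
  obtain ⟨h0, h1, -, -⟩ := hp
  have hb := l8y_h_cont (le_refl (0 : ℝ)) hck.cb h1
  have hh := l8y_h_cont hx.le hck.ch h1
  have hv := l8y_h_van hxa hck.h0 h0
  constructor
  · unfold ghAt
    rw [hb.2 h0]
    split_ifs with hu
    · rw [gh_os_left_zero a b hu.le, hu]; ring
    · rw [hb.1 (lt_of_le_of_ne h0 (Ne.symm hu))]; ring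
  · unfold ghAt
    split_ifs with hu hu'
    · rw [hv.1 hu.le, hv.2 hu]; ring
    · rw [hv.1 hu'.le, hh.2 hu'.ge, hu']; ring
    · have : x < p.u := lt_of_le_of_ne (not_lt.1 hu) (Ne.symm hu')
      rw [hh.1 this, hh.2 this.le]; ring

theorem l8y_h_map_m (a : ℝ) (b h : ℝ → ℝ) : ∀ (ps : List GhPos) (b0 h0 : ℝ), (skCStp a b h b0 h0 ps).map SkInc.m = ps.map GhPos.u
  | [], _, _ => rfl
  | p :: ps, b0, h0 => by simp [skCStp, l8y_h_map_m a b h ps]

/-- the masses do not depend on the clocks -/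
theorem l8y_ch_m (a x : ℝ) (b h b' h' : ℝ → ℝ) (ps : List GhPos) :
    (l8yStp a x b h ps).map SkInc.m = (l8yStp a x b' h' ps).map SkInc.m := by
  unfold l8yStp
  simp only [List.map_cons, l8y_h_map_m]

/-- the cumulative clocks of a chain telescope -/
theorem l8y_h_cum (a : ℝ) (b h : ℝ → ℝ) : ∀ (l : List GhPos) (b0 h0 : ℝ) (i : ℕ) (hi : i < l.length),
    b0 + skCumB (skCStp a b h b0 h0 l) (i + 1) = ghAt a b l[i] ∧ h0 + skCumH (skCStp a b h b0 h0 l) (i + 1) = ghAt a h l[i]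
  | [], _, _, i, hi => by simp at hi
  | p :: l, b0, h0, i, hi => by
    cases i with
    | zero => simp [skCStp, skCumB, skCumH]
    | succ i =>
      have hi' : i < l.length := by simpa using hi
      have := l8y_h_cum a b h l (ghAt a b p) (ghAt a h p) i hi'
      simp only [skCStp, skCumB, skCumH, List.take_succ_cons, List.map_cons, List.sum_cons, List.getElem_cons_succ] at this ⊢
      constructor
      · rw [← this.1]; ring
      · rw [← this.2]; ring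

/-! #### helpers (helper97): strictly sorted lists of positions, the filtered chain -/

theorem l8y_h_mono {l : List GhPos} (hs : l.Pairwise (· < ·)) {i j : ℕ} (hij : i ≤ j) (hj : j < l.length) :
    l[i]'(lt_of_le_of_lt hij hj) ≤ l[j] := by
  rcases hij.eq_or_lt with rfl | h
  · exact le_rfl
  · exact (List.pairwise_iff_getElem.1 hs i j _ hj h).le

/-- no element between two consecutive ones -/
theorem l8y_h_consec {l : List GhPos} (hs : l.Pairwise (· < ·)) {i : ℕ} (hi : i + 1 < l.length) {q : GhPos} (hq : q ∈ l) :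
    q ≤ l[i] ∨ l[i + 1] ≤ q := by
  obtain ⟨j, hj, rfl⟩ := List.mem_iff_getElem.1 hq
  rcases Nat.lt_or_ge i j with h | h
  · exact Or.inr (l8y_h_mono hs h hj)
  · exact Or.inl (l8y_h_mono hs h (by omega))

theorem l8y_h_first {l : List GhPos} (hs : l.Pairwise (· < ·)) {q : GhPos} (hq : q ∈ l) (hmin : ∀ p ∈ l, q ≤ p) :
    ∃ h0 : 0 < l.length, l[0] = q := by
  obtain ⟨j, hj, rfl⟩ := List.mem_iff_getElem.1 hq
  have h0 : 0 < l.length := by omega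
  exact ⟨h0, le_antisymm (l8y_h_mono hs (Nat.zero_le j) hj) (hmin _ (List.getElem_mem h0))⟩

theorem l8y_h_len (a : ℝ) (b h : ℝ → ℝ) : ∀ (l : List GhPos) (b0 h0 : ℝ), (skCStp a b h b0 h0 l).length = l.length
  | [], _, _ => rfl
  | p :: l, b0, h0 => by simp [skCStp, l8y_h_len a b h l]

theorem l8y_h_get_succ (a : ℝ) (b h : ℝ → ℝ) : ∀ (l : List GhPos) (b0 h0 : ℝ) (i : ℕ) (hi : i + 1 < l.length)
    (hi' : i + 1 < (skCStp a b h b0 h0 l).length),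
    (skCStp a b h b0 h0 l)[i + 1] = ⟨(l[i + 1]).u, ghAt a b l[i + 1] - ghAt a b l[i], ghAt a h l[i + 1] - ghAt a h l[i]⟩
  | [], _, _, i, hi, _ => by simp at hi
  | [p], _, _, i, hi, _ => by simp at hi
  | p :: q :: l, b0, h0, 0, _, _ => rfl
  | p :: q :: l, b0, h0, i + 1, hi, hi' => by
    have hi2 : i + 1 < (q :: l).length := by simpa using hi
    have := l8y_h_get_succ a b h (q :: l) (ghAt a b p) (ghAt a h p) i hi2 (by rw [l8y_h_len]; exact hi2)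
    simpa [skCStp] using this

/-- the elements of a chain -/
theorem l8y_h_mem (a : ℝ) (b h : ℝ → ℝ) (l : List GhPos) (b0 h0 : ℝ) (e : SkInc) (he : e ∈ skCStp a b h b0 h0 l) :
    (∃ h0' : 0 < l.length, e = ⟨(l[0]).u, ghAt a b l[0] - b0, ghAt a h l[0] - h0⟩) ∨
      ∃ (i : ℕ) (hi : i + 1 < l.length), e = ⟨(l[i + 1]).u, ghAt a b l[i + 1] - ghAt a b l[i], ghAt a h l[i + 1] - ghAt a h l[i]⟩ := by
  obtain ⟨k, hk, rfl⟩ := List.mem_iff_getElem.1 he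
  have hk' : k < l.length := by rwa [l8y_h_len] at hk
  cases k with
  | zero =>
    left
    refine ⟨hk', ?_⟩
    cases l with
    | nil => simp at hk'
    | cons p l => rfl
  | succ i => exact Or.inr ⟨i, hk', l8y_h_get_succ a b h l b0 h0 i hk' hk⟩

section fl

variable {a x s g : ℝ} {J : ℕ} {Fs : Finset GhPos}

theorem l8y_h_fl_mem {p : GhPos} : p ∈ (ghPs a Fs).filter (fun p => decide (x ≤ p.u)) ↔ p ∈ Fs ∧ p.Ok a ∧ x ≤ p.u := by
  rw [List.mem_filter, gh_os_ps_mem]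
  simp [and_assoc]

theorem l8y_h_fl_lt (a x : ℝ) (Fs : Finset GhPos) : ((ghPs a Fs).filter fun p => decide (x ≤ p.u)).Pairwise (· < ·) :=
  (gh_os_ps_lt a Fs).filter _

theorem l8y_h_g_nonneg (hxa : x ≤ a) (hch : L8yCh a x s g J Fs) : 0 ≤ g := by
  obtain ⟨p, -, -, h1, h2⟩ := hch.grid x ⟨le_rfl, hxa⟩
  linarith

theorem l8y_h_posF_ok {u lam : ℝ} (h0 : 0 ≤ u) (h1 : u ≤ a) (h2 : 0 ≤ lam) (h3 : lam ≤ 1) : (ghPosF u lam).Ok a := ⟨h0, h1, h2, h3⟩

/-- the first position of the filtered chain is `(x,0)` -/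
theorem l8y_h_fl_first (hx : 0 < x) (hxa : x ≤ a) (hch : L8yCh a x s g J Fs) :
    ∃ h0 : 0 < ((ghPs a Fs).filter fun p => decide (x ≤ p.u)).length, ((ghPs a Fs).filter fun p => decide (x ≤ p.u))[0] = ghPosF x 0 := by
  refine l8y_h_first (l8y_h_fl_lt a x Fs) ?_ ?_
  · refine l8y_h_fl_mem.2 ⟨?_, l8y_h_posF_ok hx.le hxa le_rfl zero_le_one, le_rfl⟩
    have := hch.fr 0 (Nat.zero_le _)
    simpa using this
  · intro p hp
    obtain ⟨-, hok, hxp⟩ := l8y_h_fl_mem.1 hp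
    rw [gh_os_pos_le_iff]
    rcases hxp.eq_or_lt with h | h
    · exact Or.inr ⟨h, hok.2.2.1⟩
    · exact Or.inl h

/-- consecutive masses are `≤ g` apart -/
theorem l8y_h_fl_gap (hxa : x ≤ a) (hch : L8yCh a x s g J Fs) {i : ℕ} (hi : i + 1 < ((ghPs a Fs).filter fun p => decide (x ≤ p.u)).length) :
    (((ghPs a Fs).filter fun p => decide (x ≤ p.u))[i + 1]).u - (((ghPs a Fs).filter fun p => decide (x ≤ p.u))[i]).u ≤ g := by
  set fl := (ghPs a Fs).filter fun p => decide (x ≤ p.u) with hfl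
  by_contra hcon
  have hcon' : (fl[i]).u + g < (fl[i + 1]).u := by linarith [not_le.1 hcon]
  have hg := l8y_h_g_nonneg hxa hch
  obtain ⟨-, -, hx1⟩ := l8y_h_fl_mem.1 (List.getElem_mem (show i < fl.length by omega))
  obtain ⟨-, hok2, -⟩ := l8y_h_fl_mem.1 (List.getElem_mem hi)
  obtain ⟨p, hpF, hpok, hp1, hp2⟩ := hch.grid (((fl[i]).u + g + (fl[i + 1]).u) / 2) ⟨by linarith, by linarith [hok2.2.1]⟩
  have hpfl : p ∈ fl := l8y_h_fl_mem.2 ⟨hpF, hpok, by linarith⟩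
  rcases l8y_h_consec (l8y_h_fl_lt a x Fs) hi hpfl with h | h
  · have := sk_stp_pos_u_le h
    linarith
  · have := sk_stp_pos_u_le h
    linarith

/-- the last mass is within `g` of `a` -/
theorem l8y_h_fl_last (hxa : x ≤ a) (hch : L8yCh a x s g J Fs) {i : ℕ} (hi : i + 1 = ((ghPs a Fs).filter fun p => decide (x ≤ p.u)).length) :
    a - (((ghPs a Fs).filter fun p => decide (x ≤ p.u))[i]'(by omega)).u ≤ g := by
  set fl := (ghPs a Fs).filter fun p => decide (x ≤ p.u) with hfl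
  obtain ⟨-, -, hx1⟩ := l8y_h_fl_mem.1 (List.getElem_mem (show i < fl.length by omega))
  obtain ⟨p, hpF, hpok, hp1, hp2⟩ := hch.grid a ⟨hxa, le_rfl⟩
  by_cases hxp : x ≤ p.u
  · have hpfl : p ∈ fl := l8y_h_fl_mem.2 ⟨hpF, hpok, hxp⟩
    obtain ⟨j, hj, rfl⟩ := List.mem_iff_getElem.1 hpfl
    have := sk_stp_pos_u_le (l8y_h_mono (l8y_h_fl_lt a x Fs) (show j ≤ i by omega) (show i < fl.length by omega))
    linarith
  · linarith [not_le.1 hxp]

end fl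

/-- the masses of the reduced path -/
theorem l8y_h_ms (a x : ℝ) (b h : ℝ → ℝ) (ps : List GhPos) :
    skMs a (l8yStp a x b h ps) 0 = 0 ∧
      (∀ k (hk : k < (ps.filter fun p => decide (x ≤ p.u)).length), skMs a (l8yStp a x b h ps) (k + 1) = ((ps.filter fun p => decide (x ≤ p.u))[k]).u) ∧
      (∀ k, (ps.filter fun p => decide (x ≤ p.u)).length ≤ k → skMs a (l8yStp a x b h ps) (k + 1) = a) ∧
      (l8yStp a x b h ps).length = (ps.filter fun p => decide (x ≤ p.u)).length + 1 := by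
  unfold skMs l8yStp
  simp only [List.map_cons, l8y_h_map_m, List.length_cons, l8y_h_len]
  refine ⟨rfl, fun k hk => ?_, fun k hk => ?_, trivial⟩
  · rw [List.getD_cons_succ, List.getD_eq_getElem _ _ (by simpa using hk)]
    simp
  · rw [List.getD_cons_succ, List.getD_eq_default _ _ (by simpa using hk)]

/-- the tail of the reduced path is admissible -/
theorem l8y_h_tail_adm {a x : ℝ} (hx : 0 < x) (hxa : x ≤ a) {b h : ℝ → ℝ} (hck : L8yCk a x b h) (Fs : Finset GhPos) :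
    SkAdm a (skCStp a b h (b 0) 0 ((ghPs a Fs).filter fun p => decide (x ≤ p.u))) := by
  have ha : 0 ≤ a := hx.le.trans hxa
  refine sk_stp_chain_adm ha hck.hb hck.hh _ _ _ ((l8y_h_fl_lt a x Fs).imp fun h => h.le) (fun p hp => (l8y_h_fl_mem.1 hp).2.1) ?_ ?_
  · intro p hp
    obtain ⟨-, hok, hxp⟩ := l8y_h_fl_mem.1 hp
    rw [(l8y_at_val hx hxa hck hok).1, if_neg (by linarith)]
    exact hck.hb.1 ⟨le_rfl, ha⟩ ⟨hok.1, hok.2.1⟩ hok.1
  · intro p hp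
    exact gh_os_at_nonneg ha hck.hh (l8y_h_fl_mem.1 hp).2.1.2.2.1

theorem l8y_h_adm {a x : ℝ} (hx : 0 < x) (hxa : x ≤ a) {b h : ℝ → ℝ} (hck : L8yCk a x b h) (Fs : Finset GhPos) {t : ℝ} (ht : 0 ≤ t) (htx : t ≤ x) :
    SkAdm a (⟨t, b 0, 0⟩ :: skCStp a b h (b 0) 0 ((ghPs a Fs).filter fun p => decide (x ≤ p.u))) := by
  have hT := l8y_h_tail_adm hx hxa hck Fs
  refine ⟨List.pairwise_cons.2 ⟨fun e he => ?_, hT.1⟩, fun e he => ?_⟩
  · obtain ⟨p, hp, hm⟩ := sk_stp_chain_mem a b h _ _ _ e he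
    show t ≤ e.m
    rw [hm]
    exact htx.trans (l8y_h_fl_mem.1 hp).2.2
  · rcases List.mem_cons.1 he with rfl | he
    · exact ⟨ht, htx.trans hxa, hck.hb.2, le_rfl⟩
    · exact hT.2 e he

/-- PROOF: `adm`: `sk_stp_chain_adm`; first position of mass `≥ x` is `(x,0)` (`fr 0`); two consecutive masses differ by `≤ g` (`grid` at a mass just below the second one); last gap: `grid` at `a`. -/
theorem l8y_ch_red {a x s g : ℝ} {J : ℕ} (hx : 0 < x) (hxa : x ≤ a) (hg : g ≤ x) {b h : ℝ → ℝ} (hck : L8yCk a x b h) {Fs : Finset GhPos}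
    (hch : L8yCh a x s g J Fs) :
    L8yRed a x (l8yStp a x b h (ghPs a Fs)) ∧
      skGap a (l8yStp a x b h (ghPs a Fs)) (l8yStp a x b h (ghPs a Fs)).length ≤ g := by
  obtain ⟨m0, m1, m2, hlen⟩ := l8y_h_ms a x b h (ghPs a Fs)
  obtain ⟨h0, hfirst⟩ := l8y_h_fl_first hx hxa hch
  set fl := (ghPs a Fs).filter fun p => decide (x ≤ p.u) with hfl
  have hlast : skGap a (l8yStp a x b h (ghPs a Fs)) (l8yStp a x b h (ghPs a Fs)).length ≤ g := by
    obtain ⟨i, hi⟩ : ∃ i, i + 1 = fl.length := ⟨fl.length - 1, by omega⟩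
    unfold skGap
    rw [hlen, if_neg (Nat.succ_ne_zero _), m2 _ le_rfl, Nat.add_sub_cancel, ← hi, m1 i (by omega)]
    exact l8y_h_fl_last hxa hch hi
  refine ⟨⟨l8y_h_adm hx hxa hck Fs le_rfl hx.le, hx, by omega, m0, ?_, ?_⟩, hlast⟩
  · rw [m1 0 h0, hfirst]; rfl
  · intro k hk1 hk
    rcases hk.eq_or_lt with rfl | hk'
    · exact hlast.trans hg
    · obtain ⟨i, rfl⟩ : ∃ i, k = i + 1 := ⟨k - 1, by omega⟩
      unfold skGap
      rw [if_neg (Nat.succ_ne_zero _), Nat.add_sub_cancel, m1 i (by omega)]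
      cases i with
      | zero => rw [m0, hfirst]; show x - 0 ≤ x; simp
      | succ i =>
        rw [m1 i (by omega)]
        have hi2 : i + 1 < fl.length := by omega
        exact (l8y_h_fl_gap hxa hch hi2).trans hg

/-- the cumulative clocks of the reduced path are clock values at positions of the chain (the position does not depend on the clocks).
PROOF: `k = 1`: `p = (0,1)` (`l8y_at_val`);   `k ≥ 2`: telescoping of `skCStp`, `p` = the position number `k - 2` of the filtered list. -/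
theorem l8y_ch_cum {a x s g : ℝ} {J : ℕ} (hx : 0 < x) (hxa : x ≤ a) {Fs : Finset GhPos} (hch : L8yCh a x s g J Fs) (k : ℕ) (hk1 : 1 ≤ k)
    (hk : k ≤ ((ghPs a Fs).filter fun p => decide (x ≤ p.u)).length + 1) :
    ∃ p ∈ ghPs a Fs, ∀ b h : ℝ → ℝ, L8yCk a x b h →
      skCumB (l8yStp a x b h (ghPs a Fs)) k = ghAt a b p ∧ skCumH (l8yStp a x b h (ghPs a Fs)) k = ghAt a h p := by
  have ha : 0 ≤ a := hx.le.trans hxa
  obtain ⟨k, rfl⟩ : ∃ i, k = i + 1 := ⟨k - 1, by omega⟩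
  cases k with
  | zero =>
    have hok : (ghPosA 0).Ok a := gh_os_posA_ok le_rfl ha
    refine ⟨ghPosA 0, gh_os_ps_mem.2 ⟨hch.p0, hok⟩, fun b h hck => ?_⟩
    have hv := l8y_at_val hx hxa hck hok
    have hu : (ghPosA 0).u = 0 := rfl
    have hl : (ghPosA 0).lam = 1 := rfl
    rw [hv.1, hv.2, hu, hl, if_pos rfl, if_pos hx]
    simp [l8yStp, skCumB, skCumH]
  | succ i =>
    have hi : i < ((ghPs a Fs).filter fun p => decide (x ≤ p.u)).length := by omega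
    refine ⟨_, List.mem_of_mem_filter (List.getElem_mem hi), fun b h _ => ?_⟩
    have := l8y_h_cum a b h _ (b 0) 0 i hi
    rw [← this.1, ← this.2]
    simp [l8yStp, skCumB, skCumH]

theorem l8y_h_mat (a : ℝ) (b h K : ℝ → ℝ) : ∀ (ps : List GhPos) (b0 h0 K0 : ℝ), llMat (l9Stp a b h K b0 h0 K0 ps) = skCStp a b h b0 h0 ps
  | [], _, _, _ => rfl
  | p :: ps, b0, h0, K0 => by
    have := l8y_h_mat a b h K ps (ghAt a b p) (ghAt a h p) (ghAt a K p)
    simp only [llMat] at this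
    simp [l9Stp, skCStp, llMat, this]

/-- the same for the full chain of 216 (telescoping of `l9Stp`; `j` = index of `p` plus one) -/
theorem l8y_ch_idx (a : ℝ) (ps : List GhPos) (p : GhPos) (hp : p ∈ ps) :
    ∃ j : ℕ, ∀ b h K : ℝ → ℝ, skCumB (llMat (l9Stp a b h K 0 0 0 ps)) j = ghAt a b p ∧ skCumH (llMat (l9Stp a b h K 0 0 0 ps)) j = ghAt a h p := by
  obtain ⟨i, hi, rfl⟩ := List.mem_iff_getElem.1 hp
  refine ⟨i + 1, fun b h K => ?_⟩
  rw [l8y_h_mat]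
  simpa using l8y_h_cum a b h ps 0 0 i hi

/-- sup-norm Lipschitz dependence of the clock values (limits of `|c' - c| ≤ K`; monotone functions have one-sided limits) -/
theorem l8y_at_lip {a : ℝ} (ha : 0 ≤ a) {c c' : ℝ → ℝ} (hc : GhClk1 a c) (hc' : GhClk1 a c') {K : ℝ} (h : ∀ v ∈ Icc 0 a, |c' v - c v| ≤ K)
    {p : GhPos} (hp : p.Ok a) : |ghAt a c' p - ghAt a c p| ≤ K := by
  have hK : 0 ≤ K := (abs_nonneg _).trans (h 0 ⟨le_rfl, ha⟩)
  have hcl : ∀ v, |ghClamp a c' v - ghClamp a c v| ≤ K := by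
    intro v
    unfold ghClamp
    split_ifs with hv
    · simpa using hK
    · exact h _ ⟨le_min (not_lt.1 hv) ha, min_le_right _ _⟩
  have hm := gh_os_clamp_mono ha hc
  have hm' := gh_os_clamp_mono ha hc'
  have hL : |Function.leftLim (ghClamp a c') p.u - Function.leftLim (ghClamp a c) p.u| ≤ K :=
    le_of_tendsto' ((hm'.tendsto_leftLim p.u).sub (hm.tendsto_leftLim p.u)).abs hcl
  have hR : |Function.rightLim (ghClamp a c') p.u - Function.rightLim (ghClamp a c) p.u| ≤ K :=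
    le_of_tendsto' ((hm'.tendsto_rightLim p.u).sub (hm.tendsto_rightLim p.u)).abs hcl
  obtain ⟨-, -, l0, l1⟩ := hp
  unfold ghAt
  rw [abs_le] at hL hR ⊢
  constructor <;> nlinarith [hL.1, hL.2, hR.1, hR.2]

/-- PROOF: `l8y_at_val`: the increment number `k ≥ 2` is `h u_k - h u_(k-1)` (or `h u_k - lam h x ≥ h u_k - h x`, or `≥ 0 = log 1` at equal masses). -/
theorem l8y_ch_slope {a x s g κ0 : ℝ} {J : ℕ} (hx : 0 < x) (hxa : x ≤ a) {b h : ℝ → ℝ} (hck : L8yCk a x b h) (hκ : 0 ≤ κ0)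
    (hsl : ∀ u1 u2, x ≤ u1 → u1 ≤ u2 → u2 ≤ a → κ0 * Real.log (u2 / u1) ≤ h u2 - h u1) {Fs : Finset GhPos} (hch : L8yCh a x s g J Fs) (k : ℕ)
    (hk2 : 2 ≤ k) (hk : k < (l8yStp a x b h (ghPs a Fs)).length) :
    κ0 * Real.log (skMs a (l8yStp a x b h (ghPs a Fs)) k / skMs a (l8yStp a x b h (ghPs a Fs)) (k - 1))
      ≤ ((l8yStp a x b h (ghPs a Fs)).map SkInc.dh).getD k 0 := by
  have ha : 0 ≤ a := hx.le.trans hxa
  obtain ⟨m0, m1, m2, hlen⟩ := l8y_h_ms a x b h (ghPs a Fs)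
  set fl := (ghPs a Fs).filter fun p => decide (x ≤ p.u) with hfl
  obtain ⟨i, rfl⟩ : ∃ i, k = i + 2 := ⟨k - 2, by omega⟩
  have hi : i + 1 < fl.length := by omega
  have e1 : ((l8yStp a x b h (ghPs a Fs)).map SkInc.dh).getD (i + 2) 0 = ghAt a h fl[i + 1] - ghAt a h fl[i] := by
    rw [List.getD_eq_getElem _ _ (by simpa using hk)]
    simp only [l8yStp, List.getElem_map, List.getElem_cons_succ]
    rw [l8y_h_get_succ a b h fl (b 0) 0 i hi]
  rw [e1, show i + 2 - 1 = i + 1 from rfl, m1 (i + 1) hi, m1 i (by omega)]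
  obtain ⟨-, ok1, x1⟩ := l8y_h_fl_mem.1 (List.getElem_mem (show i < fl.length by omega))
  obtain ⟨-, ok2, x2⟩ := l8y_h_fl_mem.1 (List.getElem_mem hi)
  have hle : fl[i] ≤ fl[i + 1] := l8y_h_mono (l8y_h_fl_lt a x Fs) (Nat.le_succ i) hi
  have hu : (fl[i]).u ≤ (fl[i + 1]).u := sk_stp_pos_u_le hle
  rcases hu.eq_or_lt with he | hlt
  · rw [he, div_self (by linarith), Real.log_one, mul_zero]
    exact sub_nonneg.2 (gh_os_at_mono ha hck.hh ok1.2.2.2 ok2.2.2.1 hle)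
  · refine (hsl _ _ x1 hu ok2.2.1).trans ?_
    rw [(l8y_at_val hx hxa hck ok2).2, if_neg (not_lt.2 x2), if_neg (by linarith : ¬ (fl[i + 1]).u = x),
      (l8y_at_val hx hxa hck ok1).2, if_neg (not_lt.2 x1)]
    split_ifs with hx1
    · have hhx : 0 ≤ h x := hck.hh.2.trans (hck.hh.1 ⟨le_rfl, ha⟩ ⟨hx.le, hxa⟩ hx.le)
      rw [hx1]
      nlinarith [ok1.2.2.2]
    · exact le_rfl

/-- PROOF: `l8y_at_val`; consecutive positions `p < p'` of mass `≥ x`: equal masses `> x`: no increment; mass `x`: `(lam' - lam) h x ≤ h x / J` (`fr`); different masses: `≤ g` apart (`grid`), the last position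
of mass `x` is `(x,1)` (`fr J`); the first position is `(x,0)`: no increment. -/
theorem l8y_ch_mesh {a x s g ρ : ℝ} {J : ℕ} (hJ : 0 < J) (hx : 0 < x) (hxa : x ≤ a) {b h : ℝ → ℝ} (hck : L8yCk a x b h)
    (hmod : ∀ u1 u2, 0 ≤ u1 → u1 ≤ u2 → u2 ≤ a → u2 - u1 ≤ g → b u2 - b u1 ≤ ρ ∧ (x ≤ u1 → h u2 - h u1 ≤ ρ)) (hhx : h x ≤ ρ * J)
    {Fs : Finset GhPos} (hch : L8yCh a x s g J Fs) :
    ∀ e ∈ l8yStp a x b h (ghPs a Fs), e.dh = 0 ∨ (e.dh ≤ ρ ∧ e.db ≤ ρ) := by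
  have ha : 0 ≤ a := hx.le.trans hxa
  have hg := l8y_h_g_nonneg hxa hch
  have hρ : 0 ≤ ρ := by
    have := (hmod 0 0 le_rfl le_rfl ha (by simpa using hg)).1
    simpa using this
  have hJ' : (0 : ℝ) < J := by exact_mod_cast hJ
  obtain ⟨h0, hfirst⟩ := l8y_h_fl_first hx hxa hch
  set fl := (ghPs a Fs).filter fun p => decide (x ≤ p.u) with hfl
  have hs := l8y_h_fl_lt a x Fs
  intro e he
  rcases List.mem_cons.1 he with rfl | he
  · exact Or.inl rfl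
  rcases l8y_h_mem a b h fl (b 0) 0 e he with ⟨_, rfl⟩ | ⟨i, hi, rfl⟩
  · left
    show ghAt a h fl[0] - 0 = 0
    rw [hfirst, (l8y_at_val hx hxa hck (l8y_h_posF_ok hx.le hxa le_rfl zero_le_one)).2]
    have hu : (ghPosF x 0).u = x := rfl
    have hl : (ghPosF x 0).lam = 0 := rfl
    rw [hu, hl, if_neg (lt_irrefl x), if_pos rfl]
    ring
  · show ghAt a h fl[i + 1] - ghAt a h fl[i] = 0 ∨ (ghAt a h fl[i + 1] - ghAt a h fl[i] ≤ ρ ∧ ghAt a b fl[i + 1] - ghAt a b fl[i] ≤ ρ)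
    obtain ⟨-, ok1, x1⟩ := l8y_h_fl_mem.1 (List.getElem_mem (show i < fl.length by omega))
    obtain ⟨-, ok2, x2⟩ := l8y_h_fl_mem.1 (List.getElem_mem hi)
    have hlt : fl[i] < fl[i + 1] := List.pairwise_iff_getElem.1 hs i (i + 1) _ hi (Nat.lt_succ_self i)
    have hgap := l8y_h_fl_gap hxa hch hi
    rw [(l8y_at_val hx hxa hck ok2).1, (l8y_at_val hx hxa hck ok1).1, (l8y_at_val hx hxa hck ok2).2, (l8y_at_val hx hxa hck ok1).2,
      if_neg (by linarith : ¬ (fl[i + 1]).u = 0), if_neg (by linarith : ¬ (fl[i]).u = 0), if_neg (not_lt.2 x2), if_neg (not_lt.2 x1)]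
    rcases (gh_os_pos_lt_iff _ _).1 hlt with hu | ⟨hu, hl⟩
    · -- different masses
      have hm := hmod _ _ ok1.1 hu.le ok2.2.1 hgap
      rw [if_neg (by linarith : ¬ (fl[i + 1]).u = x)]
      right
      refine ⟨?_, hm.1⟩
      split_ifs with hx1
      · -- the last position of mass `x` is `(x,1)`
        have hmem : ghPosF x 1 ∈ fl := by
          refine l8y_h_fl_mem.2 ⟨?_, l8y_h_posF_ok hx.le hxa zero_le_one le_rfl, le_rfl⟩
          have := hch.fr J le_rfl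
          rwa [div_self hJ'.ne'] at this
        have hl1 : (fl[i]).lam = 1 := by
          rcases l8y_h_consec hs hi hmem with h | h
          · rcases (gh_os_pos_le_iff _ _).1 h with h' | ⟨-, h'⟩
            · have : (ghPosF x 1).u = x := rfl
              linarith
            · have : (ghPosF x 1).lam = 1 := rfl
              linarith [ok1.2.2.2]
          · have h' := sk_stp_pos_u_le h
            have : (ghPosF x 1).u = x := rfl
            linarith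
        rw [hl1, one_mul]
        have := hm.2 x1
        rwa [hx1] at this
      · exact hm.2 x1
    · -- equal masses
      rw [← hu]
      split_ifs with hx1
      · right
        refine ⟨?_, by simpa using hρ⟩
        -- the next fraction
        have hl0 := ok1.2.2.1
        have hl2 := ok2.2.2.2
        have hfl1 : (⌊(fl[i]).lam * J⌋₊ : ℝ) ≤ (fl[i]).lam * J := Nat.floor_le (by positivity)
        have hfl2 : (fl[i]).lam * J < ⌊(fl[i]).lam * J⌋₊ + 1 := Nat.lt_floor_add_one _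
        have hle : ⌊(fl[i]).lam * J⌋₊ + 1 ≤ J := by
          have : (fl[i]).lam * J < J := by nlinarith
          have h3 : (⌊(fl[i]).lam * J⌋₊ : ℝ) < J := lt_of_le_of_lt hfl1 this
          exact_mod_cast h3
        have hcast : ((⌊(fl[i]).lam * J⌋₊ + 1 : ℕ) : ℝ) = (⌊(fl[i]).lam * J⌋₊ : ℝ) + 1 := by push_cast; ring
        have hfr0 : (0 : ℝ) ≤ ((⌊(fl[i]).lam * J⌋₊ + 1 : ℕ) : ℝ) / J := by positivity
        have hfr1 : ((⌊(fl[i]).lam * J⌋₊ + 1 : ℕ) : ℝ) / J ≤ 1 := by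
          rw [div_le_one hJ']
          exact_mod_cast hle
        have hmem : ghPosF x (((⌊(fl[i]).lam * J⌋₊ + 1 : ℕ) : ℝ) / J) ∈ fl :=
          l8y_h_fl_mem.2 ⟨hch.fr _ hle, l8y_h_posF_ok hx.le hxa hfr0 hfr1, le_rfl⟩
        have hlam : (fl[i + 1]).lam ≤ ((⌊(fl[i]).lam * J⌋₊ + 1 : ℕ) : ℝ) / J := by
          rcases l8y_h_consec hs hi hmem with h | h
          · exfalso
            rcases (gh_os_pos_le_iff _ _).1 h with h' | ⟨-, h'⟩
            · have : (ghPosF x (((⌊(fl[i]).lam * J⌋₊ + 1 : ℕ) : ℝ) / J)).u = x := rfl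
              linarith
            · have e : (ghPosF x (((⌊(fl[i]).lam * J⌋₊ + 1 : ℕ) : ℝ) / J)).lam = ((⌊(fl[i]).lam * J⌋₊ + 1 : ℕ) : ℝ) / J := rfl
              rw [e, div_le_iff₀ hJ', hcast] at h'
              linarith
          · rcases (gh_os_pos_le_iff _ _).1 h with h' | ⟨-, h'⟩
            · have : (ghPosF x (((⌊(fl[i]).lam * J⌋₊ + 1 : ℕ) : ℝ) / J)).u = x := rfl
              linarith
            · exact h'
        have hhx0 : 0 ≤ h x := hck.hh.2.trans (hck.hh.1 ⟨le_rfl, ha⟩ ⟨hx.le, hxa⟩ hx.le)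
        have hd : (fl[i + 1]).lam - (fl[i]).lam ≤ 1 / J := by
          rw [le_div_iff₀ hJ']
          rw [le_div_iff₀ hJ', hcast] at hlam
          nlinarith
        calc (fl[i + 1]).lam * h x - (fl[i]).lam * h x = ((fl[i + 1]).lam - (fl[i]).lam) * h x := by ring
          _ ≤ 1 / J * h x := mul_le_mul_of_nonneg_right hd hhx0
          _ ≤ 1 / J * (ρ * J) := mul_le_mul_of_nonneg_left hhx (by positivity)
          _ = ρ := by field_simp
      · left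
        ring

/-! #### helpers (helper97): splitting a chain at the mass `x` -/

theorem l8y_h_split (x : ℝ) : ∀ (l : List GhPos), l.Pairwise (· ≤ ·) →
    l = (l.filter fun p => decide (p.u < x)) ++ l.filter fun p => decide (x ≤ p.u)
  | [], _ => rfl
  | p :: l, hs => by
    have hs' := List.pairwise_cons.1 hs
    by_cases hp : x ≤ p.u
    · have h1 : ∀ q ∈ l, x ≤ q.u := fun q hq => hp.trans (sk_stp_pos_u_le (hs'.1 q hq))
      have e1 : ((p :: l).filter fun p => decide (p.u < x)) = [] := by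
        rw [List.filter_eq_nil_iff]
        intro q hq
        rcases List.mem_cons.1 hq with rfl | hq
        · simpa using hp
        · simpa using h1 q hq
      have e2 : ((p :: l).filter fun p => decide (x ≤ p.u)) = p :: l := by
        rw [List.filter_eq_self]
        intro q hq
        rcases List.mem_cons.1 hq with rfl | hq
        · simpa using hp
        · simpa using h1 q hq
      rw [e1, e2]
      rfl
    · rw [List.filter_cons_of_pos (by simpa using hp), List.filter_cons_of_neg (by simpa using hp), List.cons_append,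
        ← l8y_h_split x l hs'.2]

theorem l8y_h_append (a : ℝ) (b h : ℝ → ℝ) (l2 : List GhPos) : ∀ (l1 : List GhPos) (b0 h0 : ℝ),
    skCStp a b h b0 h0 (l1 ++ l2) = skCStp a b h b0 h0 l1 ++
      skCStp a b h (b0 + skTotB (skCStp a b h b0 h0 l1)) (h0 + skTotH (skCStp a b h b0 h0 l1)) l2
  | [], b0, h0 => by simp [skCStp, skTotB, skTotH]
  | p :: l1, b0, h0 => by
    have := l8y_h_append a b h l2 l1 (ghAt a b p) (ghAt a h p)
    have eB : b0 + skTotB (skCStp a b h b0 h0 (p :: l1)) = ghAt a b p + skTotB (skCStp a b h (ghAt a b p) (ghAt a h p) l1) := by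
      simp only [skCStp, skTotB, List.map_cons, List.sum_cons]
      ring
    have eH : h0 + skTotH (skCStp a b h b0 h0 (p :: l1)) = ghAt a h p + skTotH (skCStp a b h (ghAt a b p) (ghAt a h p) l1) := by
      simp only [skCStp, skTotH, List.map_cons, List.sum_cons]
      ring
    rw [eB, eH]
    simp only [List.cons_append, skCStp, this]

theorem l8y_h_clk_append (P Q : SkStp) (u : ℝ) : skClkB (P ++ Q) u = skClkB P u + skClkB Q u ∧ skClkH (P ++ Q) u = skClkH P u + skClkH Q u := by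
  simp [skClkB, skClkH]

theorem l8y_h_chain_congr (a : ℝ) {b b' : ℝ → ℝ} (h : ℝ → ℝ) : ∀ (l : List GhPos) (b0 h0 : ℝ), (∀ p ∈ l, ghAt a b p = ghAt a b' p) →
    skCStp a b h b0 h0 l = skCStp a b' h b0 h0 l
  | [], _, _, _ => rfl
  | p :: l, b0, h0, hl => by
    rw [skCStp, skCStp, hl p List.mem_cons_self, l8y_h_chain_congr a h l _ _ fun q hq => hl q (List.mem_cons_of_mem _ hq)]

/-- **the lower part of a chain**: a matrix clock `c` which takes the values `0 ≤ · ≤ V` at the positions of mass `< x`, the value `0` at the masses `< t`, the value `V` at `(t,1)`;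
a field clock which vanishes there.   The lower part has the clocks of the single revelation `⟨t, V, 0⟩`. -/
theorem l8y_h_low {a t V : ℝ} (ha : 0 ≤ a) {c h : ℝ → ℝ} (hc : GhClk1 a c) (hh : GhClk1 a h) {l : List GhPos} (hs : l.Pairwise (· ≤ ·))
    (hok : ∀ p ∈ l, p.Ok a) (hcv : ∀ p ∈ l, 0 ≤ ghAt a c p ∧ ghAt a c p ≤ V) (hc0 : ∀ p ∈ l, p.u < t → ghAt a c p = 0)
    (ht : ghPosA t ∈ l) (htV : ghAt a c (ghPosA t) = V) (hh0 : ∀ p ∈ l, ghAt a h p = 0) :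
    (∀ u, skClkB (skCStp a c h 0 0 l) u = if t ≤ u then V else 0) ∧ (∀ u, skClkH (skCStp a c h 0 0 l) u = 0) ∧
      skTotB (skCStp a c h 0 0 l) = V ∧ skTotH (skCStp a c h 0 0 l) = 0 := by
  have hB : ∀ u, skClkB (skCStp a c h 0 0 l) u = if t ≤ u then V else 0 := by
    intro u
    split_ifs with htu
    · have := sk_stp_chain_clkB ha h hc u V l 0 0 hs hok (fun p hp _ => hcv p hp) (Or.inl ⟨ghPosA t, ht, htu, htV⟩)
      simpa using this
    · have := sk_stp_chain_clkB ha h hc u 0 l 0 0 hs hok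
        (fun p hp hpu => by rw [hc0 p hp (lt_of_le_of_lt hpu (not_le.1 htu))]; exact ⟨le_rfl, le_rfl⟩) (Or.inr rfl)
      simpa using this
  have hH : ∀ u, skClkH (skCStp a c h 0 0 l) u = 0 := by
    intro u
    rw [sk_stp_chain_swap]
    have := sk_stp_chain_clkB ha c hh u 0 l 0 0 hs hok (fun p hp _ => by rw [hh0 p hp]; exact ⟨le_rfl, le_rfl⟩) (Or.inr rfl)
    simpa using this
  have hab := sk_stp_clk_above (skCStp a c h 0 0 l) a fun e he => by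
    obtain ⟨p, hp, hm⟩ := sk_stp_chain_mem a c h _ _ _ e he
    rw [hm]
    exact (hok p hp).2.1
  refine ⟨hB, hH, ?_, ?_⟩
  · rw [← hab.1, hB, if_pos (show t ≤ a from (hok _ ht).2.1)]
  · rw [← hab.2, hH]

/-- **(R1)** `ψ` on the chain is `ψ` of the reduced path.
PROOF: `l9g_psiC_eq` (77): `l9PsiC = l9PsiT`.   Then twice Lemma G (`sk_stp_pr_clk`, 256): the chains `skCStp a b h 0 0 ps` / `skCStp a (l9Tb s b) h 0 0 ps` and `l8yStp ..` / `skTilt s (l8yStp ..)` are admissible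
(`sk_stp_chain_adm`) and have the same step clocks (`sk_stp_chain_clkB`, `sk_stp_chain_swap`): below `x` the clock `b` is the constant `b 0`, revealed at `(0,1)` resp. `(s,1)`, and `h = 0`. -/
theorem l8y_ch_psi {m : ℕ} (hm : 0 < m) {a x s g : ℝ} {J : ℕ} (hs : 0 < s) (hsx : s < x) (hxa : x ≤ a) {b h : ℝ → ℝ} (K : ℝ → ℝ)
    (hck : L8yCk a x b h) {Fs : Finset GhPos} (hch : L8yCh a x s g J Fs) :
    l9PsiC m a b h K s (ghPs a Fs) = skPsi m a s (l8yStp a x b h (ghPs a Fs)) := by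
  have hx : 0 < x := hs.trans hsx
  have ha : 0 < a := hx.trans_le hxa
  have hsa : s ≤ a := hsx.le.trans hxa
  rw [l9g_psiC_eq hm hs hsa K hck.hb hck.hh hch.ps]
  unfold l9PsiT skPsi l8yStp
  simp only [skTilt]
  have hle := gh_os_ps_pairwise a Fs
  have hokps : ∀ p ∈ ghPs a Fs, p.Ok a := fun p hp => (gh_os_ps_mem.1 hp).2
  have hsplit := l8y_h_split x (ghPs a Fs) hle
  set l1 := (ghPs a Fs).filter fun p => decide (p.u < x) with hl1
  set fl := (ghPs a Fs).filter fun p => decide (x ≤ p.u) with hfl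
  have hl1s : l1.Pairwise (· ≤ ·) := hle.filter _
  have hl1m : ∀ p ∈ l1, p.Ok a ∧ p.u < x := fun p hp => by
    have := List.mem_filter.1 hp
    exact ⟨hokps p this.1, by simpa using this.2⟩
  have hb0 : 0 ≤ b 0 := hck.hb.2
  have hh0 : ∀ p ∈ l1, ghAt a h p = 0 := fun p hp => by
    rw [(l8y_at_val hx hxa hck (hl1m p hp).1).2, if_pos (hl1m p hp).2]
  -- the tilted clock
  have hbt : GhClk1 a (l9Tb s b) := ll04l_tilt_adm hck.hb s
  have hckt : L8yCk a s b (l9Tb s b) :=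
    { hb := hck.hb
      hh := hbt
      b0 := fun v hv => hck.b0 v ⟨hv.1, hv.2.trans hsx.le⟩
      h0 := fun v hv => by simp [l9Tb, not_le.2 hv.2]
      cb := hck.cb
      ch := (hck.cb.mono (Icc_subset_Icc_left hs.le)).congr fun v hv => by simp [l9Tb, hv.1] }
  have hbts : l9Tb s b s = b 0 := by
    simp only [l9Tb, le_refl, if_true]
    exact hck.b0 s ⟨hs.le, hsx.le⟩
  -- the untilted lower part
  have hokA0 : (ghPosA 0).Ok a := gh_os_posA_ok le_rfl ha.le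
  have hokAs : (ghPosA s).Ok a := gh_os_posA_ok hs.le hsa
  have low1 := l8y_h_low (t := 0) (V := b 0) ha.le hck.hb hck.hh hl1s (fun p hp => (hl1m p hp).1)
    (fun p hp => by
      obtain ⟨hok, hpx⟩ := hl1m p hp
      rw [(l8y_at_val hx hxa hck hok).1]
      split_ifs
      · exact ⟨mul_nonneg hok.2.2.1 hb0, by nlinarith [hok.2.2.2]⟩
      · rw [hck.b0 _ ⟨hok.1, hpx.le⟩]; exact ⟨hb0, le_rfl⟩)
    (fun p hp hp0 => absurd (hl1m p hp).1.1 (not_le.2 hp0))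
    (List.mem_filter.2 ⟨gh_os_ps_mem.2 ⟨hch.p0, hokA0⟩, decide_eq_true (show (ghPosA 0).u < x from hx)⟩)
    (by
      rw [(l8y_at_val hx hxa hck hokA0).1]
      have hu : (ghPosA 0).u = 0 := rfl
      have hl : (ghPosA 0).lam = 1 := rfl
      rw [hu, hl, if_pos rfl, one_mul])
    hh0
  have low2 := l8y_h_low (t := s) (V := b 0) ha.le hbt hck.hh hl1s (fun p hp => (hl1m p hp).1)
    (fun p hp => by
      obtain ⟨hok, hpx⟩ := hl1m p hp
      rw [(l8y_at_val hs hsa hckt hok).2, hbts]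
      split_ifs with h1 h2
      · exact ⟨le_rfl, hb0⟩
      · exact ⟨mul_nonneg hok.2.2.1 hb0, by nlinarith [hok.2.2.2]⟩
      · simp only [l9Tb, not_lt.1 h1, if_true]
        rw [hck.b0 _ ⟨hok.1, hpx.le⟩]; exact ⟨hb0, le_rfl⟩)
    (fun p hp hps => by rw [(l8y_at_val hs hsa hckt (hl1m p hp).1).2, if_pos hps])
    (List.mem_filter.2 ⟨gh_os_ps_mem.2 ⟨hch.ps, hokAs⟩, decide_eq_true (show (ghPosA s).u < x from hsx)⟩)
    (by
      rw [(l8y_at_val hs hsa hckt hokAs).2]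
      have hu : (ghPosA s).u = s := rfl
      have hl : (ghPosA s).lam = 1 := rfl
      rw [hu, hl, if_neg (lt_irrefl s), if_pos rfl, one_mul, hbts])
    hh0
  -- the upper part does not see the tilt
  have hup : skCStp a (l9Tb s b) h (b 0) 0 fl = skCStp a b h (b 0) 0 fl := by
    refine l8y_h_chain_congr a h fl _ _ fun p hp => ?_
    obtain ⟨-, hok, hxp⟩ := l8y_h_fl_mem.1 hp
    rw [(l8y_at_val hs hsa hckt hok).2, (l8y_at_val hx hxa hck hok).1, if_neg (by linarith), if_neg (by linarith), if_neg (by linarith)]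
    simp only [l9Tb, (by linarith : s ≤ p.u), if_true]
  have d1 : skCStp a b h 0 0 (ghPs a Fs) = skCStp a b h 0 0 l1 ++ skCStp a b h (b 0) 0 fl := by
    conv_lhs => rw [hsplit]
    rw [l8y_h_append, low1.2.2.1, low1.2.2.2, zero_add, zero_add]
  have d2 : skCStp a (l9Tb s b) h 0 0 (ghPs a Fs) = skCStp a (l9Tb s b) h 0 0 l1 ++ skCStp a b h (b 0) 0 fl := by
    conv_lhs => rw [hsplit]
    rw [l8y_h_append, low2.2.2.1, low2.2.2.2, zero_add, zero_add, hup]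
  have adm1 : SkAdm a (skCStp a b h 0 0 (ghPs a Fs)) :=
    sk_stp_chain_adm ha.le hck.hb hck.hh _ 0 0 hle hokps (fun p hp => gh_os_at_nonneg ha.le hck.hb (hokps p hp).2.2.1)
      (fun p hp => gh_os_at_nonneg ha.le hck.hh (hokps p hp).2.2.1)
  have adm2 : SkAdm a (skCStp a (l9Tb s b) h 0 0 (ghPs a Fs)) :=
    sk_stp_chain_adm ha.le hbt hck.hh _ 0 0 hle hokps (fun p hp => gh_os_at_nonneg ha.le hbt (hokps p hp).2.2.1)
      (fun p hp => gh_os_at_nonneg ha.le hck.hh (hokps p hp).2.2.1)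
  have e1 : skPr m a (skCStp a b h 0 0 (ghPs a Fs)) = skPr m a (⟨0, b 0, 0⟩ :: skCStp a b h (b 0) 0 fl) := by
    refine sk_stp_pr_clk m ha adm1 (l8y_h_adm hx hxa hck Fs le_rfl hx.le) ?_ ?_
    · funext u
      rw [d1, (l8y_h_clk_append _ _ u).1, low1.1, sk_stp_clkB_cons]
    · funext u
      rw [d1, (l8y_h_clk_append _ _ u).2, low1.2.1, sk_stp_clkH_cons]
      simp
  have e2 : skPr m a (skCStp a (l9Tb s b) h 0 0 (ghPs a Fs)) = skPr m a (⟨s, b 0, 0⟩ :: skCStp a b h (b 0) 0 fl) := by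
    refine sk_stp_pr_clk m ha adm2 (l8y_h_adm hx hxa hck Fs hs.le hsx.le) ?_ ?_
    · funext u
      rw [d2, (l8y_h_clk_append _ _ u).1, low2.1, sk_stp_clkB_cons]
    · funext u
      rw [d2, (l8y_h_clk_append _ _ u).2, low2.2.1, sk_stp_clkH_cons]
      simp
  rw [e1, e2]

/-! ## 2. The supplies -/

/-- the reduced path at a path point -/
def l8yA (F : LlFix) (𝔹 : LlBase) (Fs : Finset GhPos) (p : LlPt) : SkStp := l8yStp p.a p.x (p.b F 𝔹) (p.h F 𝔹) (ghPs p.a Fs)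

/-- ranges of the parameters of the direct points `ll04Pt N ell lam cL cE false γ` -/
def L8yPar (F : LlFix) (N : ℕ) (ell lam cL cE : ℝ) : Prop :=
  ell ∈ Icc (1 : ℝ) ((2 : ℝ) ^ (1 / 6 : ℝ)) ∧ lam ∈ Icc (skX N ^ (12 : ℝ)) (skX N ^ F.pS) ∧ cL ∈ Icc (0 : ℝ) 1 ∧ cE ∈ Icc (0 : ℝ) 1

/-- **SUPPLY (CLK-D)**: the direct clocks at function level.      OWNER: LL03 (helper272 / helper253).
(1) admissibility 03 l.356-437, `b` constant on `[0,x]` (`LlAdm`), `h - H_lo` nondecreasing on `[x,ℓ]` (03 l.425-437), `h(ℓ), |H_e| ≲_∘ 1`;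
(2) equicontinuity in the mass on `[0,ℓ]` (`b`: `LlAdm`) resp. `[x,ℓ]` (`h`), UNIFORM in `(ℓ, λ, χ, γ)` at fixed `N` (compactness; the only jump of `h` is at the mass `x`);
(3) 03 l.469-479: "all dotted clocks are `O_∘(λ)`" in `log λ` = sup-Lipschitz in `λ` with the constant `C x^(-δ)`, at `(χ_lin, χ_e) = (0,1)`. -/
def L8yClk (𝔹 : LlBase) (F : LlFix) : Prop :=
  ∀ δ : ℝ, 0 < δ → ∃ (C : ℝ) (N0 : ℕ), ∀ N : ℕ, N0 ≤ N →
    (∀ (ell lam cL cE : ℝ) (γ : Fin (N + 1) → ℝ), L8yPar F N ell lam cL cE →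
      GhClk1 ell ((ll04Pt N ell lam cL cE false γ).b F 𝔹) ∧ GhClk1 ell ((ll04Pt N ell lam cL cE false γ).h F 𝔹) ∧
      (∀ v ∈ Icc 0 (skX N), (ll04Pt N ell lam cL cE false γ).b F 𝔹 v = (ll04Pt N ell lam cL cE false γ).b F 𝔹 0) ∧
      (∀ u1 u2 : ℝ, skX N ≤ u1 → u1 ≤ u2 → u2 ≤ ell →
        (ll04Pt N ell lam cL cE false γ).lam1 F * (ll04Pt N ell lam cL cE false γ).U F ^ 3 * Real.log (u2 / u1)
          ≤ (ll04Pt N ell lam cL cE false γ).h F 𝔹 u2 - (ll04Pt N ell lam cL cE false γ).h F 𝔹 u1) ∧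
      (ll04Pt N ell lam cL cE false γ).h F 𝔹 ell ≤ C * skX N ^ (-δ) ∧
      ∀ v ∈ Icc (skX N) ell, |(ll04Pt N ell lam cL cE false γ).He F 𝔹 v| ≤ C * skX N ^ (-δ)) ∧
    (∀ ρ : ℝ, 0 < ρ → ∃ d : ℝ, 0 < d ∧ ∀ (ell lam cL cE : ℝ) (γ : Fin (N + 1) → ℝ), L8yPar F N ell lam cL cE →
      ∀ u1 u2 : ℝ, 0 ≤ u1 → u1 ≤ u2 → u2 ≤ ell → u2 - u1 ≤ d →
        (ll04Pt N ell lam cL cE false γ).b F 𝔹 u2 - (ll04Pt N ell lam cL cE false γ).b F 𝔹 u1 ≤ ρ ∧
        (skX N ≤ u1 → (ll04Pt N ell lam cL cE false γ).h F 𝔹 u2 - (ll04Pt N ell lam cL cE false γ).h F 𝔹 u1 ≤ ρ)) ∧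
    ∀ (ell lam lam' : ℝ) (γ : Fin (N + 1) → ℝ), L8yPar F N ell lam 0 1 → L8yPar F N ell lam' 0 1 → ∀ v ∈ Icc 0 ell,
      |(ll04Pt N ell lam' 0 1 false γ).b F 𝔹 v - (ll04Pt N ell lam 0 1 false γ).b F 𝔹 v| ≤ C * skX N ^ (-δ) * |lam' - lam| ∧
      |(ll04Pt N ell lam' 0 1 false γ).h F 𝔹 v - (ll04Pt N ell lam 0 1 false γ).h F 𝔹 v| ≤ C * skX N ^ (-δ) * |lam' - lam|

/-- the speed of the field clock on the cuts of the reduced chain along the multiplier sweep `i` (the clocks are affine in the multipliers) -/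
def l8yEta (F : LlFix) (𝔹 : LlBase) (Fs : Finset GhPos) (N : ℕ) (ell : ℝ) (i : Fin 3) (γ : Fin (N + 1) → ℝ) (k : ℕ) : ℝ :=
  skCumH (l8yA F 𝔹 Fs (ll04Dir F N ell i γ 1)) k - skCumH (l8yA F 𝔹 Fs (ll04Dir F N ell i γ 0)) k

/-- **SUPPLY (TILE)** (08 l.985-1000): `E ∫ H² W dv ≲_⋄ χ_e⁻¹ x⁶ λ_1⁻¹ Z² {x⁶ | λ_1² U⁴}` for `H = H_lin` (`i = 1`, `χ_e = 1`), `H = H_e` (`i = 2`, `χ_e = 1 - τ`), in the UNTILTED system, on the reduced chain.
The constant and the subpower loss are absorbed in `Z`, of which only `E_γ Z ≲_∘ 1` is used.      OWNER: LL08 tiles (helper228 + helper246), from (D1), (D3), (D5), (D7). -/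
def L8yTile (𝔹 : LlBase) (F : LlFix) : Prop :=
  ∀ δ : ℝ, 0 < δ → ∃ (C : ℝ) (N0 : ℕ), ∀ N : ℕ, N0 ≤ N → ∀ᶠ Fs : Finset GhPos in atTop, ∀ m : ℕ, N ≤ 2 * m → m ≤ 3 * N →
    ∀ ell : ℝ, ell ∈ Icc (1 : ℝ) ((2 : ℝ) ^ (1 / 6 : ℝ)) → ∀ i : Fin 3, i ≠ 0 →
      ∃ Z : (Fin (N + 1) → ℝ) × ℝ → ℝ, Measurable Z ∧ (∀ z, 0 ≤ Z z) ∧
        (∀ τ ∈ Ioo (0 : ℝ) 1, ∫⁻ γ, ENNReal.ofReal (Z (γ, τ)) ∂ll04Mu N ≤ ENNReal.ofReal (C * skX N ^ (-δ))) ∧
        ∀ (γ : Fin (N + 1) → ℝ), ∀ τ ∈ Ioo (0 : ℝ) 1,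
          l8yWe m ell (l8yA F 𝔹 Fs (ll04Dir F N ell i γ τ)) (l8yEta F 𝔹 Fs N ell i γ)
            ≤ Z (γ, τ) ^ 2 * (if i = 1 then skX N ^ (12 : ℝ) / (ll04Dir F N ell i γ τ).lam1 F
                else (1 - τ)⁻¹ * skX N ^ (6 : ℝ) * (ll04Dir F N ell i γ τ).lam1 F * (ll04Dir F N ell i γ τ).U F ^ 4)

/-! ## 3. The pointwise bounds at the LL level -/

/-- a monotone function with a modulus of continuity is continuous -/
theorem l8y_h_cont_of_mod {c : ℝ → ℝ} {lo hi : ℝ} (hm : MonotoneOn c (Icc lo hi))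
    (hmod : ∀ ρ : ℝ, 0 < ρ → ∃ d : ℝ, 0 < d ∧ ∀ u1 u2, lo ≤ u1 → u1 ≤ u2 → u2 ≤ hi → u2 - u1 ≤ d → c u2 - c u1 ≤ ρ) :
    ContinuousOn c (Icc lo hi) := by
  rw [Metric.continuousOn_iff]
  intro u hu ρ hρ
  obtain ⟨d, hd, H⟩ := hmod (ρ / 2) (half_pos hρ)
  refine ⟨d, hd, fun v hv hvu => ?_⟩
  rw [Real.dist_eq] at hvu ⊢
  rcases le_total u v with h | h
  · have h1 := H u v hu.1 h hv.2 (by rw [abs_of_nonneg (by linarith)] at hvu; linarith)
    have h2 := hm hu hv h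
    rw [abs_of_nonneg (by linarith)]
    linarith
  · have h1 := H v u hv.1 h hu.2 (by rw [abs_of_nonpos (by linarith)] at hvu; linarith)
    have h2 := hm hv hu h
    rw [abs_of_nonpos (by linarith)]
    linarith

/-- the clocks of a direct point satisfy `L8yCk` (continuity from the equicontinuity; `h = 0` below `x` by definition) -/
theorem l8y_clk_ck {𝔹 : LlBase} {F : LlFix} (hClk : L8yClk 𝔹 F) : ∃ N0 : ℕ, ∀ N : ℕ, N0 ≤ N → ∀ (ell lam cL cE : ℝ) (γ : Fin (N + 1) → ℝ),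
    L8yPar F N ell lam cL cE →
      L8yCk ell (skX N) ((ll04Pt N ell lam cL cE false γ).b F 𝔹) ((ll04Pt N ell lam cL cE false γ).h F 𝔹) := by
  obtain ⟨C, N0, H⟩ := hClk 1 one_pos
  refine ⟨max N0 1, fun N hN ell lam cL cE γ hpar => ?_⟩
  have hN1 : 1 ≤ N := (le_max_right _ _).trans hN
  have hx : 0 < skX N := Real.rpow_pos_of_pos (by exact_mod_cast hN1) _
  obtain ⟨H1, H2, -⟩ := H N ((le_max_left _ _).trans hN)
  obtain ⟨a1, a2, a3, -, -, -⟩ := H1 ell lam cL cE γ hpar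
  refine ⟨a1, a2, a3, fun v hv => ?_, ?_, ?_⟩
  · show (if v < skX N then (0 : ℝ) else _) = 0
    rw [if_pos hv.2]
  · refine l8y_h_cont_of_mod a1.1 fun ρ hρ => ?_
    obtain ⟨d, hd, H3⟩ := H2 ρ hρ
    exact ⟨d, hd, fun u1 u2 h1 h2 h3 h4 => (H3 ell lam cL cE γ hpar u1 u2 h1 h2 h3 h4).1⟩
  · refine l8y_h_cont_of_mod (a2.1.mono (Icc_subset_Icc hx.le le_rfl)) fun ρ hρ => ?_
    obtain ⟨d, hd, H3⟩ := H2 ρ hρ
    exact ⟨d, hd, fun u1 u2 h1 h2 h3 h4 => (H3 ell lam cL cE γ hpar u1 u2 (hx.le.trans h1) h2 h3 h4).2 h1⟩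

/-- fine chains: reducedness, last gap `≤ x⁶`, `ψ` = `ψ` of the reduced path, fineness with `κ0 = λ_1 U³`; UNIFORM in all the parameters.   GENERIC IN THE SET OF POSITIONS `Fs` (so that it applies to `Fs` and to
`l9Fl Fs` of Contract v5): only the conditions `L8yCh` with the mesh `g` and `J` fractions are asked.
PROOF: `l8y_clk_ck`; `ρ = 1 / (96 N)`, `d` from the equicontinuity, `g = min d x⁶`, `J ≥ C x^(-δ) / ρ`; `l8y_ch_red`, `l8y_ch_psi`, `l8y_ch_mesh`, `l8y_ch_slope`; `a² m · 2ρ ≤ 2 · 3N · 2ρ = 1/8`. -/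
theorem l8y_clk_fine {𝔹 : LlBase} {F : LlFix} (hF : F.Ok) (hClk : L8yClk 𝔹 F) (q ε : ℝ) (hq : 0 < q) (hε : 0 < ε) : ∃ N0 : ℕ, ∀ N : ℕ, N0 ≤ N →
    ∃ (g : ℝ) (J : ℕ), 0 < g ∧ ∀ Fs : Finset GhPos, (∀ a : ℝ, skX N ≤ a → a ≤ 2 → L8yCh a (skX N) (q * skX N ^ (1 + ε)) g J Fs) →
    ∀ (ell lam cL cE : ℝ) (γ : Fin (N + 1) → ℝ), L8yPar F N ell lam cL cE →
      L8yCk ell (skX N) ((ll04Pt N ell lam cL cE false γ).b F 𝔹) ((ll04Pt N ell lam cL cE false γ).h F 𝔹) ∧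
      L8yRed ell (skX N) (l8yA F 𝔹 Fs (ll04Pt N ell lam cL cE false γ)) ∧
      skGap ell (l8yA F 𝔹 Fs (ll04Pt N ell lam cL cE false γ)) (l8yA F 𝔹 Fs (ll04Pt N ell lam cL cE false γ)).length ≤ skX N ^ (6 : ℝ) ∧
      ∀ m : ℕ, N ≤ 2 * m → m ≤ 3 * N →
        l9PsiC m ell ((ll04Pt N ell lam cL cE false γ).b F 𝔹) ((ll04Pt N ell lam cL cE false γ).h F 𝔹) ((ll04Pt N ell lam cL cE false γ).K F 𝔹)
            (q * skX N ^ (1 + ε)) (ghPs ell Fs)
          = skPsi m ell (q * skX N ^ (1 + ε)) (l8yA F 𝔹 Fs (ll04Pt N ell lam cL cE false γ)) ∧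
        L8yFine m ell ((ll04Pt N ell lam cL cE false γ).lam1 F * (ll04Pt N ell lam cL cE false γ).U F ^ 3)
          (l8yA F 𝔹 Fs (ll04Pt N ell lam cL cE false γ)) := by
  obtain ⟨C, N1, H⟩ := hClk 1 one_pos
  obtain ⟨N2, Hck⟩ := l8y_clk_ck hClk
  have hlim : Tendsto (fun N : ℕ => skX N ^ ε) atTop (nhds 0) := by
    have h1 : Tendsto (fun N : ℕ => (N : ℝ) ^ (-(ε / 6))) atTop (nhds 0) :=
      (tendsto_rpow_neg_atTop (by positivity : 0 < ε / 6)).comp tendsto_natCast_atTop_atTop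
    refine h1.congr fun N => ?_
    unfold skX
    rw [← Real.rpow_mul (Nat.cast_nonneg N)]
    congr 1
    ring
  obtain ⟨N3, hN3⟩ := eventually_atTop.1 (hlim.eventually (gt_mem_nhds (by positivity : 0 < 1 / q)))
  refine ⟨max (max N1 N2) (max N3 1), fun N hN => ?_⟩
  have hN1 : N1 ≤ N := le_trans (le_trans (le_max_left _ _) (le_max_left _ _)) hN
  have hN2 : N2 ≤ N := le_trans (le_trans (le_max_right _ _) (le_max_left _ _)) hN
  have hN3' : N3 ≤ N := le_trans (le_trans (le_max_left _ _) (le_max_right _ _)) hN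
  have hN4 : 1 ≤ N := le_trans (le_trans (le_max_right _ _) (le_max_right _ _)) hN
  have hNR : (1 : ℝ) ≤ N := by exact_mod_cast hN4
  have hx : 0 < skX N := Real.rpow_pos_of_pos (by linarith) _
  have hx1 : skX N ≤ 1 := Real.rpow_le_one_of_one_le_of_nonpos hNR (by norm_num)
  have hs : 0 < q * skX N ^ (1 + ε) := by positivity
  have hsx : q * skX N ^ (1 + ε) < skX N := by
    have h1 : skX N ^ ε < 1 / q := hN3 N hN3'
    rw [lt_div_iff₀ hq] at h1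
    rw [Real.rpow_add hx, Real.rpow_one]
    nlinarith
  obtain ⟨H1, H2, -⟩ := H N hN1
  have hρ : (0 : ℝ) < 1 / (96 * N) := by positivity
  obtain ⟨d, hd, H3⟩ := H2 _ hρ
  have hx6 : skX N ^ (6 : ℝ) ≤ skX N := by
    calc skX N ^ (6 : ℝ) ≤ skX N ^ (1 : ℝ) := Real.rpow_le_rpow_of_exponent_ge hx hx1 (by norm_num)
      _ = skX N := Real.rpow_one _
  refine ⟨min d (skX N ^ (6 : ℝ)), ⌈C * skX N ^ (-(1 : ℝ)) / (1 / (96 * N))⌉₊ + 1, lt_min hd (by positivity), fun Fs hFs ell lam cL cE γ hpar => ?_⟩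
  have hell1 : 1 ≤ ell := hpar.1.1
  have hell2 : ell ^ 2 ≤ 2 := by
    have h1 : ell ^ 2 ≤ ((2 : ℝ) ^ (1 / 6 : ℝ)) ^ 2 := pow_le_pow_left₀ (by linarith) hpar.1.2 2
    have h2 : ((2 : ℝ) ^ (1 / 6 : ℝ)) ^ 2 = (2 : ℝ) ^ (1 / 3 : ℝ) := by
      rw [← Real.rpow_natCast, ← Real.rpow_mul (by norm_num)]
      norm_num
    have h3 : (2 : ℝ) ^ (1 / 3 : ℝ) ≤ (2 : ℝ) ^ (1 : ℝ) := Real.rpow_le_rpow_of_exponent_le (by norm_num) (by norm_num)
    rw [Real.rpow_one] at h3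
    linarith
  have hell3 : ell ≤ 2 := by nlinarith
  have hxa : skX N ≤ ell := hx1.trans hell1
  have hch := hFs ell hxa hell3
  have hck := Hck N hN2 ell lam cL cE γ hpar
  obtain ⟨-, a2, -, a4, a5, -⟩ := H1 ell lam cL cE γ hpar
  obtain ⟨r1, r2⟩ := l8y_ch_red hx hxa ((min_le_right _ _).trans hx6) hck hch
  refine ⟨hck, r1, r2.trans (min_le_right _ _), fun m hm1 hm2 => ?_⟩
  have hm0 : 0 < m := by omega
  refine ⟨l8y_ch_psi hm0 hs hsx hxa _ hck hch, ?_, ?_⟩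
  · -- mesh
    have hJ : (ll04Pt N ell lam cL cE false γ).h F 𝔹 (skX N)
        ≤ 1 / (96 * N) * ((⌈C * skX N ^ (-(1 : ℝ)) / (1 / (96 * N))⌉₊ + 1 : ℕ) : ℝ) := by
      have b1 : (ll04Pt N ell lam cL cE false γ).h F 𝔹 (skX N) ≤ (ll04Pt N ell lam cL cE false γ).h F 𝔹 ell :=
        a2.1 ⟨hx.le, hxa⟩ ⟨by linarith, le_rfl⟩ hxa
      have b2 := Nat.le_ceil (C * skX N ^ (-(1 : ℝ)) / (1 / (96 * N)))
      rw [div_le_iff₀ hρ] at b2
      push_cast
      nlinarith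
    have hmesh := l8y_ch_mesh (ρ := 1 / (96 * N)) (Nat.succ_pos _) hx hxa hck
      (fun u1 u2 h1 h2 h3 h4 => H3 ell lam cL cE γ hpar u1 u2 h1 h2 h3 (h4.trans (min_le_left _ _))) hJ hch
    intro e he
    rcases hmesh e he with h0 | ⟨h1, h2⟩
    · exact Or.inl h0
    · right
      have hmR : (m : ℝ) ≤ 3 * N := by exact_mod_cast hm2
      have hm0R : (0 : ℝ) ≤ m := Nat.cast_nonneg m
      have c1 : e.dh + e.db ≤ 2 * (1 / (96 * N)) := by linarith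
      have c2 : ell ^ 2 * m ≤ 2 * (3 * N) := mul_le_mul hell2 hmR hm0R (by norm_num)
      have c3 : 0 ≤ ell ^ 2 * (m : ℝ) := by positivity
      calc ell ^ 2 * m * (e.dh + e.db) ≤ ell ^ 2 * m * (2 * (1 / (96 * N))) := mul_le_mul_of_nonneg_left c1 c3
        _ ≤ 2 * (3 * N) * (2 * (1 / (96 * N))) := mul_le_mul_of_nonneg_right c2 (by positivity)
        _ = 1 / 8 := by field_simp; norm_num
  · -- slope
    intro k hk2 hk
    have hl0 : 0 < lam := lt_of_lt_of_le (by positivity) hpar.2.1.1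
    have hκ : 0 ≤ (ll04Pt N ell lam cL cE false γ).lam1 F * (ll04Pt N ell lam cL cE false γ).U F ^ 3 := by
      have u1 : 0 ≤ (ll04Pt N ell lam cL cE false γ).lam1 F := Real.rpow_nonneg hl0.le _
      have u2 : 0 ≤ (ll04Pt N ell lam cL cE false γ).U F := le_min zero_le_one (mul_nonneg hx.le (Real.rpow_nonneg hl0.le _))
      positivity
    exact l8y_ch_slope hx hxa hck hκ a4 hch k hk2 hk

/-- a derivative is bounded by a Lipschitz bound through a differentiable change of variable -/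
theorem l8y_deriv_le {f g : ℝ → ℝ} {f' g' K t0 : ℝ} (hf : HasDerivAt f f' t0) (hg : HasDerivAt g g' t0) (hK : 0 ≤ K)
    (h : ∀ᶠ t in nhds t0, |f t - f t0| ≤ K * |g t - g t0|) : |f'| ≤ K * |g'| := by
  have h1 := (hasDerivAt_iff_tendsto_slope.mp hf).abs
  have h2 := ((hasDerivAt_iff_tendsto_slope.mp hg).abs).const_mul K
  refine le_of_tendsto_of_tendsto h1 h2 ?_
  have h3 : ∀ᶠ t in nhdsWithin t0 {t0}ᶜ, |f t - f t0| ≤ K * |g t - g t0| := h.filter_mono nhdsWithin_le_nhds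
  filter_upwards [h3, self_mem_nhdsWithin] with t ht hne
  have hne' : t - t0 ≠ 0 := sub_ne_zero.mpr hne
  have hpos : 0 < |t - t0| := abs_pos.mpr hne'
  simp only [slope_def_field, abs_div]
  rw [← mul_div_assoc]
  exact div_le_div_of_nonneg_right ht hpos.le

/-- `ψ_m(s)` at the path point `p` on the chain of the positions `Fs` (`= l9Psi F 𝔹 s Fs p m` in Contract v4, `l9Psi F 𝔹 s Fs p m = l8yPsi F 𝔹 s (l9Fl Fs) p m` in v5; both by `rfl`) -/
def l8yPsi (F : LlFix) (𝔹 : LlBase) (s : ℝ) (Fs : Finset GhPos) (p : LlPt) (m : ℕ) : ℝ :=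
  l9PsiC m p.a (p.b F 𝔹) (p.h F 𝔹) (p.K F 𝔹) s (ghPs p.a Fs)

/-- the values of the clocks `b, h` at the positions of the chain are differentiable at `t` along `pf` -/
def L8yDif (F : LlFix) (𝔹 : LlBase) (a : ℝ) (Fs : Finset GhPos) (pf : ℝ → LlPt) (t : ℝ) : Prop :=
  ∀ P ∈ ghPs a Fs, DifferentiableAt ℝ (fun t' => ghAt a ((pf t').b F 𝔹) P) t ∧ DifferentiableAt ℝ (fun t' => ghAt a ((pf t').h F 𝔹) P) t

/-- the positions of the cuts of the reduced chain (they do not depend on the clocks) -/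
theorem l8y_cv_pos {a x s g : ℝ} {J : ℕ} (hx : 0 < x) (hxa : x ≤ a) {Fs : Finset GhPos} (hch : L8yCh a x s g J Fs) :
    ∃ pos : ℕ → GhPos, (∀ k, pos k ∈ ghPs a Fs) ∧ ∀ b h : ℝ → ℝ, L8yCk a x b h → ∀ k, 1 ≤ k → k ≤ (l8yStp a x b h (ghPs a Fs)).length →
      skCumB (l8yStp a x b h (ghPs a Fs)) k = ghAt a b (pos k) ∧ skCumH (l8yStp a x b h (ghPs a Fs)) k = ghAt a h (pos k) := by
  classical
  have h0 : ghPosA 0 ∈ ghPs a Fs := gh_os_ps_mem.2 ⟨hch.p0, gh_os_posA_ok le_rfl (hx.le.trans hxa)⟩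
  have H := fun (k : ℕ) (hk : 1 ≤ k ∧ k ≤ ((ghPs a Fs).filter fun p => decide (x ≤ p.u)).length + 1) => l8y_ch_cum hx hxa hch k hk.1 hk.2
  refine ⟨fun k => if hk : 1 ≤ k ∧ k ≤ ((ghPs a Fs).filter fun p => decide (x ≤ p.u)).length + 1 then (H k hk).choose else ghPosA 0, fun k => ?_,
    fun b h hck k hk1 hk => ?_⟩
  · dsimp only
    split_ifs with hk
    · exact (H k hk).choose_spec.1
    · exact h0
  · rw [(l8y_h_ms a x b h (ghPs a Fs)).2.2.2] at hk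
    dsimp only
    rw [dif_pos ⟨hk1, hk⟩]
    exact (H k ⟨hk1, hk⟩).choose_spec.2 b h hck

/-- `log (1/x) ≤ C x^(-δ)` -/
theorem l8y_ar_log (δ : ℝ) (hδ : 0 < δ) {x : ℝ} (hx : 0 < x) (hx1 : x ≤ 1) : Real.log (1 / x) ≤ δ⁻¹ * x ^ (-δ) := by
  have h := Real.log_le_rpow_div (by positivity : 0 ≤ 1 / x) hδ
  refine h.trans (le_of_eq ?_)
  rw [one_div, Real.inv_rpow hx.le, Real.rpow_neg hx.le]
  ring

theorem l8y_two_sixth : (2 : ℝ) ^ (1 / 6 : ℝ) ≤ 2 := by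
  calc (2 : ℝ) ^ (1 / 6 : ℝ) ≤ (2 : ℝ) ^ (1 : ℝ) := Real.rpow_le_rpow_of_exponent_le (by norm_num) (by norm_num)
    _ = 2 := Real.rpow_one _

/-- the arithmetic of `l8y_core` at `n = m ≥ N / 2`, `x = N^(-1/6)` -/
theorem l8y_ar_core (δ : ℝ) (hδ : 0 < δ) {N m p : ℕ} (hN : 1 ≤ N) (hm : N ≤ 2 * m) (hp : 2 ≤ p) {ell κ0 : ℝ} (h1 : 1 ≤ ell) (h2 : ell ≤ 2)
    (hκ : 0 < κ0) (hκ1 : κ0 ≤ 1) :
    2 * skX N + 25 / √(m * κ0) + 1 / 4 * (l8yDb m ell (skX N) κ0 + (4 * Real.exp 1 * ell * l8yDb m ell (skX N) κ0 ^ (p - 1)) ^ (1 / (p : ℝ)))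
      ≤ (3000 + 100 / δ) * skX N ^ (-δ) * (skX N + skX N ^ (-(3 / (p : ℝ))) * (skX N ^ (3 : ℝ) / √κ0)) := by
  have hx : 0 < skX N := sk_nm_x_pos hN
  have hx1 : skX N ≤ 1 := sk_nm_x_le_one hN
  set x := skX N with hxdef
  have hpR : (2 : ℝ) ≤ p := by exact_mod_cast hp
  have hp0 : (0 : ℝ) < p := by linarith
  have hsκ : 0 < √κ0 := Real.sqrt_pos.2 hκ
  have hsκ1 : √κ0 ≤ 1 := Real.sqrt_le_one.2 hκ1
  set e1 := x ^ (3 : ℝ) / √κ0 with he1
  have hx3 : 0 < x ^ (3 : ℝ) := Real.rpow_pos_of_pos hx _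
  have he1x : x ^ (3 : ℝ) ≤ e1 := by
    rw [he1, le_div_iff₀ hsκ]
    nlinarith
  have he10 : 0 < e1 := lt_of_lt_of_le hx3 he1x
  have hm0 : 0 < m := by omega
  have hmR : (0 : ℝ) < m := by exact_mod_cast hm0
  have hNR : (N : ℝ) ≤ 2 * m := by exact_mod_cast hm
  have hNx : (N : ℝ) * (x ^ (3 : ℝ)) ^ 2 = 1 := by
    rw [sk_nm_N_eq N, ← hxdef, ← Real.rpow_natCast (x ^ (3 : ℝ)), ← Real.rpow_mul hx.le, ← Real.rpow_add hx]
    norm_num
  -- r ≤ 3/2 e1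
  have hsm : 0 < √((m : ℝ) * κ0) := Real.sqrt_pos.2 (by positivity)
  have hr : 1 / √((m : ℝ) * κ0) ≤ 3 / 2 * e1 := by
    rw [div_le_iff₀ hsm, Real.sqrt_mul hmR.le, he1]
    have : 1 ≤ 3 / 2 * x ^ (3 : ℝ) * √(m : ℝ) := by
      have h3 : (1 : ℝ) ≤ (3 / 2 * x ^ (3 : ℝ) * √(m : ℝ)) ^ 2 := by
        rw [mul_pow, mul_pow, Real.sq_sqrt hmR.le]
        nlinarith [sq_nonneg (x ^ (3 : ℝ))]
      have h4 : 0 ≤ 3 / 2 * x ^ (3 : ℝ) * √(m : ℝ) := by positivity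
      nlinarith
    calc (1 : ℝ) ≤ 3 / 2 * x ^ (3 : ℝ) * √(m : ℝ) := this
      _ = 3 / 2 * (x ^ (3 : ℝ) / √κ0) * (√(m : ℝ) * √κ0) := by field_simp
  -- the logarithm
  have hxd : 1 ≤ x ^ (-δ) := Real.one_le_rpow_of_pos_of_le_one_of_nonpos hx hx1 (by linarith)
  have hlog : Real.log (ell / x) ≤ 1 + δ⁻¹ * x ^ (-δ) := by
    rw [div_eq_mul_one_div, Real.log_mul (by positivity) (by positivity)]
    have a1 : Real.log ell ≤ 1 := by
      have := Real.log_le_sub_one_of_pos (by linarith : 0 < ell)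
      linarith
    have a2 := l8y_ar_log δ hδ hx hx1
    linarith
  have hlog0 : 0 ≤ Real.log (ell / x) := Real.log_nonneg (by rw [le_div_iff₀ hx]; linarith)
  have hsq : √(Real.log (ell / x)) ≤ 1 + Real.log (ell / x) := by
    rw [Real.sqrt_le_left (by linarith)]
    nlinarith
  set L' := (206 + 8 / δ) * x ^ (-δ) with hL'
  have hδi : 0 < δ⁻¹ := inv_pos.2 hδ
  have h8 : 8 / δ = 8 * δ⁻¹ := div_eq_mul_inv _ _
  have hL : 190 + 8 * √(Real.log (ell / x)) ≤ L' := by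
    rw [hL', h8]
    have : 0 ≤ δ⁻¹ * x ^ (-δ) := by positivity
    calc 190 + 8 * √(Real.log (ell / x)) ≤ 206 + 8 * (δ⁻¹ * x ^ (-δ)) := by linarith
      _ ≤ 206 * x ^ (-δ) + 8 * (δ⁻¹ * x ^ (-δ)) := by linarith
      _ = _ := by ring
  have hL1 : 1 ≤ L' := by
    have : 0 ≤ √(Real.log (ell / x)) := Real.sqrt_nonneg _
    linarith
  set D := l8yDb m ell x κ0 with hD
  have hD0 : 0 ≤ D := by
    rw [hD]; unfold l8yDb
    have := Real.sqrt_nonneg (Real.log (ell / x))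
    positivity
  set D' := 3 / 2 * L' * e1 with hD'
  have hDD : D ≤ D' := by
    rw [hD, hD']; unfold l8yDb
    rw [div_eq_mul_one_div]
    calc (190 + 8 * √(Real.log (ell / x))) * (1 / √((m : ℝ) * κ0)) ≤ L' * (3 / 2 * e1) :=
          mul_le_mul hL hr (by positivity) (by linarith)
      _ = _ := by ring
  have hD'x : x ^ (3 : ℝ) ≤ D' := by
    rw [hD']
    nlinarith
  have hD'0 : 0 < D' := lt_of_lt_of_le hx3 hD'x
  have hxp : 1 ≤ x ^ (-(3 / (p : ℝ))) := Real.one_le_rpow_of_pos_of_le_one_of_nonpos hx hx1 (by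
    have : 0 ≤ 3 / (p : ℝ) := by positivity
    linarith)
  -- the Hölder term
  have hT : (4 * Real.exp 1 * ell * D ^ (p - 1)) ^ (1 / (p : ℝ)) ≤ 22 * (D' * x ^ (-(3 / (p : ℝ)))) := by
    have c1 : 4 * Real.exp 1 * ell ≤ 22 := by
      have := Real.exp_one_lt_d9
      have e0 := Real.exp_pos 1
      calc 4 * Real.exp 1 * ell ≤ 4 * Real.exp 1 * 2 := mul_le_mul_of_nonneg_left h2 (by positivity)
        _ ≤ 22 := by linarith
    have t1 : (4 * Real.exp 1 * ell * D ^ (p - 1)) ^ (1 / (p : ℝ)) ≤ (22 * D' ^ (p - 1)) ^ (1 / (p : ℝ)) := by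
      refine Real.rpow_le_rpow (by positivity) ?_ (by positivity)
      exact mul_le_mul c1 (pow_le_pow_left₀ hD0 hDD _) (by positivity) (by norm_num)
    have t2 : (22 * D' ^ (p - 1)) ^ (1 / (p : ℝ)) = (22 : ℝ) ^ (1 / (p : ℝ)) * (D' * D' ^ (-(1 / (p : ℝ)))) := by
      rw [Real.mul_rpow (by norm_num) (by positivity), ← Real.rpow_natCast D', ← Real.rpow_mul hD'0.le]
      congr 1
      nth_rewrite 2 [← Real.rpow_one D']
      rw [← Real.rpow_add hD'0]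
      congr 1
      rw [Nat.cast_sub (by omega)]
      push_cast
      field_simp
      ring
    have t3 : (22 : ℝ) ^ (1 / (p : ℝ)) ≤ 22 := by
      calc (22 : ℝ) ^ (1 / (p : ℝ)) ≤ (22 : ℝ) ^ (1 : ℝ) := Real.rpow_le_rpow_of_exponent_le (by norm_num) (by
            rw [div_le_one hp0]; linarith)
        _ = 22 := Real.rpow_one _
    have t4 : D' ^ (-(1 / (p : ℝ))) ≤ x ^ (-(3 / (p : ℝ))) := by
      calc D' ^ (-(1 / (p : ℝ))) ≤ (x ^ (3 : ℝ)) ^ (-(1 / (p : ℝ))) := Real.rpow_le_rpow_of_nonpos hx3 hD'x (by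
            have : 0 ≤ 1 / (p : ℝ) := by positivity
            linarith)
        _ = x ^ (-(3 / (p : ℝ))) := by
            rw [← Real.rpow_mul hx.le]
            congr 1
            ring
    rw [t2] at t1
    refine t1.trans ?_
    exact mul_le_mul t3 (mul_le_mul_of_nonneg_left t4 hD'0.le) (by positivity) (by norm_num)
  have hr25 : 25 / √((m : ℝ) * κ0) ≤ 75 / 2 * e1 := by
    have : 25 / √((m : ℝ) * κ0) = 25 * (1 / √((m : ℝ) * κ0)) := by ring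
    rw [this]; linarith
  set y := x ^ (-(3 / (p : ℝ))) with hy
  have hy0 : 0 < y := by linarith
  have hye : 0 ≤ y * e1 := (mul_pos hy0 he10).le
  have s1 : e1 ≤ y * e1 := le_mul_of_one_le_left he10.le hxp
  have s2 : D' ≤ D' * y := le_mul_of_one_le_right hD'0.le hxp
  have s3 : D' * y = 3 / 2 * (L' * (y * e1)) := by rw [hD']; ring
  have hLye : 0 ≤ L' * (y * e1) := mul_nonneg (by linarith) hye
  have hLx : 0 ≤ L' * x := mul_nonneg (by linarith) hx.le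
  have key : 2 * x + 75 / 2 * e1 + 1 / 4 * (D' + 22 * (D' * y)) ≤ (38 + 9 * L') * (x + y * e1) := by
    have : (38 + 9 * L') * (x + y * e1) = 38 * x + 38 * (y * e1) + 9 * (L' * x) + 9 * (L' * (y * e1)) := by ring
    rw [this]
    linarith
  have hfin : 38 + 9 * L' ≤ (3000 + 100 / δ) * x ^ (-δ) := by
    rw [hL', h8]
    have h100 : 100 / δ = 100 * δ⁻¹ := div_eq_mul_inv _ _
    rw [h100]
    have : 0 ≤ δ⁻¹ * x ^ (-δ) := by positivity
    have e : (3000 + 100 * δ⁻¹) * x ^ (-δ) = 3000 * x ^ (-δ) + 100 * (δ⁻¹ * x ^ (-δ)) := by ring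
    have e' : (206 + 8 * δ⁻¹) * x ^ (-δ) = 206 * x ^ (-δ) + 8 * (δ⁻¹ * x ^ (-δ)) := by ring
    rw [e, e']
    linarith
  calc 2 * x + 25 / √((m : ℝ) * κ0) + 1 / 4 * (D + (4 * Real.exp 1 * ell * D ^ (p - 1)) ^ (1 / (p : ℝ)))
      ≤ 2 * x + 75 / 2 * e1 + 1 / 4 * (D' + 22 * (D' * y)) := by linarith
    _ ≤ (38 + 9 * L') * (x + y * e1) := key
    _ ≤ _ := mul_le_mul_of_nonneg_right hfin (by positivity)

/-- TEX[LL:lem:statistics-coarse-switch] **"The stopped derivative is consequently `O_⋄(λ (x + e_1))` at each parameter value"**, `e_1 = x³ / (√λ_1 U^(3/2))`; loss `x^(-3/p)` of the Hölder transfer.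
GENERIC FORM: any set of positions `Fs` with `L8yCh`; ANY parametrisation `τ ↦ λ = lf τ` of the strength sweep (`lf = exp`: the parameter of the paper; `lf τ = x^(12 (1 - τ) + p_* τ)`: `ll04Dir F N ell 0`).
PROOF, at a `τ` where the clock values of the chain are differentiable:   near `τ`: `l8y_clk_fine` (reduced, same masses `l8y_ch_m`, `ψ = skPsi`);   the cumulative clocks of the reduced path are clock values at positions
(`l8y_cv_pos`), hence differentiable;   speeds `≤ Λ = C x^(-δ) |lf'|` (`l8y_at_lip`, (3) of `L8yClk`, `l8y_deriv_le` with `g = lf`);   `l8y_psi_hasDerivAt`;   `ll04_stop_x` at `p = 2` and `p`;   `l8y_core` with `n = m ≥ N/2`, `κ0 = λ_1 U³`;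
`√(log (ℓ/x)) ≲ x^(-δ)`, `e_1 ≥ x³` so `e_1^(1-1/p) ≤ e_1 x^(-3/p)` (`l8y_ar_core`). -/
theorem l8y_pt_L {𝔹 : LlBase} {F : LlFix} (hF : F.Ok) (hClk : L8yClk 𝔹 F) (δ : ℝ) (hδ : 0 < δ) (p : ℕ) (hp : 2 ≤ p)
    (q ε : ℝ) (hq : 0 < q) (hε : 0 < ε) :
    ∃ (C : ℝ) (N0 : ℕ), ∀ N : ℕ, N0 ≤ N → ∃ (g : ℝ) (J : ℕ), 0 < g ∧ ∀ Fs : Finset GhPos,
      (∀ a : ℝ, skX N ≤ a → a ≤ 2 → L8yCh a (skX N) (q * skX N ^ (1 + ε)) g J Fs) →
      ∀ m : ℕ, N ≤ 2 * m → m ≤ 3 * N → ∀ ell : ℝ, ell ∈ Icc (1 : ℝ) ((2 : ℝ) ^ (1 / 6 : ℝ)) → ∀ (γ : Fin (N + 1) → ℝ) (lf : ℝ → ℝ) (l' τ : ℝ),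
        HasDerivAt lf l' τ → (∀ᶠ τ' in nhds τ, lf τ' ∈ Icc (skX N ^ (12 : ℝ)) (skX N ^ F.pS)) →
        L8yDif F 𝔹 ell Fs (fun τ' => ll04Pt N ell (lf τ') 0 1 false γ) τ →
        q * skX N ^ (1 + ε) * (m : ℝ) * l8yPsi F 𝔹 (q * skX N ^ (1 + ε)) Fs (ll04Pt N ell (lf τ) 0 1 false γ) m ≤ 4 * skX N ^ ε →
        |deriv (fun τ' => l8yPsi F 𝔹 (q * skX N ^ (1 + ε)) Fs (ll04Pt N ell (lf τ') 0 1 false γ) m) τ|
          ≤ C * skX N ^ (-δ) * |l'| * (skX N + skX N ^ (-(3 / (p : ℝ))) *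
              (skX N ^ (3 : ℝ) / √((ll04Pt N ell (lf τ) 0 1 false γ).lam1 F * (ll04Pt N ell (lf τ) 0 1 false γ).U F ^ 3))) := by
  obtain ⟨C1, N1, h1⟩ := hClk (δ / 2) (by positivity)
  obtain ⟨N2, h2⟩ := l8y_clk_fine hF hClk q ε hq hε
  obtain ⟨N3, h3⟩ := ll04_stop_x ε q 2 hε hq (by norm_num)
  obtain ⟨N4, h4⟩ := ll04_stop_x ε q p hε hq (by exact_mod_cast (by omega : 1 ≤ p))
  obtain ⟨N5, h5⟩ := sk_nm_small (K := q) (δ := ε) (η := 1 / 2) hε (by norm_num)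
  refine ⟨max C1 0 * (3000 + 100 / (δ / 2)), max (max (max N1 N2) (max N3 N4)) (max N5 1), fun N hN => ?_⟩
  have hN1 : N1 ≤ N := by omega
  have hN2 : N2 ≤ N := by omega
  have hN3 : N3 ≤ N := by omega
  have hN4 : N4 ≤ N := by omega
  have hN5 : N5 ≤ N := by omega
  have hN6 : 1 ≤ N := by omega
  obtain ⟨g, J, hg, hfine⟩ := h2 N hN2
  refine ⟨g, J, hg, fun Fs hch m hm1 hm2 ell hell γ lf l' τ hlf hrg hdif hstop => ?_⟩
  have hx : 0 < skX N := sk_nm_x_pos hN6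
  have hx1 : skX N ≤ 1 := sk_nm_x_le_one hN6
  set x := skX N with hxdef
  have hs : 0 < q * x ^ (1 + ε) := by positivity
  have hsx : q * x ^ (1 + ε) < x := by
    have := h5 N hN5
    rw [Real.rpow_add hx, Real.rpow_one]
    nlinarith
  set s := q * x ^ (1 + ε) with hsdef
  have hell2 : ell ≤ 2 := hell.2.trans l8y_two_sixth
  have hxell : x ≤ ell := hx1.trans hell.1
  have hell0 : 0 ≤ ell := by linarith [hell.1]
  have hm0 : 1 ≤ m := by omega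
  have hchE := hch ell hxell hell2
  set pf : ℝ → LlPt := fun τ' => ll04Pt N ell (lf τ') 0 1 false γ with hpf
  have hpar : ∀ᶠ τ' in nhds τ, L8yPar F N ell (lf τ') 0 1 :=
    hrg.mono fun τ' h => ⟨hell, h, ⟨le_rfl, zero_le_one⟩, ⟨zero_le_one, le_rfl⟩⟩
  have hall := hpar.mono fun τ' h => hfine Fs hch ell (lf τ') 0 1 γ h
  set A : ℝ → SkStp := fun τ' => l8yA F 𝔹 Fs (pf τ') with hAdef
  have hpar0 := hpar.self_of_nhds
  have hA0 := hall.self_of_nhds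
  obtain ⟨pos, hpos, hcum⟩ := l8y_cv_pos hx hxell hchE
  have hred : ∀ᶠ τ' in nhds τ, L8yRed ell x (A τ') := hall.mono fun _ h => h.2.1
  have hmass : ∀ τ', (A τ').map SkInc.m = (A τ).map SkInc.m := fun τ' => l8y_ch_m ell x _ _ _ _ _
  have hlen : ∀ τ', (A τ').length = (A τ).length := fun τ' => by
    have := congrArg List.length (hmass τ')
    simpa using this
  set β : ℕ → ℝ := fun k => if 1 ≤ k ∧ k ≤ (A τ).length then deriv (fun τ' => ghAt ell ((pf τ').b F 𝔹) (pos k)) τ else 0 with hβdef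
  set η : ℕ → ℝ := fun k => if 1 ≤ k ∧ k ≤ (A τ).length then deriv (fun τ' => ghAt ell ((pf τ').h F 𝔹) (pos k)) τ else 0 with hηdef
  have hβ0 : β 0 = 0 := by simp [hβdef]
  have hη0 : η 0 = 0 := by simp [hηdef]
  have hβ : ∀ j ≤ (A τ).length, HasDerivAt (fun τ' => skCumB (A τ') j) (β j) τ := by
    intro j hj
    rcases Nat.eq_zero_or_pos j with rfl | hj1
    · rw [hβ0]
      simpa [skCumB] using hasDerivAt_const τ (0 : ℝ)
    · have he : (fun τ' => skCumB (A τ') j) =ᶠ[nhds τ] fun τ' => ghAt ell ((pf τ').b F 𝔹) (pos j) :=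
        hall.mono fun τ' h => (hcum _ _ h.1 j hj1 (by rw [← hlen τ'] at hj; exact hj)).1
      have hb : β j = deriv (fun τ' => ghAt ell ((pf τ').b F 𝔹) (pos j)) τ := if_pos ⟨hj1, hj⟩
      rw [hb]
      exact ((hdif (pos j) (hpos j)).1.hasDerivAt).congr_of_eventuallyEq he
  have hη : ∀ j ≤ (A τ).length, HasDerivAt (fun τ' => skCumH (A τ') j) (η j) τ := by
    intro j hj
    rcases Nat.eq_zero_or_pos j with rfl | hj1
    · rw [hη0]
      simpa [skCumH] using hasDerivAt_const τ (0 : ℝ)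
    · have he : (fun τ' => skCumH (A τ') j) =ᶠ[nhds τ] fun τ' => ghAt ell ((pf τ').h F 𝔹) (pos j) :=
        hall.mono fun τ' h => (hcum _ _ h.1 j hj1 (by rw [← hlen τ'] at hj; exact hj)).2
      have hb : η j = deriv (fun τ' => ghAt ell ((pf τ').h F 𝔹) (pos j)) τ := if_pos ⟨hj1, hj⟩
      rw [hb]
      exact ((hdif (pos j) (hpos j)).2.hasDerivAt).congr_of_eventuallyEq he
  have hxd : 0 < x ^ (-(δ / 2)) := Real.rpow_pos_of_pos hx _
  have hK0 : 0 ≤ max C1 0 * x ^ (-(δ / 2)) := mul_nonneg (le_max_right _ _) hxd.le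
  have hΛ0 : 0 ≤ max C1 0 * x ^ (-(δ / 2)) * |l'| := mul_nonneg hK0 (abs_nonneg _)
  have hC1 : ∀ y : ℝ, C1 * x ^ (-(δ / 2)) * |y| ≤ max C1 0 * x ^ (-(δ / 2)) * |y| := fun y =>
    mul_le_mul_of_nonneg_right (mul_le_mul_of_nonneg_right (le_max_left _ _) hxd.le) (abs_nonneg _)
  have hβΛ : ∀ k, |β k| ≤ max C1 0 * x ^ (-(δ / 2)) * |l'| := by
    intro k
    by_cases hk : 1 ≤ k ∧ k ≤ (A τ).length
    · simp only [hβdef, if_pos hk]
      refine l8y_deriv_le (hdif _ (hpos k)).1.hasDerivAt hlf hK0 ?_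
      filter_upwards [hpar, hall] with τ' hp' ha'
      refine l8y_at_lip hell0 hA0.1.hb ha'.1.hb (fun v hv => ?_) (gh_os_ps_mem.1 (hpos k)).2
      exact (((h1 N hN1).2.2 ell (lf τ) (lf τ') γ hpar0 hp' v hv).1).trans (hC1 _)
    · simp only [hβdef, if_neg hk, abs_zero]
      exact hΛ0
  have hηΛ : ∀ k, |η k| ≤ max C1 0 * x ^ (-(δ / 2)) * |l'| := by
    intro k
    by_cases hk : 1 ≤ k ∧ k ≤ (A τ).length
    · simp only [hηdef, if_pos hk]
      refine l8y_deriv_le (hdif _ (hpos k)).2.hasDerivAt hlf hK0 ?_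
      filter_upwards [hpar, hall] with τ' hp' ha'
      refine l8y_at_lip hell0 hA0.1.hh ha'.1.hh (fun v hv => ?_) (gh_os_ps_mem.1 (hpos k)).2
      exact (((h1 N hN1).2.2 ell (lf τ) (lf τ') γ hpar0 hp' v hv).2).trans (hC1 _)
    · simp only [hηdef, if_neg hk, abs_zero]
      exact hΛ0
  have hD := l8y_psi_hasDerivAt m hm0 (a := ell) (x := x) (s := s) hs.le hsx.le A hred (Eventually.of_forall hmass) hβ hη
  have hpsi : (fun τ' => l8yPsi F 𝔹 s Fs (pf τ') m) =ᶠ[nhds τ] fun τ' => skPsi m ell s (A τ') :=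
    hall.mono fun τ' h => (h.2.2.2 m hm1 hm2).1
  rw [hpsi.deriv_eq, hD.deriv]
  -- the stop
  obtain ⟨e, Q, hAe, he, -, hQ, -⟩ := l8y_red_cons hA0.2.1
  have hKK : skKK m ell s (A τ) ≤ 4 * x ^ ε := by
    unfold skKK
    rw [← (hA0.2.2.2 m hm1 hm2).1]
    exact hstop
  have hadm : SkAdm ell (e :: Q) := hAe ▸ hA0.2.1.adm
  have hAe' : A τ = e :: Q := hAe
  have hK2 : skKK m ell (2 * s) (A τ) ≤ 1 := by
    rw [hAe'] at hKK ⊢
    exact h3 N hN3 m ell e Q hm0 hadm he hQ hxell hKK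
  have hKp : skKK m ell (p * s) (A τ) ≤ 1 := by
    rw [hAe'] at hKK ⊢
    exact h4 N hN4 m ell e Q hm0 hadm he hQ hxell hKK
  -- κ0
  have hl0 : 0 < lf τ := lt_of_lt_of_le (Real.rpow_pos_of_pos hx _) hpar0.2.1.1
  have hl1 : lf τ ≤ 1 := hpar0.2.1.2.trans (Real.rpow_le_one hx.le hx1 hF.pS0.le)
  have hlam1 : (pf τ).lam1 F = lf τ ^ (1 + F.eta) := rfl
  have hU : (pf τ).U F = min 1 (x * lf τ ^ (-(F.sS / 2))) := rfl
  have hU0 : 0 < (pf τ).U F := by rw [hU]; exact lt_min one_pos (by positivity)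
  have hU1 : (pf τ).U F ≤ 1 := by rw [hU]; exact min_le_left _ _
  have hla0 : 0 < (pf τ).lam1 F := by rw [hlam1]; positivity
  have hla1 : (pf τ).lam1 F ≤ 1 := by rw [hlam1]; exact Real.rpow_le_one hl0.le hl1 (by linarith [hF.eta0])
  have hκ : 0 < (pf τ).lam1 F * (pf τ).U F ^ 3 := by positivity
  have hκ1 : (pf τ).lam1 F * (pf τ).U F ^ 3 ≤ 1 := by
    have : (pf τ).U F ^ 3 ≤ 1 := pow_le_one₀ hU0.le hU1
    nlinarith [pow_pos hU0 3]
  have hcore := l8y_core m hm0 hA0.2.1 hκ (hA0.2.2.2 m hm1 hm2).2 hs hsx.le β η hβ0 hη0 hβΛ hηΛ hp hK2 hKp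
  have har := l8y_ar_core (δ / 2) (by positivity) hN6 hm1 hp hell.1 hell2 hκ hκ1
  refine hcore.trans ((mul_le_mul_of_nonneg_left har hΛ0).trans (le_of_eq ?_))
  have hxx : x ^ (-δ) = x ^ (-(δ / 2)) * x ^ (-(δ / 2)) := by
    rw [← Real.rpow_add hx]; congr 1; ring
  rw [hxx]
  ring

/-- the multiplier sweeps as points `ll04Pt` -/
theorem l8y_sw_pt (F : LlFix) (N : ℕ) (ell : ℝ) {i : Fin 3} (hi : i ≠ 0) (γ : Fin (N + 1) → ℝ) (τ : ℝ) :
    ll04Dir F N ell i γ τ = ll04Pt N ell (skX N ^ F.pS) (if i = 1 then ll04U 1 τ else 1) (if i = 2 then 1 - ll04U 1 τ else 1) false γ := by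
  simp only [ll04Dir, if_neg hi]

theorem l8y_sw_U (τ : ℝ) : ll04U 1 τ ∈ Icc (0 : ℝ) 1 := by
  unfold ll04U
  exact ⟨le_max_left _ _, max_le zero_le_one (min_le_left _ _)⟩

theorem l8y_sw_par (F : LlFix) (hpS : F.pS ≤ 12) {N : ℕ} (hN : 1 ≤ N) {ell : ℝ} (hell : ell ∈ Icc (1 : ℝ) ((2 : ℝ) ^ (1 / 6 : ℝ))) (i : Fin 3) (τ : ℝ) :
    L8yPar F N ell (skX N ^ F.pS) (if i = 1 then ll04U 1 τ else 1) (if i = 2 then 1 - ll04U 1 τ else 1) := by
  have hU := l8y_sw_U τ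
  refine ⟨hell, ⟨Real.rpow_le_rpow_of_exponent_ge (sk_nm_x_pos hN) (sk_nm_x_le_one hN) hpS, le_rfl⟩, ?_, ?_⟩
  · split_ifs
    · exact hU
    · exact ⟨zero_le_one, le_rfl⟩
  · split_ifs
    · exact ⟨by linarith [hU.2], by linarith [hU.1]⟩
    · exact ⟨zero_le_one, le_rfl⟩

/-- `h` is affine in the parameter of a multiplier sweep -/
theorem l8y_sw_h (F : LlFix) (𝔹 : LlBase) (N : ℕ) (ell : ℝ) {i : Fin 3} (hi : i ≠ 0) (γ : Fin (N + 1) → ℝ) (τ v : ℝ) :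
    (ll04Dir F N ell i γ τ).h F 𝔹 v = (ll04Dir F N ell i γ 0).h F 𝔹 v
      + ll04U 1 τ * ((ll04Dir F N ell i γ 1).h F 𝔹 v - (ll04Dir F N ell i γ 0).h F 𝔹 v) := by
  have u0 : ll04U 1 0 = 0 := by simp [ll04U]
  have u1 : ll04U 1 1 = 1 := by simp [ll04U]
  rw [l8y_sw_pt F N ell hi, l8y_sw_pt F N ell hi, l8y_sw_pt F N ell hi, u0, u1]
  have key : ∀ cL cE : ℝ, (ll04Pt N ell (skX N ^ F.pS) cL cE false γ).h F 𝔹 v =
      if v < skX N then 0 else (ll04Pt N ell (skX N ^ F.pS) 0 0 false γ).hS F 𝔹 v + (ll04Pt N ell (skX N ^ F.pS) 0 0 false γ).Hlo F v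
        + cL * (ll04Pt N ell (skX N ^ F.pS) 0 0 false γ).Hlin F v + cE * (ll04Pt N ell (skX N ^ F.pS) 0 0 false γ).He F 𝔹 v := fun _ _ => rfl
  rw [key, key, key]
  by_cases hv : v < skX N
  · simp [hv]
  · simp only [if_neg hv]
    split_ifs <;> ring

/-- the difference of the two ends -/
theorem l8y_sw_dh (F : LlFix) (𝔹 : LlBase) (N : ℕ) (ell : ℝ) {i : Fin 3} (hi : i ≠ 0) (γ : Fin (N + 1) → ℝ) (v : ℝ) :
    (ll04Dir F N ell i γ 1).h F 𝔹 v - (ll04Dir F N ell i γ 0).h F 𝔹 v =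
      if v < skX N then 0 else if i = 1 then (ll04Pt N ell (skX N ^ F.pS) 0 0 false γ).Hlin F v else - (ll04Pt N ell (skX N ^ F.pS) 0 0 false γ).He F 𝔹 v := by
  have u0 : ll04U 1 0 = 0 := by simp [ll04U]
  have u1 : ll04U 1 1 = 1 := by simp [ll04U]
  rw [l8y_sw_pt F N ell hi, l8y_sw_pt F N ell hi, u0, u1]
  have key : ∀ cL cE : ℝ, (ll04Pt N ell (skX N ^ F.pS) cL cE false γ).h F 𝔹 v =
      if v < skX N then 0 else (ll04Pt N ell (skX N ^ F.pS) 0 0 false γ).hS F 𝔹 v + (ll04Pt N ell (skX N ^ F.pS) 0 0 false γ).Hlo F v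
        + cL * (ll04Pt N ell (skX N ^ F.pS) 0 0 false γ).Hlin F v + cE * (ll04Pt N ell (skX N ^ F.pS) 0 0 false γ).He F 𝔹 v := fun _ _ => rfl
  rw [key, key]
  by_cases hv : v < skX N
  · simp [hv]
  · simp only [if_neg hv]
    have h12 : i = 1 ∨ i = 2 := by
      fin_cases i
      · exact absurd rfl hi
      · left; rfl
      · right; rfl
    rcases h12 with rfl | rfl
    · simp
    · simp


/-- TEX[LL:lem:statistics-coarse-switch] the multiplier sweeps, pointwise: "the derivative difference along each multiplier costs the square root of this bound on the stopped set".   GENERIC in the set of positions.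
PROOF, at `τ ∈ (0,1)` (`ll04U 1 τ' = τ'` near `τ`):   `b` does not depend on the multipliers, `h` is affine in them (definitions `LlPt.b`, `LlPt.h`: `rfl`), so the cumulative clocks of the reduced path are constant resp. affine in `τ`
(`l8y_cv_pos`, `l8y_at_val`), with the speed `l8yEta`;   `l8y_psi_hasDerivAt`;   `ll04_stop_x` at `p = 2`;   `l8y_core_sw`;   `η 1 = 0`, last gap `≤ x⁶`, `|η| ≤ C x^(-δ)` (`l8y_at_lip`, `|H_lin| ≤ 2`, `|H_e| ≲_∘ 1`). -/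
theorem l8y_pt_S0 {𝔹 : LlBase} {F : LlFix} (hF : F.Ok) (hpS : F.pS ≤ 12) (hClk : L8yClk 𝔹 F) (δ : ℝ) (hδ : 0 < δ)
    (q ε : ℝ) (hq : 0 < q) (hε : 0 < ε) :
    ∃ (C : ℝ) (N0 : ℕ), ∀ N : ℕ, N0 ≤ N → ∃ (g : ℝ) (J : ℕ), 0 < g ∧ ∀ Fs : Finset GhPos,
      (∀ a : ℝ, skX N ≤ a → a ≤ 2 → L8yCh a (skX N) (q * skX N ^ (1 + ε)) g J Fs) →
      ∀ m : ℕ, N ≤ 2 * m → m ≤ 3 * N → ∀ ell : ℝ, ell ∈ Icc (1 : ℝ) ((2 : ℝ) ^ (1 / 6 : ℝ)) → ∀ i : Fin 3, i ≠ 0 →
        ∀ (γ : Fin (N + 1) → ℝ), ∀ τ ∈ Ioo (0 : ℝ) 1,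
          q * skX N ^ (1 + ε) * (m : ℝ) * l8yPsi F 𝔹 (q * skX N ^ (1 + ε)) Fs (ll04Dir F N ell i γ τ) m ≤ 4 * skX N ^ ε →
          |deriv (fun t' => l8yPsi F 𝔹 (q * skX N ^ (1 + ε)) Fs (ll04Dir F N ell i γ t') m) τ|
            ≤ C * skX N ^ (6 - δ) + 2 * √(7 / 3 * l8yWe m ell (l8yA F 𝔹 Fs (ll04Dir F N ell i γ τ)) (l8yEta F 𝔹 Fs N ell i γ)) := by
  obtain ⟨C1, N1, h1⟩ := hClk δ hδ
  obtain ⟨N2, h2⟩ := l8y_clk_fine hF hClk q ε hq hε
  obtain ⟨N3, h3⟩ := ll04_stop_x ε q 2 hε hq (by norm_num)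
  obtain ⟨N5, h5⟩ := sk_nm_small (K := q) (δ := ε) (η := 1 / 2) hε (by norm_num)
  refine ⟨2 + max C1 0, max (max N1 N2) (max N3 (max N5 1)), fun N hN => ?_⟩
  have hN1 : N1 ≤ N := by omega
  have hN2 : N2 ≤ N := by omega
  have hN3 : N3 ≤ N := by omega
  have hN5 : N5 ≤ N := by omega
  have hN6 : 1 ≤ N := by omega
  obtain ⟨g, J, hg, hfine⟩ := h2 N hN2
  refine ⟨g, J, hg, fun Fs hch m hm1 hm2 ell hell i hi γ τ hτ hstop => ?_⟩
  have hx : 0 < skX N := sk_nm_x_pos hN6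
  have hx1 : skX N ≤ 1 := sk_nm_x_le_one hN6
  set x := skX N with hxdef
  have hs : 0 < q * x ^ (1 + ε) := by positivity
  have hsx : q * x ^ (1 + ε) < x := by
    have := h5 N hN5
    rw [Real.rpow_add hx, Real.rpow_one]
    nlinarith
  set s := q * x ^ (1 + ε) with hsdef
  have hell2 : ell ≤ 2 := hell.2.trans l8y_two_sixth
  have hxell : x ≤ ell := hx1.trans hell.1
  have hell0 : 0 ≤ ell := by linarith [hell.1]
  have hm0 : 1 ≤ m := by omega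
  have hchE := hch ell hxell hell2
  set pf : ℝ → LlPt := fun τ' => ll04Dir F N ell i γ τ' with hpf
  have hall : ∀ τ', L8yCk ell x ((pf τ').b F 𝔹) ((pf τ').h F 𝔹) ∧ L8yRed ell x (l8yA F 𝔹 Fs (pf τ')) ∧
      skGap ell (l8yA F 𝔹 Fs (pf τ')) (l8yA F 𝔹 Fs (pf τ')).length ≤ x ^ (6 : ℝ) ∧
      l8yPsi F 𝔹 s Fs (pf τ') m = skPsi m ell s (l8yA F 𝔹 Fs (pf τ')) := by
    intro τ'
    simp only [hpf]
    rw [l8y_sw_pt F N ell hi γ τ']
    have := hfine Fs hch ell _ _ _ γ (l8y_sw_par F hpS hN6 hell i τ')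
    exact ⟨this.1, this.2.1, this.2.2.1, (this.2.2.2 m hm1 hm2).1⟩
  set A : ℝ → SkStp := fun τ' => l8yA F 𝔹 Fs (pf τ') with hAdef
  obtain ⟨pos, hpos, hcum⟩ := l8y_cv_pos hx hxell hchE
  have hmass : ∀ τ', (A τ').map SkInc.m = (A τ).map SkInc.m := fun τ' => l8y_ch_m ell x _ _ _ _ _
  have hlen : ∀ τ', (A τ').length = (A τ).length := fun τ' => by
    have := congrArg List.length (hmass τ')
    simpa using this
  have hb : ∀ τ', (pf τ').b F 𝔹 = (pf τ).b F 𝔹 := by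
    intro τ'
    simp only [hpf]
    rw [l8y_sw_pt F N ell hi γ τ', l8y_sw_pt F N ell hi γ τ]
    rfl
  have hat : ∀ τ' P, GhPos.Ok ell P → ghAt ell ((pf τ').h F 𝔹) P = ghAt ell ((pf 0).h F 𝔹) P
      + ll04U 1 τ' * (ghAt ell ((pf 1).h F 𝔹) P - ghAt ell ((pf 0).h F 𝔹) P) := by
    intro τ' P hP
    rw [(l8y_at_val hx hxell (hall τ').1 hP).2, (l8y_at_val hx hxell (hall 0).1 hP).2, (l8y_at_val hx hxell (hall 1).1 hP).2]
    split_ifs
    · ring
    · rw [l8y_sw_h F 𝔹 N ell hi γ τ' x]; ring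
    · rw [l8y_sw_h F 𝔹 N ell hi γ τ' P.u]
  set η : ℕ → ℝ := l8yEta F 𝔹 Fs N ell i γ with hηdef
  have hηk : ∀ k, η k = skCumH (A 1) k - skCumH (A 0) k := fun k => rfl
  have hη0 : η 0 = 0 := by rw [hηk]; simp [skCumH]
  have hη1 : η 1 = 0 := by rw [hηk]; simp [hAdef, l8yA, l8yStp, skCumH]
  have hcumH : ∀ τ' k, k ≤ (A τ).length → skCumH (A τ') k = skCumH (A 0) k + ll04U 1 τ' * η k := by
    intro τ' k hk
    rcases Nat.eq_zero_or_pos k with rfl | hk1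
    · rw [hη0]; simp [skCumH]
    · have e1 := (hcum _ _ (hall τ').1 k hk1 (by have := hlen τ'; exact this ▸ hk)).2
      have e2 := (hcum _ _ (hall 0).1 k hk1 (by have := hlen 0; exact this ▸ hk)).2
      have e3 := (hcum _ _ (hall 1).1 k hk1 (by have := hlen 1; exact this ▸ hk)).2
      rw [hηk]
      show skCumH (l8yStp ell x _ _ (ghPs ell Fs)) k = skCumH (l8yStp ell x _ _ (ghPs ell Fs)) k
        + ll04U 1 τ' * (skCumH (l8yStp ell x _ _ (ghPs ell Fs)) k - skCumH (l8yStp ell x _ _ (ghPs ell Fs)) k)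
      rw [e1, e2, e3]
      exact hat τ' _ (gh_os_ps_mem.1 (hpos k)).2
  have hUev : ∀ᶠ τ' in nhds τ, ll04U 1 τ' = τ' := by
    filter_upwards [Ioo_mem_nhds hτ.1 hτ.2] with τ' h
    exact ll04w_U_of_mem ⟨h.1.le, h.2.le⟩
  have hηd : ∀ j ≤ (A τ).length, HasDerivAt (fun τ' => skCumH (A τ') j) (η j) τ := by
    intro j hj
    have he : (fun τ' => skCumH (A τ') j) =ᶠ[nhds τ] fun τ' => skCumH (A 0) j + τ' * η j := by
      filter_upwards [hUev] with τ' h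
      rw [hcumH τ' j hj, h]
    have hd : HasDerivAt (fun τ' : ℝ => skCumH (A 0) j + τ' * η j) (η j) τ := by
      simpa using ((hasDerivAt_id τ).mul_const (η j)).const_add (skCumH (A 0) j)
    exact hd.congr_of_eventuallyEq he
  have hβd : ∀ j ≤ (A τ).length, HasDerivAt (fun τ' => skCumB (A τ') j) ((fun _ => (0 : ℝ)) j) τ := by
    intro j hj
    have he : (fun τ' => skCumB (A τ') j) = fun _ => skCumB (A τ) j := by
      funext τ'
      rcases Nat.eq_zero_or_pos j with rfl | hj1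
      · simp [skCumB]
      · have e1 := (hcum _ _ (hall τ').1 j hj1 (by have := hlen τ'; exact this ▸ hj)).1
        have e2 := (hcum _ _ (hall τ).1 j hj1 hj).1
        show skCumB (l8yStp ell x _ _ (ghPs ell Fs)) j = skCumB (l8yStp ell x _ _ (ghPs ell Fs)) j
        rw [e1, e2, hb τ']
    rw [he]
    exact hasDerivAt_const τ _
  have hD := l8y_psi_hasDerivAt m hm0 (a := ell) (x := x) (s := s) hs.le hsx.le A (Eventually.of_forall fun τ' => (hall τ').2.1)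
    (Eventually.of_forall hmass) hβd hηd
  have hpsi : (fun τ' => l8yPsi F 𝔹 s Fs (pf τ') m) = fun τ' => skPsi m ell s (A τ') := funext fun τ' => (hall τ').2.2.2
  show |deriv (fun τ' => l8yPsi F 𝔹 s Fs (pf τ') m) τ| ≤ _
  rw [hpsi, hD.deriv]
  -- the stop
  obtain ⟨e, Q, hAe, he, -, hQ, -⟩ := l8y_red_cons (hall τ).2.1
  have hKK : skKK m ell s (A τ) ≤ 4 * x ^ ε := by
    unfold skKK
    rw [← (hall τ).2.2.2]
    exact hstop
  have hadm : SkAdm ell (e :: Q) := hAe ▸ (hall τ).2.1.adm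
  have hAe' : A τ = e :: Q := hAe
  have hK2 : skKK m ell (2 * s) (A τ) ≤ 1 := by
    rw [hAe'] at hKK ⊢
    exact h3 N hN3 m ell e Q hm0 hadm he hQ hxell hKK
  have hcore := l8y_core_sw m hm0 (hall τ).2.1 hs hsx.le η hη0 hK2
  -- the last cut
  have hxd : 1 ≤ x ^ (-δ) := Real.one_le_rpow_of_pos_of_le_one_of_nonpos hx hx1 (by linarith)
  have hpar0 : L8yPar F N ell (x ^ F.pS) 0 0 :=
    ⟨hell, ⟨Real.rpow_le_rpow_of_exponent_ge hx hx1 hpS, le_rfl⟩, ⟨le_rfl, zero_le_one⟩, ⟨le_rfl, zero_le_one⟩⟩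
  have hsup : ∀ v ∈ Icc 0 ell, |(pf 1).h F 𝔹 v - (pf 0).h F 𝔹 v| ≤ (2 + max C1 0) * x ^ (-δ) := by
    intro v hv
    have hK : 0 ≤ (2 + max C1 0) * x ^ (-δ) := by have := le_max_right C1 0; positivity
    rw [l8y_sw_dh F 𝔹 N ell hi γ v]
    split_ifs with hvx h1i
    · simpa using hK
    · have e : (ll04Pt N ell (skX N ^ F.pS) 0 0 false γ).Hlin F v = x ^ 3 * max 0 (min v ell - 4 * F.vb) := rfl
      rw [e, abs_of_nonneg (by positivity)]
      have a1 : max 0 (min v ell - 4 * F.vb) ≤ 2 := max_le (by norm_num) (by linarith [min_le_right v ell, hF.vb0])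
      have a2 : x ^ 3 ≤ 1 := pow_le_one₀ hx.le hx1
      have a3 : 0 ≤ max 0 (min v ell - 4 * F.vb) := le_max_left _ _
      have a4 := le_max_right C1 0
      nlinarith [pow_pos hx 3]
    · rw [abs_neg]
      have := ((h1 N hN1).1 ell (x ^ F.pS) 0 0 γ hpar0).2.2.2.2.2 v ⟨not_lt.1 hvx, hv.2⟩
      refine this.trans ?_
      have a4 := le_max_left C1 0
      nlinarith
  have hηL : |η (A τ).length| ≤ (2 + max C1 0) * x ^ (-δ) := by
    have hl1 : 1 ≤ (A τ).length := by have h2l : 2 ≤ (A τ).length := (hall τ).2.1.len; omega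
    have e2 := (hcum _ _ (hall 0).1 (A τ).length hl1 (by have := hlen 0; exact this ▸ le_rfl)).2
    have e3 := (hcum _ _ (hall 1).1 (A τ).length hl1 (by have := hlen 1; exact this ▸ le_rfl)).2
    rw [hηk]
    show |skCumH (l8yStp ell x _ _ (ghPs ell Fs)) _ - skCumH (l8yStp ell x _ _ (ghPs ell Fs)) _| ≤ _
    rw [e2, e3]
    exact l8y_at_lip hell0 (hall 0).1.hh (hall 1).1.hh hsup (gh_os_ps_mem.1 (hpos _)).2
  have hx6 : 0 < x ^ (6 : ℝ) := Real.rpow_pos_of_pos hx _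
  have hlast : skGap ell (A τ) (A τ).length * |η (A τ).length| ≤ (2 + max C1 0) * x ^ (6 - δ) := by
    calc skGap ell (A τ) (A τ).length * |η (A τ).length| ≤ x ^ (6 : ℝ) * ((2 + max C1 0) * x ^ (-δ)) :=
          mul_le_mul (hall τ).2.2.1 hηL (abs_nonneg _) hx6.le
      _ = _ := by rw [sub_eq_add_neg, Real.rpow_add hx]; ring
  have hpos6 : 0 ≤ (2 + max C1 0) * x ^ (6 - δ) := by have := le_max_right C1 0; positivity
  rw [hη1, abs_zero, mul_zero, zero_add] at hcore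
  refine hcore.trans ?_
  have : 1 / 2 * (skGap ell (A τ) (A τ).length * |η (A τ).length|) ≤ (2 + max C1 0) * x ^ (6 - δ) := by linarith
  linarith

/-- the conditions on the positions pass to the filtered set `l9Fl Fs` of Contract v5 -/
theorem l8y_ch_fl {a x s g : ℝ} {J : ℕ} (hx : 0 < x) (hxa : x ≤ a) {Fs : Finset GhPos} (h : L8yCh a x s g J Fs) : L8yCh a x s g J (l9Fl Fs) := by
  refine ⟨l9_fl_posA h.p0, l9_fl_posA h.ps, fun i hi => l9_fl_mem.2 ⟨h.fr i hi, fun h0 => absurd h0 hx.ne'⟩, fun u hu => ?_⟩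
  obtain ⟨p, hp, hok, h1, h2⟩ := h.grid u hu
  by_cases h0 : p.u = 0
  · refine ⟨ghPosA 0, l9_fl_posA h.p0, gh_os_posA_ok le_rfl (hx.le.trans hxa), ?_, ?_⟩
    · show u - g ≤ 0
      rw [← h0]; exact h1
    · show (0 : ℝ) ≤ u
      linarith [hu.1]
  · exact ⟨p, l9_fl_mem.2 ⟨hp, fun h => absurd h h0⟩, hok, h1, h2⟩

/-- the positions of mass `≥ x > 0` do not see the filter `l9Fl` -/
theorem l8y_fl_filter {a x : ℝ} (hx : 0 < x) (Fs : Finset GhPos) :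
    (ghPs a (l9Fl Fs)).filter (fun p => decide (x ≤ p.u)) = (ghPs a Fs).filter fun p => decide (x ≤ p.u) := by
  refine List.Perm.eq_of_pairwise (fun _ _ _ _ h1 h2 => le_antisymm h1 h2) ((gh_os_ps_pairwise a _).filter _) ((gh_os_ps_pairwise a _).filter _) ?_
  refine (List.perm_ext_iff_of_nodup ((gh_os_ps_nodup a _).filter _) ((gh_os_ps_nodup a _).filter _)).2 fun p => ?_
  simp only [List.mem_filter, gh_os_ps_mem, l9_fl_mem, decide_eq_true_eq]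
  constructor
  · rintro ⟨⟨⟨h1, -⟩, h2⟩, h3⟩
    exact ⟨⟨h1, h2⟩, h3⟩
  · rintro ⟨⟨h1, h2⟩, h3⟩
    exact ⟨⟨⟨h1, fun h0 => by linarith⟩, h2⟩, h3⟩

/-- the reduced path does not see the filter `l9Fl` -/
theorem l8y_fl_A (F : LlFix) (𝔹 : LlBase) (Fs : Finset GhPos) {p : LlPt} (hx : 0 < p.x) : l8yA F 𝔹 (l9Fl Fs) p = l8yA F 𝔹 Fs p := by
  unfold l8yA l8yStp
  rw [l8y_fl_filter hx]

theorem l8y_fl_eta (F : LlFix) (𝔹 : LlBase) (Fs : Finset GhPos) {N : ℕ} (hx : 0 < skX N) (ell : ℝ) (i : Fin 3) (γ : Fin (N + 1) → ℝ) :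
    l8yEta F 𝔹 (l9Fl Fs) N ell i γ = l8yEta F 𝔹 Fs N ell i γ := by
  funext k
  unfold l8yEta
  rw [l8y_fl_A F 𝔹 Fs (p := ll04Dir F N ell i γ 1) hx, l8y_fl_A F 𝔹 Fs (p := ll04Dir F N ell i γ 0) hx]

/-- `L9I.Dif` gives the differentiability of the clock values at the positions (`l8y_ch_idx`); Contract v5: the chain is `ghPs a (l9Fl Fs)` -/
theorem l8y_dif_of (I : L9I) {a : ℝ} (pf : ℝ → LlPt) (ha : ∀ t, (pf t).a = a) {t : ℝ} (h : I.Dif pf t) : L8yDif I.F I.𝔹 a (l9Fl I.Fs) pf t := by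
  intro P hP
  obtain ⟨j, hj⟩ := l8y_ch_idx a (ghPs a (l9Fl I.Fs)) P hP
  obtain ⟨h1, h2, -⟩ := h j
  have e1 : (fun t' => (I.X0 (pf t')).bC j) = fun t' => ghAt a ((pf t').b I.F I.𝔹) P := by
    funext t'
    rw [← (hj ((pf t').b I.F I.𝔹) ((pf t').h I.F I.𝔹) ((pf t').K I.F I.𝔹)).1]
    show skCumB (llMat (l9Stp (pf t').a _ _ _ 0 0 0 (ghPs (pf t').a (l9Fl I.Fs)))) j = _
    rw [ha t']
  have e2 : (fun t' => (I.X0 (pf t')).hC j) = fun t' => ghAt a ((pf t').h I.F I.𝔹) P := by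
    funext t'
    rw [← (hj ((pf t').b I.F I.𝔹) ((pf t').h I.F I.𝔹) ((pf t').K I.F I.𝔹)).2]
    show skCumH (llMat (l9Stp (pf t').a _ _ _ 0 0 0 (ghPs (pf t').a (l9Fl I.Fs)))) j = _
    rw [ha t']
  rw [e1] at h1
  rw [e2] at h2
  exact ⟨h1, h2⟩

/-- the strength sweep in the parameter `t = log λ` of the paper, on `l9Psi`, at the interior points where `L9I.Dif` holds (shape of `L9TRD`, `L9BndD`) -/
theorem l8y_pt_Lt {𝔹 : LlBase} {F : LlFix} (hF : F.Ok) (hClk : L8yClk 𝔹 F) (δ : ℝ) (hδ : 0 < δ) (p : ℕ) (hp : 2 ≤ p)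
    (q ε : ℝ) (hq : 0 < q) (hε : 0 < ε) :
    ∃ (C : ℝ) (N0 : ℕ), ∀ N : ℕ, N0 ≤ N → ∀ᶠ Fs : Finset GhPos in atTop, ∀ m : ℕ, N ≤ 2 * m → m ≤ 3 * N →
      ∀ ell : ℝ, ell ∈ Icc (1 : ℝ) ((2 : ℝ) ^ (1 / 6 : ℝ)) → ∀ (γ : Fin (N + 1) → ℝ) (t : ℝ), t ∈ Ioo (12 * Real.log (skX N)) (F.pS * Real.log (skX N)) →
        (⟨F, 𝔹, q * skX N ^ (1 + ε), Fs, m⟩ : L9I).Dif (l9PtL N ell γ) t →
        q * skX N ^ (1 + ε) * (m : ℝ) * l9Psi F 𝔹 (q * skX N ^ (1 + ε)) Fs (l9PtL N ell γ t) m ≤ 4 * skX N ^ ε →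
        |deriv (fun t' => l9Psi F 𝔹 (q * skX N ^ (1 + ε)) Fs (l9PtL N ell γ t') m) t|
          ≤ C * skX N ^ (-δ) * Real.exp t * (skX N + skX N ^ (-(3 / (p : ℝ))) *
              (skX N ^ (3 : ℝ) / √((l9PtL N ell γ t).lam1 F * (l9PtL N ell γ t).U F ^ 3))) := by
  obtain ⟨C, N0, H⟩ := l8y_pt_L hF hClk δ hδ p hp q ε hq hε
  refine ⟨C, max N0 1, fun N hN => ?_⟩
  have hN1 : 1 ≤ N := (le_max_right _ _).trans hN
  have hx : 0 < skX N := by
    unfold skX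
    have : (0 : ℝ) < N := by exact_mod_cast hN1
    positivity
  obtain ⟨g, J, hg, H⟩ := H N ((le_max_left _ _).trans hN)
  filter_upwards [l8y_ch_ev (s := q * skX N ^ (1 + ε)) hx hg J] with Fs hFs m hm1 hm2 ell hell γ t ht hD hst
  have h1 : ∀ᶠ τ' in nhds t, Real.exp τ' ∈ Icc (skX N ^ (12 : ℝ)) (skX N ^ F.pS) := by
    filter_upwards [Ioo_mem_nhds ht.1 ht.2] with τ' hτ'
    rw [Real.rpow_def_of_pos hx, Real.rpow_def_of_pos hx]
    exact ⟨Real.exp_le_exp.2 (by linarith [hτ'.1]), Real.exp_le_exp.2 (by linarith [hτ'.2])⟩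
  have h2 := l8y_dif_of (⟨F, 𝔹, q * skX N ^ (1 + ε), Fs, m⟩ : L9I) (a := ell) (l9PtL N ell γ) (fun _ => rfl) hD
  have := H (l9Fl Fs) (fun a h1 h2 => l8y_ch_fl hx h1 (hFs a h1 h2)) m hm1 hm2 ell hell γ Real.exp (Real.exp t) t (Real.hasDerivAt_exp t) h1 h2 hst
  rw [abs_of_pos (Real.exp_pos t)] at this
  exact this

/-- the multiplier sweeps on `l9Psi`, with the tiles -/
theorem l8y_pt_S {𝔹 : LlBase} {F : LlFix} (hF : F.Ok) (hpS : F.pS ≤ 12) (hClk : L8yClk 𝔹 F) (hTile : L8yTile 𝔹 F) (δ : ℝ) (hδ : 0 < δ)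
    (q ε : ℝ) (hq : 0 < q) (hε : 0 < ε) :
    ∃ (C : ℝ) (N0 : ℕ), ∀ N : ℕ, N0 ≤ N → ∀ᶠ Fs : Finset GhPos in atTop, ∀ m : ℕ, N ≤ 2 * m → m ≤ 3 * N →
      ∀ ell : ℝ, ell ∈ Icc (1 : ℝ) ((2 : ℝ) ^ (1 / 6 : ℝ)) → ∀ i : Fin 3, i ≠ 0 →
      ∃ Z : (Fin (N + 1) → ℝ) × ℝ → ℝ, Measurable Z ∧ (∀ z, 0 ≤ Z z) ∧
        (∀ τ ∈ Ioo (0 : ℝ) 1, ∫⁻ γ, ENNReal.ofReal (Z (γ, τ)) ∂ll04Mu N ≤ ENNReal.ofReal (C * skX N ^ (-δ))) ∧
        ∀ (γ : Fin (N + 1) → ℝ), ∀ τ ∈ Ioo (0 : ℝ) 1,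
          q * skX N ^ (1 + ε) * (m : ℝ) * l9Psi F 𝔹 (q * skX N ^ (1 + ε)) Fs (ll04Dir F N ell i γ τ) m ≤ 4 * skX N ^ ε →
          |deriv (fun t' => l9Psi F 𝔹 (q * skX N ^ (1 + ε)) Fs (ll04Dir F N ell i γ t') m) τ|
            ≤ C * skX N ^ (6 - δ) + 4 * Z (γ, τ) * √(if i = 1 then skX N ^ (12 : ℝ) / (skX N ^ F.pS) ^ (1 + F.eta)
                else (1 - τ)⁻¹ * skX N ^ (6 : ℝ) * (skX N ^ F.pS) ^ (1 + F.eta) * (min 1 (skX N * (skX N ^ F.pS) ^ (-(F.sS / 2)))) ^ 4) := by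
  obtain ⟨C1, N1, h1⟩ := l8y_pt_S0 hF hpS hClk δ hδ q ε hq hε
  obtain ⟨C2, N2, h2⟩ := hTile δ hδ
  refine ⟨max C1 C2, max (max N1 N2) 1, fun N hN => ?_⟩
  have hN1 : N1 ≤ N := by omega
  have hN2 : N2 ≤ N := by omega
  have hN6 : 1 ≤ N := by omega
  obtain ⟨g, J, hg, hG⟩ := h1 N hN1
  have hx : 0 < skX N := sk_nm_x_pos hN6
  filter_upwards [l8y_ch_ev (x := skX N) (s := q * skX N ^ (1 + ε)) hx hg J, h2 N hN2] with Fs hFs hT m hm1 hm2 ell hell i hi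
  obtain ⟨Z, hZm, hZ0, hZ1, hZW⟩ := hT m hm1 hm2 ell hell i hi
  refine ⟨Z, hZm, hZ0, fun τ hτ => (hZ1 τ hτ).trans (ENNReal.ofReal_le_ofReal
    (mul_le_mul_of_nonneg_right (le_max_right _ _) (Real.rpow_pos_of_pos hx _).le)), fun γ τ hτ hstop => ?_⟩
  have hb := hG (l9Fl Fs) (fun a h1 h2 => l8y_ch_fl hx h1 (hFs a h1 h2)) m hm1 hm2 ell hell i hi γ τ hτ hstop
  rw [l8y_fl_A F 𝔹 Fs (p := ll04Dir F N ell i γ τ) hx, l8y_fl_eta F 𝔹 Fs hx] at hb
  have hW := hZW γ τ hτ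
  have e1 : (ll04Dir F N ell i γ τ).lam1 F = (skX N ^ F.pS) ^ (1 + F.eta) := by rw [l8y_sw_pt F N ell hi]; rfl
  have e2 : (ll04Dir F N ell i γ τ).U F = min 1 (skX N * (skX N ^ F.pS) ^ (-(F.sS / 2))) := by rw [l8y_sw_pt F N ell hi]; rfl
  rw [e1, e2] at hW
  set R : ℝ := (if i = 1 then skX N ^ (12 : ℝ) / (skX N ^ F.pS) ^ (1 + F.eta)
    else (1 - τ)⁻¹ * skX N ^ (6 : ℝ) * (skX N ^ F.pS) ^ (1 + F.eta) * (min 1 (skX N * (skX N ^ F.pS) ^ (-(F.sS / 2)))) ^ 4) with hR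
  have hR0 : 0 ≤ R := by
    rw [hR]
    have h1τ : 0 ≤ (1 - τ)⁻¹ := inv_nonneg.2 (by linarith [hτ.2])
    split_ifs <;> positivity
  have hsq : 2 * √(7 / 3 * l8yWe m ell (l8yA F 𝔹 Fs (ll04Dir F N ell i γ τ)) (l8yEta F 𝔹 Fs N ell i γ)) ≤ 4 * Z (γ, τ) * √R := by
    have hz := hZ0 (γ, τ)
    have a1 : 7 / 3 * l8yWe m ell (l8yA F 𝔹 Fs (ll04Dir F N ell i γ τ)) (l8yEta F 𝔹 Fs N ell i γ) ≤ (2 * Z (γ, τ)) ^ 2 * R := by
      have : 0 ≤ Z (γ, τ) ^ 2 * R := by positivity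
      nlinarith
    have a2 : √((2 * Z (γ, τ)) ^ 2 * R) = 2 * Z (γ, τ) * √R := by
      rw [Real.sqrt_mul (sq_nonneg _), Real.sqrt_sq (by positivity)]
    have := Real.sqrt_le_sqrt a1
    rw [a2] at this
    linarith
  have hC : C1 * skX N ^ (6 - δ) ≤ max C1 C2 * skX N ^ (6 - δ) :=
    mul_le_mul_of_nonneg_right (le_max_left _ _) (Real.rpow_pos_of_pos hx _).le
  exact hb.trans (add_le_add hC hsq)

/-! ## 4. Arithmetic of the exponents -/

/-- the power saving of the strength sweep -/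
def l8ySav (F : LlFix) : ℝ := min (F.pS * (1 - 2 * F.sS)) (5 / 2 * min 1 (2 * (1 - F.eta) / (5 * F.sS)) - 2)

theorem l8y_sav_pos {F : LlFix} (hF : F.Ok) (hs : F.sS < (1 - F.eta) / 2) : 0 < l8ySav F := by
  unfold l8ySav
  have h1 := hF.sS0
  have h2 := hF.sS1
  have h3 := hF.pS0
  refine lt_min (mul_pos h3 (by linarith)) ?_
  have h4 : 4 / 5 < min 1 (2 * (1 - F.eta) / (5 * F.sS)) := by
    refine lt_min (by norm_num) ?_
    rw [lt_div_iff₀ (by positivity)]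
    linarith
  linarith

/-- `√(x^a) = x^(a/2)` -/
theorem l8y_sqrt_rpow_aux {x : ℝ} (hx : 0 < x) (a : ℝ) : √(x ^ a) = x ^ (a / 2) := by
  rw [Real.sqrt_eq_rpow, ← Real.rpow_mul hx.le]
  congr 1
  ring

/-- TEX[LL:lem:statistics-coarse-switch] `λ x U⁴ ≤ x⁵ λ^(1-2s_*)`, `λ e_1 U⁴ = x³ λ^((1-η)/2) U^(5/2) ≲ x^(3+(1-η)/s_*)`.
PROOF: `U ≤ y^θ` for `y = x λ^(-s_*/2)`, `θ ∈ [0,1]`;   first: `θ = 1`, `λ ≤ x^(p_*)`;   second: `θ = min 1 (2(1-η)/(5 s_*))`, the remaining exponent of `λ` is `≥ 0`, `λ ≤ 1`. -/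
theorem l8y_ar_L {F : LlFix} (hF : F.Ok) (hη : F.eta < 1) {x lam : ℝ} (hx : 0 < x) (hx1 : x ≤ 1) (hl0 : 0 < lam) (hl : lam ≤ x ^ F.pS) :
    lam * (x + x ^ (3 : ℝ) / √(lam ^ (1 + F.eta) * (min 1 (x * lam ^ (-(F.sS / 2)))) ^ 3)) * (min 1 (x * lam ^ (-(F.sS / 2)))) ^ 4
      ≤ 2 * x ^ (5 + l8ySav F) := by
  have hs0 := hF.sS0
  have hs1 := hF.sS1
  have hp0 := hF.pS0
  have s1 : l8ySav F ≤ F.pS * (1 - 2 * F.sS) := min_le_left _ _
  have s2 : l8ySav F ≤ 5 / 2 * min 1 (2 * (1 - F.eta) / (5 * F.sS)) - 2 := min_le_right _ _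
  set θ := min 1 (2 * (1 - F.eta) / (5 * F.sS)) with hθ
  have hθ0 : 0 ≤ θ := le_min zero_le_one (div_nonneg (by linarith) (by positivity))
  have hθ1 : θ ≤ 1 := min_le_left _ _
  have hθ2 : 5 * θ * F.sS / 4 ≤ (1 - F.eta) / 2 := by
    have : θ ≤ 2 * (1 - F.eta) / (5 * F.sS) := min_le_right _ _
    rw [le_div_iff₀ (by positivity)] at this
    linarith
  have hl1 : lam ≤ 1 := hl.trans (Real.rpow_le_one hx.le hx1 hp0.le)
  set y := x * lam ^ (-(F.sS / 2)) with hy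
  have hy0 : 0 < y := by positivity
  set U := min 1 y with hU
  have hU0 : 0 < U := lt_min one_pos hy0
  -- term A
  have hA : lam * x * U ^ 4 ≤ x ^ (5 + l8ySav F) := by
    have a1 : U ^ 4 ≤ y ^ 4 := pow_le_pow_left₀ hU0.le (min_le_right _ _) 4
    have a2 : y ^ 4 = x ^ 4 * lam ^ (-(2 * F.sS)) := by
      rw [hy, mul_pow, ← Real.rpow_natCast (lam ^ (-(F.sS / 2))), ← Real.rpow_mul hl0.le]
      congr 2
      push_cast
      ring
    have a3 : lam * x * y ^ 4 = x ^ (5 : ℝ) * lam ^ (1 - 2 * F.sS) := by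
      rw [a2, sub_eq_add_neg, Real.rpow_add hl0, Real.rpow_one]
      have : x ^ (5 : ℝ) = x ^ 5 := by
        rw [← Real.rpow_natCast]; norm_num
      rw [this]
      ring
    have a4 : lam ^ (1 - 2 * F.sS) ≤ x ^ (F.pS * (1 - 2 * F.sS)) := by
      rw [Real.rpow_mul hx.le]
      exact Real.rpow_le_rpow hl0.le hl (by linarith)
    calc lam * x * U ^ 4 ≤ lam * x * y ^ 4 := mul_le_mul_of_nonneg_left a1 (by positivity)
      _ = x ^ (5 : ℝ) * lam ^ (1 - 2 * F.sS) := a3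
      _ ≤ x ^ (5 : ℝ) * x ^ (F.pS * (1 - 2 * F.sS)) := mul_le_mul_of_nonneg_left a4 (by positivity)
      _ = x ^ (5 + F.pS * (1 - 2 * F.sS)) := by rw [Real.rpow_add hx]
      _ ≤ _ := Real.rpow_le_rpow_of_exponent_ge hx hx1 (by linarith)
  -- term B
  have hB : lam * (x ^ (3 : ℝ) / √(lam ^ (1 + F.eta) * U ^ 3)) * U ^ 4 ≤ x ^ (5 + l8ySav F) := by
    have b1 : √(lam ^ (1 + F.eta) * U ^ 3) = lam ^ ((1 + F.eta) / 2) * U ^ (3 / 2 : ℝ) := by
      rw [Real.sqrt_mul (by positivity), l8y_sqrt_rpow_aux hl0]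
      congr 1
      rw [← Real.rpow_natCast, l8y_sqrt_rpow_aux hU0]
      norm_num
    have b2 : U ^ 4 = U ^ (5 / 2 : ℝ) * U ^ (3 / 2 : ℝ) := by
      rw [← Real.rpow_add hU0, ← Real.rpow_natCast]
      norm_num
    have b3 : lam = lam ^ ((1 - F.eta) / 2) * lam ^ ((1 + F.eta) / 2) := by
      rw [← Real.rpow_add hl0]
      have : (1 - F.eta) / 2 + (1 + F.eta) / 2 = 1 := by ring
      rw [this, Real.rpow_one]
    have b4 : lam * (x ^ (3 : ℝ) / √(lam ^ (1 + F.eta) * U ^ 3)) * U ^ 4 = x ^ (3 : ℝ) * lam ^ ((1 - F.eta) / 2) * U ^ (5 / 2 : ℝ) := by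
      rw [b1, b2]
      nth_rewrite 1 [b3]
      have p1 : lam ^ ((1 + F.eta) / 2) ≠ 0 := (Real.rpow_pos_of_pos hl0 _).ne'
      have p2 : U ^ (3 / 2 : ℝ) ≠ 0 := (Real.rpow_pos_of_pos hU0 _).ne'
      field_simp
    have b5 : U ≤ y ^ θ := by
      rcases le_total y 1 with h | h
      · calc U ≤ y := min_le_right _ _
          _ = y ^ (1 : ℝ) := (Real.rpow_one y).symm
          _ ≤ y ^ θ := Real.rpow_le_rpow_of_exponent_ge hy0 h hθ1
      · exact (min_le_left _ _).trans (Real.one_le_rpow h hθ0)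
    have b6 : U ^ (5 / 2 : ℝ) ≤ x ^ (5 * θ / 2) * lam ^ (-(5 * θ * F.sS / 4)) := by
      refine (Real.rpow_le_rpow hU0.le b5 (by norm_num)).trans (le_of_eq ?_)
      rw [← Real.rpow_mul hy0.le, hy, Real.mul_rpow hx.le (by positivity), ← Real.rpow_mul hl0.le]
      congr 2 <;> ring
    have b7 : lam ^ ((1 - F.eta) / 2) * lam ^ (-(5 * θ * F.sS / 4)) ≤ 1 := by
      rw [← Real.rpow_add hl0]
      exact Real.rpow_le_one hl0.le hl1 (by linarith)
    rw [b4]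
    calc x ^ (3 : ℝ) * lam ^ ((1 - F.eta) / 2) * U ^ (5 / 2 : ℝ)
        ≤ x ^ (3 : ℝ) * lam ^ ((1 - F.eta) / 2) * (x ^ (5 * θ / 2) * lam ^ (-(5 * θ * F.sS / 4))) :=
          mul_le_mul_of_nonneg_left b6 (by positivity)
      _ = x ^ (3 : ℝ) * x ^ (5 * θ / 2) * (lam ^ ((1 - F.eta) / 2) * lam ^ (-(5 * θ * F.sS / 4))) := by ring
      _ ≤ x ^ (3 : ℝ) * x ^ (5 * θ / 2) * 1 := mul_le_mul_of_nonneg_left b7 (by positivity)
      _ = x ^ (3 + 5 * θ / 2) := by rw [mul_one, Real.rpow_add hx]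
      _ ≤ _ := Real.rpow_le_rpow_of_exponent_ge hx hx1 (by linarith)
  calc lam * (x + x ^ (3 : ℝ) / √(lam ^ (1 + F.eta) * U ^ 3)) * U ^ 4
      = lam * x * U ^ 4 + lam * (x ^ (3 : ℝ) / √(lam ^ (1 + F.eta) * U ^ 3)) * U ^ 4 := by ring
    _ ≤ _ := by linarith

/-- the power saving of the multiplier sweeps -/
def l8ySavS (F : LlFix) : ℝ := min (1 - F.pS * (1 + F.eta) / 2) (F.pS * ((1 + F.eta) / 2 - F.sS))

/-- TEX[LL:lem:statistics-coarse-switch] "Both `x⁶/√λ_1` at final strength and `x³ √λ_1 U²` allow power saving beyond `x⁵`" -/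
theorem l8y_ar_S {F : LlFix} (hF : F.Ok) {x : ℝ} (hx : 0 < x) (hx1 : x ≤ 1) :
    √(x ^ (12 : ℝ) / (x ^ F.pS) ^ (1 + F.eta)) ≤ x ^ (5 + l8ySavS F) ∧
      √(x ^ (6 : ℝ) * (x ^ F.pS) ^ (1 + F.eta) * (min 1 (x * (x ^ F.pS) ^ (-(F.sS / 2)))) ^ 4) ≤ x ^ (5 + l8ySavS F) := by
  have s1 : l8ySavS F ≤ 1 - F.pS * (1 + F.eta) / 2 := min_le_left _ _
  have s2 : l8ySavS F ≤ F.pS * ((1 + F.eta) / 2 - F.sS) := min_le_right _ _
  constructor
  · rw [← Real.rpow_mul hx.le, ← Real.rpow_sub hx, l8y_sqrt_rpow_aux hx]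
    exact Real.rpow_le_rpow_of_exponent_ge hx hx1 (by linarith)
  · have hU0 : 0 ≤ min 1 (x * (x ^ F.pS) ^ (-(F.sS / 2))) := le_min zero_le_one (by positivity)
    have hU1 : min 1 (x * (x ^ F.pS) ^ (-(F.sS / 2))) ≤ x ^ (1 - F.pS * F.sS / 2) := by
      refine (min_le_right _ _).trans (le_of_eq ?_)
      rw [← Real.rpow_mul hx.le]
      nth_rewrite 1 [← Real.rpow_one x]
      rw [← Real.rpow_add hx]
      congr 1
      ring
    have hU4 : (min 1 (x * (x ^ F.pS) ^ (-(F.sS / 2)))) ^ 4 ≤ x ^ (4 - 2 * F.pS * F.sS) := by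
      refine (pow_le_pow_left₀ hU0 hU1 4).trans (le_of_eq ?_)
      rw [← Real.rpow_natCast, ← Real.rpow_mul hx.le]
      congr 1
      push_cast
      ring
    have h1 : x ^ (6 : ℝ) * (x ^ F.pS) ^ (1 + F.eta) * (min 1 (x * (x ^ F.pS) ^ (-(F.sS / 2)))) ^ 4
        ≤ x ^ (6 + F.pS * (1 + F.eta) + (4 - 2 * F.pS * F.sS)) := by
      rw [Real.rpow_add hx, Real.rpow_add hx, Real.rpow_mul hx.le]
      exact mul_le_mul_of_nonneg_left hU4 (by positivity)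
    refine (Real.sqrt_le_sqrt h1).trans ?_
    rw [l8y_sqrt_rpow_aux hx]
    exact Real.rpow_le_rpow_of_exponent_ge hx hx1 (by linarith)

/-! ## 5. Integration -/

/-- `∫_0^1 (1 - τ)^(-1/2) dτ = 2` -/
theorem l8y_int_sqrt : ∫⁻ τ in Icc (0 : ℝ) 1, ENNReal.ofReal (√((1 - τ)⁻¹)) ≤ 2 := by
  have hint : IntervalIntegrable (fun t : ℝ => t ^ (-(1 / 2) : ℝ)) volume 0 1 :=
    intervalIntegral.intervalIntegrable_rpow' (by norm_num)
  have hint2 : IntervalIntegrable (fun t : ℝ => (1 - t) ^ (-(1 / 2) : ℝ)) volume 0 1 := by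
    have := hint.comp_sub_left 1
    simp only [sub_zero, sub_self] at this
    exact this.symm
  have hval : ∫ t in (0 : ℝ)..1, (1 - t) ^ (-(1 / 2) : ℝ) = 2 := by
    rw [intervalIntegral.integral_comp_sub_left (fun t : ℝ => t ^ (-(1 / 2) : ℝ)) 1]
    simp only [sub_self, sub_zero]
    rw [integral_rpow (Or.inl (by norm_num))]
    norm_num
  have e1 : ∀ τ : ℝ, √((1 - τ)⁻¹) = if 0 ≤ 1 - τ then (1 - τ) ^ (-(1 / 2) : ℝ) else √((1 - τ)⁻¹) := by
    intro τ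
    split_ifs with h
    · rw [Real.sqrt_eq_rpow, ← Real.rpow_neg_one, ← Real.rpow_mul h]
      norm_num
    · rfl
  have e2 : ∫⁻ τ in Icc (0 : ℝ) 1, ENNReal.ofReal (√((1 - τ)⁻¹)) = ∫⁻ τ in Ioc (0 : ℝ) 1, ENNReal.ofReal ((1 - τ) ^ (-(1 / 2) : ℝ)) := by
    rw [← restrict_Ioc_eq_restrict_Icc]
    refine setLIntegral_congr_fun measurableSet_Ioc fun τ hτ => ?_
    show ENNReal.ofReal (√((1 - τ)⁻¹)) = _
    rw [e1 τ, if_pos (by linarith [hτ.2])]
  rw [e2, ← ofReal_integral_eq_lintegral_ofReal]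
  · rw [← intervalIntegral.integral_of_le zero_le_one, hval]
    norm_num
  · exact (intervalIntegrable_iff_integrableOn_Ioc_of_le zero_le_one).mp hint2
  · refine (ae_restrict_iff' measurableSet_Ioc).mpr (Eventually.of_forall fun τ hτ => ?_)
    exact Real.rpow_nonneg (by linarith [hτ.2]) _

/-- abstract integration of the coarse event: Markov with the fourth moment, Tonelli.
PROOF: `1_{y < U Z} ≤ (U Z / y)⁴`;   `lintegral_mono_ae` (`Measure.quasiMeasurePreserving_snd.ae` for the a.e. `t`);   `lintegral_prod_symm` (the majorant is measurable);   `lintegral_const_mul`;   `setLIntegral_le` of a constant. -/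
theorem l8y_int_L {Γ : Type} [MeasurableSpace Γ] (μ : Measure Γ) [SFinite μ] (I : Set ℝ) (hI : MeasurableSet I) {len : ℝ} (hlen : volume I ≤ ENNReal.ofReal len)
    (D : Γ × ℝ → ℝ) (st : Γ × ℝ → Prop) (Z : Γ × ℝ → ℝ) (U M : ℝ → ℝ) {y c4 c5 : ℝ} (hy : 0 < y) (hZm : Measurable Z) (hUm : Measurable U) (hMm : Measurable M)
    (hU : ∀ t, 0 ≤ U t) (hM : ∀ t, 0 ≤ M t) (hZ : ∀ t ∈ I, ∀ γ, 0 ≤ Z (γ, t)) (hc4 : 0 ≤ c4) (hlen0 : 0 ≤ len)
    (hZ4 : ∀ t ∈ I, ∫⁻ γ, ENNReal.ofReal (Z (γ, t) ^ 4) ∂μ ≤ ENNReal.ofReal c4)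
    (hD : ∀ᵐ t : ℝ, t ∈ I → ∀ γ, st (γ, t) → |D (γ, t)| ≤ M t) (hMU : ∀ t ∈ I, M t * U t ^ 4 ≤ c5)
    [dec : DecidablePred fun z : Γ × ℝ => st z ∧ y < U z.2 * Z z] :
    ∫⁻ z : Γ × ℝ, (if st z ∧ y < U z.2 * Z z then ENNReal.ofReal |D z| else 0) ∂(μ.prod (volume.restrict I))
      ≤ ENNReal.ofReal (len * (c5 * c4 / y ^ 4)) := by
  rcases I.eq_empty_or_nonempty with rfl | ⟨t0, ht0⟩
  · simp
  have hc5 : 0 ≤ c5 := le_trans (mul_nonneg (hM t0) (pow_nonneg (hU t0) 4)) (hMU t0 ht0)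
  have hae : ∀ᵐ z ∂(μ.prod (volume.restrict I)), z.2 ∈ I ∧ (z.2 ∈ I → ∀ γ, st (γ, z.2) → |D (γ, z.2)| ≤ M z.2) :=
    Measure.quasiMeasurePreserving_snd.ae ((ae_restrict_mem hI).and (ae_restrict_of_ae hD))
  have h1 : ∫⁻ z : Γ × ℝ, (if st z ∧ y < U z.2 * Z z then ENNReal.ofReal |D z| else 0) ∂(μ.prod (volume.restrict I))
      ≤ ∫⁻ z : Γ × ℝ, ENNReal.ofReal (c5 / y ^ 4) * ENNReal.ofReal (Z z ^ 4) ∂(μ.prod (volume.restrict I)) := by
    refine lintegral_mono_ae ?_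
    filter_upwards [hae] with z hz
    obtain ⟨γ, t⟩ := z
    obtain ⟨hzI, hzD⟩ := hz
    simp only at hzI hzD
    split_ifs with hc
    · have a1 := hzD hzI γ hc.1
      have a2 : y < U t * Z (γ, t) := hc.2
      have a3 : 1 ≤ (U t * Z (γ, t) / y) ^ 4 := one_le_pow₀ (by rw [le_div_iff₀ hy]; linarith)
      rw [← ENNReal.ofReal_mul (by positivity)]
      refine ENNReal.ofReal_le_ofReal ?_
      have a4 : 0 ≤ Z (γ, t) ^ 4 / y ^ 4 := by positivity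
      calc |D (γ, t)| ≤ M t := a1
        _ ≤ M t * (U t * Z (γ, t) / y) ^ 4 := le_mul_of_one_le_right (hM t) a3
        _ = (M t * U t ^ 4) * (Z (γ, t) ^ 4 / y ^ 4) := by rw [div_pow, mul_pow]; ring
        _ ≤ c5 * (Z (γ, t) ^ 4 / y ^ 4) := mul_le_mul_of_nonneg_right (hMU t hzI) a4
        _ = _ := by ring
    · exact zero_le
  refine h1.trans ?_
  have hm : Measurable fun z : Γ × ℝ => ENNReal.ofReal (Z z ^ 4) := (hZm.pow_const 4).ennreal_ofReal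
  rw [lintegral_const_mul _ hm, lintegral_prod_symm _ hm.aemeasurable]
  have h2 : ∫⁻ t in I, ∫⁻ γ, ENNReal.ofReal (Z (γ, t) ^ 4) ∂μ ≤ ENNReal.ofReal c4 * ENNReal.ofReal len := by
    calc ∫⁻ t in I, ∫⁻ γ, ENNReal.ofReal (Z (γ, t) ^ 4) ∂μ ≤ ∫⁻ _ in I, ENNReal.ofReal c4 := setLIntegral_mono' hI hZ4
      _ = ENNReal.ofReal c4 * volume I := setLIntegral_const _ _
      _ ≤ _ := mul_le_mul_right hlen _
  refine (mul_le_mul_right h2 _).trans (le_of_eq ?_)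
  rw [← ENNReal.ofReal_mul hc4, ← ENNReal.ofReal_mul (by positivity)]
  congr 1
  ring

/-- abstract integration of a multiplier sweep: Tonelli, first moment of `Z` -/
theorem l8y_int_S {Γ : Type} [MeasurableSpace Γ] (μ : Measure Γ) [IsProbabilityMeasure μ] (D : Γ × ℝ → ℝ) (st : Γ × ℝ → Prop) (Z : Γ × ℝ → ℝ) (w : ℝ → ℝ)
    {c1 c2 c3 : ℝ} (hZm : Measurable Z) (hwm : Measurable w) (hw : ∀ t, 0 ≤ w t) (hZ : ∀ z, 0 ≤ Z z) (hc1 : 0 ≤ c1) (hc2 : 0 ≤ c2) (hc3 : 0 ≤ c3)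
    (hZ1 : ∀ τ ∈ Ioo (0 : ℝ) 1, ∫⁻ γ, ENNReal.ofReal (Z (γ, τ)) ∂μ ≤ ENNReal.ofReal c2)
    (hD : ∀ γ, ∀ τ ∈ Ioo (0 : ℝ) 1, st (γ, τ) → |D (γ, τ)| ≤ c1 + Z (γ, τ) * w τ)
    (hwi : ∫⁻ τ in Icc (0 : ℝ) 1, ENNReal.ofReal (w τ) ≤ ENNReal.ofReal c3) [dec : DecidablePred st] :
    ∫⁻ z : Γ × ℝ, (if st z then ENNReal.ofReal |D z| else 0) ∂(μ.prod (volume.restrict (Icc (0 : ℝ) 1)))
      ≤ ENNReal.ofReal (c1 + c2 * c3) := by
  rw [← restrict_Ioo_eq_restrict_Icc] at hwi ⊢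
  have hae : ∀ᵐ z ∂(μ.prod (volume.restrict (Ioo (0 : ℝ) 1))), z.2 ∈ Ioo (0 : ℝ) 1 :=
    Measure.quasiMeasurePreserving_snd.ae (ae_restrict_mem measurableSet_Ioo)
  have h1 : ∫⁻ z : Γ × ℝ, (if st z then ENNReal.ofReal |D z| else 0) ∂(μ.prod (volume.restrict (Ioo (0 : ℝ) 1)))
      ≤ ∫⁻ z : Γ × ℝ, (ENNReal.ofReal c1 + ENNReal.ofReal (Z z) * ENNReal.ofReal (w z.2)) ∂(μ.prod (volume.restrict (Ioo (0 : ℝ) 1))) := by
    refine lintegral_mono_ae ?_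
    filter_upwards [hae] with z hz
    obtain ⟨γ, t⟩ := z
    simp only at hz
    split_ifs with hc
    · rw [← ENNReal.ofReal_mul (hZ _), ← ENNReal.ofReal_add hc1 (mul_nonneg (hZ _) (hw _))]
      exact ENNReal.ofReal_le_ofReal (hD γ t hz hc)
    · exact zero_le
  refine h1.trans ?_
  have hm : Measurable fun z : Γ × ℝ => ENNReal.ofReal (Z z) * ENNReal.ofReal (w z.2) :=
    hZm.ennreal_ofReal.mul (hwm.comp measurable_snd).ennreal_ofReal
  rw [lintegral_add_left measurable_const, lintegral_const, lintegral_prod_symm _ hm.aemeasurable]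
  have hu : (μ.prod (volume.restrict (Ioo (0 : ℝ) 1))) univ = 1 := by
    rw [← univ_prod_univ, Measure.prod_prod, measure_univ, Measure.restrict_apply_univ, Real.volume_Ioo]
    norm_num
  rw [hu, mul_one]
  have h2 : ∫⁻ t in Ioo (0 : ℝ) 1, ∫⁻ γ, ENNReal.ofReal (Z (γ, t)) * ENNReal.ofReal (w t) ∂μ ≤ ENNReal.ofReal c2 * ENNReal.ofReal c3 := by
    calc ∫⁻ t in Ioo (0 : ℝ) 1, ∫⁻ γ, ENNReal.ofReal (Z (γ, t)) * ENNReal.ofReal (w t) ∂μ
        ≤ ∫⁻ t in Ioo (0 : ℝ) 1, ENNReal.ofReal c2 * ENNReal.ofReal (w t) := by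
          refine setLIntegral_mono' measurableSet_Ioo fun t ht => ?_
          have hmt : Measurable fun γ : Γ => ENNReal.ofReal (Z (γ, t)) := (hZm.comp measurable_prodMk_right).ennreal_ofReal
          rw [lintegral_mul_const _ hmt]
          exact mul_le_mul_left (hZ1 t ht) _
      _ = ENNReal.ofReal c2 * ∫⁻ t in Ioo (0 : ℝ) 1, ENNReal.ofReal (w t) := lintegral_const_mul _ hwm.ennreal_ofReal
      _ ≤ _ := mul_le_mul_right hwi _
  rw [ENNReal.ofReal_add hc1 (mul_nonneg hc2 hc3), ENNReal.ofReal_mul hc2]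
  exact add_le_add le_rfl h2

end

/-! ## 6. The exports -/

theorem l8y_ae_Ioo (p : ℝ → Prop) (h : ∀ᵐ t : ℝ, t ∈ Ioo (0 : ℝ) 1 → p t) : ∀ᵐ t ∂(volume.restrict (Icc (0 : ℝ) 1)), p t :=
  (ae_restrict_iff' measurableSet_Icc).2 (l9f_ae_Ioo 1 p h)

/-- TEX[LL:lem:statistics-coarse-switch] **first part**: "For sufficiently small fixed `κ > 0`, the direct-strength contribution from `Y > x^κ` satisfies the direct part of Proposition increment."
PROOF: `c0 = l8ySav F / 4`, `δ = l8ySav F / 16` (three subpower losses: `l8y_pt_L`, `L9Mom`, the length `≤ 12 log (1/x)` of `l9LamRg`), `p` with `3 / p ≤ l8ySav F / 16`;   `l8y_int_L` with `y = x^κ`, `U`, `M` from `l8y_pt_L`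
(they do not depend on `γ`), `l8y_ar_L`;   `x^(-3/p) ≥ 1`. -/
theorem l8y_coarse (𝔹 : LlBase) (Mj : L9Mj) (F : LlFix) (hF : F.Ok) (hs : F.sS < (1 - F.eta) / 2) (hp1 : F.pS ≤ 1) (κ : ℝ) (hκ : 0 < κ) (hκ' : 16 * κ ≤ l8ySav F)
    (hClk : L8yClk 𝔹 F) (hReg : L9Reg 𝔹 F) (hMom : L9Mom 𝔹 Mj F) : L9Coarse 𝔹 Mj κ F := by
  classical
  have hσ := l8y_sav_pos hF hs
  have hη : F.eta < 1 := by have := hF.sS0; linarith
  have hδ : 0 < l8ySav F / 16 := by positivity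
  obtain ⟨p, hp2, hp3⟩ : ∃ p : ℕ, 2 ≤ p ∧ 3 / (p : ℝ) ≤ l8ySav F / 16 := by
    refine ⟨max 2 ⌈48 / l8ySav F⌉₊, le_max_left _ _, ?_⟩
    have h1 : 48 / l8ySav F ≤ (max 2 ⌈48 / l8ySav F⌉₊ : ℕ) := (Nat.le_ceil _).trans (by exact_mod_cast le_max_right _ _)
    have h2 : (0 : ℝ) < (max 2 ⌈48 / l8ySav F⌉₊ : ℕ) := by exact_mod_cast lt_of_lt_of_le two_pos (le_max_left _ _)
    rw [div_le_iff₀ h2]
    rw [div_le_iff₀ hσ] at h1
    linarith
  refine ⟨l8ySav F / 4, by positivity, 1, one_pos, fun ε hε _ q hq => ?_⟩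
  obtain ⟨C1, N1, h1⟩ := l8y_pt_Lt hF hClk (l8ySav F / 16) hδ p hp2 q ε hq hε
  obtain ⟨C2, N2, h2⟩ := hMom (l8ySav F / 16) hδ
  obtain ⟨_, N3, h3⟩ := hReg 1 one_pos q ε hq hε
  refine ⟨24 / (l8ySav F / 16) * max C1 0 * max C2 0, max (max (max N1 N2) 2) N3, fun N hN => ?_⟩
  have hN1 : N1 ≤ N := le_trans (le_trans (le_trans (le_max_left _ _) (le_max_left _ _)) (le_max_left _ _)) hN
  have hN2 : N2 ≤ N := le_trans (le_trans (le_trans (le_max_right _ _) (le_max_left _ _)) (le_max_left _ _)) hN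
  have hN5 : 2 ≤ N := le_trans (le_trans (le_max_right _ _) (le_max_left _ _)) hN
  have hN3 : N3 ≤ N := le_trans (le_max_right _ _) hN
  have hN6 : 1 ≤ N := by omega
  have hx := ll04w_x_mem (N := N) hN6
  have hx1 : skX N < 1 := by
    unfold skX
    exact Real.rpow_lt_one_of_one_lt_of_neg (by exact_mod_cast (by omega : 1 < N)) (by norm_num)
  have hlog : Real.log (skX N) < 0 := Real.log_neg hx.1 hx1
  filter_upwards [h1 N hN1, h2 N hN2, h3 N hN3] with Fs hA hB hR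
  intro m hm1 hm2 ell hell
  obtain ⟨hmeas, hZ⟩ := (hB m hm1 hm2).1 ell hell
  have := ll04a_prob N
  have hxd : 0 < skX N ^ (-(l8ySav F / 16)) := Real.rpow_pos_of_pos hx.1 _
  have hxp : 0 < skX N ^ (-(3 / (p : ℝ))) := Real.rpow_pos_of_pos hx.1 _
  have hx5 : 0 < skX N ^ (5 + l8ySav F) := Real.rpow_pos_of_pos hx.1 _
  have hxk : 0 < skX N ^ (-(4 * κ)) := Real.rpow_pos_of_pos hx.1 _
  set K : ℝ := 12 * (skX N ^ (-(l8ySav F / 16)) / (l8ySav F / 16)) * (max C1 0 * skX N ^ (-(l8ySav F / 16)) * skX N ^ (-(3 / (p : ℝ)))) * (2 * skX N ^ (5 + l8ySav F))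
    * skX N ^ (-(4 * κ)) with hK
  have hK0 : 0 ≤ K := by have := le_max_right C1 0; positivity
  have hM : Measurable fun z : (Fin (N + 1) → ℝ) × ℝ => Mj.Z F 𝔹 Fs (ll04Dir F N ell 0 z.1 z.2) m ^ 4 := hmeas.pow_const 4
  have hmomB : ∀ τ, ∫⁻ γ, ENNReal.ofReal ((fun z : (Fin (N + 1) → ℝ) × ℝ => Mj.Z F 𝔹 Fs (ll04Dir F N ell 0 z.1 z.2) m ^ 4) (γ, τ)) ∂ll04Mu N
      ≤ ENNReal.ofReal (max C2 0 * skX N ^ (-(l8ySav F / 16))) := fun τ => by
    have e : ∀ γ : Fin (N + 1) → ℝ, ll04Dir F N ell 0 γ τ = ll04Dir F N ell 0 γ (ll04U 1 τ) := fun γ => by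
      unfold ll04Dir
      rw [ll04w_U_of_mem (ll04w_U_mem zero_le_one τ)]
    simp only [e]
    exact ((hZ _ (ll04w_U_mem zero_le_one τ)).2).trans (ENNReal.ofReal_le_ofReal (by have := le_max_left C2 0; gcongr))
  have hfin : K * (max C2 0 * skX N ^ (-(l8ySav F / 16))) ≤ 24 / (l8ySav F / 16) * max C1 0 * max C2 0 * skX N ^ (5 + l8ySav F / 4) := by
    have e : skX N ^ (-(l8ySav F / 16)) * skX N ^ (-(l8ySav F / 16)) * skX N ^ (-(3 / (p : ℝ))) * skX N ^ (5 + l8ySav F) * skX N ^ (-(4 * κ)) * skX N ^ (-(l8ySav F / 16))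
        ≤ skX N ^ (5 + l8ySav F / 4) := by
      rw [← Real.rpow_add hx.1, ← Real.rpow_add hx.1, ← Real.rpow_add hx.1, ← Real.rpow_add hx.1, ← Real.rpow_add hx.1]
      exact Real.rpow_le_rpow_of_exponent_ge hx.1 hx.2 (by linarith)
    have h0 : 0 ≤ 24 / (l8ySav F / 16) * max C1 0 * max C2 0 := by
      have := le_max_right C1 0; have := le_max_right C2 0; positivity
    calc K * (max C2 0 * skX N ^ (-(l8ySav F / 16)))
        = 24 / (l8ySav F / 16) * max C1 0 * max C2 0 * (skX N ^ (-(l8ySav F / 16)) * skX N ^ (-(l8ySav F / 16)) * skX N ^ (-(3 / (p : ℝ))) * skX N ^ (5 + l8ySav F)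
            * skX N ^ (-(4 * κ)) * skX N ^ (-(l8ySav F / 16))) := by rw [hK]; ring
      _ ≤ _ := mul_le_mul_of_nonneg_left e h0
  refine (l8zk_main (ll04Mu N) (volume.restrict (Icc (0 : ℝ) 1)) _ (fun z => Mj.Z F 𝔹 Fs (ll04Dir F N ell 0 z.1 z.2) m ^ 4) hM
    (fun z => by positivity) (fun _ => K) measurable_const _ K hK0 ?_ hmomB ?_).trans (ENNReal.ofReal_le_ofReal hfin)
  swap
  · rw [lintegral_const, Measure.restrict_apply MeasurableSet.univ, univ_inter, Real.volume_Icc]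
    simp
  · intro γ
    have ha : (F.pS - 12) * Real.log (skX N) ≠ 0 := mul_ne_zero (by linarith) hlog.ne
    refine l8y_ae_Ioo _ ?_
    filter_upwards [((hR.1 m hm1 hm2).1 ell hell).2.2.2 γ] with τ hd hτ
    have htm : l9T F N τ ∈ l9LamRg F N := l9f_T_mem F ha (by linarith) hN6 hτ
    have hd' := hd ⟨hτ.1.le, hτ.2.le⟩
    have hDt : (⟨F, 𝔹, q * skX N ^ (1 + ε), Fs, m⟩ : L9I).Dif (l9PtL N ell γ) (l9T F N τ) := fun j =>
      ⟨l9f_dir0_diff F hN6 ell γ (fun p => ((⟨F, 𝔹, q * skX N ^ (1 + ε), Fs, m⟩ : L9I).X0 p).bC j) hτ ha (hd' j).1,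
        l9f_dir0_diff F hN6 ell γ (fun p => ((⟨F, 𝔹, q * skX N ^ (1 + ε), Fs, m⟩ : L9I).X0 p).hC j) hτ ha (hd' j).2.1,
        l9f_dir0_diff F hN6 ell γ (fun p => ((⟨F, 𝔹, q * skX N ^ (1 + ε), Fs, m⟩ : L9I).X0 p).KC j) hτ ha (hd' j).2.2⟩
    have hI := hA m hm1 hm2 ell hell γ (l9T F N τ) htm hDt
    have hZ1' : 1 ≤ Mj.Z F 𝔹 Fs (ll04Dir F N ell 0 γ τ) m := (hZ τ ⟨hτ.1.le, hτ.2.le⟩).1 γ
    set t : ℝ := l9T F N τ with htdef
    have hU : ll04U 1 τ = τ := ll04w_U_of_mem ⟨hτ.1.le, hτ.2.le⟩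
    have hpt2 : ll04Dir F N ell 0 γ τ = l9PtL N ell γ t := by rw [l9f_dir0_pt F hN6, hU]
    have hl2 : Real.exp t ≤ skX N ^ F.pS := by
      rw [Real.rpow_def_of_pos hx.1]; exact Real.exp_le_exp.2 (by linarith [htm.2])
    show (if q * skX N ^ (1 + ε) * (m : ℝ) * l9Psi F 𝔹 (q * skX N ^ (1 + ε)) Fs (ll04Dir F N ell 0 γ τ) m ≤ 4 * skX N ^ ε ∧
          skX N ^ κ < (ll04Dir F N ell 0 γ τ).U F * Mj.Z F 𝔹 Fs (ll04Dir F N ell 0 γ τ) m
        then ENNReal.ofReal |deriv (fun t' => l9Psi F 𝔹 (q * skX N ^ (1 + ε)) Fs (ll04Dir F N ell 0 γ t') m) τ| else 0)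
      ≤ ENNReal.ofReal (K * Mj.Z F 𝔹 Fs (ll04Dir F N ell 0 γ τ) m ^ 4)
    split_ifs with hc
    swap
    · exact bot_le
    obtain ⟨hstop, hY⟩ := hc
    refine ENNReal.ofReal_le_ofReal ?_
    rw [l9f_dir0_deriv F hN6 ell γ (fun p => l9Psi F 𝔹 (q * skX N ^ (1 + ε)) Fs p m) hτ, ← htdef]
    rw [hpt2] at hstop hY hZ1' ⊢
    have hZ1 : 1 ≤ Mj.Z F 𝔹 Fs (l9PtL N ell γ t) m := hZ1'
    have hI := hI hstop
    have n1 := l8y_ar_L hF hη hx.1 hx.2 (Real.exp_pos t) hl2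
    set Z := Mj.Z F 𝔹 Fs (l9PtL N ell γ t) m
    have eU : (l9PtL N ell γ t).U F = min 1 (skX N * Real.exp t ^ (-(F.sS / 2))) := rfl
    have eL : (l9PtL N ell γ t).lam1 F = Real.exp t ^ (1 + F.eta) := rfl
    rw [eU] at hY
    rw [eU, eL] at hI
    set U : ℝ := min 1 (skX N * Real.exp t ^ (-(F.sS / 2))) with hUdef
    set E1 : ℝ := skX N ^ (3 : ℝ) / √(Real.exp t ^ (1 + F.eta) * U ^ 3) with hE1
    have hU0 : 0 ≤ U := le_min zero_le_one (mul_nonneg hx.1.le (Real.rpow_nonneg (Real.exp_pos t).le _))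
    have hE10 : 0 ≤ E1 := by have := hx.1; positivity
    have hZ0 : 0 ≤ Z := by linarith
    have hp1' : 1 ≤ skX N ^ (-(3 / (p : ℝ))) := l9f_one_le hx (by positivity)
    have hev : 1 ≤ U ^ 4 * Z ^ 4 * skX N ^ (-(4 * κ)) := by
      have a1 : (skX N ^ κ) ^ 4 ≤ (U * Z) ^ 4 := pow_le_pow_left₀ (Real.rpow_pos_of_pos hx.1 _).le hY.le 4
      have a2 : (skX N ^ κ) ^ 4 * skX N ^ (-(4 * κ)) = 1 := by
        rw [← Real.rpow_natCast (skX N ^ κ) 4, ← Real.rpow_mul hx.1.le, ← Real.rpow_add hx.1]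
        have : κ * ((4 : ℕ) : ℝ) + -(4 * κ) = 0 := by push_cast; ring
        rw [this, Real.rpow_zero]
      calc (1 : ℝ) = (skX N ^ κ) ^ 4 * skX N ^ (-(4 * κ)) := a2.symm
        _ ≤ (U * Z) ^ 4 * skX N ^ (-(4 * κ)) := by gcongr
        _ = U ^ 4 * Z ^ 4 * skX N ^ (-(4 * κ)) := by rw [mul_pow]
    set E : ℝ := Real.exp t * (skX N + E1) with hE
    have hE0 : 0 ≤ E := by have := hx.1; have := Real.exp_pos t; positivity
    have hI2 : |deriv (fun t => l9Psi F 𝔹 (q * skX N ^ (1 + ε)) Fs (l9PtL N ell γ t) m) t|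
        ≤ max C1 0 * skX N ^ (-(l8ySav F / 16)) * skX N ^ (-(3 / (p : ℝ))) * E := by
      refine le_trans hI ?_
      have h0 := le_max_left C1 0
      have h00 := le_max_right C1 0
      have hex := Real.exp_pos t
      have b1 : skX N + skX N ^ (-(3 / (p : ℝ))) * E1 ≤ skX N ^ (-(3 / (p : ℝ))) * (skX N + E1) := by nlinarith [hx.1]
      have b0 : 0 ≤ skX N + skX N ^ (-(3 / (p : ℝ))) * E1 := by have := hx.1; positivity
      calc C1 * skX N ^ (-(l8ySav F / 16)) * Real.exp t * (skX N + skX N ^ (-(3 / (p : ℝ))) * E1)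
          ≤ max C1 0 * skX N ^ (-(l8ySav F / 16)) * Real.exp t * (skX N ^ (-(3 / (p : ℝ))) * (skX N + E1)) := by gcongr
        _ = _ := by rw [hE]; ring
    have hab : |(F.pS - 12) * Real.log (skX N)| ≤ 12 * (skX N ^ (-(l8ySav F / 16)) / (l8ySav F / 16)) := by
      rw [abs_mul]
      have b1 : |F.pS - 12| ≤ 12 := by rw [abs_le]; constructor <;> linarith [hF.pS0]
      exact mul_le_mul b1 (l9f_log hx hδ) (abs_nonneg _) (by norm_num)
    have hEE : E ≤ 2 * skX N ^ (5 + l8ySav F) * (Z ^ 4 * skX N ^ (-(4 * κ))) := by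
      have hzk : 0 ≤ Z ^ 4 * skX N ^ (-(4 * κ)) := by positivity
      calc E = E * 1 := (mul_one _).symm
        _ ≤ E * (U ^ 4 * Z ^ 4 * skX N ^ (-(4 * κ))) := mul_le_mul_of_nonneg_left hev hE0
        _ = E * U ^ 4 * (Z ^ 4 * skX N ^ (-(4 * κ))) := by ring
        _ ≤ _ := mul_le_mul_of_nonneg_right n1 hzk
    rw [abs_mul]
    calc |(F.pS - 12) * Real.log (skX N)| * |deriv (fun t => l9Psi F 𝔹 (q * skX N ^ (1 + ε)) Fs (l9PtL N ell γ t) m) t|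
        ≤ 12 * (skX N ^ (-(l8ySav F / 16)) / (l8ySav F / 16)) * (max C1 0 * skX N ^ (-(l8ySav F / 16)) * skX N ^ (-(3 / (p : ℝ))) * E) :=
          mul_le_mul hab hI2 (abs_nonneg _) (by positivity)
      _ ≤ 12 * (skX N ^ (-(l8ySav F / 16)) / (l8ySav F / 16)) * (max C1 0 * skX N ^ (-(l8ySav F / 16)) * skX N ^ (-(3 / (p : ℝ)))
            * (2 * skX N ^ (5 + l8ySav F) * (Z ^ 4 * skX N ^ (-(4 * κ))))) := by
          have := le_max_right C1 0
          gcongr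
      _ = K * Z ^ 4 := by rw [hK]; ring

theorem l8y_savS_pos {F : LlFix} (hF : F.Ok) (hp : F.pS * (1 + F.eta) < 2) : 0 < l8ySavS F := by
  unfold l8ySavS
  have h1 := hF.sS1
  have h2 := hF.eta0
  have h3 := hF.pS0
  exact lt_min (by linarith) (mul_pos h3 (by linarith))

/-- TEX[LL:lem:statistics-coarse-switch] **second part**: "The two final-strength multiplier changes also satisfy its required power-saving bound."
PROOF: `c0 = l8ySavS F / 2`, `δ = l8ySavS F / 4`;   `l8y_pt_S`, `l8y_int_S` with `w = 4 √(..)`, `l8y_ar_S`, `l8y_int_sqrt` (`√(a (1-τ)⁻¹) = √a √((1-τ)⁻¹)`). -/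
theorem l8y_switch (𝔹 : LlBase) (F : LlFix) (hF : F.Ok) (hp : F.pS * (1 + F.eta) < 2) (hClk : L8yClk 𝔹 F) (hTile : L8yTile 𝔹 F) : L9Switch 𝔹 F := by
  classical
  have hσ := l8y_savS_pos hF hp
  have hσ1 : l8ySavS F ≤ 1 := by
    have h3 := hF.pS0; have h2 := hF.eta0
    refine (min_le_left _ _).trans ?_
    nlinarith
  refine ⟨l8ySavS F / 2, by positivity, 1, one_pos, fun ε hε _ q hq => ?_⟩
  obtain ⟨C, N0, h⟩ := l8y_pt_S hF (by nlinarith [hF.pS0, hF.eta0]) hClk hTile (l8ySavS F / 2) (by positivity) q ε hq hε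
  refine ⟨9 * max C 0, max N0 1, fun N hN => ?_⟩
  have hN0 : N0 ≤ N := (le_max_left _ _).trans hN
  have hN1 : 1 ≤ N := (le_max_right _ _).trans hN
  have hx := ll04w_x_mem hN1
  filter_upwards [h N hN0] with Fs hFs
  intro m hm1 hm2 ell hell i hi
  obtain ⟨Z, hZm, hZ0, hZ1, hD⟩ := hFs m hm1 hm2 ell hell i hi
  have := ll04a_prob N
  have hK0 : 0 ≤ max C 0 := le_max_right _ _
  have hKC : C ≤ max C 0 := le_max_left _ _
  obtain ⟨ar1, ar2⟩ := l8y_ar_S hF hx.1 hx.2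
  set w : ℝ → ℝ := fun τ => 4 * √(if i = 1 then skX N ^ (12 : ℝ) / (skX N ^ F.pS) ^ (1 + F.eta)
                else (1 - τ)⁻¹ * skX N ^ (6 : ℝ) * (skX N ^ F.pS) ^ (1 + F.eta) * (min 1 (skX N * (skX N ^ F.pS) ^ (-(F.sS / 2)))) ^ 4) with hw
  have hwm : Measurable w := by
    rw [hw]
    by_cases h1 : i = 1
    · simp only [h1, if_true]; exact measurable_const
    · simp only [h1, if_false]
      exact (((((measurable_const.sub measurable_id).inv).mul_const _).mul_const _).mul_const _).sqrt.const_mul 4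
  have hx5 : 0 < skX N ^ (5 + l8ySavS F) := Real.rpow_pos_of_pos hx.1 _
  have hwi : ∫⁻ τ in Icc (0 : ℝ) 1, ENNReal.ofReal (w τ) ≤ ENNReal.ofReal (8 * skX N ^ (5 + l8ySavS F)) := by
    by_cases h1 : i = 1
    · have e : ∀ τ, w τ = 4 * √(skX N ^ (12 : ℝ) / (skX N ^ F.pS) ^ (1 + F.eta)) := fun τ => by rw [hw]; simp only [h1, if_true]
      simp_rw [e]
      rw [lintegral_const, Measure.restrict_apply MeasurableSet.univ, univ_inter, Real.volume_Icc]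
      simp only [sub_zero, ENNReal.ofReal_one, mul_one]
      exact ENNReal.ofReal_le_ofReal (by linarith)
    · set B : ℝ := skX N ^ (6 : ℝ) * (skX N ^ F.pS) ^ (1 + F.eta) * (min 1 (skX N * (skX N ^ F.pS) ^ (-(F.sS / 2)))) ^ 4 with hB
      have hB0 : 0 ≤ B := by
        have := hx.1
        have h0 : 0 ≤ min 1 (skX N * (skX N ^ F.pS) ^ (-(F.sS / 2))) := le_min zero_le_one (by positivity)
        positivity
      have e : ∀ τ, w τ = 4 * √B * √((1 - τ)⁻¹) := fun τ => by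
        rw [hw]; simp only [h1, if_false]
        rw [show (1 - τ)⁻¹ * skX N ^ (6 : ℝ) * (skX N ^ F.pS) ^ (1 + F.eta) * (min 1 (skX N * (skX N ^ F.pS) ^ (-(F.sS / 2)))) ^ 4 = (1 - τ)⁻¹ * B by rw [hB]; ring,
          Real.sqrt_mul' _ hB0]
        ring
      simp_rw [e, ENNReal.ofReal_mul (by positivity : (0 : ℝ) ≤ 4 * √B)]
      have hms : Measurable fun τ : ℝ => ENNReal.ofReal (√((1 - τ)⁻¹)) := ((measurable_const.sub measurable_id).inv.sqrt).ennreal_ofReal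
      rw [lintegral_const_mul _ hms]
      calc ENNReal.ofReal (4 * √B) * ∫⁻ τ in Icc (0 : ℝ) 1, ENNReal.ofReal (√((1 - τ)⁻¹)) ≤ ENNReal.ofReal (4 * √B) * 2 := by
            gcongr; exact l8y_int_sqrt
        _ = ENNReal.ofReal (4 * √B * 2) := by rw [ENNReal.ofReal_mul (by positivity)]; norm_num
        _ ≤ _ := ENNReal.ofReal_le_ofReal (by linarith)
  have key := l8y_int_S (ll04Mu N)
    (fun z => deriv (fun t' => l9Psi F 𝔹 (q * skX N ^ (1 + ε)) Fs (ll04Dir F N ell i z.1 t') m) z.2)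
    (fun z => q * skX N ^ (1 + ε) * (m : ℝ) * l9Psi F 𝔹 (q * skX N ^ (1 + ε)) Fs (ll04Dir F N ell i z.1 z.2) m ≤ 4 * skX N ^ ε)
    Z w (c1 := max C 0 * skX N ^ (6 - l8ySavS F / 2)) (c2 := max C 0 * skX N ^ (-(l8ySavS F / 2))) (c3 := 8 * skX N ^ (5 + l8ySavS F))
    hZm hwm (fun t => by rw [hw]; positivity) hZ0 (by have := hx.1; positivity) (by have := hx.1; positivity) (by positivity)
    (fun τ hτ => (hZ1 τ hτ).trans (ENNReal.ofReal_le_ofReal (by have := Real.rpow_pos_of_pos hx.1 (-(l8ySavS F / 2)); gcongr)))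
    (fun γ τ hτ hst => (hD γ τ hτ hst).trans (by
      have := Real.rpow_pos_of_pos hx.1 (6 - l8ySavS F / 2)
      have e : 4 * Z (γ, τ) * √(if i = 1 then skX N ^ (12 : ℝ) / (skX N ^ F.pS) ^ (1 + F.eta)
                else (1 - τ)⁻¹ * skX N ^ (6 : ℝ) * (skX N ^ F.pS) ^ (1 + F.eta) * (min 1 (skX N * (skX N ^ F.pS) ^ (-(F.sS / 2)))) ^ 4) = Z (γ, τ) * w τ := by
        rw [hw]; ring
      rw [e]
      gcongr)) hwi
  refine le_trans (le_of_eq ?_) (key.trans (ENNReal.ofReal_le_ofReal ?_))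
  · rfl
  · have e1 : skX N ^ (6 - l8ySavS F / 2) ≤ skX N ^ (5 + l8ySavS F / 2) := Real.rpow_le_rpow_of_exponent_ge hx.1 hx.2 (by linarith)
    have e2 : skX N ^ (-(l8ySavS F / 2)) * skX N ^ (5 + l8ySavS F) = skX N ^ (5 + l8ySavS F / 2) := by
      rw [← Real.rpow_add hx.1]; congr 1; ring
    calc max C 0 * skX N ^ (6 - l8ySavS F / 2) + max C 0 * skX N ^ (-(l8ySavS F / 2)) * (8 * skX N ^ (5 + l8ySavS F))
        = max C 0 * skX N ^ (6 - l8ySavS F / 2) + 8 * max C 0 * (skX N ^ (-(l8ySavS F / 2)) * skX N ^ (5 + l8ySavS F)) := by ring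
      _ ≤ max C 0 * skX N ^ (5 + l8ySavS F / 2) + 8 * max C 0 * skX N ^ (5 + l8ySavS F / 2) := by rw [e2]; gcongr
      _ = 9 * max C 0 * skX N ^ (5 + l8ySavS F / 2) := by ring

theorem l8y_p_eqns_cite : True := by
  have := @l8yStp.eq_1
  have := @l8yA.eq_1
  have := @L8yPar.eq_1
  have := @L8yClk.eq_1
  have := @l8yEta.eq_1
  have := @L8yTile.eq_1
  have := @l8ySav.eq_1
  have := @l8ySavS.eq_1
  have := @l8yPsi.eq_1
  have := @L8yDif.eq_1
  trivial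

/-! ## 6. The adapter to `L08/GlueZ.lean` (strength sweep) -/

/-- arithmetic of the adapter: the loss `x^(-3/p)` of the Hölder transfer is a subpower loss -/
theorem l8y_co_ar {x δ r C lam e : ℝ} (hx : 0 < x) (hx1 : x ≤ 1) (hr0 : 0 ≤ r) (hr : r ≤ δ / 2) (hl : 0 ≤ lam) (he : 0 ≤ e) :
    C * x ^ (-(δ / 2)) * lam * (x + x ^ (-r) * e) ≤ max C 0 * x ^ (-δ) * lam * (x + e) := by
  have h1 : (1 : ℝ) ≤ x ^ (-r) := Real.one_le_rpow_of_pos_of_le_one_of_nonpos hx hx1 (by linarith)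
  have h2 : x ^ (-(δ / 2)) * x ^ (-r) ≤ x ^ (-δ) := by
    rw [← Real.rpow_add hx]
    exact Real.rpow_le_rpow_of_exponent_ge hx hx1 (by linarith)
  have h3 : 0 < x ^ (-(δ / 2)) := Real.rpow_pos_of_pos hx _
  have h4 : x + x ^ (-r) * e ≤ x ^ (-r) * (x + e) := by nlinarith
  calc C * x ^ (-(δ / 2)) * lam * (x + x ^ (-r) * e) ≤ max C 0 * x ^ (-(δ / 2)) * lam * (x ^ (-r) * (x + e)) := by
        have : C ≤ max C 0 := le_max_left _ _
        have h5 : 0 ≤ x + x ^ (-r) * e := by positivity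
        have h6 : 0 ≤ max C 0 := le_max_right _ _
        gcongr
    _ = max C 0 * (x ^ (-(δ / 2)) * x ^ (-r)) * lam * (x + e) := by ring
    _ ≤ _ := by
        have h6 : 0 ≤ max C 0 := le_max_right _ _
        have h7 : 0 ≤ x + e := by positivity
        gcongr

/-- **ADAPTER** TEX[LL:lem:statistics-coarse-switch]: the body of `L8zCoPw` (`L08/GlueZ.lean`; `I.e1` unfolded) `⟸ l8y_pt_Lt` (78, 97) `+ ll04y_clk` (258).      (helper228) -/
theorem l8y_co_pw {𝔹 : LlBase} {T : ℝ} :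
    ∀ F0, L8Fix 𝔹 T F0 → ∀ (pB : LLParB) (pS : ℝ), 0 < pS → pS ≤ 1 → ∀ εs qs δ : ℝ, 0 < εs → 0 < qs → 0 < δ → ∃ (C : ℝ) (N0 : ℕ),
    L8Ev (F0.wExp pB.sStar pB.eta pS) 𝔹 N0 l8Dir fun I => I.s = qs * I.x ^ (1 + εs) → I.Stop (I.x ^ εs) → I.x ^ (12 : ℝ) < I.lam → I.lam < I.x ^ pS → I.i9.Dif (fun t => I.p.wLam t) (Real.log I.lam) →
      |deriv (fun t => I.i9.psi (I.p.wLam t) I.m) (Real.log I.lam)| ≤ C * I.x ^ (-δ) * I.lam * (I.x + I.x ^ 3 / (Real.sqrt I.lam1 * I.U ^ (3 / 2 : ℝ))) := by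
  intro F0 h0 pB pS hpS hpS1 εs qs δ hε hq hδ
  have hE := llc_expOk pB hpS hpS1
  have h3 := (h0.2.2 _ _ _ hE).sec3
  have hF : (F0.wExp pB.sStar pB.eta pS).Ok := h3.ok
  have hP : LlBaseProfile 𝔹 (F0.wExp pB.sStar pB.eta pS).T := by
    show LlBaseProfile 𝔹 F0.T
    rw [h0.1]; exact h0.2.1
  have hclk : L8yClk 𝔹 (F0.wExp pB.sStar pB.eta pS) := ll04y_clk 𝔹 (F0.wExp pB.sStar pB.eta pS) hE hP h3
  obtain ⟨p, hp2, hp⟩ : ∃ p : ℕ, 2 ≤ p ∧ 3 / (p : ℝ) ≤ δ / 2 := by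
    obtain ⟨n, hn⟩ := exists_nat_ge (6 / δ)
    refine ⟨max n 2, le_max_right _ _, ?_⟩
    have h1 : (6 : ℝ) / δ ≤ (max n 2 : ℕ) := hn.trans (by exact_mod_cast le_max_left _ _)
    have h2 : (0 : ℝ) < (max n 2 : ℕ) := by
      have : (2 : ℝ) ≤ (max n 2 : ℕ) := by exact_mod_cast le_max_right _ _
      linarith
    rw [div_le_iff₀ h2]
    rw [div_le_iff₀ hδ] at h1
    linarith
  obtain ⟨C, N0, H⟩ := l8y_pt_Lt hF hclk (δ / 2) (by positivity) p hp2 qs εs hq hε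
  refine ⟨max C 0, max N0 1, fun N s hN => ?_⟩
  by_cases hs : s = qs * skX N ^ (1 + εs)
  · subst hs
    filter_upwards [H N ((le_max_left _ _).trans hN)] with Fs hFs ell lam chiL chiE sm γ m hR hOk _ hstop hl1 hl2 hdif
    obtain ⟨h1, h2, h3⟩ := hR
    have h1' : sm = false := h1
    have h2' : chiL = 0 := h2
    have h3' : chiE = 1 := h3
    subst h1' h2' h3'
    have hN1 : (1 : ℝ) ≤ N := by exact_mod_cast (le_max_right _ _).trans hN
    have hx : 0 < skX N := Real.rpow_pos_of_pos (by linarith) _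
    have hx1 : skX N ≤ 1 := Real.rpow_le_one_of_one_le_of_nonpos hN1 (by norm_num)
    have hl0 : 0 < lam := lt_trans (Real.rpow_pos_of_pos hx _) hl1
    have hexp : Real.exp (Real.log lam) = lam := Real.exp_log hl0
    have hpt : l9PtL N ell γ (Real.log lam) = ll04Pt N ell lam 0 1 false γ := by
      unfold l9PtL
      rw [hexp]
    have ht : Real.log lam ∈ Ioo (12 * Real.log (skX N)) ((F0.wExp pB.sStar pB.eta pS).pS * Real.log (skX N)) := by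
      constructor
      · rw [← Real.log_rpow hx]
        exact Real.log_lt_log (Real.rpow_pos_of_pos hx _) hl1
      · have : (F0.wExp pB.sStar pB.eta pS).pS * Real.log (skX N) = Real.log (skX N ^ pS) := (Real.log_rpow hx pS).symm
        rw [this]
        exact Real.log_lt_log hl0 hl2
    have hst : qs * skX N ^ (1 + εs) * (m : ℝ) * l9Psi (F0.wExp pB.sStar pB.eta pS) 𝔹 (qs * skX N ^ (1 + εs)) Fs (l9PtL N ell γ (Real.log lam)) m
        ≤ 4 * skX N ^ εs := by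
      rw [hpt]
      exact hstop
    have key := hFs m hOk.m_lo hOk.m_hi ell ⟨hOk.pt.ell1, hOk.pt.ell2⟩ γ (Real.log lam) ht hdif hst
    rw [hpt, hexp] at key
    have hU0 : 0 < (ll04Pt N ell lam 0 1 false γ).U (F0.wExp pB.sStar pB.eta pS) :=
      lt_min one_pos (mul_pos hx (Real.rpow_pos_of_pos hl0 _))
    have hL0 : 0 < (ll04Pt N ell lam 0 1 false γ).lam1 (F0.wExp pB.sStar pB.eta pS) := Real.rpow_pos_of_pos hl0 _
    have he1 : skX N ^ (3 : ℝ) / √((ll04Pt N ell lam 0 1 false γ).lam1 (F0.wExp pB.sStar pB.eta pS) * (ll04Pt N ell lam 0 1 false γ).U (F0.wExp pB.sStar pB.eta pS) ^ 3)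
        = skX N ^ 3 / (√((ll04Pt N ell lam 0 1 false γ).lam1 (F0.wExp pB.sStar pB.eta pS)) * (ll04Pt N ell lam 0 1 false γ).U (F0.wExp pB.sStar pB.eta pS) ^ (3 / 2 : ℝ)) := by
      rw [Real.sqrt_mul hL0.le, Real.sqrt_eq_rpow (_ ^ 3), ← Real.rpow_natCast _ 3, ← Real.rpow_mul hU0.le, ← Real.rpow_natCast (skX N) 3]
      norm_num
    rw [he1] at key
    refine key.trans ?_
    exact l8y_co_ar hx hx1 (by positivity) hp hl0.le
      (div_nonneg (pow_nonneg hx.le 3) (mul_nonneg (Real.sqrt_nonneg _) (Real.rpow_nonneg hU0.le _)))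
  · exact Filter.Eventually.of_forall fun Fs ell lam chiL chiE sm γ m _ _ hs' => absurd hs' hs

end Claimed.Agent.R286
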