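import Claimed.Agent.R286.L08.DcsInst

/-!
# Row 286 (S0533), folder L08, file DcsInstB : LL LEMMA 8.8, SWITCH HALF: the leaves INST-L, INST-E of `L08/DcsInst.lean`      (owner helper10; prefix `l8sj_`)

TEX[LL:lem:statistics-coarse-switch]   (08 l.985-1000).   `l8st_main` (L08/DcsTile) at the record `L8siRec I k S Kc`:
* dictionary of the single path (`l8sj_n`, `l8sj_dvn`), masses above `zl` (`l8sj_x_lt`, `l8sj_vlo`), slope (`l8sj_slope`), links of `S` (`l8sj_S_lo`, `l8sj_S_hi`);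
* `l8sj_apply` : `l8st_main` for a general weight `w_j = H (left end of the cell of the cut j)`;
* the weights: `l8sj_Hlin_*`, `l8sj_He_*`;      * two pure real inequalities `l8sj_ar_L`, `l8sj_ar_E`;
* `l8sj_inst_L : L8siLeafL`, `l8sj_inst_E : L8siLeafE` (compiled glue).
-/

set_option autoImplicit false

namespace Claimed.Agent.R286

open Set MeasureTheory

variable {I : L8In} {k : L8siK} {S : SkpS} {Kc : SkpC}

/-! ## 1. Dictionary -/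

theorem l8sj_n (I : L8In) : (I.sp false).n = I.n := by
  show (llMat I.LP).length = I.LP.length
  simp [llMat]

/-- the last cell is small -/
theorem l8sj_dvn (R : L8siRec I k S Kc) : (I.sp false).dv (I.sp false).n ≤ I.x ^ 55 := by
  rw [l8sj_n]
  exact R.fine.dv_le I.n le_rfl

theorem l8sj_r_zl (hk : k.Ok) : skwR k.zl = k.zl := min_eq_left hk.zl1

theorem l8sj_r_ge (hk : k.Ok) {z : ℝ} (hz : k.zl ≤ z) : k.zl ≤ skwR z := le_min hz hk.zl1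

/-- the cuts above `zl` are above the jump of `h` -/
theorem l8sj_x_lt (hk : k.Ok) (R : L8siRec I k S Kc) {j : ℕ} (hz : k.zl ≤ l8pZc I (k.par I) j) : I.x < l8pVl I j := by
  obtain ⟨m1, v1⟩ := R.grid.vz j
  have h1 : k.cv * skwR (l8pZc I (k.par I) j) ≤ l8pVl I j := by
    rw [← v1]
    exact R.geo.vc.lower _ m1
  have h2 := mul_le_mul_of_nonneg_left (l8sj_r_ge hk hz) hk.cv0.le
  exact lt_of_lt_of_le R.num.xz (h2.trans h1)

/-- lower bound of the masses -/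
theorem l8sj_vlo (hk : k.Ok) (R : L8siRec I k S Kc) {j : ℕ} (hj : j < I.n) (hz : k.zl ≤ l8pZc I (k.par I) j) : k.cv * k.zl ≤ (I.sp false).v j := by
  have h1 := R.grid.vlo j hj.le (by rw [R.zlo]; linarith [hk.zl0])
  rw [R.Cv, div_div_eq_mul_div, div_one] at h1
  have h2 := mul_le_mul_of_nonneg_left (l8sj_r_ge hk hz) hk.cv0.le
  linarith

/-- (D3) on one cell, weakened by `χ_e` -/
theorem l8sj_slope (hk : k.Ok) (R : L8siRec I k S Kc) {j : ℕ} (hj : j < I.n) (hz : k.zl ≤ l8pZc I (k.par I) j) :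
    k.c3 * I.p.chiE * I.lam1 * k.zl ^ 2 * (l8pZc I (k.par I) (j + 1) - l8pZc I (k.par I) j) ≤ (I.sp false).dh j := by
  have hx1 := l8sj_x_lt hk R hz
  obtain ⟨m1, v1⟩ := R.grid.vz j
  obtain ⟨m2, v2⟩ := R.grid.vz (j + 1)
  have hzz : l8pZc I (k.par I) j ≤ l8pZc I (k.par I) (j + 1) := R.grid.zmono (Nat.le_succ j)
  have hv12 : l8pVl I j ≤ l8pVl I (j + 1) := by
    rw [← v1, ← v2]
    exact R.geo.vc.mono.monotoneOn m1 m2 hzz
  have c1 := R.clk.h j hj.le hx1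
  have c2 := R.clk.h (j + 1) hj (hx1.trans_le hv12)
  have d3 := R.geo.d3 _ m1 _ m2 hzz (by rw [v1]; exact hx1.le)
  rw [v1, v2, ← c1, ← c2] at d3
  have e : (I.sp false).dh j = I.hC (j + 1) - I.hC j := by
    rw [← l8p_hd_hlen I (Nat.le_succ j)]
    unfold L8P.hlen
    simp
  rw [e]
  refine le_trans ?_ d3
  have hr := l8sj_r_ge hk hz
  have hr2 : k.zl ^ 2 ≤ skwR (l8pZc I (k.par I) j) ^ 2 := pow_le_pow_left₀ hk.zl0.le hr 2
  have hc : 0 ≤ k.c3 * I.p.chiE * I.lam1 := by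
    have := hk.c3; have := R.num.l0; have := R.ok.pt.chiE.1
    positivity
  exact mul_le_mul_of_nonneg_right (mul_le_mul_of_nonneg_left hr2 hc) (sub_nonneg.2 hzz)

/-- `S` at the left end of a nondegenerate cell -/
theorem l8sj_S_lo (R : L8siRec I k S Kc) {j : ℕ} (hj : j < I.n) (hlt : l8pZc I (k.par I) j < l8pZc I (k.par I) (j + 1)) :
    (l8pD I (k.par I)).S (l8pZc I (k.par I) j) ≤ (I.sp false).S j := by
  have h0 := (R.grid.vz j).1.1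
  exact (R.grid.Slink j hj.le _ ⟨h0, R.grid.zmono hj.le⟩ le_rfl hlt).le

/-- the stages `0..j` have mass `≤ v_j` -/
theorem l8sj_idx_ge {a : ℝ} (ha : 0 ≤ a) {P : SkStp} (hP : SkAdm a P) {j : ℕ} (hj : j < P.length) :
    j + 1 ≤ (P.filter fun e => decide (e.m ≤ skMs a P j)).length := by
  have e1 : (P.take (j + 1)).filter (fun e => decide (e.m ≤ skMs a P j)) = P.take (j + 1) := by
    rw [List.filter_eq_self]
    intro e he
    obtain ⟨i, hi, rfl⟩ := List.mem_iff_getElem.1 he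
    have hi' : i < j + 1 := by
      rw [List.length_take] at hi
      omega
    have := l8pg_ms_mono ha hP (Nat.lt_succ_iff.1 hi')
    rw [l8pg_ms_lt a (by omega : i < P.length)] at this
    simpa [List.getElem_take] using this
  calc j + 1 = (P.take (j + 1)).length := by rw [List.length_take, min_eq_left hj]
    _ ≤ ((P.take (j + 1)).filter fun e => decide (e.m ≤ skMs a P j)).length
          + ((P.drop (j + 1)).filter fun e => decide (e.m ≤ skMs a P j)).length := by rw [e1]; exact Nat.le_add_right _ _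
    _ = ((P.take (j + 1) ++ P.drop (j + 1)).filter fun e => decide (e.m ≤ skMs a P j)).length := by
        rw [List.filter_append, List.length_append]
    _ = _ := by rw [List.take_append_drop]

/-- `S` at the right end of a cell.   ROUTE: `d.S z = I.S (l8pIdx I (V z))`, `V (zc (j+1)) = l8pVl I (j+1) = I.v j` (`grid.vz`), `j + 1 ≤ l8pIdx I (I.v j) ≤ n` (sorted masses: the stages `0..j` have mass `≤ v_j`),
`I.S` monotone (`bst_S_mono`), `R.Sl`. -/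
theorem l8sj_S_hi (R : L8siRec I k S Kc) {j : ℕ} (hj : j < I.n) :
    (I.sp false).S (j + 1) ≤ (l8pD I (k.par I)).S (l8pZc I (k.par I) (j + 1)) := by
  have ha : I.a = I.p.ell := by
    have : I.a = if I.p.sm then (4 : ℝ) else I.p.ell := rfl
    rw [this, R.sm]; simp
  have ha0 : 0 < I.a := by rw [ha]; linarith [R.ok.pt.ell1]
  have hP : SkAdm I.a I.P0 := R.fine.adm.1
  have hlen : I.P0.length = I.n := by simp [L8In.P0, L8In.n, llMat]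
  have hVls : l8pVl I (j + 1) = I.v j := by simp [l8pVl]
  have e1 : (l8pD I (k.par I)).S (l8pZc I (k.par I) (j + 1)) = I.S (l8pIdx I (I.v j)) := by
    show l8pSv I (l8pV I (k.par I) (l8pZc I (k.par I) (j + 1))) = _
    rw [(R.grid.vz (j + 1)).2, hVls]
    rfl
  rw [e1, ← R.Sl (j + 1) hj]
  exact bst_S_mono ha0 hP 0 (l8sj_idx_ge ha0.le hP (by rw [hlen]; exact hj))

/-! ## 2. `l8st_main` at the record -/

/-- TEX[LL:lem:statistics-coarse-switch] the tile bound for a general weight.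
ROUTE: `l8st_main (P := I.sp false) R.str.sp R.str.m0 (cs := 1/2) R.sus R.hyp hk.CW R.concl (zc := l8pZc I (k.par I)) R.grid.zmono (κ := c3 χ_e λ_1 zl²) (vlo := cv zl) (mu := x^50) (Wn := x^55 (M0 + M1 CW²))`;
`d.zlo = zl` (`R.zlo`), `P.n = I.n` (`l8sj_n`), `hgap = R.grid.gaplink`, `hmesh = R.mesh.zmesh`, `hmu = R.num.mu` (`skwR zl = zl`), `l8pVl I j = V (zc j)` (`R.grid.vz`), last cut: `l8sj_dvn`, `𝔥 ≤ CW r ≤ CW` (`R.concl.upper`);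
then monotonicity of the right side: `∫_{zl}^{zmax} G = V(zmax) - V(zl) ≤ ℓ ≤ 2` (`R.geo.vc.mass`, `vmax`), `tiny = x^K ≤ 1`, `zmax - zl ≤ zmax ≤ Cp` (`R.plat.len_hi`), `skwL d = 1 + K log (1/x)`, `a ≤ 4` (`R.str.a4`). -/
theorem l8sj_apply (hk : k.Ok) (R : L8siRec I k S Kc) (hchi : 0 < I.p.chiE) {J : ℕ} (hJ : k.c.Cp ≤ 2 ^ J * k.zl) (H : ℝ → ℝ) {M0 M1 : ℝ}
    (hM0 : 0 ≤ M0) (hM1 : 0 ≤ M1) (h0 : ∀ z, 0 ≤ z → z < k.zl → H (l8pV I (k.par I) z) = 0)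
    (h1 : ∀ z ∈ Icc k.zl (l8pD I (k.par I)).zmax, H (l8pV I (k.par I) z) ^ 2 ≤ M0 + M1 * l8pH I (k.par I) z ^ 2) :
    dcsW (I.sp false) (fun j => H (l8pVl I j)) ≤
      1 / (1 / 2 * I.m * (k.c3 * I.p.chiE * I.lam1 * k.zl ^ 2) * (k.cv * k.zl)) *
        ((k.CW / I.x ^ k.eps) ^ 2 * I.Z ^ 2 * (M0 * (2 + k.c.Cp) + M1 * (k.CW * (k.CW + 1)) ^ 2 *
          (k.CW ^ 2 * (J * (k.CW * (1 + k.K * Real.log (1 / I.x)) * I.U ^ 4 / k.zl)) + I.x ^ k.K * k.CW ^ 4 * k.c.Cp)))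
      + 4 * 4 * (I.x ^ 55 * (M0 + M1 * k.CW ^ 2)) := by
  have hx0 : 0 < I.x := I.x_pos R.ok
  have hx1 : I.x ≤ 1 := I.x_le_one R.ok
  have hn := l8sj_n I
  have hzlo := R.zlo
  have hκ : 0 < k.c3 * I.p.chiE * I.lam1 * k.zl ^ 2 := by
    have := hk.c3; have := R.num.l0; have := hk.zl0
    positivity
  have hvlo : 0 < k.cv * k.zl := mul_pos hk.cv0 hk.zl0
  have hCW0 : 0 < k.CW := lt_of_lt_of_le one_pos hk.CW
  have hV : ∀ j, H (l8pVl I j) = H (l8pV I (k.par I) (l8pZc I (k.par I) j)) := fun j => by rw [(R.grid.vz j).2]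
  have hzsm : k.c.zs ≤ (l8pD I (k.par I)).zmax := R.hyp.zmax
  have hzlm : k.zl ≤ (l8pD I (k.par I)).zmax := by
    have := hk.zls; have := hk.c.zs
    linarith
  -- the width is in `[0, CW]`
  have hhh : ∀ z ∈ Icc k.zl (l8pD I (k.par I)).zmax, l8pH I (k.par I) z ^ 2 ≤ k.CW ^ 2 := by
    intro z hz
    have hz' : z ∈ Icc ((l8pD I (k.par I)).zlo / 2) (l8pD I (k.par I)).zmax := ⟨by rw [hzlo]; linarith [hz.1, hk.zl0], hz.2⟩
    have u := R.concl.upper z hz'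
    have l := R.concl.lower z hz'
    have hr1 : skwR z ≤ 1 := min_le_right _ _
    have hr0 : 0 < skwR z := lt_min (lt_of_lt_of_le hk.zl0 hz.1) one_pos
    have hl0 : 0 ≤ min ((l8pD I (k.par I)).b * skwR z) ((l8pD I (k.par I)).U ^ 2 / skwR z) / k.CW :=
      div_nonneg (le_min (mul_nonneg R.hyp.b0.le hr0.le) (div_nonneg (sq_nonneg _) hr0.le)) hCW0.le
    have h2 : l8pH I (k.par I) z ≤ k.CW := u.trans (by nlinarith)
    exact pow_le_pow_left₀ (hl0.trans l) h2 2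
  have hlast : (I.sp false).dv (I.sp false).n * (fun j => H (l8pVl I j)) (I.sp false).n ^ 2 ≤ I.x ^ 55 * (M0 + M1 * k.CW ^ 2) := by
    have hzn : l8pZc I (k.par I) I.n ∈ Icc k.zl (l8pD I (k.par I)).zmax :=
      ⟨by
        have a : k.c.zs ≤ l8pZc I (k.par I) I.n := R.mesh.zsn
        have := hk.zls; have := hk.c.zs
        linarith, (R.grid.vz I.n).1.2⟩
    have a1 : H (l8pVl I I.n) ^ 2 ≤ M0 + M1 * k.CW ^ 2 := by
      rw [hV]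
      exact (h1 _ hzn).trans (by have := mul_le_mul_of_nonneg_left (hhh _ hzn) hM1; linarith)
    have a2 := l8sj_dvn R
    have a3 : 0 ≤ (I.sp false).dv (I.sp false).n := ivk_dv_nonneg R.str.sp _
    show (I.sp false).dv (I.sp false).n * H (l8pVl I (I.sp false).n) ^ 2 ≤ _
    rw [hn] at a2 a3 ⊢
    exact mul_le_mul a2 a1 (sq_nonneg _) (by positivity)
  have main := l8st_main (P := I.sp false) R.str.sp R.str.m0 (cs := 1 / 2) (by norm_num) R.sus R.hyp hk.CW R.concl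
    (zc := l8pZc I (k.par I)) (w := fun j => H (l8pVl I j)) R.grid.zmono (κ := k.c3 * I.p.chiE * I.lam1 * k.zl ^ 2) (vlo := k.cv * k.zl)
    (M0 := M0) (M1 := M1) (mu := I.x ^ 50) (Wn := I.x ^ 55 * (M0 + M1 * k.CW ^ 2)) (J := J) hκ hvlo hM0 hM1
    (fun j _ => (R.grid.vz j).1.2)
    (fun j hj => R.grid.gaplink j (hn ▸ hj))
    (fun j hj => R.mesh.zmesh j (hn ▸ hj).le)
    (by rw [hzlo, l8sj_r_zl hk]; exact R.num.mu)
    (fun j hj hz => l8sj_slope hk R (hn ▸ hj) (hzlo ▸ hz))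
    (fun j hj hz => l8sj_vlo hk R (hn ▸ hj) (hzlo ▸ hz))
    (fun j _ hz => by
      show H (l8pVl I j) = 0
      rw [hV]
      exact h0 _ (R.grid.vz j).1.1 (hzlo ▸ hz))
    (fun j _ hz => by
      show H (l8pVl I j) ^ 2 ≤ _
      rw [hV]
      exact h1 _ ⟨hzlo ▸ hz, (R.grid.vz j).1.2⟩)
    (fun j hj hlt => l8sj_S_lo R (hn ▸ hj) hlt)
    (fun j hj => l8sj_S_hi R (hn ▸ hj))
    hlast
    (by rw [hzlo]; exact R.plat.len_hi.trans hJ)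
  refine main.trans ?_
  -- monotonicity of the right side
  have eb : (l8pD I (k.par I)).b = I.x ^ k.eps := rfl
  have eZ : (l8pD I (k.par I)).Z = I.Z := rfl
  have eU : (l8pD I (k.par I)).U = I.U := rfl
  have et : (l8pD I (k.par I)).tiny = I.x ^ k.K := rfl
  have eL : skwL (l8pD I (k.par I)) = 1 + k.K * Real.log (1 / I.x) := by
    unfold skwL
    rw [et, one_div, one_div, ← inv_pow, Real.log_pow]
  have hlen0 : 0 ≤ (l8pD I (k.par I)).zmax - k.zl := sub_nonneg.2 hzlm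
  have hlen : (l8pD I (k.par I)).zmax - k.zl ≤ k.c.Cp := by
    have := R.plat.len_hi; have := hk.zl0
    linarith
  have ht0 : 0 ≤ I.x ^ k.K := by positivity
  have ht1 : I.x ^ k.K ≤ 1 := pow_le_one₀ hx0.le hx1
  have hzl' : k.zl ∈ Icc 0 (l8pD I (k.par I)).zmax := ⟨hk.zl0.le, hzlm⟩
  have hzm' : (l8pD I (k.par I)).zmax ∈ Icc 0 (l8pD I (k.par I)).zmax := ⟨hk.zl0.le.trans hzlm, le_rfl⟩
  have hell2 : I.p.ell ≤ 2 := by
    refine R.ok.pt.ell2.trans ?_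
    calc (2 : ℝ) ^ (1 / 6 : ℝ) ≤ (2 : ℝ) ^ (1 : ℝ) := Real.rpow_le_rpow_of_exponent_le (by norm_num) (by norm_num)
      _ = 2 := Real.rpow_one _
  have hG : ∫ z in k.zl..(l8pD I (k.par I)).zmax, (l8pD I (k.par I)).G z ≤ 2 := by
    have e1 : ∫ z in k.zl..(l8pD I (k.par I)).zmax, (l8pD I (k.par I)).G z
        = l8pV I (k.par I) (l8pD I (k.par I)).zmax - l8pV I (k.par I) k.zl := R.geo.vc.mass _ hzl' _ hzm'
    have e2 : l8pV I (k.par I) (l8pD I (k.par I)).zmax = I.p.ell := R.geo.vc.vmax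
    have e3 : 0 ≤ l8pV I (k.par I) k.zl := by
      have := R.geo.vc.lower _ hzl'
      rw [l8sj_r_zl hk] at this
      exact hvlo.le.trans this
    rw [e1, e2]
    linarith
  rw [hzlo, l8sj_r_zl hk, eb, eZ, eU, et, eL]
  have hA : 0 ≤ 1 / (1 / 2 * (I.m : ℝ) * (k.c3 * I.p.chiE * I.lam1 * k.zl ^ 2) * (k.cv * k.zl)) := by positivity
  have hB : 0 ≤ (k.CW / I.x ^ k.eps) ^ 2 * I.Z ^ 2 := by positivity
  have t1 : I.x ^ k.K * ((l8pD I (k.par I)).zmax - k.zl) ≤ k.c.Cp := by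
    calc I.x ^ k.K * ((l8pD I (k.par I)).zmax - k.zl) ≤ 1 * k.c.Cp := mul_le_mul ht1 hlen hlen0 zero_le_one
      _ = k.c.Cp := one_mul _
  have t2 : I.x ^ k.K * k.CW ^ 4 * ((l8pD I (k.par I)).zmax - k.zl) ≤ I.x ^ k.K * k.CW ^ 4 * k.c.Cp :=
    mul_le_mul_of_nonneg_left hlen (by positivity)
  have hW0 : 0 ≤ I.x ^ 55 * (M0 + M1 * k.CW ^ 2) := by positivity
  have ha4 : (I.sp false).a ≤ 4 := R.str.a4
  refine add_le_add (mul_le_mul_of_nonneg_left (mul_le_mul_of_nonneg_left (add_le_add ?_ ?_) hB) hA) ?_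
  · exact mul_le_mul_of_nonneg_left (by linarith) hM0
  · exact mul_le_mul_of_nonneg_left (by linarith) (by positivity)
  · exact mul_le_mul_of_nonneg_right (by linarith) hW0

/-! ## 3. The weights -/

theorem l8sj_Hlin_zero (p : LlPt) (F : LlFix) {v : ℝ} (hv : v ≤ 4 * F.vb) : p.Hlin F v = 0 := by
  unfold LlPt.Hlin
  rw [max_eq_left (by linarith [min_le_left v p.ell]), mul_zero]

/-- `|H_lin| ≤ 2 x³` -/
theorem l8sj_Hlin_sq {p : LlPt} {F : LlFix} (hp : p.Ok F) (hF : 0 ≤ F.vb) (v : ℝ) : p.Hlin F v ^ 2 ≤ 4 * p.x ^ 6 := by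
  have hell2 : p.ell ≤ 2 := by
    refine hp.ell2.trans ?_
    calc (2 : ℝ) ^ (1 / 6 : ℝ) ≤ (2 : ℝ) ^ (1 : ℝ) := Real.rpow_le_rpow_of_exponent_le (by norm_num) (by norm_num)
      _ = 2 := Real.rpow_one _
  have h0 : 0 ≤ max 0 (min v p.ell - 4 * F.vb) := le_max_left _ _
  have h1 : max 0 (min v p.ell - 4 * F.vb) ≤ 2 := max_le (by norm_num) (by linarith [min_le_right v p.ell])
  unfold LlPt.Hlin
  rw [mul_pow, ← pow_mul]
  have h2 : max 0 (min v p.ell - 4 * F.vb) ^ 2 ≤ 4 := by nlinarith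
  have h3 : 0 ≤ p.x ^ (3 * 2) := (even_two_mul 3 |>.mul_left 1 |> fun _ => Even.pow_nonneg (by decide) p.x)
  calc p.x ^ (3 * 2) * max 0 (min v p.ell - 4 * F.vb) ^ 2 ≤ p.x ^ (3 * 2) * 4 := mul_le_mul_of_nonneg_left h2 h3
    _ = 4 * p.x ^ 6 := by ring

/-- `H_e` vanishes below the ramp.   ROUTE: `skw_llc_He_act R.ctx`, `z ≤ zl ≤ ξ_*/4 ≤ ξ_* - E_b` (`R.plat.E1`, `R.geo.zs`; `d.E = E_b` by `rfl`) -/
theorem l8sj_He_zero (hk : k.Ok) (R : L8siRec I k S Kc) {z : ℝ} (h0 : 0 ≤ z) (hz : z ≤ k.zl) : I.p.He I.F I.𝔹 (l8pV I (k.par I) z) = 0 := by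
  have hzs : k.c.zs = I.𝔹.xiS I.F.T := R.geo.zs
  have hE1 : I.p.Eb I.F I.𝔹 ≤ k.c.zs / 4 := R.plat.E1
  have hE0 : 0 < I.p.Eb I.F I.𝔹 := R.ctx.E0
  have hzl := hk.zls
  have hzs0 := hk.c.zs
  have hmem : z ∈ Icc 0 (I.𝔹.xiS I.F.T) := ⟨h0, by rw [← hzs]; linarith⟩
  have h := skw_llc_He_act R.ctx hmem
  have e : I.p.He I.F I.𝔹 (l8pV I (k.par I) z)
      = max 0 ((z - (I.𝔹.xiS I.F.T - I.p.Eb I.F I.𝔹)) / I.p.Eb I.F I.𝔹) * I.p.HePl I.F I.𝔹 (I.𝔹.pTop I.F.T) := h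
  rw [e, max_eq_left, zero_mul]
  refine div_nonpos_of_nonpos_of_nonneg ?_ hE0.le
  rw [← hzs]
  linarith

/-- `|H_e^pl(w)| ≤ λ_1 hw(w)`: `|a - b| ≤ max a b` for `a, b ≥ 0`; `R.ctx.Ut`, `R.ctx.Ups`, `skw_llc_rpow` -/
theorem l8sj_HePl_le (R : L8siRec I k S Kc) {w : ℝ} (hw : w ∈ Icc (I.𝔹.pTop I.F.T) 1) :
    |I.p.HePl I.F I.𝔹 w| ≤ I.lam1 * ((l8pIn I (k.par I)).pf (l8pProf I (k.par I))).hw w := by
  have X := R.ctx
  have hu : 0 < I.p.U I.F ^ 4 := pow_pos X.U0 4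
  have hd : 0 < I.p.U I.F ^ 4 / I.p.Eb I.F I.𝔹 ^ 2 := div_pos hu (pow_pos X.E0 2)
  have a1 : 0 < 1 - w + I.p.U I.F ^ 4 := by linarith [hw.2]
  have b1 : 0 < w - I.𝔹.pTop I.F.T + I.p.U I.F ^ 4 / I.p.Eb I.F I.𝔹 ^ 2 := by linarith [hw.1]
  have hl1 : 0 ≤ I.p.lam1 I.F := Real.rpow_nonneg (skw_llc_lam_pos X.hp).le _
  have e : ((l8pIn I (k.par I)).pf (l8pProf I (k.par I))).hw w
      = max (I.p.U I.F ^ 2 / Real.sqrt (w - I.𝔹.pTop I.F.T + I.p.U I.F ^ 4 / I.p.Eb I.F I.𝔹 ^ 2))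
          (I.p.U I.F ^ 2 / Real.sqrt (1 - w + I.p.U I.F ^ 4)) := rfl
  have e2 : I.p.HePl I.F I.𝔹 w = I.p.lam1 I.F * (I.p.U I.F ^ 2 / Real.sqrt (1 - w + I.p.U I.F ^ 4)
      - I.p.U I.F ^ 2 / Real.sqrt (w - I.𝔹.pTop I.F.T + I.p.U I.F ^ 4 / I.p.Eb I.F I.𝔹 ^ 2)) := by
    unfold LlPt.HePl LlPt.dPl LlPt.dMi
    rw [X.Ut, X.Ups, skw_llc_rpow a1, skw_llc_rpow b1]
    ring
  rw [e, e2, abs_mul, abs_of_nonneg hl1]
  refine mul_le_mul_of_nonneg_left ?_ hl1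
  have p1 : 0 ≤ I.p.U I.F ^ 2 / Real.sqrt (1 - w + I.p.U I.F ^ 4) := div_nonneg (sq_nonneg _) (Real.sqrt_nonneg _)
  have p2 : 0 ≤ I.p.U I.F ^ 2 / Real.sqrt (w - I.𝔹.pTop I.F.T + I.p.U I.F ^ 4 / I.p.Eb I.F I.𝔹 ^ 2) :=
    div_nonneg (sq_nonneg _) (Real.sqrt_nonneg _)
  rw [abs_le]
  constructor
  · linarith [le_max_left (I.p.U I.F ^ 2 / Real.sqrt (w - I.𝔹.pTop I.F.T + I.p.U I.F ^ 4 / I.p.Eb I.F I.𝔹 ^ 2))
      (I.p.U I.F ^ 2 / Real.sqrt (1 - w + I.p.U I.F ^ 4))]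
  · linarith [le_max_right (I.p.U I.F ^ 2 / Real.sqrt (w - I.𝔹.pTop I.F.T + I.p.U I.F ^ 4 / I.p.Eb I.F I.𝔹 ^ 2))
      (I.p.U I.F ^ 2 / Real.sqrt (1 - w + I.p.U I.F ^ 4))]

/-- `|H_e| ≤ (Cp / (2 b)) λ_1 𝔥`.   ROUTE: plateau `z > ξ_*`: `skw_llc_He_plat`, `l8sj_HePl_le`, `𝔥 = hpl = hw ∘ wof`, `Cp / (2 b) ≥ 1`;
active `z ≤ ξ_* - E_b`: `H_e = 0`;   ramp: `|H_e| ≤ |H_e^pl(p_top)| ≤ λ_1 hpl(ξ_*) ≤ λ_1 Cp E` (`R.plat.hjoin_hi`; `wof ξ_* = p_top`), `𝔥 ≥ Hx ≥ skwE2 = 2 min(E, b) ≥ 2 b E` (`R.plat.Hx`, `E ≤ 1`, `b ≤ 1`). -/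
theorem l8sj_He_sq (hk : k.Ok) (R : L8siRec I k S Kc) {z : ℝ} (hz : z ∈ Icc k.zl (l8pD I (k.par I)).zmax) :
    I.p.He I.F I.𝔹 (l8pV I (k.par I) z) ^ 2 ≤ 0 + (k.c.Cp / (2 * I.x ^ k.eps) * I.lam1) ^ 2 * l8pH I (k.par I) z ^ 2 := by
  have X := R.ctx
  have hzs : k.c.zs = I.𝔹.xiS I.F.T := R.geo.zs
  have hE0 : 0 < I.p.Eb I.F I.𝔹 := X.E0
  have hE2 : I.p.Eb I.F I.𝔹 ≤ 1 := R.plat.E2
  have hb0 : 0 < I.x ^ k.eps := R.hyp.b0
  have hb1 : I.x ^ k.eps ≤ 1 / 8 := R.hyp.b1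
  have hCp : 1 ≤ k.c.Cp := hk.c.Cp
  have hl1 : 0 ≤ I.lam1 := R.num.l0.le
  have hz0 : 0 ≤ z := hk.zl0.le.trans hz.1
  have hc1 : 1 ≤ k.c.Cp / (2 * I.x ^ k.eps) := by
    rw [le_div_iff₀ (by positivity)]
    linarith
  -- the linear bound
  have key : |I.p.He I.F I.𝔹 (l8pV I (k.par I) z)| ≤ k.c.Cp / (2 * I.x ^ k.eps) * I.lam1 * l8pH I (k.par I) z := by
    rcases le_or_gt z k.c.zs with hzz | hzz
    · -- active part
      have hmem : z ∈ Icc 0 (I.𝔹.xiS I.F.T) := ⟨hz0, by rw [← hzs]; exact hzz⟩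
      have e : I.p.He I.F I.𝔹 (l8pV I (k.par I) z)
          = max 0 ((z - (I.𝔹.xiS I.F.T - I.p.Eb I.F I.𝔹)) / I.p.Eb I.F I.𝔹) * I.p.HePl I.F I.𝔹 (I.𝔹.pTop I.F.T) :=
        skw_llc_He_act X hmem
      have hH : l8pH I (k.par I) z = skwHact k.c (l8pD I (k.par I)) z := by
        show skwH k.c (l8pD I (k.par I)) z = _
        unfold skwH
        rw [if_pos hzz]
      have hHx : (l8pD I (k.par I)).Hx z ≤ l8pH I (k.par I) z := by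
        rw [hH]
        exact le_max_right _ _
      have hE2' : skwE2 k.c (l8pD I (k.par I)) z ≤ l8pH I (k.par I) z := by
        refine le_trans ?_ hHx
        rw [R.plat.Hx z]
        exact le_max_right _ _
      have hH0 : 0 ≤ l8pH I (k.par I) z := le_trans (le_max_left _ _) hE2'
      rcases le_or_gt z (I.𝔹.xiS I.F.T - I.p.Eb I.F I.𝔹) with hr | hr
      · rw [e, max_eq_left (div_nonpos_of_nonpos_of_nonneg (by linarith) hE0.le), zero_mul, abs_zero]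
        positivity
      · -- the ramp
        have hfac0 : 0 ≤ max 0 ((z - (I.𝔹.xiS I.F.T - I.p.Eb I.F I.𝔹)) / I.p.Eb I.F I.𝔹) := le_max_left _ _
        have hfac1 : max 0 ((z - (I.𝔹.xiS I.F.T - I.p.Eb I.F I.𝔹)) / I.p.Eb I.F I.𝔹) ≤ 1 := by
          refine max_le zero_le_one ?_
          rw [div_le_one hE0]
          linarith [hmem.2]
        have hpl : |I.p.HePl I.F I.𝔹 (I.𝔹.pTop I.F.T)| ≤ I.lam1 * (k.c.Cp * I.p.Eb I.F I.𝔹) := by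
          refine (l8sj_HePl_le R ⟨le_rfl, X.pt1.le⟩).trans (mul_le_mul_of_nonneg_left ?_ hl1)
          have h1 : (l8pD I (k.par I)).hpl k.c.zs ≤ k.c.Cp * (l8pD I (k.par I)).E := R.plat.hjoin_hi
          have h2 : (l8pD I (k.par I)).hpl k.c.zs
              = ((l8pIn I (k.par I)).pf (l8pProf I (k.par I))).hw (I.𝔹.pTop I.F.T) := by
            show ((l8pIn I (k.par I)).pf (l8pProf I (k.par I))).hw (((l8pIn I (k.par I)).pf (l8pProf I (k.par I))).wof k.c.zs) = _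
            have h3 := X.pf.wof_zof (I.𝔹.pTop I.F.T) ⟨le_rfl, X.pt1.le⟩
            have h4 : ((l8pIn I (k.par I)).pf (l8pProf I (k.par I))).zof (I.𝔹.pTop I.F.T) = I.𝔹.xiS I.F.T := X.pf.zof_ptop
            have h5 : ((l8pIn I (k.par I)).pf (l8pProf I (k.par I))).wof (I.𝔹.xiS I.F.T) = I.𝔹.pTop I.F.T := by
              rw [← h4]
              exact h3
            rw [hzs, h5]
          rw [← h2]
          exact h1
        have hE2v : 2 * (I.x ^ k.eps * I.p.Eb I.F I.𝔹) ≤ skwE2 k.c (l8pD I (k.par I)) z := by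
          have e1 : skwE2 k.c (l8pD I (k.par I)) z
              = max 0 (2 * min (I.p.Eb I.F I.𝔹) (I.x ^ k.eps) - max 0 (k.c.zs - z - I.p.Eb I.F I.𝔹)) := rfl
          rw [e1, max_eq_left (a := (0 : ℝ)) (b := k.c.zs - z - I.p.Eb I.F I.𝔹) (by rw [hzs]; linarith), sub_zero]
          refine le_trans ?_ (le_max_right _ _)
          have : I.x ^ k.eps * I.p.Eb I.F I.𝔹 ≤ min (I.p.Eb I.F I.𝔹) (I.x ^ k.eps) := by
            refine le_min ?_ ?_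
            · exact mul_le_of_le_one_left hE0.le (by linarith)
            · exact mul_le_of_le_one_right hb0.le hE2
          linarith
        rw [e, abs_mul, abs_of_nonneg hfac0]
        calc max 0 ((z - (I.𝔹.xiS I.F.T - I.p.Eb I.F I.𝔹)) / I.p.Eb I.F I.𝔹) * |I.p.HePl I.F I.𝔹 (I.𝔹.pTop I.F.T)|
            ≤ 1 * (I.lam1 * (k.c.Cp * I.p.Eb I.F I.𝔹)) := mul_le_mul hfac1 hpl (abs_nonneg _) zero_le_one
          _ = k.c.Cp / (2 * I.x ^ k.eps) * I.lam1 * (2 * (I.x ^ k.eps * I.p.Eb I.F I.𝔹)) := by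
              field_simp
          _ ≤ k.c.Cp / (2 * I.x ^ k.eps) * I.lam1 * l8pH I (k.par I) z :=
              mul_le_mul_of_nonneg_left (hE2v.trans hE2') (by positivity)
    · -- plateau
      have hmem : z ∈ Icc (I.𝔹.xiS I.F.T) ((l8pIn I (k.par I)).pf (l8pProf I (k.par I))).zmax := ⟨by rw [← hzs]; exact hzz.le, hz.2⟩
      have e : I.p.He I.F I.𝔹 (l8pV I (k.par I) z)
          = I.p.HePl I.F I.𝔹 (((l8pIn I (k.par I)).pf (l8pProf I (k.par I))).wof z) := skw_llc_He_plat X hmem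
      have hH : l8pH I (k.par I) z = ((l8pIn I (k.par I)).pf (l8pProf I (k.par I))).hw (((l8pIn I (k.par I)).pf (l8pProf I (k.par I))).wof z) := by
        show skwH k.c (l8pD I (k.par I)) z = _
        unfold skwH
        rw [if_neg (not_le.2 hzz)]
        rfl
      have hwm := X.pf.wof_mem z hmem
      have h1 := l8sj_HePl_le R (w := ((l8pIn I (k.par I)).pf (l8pProf I (k.par I))).wof z) hwm
      rw [e, hH]
      have hnn : 0 ≤ I.lam1 * ((l8pIn I (k.par I)).pf (l8pProf I (k.par I))).hw (((l8pIn I (k.par I)).pf (l8pProf I (k.par I))).wof z) :=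
        (abs_nonneg _).trans h1
      calc _ ≤ 1 * (I.lam1 * ((l8pIn I (k.par I)).pf (l8pProf I (k.par I))).hw (((l8pIn I (k.par I)).pf (l8pProf I (k.par I))).wof z)) := by
            rw [one_mul]; exact h1
        _ ≤ k.c.Cp / (2 * I.x ^ k.eps) * (I.lam1 * ((l8pIn I (k.par I)).pf (l8pProf I (k.par I))).hw (((l8pIn I (k.par I)).pf (l8pProf I (k.par I))).wof z)) :=
            mul_le_mul_of_nonneg_right hc1 hnn
        _ = _ := by ring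
  have h2 := pow_le_pow_left₀ (abs_nonneg _) key 2
  rw [sq_abs, mul_pow] at h2
  rw [zero_add]
  exact h2

/-! ## 4. Arithmetic (pure real inequalities) -/

/-- `C = 16 CW² (2 + Cp) / (c3 zl³ cv) + 64`:   `1/m ≤ 2 x⁶`, `x^(-2 eps) ≤ x^(-δ)`, `x^61 ≤ x^12 ≤ x^(-δ) Z² x^12 / λ_1` -/
theorem l8sj_ar_L (CW Cp c3 cv zl eps δ : ℝ) (hCW : 1 ≤ CW) (hCp : 1 ≤ Cp) (hc3 : 0 < c3) (hcv : 0 < cv) (hzl : 0 < zl) (he : 0 < eps) (hed : 2 * eps ≤ δ) :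
    ∃ C : ℝ, ∀ (x l1 Z m X1 X2 : ℝ), 0 < x → x ≤ 1 → 0 < l1 → l1 ≤ 1 → 1 ≤ Z → 0 < m → 1 / m ≤ 2 * x ^ 6 →
      1 / (1 / 2 * m * (c3 * 1 * l1 * zl ^ 2) * (cv * zl)) * ((CW / x ^ eps) ^ 2 * Z ^ 2 * (4 * x ^ 6 * (2 + Cp) + 0 * X1 * X2))
          + 4 * 4 * (x ^ 55 * (4 * x ^ 6 + 0 * CW ^ 2))
        ≤ C * x ^ (-δ) * Z ^ 2 * (x ^ 12 / l1) := by
  refine ⟨16 * CW ^ 2 * (2 + Cp) / (c3 * zl ^ 3 * cv) + 64, fun x l1 Z m X1 X2 hx0 hx1 hl0 hl1 hZ hm hmx => ?_⟩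
  set D := c3 * zl ^ 3 * cv with hD
  have hD0 : 0 < D := by positivity
  have hxe : 0 < x ^ eps := Real.rpow_pos_of_pos hx0 _
  have hxd : 0 < x ^ (-δ) := Real.rpow_pos_of_pos hx0 _
  -- `x^(-2 eps) ≤ x^(-δ)`
  have h1 : (1 / x ^ eps) ^ 2 ≤ x ^ (-δ) := by
    have e : (1 / x ^ eps) ^ 2 = x ^ (-(2 * eps)) := by
      rw [one_div, ← Real.rpow_neg hx0.le, ← Real.rpow_natCast, ← Real.rpow_mul hx0.le]
      congr 1
      push_cast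
      ring
    rw [e]
    exact Real.rpow_le_rpow_of_exponent_ge hx0 hx1 (by linarith)
  have hxd1 : 1 ≤ x ^ (-δ) := Real.one_le_rpow_of_pos_of_le_one_of_nonpos hx0 hx1 (by linarith)
  have hZ2 : 1 ≤ Z ^ 2 := one_le_pow₀ hZ
  -- first term
  have e1 : 1 / (1 / 2 * m * (c3 * 1 * l1 * zl ^ 2) * (cv * zl)) * ((CW / x ^ eps) ^ 2 * Z ^ 2 * (4 * x ^ 6 * (2 + Cp) + 0 * X1 * X2))
      = (8 * CW ^ 2 * (2 + Cp) / D) * (1 / m) * (1 / x ^ eps) ^ 2 * Z ^ 2 * (x ^ 6 / l1) := by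
    rw [hD]
    field_simp
    ring
  have hA : 0 ≤ 8 * CW ^ 2 * (2 + Cp) / D := by positivity
  have t1 : (8 * CW ^ 2 * (2 + Cp) / D) * (1 / m) * (1 / x ^ eps) ^ 2 * Z ^ 2 * (x ^ 6 / l1)
      ≤ (8 * CW ^ 2 * (2 + Cp) / D) * (2 * x ^ 6) * x ^ (-δ) * Z ^ 2 * (x ^ 6 / l1) := by
    have := mul_le_mul (mul_le_mul_of_nonneg_left hmx hA) h1 (by positivity) (by positivity)
    exact mul_le_mul_of_nonneg_right (mul_le_mul_of_nonneg_right this (by positivity)) (by positivity)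
  have e2 : (8 * CW ^ 2 * (2 + Cp) / D) * (2 * x ^ 6) * x ^ (-δ) * Z ^ 2 * (x ^ 6 / l1)
      = (16 * CW ^ 2 * (2 + Cp) / D) * x ^ (-δ) * Z ^ 2 * (x ^ 12 / l1) := by
    field_simp
    ring
  -- second term
  have t2 : 4 * 4 * (x ^ 55 * (4 * x ^ 6 + 0 * CW ^ 2)) ≤ 64 * x ^ (-δ) * Z ^ 2 * (x ^ 12 / l1) := by
    have a1 : x ^ 61 ≤ x ^ 12 := pow_le_pow_of_le_one hx0.le hx1 (by norm_num)
    have a2 : x ^ 12 ≤ x ^ 12 / l1 := by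
      rw [le_div_iff₀ hl0]
      exact mul_le_of_le_one_right (by positivity) hl1
    have a3 : x ^ 12 / l1 ≤ x ^ (-δ) * Z ^ 2 * (x ^ 12 / l1) := by
      have : 1 ≤ x ^ (-δ) * Z ^ 2 := one_le_mul_of_one_le_of_one_le hxd1 hZ2
      exact le_mul_of_one_le_left (by positivity) this
    calc 4 * 4 * (x ^ 55 * (4 * x ^ 6 + 0 * CW ^ 2)) = 64 * x ^ 61 := by ring
      _ ≤ 64 * (x ^ (-δ) * Z ^ 2 * (x ^ 12 / l1)) := by linarith
      _ = _ := by ring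
  rw [e1]
  calc _ ≤ (16 * CW ^ 2 * (2 + Cp) / D) * x ^ (-δ) * Z ^ 2 * (x ^ 12 / l1) + 64 * x ^ (-δ) * Z ^ 2 * (x ^ 12 / l1) := add_le_add (t1.trans e2.le) t2
    _ = _ := by ring

theorem l8sj_ar_E2 {CW Cp x l1 chi Z U y Xd R : ℝ} (hx0 : 0 < x) (hx1 : x ≤ 1) (hl0 : 0 < l1) (hl1 : l1 ≤ 1) (hc0 : 0 < chi) (hc1 : chi ≤ 1)
    (hZ : 1 ≤ Z) (hxU : x ≤ U) (hy0 : 0 < y) (hy2 : y ^ 2 ≤ Xd) (hR : R = chi⁻¹ * x ^ 6 * l1 * U ^ 4) :
    4 * 4 * (x ^ 55 * (0 + Cp ^ 2 * y ^ 2 * l1 ^ 2 / 4 * CW ^ 2)) ≤ 4 * Cp ^ 2 * CW ^ 2 * Xd * Z ^ 2 * R := by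
  have hU0 : 0 < U := hx0.trans_le hxU
  have hR0 : 0 ≤ R := by rw [hR]; positivity
  have hZ2 : 1 ≤ Z ^ 2 := one_le_pow₀ hZ
  have e1 : 4 * 4 * (x ^ 55 * (0 + Cp ^ 2 * y ^ 2 * l1 ^ 2 / 4 * CW ^ 2)) = 4 * Cp ^ 2 * CW ^ 2 * (y ^ 2 * (x ^ 55 * l1 ^ 2)) := by ring
  have e2 : 4 * Cp ^ 2 * CW ^ 2 * Xd * Z ^ 2 * R = 4 * Cp ^ 2 * CW ^ 2 * (Xd * (Z ^ 2 * R)) := by ring
  rw [e1, e2]
  refine mul_le_mul_of_nonneg_left ?_ (by positivity)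
  have a1 : x ^ 55 * l1 ^ 2 ≤ R := by
    have b1 : x ^ 55 ≤ x ^ 6 * U ^ 4 := by
      have c1 : x ^ 55 = x ^ 45 * (x ^ 6 * x ^ 4) := by ring
      have c2 : x ^ 45 ≤ 1 := pow_le_one₀ hx0.le hx1
      have c3' : x ^ 6 * x ^ 4 ≤ x ^ 6 * U ^ 4 := mul_le_mul_of_nonneg_left (pow_le_pow_left₀ hx0.le hxU 4) (by positivity)
      rw [c1]
      calc x ^ 45 * (x ^ 6 * x ^ 4) ≤ 1 * (x ^ 6 * x ^ 4) := mul_le_mul_of_nonneg_right c2 (by positivity)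
        _ ≤ x ^ 6 * U ^ 4 := by linarith
    have b2 : l1 ^ 2 ≤ l1 := by
      calc l1 ^ 2 = l1 * l1 := by ring
        _ ≤ 1 * l1 := mul_le_mul_of_nonneg_right hl1 hl0.le
        _ = l1 := one_mul _
    have b3 : 1 ≤ chi⁻¹ := (one_le_inv₀ hc0).2 hc1
    calc x ^ 55 * l1 ^ 2 ≤ x ^ 6 * U ^ 4 * l1 := mul_le_mul b1 b2 (by positivity) (by positivity)
      _ = 1 * (x ^ 6 * l1 * U ^ 4) := by ring
      _ ≤ chi⁻¹ * (x ^ 6 * l1 * U ^ 4) := mul_le_mul_of_nonneg_right b3 (by positivity)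
      _ = R := by rw [hR]; ring
  have a2 : R ≤ Z ^ 2 * R := le_mul_of_one_le_left hR0 hZ2
  exact mul_le_mul hy2 (a1.trans a2) (by positivity) (le_trans (by positivity) hy2)

/-- `log (1/x) ≤ x^(-eps) / eps`, `x^K ≤ x⁴ ≤ U⁴`, `x^(-5 eps) ≤ x^(-δ)`, `x^55 ≤ x⁶ U⁴`, `λ_1² ≤ λ_1`, `1 ≤ χ⁻¹` -/
theorem l8sj_ar_E (CW Cp c3 cv zl eps δ : ℝ) (K J : ℕ) (hCW : 1 ≤ CW) (hCp : 1 ≤ Cp) (hc3 : 0 < c3) (hcv : 0 < cv) (hzl : 0 < zl) (he : 0 < eps)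
    (hed : 5 * eps ≤ δ) (hK : 4 ≤ K) :
    ∃ C : ℝ, ∀ (x l1 chi Z U m : ℝ), 0 < x → x ≤ 1 → 0 < l1 → l1 ≤ 1 → 0 < chi → chi ≤ 1 → 1 ≤ Z → x ≤ U → U ≤ 1 → 0 < m → 1 / m ≤ 2 * x ^ 6 →
      1 / (1 / 2 * m * (c3 * chi * l1 * zl ^ 2) * (cv * zl)) * ((CW / x ^ eps) ^ 2 * Z ^ 2 * (0 * (2 + Cp) + (Cp / (2 * x ^ eps) * l1) ^ 2 * (CW * (CW + 1)) ^ 2 *
            (CW ^ 2 * (J * (CW * (1 + K * Real.log (1 / x)) * U ^ 4 / zl)) + x ^ K * CW ^ 4 * Cp)))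
          + 4 * 4 * (x ^ 55 * (0 + (Cp / (2 * x ^ eps) * l1) ^ 2 * CW ^ 2))
        ≤ C * x ^ (-δ) * Z ^ 2 * (chi⁻¹ * x ^ 6 * l1 * U ^ 4) := by
  obtain ⟨D, hD⟩ : ∃ D : ℝ, D = c3 * cv * zl ^ 3 := ⟨_, rfl⟩
  have hD0 : 0 < D := by rw [hD]; positivity
  obtain ⟨A1, hA1⟩ : ∃ A1 : ℝ, A1 = CW ^ 3 * J * (1 + K / eps) / zl + CW ^ 4 * Cp := ⟨_, rfl⟩
  have hA10 : 0 ≤ A1 := by rw [hA1]; positivity
  obtain ⟨W2, hW2⟩ : ∃ W2 : ℝ, W2 = (CW * (CW + 1)) ^ 2 := ⟨_, rfl⟩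
  have hW20 : 0 ≤ W2 := by rw [hW2]; positivity
  refine ⟨CW ^ 2 * Cp ^ 2 * W2 * A1 / D + 4 * Cp ^ 2 * CW ^ 2, fun x l1 chi Z U m hx0 hx1 hl0 hl1 hc0 hc1 hZ hxU hU1 hm hmx => ?_⟩
  rw [← hW2]
  have hU0 : 0 < U := hx0.trans_le hxU
  obtain ⟨y, hy⟩ : ∃ y : ℝ, y = 1 / x ^ eps := ⟨_, rfl⟩
  have hxe : 0 < x ^ eps := Real.rpow_pos_of_pos hx0 _
  have hxe1 : x ^ eps ≤ 1 := Real.rpow_le_one hx0.le hx1 he.le
  have hy1 : 1 ≤ y := by rw [hy, le_div_iff₀ hxe]; linarith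
  have hy0 : 0 < y := by linarith
  obtain ⟨Xd, hXd⟩ : ∃ Xd : ℝ, Xd = x ^ (-δ) := ⟨_, rfl⟩
  rw [← hXd]
  have hy5 : y ^ 5 ≤ Xd := by
    have e : y ^ 5 = x ^ (-(5 * eps)) := by
      rw [hy, one_div, ← Real.rpow_neg hx0.le, ← Real.rpow_natCast, ← Real.rpow_mul hx0.le]
      congr 1
      push_cast
      ring
    rw [e, hXd]
    exact Real.rpow_le_rpow_of_exponent_ge hx0 hx1 (by linarith)
  have hy2 : y ^ 2 ≤ Xd := le_trans (pow_le_pow_right₀ hy1 (by norm_num)) hy5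
  have hL : 1 + K * Real.log (1 / x) ≤ (1 + K / eps) * y := by
    have e2 : Real.log (1 / x) ≤ y / eps := by
      have := Real.log_le_rpow_div (x := 1 / x) (by positivity) he
      rw [one_div, Real.inv_rpow hx0.le] at this
      rw [one_div, hy, one_div]
      exact this
    have e3 : (K : ℝ) * Real.log (1 / x) ≤ K * (y / eps) := mul_le_mul_of_nonneg_left e2 (Nat.cast_nonneg _)
    have e4 : (K : ℝ) * (y / eps) = K / eps * y := by ring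
    linarith
  have hL0 : 0 ≤ 1 + K * Real.log (1 / x) := by
    have : 0 ≤ Real.log (1 / x) := Real.log_nonneg (by rw [le_div_iff₀ hx0]; linarith)
    positivity
  have hxK : x ^ K ≤ U ^ 4 := (pow_le_pow_of_le_one hx0.le hx1 hK).trans (pow_le_pow_left₀ hx0.le hxU 4)
  -- the bracket
  have hg : CW ^ 2 * (J * (CW * (1 + K * Real.log (1 / x)) * U ^ 4 / zl)) + x ^ K * CW ^ 4 * Cp ≤ U ^ 4 * y * A1 := by
    have g1 : CW ^ 2 * (J * (CW * (1 + K * Real.log (1 / x)) * U ^ 4 / zl)) ≤ CW ^ 2 * (J * (CW * ((1 + K / eps) * y) * U ^ 4 / zl)) := by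
      gcongr
    have g2 : x ^ K * CW ^ 4 * Cp ≤ U ^ 4 * y * (CW ^ 4 * Cp) := by
      have : x ^ K ≤ U ^ 4 * y := hxK.trans (le_mul_of_one_le_right (by positivity) hy1)
      calc x ^ K * CW ^ 4 * Cp = x ^ K * (CW ^ 4 * Cp) := by ring
        _ ≤ U ^ 4 * y * (CW ^ 4 * Cp) := mul_le_mul_of_nonneg_right this (by positivity)
    have g3 : CW ^ 2 * (J * (CW * ((1 + K / eps) * y) * U ^ 4 / zl)) + U ^ 4 * y * (CW ^ 4 * Cp) = U ^ 4 * y * A1 := by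
      rw [hA1]
      ring
    linarith
  have hg0 : 0 ≤ CW ^ 2 * (J * (CW * (1 + K * Real.log (1 / x)) * U ^ 4 / zl)) + x ^ K * CW ^ 4 * Cp := by positivity
  have eb : (CW / x ^ eps) ^ 2 = CW ^ 2 * y ^ 2 := by rw [hy]; ring
  have ec : (Cp / (2 * x ^ eps) * l1) ^ 2 = Cp ^ 2 * y ^ 2 * l1 ^ 2 / 4 := by
    rw [hy]
    field_simp
    ring
  rw [eb, ec]
  have ea : 1 / (1 / 2 * m * (c3 * chi * l1 * zl ^ 2) * (cv * zl)) ≤ 4 * x ^ 6 / (D * chi * l1) := by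
    have e1 : 1 / (1 / 2 * m * (c3 * chi * l1 * zl ^ 2) * (cv * zl)) = 1 / m * (2 / (D * chi * l1)) := by
      rw [hD]
      field_simp
    rw [e1]
    calc 1 / m * (2 / (D * chi * l1)) ≤ 2 * x ^ 6 * (2 / (D * chi * l1)) := mul_le_mul_of_nonneg_right hmx (by positivity)
      _ = 4 * x ^ 6 / (D * chi * l1) := by ring
  obtain ⟨R, hR⟩ : ∃ R : ℝ, R = chi⁻¹ * x ^ 6 * l1 * U ^ 4 := ⟨_, rfl⟩
  have hR0 : 0 ≤ R := by rw [hR]; positivity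
  have hZ2 : 1 ≤ Z ^ 2 := one_le_pow₀ hZ
  have hZ0 : 0 < Z := by linarith
  have t1 : 1 / (1 / 2 * m * (c3 * chi * l1 * zl ^ 2) * (cv * zl)) * (CW ^ 2 * y ^ 2 * Z ^ 2 * (0 * (2 + Cp) + Cp ^ 2 * y ^ 2 * l1 ^ 2 / 4 * W2 *
      (CW ^ 2 * (J * (CW * (1 + K * Real.log (1 / x)) * U ^ 4 / zl)) + x ^ K * CW ^ 4 * Cp))) ≤ CW ^ 2 * Cp ^ 2 * W2 * A1 / D * Xd * Z ^ 2 * R := by
    have s1 : CW ^ 2 * y ^ 2 * Z ^ 2 * (0 * (2 + Cp) + Cp ^ 2 * y ^ 2 * l1 ^ 2 / 4 * W2 *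
        (CW ^ 2 * (J * (CW * (1 + K * Real.log (1 / x)) * U ^ 4 / zl)) + x ^ K * CW ^ 4 * Cp)) ≤
        CW ^ 2 * y ^ 2 * Z ^ 2 * (0 * (2 + Cp) + Cp ^ 2 * y ^ 2 * l1 ^ 2 / 4 * W2 * (U ^ 4 * y * A1)) := by
      refine mul_le_mul_of_nonneg_left ?_ (by positivity)
      have := mul_le_mul_of_nonneg_left hg (by positivity : 0 ≤ Cp ^ 2 * y ^ 2 * l1 ^ 2 / 4 * W2)
      linarith
    have s2 := mul_le_mul ea s1 (by positivity) (by positivity)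
    refine s2.trans ?_
    have e1 : 4 * x ^ 6 / (D * chi * l1) * (CW ^ 2 * y ^ 2 * Z ^ 2 * (0 * (2 + Cp) + Cp ^ 2 * y ^ 2 * l1 ^ 2 / 4 * W2 * (U ^ 4 * y * A1))) =
        CW ^ 2 * Cp ^ 2 * W2 * A1 / D * y ^ 5 * Z ^ 2 * R := by
      rw [hR]
      field_simp
      ring
    rw [e1]
    have p1 : 0 ≤ CW ^ 2 * Cp ^ 2 * W2 * A1 / D := by positivity
    have s3 := mul_le_mul_of_nonneg_left hy5 p1
    exact mul_le_mul_of_nonneg_right (mul_le_mul_of_nonneg_right s3 (by positivity)) hR0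
  have t2 := l8sj_ar_E2 (CW := CW) (Cp := Cp) hx0 hx1 hl0 hl1 hc0 hc1 hZ hxU hy0 hy2 hR
  rw [← hR]
  calc _ ≤ CW ^ 2 * Cp ^ 2 * W2 * A1 / D * Xd * Z ^ 2 * R + 4 * Cp ^ 2 * CW ^ 2 * Xd * Z ^ 2 * R := add_le_add t1 t2
    _ = _ := by ring

/-! ## 5. Glue (proved) -/

theorem l8sj_J (hk : k.Ok) : ∃ J : ℕ, k.c.Cp ≤ 2 ^ J * k.zl := by
  obtain ⟨J, hJ⟩ := pow_unbounded_of_one_lt (k.c.Cp / k.zl) (one_lt_two : (1 : ℝ) < 2)
  exact ⟨J, by rw [div_lt_iff₀ hk.zl0] at hJ; exact hJ.le⟩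

theorem l8sj_inst_L : L8siLeafL := by
  intro k δ hk hed
  obtain ⟨J, hJ⟩ := l8sj_J hk
  obtain ⟨C, hC⟩ := l8sj_ar_L k.CW k.c.Cp k.c3 k.cv k.zl k.eps δ hk.CW hk.c.Cp hk.c3 hk.cv0 hk.zl0 hk.eps0 hed
  refine ⟨C, fun I S Kc R hchi => ?_⟩
  have hx0 : 0 < I.x := I.x_pos R.ok
  have hx1 : I.x ≤ 1 := I.x_le_one R.ok
  have hvb : 0 ≤ I.F.vb := R.ctx.fix.vb0.le
  have h := l8sj_apply hk R (by rw [hchi]; exact one_pos) hJ (I.p.Hlin I.F) (M0 := 4 * I.x ^ 6) (M1 := 0) (by positivity) le_rfl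
    (fun z hz0 hz => l8sj_Hlin_zero I.p I.F (by
      have hzm : k.zl ∈ Icc 0 (l8pD I (k.par I)).zmax := ⟨hk.zl0.le, by
        have := R.hyp.zmax
        have := hk.zls
        have := hk.c.zs
        linarith⟩
      exact (R.geo.vc.mono.monotoneOn ⟨hz0, hz.le.trans hzm.2⟩ hzm hz.le).trans R.vzl))
    (fun z _ => by
      rw [zero_mul, add_zero]
      exact l8sj_Hlin_sq R.ok.pt hvb _)
  rw [hchi] at h
  exact h.trans (hC I.x I.lam1 I.Z I.m _ _ hx0 hx1 R.num.l0 R.num.l1 R.Z1 (by exact_mod_cast R.str.m0) R.str.msz)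

theorem l8sj_inst_E : L8siLeafE := by
  intro k δ hk hed
  obtain ⟨J, hJ⟩ := l8sj_J hk
  obtain ⟨C, hC⟩ := l8sj_ar_E k.CW k.c.Cp k.c3 k.cv k.zl k.eps δ k.K J hk.CW hk.c.Cp hk.c3 hk.cv0 hk.zl0 hk.eps0 hed (by have := hk.K; omega)
  refine ⟨C, fun I S Kc R hchi => ?_⟩
  have hx0 : 0 < I.x := I.x_pos R.ok
  have hx1 : I.x ≤ 1 := I.x_le_one R.ok
  have h := l8sj_apply hk R hchi hJ (I.p.He I.F I.𝔹) (M0 := 0) (M1 := (k.c.Cp / (2 * I.x ^ k.eps) * I.lam1) ^ 2) le_rfl (sq_nonneg _)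
    (fun z hz0 hz => l8sj_He_zero hk R hz0 hz.le) (fun z hz => l8sj_He_sq hk R hz)
  exact h.trans (hC I.x I.lam1 I.p.chiE I.Z I.U I.m hx0 hx1 R.num.l0 R.num.l1 hchi R.ok.pt.chiE.2 R.Z1 R.num.xU R.num.U1
    (by exact_mod_cast R.str.m0) R.str.msz)

/-- TEX[LL:lem:statistics-coarse-switch] **EXIT**: the tile bound at the LL instance -/
theorem l8si_main (T : ℝ) (hT : 1 < T) : L8siMain llBase T :=
  l8si_main_of (l8si_w T hT) (l8si_clk T hT) (l8si_dev T hT) (l8si_mesh llBase) (l8si_sus llBase) (l8si_num llBase) l8sj_inst_L l8sj_inst_E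

end Claimed.Agent.R286
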