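import Claimed.Agent.R286.L08.Dcs
import Claimed.Agent.R286.L08.TlTil
import Claimed.Agent.R286.L08.Glue
import Claimed.Agent.R286.L09.ChDPsi
import Claimed.Agent.R286.Brg.PrLeaf
import Claimed.Agent.R286.PM.InstA
import Claimed.Agent.R286.L08.DcsInstB

/-!
# Row 286 (S0533), folder L08, file DcsSw : LL LEMMA 8.8, MULTIPLIER CHANGES, TOP HALF      (owner helper49; design of helper10; prefix `l8sw_`, `L8sw`)

TEX[LL:lem:statistics-coarse-switch]  (08-statistics.tex l.980-997).      CONSUMER: `l8z_sw_pw` (`L08/GlueZ.lean`).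

    l8sw_top :  L8gFine + L8swMain (the TILE bound of `E ∫ H² W dv`, MAIN half of helper10)  ⟹  the body of `L8zSwPw`

* T5  `l8sw_tr`      abstract: `|∑ dv_j (S^s_j - S_j) w_j| ≤ 2 √(M c_0 ∑ dv_j w_j² E W_j + G δ)` from the transfer `TlkTr` of 189 (no density), exact linear conditional averaging `S = 2 E L`, Jensen, (A1) line 3 (`Pin 1`).
* T1, T2  `l8sw_deriv`   on one chain: a field clock which is AFFINE in the parameter, `b`, `K` fixed: `ψ̇` = THE FORMULA of 151 with `β = 0`, `η_j` = difference of the cumulative clocks at the two ends.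
* T4  `l8sw_form`    the formula in the vocabulary of the single paths.
* T3  `l8sw_eta`     `η_j = H(left end of the mass cell)`.
* T6  arithmetic.
-/

set_option autoImplicit false

namespace Claimed.Agent.R286

open MeasureTheory Set Filter Topology

/-! ## T5. the abstract transfer of the linear term -/

section abstract

variable {Ω : Type} [mΩ : MeasurableSpace Ω] {m : ℕ} {Pt Pu : L8P Ω m} {k0 : ℕ}

/-- the tilted copy of the centred weighted mass average (UNTILTED cells, weights and centring constants) -/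
noncomputable def l8swA (Pt Pu : L8P Ω m) (w : ℕ → ℝ) (ω : Ω) : ℝ :=
  ∑ l ∈ Finset.range (Pu.n + 1), Pu.dv l * w l * (Pt.L l ω - ∫ ω', Pu.L l ω' ∂Pu.μ)

theorem l8sw_eqns_cite : True := by
  have := @l8swA.eq_1
  trivial

theorem l8sw_lk (Pt Pu : L8P Ω m) {w : ℕ → ℝ} (hw : ∀ j < k0, w j = 0) : TlkLk Pt Pu k0 (l8swA Pt Pu w) (ivkA Pu w) := by
  have h : TlkLk Pt Pu k0 (fun ω => ∑ l ∈ Finset.range (Pu.n + 1), Pu.dv l * w l * (Pt.L l ω - ∫ ω', Pu.L l ω' ∂Pu.μ))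
      (fun ω => ∑ l ∈ Finset.range (Pu.n + 1), Pu.dv l * w l * (Pu.L l ω - ∫ ω', Pu.L l ω' ∂Pu.μ)) := by
    refine TlkLk.sum _ fun l _ => ?_
    by_cases hl : l < k0
    · exact (TlkLk.const 0).congr (fun ω => by rw [hw l hl]; ring) (fun ω => by rw [hw l hl]; ring)
    · exact ((tlk_L Pt Pu (not_lt.1 hl)).sub_const _).const_mul _
  exact h

theorem l8sw_A_bd (hPt : Pt.Ok) (Pu : L8P Ω m) (w : ℕ → ℝ) : IvBd (l8swA Pt Pu w) :=
  IvBd.sum _ fun l _ => ((ivk_L_bd hPt l).sub (IvBd.const _)).const_mul _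

/-- exact linear conditional averaging in both ensembles -/
theorem l8sw_A_int (hPt : Pt.Ok) (hPu : Pu.Ok) (w : ℕ → ℝ) :
    2 * ∫ ω, l8swA Pt Pu w ω ∂Pt.μ = ∑ j ∈ Finset.range (Pu.n + 1), Pu.dv j * (Pt.S j - Pu.S j) * w j := by
  have := hPt.prob
  unfold l8swA
  rw [integral_finsetSum _ fun l _ => ivk_intμ hPt (((ivk_L_bd hPt l).sub (IvBd.const _)).const_mul _), Finset.mul_sum]
  refine Finset.sum_congr rfl fun l _ => ?_
  rw [integral_const_mul, integral_sub (ivk_intμ hPt (ivk_L_bd hPt l)) (integrable_const _), ← ivk_two_int_L hPt l, ← ivk_two_int_L hPu l]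
  simp
  ring

/-- sup bound of the untilted average -/
theorem l8sw_A_sup (hPu : Pu.Ok) {w : ℕ → ℝ} {W : ℝ} (hW : ∀ j, |w j| ≤ W) (ω : Ω) : ivkA Pu w ω ^ 2 ≤ (3 * Pu.a * W) ^ 2 := by
  have := hPu.prob
  have hW0 : 0 ≤ W := (abs_nonneg _).trans (hW 0)
  have hsum : ∑ l ∈ Finset.range (Pu.n + 1), Pu.dv l = Pu.a := by
    have : ∀ N : ℕ, ∑ l ∈ Finset.range (N + 1), Pu.dv l = Pu.v N := by
      intro N
      induction N with
      | zero => simp [L8P.dv]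
      | succ N ih => rw [Finset.sum_range_succ, ih]; simp [L8P.dv]
    rw [this, hPu.v_term _ le_rfl]
  have h1 : |ivkA Pu w ω| ≤ 3 * Pu.a * W := by
    unfold ivkA
    refine (Finset.abs_sum_le_sum_abs _ _).trans ?_
    have h2 : ∀ l ∈ Finset.range (Pu.n + 1), |Pu.dv l * w l * (Pu.L l ω - ∫ ω', Pu.L l ω' ∂Pu.μ)| ≤ Pu.dv l * (3 * W) := by
      intro l _
      have hd := ivk_dv_nonneg hPu l
      have e1 := Pu.l8s_L_abs_le hPu l ω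
      have e2 : |∫ ω', Pu.L l ω' ∂Pu.μ| ≤ 3 / 2 := by
        refine (abs_integral_le_integral_abs).trans ?_
        calc ∫ ω', |Pu.L l ω'| ∂Pu.μ ≤ ∫ _ω', (3 / 2 : ℝ) ∂Pu.μ :=
              integral_mono (ivk_intμ hPu (ivk_L_bd hPu l)).abs (integrable_const _) fun ω' => Pu.l8s_L_abs_le hPu l ω'
          _ = 3 / 2 := by simp
      have e3 : |Pu.L l ω - ∫ ω', Pu.L l ω' ∂Pu.μ| ≤ 3 := (abs_sub _ _).trans (by linarith)
      rw [abs_mul, abs_mul, abs_of_nonneg hd, mul_assoc]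
      refine mul_le_mul_of_nonneg_left ?_ hd
      calc |w l| * |Pu.L l ω - ∫ ω', Pu.L l ω' ∂Pu.μ| ≤ W * 3 := mul_le_mul (hW l) e3 (abs_nonneg _) hW0
        _ = 3 * W := by ring
    refine (Finset.sum_le_sum h2).trans (le_of_eq ?_)
    rw [← Finset.sum_mul, hsum]
    ring
  rw [← sq_abs]
  exact pow_le_pow_left₀ (abs_nonneg _) h1 2

/-- **T5**: the linear term on the stop, without a density -/
theorem l8sw_tr {M δ : ℝ} (htr : TlkTr Pt Pu k0 M δ) (hPt : Pt.Ok) (hPu : Pu.Ok) {c0 : ℝ} (hpin : Pu.Pin 1 c0) (hM : 0 ≤ M)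
    {w : ℕ → ℝ} (hw : ∀ j < k0, w j = 0) {W : ℝ} (hW : ∀ j, |w j| ≤ W) :
    |∑ j ∈ Finset.range (Pu.n + 1), Pu.dv j * (Pt.S j - Pu.S j) * w j| ≤ 2 * √(M * (c0 * dcsW Pu w) + (3 * Pu.a * W) ^ 2 * δ) := by
  have := hPt.prob
  rw [← l8sw_A_int hPt hPu w, abs_mul, abs_of_pos (by norm_num : (0 : ℝ) < 2)]
  refine mul_le_mul_of_nonneg_left (Real.abs_le_sqrt ?_) (by norm_num)
  have hA := l8sw_A_bd hPt Pu w
  have j1 : (∫ ω, l8swA Pt Pu w ω ∂Pt.μ) ^ 2 ≤ ∫ ω, l8swA Pt Pu w ω ^ 2 ∂Pt.μ := by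
    have h := ivk_cs hPt hA (IvBd.const 1)
    simpa using h
  have j2 := htr.one (fun ω => l8swA Pt Pu w ω ^ 2) (fun ω => ivkA Pu w ω ^ 2) _ ((l8sw_lk Pt Pu hw).pow 2) (fun _ => sq_nonneg _)
    (l8sw_A_sup hPu hW)
  have j3 := ivk_A_var hPu hpin w
  have j4 : M * ∫ ω, ivkA Pu w ω ^ 2 ∂Pu.μ ≤ M * (c0 * dcsW Pu w) := mul_le_mul_of_nonneg_left j3 hM
  linarith

end abstract

/-! ## T1, T2. the speed of `ψ` along a field clock which is affine in the parameter -/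

/-- **T1 + T2** on one chain -/
theorem l8sw_deriv {m : ℕ} (hm : 0 < m) {a : ℝ} (ha : 0 < a) {b h0 h1 : ℝ → ℝ} (K : ℝ → ℝ) (hb : GhClk1 a b) (hh0 : GhClk1 a h0) (hh1 : GhClk1 a h1)
    {ps : List GhPos} (hs : ps.Pairwise (· ≤ ·)) (hok : ∀ p ∈ ps, p.Ok a) (js : ℕ) {t0 : ℝ} (ht : t0 ∈ Ioo (0 : ℝ) 1) :
    HasDerivAt (fun t => llPsi llMv m a js (l9Stp a b (fun u => (1 - t) * h0 u + t * h1 u) K 0 0 0 ps))
      (l9dPsiDot m a js (l9Stp a b (fun u => (1 - t0) * h0 u + t0 * h1 u) K 0 0 0 ps) (fun _ => 0)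
        (fun j => skCumH (skCStp a b h1 0 0 ps) j - skCumH (skCStp a b h0 0 0 ps) j)) t0 := by
  refine l9d_llPsi_hasDerivAt hm ha (fun t => l9Stp a b (fun u => (1 - t) * h0 u + t * h1 u) K 0 0 0 ps) js ?_ ?_ (fun j _ => ?_) (fun j _ => ?_)
  · filter_upwards [Ioo_mem_nhds ht.1 ht.2] with t ht'
    rw [l9d_stp_mat]
    exact l9d_chain_adm ha.le hb (brg_seg_clk1 hh0 hh1 ⟨ht'.1.le, ht'.2.le⟩) hs hok
  · refine Eventually.of_forall fun t => ?_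
    rw [l9d_stp_m, l9d_stp_m]
  · simp only [l9d_stp_mat]
    rcases l9d_chain_cum_cases a ps j with h | ⟨p, _, h⟩
    · simp only [(h _ _).1]
      exact hasDerivAt_const _ _
    · simp only [(h _ _).1]
      exact hasDerivAt_const _ _
  · simp only [l9d_stp_mat]
    rcases l9d_chain_cum_cases a ps j with h | ⟨p, _, h⟩
    · simp only [(h _ _).2, sub_self]
      exact hasDerivAt_const _ _
    · simp only [(h _ _).2, brg_at_seg ha.le hh0 hh1]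
      have e1 : HasDerivAt (fun t : ℝ => (1 - t) * ghAt a h0 p + t * ghAt a h1 p) ((-1) * ghAt a h0 p + 1 * ghAt a h1 p) t0 :=
        (((hasDerivAt_id t0).const_sub 1).mul_const _).add ((hasDerivAt_id t0).mul_const _)
      convert e1 using 1
      ring

/-! ## T3. the speed of the cumulative field clock at a position -/

theorem l8sw_clamp_van {a x : ℝ} {c : ℝ → ℝ} (hxa : x ≤ a) (hc : ∀ v ∈ Ico 0 x, c v = 0) {v : ℝ} (hv : v < x) : ghClamp a c v = 0 := by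
  unfold ghClamp
  split_ifs with h
  · rfl
  · rw [min_eq_left (hv.le.trans hxa)]
    exact hc v ⟨not_lt.1 h, hv⟩

theorem l8sw_left_van {a x u : ℝ} {c : ℝ → ℝ} (hxa : x ≤ a) (hc : ∀ v ∈ Ico 0 x, c v = 0) (hu : u ≤ x) :
    Function.leftLim (ghClamp a c) u = 0 := by
  apply leftLim_eq_of_tendsto
  refine tendsto_const_nhds.congr' ?_
  exact eventually_nhdsWithin_of_forall fun v hv => (l8sw_clamp_van hxa hc (lt_of_lt_of_le hv hu)).symm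

theorem l8sw_right_van {a x u : ℝ} {c : ℝ → ℝ} (hxa : x ≤ a) (hc : ∀ v ∈ Ico 0 x, c v = 0) (hu : u < x) :
    Function.rightLim (ghClamp a c) u = 0 := by
  apply rightLim_eq_of_tendsto
  refine tendsto_const_nhds.congr' ?_
  filter_upwards [Ioo_mem_nhdsGT hu] with v hv
  exact (l8sw_clamp_van hxa hc hv.2).symm

/-- **T3** at one position: two clocks with the mask at `x`, continuous on `[x,a]`, whose difference `H` vanishes up to the mask -/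
theorem l8sw_at {a x : ℝ} (hx : 0 ≤ x) (hxa : x ≤ a) {h0 h1 H : ℝ → ℝ} (c0 : GhClk1 a h0) (c1 : GhClk1 a h1)
    (v0 : ∀ v ∈ Ico 0 x, h0 v = 0) (v1 : ∀ v ∈ Ico 0 x, h1 v = 0)
    (e0 : ∀ η : ℝ, 0 < η → ∃ δ : ℝ, 0 < δ ∧ ∀ v v' : ℝ, x ≤ v → v ≤ v' → v' ≤ a → v' - v ≤ δ → h0 v' - h0 v ≤ η)
    (e1 : ∀ η : ℝ, 0 < η → ∃ δ : ℝ, 0 < δ ∧ ∀ v v' : ℝ, x ≤ v → v ≤ v' → v' ≤ a → v' - v ≤ δ → h1 v' - h1 v ≤ η)
    (hH : ∀ v ∈ Icc x a, h1 v - h0 v = H v) (hH0 : ∀ v ∈ Icc 0 x, H v = 0) {q : GhPos} (hq : q.Ok a) :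
    ghAt a h1 q - ghAt a h0 q = H q.u := by
  have ha : 0 ≤ a := hx.trans hxa
  rcases lt_trichotomy q.u x with h | h | h
  · unfold ghAt
    rw [l8sw_left_van hxa v0 h.le, l8sw_left_van hxa v1 h.le, l8sw_right_van hxa v0 h, l8sw_right_van hxa v1 h, hH0 _ ⟨hq.1, h.le⟩]
    ring
  · unfold ghAt
    rw [l8sw_left_van hxa v0 h.le, l8sw_left_van hxa v1 h.le, l8p_clk_right ha c0 hx e0 h.ge hq.2.1, l8p_clk_right ha c1 hx e1 h.ge hq.2.1]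
    have e := hH q.u ⟨h.ge, hq.2.1⟩
    have e' := hH0 q.u ⟨hq.1, h.le⟩
    rw [e'] at e ⊢
    have : h1 q.u = h0 q.u := by linarith
    rw [this]
    ring
  · rw [l8p_clk_at ha c0 hx e0 h hq.2.1, l8p_clk_at ha c1 hx e1 h hq.2.1]
    exact hH _ ⟨h.le, hq.2.1⟩

/-! ## the instance -/

/-- what the TOP half reads of LL Section 3 at the points of one dyad -/
structure L8swClk (𝔹 : LlBase) (F : LlFix) (N : ℕ) (Ch : ℝ) : Prop where
  b : ∀ p : LlPt, p.Ok F → p.N = N → GhClk1 p.a (p.b F 𝔹)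
  h : ∀ p : LlPt, p.Ok F → p.N = N → GhClk1 p.a (p.h F 𝔹)
  K : ∀ p : LlPt, p.Ok F → p.N = N → MonotoneOn (p.K F 𝔹) (Icc 0 p.a)
  equi : ∀ p : LlPt, p.Ok F → p.N = N → ∀ η : ℝ, 0 < η → ∃ δ : ℝ, 0 < δ ∧ ∀ v v' : ℝ, p.x ≤ v → v ≤ v' → v' ≤ p.a → v' - v ≤ δ →
    p.h F 𝔹 v' - p.h F 𝔹 v ≤ η
  top : ∀ p : LlPt, p.Ok F → p.N = N → p.sm = false → p.h F 𝔹 p.a ≤ Ch
  seed : ∀ p : LlPt, p.Ok F → p.N = N → p.d F 𝔹 p.x = p.Hlo F p.x
  xp : ((N : ℝ) ^ (-(1 / 6) : ℝ)) < 𝔹.pTop F.T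

/-- an affine multiplier family through the point of `I`; `H` = its speed -/
structure L8swFam (I : L8In) (pf : ℝ → LlPt) (H : ℝ → ℝ) : Prop where
  a : ∀ c, (pf c).a = I.a
  N : ∀ c, (pf c).N = I.p.N
  sm : ∀ c, (pf c).sm = false
  b : ∀ c, (pf c).b I.F I.𝔹 = I.p.b I.F I.𝔹
  K : ∀ c, (pf c).K I.F I.𝔹 = I.p.K I.F I.𝔹
  h : ∀ c u, (pf c).h I.F I.𝔹 u = (1 - c) * (pf 0).h I.F I.𝔹 u + c * (pf 1).h I.F I.𝔹 u
  ok : ∀ c ∈ Icc (0 : ℝ) 1, (pf c).Ok I.F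
  spd : ∀ u, I.x ≤ u → (pf 1).h I.F I.𝔹 u - (pf 0).h I.F I.𝔹 u = H u
  van : ∀ u ∈ Icc 0 I.x, H u = 0

theorem l8sw_a_pos {I : L8In} (hOk : I.Ok) : 0 < I.a := tlk_h_a_pos hOk

theorem l8sw_x_pos {I : L8In} (hOk : I.Ok) : 0 < I.x :=
  Real.rpow_pos_of_pos (by exact_mod_cast (by have := hOk.pt.N2; omega : 0 < I.p.N)) _

theorem l8sw_x_le_one {I : L8In} (hOk : I.Ok) : I.x ≤ 1 :=
  Real.rpow_le_one_of_one_le_of_nonpos (by exact_mod_cast (by have := hOk.pt.N2; omega : 1 ≤ I.p.N)) (by norm_num)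

theorem l8sw_x_le_a {I : L8In} (hOk : I.Ok) (hsm : I.p.sm = false) : I.x ≤ I.a := by
  have : I.a = I.p.ell := by show I.p.a = _; unfold LlPt.a; rw [hsm]; rfl
  rw [this]
  exact (l8sw_x_le_one hOk).trans hOk.pt.ell1

/-- the left end of the mass cell of the cut `j + 1` is the mass of the position number `j` -/
theorem l8sw_vl (I : L8In) {j : ℕ} (hj : j < (ghPs I.a (l9Fl I.Fs)).length) : l8pVl I (j + 1) = ((ghPs I.a (l9Fl I.Fs))[j]).u := by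
  have eLP : I.LP = l9Stp I.a (I.p.b I.F I.𝔹) (I.p.h I.F I.𝔹) (I.p.K I.F I.𝔹) 0 0 0 (ghPs I.a (l9Fl I.Fs)) := rfl
  have e1 : I.P0.map SkInc.m = (ghPs I.a (l9Fl I.Fs)).map GhPos.u := by
    rw [← l9d_stp_m I.a (I.p.b I.F I.𝔹) (I.p.h I.F I.𝔹) (I.p.K I.F I.𝔹) (ghPs I.a (l9Fl I.Fs)) 0 0 0, ← eLP]
    show (llMat I.LP).map SkInc.m = _
    simp [llMat]
  show (if j + 1 = 0 then 0 else I.v (j + 1 - 1)) = _
  rw [if_neg (Nat.succ_ne_zero j), Nat.add_sub_cancel]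
  show (I.P0.map SkInc.m).getD j I.a = _
  rw [e1, List.getD_eq_getElem _ _ (by simpa using hj)]
  simp

theorem l8sw_n (I : L8In) : I.n = (ghPs I.a (l9Fl I.Fs)).length := by
  show I.LP.length = _
  exact l9d_stp_length _ _ _ _ _ _ _ _

/-- the mask of the field clock -/
theorem l8sw_h_van (p : LlPt) (F : LlFix) (𝔹 : LlBase) : ∀ v ∈ Ico 0 p.x, p.h F 𝔹 v = 0 := fun v hv => by
  unfold LlPt.h
  rw [if_pos hv.2]

/-- **T3**: the speeds of the cumulative field clocks are the values of `H` at the left ends of the mass cells -/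
theorem l8sw_eta {I : L8In} (hOk : I.Ok) (hsm : I.p.sm = false) {Ch : ℝ} (hclk : L8swClk I.𝔹 I.F I.p.N Ch) {pf : ℝ → LlPt} {H : ℝ → ℝ}
    (hfam : L8swFam I pf H) {j : ℕ} (hj : j ≤ I.n) :
    skCumH (skCStp I.a (I.p.b I.F I.𝔹) ((pf 1).h I.F I.𝔹) 0 0 (ghPs I.a (l9Fl I.Fs))) j
      - skCumH (skCStp I.a (I.p.b I.F I.𝔹) ((pf 0).h I.F I.𝔹) 0 0 (ghPs I.a (l9Fl I.Fs))) j = H (l8pVl I j) := by
  have hx0 := l8sw_x_pos hOk
  rcases j with _ | j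
  · rw [(l9d_cum_zero _).2, (l9d_cum_zero _).2, sub_self]
    have : l8pVl I 0 = 0 := if_pos rfl
    rw [this, hfam.van 0 ⟨le_rfl, hx0.le⟩]
  · have hj' : j < (ghPs I.a (l9Fl I.Fs)).length := by rw [← l8sw_n]; exact hj
    rw [(l9d_chain_cum _ _ _ _ 0 0 j hj').2, (l9d_chain_cum _ _ _ _ 0 0 j hj').2, l8sw_vl I hj', sub_zero, sub_zero]
    have o0 := hfam.ok 0 ⟨le_rfl, zero_le_one⟩
    have o1 := hfam.ok 1 ⟨zero_le_one, le_rfl⟩
    have x0 : (pf 0).x = I.x := by show ((pf 0).N : ℝ) ^ _ = (I.p.N : ℝ) ^ _; rw [hfam.N]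
    have x1 : (pf 1).x = I.x := by show ((pf 1).N : ℝ) ^ _ = (I.p.N : ℝ) ^ _; rw [hfam.N]
    have c0 := hclk.h _ o0 (hfam.N 0)
    have c1 := hclk.h _ o1 (hfam.N 1)
    have e0 := hclk.equi _ o0 (hfam.N 0)
    have e1 := hclk.equi _ o1 (hfam.N 1)
    have v0 := l8sw_h_van (pf 0) I.F I.𝔹
    have v1 := l8sw_h_van (pf 1) I.F I.𝔹
    rw [hfam.a, x0] at e0
    rw [hfam.a, x1] at e1
    rw [hfam.a] at c0 c1
    rw [x0] at v0
    rw [x1] at v1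
    exact l8sw_at hx0.le (l8sw_x_le_a hOk hsm) c0 c1 v0 v1 e0 e1 (fun v hv => hfam.spd v hv.1) hfam.van
      (gh_os_ps_mem.1 (List.getElem_mem hj')).2

/-- sup bound of the speed -/
theorem l8sw_H_le {I : L8In} (hOk : I.Ok) {Ch : ℝ} (hclk : L8swClk I.𝔹 I.F I.p.N Ch) {pf : ℝ → LlPt} {H : ℝ → ℝ}
    (hfam : L8swFam I pf H) {u : ℝ} (hu : u ∈ Icc 0 I.a) : |H u| ≤ Ch := by
  have ha := l8sw_a_pos hOk
  have o0 := hfam.ok 0 ⟨le_rfl, zero_le_one⟩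
  have o1 := hfam.ok 1 ⟨zero_le_one, le_rfl⟩
  have c0 := hclk.h _ o0 (hfam.N 0)
  have c1 := hclk.h _ o1 (hfam.N 1)
  have t0 := hclk.top _ o0 (hfam.N 0) (hfam.sm 0)
  have t1 := hclk.top _ o1 (hfam.N 1) (hfam.sm 1)
  rw [hfam.a] at c0 c1 t0 t1
  have hz : (0 : ℝ) ∈ Icc 0 I.a := ⟨le_rfl, ha.le⟩
  have hA : I.a ∈ Icc 0 I.a := ⟨ha.le, le_rfl⟩
  have hC0 : 0 ≤ Ch := (c0.2.trans (c0.1 hz hA ha.le)).trans t0
  rcases le_or_gt u I.x with h | h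
  · rw [hfam.van u ⟨hu.1, h⟩, abs_zero]
    exact hC0
  · rw [← hfam.spd u h.le, abs_le]
    have a0 := c0.2.trans (c0.1 hz hu hu.1)
    have a1 := c1.2.trans (c1.1 hz hu hu.1)
    have b0 := (c0.1 hu hA hu.2).trans t0
    have b1 := (c1.1 hu hA hu.2).trans t1
    constructor <;> linarith

/-- **T1-T4 at one instance**: the speed of `ψ` along the family, in the vocabulary of the single paths -/
theorem l8sw_form {I : L8In} (hOk : I.Ok) (hsm : I.p.sm = false) (hadm : LlStpAdm I.a I.LP) {Ch : ℝ} (hclk : L8swClk I.𝔹 I.F I.p.N Ch)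
    {pf : ℝ → LlPt} {H : ℝ → ℝ} (hfam : L8swFam I pf H) {t0 : ℝ} (ht0 : t0 ∈ Ioo (0 : ℝ) 1) (hp : pf t0 = I.p) :
    deriv (fun c => I.i9.psi (pf c) I.m) t0
      = -(1 / 2) * ∑ j ∈ Finset.range ((I.sp false).n + 1), (I.sp false).dv j * ((I.sp true).S j - (I.sp false).S j) * H (l8pVl I j) := by
  have ha := l8sw_a_pos hOk
  have hm : 0 < I.m := by have := hOk.pt.N2; have := hOk.m_lo; omega
  have o0 := hfam.ok 0 ⟨le_rfl, zero_le_one⟩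
  have o1 := hfam.ok 1 ⟨zero_le_one, le_rfl⟩
  have c0 := hclk.h _ o0 (hfam.N 0)
  have c1 := hclk.h _ o1 (hfam.N 1)
  have cb := hclk.b _ hOk.pt rfl
  rw [hfam.a] at c0 c1
  have e : (fun c => I.i9.psi (pf c) I.m) = fun c => llPsi llMv I.m I.a I.js
      (l9Stp I.a (I.p.b I.F I.𝔹) (fun u => (1 - c) * (pf 0).h I.F I.𝔹 u + c * (pf 1).h I.F I.𝔹 u) (I.p.K I.F I.𝔹) 0 0 0 (ghPs I.a (l9Fl I.Fs))) := by
    funext c
    rw [l9d_I_psi]
    have e1 : I.i9.js (pf c) = I.js := by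
      show l9Js I.s (ghPs (pf c).a (l9Fl I.Fs)) = l9Js I.s (ghPs I.p.a (l9Fl I.Fs))
      rw [hfam.a]; rfl
    have e2 : I.i9.P (pf c) = l9Stp I.a (I.p.b I.F I.𝔹) (fun u => (1 - c) * (pf 0).h I.F I.𝔹 u + c * (pf 1).h I.F I.𝔹 u) (I.p.K I.F I.𝔹) 0 0 0
        (ghPs I.a (l9Fl I.Fs)) := by
      show l9Stp (pf c).a ((pf c).b I.F I.𝔹) ((pf c).h I.F I.𝔹) ((pf c).K I.F I.𝔹) 0 0 0 (ghPs (pf c).a (l9Fl I.Fs)) = _
      rw [hfam.a, hfam.b, hfam.K, funext (hfam.h c)]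
    rw [e1, e2, hfam.a]
  have eLP : l9Stp I.a (I.p.b I.F I.𝔹) (fun u => (1 - t0) * (pf 0).h I.F I.𝔹 u + t0 * (pf 1).h I.F I.𝔹 u) (I.p.K I.F I.𝔹) 0 0 0 (ghPs I.a (l9Fl I.Fs))
      = I.LP := by
    rw [← funext (hfam.h t0), hp]
    rfl
  have hd := l8sw_deriv hm ha (I.p.K I.F I.𝔹) cb c0 c1 (gh_os_ps_pairwise I.a (l9Fl I.Fs)) (fun q hq => (gh_os_ps_mem.1 hq).2) I.js ht0
  rw [e, hd.deriv, eLP, l9d_psiDot_eq]
  simp only [mul_zero, Finset.sum_const_zero, zero_sub, neg_mul]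
  have hn : (I.sp false).n = I.LP.length := l9d_mat_length I.LP
  rw [hn]
  congr 2
  refine Finset.sum_congr rfl fun j hj => ?_
  have hj' : j ≤ I.n := Nat.lt_succ_iff.1 (Finset.mem_range.1 hj)
  rw [l8sw_eta hOk hsm hclk hfam hj']
  have s0 : (I.sp false).S j = obS I.m I.a (llMat I.LP) 0 j :=
    l8i_S I.m I.a ha (llMat I.LP) hadm.1 j (by rw [l9d_mat_length]; exact hj')
  have s1 : (I.sp true).S j = obS I.m I.a (llMvAt I.js I.LP) 0 j :=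
    l8i_S I.m I.a ha (llMvAt I.js I.LP) (l9d_mv_adm hadm.1 I.js) j (by rw [l9d_mv_length]; exact hj')
  rw [s0, s1]
  rfl

/-- **T1-T5 at one instance** -/
theorem l8sw_inst {I : L8In} (hOk : I.Ok) (hsm : I.p.sm = false) (hf : I.Fine 1) {Ch : ℝ} (hclk : L8swClk I.𝔹 I.F I.p.N Ch)
    {pf : ℝ → LlPt} {H : ℝ → ℝ} (hfam : L8swFam I pf H) {t0 : ℝ} (ht0 : t0 ∈ Ioo (0 : ℝ) 1) (hp : pf t0 = I.p)
    {M δ : ℝ} (htr : TlkTr (I.sp true) (I.sp false) (I.js + 1) M δ) (hM : 0 ≤ M) :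
    |deriv (fun c => I.i9.psi (pf c) I.m) t0|
      ≤ √(M * (7 / 3 * dcsW (I.sp false) fun k => H (l8pVl I k)) + (3 * I.a * Ch) ^ 2 * δ) := by
  have ha := l8sw_a_pos hOk
  have hm : 1 ≤ I.m := by have := hOk.pt.N2; have := hOk.m_lo; omega
  have hPu : (I.sp false).Ok := tlk_h_sp_ok hOk hf
  have hPt : (I.sp true).Ok := l8i_ok I.m hm I.a ha _ (l9d_mv_adm hf.adm.1 I.js)
  have hpin : (I.sp false).Pin 1 (7 / 3) := by
    have := l8i_pin I.m hm I.a ha (llMat I.LP) hf.adm.1 1 le_rfl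
    norm_num at this
    exact this
  have hvl : ∀ k, l8pVl I k ∈ Icc 0 I.a := fun k => by
    unfold l8pVl
    split_ifs
    · exact ⟨le_rfl, ha.le⟩
    · exact l8pg_ms_mem ha.le hf.adm.1 _
  have hw : ∀ j < I.js + 1, H (l8pVl I j) = 0 := fun j hj => by
    refine hfam.van _ ⟨(hvl j).1, ?_⟩
    unfold l8pVl
    split_ifs
    · exact (l8sw_x_pos hOk).le
    · have h1 : I.v (j - 1) ≤ I.v I.js := l8pg_ms_mono ha.le hf.adm.1 (by omega)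
      rw [hf.js_m] at h1
      exact h1.trans hOk.s_lt.le
  have key := l8sw_tr htr hPt hPu hpin hM hw (W := Ch) fun j => l8sw_H_le hOk hclk hfam (hvl j)
  rw [l8sw_form hOk hsm hf.adm hclk hfam ht0 hp, abs_mul, abs_neg, abs_of_pos (by norm_num : (0 : ℝ) < 1 / 2)]
  have : (I.sp false).a = I.a := rfl
  rw [this] at key
  linarith

/-! ## the two families -/

theorem l8sw_h_L (p : LlPt) (F : LlFix) (𝔹 : LlBase) (c u : ℝ) :
    LlPt.h { p with chiL := c } F 𝔹 u = if u < p.x then 0 else p.hS F 𝔹 u + p.Hlo F u + c * p.Hlin F u + p.chiE * p.He F 𝔹 u := rfl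

theorem l8sw_h_E (p : LlPt) (F : LlFix) (𝔹 : LlBase) (c u : ℝ) :
    LlPt.h { p with chiE := c } F 𝔹 u = if u < p.x then 0 else p.hS F 𝔹 u + p.Hlo F u + p.chiL * p.Hlin F u + c * p.He F 𝔹 u := rfl

/-- `H_lin` vanishes up to the mask -/
theorem l8sw_Hlin_van {I : L8In} (hOk : I.Ok) (hsm : I.p.sm = false) {Ch : ℝ} (hclk : L8swClk I.𝔹 I.F I.p.N Ch) :
    ∀ u ∈ Icc 0 I.x, I.p.Hlin I.F u = 0 := by
  intro u hu
  have hx0 := l8sw_x_pos hOk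
  have ok' : LlPt.Ok { I.p with chiL := 1, chiE := 0 } I.F :=
    ⟨hOk.pt.N2, hOk.pt.ell1, hOk.pt.ell2, hOk.pt.lam_lo, hOk.pt.lam_hi, hOk.pt.g0, hOk.pt.gu, ⟨zero_le_one, le_rfl⟩, ⟨le_rfl, zero_le_one⟩,
      fun h => absurd (hsm.symm.trans h) (by simp)⟩
  have hs : LlPt.d { I.p with chiL := 1, chiE := 0 } I.F I.𝔹 I.p.x = I.p.Hlo I.F I.p.x := hclk.seed _ ok' rfl
  have e : LlPt.d { I.p with chiL := 1, chiE := 0 } I.F I.𝔹 I.p.x
      = I.p.Hlo I.F I.p.x + 1 * I.p.Hlin I.F I.p.x + 0 * I.p.He I.F I.𝔹 I.p.x := by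
    show (if I.p.x < I.p.x then 0 else I.p.hS I.F I.𝔹 I.p.x + I.p.Hlo I.F I.p.x + 1 * I.p.Hlin I.F I.p.x + 0 * I.p.He I.F I.𝔹 I.p.x)
      - I.p.hS I.F I.𝔹 I.p.x = _
    rw [if_neg (lt_irrefl _)]
    ring
  have h0 : I.p.Hlin I.F I.p.x = 0 := by linarith
  unfold LlPt.Hlin at h0 ⊢
  have h1 : max 0 (min I.p.x I.p.ell - 4 * I.F.vb) = 0 := by
    rcases mul_eq_zero.1 h0 with h | h
    · exact absurd h (pow_ne_zero 3 hx0.ne')
    · exact h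
  have h2 : min u I.p.ell - 4 * I.F.vb ≤ 0 := by
    have a1 := le_max_right 0 (min I.p.x I.p.ell - 4 * I.F.vb)
    rw [h1] at a1
    have a2 : min u I.p.ell ≤ min I.p.x I.p.ell := min_le_min_right I.p.ell hu.2
    linarith
  rw [max_eq_left h2, mul_zero]

/-- `H_e` vanishes up to the mask -/
theorem l8sw_He_van {I : L8In} (hOk : I.Ok) (hsm : I.p.sm = false) {Ch : ℝ} (hclk : L8swClk I.𝔹 I.F I.p.N Ch) :
    ∀ u ∈ Icc 0 I.x, I.p.He I.F I.𝔹 u = 0 := by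
  intro u hu
  have hx0 := l8sw_x_pos hOk
  have hl0 : 0 < I.p.ell := lt_of_lt_of_le one_pos hOk.pt.ell1
  have ok' : LlPt.Ok { I.p with chiL := 0, chiE := 1 } I.F :=
    ⟨hOk.pt.N2, hOk.pt.ell1, hOk.pt.ell2, hOk.pt.lam_lo, hOk.pt.lam_hi, hOk.pt.g0, hOk.pt.gu, ⟨le_rfl, zero_le_one⟩, ⟨zero_le_one, le_rfl⟩,
      fun h => absurd (hsm.symm.trans h) (by simp)⟩
  have hs : LlPt.d { I.p with chiL := 0, chiE := 1 } I.F I.𝔹 I.p.x = I.p.Hlo I.F I.p.x := hclk.seed _ ok' rfl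
  have e : LlPt.d { I.p with chiL := 0, chiE := 1 } I.F I.𝔹 I.p.x
      = I.p.Hlo I.F I.p.x + 0 * I.p.Hlin I.F I.p.x + 1 * I.p.He I.F I.𝔹 I.p.x := by
    show (if I.p.x < I.p.x then 0 else I.p.hS I.F I.𝔹 I.p.x + I.p.Hlo I.F I.p.x + 0 * I.p.Hlin I.F I.p.x + 1 * I.p.He I.F I.𝔹 I.p.x)
      - I.p.hS I.F I.𝔹 I.p.x = _
    rw [if_neg (lt_irrefl _)]
    ring
  have h0 : I.p.He I.F I.𝔹 I.p.x = 0 := by linarith
  have hxp : I.p.x / I.p.ell < I.𝔹.pTop I.F.T := lt_of_le_of_lt (div_le_self hx0.le hOk.pt.ell1) hclk.xp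
  have hup : u / I.p.ell < I.𝔹.pTop I.F.T := lt_of_le_of_lt (div_le_div_of_nonneg_right hu.2 hl0.le) hxp
  unfold LlPt.He at h0 ⊢
  rw [if_neg (not_le.2 hxp)] at h0
  rw [if_neg (not_le.2 hup)]
  rcases mul_eq_zero.1 h0 with h | h
  · have hEb : 0 ≤ I.p.Eb I.F I.𝔹 := Real.sInf_nonneg fun E hE => hE.1.le
    have hxa := l8sw_x_le_a hOk hsm
    have hK := hclk.K I.p hOk.pt rfl (a := u) (b := I.p.x) ⟨hu.1, hu.2.trans hxa⟩ ⟨hx0.le, hxa⟩ hu.2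
    unfold LlPt.K at hK
    have hxi : I.p.xi I.F I.𝔹 u ≤ I.p.xi I.F I.𝔹 I.p.x := le_of_mul_le_mul_left hK (by positivity)
    have a1 : (I.p.xi I.F I.𝔹 u - (I.𝔹.xiS I.F.T - I.p.Eb I.F I.𝔹)) / I.p.Eb I.F I.𝔹
        ≤ (I.p.xi I.F I.𝔹 I.p.x - (I.𝔹.xiS I.F.T - I.p.Eb I.F I.𝔹)) / I.p.Eb I.F I.𝔹 :=
      div_le_div_of_nonneg_right (sub_le_sub_right hxi _) hEb
    have a2 := le_max_right 0 ((I.p.xi I.F I.𝔹 I.p.x - (I.𝔹.xiS I.F.T - I.p.Eb I.F I.𝔹)) / I.p.Eb I.F I.𝔹)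
    rw [h] at a2
    rw [max_eq_left (a1.trans a2), zero_mul]
  · rw [h, mul_zero]

theorem l8sw_famL {I : L8In} (hOk : I.Ok) (hsm : I.p.sm = false) {Ch : ℝ} (hclk : L8swClk I.𝔹 I.F I.p.N Ch) :
    L8swFam I (fun c => { I.p with chiL := c }) (I.p.Hlin I.F) where
  a := fun _ => rfl
  N := fun _ => rfl
  sm := fun _ => hsm
  b := fun _ => rfl
  K := fun _ => rfl
  h := fun c u => by
    simp only [l8sw_h_L]
    split_ifs
    · ring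
    · ring
  ok := fun c hc => ⟨hOk.pt.N2, hOk.pt.ell1, hOk.pt.ell2, hOk.pt.lam_lo, hOk.pt.lam_hi, hOk.pt.g0, hOk.pt.gu, hc, hOk.pt.chiE, hOk.pt.sm_fin⟩
  spd := fun u hu => by
    have hu' : ¬ u < I.p.x := not_lt.2 hu
    simp only [l8sw_h_L]
    rw [if_neg hu', if_neg hu']
    ring
  van := l8sw_Hlin_van hOk hsm hclk

theorem l8sw_famE {I : L8In} (hOk : I.Ok) (hsm : I.p.sm = false) {Ch : ℝ} (hclk : L8swClk I.𝔹 I.F I.p.N Ch) :
    L8swFam I (fun c => { I.p with chiE := c }) (I.p.He I.F I.𝔹) where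
  a := fun _ => rfl
  N := fun _ => rfl
  sm := fun _ => hsm
  b := fun _ => rfl
  K := fun _ => rfl
  h := fun c u => by
    simp only [l8sw_h_E]
    split_ifs
    · ring
    · ring
  ok := fun c hc => ⟨hOk.pt.N2, hOk.pt.ell1, hOk.pt.ell2, hOk.pt.lam_lo, hOk.pt.lam_hi, hOk.pt.g0, hOk.pt.gu, hOk.pt.chiL, hc,
    fun h => absurd (hsm.symm.trans h) (by simp)⟩
  spd := fun u hu => by
    have hu' : ¬ u < I.p.x := not_lt.2 hu
    simp only [l8sw_h_E]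
    rw [if_neg hu', if_neg hu']
    ring
  van := l8sw_He_van hOk hsm hclk

/-! ## the supply of LL Section 3 -/

theorem l8sw_x_small (ε : ℝ) (hε : 0 < ε) : ∃ N0 : ℕ, ∀ N : ℕ, N0 ≤ N → ((N : ℝ) ^ (-(1 / 6) : ℝ)) < ε := by
  have h1 : Tendsto (fun N : ℕ => (N : ℝ) ^ (-(1 / 6) : ℝ)) atTop (𝓝 0) :=
    (tendsto_rpow_neg_atTop (by norm_num : (0 : ℝ) < 1 / 6)).comp tendsto_natCast_atTop_atTop
  exact eventually_atTop.1 (h1.eventually (gt_mem_nhds hε))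

theorem l8sw_clk_of {𝔹 : LlBase} {F : LlFix} (h3 : LlSec3 𝔹 F) : ∃ (Ch : ℝ) (N0 : ℕ), ∀ N, N0 ≤ N → L8swClk 𝔹 F N Ch := by
  obtain ⟨ca, Ca, hca, Na, hadm⟩ := h3.adm
  obtain ⟨Ne, hequi⟩ := h3.equi
  obtain ⟨v1, hv1, Ns, hseed⟩ := h3.seed
  obtain ⟨κ, hκ, hp9⟩ := h3.p9
  obtain ⟨C9, N9, h9⟩ := hp9 1 one_pos
  obtain ⟨Nd, hend⟩ := h3.admEnd
  obtain ⟨Nx, hNx⟩ := l8sw_x_small (min v1 (𝔹.pTop F.T)) (lt_min hv1 h3.dirProf.1.1)
  refine ⟨|C9|, max (max (max Na Ne) (max Ns N9)) (max Nd Nx), fun N hN => ?_⟩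
  have hNa : Na ≤ N := ((le_max_left _ _).trans (le_max_left _ _)).trans ((le_max_left _ _).trans hN)
  have hNe : Ne ≤ N := ((le_max_right _ _).trans (le_max_left _ _)).trans ((le_max_left _ _).trans hN)
  have hNs : Ns ≤ N := ((le_max_left _ _).trans (le_max_right _ _)).trans ((le_max_left _ _).trans hN)
  have hN9 : N9 ≤ N := ((le_max_right _ _).trans (le_max_right _ _)).trans ((le_max_left _ _).trans hN)
  have hNd : Nd ≤ N := (le_max_left _ _).trans ((le_max_right _ _).trans hN)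
  have hx := hNx N ((le_max_right _ _).trans ((le_max_right _ _).trans hN))
  have ha0 : ∀ p : LlPt, p.Ok F → 0 < p.a := fun p hp => by
    unfold LlPt.a
    split_ifs
    · norm_num
    · linarith [hp.ell1]
  refine ⟨fun p hp e => ?_, fun p hp e => ?_, fun p hp e => ?_, fun p hp e η hη => ?_, fun p hp e hsm => ?_, fun p hp e => ?_, hx.trans_le (min_le_right _ _)⟩
  · obtain ⟨mb, -, -, -, -, hpos, -, -⟩ := hadm p hp (e ▸ hNa)
    exact ⟨mb, hca.le.trans (hpos 0 ⟨le_rfl, (ha0 p hp).le⟩).1⟩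
  · obtain ⟨-, mh, -, -, -, hpos, -, -⟩ := hadm p hp (e ▸ hNa)
    exact ⟨mh, (hpos 0 ⟨le_rfl, (ha0 p hp).le⟩).2.2.1⟩
  · obtain ⟨-, -, -, mK, -, -, -, -⟩ := hadm p hp (e ▸ hNa)
    exact mK
  · obtain ⟨δ, hδ, H⟩ := hequi N hNe η hη
    have hx0 : 0 ≤ p.x := Real.rpow_nonneg (Nat.cast_nonneg _) _
    exact ⟨δ, hδ, fun v v' a1 a2 a3 a4 => (H p hp e v v' (hx0.trans a1) a2 a3 a4).2.2.2.2 (Or.inr a1)⟩
  · have hT := (hend p hp (e ▸ hNd)).2.1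
    have hae : p.a = p.ell := by unfold LlPt.a; rw [hsm]; rfl
    have hl0 : 0 < p.ell := lt_of_lt_of_le one_pos hp.ell1
    have hx0 : 0 < p.x := Real.rpow_pos_of_pos (by exact_mod_cast (by have := hp.N2; omega : 0 < p.N)) _
    have hx1 : p.x < 1 := by
      have : p.x < 𝔹.pTop F.T := by
        show ((p.N : ℝ) ^ (-(1 / 6) : ℝ)) < _
        rw [e]
        exact hx.trans_le (min_le_right _ _)
      exact this.trans h3.dirProf.1.2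
    refine le_of_tendsto hT ?_
    rw [hae]
    filter_upwards [Ioo_mem_nhdsLT (show p.x * p.ell < p.ell by nlinarith)] with v hv
    have hw0 : p.x < v / p.ell := (lt_div_iff₀ hl0).2 hv.1
    have hw1 : v / p.ell < 1 := (div_lt_one hl0).2 hv.2
    have b1 := ((h9 p hp (e ▸ hN9)).2 hsm (v / p.ell) ⟨hx0.trans hw0, hw1⟩ (by linarith)).2
    have e1 : p.ell * (v / p.ell) = v := by field_simp
    rw [e1] at b1
    have b2 : C9 * p.x ^ κ * (v / p.ell) ^ 3 ≤ |C9| := by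
      have c1 : p.x ^ κ ≤ 1 := Real.rpow_le_one hx0.le hx1.le hκ.le
      have c2 : 0 ≤ p.x ^ κ := Real.rpow_nonneg hx0.le _
      have c3 : (v / p.ell) ^ 3 ≤ 1 := pow_le_one₀ (hx0.trans hw0).le hw1.le
      have c4 : 0 ≤ (v / p.ell) ^ 3 := pow_nonneg (hx0.trans hw0).le _
      calc C9 * p.x ^ κ * (v / p.ell) ^ 3 ≤ |C9| * p.x ^ κ * (v / p.ell) ^ 3 :=
            mul_le_mul_of_nonneg_right (mul_le_mul_of_nonneg_right (le_abs_self _) c2) c4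
        _ ≤ |C9| * 1 * 1 := mul_le_mul (mul_le_mul_of_nonneg_left c1 (abs_nonneg _)) c3 c4 (by positivity)
        _ = |C9| := by ring
    have b3 := (le_abs_self _).trans (b1.trans b2)
    rcases le_or_gt (p.h F 𝔹 v) 0 with h | h
    · exact h.trans (abs_nonneg _)
    · have : (1 : ℝ) ≤ p.ell ^ 2 := one_le_pow₀ hp.ell1
      nlinarith
  · refine hseed p hp (e ▸ hNs) p.x le_rfl ?_
    show ((p.N : ℝ) ^ (-(1 / 6) : ℝ)) ≤ _
    rw [e]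
    exact (hx.trans_le (min_le_left _ _)).le

/-! ## `1 ≤ Z` -/

theorem l8sw_Z_one {I : L8In} (hOk : I.Ok) (hadm : LlStpAdm I.a I.LP) : 1 ≤ I.Z := by
  have ha := l8sw_a_pos hOk
  have hm : 1 ≤ I.m := by have := hOk.pt.N2; have := hOk.m_lo; omega
  have hPu : (I.sp false).Ok := l8i_ok I.m hm I.a ha _ hadm.1
  have hA : ∀ k ≤ I.n, 0 ≤ I.A k := fun k hk => by
    have hk' : k ≤ (llMat I.LP).length := by rw [l9d_mat_length]; exact hk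
    have e1 : (I.sp false).B k = I.B k := l8i_B I.m I.a ha (llMat I.LP) hadm.1 k hk'
    have e2 : (I.sp false).S k = I.S k := l8i_S I.m I.a ha (llMat I.LP) hadm.1 k hk'
    have h1 := ivs_D2_nonneg hPu k
    unfold L8P.D2 at h1
    rw [e1, e2] at h1
    unfold L8In.A
    nlinarith [sq_nonneg (I.S k - I.q k)]
  have hint : ∀ lo hi, 0 ≤ I.int lo hi I.A := fun lo hi => by
    unfold L8In.int
    refine Finset.sum_nonneg fun k hk => ?_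
    have hk' : k ≤ I.n := Nat.lt_succ_iff.1 (Finset.mem_range.1 (Finset.mem_filter.1 hk).1)
    exact mul_nonneg (pin_gap_nonneg ha _ hadm.1 k) (hA k hk')
  have hbud : 0 ≤ I.bud := by
    unfold L8In.bud
    refine Finset.sum_nonneg fun j _ => ?_
    split_ifs
    · exact mul_nonneg (by unfold L8In.dy; positivity) (hint _ _)
    · exact le_rfl
  unfold L8In.Z
  have : 0 ≤ (I.bud / I.U ^ 4) ^ (1 / 4 : ℝ) := Real.rpow_nonneg (div_nonneg hbud (by positivity)) _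
  linarith

/-! ## T6. arithmetic and the glue -/

/-- **INTERFACE with the MAIN half** (helper10, `L08/DcsInst.lean`): the TILE bound `E ∫ H² W dv ≲_⋄ χ_e⁻¹ x⁶ λ_1⁻¹ Z² {x⁶ | λ_1² U⁴}` (08 l.985-993), untilted, at every sufficiently fine instance;
weights = values of `H` at the left ends of the mass cells -/
def L8swMain (𝔹 : LlBase) (T : ℝ) : Prop :=
  ∀ F0, L8Fix 𝔹 T F0 → ∀ (pB : LLParB) (pS : ℝ), 0 < pS → pS ≤ 1 → ∀ δ : ℝ, 0 < δ → ∃ (C : ℝ) (N0 : ℕ) (Kf : ℝ), ∀ I : L8In,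
    I.F = F0.wExp pB.sStar pB.eta pS → I.𝔹 = 𝔹 → N0 ≤ I.p.N → I.Ok → I.p.sm = false → I.p.lam = I.p.x ^ pS → I.Fine (I.x ^ Kf) →
      (I.p.chiE = 1 → dcsW (I.sp false) (fun k => I.p.Hlin I.F (l8pVl I k)) ≤ C * I.x ^ (-δ) * I.Z ^ 2 * (I.x ^ 12 / I.lam1)) ∧
      (I.p.chiL = 1 → 0 < I.p.chiE →
        dcsW (I.sp false) (fun k => I.p.He I.F I.𝔹 (l8pVl I k)) ≤ C * I.x ^ (-δ) * I.Z ^ 2 * (I.p.chiE⁻¹ * (I.x ^ 6 * I.lam1 * I.U ^ 4)))

theorem l8sw_eqns_cite2 : True := by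
  have := @L8swMain.eq_1
  trivial

theorem l8sw_arith {D xd Z R R2 dW C1 G G' e : ℝ} (hxd : 1 ≤ xd) (hZ : 1 ≤ Z) (hR : 0 ≤ R) (hR2 : R ^ 2 = R2) (he0 : 0 ≤ e) (he : e ≤ R2)
    (hG : G ^ 2 ≤ G' ^ 2) (hdW : dW ≤ C1 * xd * Z ^ 2 * R2) (hD : |D| ≤ √(xd * (7 / 3 * dW) + G ^ 2 * e)) :
    |D| ≤ (7 / 3 * |C1| + G' ^ 2 + 1) * xd * Z * R := by
  have hR20 : 0 ≤ R2 := hR2 ▸ sq_nonneg R
  have hc : 0 ≤ 7 / 3 * |C1| + G' ^ 2 := by positivity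
  refine hD.trans (Real.sqrt_le_iff.2 ⟨by positivity, ?_⟩)
  have hT : ((7 / 3 * |C1| + G' ^ 2 + 1) * xd * Z * R) ^ 2 = (7 / 3 * |C1| + G' ^ 2 + 1) ^ 2 * (xd ^ 2 * Z ^ 2 * R2) := by
    rw [← hR2]; ring
  rw [hT]
  have h1 : (1 : ℝ) ≤ xd ^ 2 * Z ^ 2 := by
    have a1 : (1 : ℝ) ≤ xd ^ 2 := one_le_pow₀ hxd
    have a2 : (1 : ℝ) ≤ Z ^ 2 := one_le_pow₀ hZ
    nlinarith
  have h2 : R2 ≤ xd ^ 2 * Z ^ 2 * R2 := le_mul_of_one_le_left hR20 h1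
  have h3 : dW ≤ |C1| * xd * Z ^ 2 * R2 :=
    hdW.trans (mul_le_mul_of_nonneg_right (mul_le_mul_of_nonneg_right (mul_le_mul_of_nonneg_right (le_abs_self _) (by linarith)) (by positivity)) hR20)
  have h4 : xd * (7 / 3 * dW) ≤ 7 / 3 * |C1| * (xd ^ 2 * Z ^ 2 * R2) := by
    have := mul_le_mul_of_nonneg_left h3 (by linarith : 0 ≤ xd)
    nlinarith
  have h5 : G ^ 2 * e ≤ G' ^ 2 * (xd ^ 2 * Z ^ 2 * R2) :=
    mul_le_mul hG (he.trans h2) he0 (sq_nonneg _)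
  have h6 : 0 ≤ xd ^ 2 * Z ^ 2 * R2 := by positivity
  have h7 : 7 / 3 * |C1| + G' ^ 2 ≤ (7 / 3 * |C1| + G' ^ 2 + 1) ^ 2 := by nlinarith
  calc xd * (7 / 3 * dW) + G ^ 2 * e ≤ (7 / 3 * |C1| + G' ^ 2) * (xd ^ 2 * Z ^ 2 * R2) := by linarith
    _ ≤ _ := mul_le_mul_of_nonneg_right h7 h6

/-- **THE TOP HALF**: the body of `L8zSwPw` (`L08/GlueZ.lean`) -/
theorem l8sw_top {𝔹 : LlBase} {T : ℝ} (hf : L8gFine 𝔹 T) (hmain : L8swMain 𝔹 T) :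
    ∀ F0, L8Fix 𝔹 T F0 → ∀ (pB : LLParB) (pS : ℝ), 0 < pS → pS ≤ 1 → ∀ εs qs δ : ℝ, 0 < εs → 0 < qs → 0 < δ → ∃ (C : ℝ) (N0 : ℕ),
      L8Ev (F0.wExp pB.sStar pB.eta pS) 𝔹 N0 (fun p => p.sm = false ∧ p.lam = p.x ^ pS) fun I => I.s = qs * I.x ^ (1 + εs) → I.Stop (I.x ^ εs) →
        (I.p.chiE = 1 → 0 < I.p.chiL → I.p.chiL < 1 →
          |deriv (fun c => I.i9.psi { I.p with chiL := c } I.m) I.p.chiL| ≤ C * I.x ^ (-δ) * I.Z * (I.x ^ 6 / Real.sqrt I.lam1)) ∧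
        (I.p.chiL = 1 → 0 < I.p.chiE → I.p.chiE < 1 → |deriv (fun c => I.i9.psi { I.p with chiE := c } I.m) I.p.chiE| ≤
          C * I.x ^ (-δ) * I.Z * (I.p.chiE ^ (-(1 / 2) : ℝ) * (I.x ^ 3 * Real.sqrt I.lam1 * I.U ^ 2))) := by
  intro F0 hF pB pS h0 h1 εs qs δ hεs hqs hδ
  have h3 : LlSec3 𝔹 (F0.wExp pB.sStar pB.eta pS) := (hF.2.2 _ _ _ (llc_expOk pB h0 h1)).sec3
  obtain ⟨C1, N1, Kf, hm⟩ := hmain F0 hF pB pS h0 h1 δ hδ
  obtain ⟨N2, htr⟩ := tlk_I_tr εs qs δ 12 hεs hqs hδ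
  obtain ⟨Ch, N3, hclk⟩ := l8sw_clk_of h3
  suffices key : ∀ I : L8In, I.F = F0.wExp pB.sStar pB.eta pS → I.𝔹 = 𝔹 → max N1 (max N2 N3) ≤ I.p.N → (I.p.sm = false ∧ I.p.lam = I.p.x ^ pS) → I.Ok →
      I.Fine (min 1 (((I.p.N : ℝ) ^ (-(1 / 6) : ℝ)) ^ Kf)) → I.s = qs * I.x ^ (1 + εs) → I.Stop (I.x ^ εs) →
        (I.p.chiE = 1 → 0 < I.p.chiL → I.p.chiL < 1 →
          |deriv (fun c => I.i9.psi { I.p with chiL := c } I.m) I.p.chiL| ≤ (7 / 3 * |C1| + (6 * Ch) ^ 2 + 1) * I.x ^ (-δ) * I.Z * (I.x ^ 6 / Real.sqrt I.lam1)) ∧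
        (I.p.chiL = 1 → 0 < I.p.chiE → I.p.chiE < 1 → |deriv (fun c => I.i9.psi { I.p with chiE := c } I.m) I.p.chiE| ≤
          (7 / 3 * |C1| + (6 * Ch) ^ 2 + 1) * I.x ^ (-δ) * I.Z * (I.p.chiE ^ (-(1 / 2) : ℝ) * (I.x ^ 3 * Real.sqrt I.lam1 * I.U ^ 2))) by
    obtain ⟨N0, hev⟩ := L8Ev.of_fine' hf hF pB h0 h1 (fun N => min 1 (((N : ℝ) ^ (-(1 / 6) : ℝ)) ^ Kf))
      (fun N hN => lt_min one_pos (Real.rpow_pos_of_pos (Real.rpow_pos_of_pos (by exact_mod_cast (by omega : 0 < N)) _) _)) (max N1 (max N2 N3))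
      (R := fun p => p.sm = false ∧ p.lam = p.x ^ pS) key
    exact ⟨_, N0, hev⟩
  intro I hIF hIB hN hR hOk hfine hs hstop
  have hN1 : N1 ≤ I.p.N := (le_max_left _ _).trans hN
  have hN2 : N2 ≤ I.p.N := ((le_max_left _ _).trans (le_max_right _ _)).trans hN
  have hN3 : N3 ≤ I.p.N := ((le_max_right _ _).trans (le_max_right _ _)).trans hN
  have hf1 : I.Fine 1 := hfine.mono (min_le_left _ _)
  have hfK : I.Fine (I.x ^ Kf) := hfine.mono (min_le_right _ _)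
  have hck : L8swClk I.𝔹 I.F I.p.N Ch := by rw [hIF, hIB]; exact hclk _ hN3
  have hT := htr I hN2 hOk (by rw [hIF]; exact h3.ok) hf1 hs hstop
  obtain ⟨mL, mE⟩ := hm I hIF hIB hN1 hOk hR.1 hR.2 hfK
  have hx0 := l8sw_x_pos hOk
  have hx1 := l8sw_x_le_one hOk
  have hxd : 1 ≤ I.x ^ (-δ) := Real.one_le_rpow_of_pos_of_le_one_of_nonpos hx0 hx1 (by linarith)
  have hZ := l8sw_Z_one hOk hf1.adm
  have ha0 := l8sw_a_pos hOk
  have ha2 : I.a ≤ 2 := by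
    have : I.a = I.p.ell := by show I.p.a = _; unfold LlPt.a; rw [hR.1]; rfl
    rw [this]
    refine hOk.pt.ell2.trans ?_
    calc (2 : ℝ) ^ (1 / 6 : ℝ) ≤ (2 : ℝ) ^ (1 : ℝ) := Real.rpow_le_rpow_of_exponent_le (by norm_num) (by norm_num)
      _ = 2 := Real.rpow_one 2
  have hCh : 0 ≤ Ch := (abs_nonneg _).trans (l8sw_H_le hOk hck (l8sw_famL hOk hR.1 hck) (u := 0) ⟨le_rfl, ha0.le⟩)
  have hG : (3 * I.a * Ch) ^ 2 ≤ (6 * Ch) ^ 2 := pow_le_pow_left₀ (by positivity) (by nlinarith) 2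
  have hl0 : 0 < I.lam := lt_of_lt_of_le (Real.rpow_pos_of_pos hx0 _) hOk.pt.lam_lo
  have hl1 : I.lam ≤ 1 := by
    have : I.lam = I.x ^ pS := hR.2
    rw [this]
    exact Real.rpow_le_one hx0.le hx1 h0.le
  have hη0 : 0 < I.F.eta := by rw [hIF]; exact pB.eta_pos
  have hη1 : I.F.eta ≤ 1 := by rw [hIF]; have := pB.eta_le; have := pB.tau_le; show pB.eta ≤ 1; linarith
  have hs0 : 0 ≤ I.F.sS := by rw [hIF]; show 0 ≤ pB.sStar; have := pB.tau_le; unfold LLParB.sStar; linarith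
  have hL0 : 0 < I.lam1 := Real.rpow_pos_of_pos hl0 _
  have hL1 : I.lam1 ≤ 1 := Real.rpow_le_one hl0.le hl1 (by linarith)
  have hL2 : I.x ^ 2 ≤ I.lam1 := by
    have e1 : I.lam1 = I.x ^ (pS * (1 + I.F.eta)) := by
      show I.p.lam ^ (1 + I.F.eta) = _
      rw [hR.2]
      exact (Real.rpow_mul hx0.le _ _).symm
    rw [e1, ← Real.rpow_natCast]
    refine Real.rpow_le_rpow_of_exponent_ge hx0 hx1 ?_
    push_cast
    nlinarith
  have hU : I.x ≤ I.U := by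
    refine le_min hx1 ?_
    have : 1 ≤ I.p.lam ^ (-(I.F.sS / 2)) := Real.one_le_rpow_of_pos_of_le_one_of_nonpos hl0 hl1 (by linarith)
    exact le_mul_of_one_le_right hx0.le this
  refine ⟨fun hE hc0 hc1 => ?_, fun hL hc0 hc1 => ?_⟩
  · have key := l8sw_inst hOk hR.1 hf1 hck (l8sw_famL hOk hR.1 hck) (t0 := I.p.chiL) ⟨hc0, hc1⟩ rfl hT (by linarith)
    refine l8sw_arith hxd hZ (by positivity) ?_ (by positivity) ?_ hG (mL hE) key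
    · rw [div_pow, Real.sq_sqrt hL0.le, ← pow_mul]
    · rw [le_div_iff₀ hL0]
      have : 0 ≤ I.x ^ 12 := by positivity
      nlinarith
  · have key := l8sw_inst hOk hR.1 hf1 hck (l8sw_famE hOk hR.1 hck) (t0 := I.p.chiE) ⟨hc0, hc1⟩ rfl hT (by linarith)
    have hU0 : 0 ≤ I.U := hx0.le.trans hU
    refine l8sw_arith hxd hZ (mul_nonneg (Real.rpow_nonneg hc0.le _) (by positivity)) ?_ (by positivity) ?_ hG (mE hL hc0) key
    · have e0 : (I.p.chiE ^ (-(1 / 2) : ℝ)) ^ 2 = I.p.chiE⁻¹ := by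
        rw [← Real.rpow_natCast, ← Real.rpow_mul hc0.le, ← Real.rpow_neg_one]
        norm_num
      rw [mul_pow, mul_pow, mul_pow, Real.sq_sqrt hL0.le, ← pow_mul, ← pow_mul, e0]
    · have e1 : (1 : ℝ) ≤ I.p.chiE⁻¹ := (one_le_inv₀ hc0).2 hc1.le
      have e2 : I.x ^ 4 ≤ I.U ^ 4 := pow_le_pow_left₀ hx0.le hU 4
      have e3 : I.x ^ 12 ≤ I.x ^ 6 * I.lam1 * I.U ^ 4 := by
        calc I.x ^ 12 = I.x ^ 6 * I.x ^ 2 * I.x ^ 4 := by ring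
          _ ≤ I.x ^ 6 * I.lam1 * I.U ^ 4 := by gcongr
      exact e3.trans (le_mul_of_one_le_left (by positivity) e1)

/-- **THE MAIN HALF** at `llBase` = `l8si_main` (helper10: `L08/DcsTile.lean` abstract tile bound, `L08/DcsInst.lean` + `L08/DcsInstB.lean` the LL instance) -/
theorem l8sw_main (T : ℝ) (hT : 1 < T) : L8swMain llBase T := by
  intro F0 hF pB pS h0 h1 δ hδ
  obtain ⟨C, N0, Kf, H⟩ := l8si_main T hT F0 hF pB pS h0 h1 δ hδ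
  refine ⟨C, N0, Kf, fun I a1 a2 a3 a4 a5 a6 a7 => ?_⟩
  obtain ⟨b1, b2⟩ := H I ⟨a1, a2, a3, a4, a5, a6, a7⟩
  refine ⟨b1, fun _ hc => (b2 hc).trans (le_of_eq ?_)⟩
  ring

end Claimed.Agent.R286
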