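-- KEEP
import Claimed.Agent.R286.L08.DList
import Claimed.Agent.R286.LL04.ClkSup
import Claimed.Agent.R286.Brg.Engine
import Claimed.Agent.R286.Exit.ClkLip
import Claimed.Agent.R286.L09.ChDPsi
import Claimed.Agent.R286.L09.Fin

/-!
# Row 286 (S0533), folder L08, file Meas : THE MAJORANTS OF ONE CHAIN ARE MEASURABLE IN `(γ, path parameter)`      (owner helper261; names `l8zm_*`, `l8zmTau`)

`l8zm_main 𝔹 T` is, word for word, `L8zMeas 𝔹 T` of `L08/GlueZ.lean` (leaf MEAS of `exit_dz`), for an ABSTRACT base.      0 sorry.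

ROUTE
1. `l8zm_pair_lip`   pair numbers `ν_{pair t}[G(σ⁰, σ¹)]` of ONE chain are Lipschitz in the VALUES of the clocks at the positions of the chain (ENGINE `brg_e_chain`, 42);
   `l8zm_S_lip`, `l8zm_B_lip` (`ob_S_two`, `ob_B_two`), `l8zm_q_lip` (one-site scalar model, clock `K`).
2. `l8zm_core`       along a segment with `Ll04vAt` (`ll04v_main`, 258: the values are jointly Lipschitz in (parameter, `γ`)) the numbers `I.S k`, `I.B k`, `I.q k` are CONTINUOUS in `(γ, t)`.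
3. `l8zm_Z_meas`, `l8zm_Zg_meas`   SHELL: on a family of instances with constant `n`, `v`, `N` the majorants are measurable functions of `U` and of the `A k` (finite sums, `if U ≤ dy j`, `rpow`, `sqrt`, `max`).
4. `l8zm_seg`        one segment.
5. `l8zm_cl_dir`, `l8zm_cl_L`, `l8zm_cl_siz`   the clamp `l8Cl` turns the four families of points of `L8zMeas` into the segments of 258 (`ll04Dir`, `ll04Siz` with `Θ = log 2`; `t = log λ ↦ τ = l8zmTau`).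
-/

set_option autoImplicit false

namespace Claimed.Agent.R286

open MeasureTheory Set Filter Finset

/-! ## 1. pair numbers on one chain are Lipschitz in the VALUES of the clocks -/

/-- pair numbers on one chain are Lipschitz in the VALUES of the clocks at the positions of the chain -/
theorem l8zm_pair_lip {n : ℕ} (hn : 0 < n) {a : ℝ} (ha : 0 < a) {b h b' h' : ℝ → ℝ} (h1 : CkAdm a b h) (h2 : CkAdm a b' h')
    {ps : List GhPos} (hps : GhChOk a ps) {t : ℕ} (ht : t ≤ ps.length) (G : SkCfg n → SkCfg n → ℝ) (hG : ∀ σ σ', |G σ σ'| ≤ 1)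
    {δb δh : ℝ} (hδb : 0 ≤ δb) (hδh : 0 ≤ δh)
    (hb : ∀ p ∈ ps, |ghAt a b p - ghAt a b' p| ≤ δb) (hh : ∀ p ∈ ps, |ghAt a h p - ghAt a h' p| ≤ δh) :
    |trNu (skBase n a) (skLvs n (skCStp a b h 0 0 ps)) 2 (trPair ps.length t) 0 (fun σ => G (σ 0) (σ 1))
      - trNu (skBase n a) (skLvs n (skCStp a b' h' 0 0 ps)) 2 (trPair ps.length t) 0 (fun σ => G (σ 0) (σ 1))|
      ≤ 12 * a ^ 2 * (n * (δb / 2 + δh)) := by
  have hB := obu_base_ok n ha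
  have h0 : (Sum.elim (fun _ => (0:ℝ)) fun _ => (0:ℝ) : SkDr n → ℝ) = 0 := by
    funext i; cases i <;> rfl
  rw [sk_c_chain, sk_c_chain, h0]
  have key := brg_e_chain (B := skBase n a) hB (skPhi n) (v := skClk n b' h') (v' := skClk n b h) (brg_n_clk n h2) (brg_n_clk n h1)
    (ps := ps) hps (q := 2) (τ := trPair ps.length t) (l8d_pair_isTr _ ht) 0 (fun σ => G (σ 0) (σ 1))
    (fun σ σ' hσ => by show G (σ 0) (σ 1) = G (σ' 0) (σ' 1); rw [hσ 0 (by norm_num), hσ 1 (by norm_num)]) (n * (δb / 2 + δh)) 1 (by positivity)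
    (fun p hp s s' => by
      have ea : (skBase n a).a = a := rfl
      rw [ea, brg_n_clkAt_sub]
      exact brg_n_ker_abs hn (hb p hp) (hh p hp) s s') (fun σ => hG _ _)
  have ea : (skBase n a).a = a := rfl
  rw [ea] at key
  refine key.trans (le_of_eq ?_)
  push_cast
  ring

theorem l8zm_chain_adm {a : ℝ} (ha : 0 < a) {b h : ℝ → ℝ} (h1 : CkAdm a b h) {ps : List GhPos} (hps : GhChOk a ps) :
    SkAdm a (skCStp a b h 0 0 ps) :=
  l9d_chain_adm ha.le h1.1 h1.2 (hps.1.imp fun h => h.le) hps.2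

theorem l8zm_S_tr {n : ℕ} (hn : 0 < n) {a : ℝ} (ha : 0 < a) {b h : ℝ → ℝ} (h1 : CkAdm a b h) {ps : List GhPos} (hps : GhChOk a ps)
    {t : ℕ} (ht : t ≤ ps.length) :
    obS n a (skCStp a b h 0 0 ps) 0 t
      = trNu (skBase n a) (skLvs n (skCStp a b h 0 0 ps)) 2 (trPair ps.length t) 0 (fun σ => skOv (σ 0) (σ 1)) := by
  have hl := l9d_chain_length a b h ps 0 0
  have e := l8d_tr_T2 n a (skCStp a b h 0 0 ps) (t := t) (by rw [hl]; exact ht) fun σ σ' => skOv σ σ'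
  rw [hl, ob_S_two hn ha _ (l8zm_chain_adm ha h1 hps) 0 t (by rw [hl]; exact ht)] at e
  exact e.symm

theorem l8zm_B_tr {n : ℕ} (hn : 0 < n) {a : ℝ} (ha : 0 < a) {b h : ℝ → ℝ} (h1 : CkAdm a b h) {ps : List GhPos} (hps : GhChOk a ps)
    {t : ℕ} (ht : t ≤ ps.length) :
    obB n a (skCStp a b h 0 0 ps) 0 t
      = trNu (skBase n a) (skLvs n (skCStp a b h 0 0 ps)) 2 (trPair ps.length t) 0 (fun σ => skOv (σ 0) (σ 1) ^ 2) := by
  have hl := l9d_chain_length a b h ps 0 0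
  have e := l8d_tr_T2 n a (skCStp a b h 0 0 ps) (t := t) (by rw [hl]; exact ht) fun σ σ' => skOv σ σ' ^ 2
  rw [hl, ob_B_two hn ha _ (l8zm_chain_adm ha h1 hps) 0 t (by rw [hl]; exact ht)] at e
  exact e.symm

theorem l8zm_S_lip {n : ℕ} (hn : 0 < n) {a : ℝ} (ha : 0 < a) {b h b' h' : ℝ → ℝ} (h1 : CkAdm a b h) (h2 : CkAdm a b' h')
    {ps : List GhPos} (hps : GhChOk a ps) {t : ℕ} (ht : t ≤ ps.length) {δb δh : ℝ} (hδb : 0 ≤ δb) (hδh : 0 ≤ δh)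
    (hb : ∀ p ∈ ps, |ghAt a b p - ghAt a b' p| ≤ δb) (hh : ∀ p ∈ ps, |ghAt a h p - ghAt a h' p| ≤ δh) :
    |obS n a (skCStp a b h 0 0 ps) 0 t - obS n a (skCStp a b' h' 0 0 ps) 0 t| ≤ 12 * a ^ 2 * (n * (δb / 2 + δh)) := by
  rw [l8zm_S_tr hn ha h1 hps ht, l8zm_S_tr hn ha h2 hps ht]
  exact l8zm_pair_lip hn ha h1 h2 hps ht (fun σ σ' => skOv σ σ') (fun σ σ' => brg_n_ov_abs σ σ') hδb hδh hb hh

theorem l8zm_B_lip {n : ℕ} (hn : 0 < n) {a : ℝ} (ha : 0 < a) {b h b' h' : ℝ → ℝ} (h1 : CkAdm a b h) (h2 : CkAdm a b' h')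
    {ps : List GhPos} (hps : GhChOk a ps) {t : ℕ} (ht : t ≤ ps.length) {δb δh : ℝ} (hδb : 0 ≤ δb) (hδh : 0 ≤ δh)
    (hb : ∀ p ∈ ps, |ghAt a b p - ghAt a b' p| ≤ δb) (hh : ∀ p ∈ ps, |ghAt a h p - ghAt a h' p| ≤ δh) :
    |obB n a (skCStp a b h 0 0 ps) 0 t - obB n a (skCStp a b' h' 0 0 ps) 0 t| ≤ 12 * a ^ 2 * (n * (δb / 2 + δh)) := by
  rw [l8zm_B_tr hn ha h1 hps ht, l8zm_B_tr hn ha h2 hps ht]
  exact l8zm_pair_lip hn ha h1 h2 hps ht (fun σ σ' => skOv σ σ' ^ 2)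
    (fun σ σ' => by rw [abs_pow]; exact pow_le_one₀ (abs_nonneg _) (brg_n_ov_abs σ σ')) hδb hδh hb hh

/-! ## 2. the scalar reference -/

theorem l8zm_at_zero (a : ℝ) (p : GhPos) : ghAt a (fun _ => 0) p = 0 := by
  have h : ghClamp a (fun _ => 0) = fun _ => (0 : ℝ) := by
    funext u; unfold ghClamp; split_ifs <;> rfl
  have h1 : Function.leftLim (fun _ : ℝ => (0 : ℝ)) p.u = 0 := leftLim_eq_of_tendsto tendsto_const_nhds
  have h2 : Function.rightLim (fun _ : ℝ => (0 : ℝ)) p.u = 0 := rightLim_eq_of_tendsto tendsto_const_nhds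
  unfold ghAt
  rw [h, h1, h2]; ring

theorem l8zm_stp_sc (a : ℝ) (b h K : ℝ → ℝ) : ∀ (ps : List GhPos) (b0 h0 K0 : ℝ),
    llSc (l9Stp a b h K b0 h0 K0 ps) = skCStp a (fun _ => 0) K 0 K0 ps
  | [], _, _, _ => rfl
  | p :: ps, b0, h0, K0 => by
      rw [l9Stp, skCStp]
      show _ :: llSc (l9Stp a b h K (ghAt a b p) (ghAt a h p) (ghAt a K p) ps) = _
      rw [l8zm_stp_sc a b h K ps, l8zm_at_zero, sub_zero]

theorem l8zm_q_lip {a : ℝ} (ha : 0 < a) {b h K b' h' K' : ℝ → ℝ} (h1 : GhClk1 a K) (h2 : GhClk1 a K')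
    {ps : List GhPos} (hps : GhChOk a ps) {t : ℕ} (ht : t ≤ ps.length) {δ : ℝ} (hδ : 0 ≤ δ)
    (hK : ∀ p ∈ ps, |ghAt a K p - ghAt a K' p| ≤ δ) :
    |llQs a (l9Stp a b h K 0 0 0 ps) t - llQs a (l9Stp a b' h' K' 0 0 0 ps) t| ≤ 12 * a ^ 2 * δ := by
  have hz : GhClk1 a (fun _ => (0 : ℝ)) := ⟨monotoneOn_const, le_rfl⟩
  unfold llQs llNuS
  rw [l8zm_stp_sc, l8zm_stp_sc, l9d_stp_length, l9d_stp_length]
  have key := l8zm_pair_lip (n := 1) one_pos ha (b := fun _ => 0) (h := K) (b' := fun _ => 0) (h' := K') ⟨hz, h1⟩ ⟨hz, h2⟩ hps ht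
    (fun σ σ' => jtSp (σ 0) * jtSp (σ' 0)) (fun σ σ' => by
      have e : ∀ s : Bool, |jtSp s| = 1 := fun s => by cases s <;> simp [jtSp]
      rw [abs_mul, e, e, one_mul]) (δb := 0) le_rfl hδ (fun p _ => by simp) hK
  refine key.trans (le_of_eq ?_)
  push_cast
  ring

/-! ## 3. the instance: dictionary -/

theorem l8zm_I_S (F : LlFix) (𝔹 : LlBase) (p : LlPt) (m : ℕ) (s : ℝ) (Fs : Finset GhPos) (k : ℕ) :
    (L8In.mk F 𝔹 p m s Fs).S k = obS m p.a (skCStp p.a (p.b F 𝔹) (p.h F 𝔹) 0 0 (ghPs p.a (l9Fl Fs))) 0 k := by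
  rw [← l9d_stp_mat p.a (p.b F 𝔹) (p.h F 𝔹) (p.K F 𝔹)]
  rfl

theorem l8zm_I_B (F : LlFix) (𝔹 : LlBase) (p : LlPt) (m : ℕ) (s : ℝ) (Fs : Finset GhPos) (k : ℕ) :
    (L8In.mk F 𝔹 p m s Fs).B k = obB m p.a (skCStp p.a (p.b F 𝔹) (p.h F 𝔹) 0 0 (ghPs p.a (l9Fl Fs))) 0 k := by
  rw [← l9d_stp_mat p.a (p.b F 𝔹) (p.h F 𝔹) (p.K F 𝔹)]
  rfl

theorem l8zm_I_q (F : LlFix) (𝔹 : LlBase) (p : LlPt) (m : ℕ) (s : ℝ) (Fs : Finset GhPos) (k : ℕ) :
    (L8In.mk F 𝔹 p m s Fs).q k = llQs p.a (l9Stp p.a (p.b F 𝔹) (p.h F 𝔹) (p.K F 𝔹) 0 0 0 (ghPs p.a (l9Fl Fs))) k := rfl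

theorem l8zm_I_n (F : LlFix) (𝔹 : LlBase) (p : LlPt) (m : ℕ) (s : ℝ) (Fs : Finset GhPos) :
    (L8In.mk F 𝔹 p m s Fs).n = (ghPs p.a (l9Fl Fs)).length :=
  l9d_stp_length p.a (p.b F 𝔹) (p.h F 𝔹) (p.K F 𝔹) (ghPs p.a (l9Fl Fs)) 0 0 0

theorem l8zm_I_v (F : LlFix) (𝔹 : LlBase) (p : LlPt) (m : ℕ) (s : ℝ) (Fs : Finset GhPos) (k : ℕ) :
    (L8In.mk F 𝔹 p m s Fs).v k = ((ghPs p.a (l9Fl Fs)).map GhPos.u).getD k p.a := by
  rw [← l9d_stp_m p.a (p.b F 𝔹) (p.h F 𝔹) (p.K F 𝔹) (ghPs p.a (l9Fl Fs)) 0 0 0, ← l9d_mat_m]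
  rfl

theorem l8zm_I_dv (I : L8In) (k : ℕ) : I.dv k = I.v k - (if k = 0 then 0 else I.v (k - 1)) := rfl

/-! ## 4. a function which is Lipschitz in `(γ, t)` is continuous -/

theorem l8zm_cont {E : Type} [PseudoMetricSpace E] {f : E × ℝ → ℝ} {C : ℝ}
    (h : ∀ z z' : E × ℝ, |f z - f z'| ≤ C * (|z.2 - z'.2| + dist z.1 z'.1)) : Continuous f := by
  have hL : LipschitzWith (Real.toNNReal (2 * |C|)) f := by
    refine LipschitzWith.of_dist_le' fun z z' => ?_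
    rw [Real.dist_eq]
    have h1 : |z.2 - z'.2| ≤ dist z z' := by rw [← Real.dist_eq]; exact (le_max_right _ _)
    have h2 : dist z.1 z'.1 ≤ dist z z' := le_max_left _ _
    have h3 : 0 ≤ |z.2 - z'.2| + dist z.1 z'.1 := add_nonneg (abs_nonneg _) dist_nonneg
    calc |f z - f z'| ≤ C * (|z.2 - z'.2| + dist z.1 z'.1) := h z z'
      _ ≤ |C| * (|z.2 - z'.2| + dist z.1 z'.1) := mul_le_mul_of_nonneg_right (le_abs_self _) h3
      _ ≤ |C| * (dist z z' + dist z z') := mul_le_mul_of_nonneg_left (add_le_add h1 h2) (abs_nonneg _)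
      _ = 2 * |C| * dist z z' := by ring
  exact hL.continuous

/-! ## 5. CORE: the statistics of one chain are continuous along a segment -/

/-- **CORE**: along a segment whose clock VALUES are jointly Lipschitz (`Ll04vAt`, 258) the numbers `S k`, `B k`, `q k` of a fixed chain are continuous in `(γ, t)` -/
theorem l8zm_core (𝔹 : LlBase) (F : LlFix) {Lip a0 : ℝ} {N : ℕ} {pt : (Fin (N + 1) → ℝ) → ℝ → LlPt} (ha : 0 < a0)
    (h : Ll04vAt 𝔹 F Lip a0 N pt) (Fs : Finset GhPos) {m : ℕ} (hm : 1 ≤ m) (s : ℝ) {k : ℕ} (hk : k ≤ (ghPs a0 (l9Fl Fs)).length) :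
    Continuous (fun z : (Fin (N + 1) → ℝ) × ℝ => (L8In.mk F 𝔹 (pt z.1 z.2) m s Fs).S k) ∧
    Continuous (fun z : (Fin (N + 1) → ℝ) × ℝ => (L8In.mk F 𝔹 (pt z.1 z.2) m s Fs).B k) ∧
    Continuous (fun z : (Fin (N + 1) → ℝ) × ℝ => (L8In.mk F 𝔹 (pt z.1 z.2) m s Fs).q k) := by
  have hps := gh_pt_ps_ok a0 (l9Fl Fs)
  have hd : ∀ z z' : (Fin (N + 1) → ℝ) × ℝ, 0 ≤ |z.2 - z'.2| + dist z.1 z'.1 := fun z z' => add_nonneg (abs_nonneg _) dist_nonneg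
  have hδ : ∀ z z' : (Fin (N + 1) → ℝ) × ℝ, 0 ≤ |Lip| * (|z.2 - z'.2| + dist z.1 z'.1) := fun z z' => mul_nonneg (abs_nonneg _) (hd z z')
  have hle : ∀ z z' : (Fin (N + 1) → ℝ) × ℝ, Lip * (|z.2 - z'.2| + dist z.1 z'.1) ≤ |Lip| * (|z.2 - z'.2| + dist z.1 z'.1) :=
    fun z z' => mul_le_mul_of_nonneg_right (le_abs_self _) (hd z z')
  have hadm : ∀ z : (Fin (N + 1) → ℝ) × ℝ, CkAdm a0 ((pt z.1 z.2).b F 𝔹) ((pt z.1 z.2).h F 𝔹) := fun z => ⟨h.adm_b _ _, h.adm_h _ _⟩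
  refine ⟨l8zm_cont (C := 12 * a0 ^ 2 * (m * (|Lip| / 2 + |Lip|))) fun z z' => ?_,
    l8zm_cont (C := 12 * a0 ^ 2 * (m * (|Lip| / 2 + |Lip|))) fun z z' => ?_,
    l8zm_cont (C := 12 * a0 ^ 2 * |Lip|) fun z z' => ?_⟩
  · rw [l8zm_I_S, l8zm_I_S, h.a_eq, h.a_eq]
    refine (l8zm_S_lip hm ha (hadm z) (hadm z') hps hk (hδ z z') (hδ z z')
      (fun p hp => (h.lip_b _ _ _ _ p (hps.2 p hp)).trans (hle z z')) (fun p hp => (h.lip_h _ _ _ _ p (hps.2 p hp)).trans (hle z z'))).trans (le_of_eq ?_)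
    ring
  · rw [l8zm_I_B, l8zm_I_B, h.a_eq, h.a_eq]
    refine (l8zm_B_lip hm ha (hadm z) (hadm z') hps hk (hδ z z') (hδ z z')
      (fun p hp => (h.lip_b _ _ _ _ p (hps.2 p hp)).trans (hle z z')) (fun p hp => (h.lip_h _ _ _ _ p (hps.2 p hp)).trans (hle z z'))).trans (le_of_eq ?_)
    ring
  · rw [l8zm_I_q, l8zm_I_q, h.a_eq, h.a_eq]
    refine (l8zm_q_lip ha (h.adm_K _ _) (h.adm_K _ _) hps hk (hδ z z')
      (fun p hp => (h.lip_K _ _ _ _ p (hps.2 p hp)).trans (hle z z'))).trans (le_of_eq ?_)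
    ring

/-! ## 6. SHELL: the majorants are measurable functions of the statistics -/

section shell

variable {Ω : Type} [MeasurableSpace Ω]

theorem l8zm_int_meas (I : Ω → L8In) {n0 : ℕ} {V : ℕ → ℝ} (hn : ∀ z, (I z).n = n0) (hv : ∀ z k, (I z).v k = V k)
    (lo hi : ℝ) (g : Ω → ℕ → ℝ) (hg : ∀ k ≤ n0, Measurable fun z => g z k) : Measurable fun z => (I z).int lo hi (g z) := by
  have e : (fun z => (I z).int lo hi (g z))
      = fun z => ∑ k ∈ (range (n0 + 1)).filter (fun k => lo ≤ V k ∧ V k ≤ hi), (V k - (if k = 0 then 0 else V (k - 1))) * g z k := by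
    funext z
    unfold L8In.int
    rw [hn z]
    refine Finset.sum_congr (Finset.filter_congr fun k _ => by rw [hv z k]) fun k _ => ?_
    rw [l8zm_I_dv, hv z k, hv z (k - 1)]
  rw [e]
  refine Finset.measurable_sum _ fun k hk => (hg k ?_).const_mul _
  exact Nat.lt_succ_iff.1 (Finset.mem_range.1 (Finset.mem_filter.1 hk).1)

theorem l8zm_bud_meas (I : Ω → L8In) {n0 N : ℕ} {V : ℕ → ℝ} (hn : ∀ z, (I z).n = n0) (hv : ∀ z k, (I z).v k = V k)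
    (hN : ∀ z, (I z).p.N = N) (hU : Measurable fun z => (I z).U) (hA : ∀ k ≤ n0, Measurable fun z => (I z).A k) :
    Measurable fun z => (I z).bud := by
  unfold L8In.bud
  simp only [hN]
  refine Finset.measurable_sum _ fun j _ => ?_
  refine Measurable.ite (measurableSet_le hU measurable_const) ?_ measurable_const
  exact (l8zm_int_meas I hn hv _ _ (fun z => (I z).A) hA).const_mul _

theorem l8zm_Z_meas (I : Ω → L8In) {n0 N : ℕ} {V : ℕ → ℝ} (hn : ∀ z, (I z).n = n0) (hv : ∀ z k, (I z).v k = V k)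
    (hN : ∀ z, (I z).p.N = N) (hU : Measurable fun z => (I z).U) (hA : ∀ k ≤ n0, Measurable fun z => (I z).A k) :
    Measurable fun z => (I z).Z := by
  unfold L8In.Z
  exact (((l8zm_bud_meas I hn hv hN hU hA).div (hU.pow_const 4)).pow_const (1 / 4 : ℝ)).const_add 1

theorem l8zm_Zg_meas (I : Ω → L8In) {n0 N : ℕ} {V : ℕ → ℝ} {a0 : ℝ} (hn : ∀ z, (I z).n = n0) (hv : ∀ z k, (I z).v k = V k)
    (hN : ∀ z, (I z).p.N = N) (ha : ∀ z, (I z).a = a0) (hA : ∀ k ≤ n0, Measurable fun z => (I z).A k) (c : ℝ) :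
    Measurable fun z => (I z).Zg c := by
  have hx : ∀ z, (I z).x = (N : ℝ) ^ (-(1 / 6) : ℝ) := fun z => by
    unfold L8In.x LlPt.x
    rw [hN z]
  unfold L8In.Zg
  simp only [hx, ha]
  refine measurable_const.max (Measurable.const_mul (Measurable.sqrt ?_) _)
  exact l8zm_int_meas I hn hv 0 a0 (fun z k => (I z).v k ^ 2 * (I z).A k) fun k hk => by
    simp only [hv]
    exact (hA k hk).const_mul _

end shell

/-! ## 7. one segment -/

/-- **the majorants along one segment** -/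
theorem l8zm_seg (𝔹 : LlBase) (F : LlFix) {Lip a0 : ℝ} {N : ℕ} {pt : (Fin (N + 1) → ℝ) → ℝ → LlPt} (ha : 0 < a0)
    (h : Ll04vAt 𝔹 F Lip a0 N pt) (hN : ∀ γ t, (pt γ t).N = N) (hlam : Measurable fun z : (Fin (N + 1) → ℝ) × ℝ => (pt z.1 z.2).lam)
    (Fs : Finset GhPos) {m : ℕ} (hm : 1 ≤ m) (s c : ℝ) :
    Measurable (fun z : (Fin (N + 1) → ℝ) × ℝ => (L8In.mk F 𝔹 (pt z.1 z.2) m s Fs).Z) ∧
    Measurable (fun z : (Fin (N + 1) → ℝ) × ℝ => (L8In.mk F 𝔹 (pt z.1 z.2) m s Fs).Zg c) := by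
  have hn : ∀ z : (Fin (N + 1) → ℝ) × ℝ, (L8In.mk F 𝔹 (pt z.1 z.2) m s Fs).n = (ghPs a0 (l9Fl Fs)).length := fun z => by
    rw [l8zm_I_n, h.a_eq]
  have hv : ∀ (z : (Fin (N + 1) → ℝ) × ℝ) (k : ℕ), (L8In.mk F 𝔹 (pt z.1 z.2) m s Fs).v k = ((ghPs a0 (l9Fl Fs)).map GhPos.u).getD k a0 := fun z k => by
    rw [l8zm_I_v, h.a_eq]
  have hA : ∀ k ≤ (ghPs a0 (l9Fl Fs)).length, Measurable fun z : (Fin (N + 1) → ℝ) × ℝ => (L8In.mk F 𝔹 (pt z.1 z.2) m s Fs).A k := fun k hk => by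
    obtain ⟨c1, c2, c3⟩ := l8zm_core 𝔹 F ha h Fs hm s hk
    unfold L8In.A
    exact ((c2.sub ((continuous_const.mul c3).mul c1)).add (c3.pow 2)).measurable
  have hU : Measurable fun z : (Fin (N + 1) → ℝ) × ℝ => (L8In.mk F 𝔹 (pt z.1 z.2) m s Fs).U := by
    have e : (fun z : (Fin (N + 1) → ℝ) × ℝ => (L8In.mk F 𝔹 (pt z.1 z.2) m s Fs).U)
        = fun z => min 1 ((N : ℝ) ^ (-(1 / 6) : ℝ) * (pt z.1 z.2).lam ^ (-(F.sS / 2))) := by
      funext z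
      show min 1 (((pt z.1 z.2).N : ℝ) ^ (-(1 / 6) : ℝ) * (pt z.1 z.2).lam ^ (-(F.sS / 2))) = _
      rw [hN]
    rw [e]
    exact measurable_const.min ((hlam.pow_const _).const_mul _)
  exact ⟨l8zm_Z_meas _ hn hv (fun z => hN _ _) hU hA, l8zm_Zg_meas _ hn hv (fun z => hN _ _) (fun z => h.a_eq _ _) hA c⟩

/-! ## 8. the four families of points -/

theorem l8zm_cl_dir (F : LlFix) (hp : F.pS ≤ 12) {N : ℕ} (hN : 2 ≤ N) {ell : ℝ} (hl : ell ∈ Icc (1 : ℝ) ((2 : ℝ) ^ (1 / 6 : ℝ))) (i : Fin 3)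
    (γ : Fin (N + 1) → ℝ) (τ : ℝ) : l8Cl F (ll04Dir F N ell i γ τ) = ll04Dir F N ell i γ τ :=
  l8_cl_eq (ll04c_ok F hp hN hl i γ τ)

/-- the clamped size path is the size segment of 258 with `Θ = log 2` -/
theorem l8zm_cl_siz (F : LlFix) (hp : F.pS ≤ 12) {N : ℕ} (hN : 1 ≤ N) (γ : Fin (N + 1) → ℝ) (θ : ℝ) :
    l8Cl F (l9PtS F N γ θ) = ll04Siz F N (Real.log 2) γ θ := by
  have hx := ll04w_x_mem hN
  have h1 : max (skX N ^ (12 : ℝ)) (min (skX N ^ F.pS) (skX N ^ F.pS)) = skX N ^ F.pS := by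
    rw [min_self, max_eq_right (Real.rpow_le_rpow_of_exponent_ge hx.1 hx.2 hp)]
  have h2 : max 1 (min ((2 : ℝ) ^ (1 / 6 : ℝ)) (Real.exp (θ / 6))) = Real.exp (ll04U (Real.log 2) θ / 6) := by
    unfold ll04U
    have hm : Monotone fun y : ℝ => Real.exp (y / 6) := fun a b hab => Real.exp_le_exp.2 (by linarith)
    have e1 : Real.exp (max 0 (min (Real.log 2) θ) / 6) = max (Real.exp (0 / 6)) (Real.exp (min (Real.log 2) θ / 6)) := hm.map_max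
    have e2 : Real.exp (min (Real.log 2) θ / 6) = min (Real.exp (Real.log 2 / 6)) (Real.exp (θ / 6)) := hm.map_min
    have e3 : Real.exp (Real.log 2 / 6) = (2 : ℝ) ^ (1 / 6 : ℝ) := by
      rw [Real.rpow_def_of_pos (by norm_num)]
      congr 1
      ring
    rw [e1, e2, e3]
    simp
  have e : l8Cl F (l9PtS F N γ θ) = ll04Pt N (max 1 (min ((2 : ℝ) ^ (1 / 6 : ℝ)) (Real.exp (θ / 6))))
      (max (skX N ^ (12 : ℝ)) (min (skX N ^ F.pS) (skX N ^ F.pS))) 1 0 true γ := rfl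
  rw [e, h1, h2]
  rfl

/-- the parameter of 258 on the strength sweep as a function of `t = log λ` (clamped) -/
noncomputable def l8zmTau (F : LlFix) (N : ℕ) (t : ℝ) : ℝ :=
  (max (12 * Real.log (skX N)) (min (F.pS * Real.log (skX N)) t) - 12 * Real.log (skX N)) / ((F.pS - 12) * Real.log (skX N))

theorem l8zm_tau_meas (F : LlFix) (N : ℕ) : Measurable (l8zmTau F N) := by
  unfold l8zmTau
  exact ((measurable_const.max (measurable_const.min measurable_id)).sub_const _).div_const _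

/-- the clamped strength sweep in `t = log λ` is the strength sweep of 258 -/
theorem l8zm_cl_L (F : LlFix) (hp : F.pS < 12) {N : ℕ} (hN : 2 ≤ N) {ell : ℝ} (hl : ell ∈ Icc (1 : ℝ) ((2 : ℝ) ^ (1 / 6 : ℝ)))
    (γ : Fin (N + 1) → ℝ) (t : ℝ) : l8Cl F (l9PtL N ell γ t) = ll04Dir F N ell 0 γ (l8zmTau F N t) := by
  have hx := ll04w_x_mem (N := N) (by omega)
  have hx1 : skX N < 1 := by
    unfold skX
    exact Real.rpow_lt_one_of_one_lt_of_neg (by exact_mod_cast (by omega : 1 < N)) (by norm_num)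
  have hL : Real.log (skX N) < 0 := Real.log_neg hx.1 hx1
  obtain ⟨L, hLd⟩ : ∃ L, L = Real.log (skX N) := ⟨_, rfl⟩
  have hD : 0 < (F.pS - 12) * L := by rw [hLd]; exact mul_pos_of_neg_of_neg (by linarith) hL
  have hle : 12 * L ≤ F.pS * L := by nlinarith
  obtain ⟨cl, hcl⟩ : ∃ cl, cl = max (12 * L) (min (F.pS * L) t) := ⟨_, rfl⟩
  have hc1 : 12 * L ≤ cl := by rw [hcl]; exact le_max_left _ _
  have hc2 : cl ≤ F.pS * L := by rw [hcl]; exact max_le hle (min_le_left _ _)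
  have hτ : l8zmTau F N t = (cl - 12 * L) / ((F.pS - 12) * L) := by unfold l8zmTau; rw [hcl, hLd]
  have hmem : l8zmTau F N t ∈ Icc (0 : ℝ) 1 := by
    rw [hτ]
    exact ⟨div_nonneg (by linarith) hD.le, (div_le_one hD).2 (by linarith)⟩
  have hT : l9T F N (l8zmTau F N t) = cl := by
    rw [l9f_T_eq, ← hLd, hτ, mul_div_cancel₀ _ hD.ne']
    ring
  rw [l9f_dir0_pt F (by omega), ll04w_U_of_mem hmem, hT]
  have h1 : max (skX N ^ (12 : ℝ)) (min (skX N ^ F.pS) (Real.exp t)) = Real.exp cl := by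
    have e1 := Real.exp_monotone.map_max (a := 12 * L) (b := min (F.pS * L) t)
    have e2 := Real.exp_monotone.map_min (a := F.pS * L) (b := t)
    rw [hcl, e1, e2, Real.rpow_def_of_pos hx.1, Real.rpow_def_of_pos hx.1, hLd, mul_comm (12 : ℝ), mul_comm F.pS]
  have h2 : max 1 (min ((2 : ℝ) ^ (1 / 6 : ℝ)) ell) = ell := by rw [min_eq_right hl.2, max_eq_right hl.1]
  have e : l8Cl F (l9PtL N ell γ t) = ll04Pt N (max 1 (min ((2 : ℝ) ^ (1 / 6 : ℝ)) ell))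
      (max (skX N ^ (12 : ℝ)) (min (skX N ^ F.pS) (Real.exp t))) 0 1 false γ := rfl
  rw [e, h1, h2]
  rfl

theorem l8zm_dir_lam (F : LlFix) (N : ℕ) (ell : ℝ) (i : Fin 3) :
    Measurable fun z : (Fin (N + 1) → ℝ) × ℝ => (ll04Dir F N ell i z.1 z.2).lam := by
  have hU : Measurable fun z : (Fin (N + 1) → ℝ) × ℝ => ll04U 1 z.2 := by
    unfold ll04U
    exact measurable_const.max (measurable_const.min measurable_snd)
  by_cases hi : i = 0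
  · have e : (fun z : (Fin (N + 1) → ℝ) × ℝ => (ll04Dir F N ell i z.1 z.2).lam)
        = fun z => skX N ^ (12 * (1 - ll04U 1 z.2) + F.pS * ll04U 1 z.2) := by
      funext z
      show (if i = 0 then skX N ^ (12 * (1 - ll04U 1 z.2) + F.pS * ll04U 1 z.2) else skX N ^ F.pS) = _
      rw [if_pos hi]
    rw [e]
    exact measurable_const.pow ((((measurable_const.sub hU).const_mul 12)).add (hU.const_mul _))
  · have e : (fun z : (Fin (N + 1) → ℝ) × ℝ => (ll04Dir F N ell i z.1 z.2).lam) = fun _ => skX N ^ F.pS := by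
      funext z
      show (if i = 0 then skX N ^ (12 * (1 - ll04U 1 z.2) + F.pS * ll04U 1 z.2) else skX N ^ F.pS) = _
      rw [if_neg hi]
    rw [e]
    exact measurable_const

/-! ## 9. MEAS -/

/-- **MEAS** (`= L8zMeas 𝔹 T` of `L08/GlueZ.lean`), abstract base -/
theorem l8zm_main (𝔹 : LlBase) (T : ℝ) :
    ∀ F0, L8Fix 𝔹 T F0 → ∀ (pB : LLParB) (pS c : ℝ), 0 < pS → pS ≤ 1 → ∃ N0 : ℕ, ∀ N, N0 ≤ N → ∀ (Fs : Finset GhPos) (m : ℕ), 1 ≤ m →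
    (∀ ell ∈ Icc (1 : ℝ) ((2 : ℝ) ^ (1 / 6 : ℝ)),
      Measurable (fun z : (Fin (N + 1) → ℝ) × ℝ => (l8Mj c).Z (F0.wExp pB.sStar pB.eta pS) 𝔹 Fs (l9PtL N ell z.1 z.2) m) ∧
      ∀ i : Fin 3, Measurable (fun z : (Fin (N + 1) → ℝ) × ℝ => (l8Mj c).Z (F0.wExp pB.sStar pB.eta pS) 𝔹 Fs (ll04Dir (F0.wExp pB.sStar pB.eta pS) N ell i z.1 z.2) m)) ∧
    Measurable (fun z : (Fin (N + 1) → ℝ) × ℝ => (l8Mj c).Z (F0.wExp pB.sStar pB.eta pS) 𝔹 Fs (l9PtS (F0.wExp pB.sStar pB.eta pS) N z.1 z.2) m) ∧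
    Measurable (fun z : (Fin (N + 1) → ℝ) × ℝ => (l8Mj c).Zg (F0.wExp pB.sStar pB.eta pS) 𝔹 Fs (l9PtS (F0.wExp pB.sStar pB.eta pS) N z.1 z.2) m) := by
  intro F0 h0 pB pS c hp0 hp1
  obtain ⟨F, hF⟩ : ∃ F, F = F0.wExp pB.sStar pB.eta pS := ⟨_, rfl⟩
  rw [← hF]
  have hE : LlExpOk F.sS F.eta F.pS := by rw [hF]; exact llc_expOk pB hp0 hp1
  have h3 : LlSec3 𝔹 F := by rw [hF]; exact (h0.2.2 _ _ _ (llc_expOk pB hp0 hp1)).sec3
  have hP : LlBaseProfile 𝔹 F.T := by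
    have : F.T = T := by rw [hF]; exact h0.1
    rw [this]; exact h0.2.1
  have hp12 : F.pS < 12 := by have := hE.p_hi; linarith
  obtain ⟨C, N0, -, hN0, H⟩ := ll04v_main 𝔹 F hE hP h3
  refine ⟨N0, fun N hN Fs m hm => ?_⟩
  have hN2 : 2 ≤ N := hN0.trans hN
  obtain ⟨Hd, Hs, -⟩ := H N hN
  have hdir : ∀ ell ∈ Icc (1 : ℝ) ((2 : ℝ) ^ (1 / 6 : ℝ)), ∀ i : Fin 3,
      Measurable (fun z : (Fin (N + 1) → ℝ) × ℝ => (L8In.mk F 𝔹 (ll04Dir F N ell i z.1 z.2) m 0 Fs).Z) := fun ell hl i =>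
    (l8zm_seg 𝔹 F (pt := ll04Dir F N ell i) (by linarith [hl.1]) (Hd ell hl i) (fun _ _ => rfl) (l8zm_dir_lam F N ell i) Fs hm 0 c).1
  have hlamS : Measurable fun z : (Fin (N + 1) → ℝ) × ℝ => (ll04Siz F N (Real.log 2) z.1 z.2).lam := by
    have e : (fun z : (Fin (N + 1) → ℝ) × ℝ => (ll04Siz F N (Real.log 2) z.1 z.2).lam) = fun _ => skX N ^ F.pS := by
      funext z
      rfl
    rw [e]
    exact measurable_const
  have hNS : ∀ (γ : Fin (N + 1) → ℝ) (t : ℝ), (ll04Siz F N (Real.log 2) γ t).N = N := fun _ _ => rfl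
  have hsiz := l8zm_seg 𝔹 F (pt := ll04Siz F N (Real.log 2)) (by norm_num : (0 : ℝ) < 4) (Hs (Real.log 2) ⟨Real.log_nonneg (by norm_num), le_rfl⟩) hNS
    hlamS Fs hm 0 c
  refine ⟨fun ell hl => ⟨?_, fun i => ?_⟩, ?_, ?_⟩
  · show Measurable (fun z : (Fin (N + 1) → ℝ) × ℝ => (L8In.mk F 𝔹 (l8Cl F (l9PtL N ell z.1 z.2)) m 0 Fs).Z)
    have hc : Measurable (fun z : (Fin (N + 1) → ℝ) × ℝ => ((z.1, l8zmTau F N z.2) : (Fin (N + 1) → ℝ) × ℝ)) :=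
      measurable_fst.prodMk ((l8zm_tau_meas F N).comp measurable_snd)
    have e : (fun z : (Fin (N + 1) → ℝ) × ℝ => (L8In.mk F 𝔹 (l8Cl F (l9PtL N ell z.1 z.2)) m 0 Fs).Z)
        = (fun z : (Fin (N + 1) → ℝ) × ℝ => (L8In.mk F 𝔹 (ll04Dir F N ell 0 z.1 z.2) m 0 Fs).Z) ∘
          (fun z : (Fin (N + 1) → ℝ) × ℝ => ((z.1, l8zmTau F N z.2) : (Fin (N + 1) → ℝ) × ℝ)) := by
      funext z
      rw [l8zm_cl_L F hp12 hN2 hl, Function.comp_apply]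
    rw [e]
    exact (hdir ell hl 0).comp hc
  · show Measurable (fun z : (Fin (N + 1) → ℝ) × ℝ => (L8In.mk F 𝔹 (l8Cl F (ll04Dir F N ell i z.1 z.2)) m 0 Fs).Z)
    simp only [l8zm_cl_dir F hp12.le hN2 hl]
    exact hdir ell hl i
  · show Measurable (fun z : (Fin (N + 1) → ℝ) × ℝ => (L8In.mk F 𝔹 (l8Cl F (l9PtS F N z.1 z.2)) m 0 Fs).Z)
    simp only [l8zm_cl_siz F hp12.le (by omega : 1 ≤ N)]
    exact hsiz.1
  · show Measurable (fun z : (Fin (N + 1) → ℝ) × ℝ => (L8In.mk F 𝔹 (l8Cl F (l9PtS F N z.1 z.2)) m 0 Fs).Zg c)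
    simp only [l8zm_cl_siz F hp12.le (by omega : 1 ≤ N)]
    exact hsiz.2

end Claimed.Agent.R286
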