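-- KEEP
import Claimed.Agent.R286.L08.Glue
import Claimed.Agent.R286.L08.GlueZK
import Claimed.Agent.R286.Bud.TopDefs
import Claimed.Agent.R286.L08.Brz
import Claimed.Agent.R286.Exit.C12
import Claimed.Agent.R286.L08.Meas
import Claimed.Agent.R286.L09.RegIn
import Claimed.Agent.R286.L08.DcsSw
import Claimed.Agent.R286.L08.CSP

/-!
# Row 286 (S0533), folder L08, file GlueZ : SKELETON OF `Exit/DZ` (majorants) AND `Exit/DCS` (Lemma 8.8)      (owner helper75; names `L8z*`, `l8z_*`)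

    exit_dz   <=  l8z_asm   <=  l8z_bud ((C1), (C2) of LL 07: 66 / 162)  +  l8z_meas  +  l8z_one  +  l8z_br (chain budget ≤ path budget + tiny)  +  l8z_le
    exit_dcs  <=  l8z_cs_asm <=  exit_dz  +  l8z_co_pw (pointwise speed, strength sweep, ANY Y)  +  l8z_sw_pw (pointwise speed, multiplier sweeps)  +  l8z_dif (a.e. parameter is a point of `Dif`)
    l8z_co_pw, l8z_sw_pw  <=  `L08/CS.lean` + `L08/CSP.lean` (78: reduced chain, step level core `l8y_core`, `l8y_core_sw`, PROVED) through the adapters of `L08/CsPw.lean`      (ruling of 228, 05:58Z; INTERIOR parameters only)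

TeX: 08-statistics.tex l.22-40 (majorants), l.924-997 (Lemma 8.8).
-/

set_option autoImplicit false

namespace Claimed.Agent.R286

open MeasureTheory Set Filter Finset

noncomputable section

/-! ## 1. majorants -/

/-- **SUPPLY (C1), (C2)** at the exponents of stage B.      OWNER: 66 / 162 (`bt_targets`, Bud/TopExit) -/
def L8zBud (𝔹 : LlBase) (T : ℝ) : Prop :=
  ∀ F0, L8Fix 𝔹 T F0 → ∀ pB : LLParB, LlcStB 𝔹 F0 pB → ∃ p0 : ℝ, 0 < p0 ∧ p0 ≤ 1 ∧ ∀ pS, 0 < pS → pS ≤ p0 →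
    BtC1 𝔹 (F0.wExp pB.sStar pB.eta pS) ∧ BtC2 𝔹 (F0.wExp pB.sStar pB.eta pS) (min pB.cG (1 / 8) / 2)

/-- **MEAS**: on a FIXED chain the majorants are measurable in `(γ, path parameter)`, for all real values of the parameter (clamp `l8Cl`; `ll04Dir` is clamped).
ROUTE: finite sums and products of `obS, obB` (continuous in the increments of the step path: Fd/Obs) and `llQs`, evaluated at the clock VALUES `ghAt a (p.b ..) q`, .. which are continuous in `(γ, parameter)` on the ranges (LL03; same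
supply as item (a) of `L9Reg`); `rpow`, `sqrt`, `max`, `if U ≤ dy j` are measurable. -/
def L8zMeas (𝔹 : LlBase) (T : ℝ) : Prop :=
  ∀ F0, L8Fix 𝔹 T F0 → ∀ (pB : LLParB) (pS c : ℝ), 0 < pS → pS ≤ 1 → ∃ N0 : ℕ, ∀ N, N0 ≤ N → ∀ (Fs : Finset GhPos) (m : ℕ), 1 ≤ m →
    (∀ ell ∈ Icc (1 : ℝ) ((2 : ℝ) ^ (1 / 6 : ℝ)),
      Measurable (fun z : (Fin (N + 1) → ℝ) × ℝ => (l8Mj c).Z (F0.wExp pB.sStar pB.eta pS) 𝔹 Fs (l9PtL N ell z.1 z.2) m) ∧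
      ∀ i : Fin 3, Measurable (fun z : (Fin (N + 1) → ℝ) × ℝ => (l8Mj c).Z (F0.wExp pB.sStar pB.eta pS) 𝔹 Fs (ll04Dir (F0.wExp pB.sStar pB.eta pS) N ell i z.1 z.2) m)) ∧
    Measurable (fun z : (Fin (N + 1) → ℝ) × ℝ => (l8Mj c).Z (F0.wExp pB.sStar pB.eta pS) 𝔹 Fs (l9PtS (F0.wExp pB.sStar pB.eta pS) N z.1 z.2) m) ∧
    Measurable (fun z : (Fin (N + 1) → ℝ) × ℝ => (l8Mj c).Zg (F0.wExp pB.sStar pB.eta pS) 𝔹 Fs (l9PtS (F0.wExp pB.sStar pB.eta pS) N z.1 z.2) m)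

/-- **BRIDGE**: on a fine chain the dyadic budgets and the weighted budget of the chain are bounded by those of the path (comparable enlargement), up to a negligible error; uniformly in the point.
ROUTE: `I.Fine η`; chain statistics = path statistics of the SAMPLED (step) clocks (`exit_clk_step_*`); Lipschitz dependence of `∫ φ S`, `∫ φ B` on the clocks (`exit_clk_stat_lip`), `η N` beats the constant; `q`: Q-LINK of `I.Fine`. -/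
def L8zBr (𝔹 : LlBase) (T : ℝ) : Prop :=
  ∀ F0, L8Fix 𝔹 T F0 → ∀ (pB : LLParB) (pS : ℝ), 0 < pS → pS ≤ 1 → ∃ N0 : ℕ, L8Ev (F0.wExp pB.sStar pB.eta pS) 𝔹 N0 (fun _ => True) fun I =>
    (∀ k ≤ I.n, 0 ≤ I.A k ∧ I.A k ≤ 4) ∧
    (∀ u, I.U ≤ u → u ≤ 4 → u * I.int (u / 4) (4 * u) I.A ≤
      4 * (min u I.a * I.p.wA I.F I.𝔹 I.m (indicator (Icc (min u I.a / 16) (16 * min u I.a)) 1)) + I.U ^ 4 / (I.p.N + 3)) ∧
    (I.int 0 I.a fun k => I.v k ^ 2 * I.A k) ≤ I.p.wA I.F I.𝔹 I.m (fun v => v ^ 2 + I.U ^ 2) + I.x ^ 8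

/-! ### kit of `l8z_asm` (helper195) -/

theorem l8z_v_brg (I : L8In) (j : ℕ) : I.v j = brgMs I.a (ghPs I.a (l9Fl I.Fs)) j := by
  by_cases hj : j < (ghPs I.a (l9Fl I.Fs)).length
  · have h' : I.v j = ((ghPs I.a (l9Fl I.Fs))[j]).u := l8b_v_u I j hj
    rw [h']
    simp [brgMs, List.getElem?_eq_getElem hj]
  · have hj' : (ghPs I.a (l9Fl I.Fs)).length ≤ j := not_lt.1 hj
    have hn : I.n = (ghPs I.a (l9Fl I.Fs)).length := l8b_n I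
    have h1 : I.v j = I.a := bud_pp_ms_top I.P0 (by rw [l8b_P0_len, hn]; exact hj')
    rw [h1]
    simp [brgMs, List.getElem?_eq_none hj']

theorem l8z_dv_nonneg (I : L8In) (ha : 0 ≤ I.a) {k : ℕ} (hk : k ≤ I.n) : 0 ≤ I.dv k := by
  have hn : I.n = (ghPs I.a (l9Fl I.Fs)).length := l8b_n I
  have h := brg_gap_nonneg ha (l9Fl I.Fs) k (by rw [← hn]; exact hk)
  have e : I.dv k = brgGap I.a (ghPs I.a (l9Fl I.Fs)) k := by
    rw [l8b_dv]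
    unfold brgGap l8bL
    simp only [l8z_v_brg]
  rw [e]
  exact h

theorem l8z_dv_sum (I : L8In) : ∑ k ∈ range (I.n + 1), I.dv k = I.a := by
  have h := l8b_tel I.v id I.n
  simp only [id] at h
  rw [l8b_v_top, sub_zero] at h
  rw [← h]
  exact Finset.sum_congr rfl fun k _ => l8b_dv I k

theorem l8z_int_nonneg (I : L8In) (ha : 0 ≤ I.a) (lo hi : ℝ) {g : ℕ → ℝ} (hg : ∀ k ≤ I.n, 0 ≤ g k) : 0 ≤ I.int lo hi g := by
  unfold L8In.int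
  refine Finset.sum_nonneg fun k hk => ?_
  have hk' : k ≤ I.n := Nat.lt_succ_iff.1 (Finset.mem_range.1 (Finset.mem_filter.1 hk).1)
  exact mul_nonneg (l8z_dv_nonneg I ha hk') (hg k hk')

theorem l8z_int_le (I : L8In) (ha : 0 ≤ I.a) (lo hi : ℝ) {g : ℕ → ℝ} {G : ℝ} (hG : 0 ≤ G) (hg : ∀ k ≤ I.n, g k ≤ G) : I.int lo hi g ≤ I.a * G := by
  unfold L8In.int
  calc ∑ k ∈ (range (I.n + 1)).filter (fun k => lo ≤ I.v k ∧ I.v k ≤ hi), I.dv k * g k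
      ≤ ∑ k ∈ (range (I.n + 1)).filter (fun k => lo ≤ I.v k ∧ I.v k ≤ hi), I.dv k * G := by
        refine Finset.sum_le_sum fun k hk => ?_
        have hk' : k ≤ I.n := Nat.lt_succ_iff.1 (Finset.mem_range.1 (Finset.mem_filter.1 hk).1)
        exact mul_le_mul_of_nonneg_left (hg k hk') (l8z_dv_nonneg I ha hk')
    _ ≤ ∑ k ∈ range (I.n + 1), I.dv k * G := by
        refine Finset.sum_le_sum_of_subset_of_nonneg (Finset.filter_subset _ _) fun k hk _ => ?_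
        exact mul_nonneg (l8z_dv_nonneg I ha (Nat.lt_succ_iff.1 (Finset.mem_range.1 hk))) hG
    _ = I.a * G := by rw [← Finset.sum_mul, l8z_dv_sum]

theorem l8z_dy_pos (j : ℕ) : 0 < L8In.dy j := by
  unfold L8In.dy
  positivity

theorem l8z_dy_le (j : ℕ) : L8In.dy j ≤ 4 := by
  unfold L8In.dy
  have : ((2 : ℝ)⁻¹) ^ j ≤ 1 := pow_le_one₀ (by norm_num) (by norm_num)
  linarith

theorem l8z_bud_nonneg (I : L8In) (ha : 0 ≤ I.a) (hA : ∀ k ≤ I.n, 0 ≤ I.A k ∧ I.A k ≤ 4) : 0 ≤ I.bud := by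
  unfold L8In.bud
  refine Finset.sum_nonneg fun j _ => ?_
  split_ifs
  · exact mul_nonneg (l8z_dy_pos j).le (l8z_int_nonneg I ha _ _ fun k hk => (hA k hk).1)
  · exact le_rfl

theorem l8z_bud_le (I : L8In) (ha : 0 ≤ I.a) (ha4 : I.a ≤ 4) (hA : ∀ k ≤ I.n, 0 ≤ I.A k ∧ I.A k ≤ 4) : I.bud ≤ ((I.p.N : ℝ) + 3) * 64 := by
  unfold L8In.bud
  calc ∑ j ∈ range (I.p.N + 3), (if I.U ≤ L8In.dy j then L8In.dy j * I.int (L8In.dy j / 4) (4 * L8In.dy j) I.A else 0)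
      ≤ ∑ _j ∈ range (I.p.N + 3), (64 : ℝ) := by
        refine Finset.sum_le_sum fun j _ => ?_
        split_ifs
        · have h1 := l8z_int_le I ha (L8In.dy j / 4) (4 * L8In.dy j) (by norm_num : (0 : ℝ) ≤ 4) (fun k hk => (hA k hk).2)
          have h0 := l8z_int_nonneg I ha (L8In.dy j / 4) (4 * L8In.dy j) (fun k hk => (hA k hk).1)
          calc L8In.dy j * I.int (L8In.dy j / 4) (4 * L8In.dy j) I.A ≤ 4 * 16 :=
                mul_le_mul (l8z_dy_le j) (h1.trans (by linarith)) h0 (by norm_num)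
            _ = 64 := by norm_num
        · norm_num
    _ = ((I.p.N : ℝ) + 3) * 64 := by
        rw [Finset.sum_const, Finset.card_range, nsmul_eq_mul]
        push_cast
        ring

theorem l8z_bud_fine (I : L8In) (hU1 : I.U ≤ 1) (ha1 : 1 ≤ I.a) {Bm : ℝ}
    (h2 : ∀ u, I.U ≤ u → u ≤ 4 → u * I.int (u / 4) (4 * u) I.A ≤
      4 * (min u I.a * I.p.wA I.F I.𝔹 I.m (indicator (Icc (min u I.a / 16) (16 * min u I.a)) 1)) + I.U ^ 4 / (I.p.N + 3))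
    (hB : ∀ u, 1 * I.U ≤ u → u ≤ I.a → u * I.p.wA I.F I.𝔹 I.m (indicator (Icc (u / 16) (16 * u)) 1) ≤ Bm) :
    I.bud ≤ (((range (I.p.N + 3)).filter fun j => I.U ≤ L8In.dy j).card : ℝ) * (4 * Bm) + I.U ^ 4 := by
  unfold L8In.bud
  calc ∑ j ∈ range (I.p.N + 3), (if I.U ≤ L8In.dy j then L8In.dy j * I.int (L8In.dy j / 4) (4 * L8In.dy j) I.A else 0)
      ≤ ∑ j ∈ range (I.p.N + 3), ((if I.U ≤ L8In.dy j then 4 * Bm else 0) + I.U ^ 4 / ((I.p.N : ℝ) + 3)) := by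
        refine Finset.sum_le_sum fun j _ => ?_
        have hpos : 0 ≤ I.U ^ 4 / ((I.p.N : ℝ) + 3) := by positivity
        split_ifs with hj
        · have h := h2 _ hj (l8z_dy_le j)
          have hb := hB (min (L8In.dy j) I.a) (by rw [one_mul]; exact le_min hj (hU1.trans ha1)) (min_le_right _ _)
          linarith
        · linarith
    _ = (((range (I.p.N + 3)).filter fun j => I.U ≤ L8In.dy j).card : ℝ) * (4 * Bm) + I.U ^ 4 := by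
        rw [Finset.sum_add_distrib, Finset.sum_const, Finset.card_range, ← Finset.sum_filter, Finset.sum_const, nsmul_eq_mul, nsmul_eq_mul]
        congr 1
        push_cast
        field_simp

theorem l8z_cnt (N : ℕ) (hN : 1 ≤ N) {U ε : ℝ} (hε : 0 < ε) (hU : skX N ≤ U) :
    (((range (N + 3)).filter fun j => U ≤ L8In.dy j).card : ℝ) ≤ (4 * (N : ℝ)) ^ ε / (ε * Real.log 2) + 1 := by
  have hN1 : (1 : ℝ) ≤ N := by exact_mod_cast hN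
  have hN0 : (0 : ℝ) < N := by linarith
  have hlog2 : 0 < Real.log 2 := Real.log_pos (by norm_num)
  have hR0 : 0 ≤ (4 * (N : ℝ)) ^ ε / (ε * Real.log 2) := by positivity
  have hsub : (range (N + 3)).filter (fun j => U ≤ L8In.dy j) ⊆ range (⌊(4 * (N : ℝ)) ^ ε / (ε * Real.log 2)⌋₊ + 1) := by
    intro j hj
    have hj2 := (Finset.mem_filter.1 hj).2
    rw [Finset.mem_range, Nat.lt_succ_iff]
    apply Nat.le_floor
    have hx : skX N ≤ 4 * ((2 : ℝ) ^ j)⁻¹ := by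
      have := hU.trans hj2
      unfold L8In.dy at this
      rwa [inv_pow] at this
    have hxN : (N : ℝ)⁻¹ ≤ skX N := by
      rw [← Real.rpow_neg_one]
      exact Real.rpow_le_rpow_of_exponent_le hN1 (by norm_num)
    have hp : 0 < (2 : ℝ) ^ j := by positivity
    have h2j : (2 : ℝ) ^ j ≤ 4 * N := by
      calc (2 : ℝ) ^ j = (2 : ℝ) ^ j * N * (N : ℝ)⁻¹ := by field_simp
        _ ≤ (2 : ℝ) ^ j * N * (4 * ((2 : ℝ) ^ j)⁻¹) := mul_le_mul_of_nonneg_left (hxN.trans hx) (by positivity)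
        _ = 4 * N := by field_simp
    have hlog : (j : ℝ) * Real.log 2 ≤ Real.log (4 * N) := by
      rw [← Real.log_pow]
      exact Real.log_le_log hp h2j
    have hl2 : Real.log (4 * N) ≤ (4 * (N : ℝ)) ^ ε / ε := Real.log_le_rpow_div (by positivity) hε
    rw [le_div_iff₀ (by positivity)]
    calc (j : ℝ) * (ε * Real.log 2) = ε * (j * Real.log 2) := by ring
      _ ≤ ε * ((4 * (N : ℝ)) ^ ε / ε) := mul_le_mul_of_nonneg_left (hlog.trans hl2) hε.le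
      _ = (4 * (N : ℝ)) ^ ε := by field_simp
  calc (((range (N + 3)).filter fun j => U ≤ L8In.dy j).card : ℝ)
      ≤ ((range (⌊(4 * (N : ℝ)) ^ ε / (ε * Real.log 2)⌋₊ + 1)).card : ℝ) := by exact_mod_cast Finset.card_le_card hsub
    _ = (⌊(4 * (N : ℝ)) ^ ε / (ε * Real.log 2)⌋₊ : ℝ) + 1 := by rw [Finset.card_range]; push_cast; rfl
    _ ≤ (4 * (N : ℝ)) ^ ε / (ε * Real.log 2) + 1 := by linarith [Nat.floor_le hR0]

theorem l8z_pow4 {y : ℝ} (hy : 0 ≤ y) : (1 + y ^ (1 / 4 : ℝ)) ^ 4 ≤ 8 * (1 + y) := by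
  have ht0 : 0 ≤ y ^ (1 / 4 : ℝ) := Real.rpow_nonneg hy _
  have ht4 : (y ^ (1 / 4 : ℝ)) ^ 4 = y := by
    rw [← Real.rpow_natCast, ← Real.rpow_mul hy]
    norm_num
  generalize y ^ (1 / 4 : ℝ) = t at ht0 ht4
  rw [← ht4]
  have h1 : (1 + t) ^ 2 ≤ 2 * (1 + t ^ 2) := by nlinarith [sq_nonneg (t - 1)]
  have h2 : (1 + t ^ 2) ^ 2 ≤ 2 * (1 + t ^ 4) := by nlinarith [sq_nonneg (t ^ 2 - 1)]
  calc (1 + t) ^ 4 = ((1 + t) ^ 2) ^ 2 := by ring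
    _ ≤ (2 * (1 + t ^ 2)) ^ 2 := pow_le_pow_left₀ (by positivity) h1 2
    _ = 4 * (1 + t ^ 2) ^ 2 := by ring
    _ ≤ 8 * (1 + t ^ 4) := by linarith

/-- one instance: `1 ≤ Z`, `Z⁴ ≤ 16 + 32 (#dyads) Bm / U⁴` -/
theorem l8z_Z4_one (I : L8In) (hF : I.F.Ok) (hp : I.p.Ok I.F) {Bm ε : ℝ} (hε : 0 < ε) (hBm : 0 ≤ Bm)
    (hA : ∀ k ≤ I.n, 0 ≤ I.A k ∧ I.A k ≤ 4)
    (h2 : ∀ u, I.U ≤ u → u ≤ 4 → u * I.int (u / 4) (4 * u) I.A ≤
      4 * (min u I.a * I.p.wA I.F I.𝔹 I.m (indicator (Icc (min u I.a / 16) (16 * min u I.a)) 1)) + I.U ^ 4 / (I.p.N + 3))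
    (hB : ∀ u, 1 * I.U ≤ u → u ≤ I.a → u * I.p.wA I.F I.𝔹 I.m (indicator (Icc (u / 16) (16 * u)) 1) ≤ Bm) :
    1 ≤ I.Z ∧ I.Z ^ 4 ≤ 16 + 32 * ((4 * (I.p.N : ℝ)) ^ ε / (ε * Real.log 2) + 1) / I.U ^ 4 * Bm := by
  have ha1 : 1 ≤ I.a := bt_a_ge_one hp
  have ha0 : 0 ≤ I.a := by linarith
  have hU0 : 0 < I.U := bt_U_pos hp
  have hU1 : I.U ≤ 1 := bt_U_le_one _
  have hb0 := l8z_bud_nonneg I ha0 hA
  have hy0 : 0 ≤ I.bud / I.U ^ 4 := div_nonneg hb0 (by positivity)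
  refine ⟨?_, ?_⟩
  · unfold L8In.Z
    have := Real.rpow_nonneg hy0 (1 / 4 : ℝ)
    linarith
  · have hc := l8z_cnt I.p.N (by have := hp.N2; omega) (U := I.U) hε (bt_x_le_U hF hp)
    have hf := l8z_bud_fine I hU1 ha1 h2 hB
    have hU4 : 0 < I.U ^ 4 := by positivity
    have h4 : I.Z ^ 4 ≤ 8 * (1 + I.bud / I.U ^ 4) := l8z_pow4 hy0
    have h5 : I.bud ≤ ((4 * (I.p.N : ℝ)) ^ ε / (ε * Real.log 2) + 1) * (4 * Bm) + I.U ^ 4 :=
      hf.trans (by have := mul_le_mul_of_nonneg_right hc (by linarith : 0 ≤ 4 * Bm); linarith)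
    have h6 : I.bud / I.U ^ 4 ≤ (((4 * (I.p.N : ℝ)) ^ ε / (ε * Real.log 2) + 1) * (4 * Bm) + I.U ^ 4) / I.U ^ 4 :=
      div_le_div_of_nonneg_right h5 hU4.le
    have h7 : (((4 * (I.p.N : ℝ)) ^ ε / (ε * Real.log 2) + 1) * (4 * Bm) + I.U ^ 4) / I.U ^ 4
        = 4 * ((4 * (I.p.N : ℝ)) ^ ε / (ε * Real.log 2) + 1) / I.U ^ 4 * Bm + 1 := by
      rw [add_div, div_self hU4.ne']
      ring
    rw [h7] at h6
    calc I.Z ^ 4 ≤ 8 * (1 + I.bud / I.U ^ 4) := h4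
      _ ≤ 8 * (1 + (4 * ((4 * (I.p.N : ℝ)) ^ ε / (ε * Real.log 2) + 1) / I.U ^ 4 * Bm + 1)) := by linarith
      _ = 16 + 32 * ((4 * (I.p.N : ℝ)) ^ ε / (ε * Real.log 2) + 1) / I.U ^ 4 * Bm := by ring

theorem l8z_lint {N : ℕ} {f Bm : (Fin (N + 1) → ℝ) → ℝ} {K V : ℝ} (hK : 0 ≤ K) (hV : 0 ≤ V) (hBm : Measurable Bm) (hB0 : ∀ γ, 0 ≤ Bm γ)
    (hi : ∫⁻ γ, ENNReal.ofReal (Bm γ) ∂ll04Mu N ≤ ENNReal.ofReal V) (hf : ∀ γ, f γ ≤ 16 + K * Bm γ) :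
    ∫⁻ γ, ENNReal.ofReal (f γ) ∂ll04Mu N ≤ ENNReal.ofReal (16 + K * V) := by
  have := ll04a_prob N
  calc ∫⁻ γ, ENNReal.ofReal (f γ) ∂ll04Mu N
      ≤ ∫⁻ γ, (ENNReal.ofReal 16 + ENNReal.ofReal K * ENNReal.ofReal (Bm γ)) ∂ll04Mu N := by
        refine lintegral_mono fun γ => ?_
        rw [← ENNReal.ofReal_mul hK, ← ENNReal.ofReal_add (by norm_num) (mul_nonneg hK (hB0 γ))]
        exact ENNReal.ofReal_le_ofReal (hf γ)
    _ = ENNReal.ofReal 16 + ENNReal.ofReal K * ∫⁻ γ, ENNReal.ofReal (Bm γ) ∂ll04Mu N := by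
        rw [lintegral_add_left measurable_const, lintegral_const, measure_univ, mul_one, lintegral_const_mul _ hBm.ennreal_ofReal]
    _ ≤ ENNReal.ofReal 16 + ENNReal.ofReal K * ENNReal.ofReal V := by gcongr
    _ = ENNReal.ofReal (16 + K * V) := by
        rw [← ENNReal.ofReal_mul hK, ← ENNReal.ofReal_add (by norm_num) (mul_nonneg hK hV)]

theorem l8z_x_rpow {N : ℕ} (hN : 1 ≤ N) (ε : ℝ) : skX N ^ (-(12 * ε)) = (N : ℝ) ^ ε * (N : ℝ) ^ ε := by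
  have hN0 : (0 : ℝ) < N := by exact_mod_cast (by omega : 0 < N)
  unfold skX
  rw [← Real.rpow_mul hN0.le, ← Real.rpow_add hN0]
  congr 1
  ring

/-- **`E_γ Z⁴`** on every segment -/
theorem l8z_EZ4 {𝔹 : LlBase} {F : LlFix} (hF : F.Ok) (hpS : F.pS ≤ 12) (c : ℝ) (hC1 : BtC1at 𝔹 F 1 16)
    (hbr : ∃ N0 : ℕ, L8Ev F 𝔹 N0 (fun _ => True) fun I =>
      (∀ k ≤ I.n, 0 ≤ I.A k ∧ I.A k ≤ 4) ∧
      (∀ u, I.U ≤ u → u ≤ 4 → u * I.int (u / 4) (4 * u) I.A ≤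
        4 * (min u I.a * I.p.wA I.F I.𝔹 I.m (indicator (Icc (min u I.a / 16) (16 * min u I.a)) 1)) + I.U ^ 4 / (I.p.N + 3)) ∧
      (I.int 0 I.a fun k => I.v k ^ 2 * I.A k) ≤ I.p.wA I.F I.𝔹 I.m (fun v => v ^ 2 + I.U ^ 2) + I.x ^ 8)
    {δ : ℝ} (hδ : 0 < δ) :
    ∃ (C : ℝ) (N0 : ℕ), ∀ N, N0 ≤ N → ∀ᶠ Fs : Finset GhPos in atTop, ∀ m : ℕ, N ≤ 2 * m → m ≤ 3 * N →
      ∀ (ell lam chiL chiE : ℝ) (sm : Bool), BtSeg F N ell lam chiL chiE sm →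
        (∀ γ, 1 ≤ (l8Mj c).Z F 𝔹 Fs (ll04Pt N ell lam chiL chiE sm γ) m) ∧
        ∫⁻ γ, ENNReal.ofReal ((l8Mj c).Z F 𝔹 Fs (ll04Pt N ell lam chiL chiE sm γ) m ^ 4) ∂ll04Mu N ≤ ENNReal.ofReal (C * skX N ^ (-δ)) := by
  obtain ⟨Nb, hbr⟩ := hbr
  obtain ⟨N1, hC1⟩ := hC1 (δ / 12) (by linarith)
  have hlog2 : 0 < Real.log 2 := Real.log_pos (by norm_num)
  refine ⟨16 + 32 * ((4 : ℝ) ^ (δ / 12) / (δ / 12 * Real.log 2) + 1), max (max N1 Nb) 2, fun N hN => ?_⟩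
  have hN1 : N1 ≤ N := ((le_max_left _ _).trans (le_max_left _ _)).trans hN
  have hNb : Nb ≤ N := ((le_max_right _ _).trans (le_max_left _ _)).trans hN
  have hN2 : 2 ≤ N := (le_max_right _ _).trans hN
  have hNr : (1 : ℝ) ≤ N := by exact_mod_cast (by omega : 1 ≤ N)
  have hx0 : 0 < skX N := Real.rpow_pos_of_pos (by linarith) _
  filter_upwards [hbr N (skX N / 2) hNb] with Fs hFs m hm1 hm2 ell lam chiL chiE sm hseg
  obtain ⟨Bm, hBmm, hBm0, hBmi, hBmb⟩ := hC1 N hN1 ell lam chiL chiE sm hseg m hm1 hm2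
  have hok : ∀ γ, (ll04Pt N ell lam chiL chiE sm γ).Ok F := bt_ok_seg hF hpS hN2 hseg
  have hI : ∀ γ, (L8In.mk F 𝔹 (ll04Pt N ell lam chiL chiE sm γ) m (skX N / 2) Fs).Ok := fun γ =>
    ⟨hok γ, hm1, hm2, half_pos hx0, half_lt_self hx0⟩
  have key : ∀ γ, 1 ≤ (l8Mj c).Z F 𝔹 Fs (ll04Pt N ell lam chiL chiE sm γ) m ∧
      (l8Mj c).Z F 𝔹 Fs (ll04Pt N ell lam chiL chiE sm γ) m ^ 4 ≤
        16 + 32 * ((4 * (N : ℝ)) ^ (δ / 12) / (δ / 12 * Real.log 2) + 1) / (ll04Pt N ell lam chiL chiE sm 0).U F ^ 4 * Bm γ := by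
    intro γ
    obtain ⟨b1, b2, -⟩ := hFs ell lam chiL chiE sm γ m trivial (hI γ)
    have e := (l8_Z_eq (L8In.mk F 𝔹 (ll04Pt N ell lam chiL chiE sm γ) m (skX N / 2) Fs) (hok γ) c).1
    have k := l8z_Z4_one (L8In.mk F 𝔹 (ll04Pt N ell lam chiL chiE sm γ) m (skX N / 2) Fs) hF (hok γ) (by linarith : 0 < δ / 12) (hBm0 γ) b1 b2
      (fun u hu1 hu2 => hBmb γ u hu1 hu2)
    rw [← e] at k
    exact k
  refine ⟨fun γ => (key γ).1, ?_⟩
  have hU0 : 0 < (ll04Pt N ell lam chiL chiE sm 0).U F := bt_U_pos (hok 0)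
  have hw1 : 1 ≤ (N : ℝ) ^ (δ / 12) := Real.one_le_rpow hNr (by linarith)
  have ha0 : 0 ≤ (4 : ℝ) ^ (δ / 12) / (δ / 12 * Real.log 2) := by positivity
  refine (l8z_lint (by positivity) (by positivity) hBmm hBm0 hBmi fun γ => (key γ).2).trans (ENNReal.ofReal_le_ofReal ?_)
  have e1 : skX N ^ (-δ) = (N : ℝ) ^ (δ / 12) * (N : ℝ) ^ (δ / 12) := by
    rw [← l8z_x_rpow (by omega : 1 ≤ N)]
    congr 1
    ring
  have e2 : (4 * (N : ℝ)) ^ (δ / 12) = (4 : ℝ) ^ (δ / 12) * (N : ℝ) ^ (δ / 12) := Real.mul_rpow (by norm_num) (by linarith)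
  have e3 : 32 * ((4 * (N : ℝ)) ^ (δ / 12) / (δ / 12 * Real.log 2) + 1) / (ll04Pt N ell lam chiL chiE sm 0).U F ^ 4 *
      ((N : ℝ) ^ (δ / 12) * (ll04Pt N ell lam chiL chiE sm 0).U F ^ 4)
      = 32 * ((4 : ℝ) ^ (δ / 12) / (δ / 12 * Real.log 2) * (N : ℝ) ^ (δ / 12) + 1) * (N : ℝ) ^ (δ / 12) := by
    rw [e2]
    field_simp
  rw [e3, e1]
  generalize (N : ℝ) ^ (δ / 12) = w at hw1
  generalize (4 : ℝ) ^ (δ / 12) / (δ / 12 * Real.log 2) = a at ha0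
  have hww : w ≤ w * w := by nlinarith
  have h1w : 1 ≤ w * w := by nlinarith
  nlinarith

/-- one instance: `Z_g² ≤ 1 + x^(-4-c) (W + x⁸)` -/
theorem l8z_Zg2_one (I : L8In) (ha : 0 ≤ I.a) (hx : 0 < I.x) (c : ℝ) {W : ℝ} (hA : ∀ k ≤ I.n, 0 ≤ I.A k ∧ I.A k ≤ 4)
    (h3 : (I.int 0 I.a fun k => I.v k ^ 2 * I.A k) ≤ W + I.x ^ 8) :
    0 ≤ W + I.x ^ 8 ∧ I.Zg c ^ 2 ≤ 1 + I.x ^ (-4 - c) * (W + I.x ^ 8) := by
  have hJ : 0 ≤ I.int 0 I.a fun k => I.v k ^ 2 * I.A k := l8z_int_nonneg I ha _ _ fun k hk => mul_nonneg (sq_nonneg _) (hA k hk).1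
  refine ⟨hJ.trans h3, ?_⟩
  have hk0 : 0 ≤ I.x ^ (-4 - c) := Real.rpow_nonneg hx.le _
  have e : (I.x ^ (-2 - c / 2) * Real.sqrt (I.int 0 I.a fun k => I.v k ^ 2 * I.A k)) ^ 2 = I.x ^ (-4 - c) * I.int 0 I.a fun k => I.v k ^ 2 * I.A k := by
    rw [mul_pow, Real.sq_sqrt hJ, ← Real.rpow_natCast, ← Real.rpow_mul hx.le]
    congr 2
    push_cast
    ring
  have hle : I.x ^ (-4 - c) * (I.int 0 I.a fun k => I.v k ^ 2 * I.A k) ≤ I.x ^ (-4 - c) * (W + I.x ^ 8) := mul_le_mul_of_nonneg_left h3 hk0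
  have h0 : 0 ≤ I.x ^ (-4 - c) * (I.int 0 I.a fun k => I.v k ^ 2 * I.A k) := mul_nonneg hk0 hJ
  unfold L8In.Zg
  rcases le_total (I.x ^ (-2 - c / 2) * Real.sqrt (I.int 0 I.a fun k => I.v k ^ 2 * I.A k)) 1 with h | h
  · rw [max_eq_left h]
    linarith
  · rw [max_eq_right h, e]
    linarith

theorem l8z_int_cont {N : ℕ} {f : (Fin (N + 1) → ℝ) → ℝ} (hf : Continuous f) : Integrable f (ll04Mu N) := by
  have := ll04a_prob N
  have hK : IsCompact (Set.pi univ fun _ : Fin (N + 1) => Icc (1 / 3 : ℝ) (2 / 3)) := isCompact_univ_pi fun _ => isCompact_Icc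
  have hae : ∀ᵐ γ ∂ll04Mu N, γ ∈ Set.pi univ fun _ : Fin (N + 1) => Icc (1 / 3 : ℝ) (2 / 3) := by
    have h1 : ∀ i : Fin (N + 1), ∀ᵐ γ ∂ll04Mu N, γ i ∈ Icc (1 / 3 : ℝ) (2 / 3) := fun i =>
      (Measure.tendsto_eval_ae_ae (μ := fun _ : Fin (N + 1) => btNu) (i := i)).eventually
        (Measure.ae_smul_measure (ae_restrict_mem measurableSet_Icc) _)
    filter_upwards [ae_all_iff.2 h1] with γ hγ i _
    exact hγ i
  have h2 : IntegrableOn f (Set.pi univ fun _ : Fin (N + 1) => Icc (1 / 3 : ℝ) (2 / 3)) (ll04Mu N) := hf.continuousOn.integrableOn_compact hK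
  rwa [IntegrableOn, Measure.restrict_eq_self_of_ae_mem hae] at h2

theorem l8z_lint_Zg {N : ℕ} {g w : (Fin (N + 1) → ℝ) → ℝ} {κ e V : ℝ} (hκ : 0 ≤ κ) (hw : Continuous w) (hwi : ∫ γ, w γ ∂ll04Mu N ≤ V)
    (h0 : ∀ γ, 0 ≤ w γ + e) (hg : ∀ γ, g γ ≤ 1 + κ * (w γ + e)) :
    ∫⁻ γ, ENNReal.ofReal (g γ) ∂ll04Mu N ≤ ENNReal.ofReal (1 + κ * (V + e)) := by
  have := ll04a_prob N
  have hwI := l8z_int_cont hw
  have h1 : Integrable (fun γ => κ * (w γ + e)) (ll04Mu N) := (hwI.add (integrable_const e)).const_mul κ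
  have h2 : Integrable (fun γ => 1 + κ * (w γ + e)) (ll04Mu N) := (integrable_const (1 : ℝ)).add h1
  calc ∫⁻ γ, ENNReal.ofReal (g γ) ∂ll04Mu N ≤ ∫⁻ γ, ENNReal.ofReal (1 + κ * (w γ + e)) ∂ll04Mu N :=
        lintegral_mono fun γ => ENNReal.ofReal_le_ofReal (hg γ)
    _ = ENNReal.ofReal (∫ γ, (1 + κ * (w γ + e)) ∂ll04Mu N) :=
        (ofReal_integral_eq_lintegral_ofReal h2 (ae_of_all _ fun γ => add_nonneg zero_le_one (mul_nonneg hκ (h0 γ)))).symm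
    _ ≤ ENNReal.ofReal (1 + κ * (V + e)) := by
        refine ENNReal.ofReal_le_ofReal ?_
        have e1 : ∫ γ, (1 + κ * (w γ + e)) ∂ll04Mu N = 1 + κ * ((∫ γ, w γ ∂ll04Mu N) + e) := by
          rw [integral_add (integrable_const _) h1, integral_const_mul, integral_add hwI (integrable_const _)]
          simp
        rw [e1]
        have := mul_le_mul_of_nonneg_left (add_le_add_right hwi e) hκ
        linarith

theorem l8z_seg_L (F : LlFix) {N : ℕ} (hN : 1 ≤ N) {ell t : ℝ} (hell : ell ∈ Icc (1 : ℝ) ((2 : ℝ) ^ (1 / 6 : ℝ))) (ht : t ∈ l9LamRg F N) :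
    BtSeg F N ell (Real.exp t) 0 1 false := by
  have hx0 : 0 < skX N := Real.rpow_pos_of_pos (by exact_mod_cast (by omega : 0 < N)) _
  refine ⟨hell, Or.inl ⟨rfl, rfl, rfl, ?_, ?_⟩⟩
  · rw [Real.rpow_def_of_pos hx0, mul_comm]
    exact Real.exp_le_exp.2 ht.1.le
  · rw [Real.rpow_def_of_pos hx0, mul_comm]
    exact Real.exp_le_exp.2 ht.2.le

theorem l8z_ell_S {θ : ℝ} (hθ : θ ∈ Icc (0 : ℝ) (Real.log 2)) : Real.exp (θ / 6) ∈ Icc (1 : ℝ) ((2 : ℝ) ^ (1 / 6 : ℝ)) := by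
  refine ⟨Real.one_le_exp (by have := hθ.1; linarith), ?_⟩
  rw [Real.rpow_def_of_pos (by norm_num)]
  exact Real.exp_le_exp.2 (by have := hθ.2; linarith)

theorem l8z_seg_dir (F : LlFix) (hpS : F.pS ≤ 12) {N : ℕ} (hN : 1 ≤ N) {ell : ℝ} (hell : ell ∈ Icc (1 : ℝ) ((2 : ℝ) ^ (1 / 6 : ℝ))) (i : Fin 3) (τ : ℝ) :
    BtSeg F N ell (if i = 0 then skX N ^ (12 * (1 - ll04U 1 τ) + F.pS * ll04U 1 τ) else skX N ^ F.pS)
      (if i = 0 then 0 else if i = 1 then ll04U 1 τ else 1) (if i = 2 then 1 - ll04U 1 τ else 1) false := by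
  have hNr : (1 : ℝ) ≤ N := by exact_mod_cast hN
  have hx0 : 0 < skX N := Real.rpow_pos_of_pos (by linarith) _
  have hx1 : skX N ≤ 1 := Real.rpow_le_one_of_one_le_of_nonpos hNr (by norm_num)
  have hu0 : 0 ≤ ll04U 1 τ := le_max_left _ _
  have hu1 : ll04U 1 τ ≤ 1 := max_le zero_le_one (min_le_left _ _)
  refine ⟨hell, ?_⟩
  fin_cases i
  · refine Or.inl ⟨rfl, by simp, by simp, ?_, ?_⟩
    · simp only [Fin.zero_eta, if_true]
      exact Real.rpow_le_rpow_of_exponent_ge hx0 hx1 (by nlinarith)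
    · simp only [Fin.zero_eta, if_true]
      exact Real.rpow_le_rpow_of_exponent_ge hx0 hx1 (by nlinarith)
  · exact Or.inr (Or.inl ⟨rfl, by simp, by simp [hu0, hu1], by simp⟩)
  · refine Or.inr (Or.inr (Or.inl ⟨rfl, by simp, by simp, ?_⟩))
    have e : (if (⟨2, by norm_num⟩ : Fin 3) = 2 then 1 - ll04U 1 τ else 1) = 1 - ll04U 1 τ := if_pos rfl
    show (if (⟨2, by norm_num⟩ : Fin 3) = 2 then 1 - ll04U 1 τ else 1) ∈ Icc (0 : ℝ) 1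
    rw [e]
    exact ⟨by linarith, by linarith⟩

/-- one instance: `Z ≤ x^(-16)` -/
theorem l8z_Z_le (I : L8In) (hF : I.F.Ok) (hp : I.p.Ok I.F) (hN : 258 ≤ I.p.N) (hA : ∀ k ≤ I.n, 0 ≤ I.A k ∧ I.A k ≤ 4) : I.Z ≤ I.x ^ (-(16 : ℝ)) := by
  have ha1 : 1 ≤ I.a := bt_a_ge_one hp
  have ha0 : 0 ≤ I.a := by linarith
  have ha4 : I.a ≤ 4 := bt_a_le hp
  have hx0 : 0 < I.x := bt_x_pos hp
  have hx1 : I.x ≤ 1 := bt_x_le_one hp
  have hxU : I.x ≤ I.U := bt_x_le_U hF hp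
  have hb0 := l8z_bud_nonneg I ha0 hA
  have hb1 := l8z_bud_le I ha0 ha4 hA
  have hNr : (258 : ℝ) ≤ I.p.N := by exact_mod_cast hN
  have hN0 : (0 : ℝ) < I.p.N := by linarith
  have hx4 : 0 < I.x ^ 4 := by positivity
  have hy0 : 0 ≤ I.bud / I.U ^ 4 := div_nonneg hb0 (by have := hx0.trans_le hxU; positivity)
  have hy1 : I.bud / I.U ^ 4 ≤ (((I.p.N : ℝ) + 3) * 64) / I.x ^ 4 :=
    div_le_div₀ (by positivity) hb1 hx4 (pow_le_pow_left₀ hx0.le hxU 4)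
  have hr : (I.bud / I.U ^ 4) ^ (1 / 4 : ℝ) ≤ 1 + I.bud / I.U ^ 4 := by
    rcases le_total (I.bud / I.U ^ 4) 1 with h | h
    · have := Real.rpow_le_one hy0 h (by norm_num : (0 : ℝ) ≤ 1 / 4)
      linarith
    · have := Real.rpow_le_rpow_of_exponent_le h (by norm_num : (1 / 4 : ℝ) ≤ 1)
      rw [Real.rpow_one] at this
      linarith
  have hx6 : I.x ^ 6 = (I.p.N : ℝ)⁻¹ := by
    show ((I.p.N : ℝ) ^ (-(1 / 6) : ℝ)) ^ 6 = _
    rw [← Real.rpow_natCast, ← Real.rpow_mul hN0.le, ← Real.rpow_neg_one]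
    congr 1
    norm_num
  have e16 : I.x ^ (-(16 : ℝ)) = (I.p.N : ℝ) * I.p.N / I.x ^ 4 := by
    rw [Real.rpow_neg hx0.le, show (16 : ℝ) = ((16 : ℕ) : ℝ) by norm_num, Real.rpow_natCast, show I.x ^ 16 = I.x ^ 6 * I.x ^ 6 * I.x ^ 4 by ring, hx6]
    field_simp
  have h14 : 1 ≤ 1 / I.x ^ 4 := by
    rw [le_div_iff₀ hx4, one_mul]
    exact pow_le_one₀ hx0.le hx1
  rw [e16]
  unfold L8In.Z
  have h3 : (2 : ℝ) ≤ 2 / I.x ^ 4 := by
    have : 2 / I.x ^ 4 = 2 * (1 / I.x ^ 4) := by ring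
    rw [this]
    linarith
  have h4 : 2 / I.x ^ 4 + (((I.p.N : ℝ) + 3) * 64) / I.x ^ 4 ≤ (I.p.N : ℝ) * I.p.N / I.x ^ 4 := by
    rw [← add_div]
    exact div_le_div_of_nonneg_right (by nlinarith) hx4.le
  linarith

/-- **ASSEMBLY of `Exit/DZ`**.   PLAN: (i) `1 ≤ Z`: `bud ≥ 0` by `A ≥ 0`, `dv ≥ 0`; `1 ≤ Z_g`: `le_max_left`.   (ii) `Z ≤ x^(-C)`: `A ≤ 4`, `∑ dv ≤ a ≤ 4`, at most `N + 3` dyads, `U ≥ x`.   (iii) `(Z - 1)⁴ = bud / U⁴`,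
`bud ≤ #{j : 4·2^-j ≥ x} (4 Bm γ) + U⁴`, `#{..} ≤ 3 + log₂ N`, `Bm` = the majorant of `BtC1at 1 16` (`c0 U ≤ min u a`), `Z⁴ ≤ 8 (1 + (Z-1)⁴)`; `lintegral_mono` + `lintegral_add_left` (one measurable summand); `U` does not depend on `γ`.
(iv) `Z_g² ≤ 1 + x^(-4-c) ∫ v² A`, `BtC2.avg`.   (v) the points `l9PtL`, `ll04Dir`, `l9PtS` satisfy `BtSeg` and `p.Ok F` on the ranges: `l8_cl_eq`. -/
theorem l8z_asm {𝔹 : LlBase} {T : ℝ} (hbud : L8zBud 𝔹 T) (hmeas : L8zMeas 𝔹 T) (hbr : L8zBr 𝔹 T) : L8xZ 𝔹 T := by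
  intro F0 hFix pB hSt
  obtain ⟨p0, hp0, hp01, hb⟩ := hbud F0 hFix pB hSt
  have hcG : 0 < pB.cG := by have := pB.tau_pos; have := pB.tau_le_cG; linarith
  have hc0 : 0 < min pB.cG (1 / 8) / 2 := by
    have : 0 < min pB.cG (1 / 8) := lt_min hcG (by norm_num)
    linarith
  have hc4 : min pB.cG (1 / 8) / 2 ≤ 4 := by
    have : min pB.cG (1 / 8) ≤ 1 / 8 := min_le_right _ _
    linarith
  refine ⟨min pB.cG (1 / 8) / 2, p0, hc0, hp0, fun pS hpS0 hpS1 => ?_⟩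
  have hpS1' : pS ≤ 1 := hpS1.trans hp01
  obtain ⟨hC1, hC2⟩ := hb pS hpS0 hpS1
  have hF : (F0.wExp pB.sStar pB.eta pS).Ok := (hFix.2.2 _ _ _ (llc_expOk pB hpS0 hpS1')).sec3.ok
  have hp12 : (F0.wExp pB.sStar pB.eta pS).pS ≤ 12 := by show pS ≤ 12; linarith
  have hbr' := hbr F0 hFix pB pS hpS0 hpS1'
  obtain ⟨Nm, hme⟩ := hmeas F0 hFix pB pS (min pB.cG (1 / 8) / 2) hpS0 hpS1'
  generalize F0.wExp pB.sStar pB.eta pS = F at *
  generalize min pB.cG (1 / 8) / 2 = c at *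
  refine ⟨?_, ?_, ?_⟩
  · -- `L9Mom`
    intro δ hδ
    obtain ⟨C1, N1, h1⟩ := l8z_EZ4 hF hp12 c (hC1 1 16 one_pos (by norm_num)) hbr' hδ
    obtain ⟨Nb, hbr''⟩ := hbr'
    obtain ⟨N2, h2⟩ := hC2.avg
    refine ⟨max C1 3, max (max N1 Nb) (max (max N2 Nm) 2), fun N hN => ?_⟩
    have hN1 : N1 ≤ N := ((le_max_left _ _).trans (le_max_left _ _)).trans hN
    have hNb : Nb ≤ N := ((le_max_right _ _).trans (le_max_left _ _)).trans hN
    have hN2 : N2 ≤ N := (((le_max_left _ _).trans (le_max_left _ _)).trans (le_max_right _ _)).trans hN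
    have hNm : Nm ≤ N := (((le_max_right _ _).trans (le_max_left _ _)).trans (le_max_right _ _)).trans hN
    have hN3 : 2 ≤ N := ((le_max_right _ _).trans (le_max_right _ _)).trans hN
    have hNr : (1 : ℝ) ≤ N := by exact_mod_cast (by omega : 1 ≤ N)
    have hx0 : 0 < skX N := Real.rpow_pos_of_pos (by linarith) _
    have hx1 : skX N ≤ 1 := Real.rpow_le_one_of_one_le_of_nonpos hNr (by norm_num)
    have hxd : 1 ≤ skX N ^ (-δ) := Real.one_le_rpow_of_pos_of_le_one_of_nonpos hx0 hx1 (by linarith)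
    have hCC : ENNReal.ofReal (C1 * skX N ^ (-δ)) ≤ ENNReal.ofReal (max C1 3 * skX N ^ (-δ)) :=
      ENNReal.ofReal_le_ofReal (mul_le_mul_of_nonneg_right (le_max_left _ _) (by linarith))
    filter_upwards [h1 N hN1, hbr'' N (skX N / 2) hNb] with Fs a1 a2 m hm1 hm2
    obtain ⟨me1, me2, me3⟩ := hme N hNm Fs m (by omega)
    have hcl : Measurable (fun z : (Fin (N + 1) → ℝ) × ℝ => (z.1, ll04U (Real.log 2) z.2)) :=
      measurable_fst.prodMk (measurable_const.max (measurable_const.min measurable_snd))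
    have eS : ∀ (γ : Fin (N + 1) → ℝ) (θ : ℝ), ll04Siz F N (Real.log 2) γ θ = l9PtS F N γ (ll04U (Real.log 2) θ) := fun _ _ => rfl
    simp only [eS]
    have me2' := me2.comp hcl
    have me3' := me3.comp hcl
    refine ⟨fun ell hell => ⟨(me1 ell hell).2 0, fun t _ => ?_⟩, me2', me3', fun θ hθ => ?_⟩
    · have := a1 m hm1 hm2 ell _ _ _ false (l8z_seg_dir F hp12 (by omega) hell 0 t)
      exact ⟨this.1, this.2.trans hCC⟩
    · have hU : ll04U (Real.log 2) θ = θ := by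
        unfold ll04U
        rw [min_eq_right hθ.2, max_eq_right hθ.1]
      rw [hU]
      unfold l9PtS
      have hell := l8z_ell_S hθ
      have hseg : BtSeg F N (Real.exp (θ / 6)) (skX N ^ F.pS) 1 0 true := ⟨hell, Or.inr (Or.inr (Or.inr ⟨rfl, rfl, rfl, rfl⟩))⟩
      have hz := a1 m hm1 hm2 _ _ 1 0 true hseg
      have hok : ∀ γ, (ll04Pt N (Real.exp (θ / 6)) (skX N ^ F.pS) 1 0 true γ).Ok F := bt_ok_seg hF hp12 hN3 hseg
      obtain ⟨hcont, havg⟩ := h2 N hN2 _ hell m hm1 hm2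
      have key : ∀ γ, 0 ≤ (ll04Pt N (Real.exp (θ / 6)) (skX N ^ F.pS) 1 0 true γ).wA F 𝔹 m
            (fun v => v ^ 2 + (ll04Pt N (Real.exp (θ / 6)) (skX N ^ F.pS) 1 0 true γ).U F ^ 2) + skX N ^ 8 ∧
          (l8Mj c).Zg F 𝔹 Fs (ll04Pt N (Real.exp (θ / 6)) (skX N ^ F.pS) 1 0 true γ) m ^ 2 ≤
            1 + skX N ^ (-4 - c) * ((ll04Pt N (Real.exp (θ / 6)) (skX N ^ F.pS) 1 0 true γ).wA F 𝔹 m
              (fun v => v ^ 2 + (ll04Pt N (Real.exp (θ / 6)) (skX N ^ F.pS) 1 0 true γ).U F ^ 2) + skX N ^ 8) := by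
        intro γ
        obtain ⟨b1, -, b3⟩ := a2 (Real.exp (θ / 6)) (skX N ^ F.pS) 1 0 true γ m trivial ⟨hok γ, hm1, hm2, half_pos hx0, half_lt_self hx0⟩
        have e := (l8_Z_eq (L8In.mk F 𝔹 (ll04Pt N (Real.exp (θ / 6)) (skX N ^ F.pS) 1 0 true γ) m (skX N / 2) Fs) (hok γ) c).2
        have k := l8z_Zg2_one (L8In.mk F 𝔹 (ll04Pt N (Real.exp (θ / 6)) (skX N ^ F.pS) 1 0 true γ) m (skX N / 2) Fs)
          (by have := bt_a_ge_one (hok γ); show (0 : ℝ) ≤ (ll04Pt N (Real.exp (θ / 6)) (skX N ^ F.pS) 1 0 true γ).a; linarith) hx0 c b1 b3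
        rw [← e] at k
        exact k
      refine ⟨fun γ => ⟨hz.1 γ, le_max_left _ _⟩, hz.2.trans hCC, ?_⟩
      refine (l8z_lint_Zg (Real.rpow_nonneg hx0.le _) hcont havg (fun γ => (key γ).1) fun γ => (key γ).2).trans (ENNReal.ofReal_le_ofReal ?_)
      have e1 : skX N ^ (-4 - c) * skX N ^ (4 + c) = 1 := by
        rw [← Real.rpow_add hx0, show -4 - c + (4 + c) = 0 by ring, Real.rpow_zero]
      have e2 : skX N ^ (-4 - c) * skX N ^ 8 ≤ 1 := by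
        rw [← Real.rpow_natCast, ← Real.rpow_add hx0]
        exact Real.rpow_le_one hx0.le hx1 (by push_cast; linarith)
      have e3 : (3 : ℝ) ≤ max C1 3 * skX N ^ (-δ) := by
        calc (3 : ℝ) = 3 * 1 := by norm_num
          _ ≤ max C1 3 * skX N ^ (-δ) := mul_le_mul (le_max_right _ _) hxd zero_le_one (le_trans (by norm_num) (le_max_right _ _))
      rw [mul_add, e1]
      linarith
  · -- `L8MomSw`
    intro δ hδ
    obtain ⟨C1, N1, h1⟩ := l8z_EZ4 hF hp12 c (hC1 1 16 one_pos (by norm_num)) hbr' hδ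
    refine ⟨C1, max N1 (max Nm 2), fun N hN => ?_⟩
    have hN1 : N1 ≤ N := (le_max_left _ _).trans hN
    have hNm : Nm ≤ N := ((le_max_left _ _).trans (le_max_right _ _)).trans hN
    have hN3 : 2 ≤ N := ((le_max_right _ _).trans (le_max_right _ _)).trans hN
    filter_upwards [h1 N hN1] with Fs a1 m hm1 hm2 ell hell i
    obtain ⟨me1, -, -⟩ := hme N hNm Fs m (by omega)
    exact ⟨(me1 ell hell).2 i, fun τ => a1 m hm1 hm2 ell _ _ _ false (l8z_seg_dir F hp12 (by omega) hell i τ)⟩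
  · -- `Z ≤ x^(-16)`
    obtain ⟨Nb, hbr''⟩ := hbr'
    refine ⟨16, max Nb 258, fun N s hN => ?_⟩
    filter_upwards [hbr'' N s ((le_max_left _ _).trans hN)] with Fs a ell lam chiL chiE sm γ m _ hOk
    exact l8z_Z_le _ hF hOk.pt ((le_max_right _ _).trans hN) (a ell lam chiL chiE sm γ m trivial hOk).1

/-! ## 2. Lemma 8.8 -/

namespace L8In

variable (I : L8In)

/-- `e_1 = x³ / (√λ₁ U^(3/2))` -/
def e1 : ℝ := I.x ^ 3 / (Real.sqrt I.lam1 * I.U ^ (3 / 2 : ℝ))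

end L8In

/-- pointwise bound of the stopped speed on the strength sweep: `O_⋄(λ (x + e_1))` -/
def L8zCoPw (𝔹 : LlBase) (T : ℝ) : Prop :=
  ∀ F0, L8Fix 𝔹 T F0 → ∀ (pB : LLParB) (pS : ℝ), 0 < pS → pS ≤ 1 → ∀ εs qs δ : ℝ, 0 < εs → 0 < qs → 0 < δ → ∃ (C : ℝ) (N0 : ℕ),
    L8Ev (F0.wExp pB.sStar pB.eta pS) 𝔹 N0 l8Dir fun I => I.s = qs * I.x ^ (1 + εs) → I.Stop (I.x ^ εs) → I.x ^ (12 : ℝ) < I.lam → I.lam < I.x ^ pS → I.i9.Dif (fun t => I.p.wLam t) (Real.log I.lam) →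
      |deriv (fun t => I.i9.psi (I.p.wLam t) I.m) (Real.log I.lam)| ≤ C * I.x ^ (-δ) * I.lam * (I.x + I.e1)

/-- pointwise bound of the stopped speed on the multiplier sweeps.   `i = 1`: derivative in `χ_lin` at `χ_e = 1`: `O_⋄(Z x⁶ / √λ₁)`;   `i = 2`: derivative in `χ_e` at `χ_lin = 1`, `χ_e > 0`: `O_⋄(Z χ_e^(-1/2) x³ √λ₁ U²)`.
PLAN (08 l.980-997): the clocks are affine in `χ` (`ḣ = H_lin`, resp. `H_e`, `ḃ = 0`); THE FORMULA; exact conditional averaging; (A1) (`l8i_pin`) + tilt: `|ψ̇| ≲ (E ∫ H² W dv)^(1/2)`;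
`E ∫ H² W dv ≲_⋄ χ_e⁻¹ x⁶ λ₁⁻¹ Z² (x⁶ resp. λ₁² U⁴)`: tiles (D5) on macroscopic bands (W without `Y = o(1)`, slope (D3) weakened by `χ_e`), tile bound of (D7). -/
def L8zSwPw (𝔹 : LlBase) (T : ℝ) : Prop :=
  ∀ F0, L8Fix 𝔹 T F0 → ∀ (pB : LLParB) (pS : ℝ), 0 < pS → pS ≤ 1 → ∀ εs qs δ : ℝ, 0 < εs → 0 < qs → 0 < δ → ∃ (C : ℝ) (N0 : ℕ),
    L8Ev (F0.wExp pB.sStar pB.eta pS) 𝔹 N0 (fun p => p.sm = false ∧ p.lam = p.x ^ pS) fun I => I.s = qs * I.x ^ (1 + εs) → I.Stop (I.x ^ εs) →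
      (I.p.chiE = 1 → 0 < I.p.chiL → I.p.chiL < 1 → |deriv (fun c => I.i9.psi { I.p with chiL := c } I.m) I.p.chiL| ≤ C * I.x ^ (-δ) * I.Z * (I.x ^ 6 / Real.sqrt I.lam1)) ∧
      (I.p.chiL = 1 → 0 < I.p.chiE → I.p.chiE < 1 → |deriv (fun c => I.i9.psi { I.p with chiE := c } I.m) I.p.chiE| ≤
        C * I.x ^ (-δ) * I.Z * (I.p.chiE ^ (-(1 / 2) : ℝ) * (I.x ^ 3 * Real.sqrt I.lam1 * I.U ^ 2)))

/-- for every `γ`, almost every `t = log λ` is a point of differentiability of the clock values of the chain (the item of `L9Reg` in the order of 216 v5; defect found by 251).   In `l8z_cs_asm`: `γ` outside;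
`∫⁻ f d(μ × ν) ≤ ∫⁻ ∫⁻ f dν dμ` for ANY `f` (measurable minorant `exists_measurable_le_lintegral_eq`) -/
def L8zDif (𝔹 : LlBase) (T : ℝ) : Prop :=
  ∀ F0, L8Fix 𝔹 T F0 → ∀ (pB : LLParB) (pS : ℝ), 0 < pS → pS ≤ 1 → ∃ N0 : ℕ, ∀ N, N0 ≤ N → ∀ (s : ℝ) (Fs : Finset GhPos) (m : ℕ), ∀ ell ∈ Icc (1 : ℝ) ((2 : ℝ) ^ (1 / 6 : ℝ)),
    ∀ γ : Fin (N + 1) → ℝ, ∀ᵐ t : ℝ, t ∈ l9LamRg (F0.wExp pB.sStar pB.eta pS) N → (⟨F0.wExp pB.sStar pB.eta pS, 𝔹, s, Fs, m⟩ : L9I).Dif (l9PtL N ell γ) t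

/-- **ASSEMBLY of `Exit/DCS`**.   PLAN, coarse part (08 l.934-978): Markov + `E_γ Z⁴` (`L9Mom`): `P_γ(U Z > x^κ) ≤ C x^(-δ) U⁴ x^(-4κ)`; `∫⁻` of `1_{stop} 1_{UZ > x^κ} |ψ̇|` `≤ ∫_{Rg} C x^(-δ) λ (x + e_1) P_γ(..) dt` (Tonelli: the event is
measurable by `L9Mom`; the bound is a continuous function of `t`; `L8zDif` for the null set of `t`; where `ψ` is not differentiable `deriv = 0`);   arithmetic: `λ x U⁴ ≤ x⁵ λ^(1-2 s_*)`, `λ e_1 U⁴ ≲ x^(3+(1-η)/s_*)`, `|Rg| ≤ 12 log(1/x)`;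
`κ0`, `c0` from `1 - 2 s_* = 2 τ > 0`, `λ ≤ x^(p_*)` and `(1-η)/s_* > 2`.   Switch part: `E_γ Z ≤ (E_γ Z⁴)^(1/4)` (`L8MomSw`), `∫_0^1 (1-τ)^(-1/2) dτ = 2`, chain rule through the clamp `ll04U`,
`x⁶/√λ₁ = x^(6 - p_*(1+η)/2)`, `x³ √λ₁ U² = x^(5 + p_*(1+η)/2 - p_* s_*)`. -/
theorem l8z_cs_asm {𝔹 : LlBase} {T : ℝ} (hZ : L8xZ 𝔹 T) (hco : L8zCoPw 𝔹 T) (hsw : L8zSwPw 𝔹 T) (hdif : L8zDif 𝔹 T) : L8xCS 𝔹 T := by
  intro F0 h0 pB hSt
  obtain ⟨c, p0, -, hp0, H⟩ := hZ F0 h0 pB hSt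
  refine ⟨min p0 1, lt_min hp0 one_pos, fun pS hpS hpS' => ?_⟩
  obtain ⟨-, hMsw, -⟩ := H pS hpS (hpS'.trans (min_le_left _ _))
  have hpS1 : pS ≤ 1 := hpS'.trans (min_le_right _ _)
  have t0 := pB.tau_pos
  have t1 := pB.tau_le
  have e0 := pB.eta_pos
  have e1 := pB.eta_le
  have hs : (2 : ℝ) / 5 ≤ pB.sStar := by unfold LLParB.sStar; linarith
  have hs1 : pB.sStar < 1 / 2 := by unfold LLParB.sStar; linarith
  have he : pB.eta < 1 - 2 * pB.sStar := by unfold LLParB.sStar; linarith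
  refine ⟨l8zk_sw (F := F0.wExp pB.sStar pB.eta pS) hs1 e0 (by show pB.eta ≤ 1 / 2; linarith) hpS hpS1 hMsw (hsw F0 h0 pB pS hpS hpS1),
    min (pS * (1 - 2 * pB.sStar)) ((1 - pB.eta) / pB.sStar - 2) / 16, div_pos (l8zk_c_pos (by linarith) hs1 he hpS) (by norm_num),
    fun κ _ hκ c2 => l8zk_co (F := F0.wExp pB.sStar pB.eta pS) hs hs1 e0 he hpS hpS1 hMsw (hco F0 h0 pB pS hpS hpS1)
      (hdif F0 h0 pB pS hpS hpS1) κ (by
        show 16 * κ ≤ min (pS * (1 - 2 * pB.sStar)) ((1 - pB.eta) / pB.sStar - 2)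
        linarith) c2⟩

end

/-! ## 3. the leaves at `llBase` -/

/-- PROVED (helper213): `= exit_c12` (`Exit/C12.lean` ⟸ `exit_bud` of 162 ⟸ `bt_targets` of 66) -/
theorem l8z_bud (T : ℝ) (hT : 1 < T) : L8zBud llBase T := by
  intro F0 h0 pB hSt
  obtain ⟨p0, hp0, H⟩ := exit_c12 T hT F0 h0.1 h0.2.1 h0.2.2 pB hSt
  exact ⟨min p0 1, lt_min hp0 one_pos, min_le_right _ _, fun pS h1 h2 => H pS h1 (h2.trans (min_le_left _ _))⟩

/-- PROVED by helper261 (`L08/Meas.lean`: ENGINE `brg_e_chain` + VALUES `ll04v_main` of 258 give continuity of `S k, B k, q k` in `(γ, t)`; the clamp `l8Cl` maps the four families to the segments of 258) -/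
theorem l8z_meas (T : ℝ) (_hT : 1 < T) : L8zMeas llBase T := l8zm_main llBase T

/-- PROVED by helper262 (`L08/Brz.lean`: rate of `brg_s_SB_lim` at every mass of a cell + Riemann sums; `q` through its monotonicity), from `l8g_fine` -/
theorem l8z_br (T : ℝ) (hT : 1 < T) : L8zBr llBase T := l8b_main T (l8g_fine T hT)

/-- PROVED by helper228: `l8y_co_pw` (adapter at the end of `L08/CSP.lean`) from `l8y_pt_Lt` (78, 97: reduced chain, `l8y_core`) + the supply `L8yClk` = `ll04y_clk` (258, `LL04/ClkY.lean`) -/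
theorem l8z_co_pw (T : ℝ) (_hT : 1 < T) : L8zCoPw llBase T := l8y_co_pw

/-- WIRED (helper10, helper49): FULL CHAIN route: TOP half `l8sw_top` (49, `L08/DcsSw.lean`) + MAIN half `l8sw_main` = `l8si_main` (10, `L08/DcsTile`, `DcsInst`, `DcsInstB`: the TILE bound) -/
theorem l8z_sw_pw (T : ℝ) (hT : 1 < T) : L8zSwPw llBase T := l8sw_top (l8g_fine T hT) (l8sw_main T hT)

/-- PROVED by helper260 (node REG: `l9rx_dif_L'`, `L09/RegIn.lean`, from the P-list; all chains) -/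
theorem l8z_dif (T : ℝ) (_hT : 1 < T) : L8zDif llBase T := by
  intro F0 hF pB pS h0 h1
  have hE := llc_expOk pB h0 h1
  have hP : LlBaseProfile llBase (F0.wExp pB.sStar pB.eta pS).T := by
    show LlBaseProfile llBase F0.T
    rw [hF.1]; exact hF.2.1
  exact l9rx_dif_L' llBase (F0.wExp pB.sStar pB.eta pS) hP hE (hF.2.2 _ _ _ hE).sec3

theorem l8z_dz (T : ℝ) (hT : 1 < T) : L8xZ llBase T := l8z_asm (l8z_bud T hT) (l8z_meas T hT) (l8z_br T hT)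

theorem l8z_dcs (T : ℝ) (hT : 1 < T) : L8xCS llBase T :=
  l8z_cs_asm (l8z_dz T hT) (l8z_co_pw T hT) (l8z_sw_pw T hT) (l8z_dif T hT)

end Claimed.Agent.R286
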