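import Claimed.Agent.R286.L08.LsCh

/-!
# Row 286 (S0533), folder L08, file LsLink : (D16) in the interface form `L8_LS1` from the abstract chart form `L8_LS_ABS`      (helper234; prefix `L8L` / `l8l_`)

Inputs: the charts of `X.absK k 2 (jtTab2 N t0)` (`L8LCharted`, unit CH), the representation of the positive laws `X.nu (2 + k) τ` by a consistent family of path laws (`L8LRep`, unit SPI),
the analytic inputs `I t0 : L8LIn Ω` (unit COST).
-/

set_option autoImplicit false

namespace Claimed.Agent.R286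

open MeasureTheory Finset

/-- the positive laws of the jet context on `r` labels are the spin marginals of the consistent family `T` of path laws; `sp` = terminal spin of a path -/
structure L8LRep {S : Type} (X : JtCtx S) {Ω : Type} [MeasurableSpace Ω] (T : L8L Ω) (sp : Ω → S) (r : ℕ) : Prop where
  ok : T.Ok
  hr : T.r = r
  hV : T.V = IsTr X.N r
  rep : ∀ τ, IsTr X.N r τ → ∀ F, TrUses r F → X.nu r τ F = ∫ ω, F (fun x => sp (ω x)) ∂T.law τ
  congr : ∀ τ τ' F, JtAgree r τ τ' → X.nu r τ F = X.nu r τ' F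

/-- the analytic inputs at the retained level `t0` belong to the context `X` -/
structure L8LFit {S : Type} (X : JtCtx S) {Ω : Type} [MeasurableSpace Ω] (T : L8L Ω) (sp : Ω → S) (I : L8LIn Ω)
    (t0 ti n : ℕ) (eb vv mu : ℕ → ℝ) (gain eta : ℝ) : Prop where
  ok : I.Ok T
  ht0 : I.t0 = t0
  hti : I.ti = ti
  heb : I.eb = eb
  hvv : I.vv = vv
  hmu : I.mu = mu
  hd : n ≤ I.dmax
  hD : I.Dab = X.Dd t0
  hg : I.gain ≤ gain
  he : I.eta ≤ eta
  hP : ∀ p, I.P0 p = X.ov (sp p.1) (sp p.2) - X.Sf t0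
  /-- LOW levels only (v2, 05:45Z: trap of 62) -/
  hf : ∀ s l p, l < ti → I.fac s l p = X.ov (sp p.1) (sp p.2) - X.Sf l

theorem l8l_link (habs : L8_LS_ABS) (n k nv nch : ℕ) : ∃ K : ℝ, 0 ≤ K ∧ ∀ (S : Type) (X : JtCtx S) (Ω : Type) [MeasurableSpace Ω]
    (T : L8L Ω) (sp : Ω → S) (ti : ℕ) (Cch A0 : ℝ) (I : ℕ → L8LIn Ω) (eb vv mu : ℕ → ℝ) (gain eta : ℝ),
    L8LRep X T sp (2 + k) → 1 ≤ A0 → 0 ≤ Cch →
    (∀ t0, ti ≤ t0 → t0 ≤ X.N → L8LFit X T sp (I t0) t0 ti n eb vv mu gain eta) →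
    (∀ t0, ti ≤ t0 → t0 ≤ X.N → L8LCharted X.N mu t0 ti (2 + k) nv nch Cch A0 (X.absK k 2 (jtTab2 X.N t0))) →
    L8_LS1 X ti eb vv k n (K * nch * Cch * A0 ^ nv * gain) (K * nch * Cch * A0 ^ nv * eta) := by
  obtain ⟨K, hK, H⟩ := habs n nv (2 + k)
  refine ⟨K, hK, ?_⟩
  intro S X Ω _ T sp ti Cch A0 I eb vv mu gain eta hRep hA0 hCch hFit hChd
  intro t0 h1 h2 Sto Det c d w hne hdisj hsub hlab hloc hlow hmaj
  obtain ⟨ι, _, Ch, ρ, hcard, hChOk, hL, hρ, hval, hsum⟩ := hChd t0 h1 h2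
  have F := hFit t0 h1 h2
  set J := I t0 with hJ
  -- the summand is local
  have hΦ : JtLoc (2 + k) fun τ => w τ * X.nu (2 + k) τ fun σ => X.P0 t0 σ * ∏ s ∈ Sto, X.dl τ σ (c s) (d s) := by
    intro τ τ' hag
    have e1 : w τ = w τ' := hloc τ τ' hag
    have e2 : (fun σ => X.P0 t0 σ * ∏ s ∈ Sto, X.dl τ σ (c s) (d s))
        = fun σ => X.P0 t0 σ * ∏ s ∈ Sto, X.dl τ' σ (c s) (d s) := by
      funext σ
      congr 1
      refine Finset.prod_congr rfl fun s hs => ?_
      have hs' := hlab s (Finset.mem_union_left _ hs)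
      unfold JtCtx.dl
      rw [hag _ _ hs'.1 hs'.2.1]
    simp only
    rw [e1, e2, hRep.congr τ τ' _ hag]
  rw [hsum _ hΦ]
  -- one chart
  have hone : ∀ i, |∑ co ∈ (Ch i).box, (Ch i).wt co * ρ i co *
      (w ((Ch i).tab co) * X.nu (2 + k) ((Ch i).tab co) fun σ => X.P0 t0 σ * ∏ s ∈ Sto, X.dl ((Ch i).tab co) σ (c s) (d s))|
      ≤ Cch * (K * A0 ^ nv * (X.Dd t0 * gain + eta)) := by
    intro i
    set w' : (Fin nv → ℕ) → ℝ := fun co => ρ i co * w ((Ch i).tab co) / Cch with hw'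
    have hscale : ∀ co, ρ i co * w ((Ch i).tab co) = Cch * w' co := by
      intro co
      rcases eq_or_lt_of_le hCch with h0 | h0
      · have : ρ i co = 0 := le_antisymm (by rw [h0]; exact (hρ i co).2) (hρ i co).1
        simp [hw', this, ← h0]
      · simp only [hw']; field_simp
    have hw'0 : ∀ co, w' co ≠ 0 → ρ i co ≠ 0 ∧ w ((Ch i).tab co) ≠ 0 := by
      intro co h
      constructor
      · intro h0; apply h; simp [hw', h0]
      · intro h0; apply h; simp [hw', h0]
    have hw'le : ∀ co, |w' co| ≤ |w ((Ch i).tab co)| := by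
      intro co
      rcases eq_or_lt_of_le hCch with h0 | h0
      · simp [hw', ← h0]
      · simp only [hw', abs_div, abs_mul, abs_of_pos h0, abs_of_nonneg (hρ i co).1]
        rw [div_le_iff₀ h0]
        have := mul_le_mul_of_nonneg_right (hρ i co).2 (abs_nonneg (w ((Ch i).tab co)))
        linarith
    have HH : L8LHyp T J (Ch i) n (2 + k) A0 w' Sto Det c d := by
      refine ⟨hRep.ok, F.ok, hRep.hr, hA0, ?_, hne, hdisj, hsub, F.hd, hlab, ?_, ?_, ?_⟩
      · rw [F.hmu, F.hti]; exact hChOk i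
      · intro co h
        rw [hRep.hV, F.ht0, F.hti]
        exact hval i co (hw'0 co h).1
      · intro co h s hs
        rw [F.hti]
        exact hlow _ (hw'0 co h).2 s hs
      · intro co
        refine le_trans (hw'le co) ?_
        have := hmaj ((Ch i).tab co)
        unfold l8lMaj
        rw [F.heb, F.hvv]
        exact this
    have hb := H Ω T J (Ch i) A0 w' Sto Det c d HH
    have heq : ∑ co ∈ (Ch i).box, (Ch i).wt co * ρ i co *
        (w ((Ch i).tab co) * X.nu (2 + k) ((Ch i).tab co) fun σ => X.P0 t0 σ * ∏ s ∈ Sto, X.dl ((Ch i).tab co) σ (c s) (d s))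
        = Cch * l8lSum T J (Ch i) w' Sto c d := by
      unfold l8lSum
      rw [Finset.mul_sum]
      refine Finset.sum_congr rfl fun co _ => ?_
      by_cases hr0 : ρ i co = 0
      · have : w' co = 0 := by simp [hw', hr0]
        simp [hr0, this]
      by_cases hw0 : w ((Ch i).tab co) = 0
      · have : w' co = 0 := by simp [hw', hw0]
        simp [hw0, this]
      · have htr : IsTr X.N (2 + k) ((Ch i).tab co) := (hval i co hr0).tree
        have huse : TrUses (2 + k) fun σ : ℕ → S => X.P0 t0 σ * ∏ s ∈ Sto, X.dl ((Ch i).tab co) σ (c s) (d s) := by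
          intro σ σ' hσ
          have a0 : σ 0 = σ' 0 := hσ 0 (by omega)
          have a1 : σ 1 = σ' 1 := hσ 1 (by omega)
          have a2 : ∏ s ∈ Sto, X.dl ((Ch i).tab co) σ (c s) (d s) = ∏ s ∈ Sto, X.dl ((Ch i).tab co) σ' (c s) (d s) := by
            refine Finset.prod_congr rfl fun s hs => ?_
            have hs' := hlab s (Finset.mem_union_left _ hs)
            unfold JtCtx.dl
            rw [hσ _ hs'.1, hσ _ hs'.2.1]
          simp only [JtCtx.P0]
          rw [a0, a1, a2]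
        rw [hRep.rep _ htr _ huse]
        have hint : (∫ ω, (fun σ : ℕ → S => X.P0 t0 σ * ∏ s ∈ Sto, X.dl ((Ch i).tab co) σ (c s) (d s)) (fun x => sp (ω x))
              ∂T.law ((Ch i).tab co))
            = ∫ ω, J.P0 (ω 0, ω 1) * ∏ s ∈ Sto, J.fac s (co ((Ch i).vtx (c s) (d s))) (ω (c s), ω (d s))
              ∂T.law ((Ch i).tab co) := by
          refine integral_congr_ae (Filter.Eventually.of_forall fun ω => ?_)
          simp only [F.hP, JtCtx.P0]
          congr 1
          refine Finset.prod_congr rfl fun s hs => ?_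
          have hl : co ((Ch i).vtx (c s) (d s)) < ti := hlow _ hw0 s (Finset.mem_union_left _ hs)
          rw [F.hf s _ _ hl]
          rfl
        rw [hint]
        have := hscale co
        generalize (∫ ω, J.P0 (ω 0, ω 1) * ∏ s ∈ Sto, J.fac s (co ((Ch i).vtx (c s) (d s))) (ω (c s), ω (d s))
              ∂T.law ((Ch i).tab co)) = Z
        calc (Ch i).wt co * ρ i co * (w ((Ch i).tab co) * Z) = (Ch i).wt co * (ρ i co * w ((Ch i).tab co)) * Z := by ring
          _ = Cch * ((Ch i).wt co * w' co * Z) := by rw [this]; ring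
    rw [heq, abs_mul, abs_of_nonneg hCch]
    apply mul_le_mul_of_nonneg_left _ hCch
    refine le_trans hb ?_
    have hA : 0 ≤ A0 ^ nv := pow_nonneg (le_trans zero_le_one hA0) _
    apply mul_le_mul_of_nonneg_left _ (mul_nonneg hK hA)
    rw [F.hD]
    have hD : 0 ≤ X.Dd t0 := Real.sqrt_nonneg _
    have := mul_le_mul_of_nonneg_left F.hg hD
    linarith [F.he]
  have hA : 0 ≤ A0 ^ nv := pow_nonneg (le_trans zero_le_one hA0) _
  have hD : 0 ≤ X.Dd t0 := Real.sqrt_nonneg _
  have hbnd : 0 ≤ Cch * (K * A0 ^ nv * (X.Dd t0 * gain + eta)) := by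
    by_cases hι : Nonempty ι
    · obtain ⟨i⟩ := hι
      exact le_trans (abs_nonneg _) (hone i)
    · -- no chart: use the inputs directly
      have g0 : 0 ≤ gain := by
        refine le_trans ?_ F.hg
        have hI := F.ok
        have ha1 : 0 ≤ J.a1 := le_trans (Finset.sum_nonneg fun l _ =>
          mul_nonneg (mul_nonneg (hI.mu_nonneg l) (hI.eb_nonneg l)) (hI.al_nonneg l)) hI.ha1
        unfold L8LIn.gain
        exact le_max_of_le_left (add_nonneg ha1 hI.c1_nonneg)
      have e0 : 0 ≤ eta := le_trans F.ok.eta_nonneg F.he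
      positivity
  calc |∑ i, ∑ co ∈ (Ch i).box, (Ch i).wt co * ρ i co *
      (w ((Ch i).tab co) * X.nu (2 + k) ((Ch i).tab co) fun σ => X.P0 t0 σ * ∏ s ∈ Sto, X.dl ((Ch i).tab co) σ (c s) (d s))|
      ≤ ∑ i : ι, Cch * (K * A0 ^ nv * (X.Dd t0 * gain + eta)) :=
        le_trans (Finset.abs_sum_le_sum_abs _ _) (Finset.sum_le_sum fun i _ => hone i)
    _ = (Fintype.card ι : ℝ) * (Cch * (K * A0 ^ nv * (X.Dd t0 * gain + eta))) := by
        rw [Finset.sum_const, Finset.card_univ, nsmul_eq_mul]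
    _ ≤ (nch : ℝ) * (Cch * (K * A0 ^ nv * (X.Dd t0 * gain + eta))) :=
        mul_le_mul_of_nonneg_right (by exact_mod_cast hcard) hbnd
    _ = K * nch * Cch * A0 ^ nv * gain * X.Dd t0 + K * nch * Cch * A0 ^ nv * eta := by ring

end Claimed.Agent.R286
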