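import Claimed.Agent.R286.L08.SPI
import Claimed.Agent.R286.L08.LsLink
import Claimed.Agent.R286.Fd.NuApiC
import Claimed.Agent.R286.L02.Inst

/-!
# Row 286 (S0533), folder L08, file LsInst : THE SK INSTANCE OF THE CONSISTENT FAMILY OF TREE LAWS `L8L`      (owner helper257; prefix `l8li`)

TEX[LL:lem:statistics-low-sources] instance debt of `L8L.Ok` (L08/LsAbs, helper234) and `L8LRep` (L08/LsLink).
GENERIC on `Defs/Gh` (any base `B`, levels `ls`, root field `z`):
* `l8liJ r`      : table of `r` labels (drivers, spins) -> the paths of the labels `ℕ → SpiOm S ι` (labels `≥ r`: a constant path);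
* `l8liLaw`      : `law τ` = image of the positive tree law `ghmT B ls (trRep r τ)` (Lib/GhTreeMeas, helper225);
* `l8liT`        : the family; `fork k = spiK ⊗ₘ spiKap k`, `μ = spiK`  (those of `spiP`, `skSP`);
* `l8li_int`     : bounded measurable tests = tree numbers;   `l8li_marg2`, `l8li_rc` from `gh_n_tree_pull`, `gh_n_tree_comap` (Fd/NuApiC, helper140);
* **`l8li_ok`**  : `(l8liT B ls z r).Ok`;
SK: **`l8li_rep`** : `L8LRep (llJs n a P tl) (l8liSk n a P tl r) Prod.snd r`.
-/

set_option autoImplicit false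
set_option linter.unusedSectionVars false

namespace Claimed.Agent.R286

open MeasureTheory ProbabilityTheory Finset

section gen

variable {S ι : Type} [Fintype S] [Fintype ι]

/-- the tree of a table -/
def l8liTr {N r : ℕ} {τ : ℕ → ℕ → ℕ} (h : IsTr N r τ) : GhTree r where
  sh := fun a b => τ a.1 b.1
  symm := fun a b => h.symm _ _ a.2 b.2
  ultra := fun a b c _ => h.ultra _ _ _ a.2 b.2 c.2

/-- the representatives of `Defs/Tr` and of `GhTree` give the same numbers -/
theorem l8li_nu_tr {B : GhB S} (hB : B.Ok) {ls : List (GhLv S ι)} (hn : GhNn ls) (z : S → ℝ) {N r : ℕ} {τ : ℕ → ℕ → ℕ}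
    (h : IsTr N r τ) (P : GhTest S ι r) :
    ghNu B ls (fun t => trRep r τ t) (fun _ => z) P = (l8liTr h).nu B ls z P :=
  gh_n_inv_le B hB ls hn id (fun t => trRep r τ t) (l8liTr h).rep (tb2_repOk h) (gh_n_rep_ok _)
    (fun t _ a b => by
      rw [gh_n_rep_iff, tb2_rep_iff h]
      exact ⟨fun h' => h'.imp Eq.symm id, fun h' => h'.imp Eq.symm id⟩)
    (fun _ => z) (fun _ _ _ => rfl) P

variable [Inhabited S] [MeasurableSpace S] [DiscreteMeasurableSpace S]

/-- the paths of the labels -/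
def l8liJ (r : ℕ) (x : GhmTΩ S ι r) : ℕ → SpiOm S ι :=
  fun a => if h : a < r then (fun t => x.1 t ⟨a, h⟩, x.2 ⟨a, h⟩) else (fun _ _ => 0, default)

theorem l8li_J_meas (r : ℕ) : Measurable (l8liJ (S := S) (ι := ι) r) := by
  refine measurable_pi_lambda _ fun a => ?_
  unfold l8liJ
  by_cases h : a < r
  · simp only [h, dif_pos]
    exact Measurable.prodMk
      (measurable_pi_lambda _ fun t => (measurable_pi_apply _).comp ((measurable_pi_apply t).comp measurable_fst))
      ((measurable_pi_apply _).comp measurable_snd)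
  · simp only [h, dif_neg, not_false_iff]
    exact measurable_const

/-- the law of the paths of the labels -/
noncomputable def l8liLaw (B : GhB S) (ls : List (GhLv S ι)) (z : S → ℝ) (r : ℕ) (τ : ℕ → ℕ → ℕ) : Measure (ℕ → SpiOm S ι) :=
  (ghmT B ls (fun t => trRep r τ t) fun _ => z).map (l8liJ r)

/-- **the family of tree laws of a hierarchy** -/
noncomputable def l8liT (B : GhB S) (ls : List (GhLv S ι)) (z : S → ℝ) (r : ℕ) : L8L (SpiOm S ι) where
  r := r
  V := IsTr ls.length r
  law := l8liLaw B ls z r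
  fork := fun k => (spiK B ls z) ⊗ₘ (spiKap B ls z k)
  μ := spiK B ls z

section thms

variable {B : GhB S} (hB : B.Ok) {ls : List (GhLv S ι)} (hn : GhNn ls) (z : S → ℝ)
include hB hn

theorem l8li_prob (r : ℕ) (τ : ℕ → ℕ → ℕ) : IsProbabilityMeasure (l8liLaw B ls z r τ) := by
  have := (ghmt_markov hB hn fun t => trRep r τ t).isProbabilityMeasure fun _ => z
  exact Measure.isProbabilityMeasure_map (l8li_J_meas r).aemeasurable

/-- bounded measurable tests are tree numbers -/
theorem l8li_int {N r : ℕ} {τ : ℕ → ℕ → ℕ} (h : IsTr N r τ) (F : (ℕ → SpiOm S ι) → ℝ) (hF : Measurable F) (C : ℝ)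
    (hC : ∀ w, |F w| ≤ C) :
    ∫ w, F w ∂(l8liLaw B ls z r τ) = (l8liTr h).nu B ls z fun η σ => F (l8liJ r (η, σ)) := by
  unfold l8liLaw
  rw [integral_map (l8li_J_meas r).aemeasurable hF.aestronglyMeasurable, ← l8li_nu_tr hB hn z h]
  exact ghmt_integral_bdd hB hn _ _ (fun x => F (l8liJ r x)) (hF.comp (l8li_J_meas r)) C fun x => hC _

/-- the fork law beyond the terminal draw: the two labels coincide -/
theorem l8li_law_gt {k : ℕ} (hk : ls.length < k) :
    (spiK B ls z) ⊗ₘ (spiKap B ls z k) = (ghmT B ls (spiRep k) fun _ => z).map spfJ := by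
  have hr := spi_reg_of_nn hB hn
  have hμ := (spi_k_markov hB hr).isProbabilityMeasure z
  have hκ := spi_kap_markov hB hr z k
  have hT := (ghmt_markov hB hn (spiRep k)).isProbabilityMeasure fun _ => z
  have hT' : IsProbabilityMeasure ((ghmT B ls (spiRep k) fun _ => z).map spfJ) :=
    Measure.isProbabilityMeasure_map spf_J_meas.aemeasurable
  refine Measure.ext fun A hA => ?_
  have hf : Measurable (A.indicator (1 : SpiOm S ι × SpiOm S ι → ℝ)) := measurable_one.indicator hA
  have hb : ∀ p, |A.indicator (1 : SpiOm S ι × SpiOm S ι → ℝ) p| ≤ 1 := fun p => by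
    by_cases h0 : p ∈ A <;> simp [h0]
  have h1 : ∫ p, A.indicator (1 : SpiOm S ι × SpiOm S ι → ℝ) p ∂((spiK B ls z) ⊗ₘ (spiKap B ls z k))
      = ghPath B ls z fun η s => A.indicator (1 : SpiOm S ι × SpiOm S ι → ℝ) ((η, s), (η, s)) := by
    rw [Measure.integral_compProd (Integrable.of_bound hf.aestronglyMeasurable 1
      (ae_of_all _ fun p => by rw [Real.norm_eq_abs]; exact hb p))]
    have e : ∀ ω, ∫ ω', A.indicator (1 : SpiOm S ι × SpiOm S ι → ℝ) (ω, ω') ∂(spiKap B ls z k ω)
        = A.indicator (1 : SpiOm S ι × SpiOm S ι → ℝ) (ω, ω) := fun ω => by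
      rw [spi_kap_gt B z hk]
      exact integral_dirac' (fun ω' => A.indicator (1 : SpiOm S ι × SpiOm S ι → ℝ) (ω, ω')) ω
        (hf.comp measurable_prodMk_left).stronglyMeasurable
    simp_rw [e]
    exact spi_int hB ls hr z (fun ω => A.indicator (1 : SpiOm S ι × SpiOm S ι → ℝ) (ω, ω))
      (hf.comp (measurable_id.prodMk measurable_id)) 1 fun ω => hb _
  have h2 : ∫ p, A.indicator (1 : SpiOm S ι × SpiOm S ι → ℝ) p ∂((ghmT B ls (spiRep k) fun _ => z).map spfJ)
      = ghNu B ls (spiRep k) (fun _ => z) fun η σ => A.indicator (1 : SpiOm S ι × SpiOm S ι → ℝ) (spfJ (η, σ)) := by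
    rw [integral_map spf_J_meas.aemeasurable hf.aestronglyMeasurable]
    exact ghmt_integral_bdd hB hn _ _ (fun x => A.indicator (1 : SpiOm S ι × SpiOm S ι → ℝ) (spfJ x)) (hf.comp spf_J_meas) 1
      fun _ => hb _
  have h5 : (obT2 k).rep = spiRep k := by
    funext t b
    rw [obt_rep]
    rfl
  have hok : GhRepOk (spiRep k) := h5 ▸ gh_n_rep_ok (obT2 k)
  have h3 := gh_n_inv_le B hB ls hn (fun _ : Fin 2 => (0 : Fin 1)) (fun _ a => a) (spiRep k)
    ⟨fun _ _ => rfl, fun _ _ _ h0 => h0⟩ hok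
    (fun t ht a b => by simp [spiRep, show t < k by omega]) (fun _ => z) (fun _ _ _ => rfl)
    (fun η σ => A.indicator (1 : SpiOm S ι × SpiOm S ι → ℝ) (spfJ (η, σ)))
  rw [gh_n_one] at h3
  have h4 : ∫ p, A.indicator (1 : SpiOm S ι × SpiOm S ι → ℝ) p ∂((spiK B ls z) ⊗ₘ (spiKap B ls z k))
      = ∫ p, A.indicator (1 : SpiOm S ι × SpiOm S ι → ℝ) p ∂((ghmT B ls (spiRep k) fun _ => z).map spfJ) := by
    rw [h1, h2, ← h3]
    rfl
  rw [integral_indicator_one hA, integral_indicator_one hA] at h4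
  exact (ENNReal.toReal_eq_toReal_iff' (measure_ne_top _ _) (measure_ne_top _ _)).1 h4

theorem l8li_law_all (k : ℕ) :
    (spiK B ls z) ⊗ₘ (spiKap B ls z k) = (ghmT B ls (spiRep k) fun _ => z).map spfJ := by
  by_cases hk : k ≤ ls.length
  · exact spf_law hB hn z hk
  · exact l8li_law_gt hB hn z (by omega)

/-- two-label marginals are fork laws -/
theorem l8li_marg2 {N r : ℕ} {τ : ℕ → ℕ → ℕ} (h : IsTr N r τ) {x y : ℕ} (hx : x < r) (hy : y < r) (hxy : x ≠ y) :
    (l8liLaw B ls z r τ).map (fun w => (w x, w y)) = (spiK B ls z) ⊗ₘ (spiKap B ls z (τ x y)) := by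
  have hL := l8li_prob hB hn z r τ
  have hpr : Measurable fun w : ℕ → SpiOm S ι => (w x, w y) := (measurable_pi_apply x).prodMk (measurable_pi_apply y)
  have hL' : IsProbabilityMeasure ((l8liLaw B ls z r τ).map fun w => (w x, w y)) :=
    Measure.isProbabilityMeasure_map hpr.aemeasurable
  have hT := (ghmt_markov hB hn (spiRep (τ x y))).isProbabilityMeasure fun _ => z
  rw [l8li_law_all hB hn z]
  have hT' : IsProbabilityMeasure ((ghmT B ls (spiRep (τ x y)) fun _ => z).map spfJ) :=
    Measure.isProbabilityMeasure_map spf_J_meas.aemeasurable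
  refine Measure.ext fun A hA => ?_
  have hf : Measurable (A.indicator (1 : SpiOm S ι × SpiOm S ι → ℝ)) := measurable_one.indicator hA
  have hb : ∀ p, |A.indicator (1 : SpiOm S ι × SpiOm S ι → ℝ) p| ≤ 1 := fun p => by
    by_cases h0 : p ∈ A <;> simp [h0]
  have h1 : ∫ p, A.indicator (1 : SpiOm S ι × SpiOm S ι → ℝ) p ∂((l8liLaw B ls z r τ).map fun w => (w x, w y))
      = (l8liTr h).nu B ls z fun η σ => A.indicator (1 : SpiOm S ι × SpiOm S ι → ℝ) (l8liJ r (η, σ) x, l8liJ r (η, σ) y) := by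
    rw [integral_map hpr.aemeasurable hf.aestronglyMeasurable]
    exact l8li_int hB hn z h (fun w => A.indicator (1 : SpiOm S ι × SpiOm S ι → ℝ) (w x, w y)) (hf.comp hpr) 1 fun w => hb _
  have h2 : ∫ p, A.indicator (1 : SpiOm S ι × SpiOm S ι → ℝ) p ∂((ghmT B ls (spiRep (τ x y)) fun _ => z).map spfJ)
      = ghNu B ls (spiRep (τ x y)) (fun _ => z) fun η σ => A.indicator (1 : SpiOm S ι × SpiOm S ι → ℝ) (spfJ (η, σ)) := by
    rw [integral_map spf_J_meas.aemeasurable hf.aestronglyMeasurable]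
    exact ghmt_integral_bdd hB hn _ _ (fun x => A.indicator (1 : SpiOm S ι × SpiOm S ι → ℝ) (spfJ x)) (hf.comp spf_J_meas) 1
      fun _ => hb _
  set e : Fin 2 → Fin r := ![⟨x, hx⟩, ⟨y, hy⟩] with he
  have h3 : (fun η σ => A.indicator (1 : SpiOm S ι × SpiOm S ι → ℝ) (l8liJ r (η, σ) x, l8liJ r (η, σ) y))
      = ghPull e fun η σ => A.indicator (1 : SpiOm S ι × SpiOm S ι → ℝ) (spfJ (η, σ)) := by
    funext η σ
    simp [ghPull, spfJ, l8liJ, hx, hy, he]
  have hcl : ∀ t, t ≤ ls.length → ∀ a b : Fin 2,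
      (b = a ∨ t < (obT2 (τ x y)).sh a b) ↔ (e b = e a ∨ t < (l8liTr h).sh (e a) (e b)) := by
    intro t _ a b
    have hne : (⟨y, hy⟩ : Fin r) ≠ ⟨x, hx⟩ := fun h0 => hxy (congrArg Fin.val h0).symm
    have hs : τ y x = τ x y := h.symm _ _ hy hx
    fin_cases a <;> fin_cases b <;> simp [he, obT2, l8liTr, hne, hne.symm, hs]
  have h4 := gh_n_tree_pull B hB ls hn (l8liTr h) (obT2 (τ x y)) e hcl z
    fun η σ => A.indicator (1 : SpiOm S ι × SpiOm S ι → ℝ) (spfJ (η, σ))
  have h5 : (obT2 (τ x y)).rep = spiRep (τ x y) := by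
    funext t b
    rw [obt_rep]
    rfl
  rw [h3, h4] at h1
  unfold GhTree.nu at h1
  rw [h5, ← h2, integral_indicator_one hA, integral_indicator_one hA] at h1
  exact (ENNReal.toReal_eq_toReal_iff' (measure_ne_top _ _) (measure_ne_top _ _)).1 h1

/-- restriction consistency -/
theorem l8li_rc {N r : ℕ} {τ τ' : ℕ → ℕ → ℕ} (h : IsTr N r τ) (h' : IsTr N r τ') (R : Finset ℕ) (F : (ℕ → SpiOm S ι) → ℝ)
    (hF : Measurable F) (hdep : DependsOn F (R : Set ℕ)) (hb : ∃ M : ℝ, ∀ w, |F w| ≤ M)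
    (hag : ∀ x ∈ R, ∀ y ∈ R, x ≠ y → τ x y = τ' x y) :
    ∫ w, F w ∂(l8liLaw B ls z r τ) = ∫ w, F w ∂(l8liLaw B ls z r τ') := by
  classical
  obtain ⟨M, hM⟩ := hb
  set R' := R.filter (· < r) with hR'
  set eq := R'.equivFin with heq
  have hlt : ∀ i : Fin R'.card, (eq.symm i).1 < r := fun i => (Finset.mem_filter.1 (eq.symm i).2).2
  have hmem : ∀ i : Fin R'.card, (eq.symm i).1 ∈ R := fun i => (Finset.mem_filter.1 (eq.symm i).2).1
  set e : Fin R'.card → Fin r := fun i => ⟨(eq.symm i).1, hlt i⟩ with he_def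
  have he : Function.Injective e := by
    intro i j hij
    have h1 : (eq.symm i).1 = (eq.symm j).1 := congrArg Fin.val hij
    exact eq.symm.injective (Subtype.ext h1)
  set P : GhTest S ι R'.card := fun η' σ' =>
    F (fun c => if hc : c ∈ R' then (fun t => η' t (eq ⟨c, hc⟩), σ' (eq ⟨c, hc⟩)) else (fun _ _ => 0, default)) with hP
  have hpull : (fun η σ => F (l8liJ r (η, σ))) = ghPull e P := by
    funext η σ
    simp only [ghPull, hP]
    refine hdep fun c hc => ?_
    by_cases hcr : c < r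
    · have hc' : c ∈ R' := Finset.mem_filter.2 ⟨hc, hcr⟩
      have e1 : e (eq ⟨c, hc'⟩) = ⟨c, hcr⟩ := by
        apply Fin.ext
        simp [he_def]
      simp only [l8liJ, hcr, hc', dif_pos, e1]
    · have hc' : c ∉ R' := fun h0 => hcr (Finset.mem_filter.1 h0).2
      simp only [l8liJ, hcr, hc', dif_neg, not_false_iff]
  have htree : (l8liTr h).comap e he = (l8liTr h').comap e he := by
    have hsh : (fun a b : Fin R'.card => τ (e a).1 (e b).1) = fun a b => τ' (e a).1 (e b).1 := by
      funext a b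
      by_cases hab : a = b
      · subst hab
        rw [h.diag _ (e a).2, h'.diag _ (e a).2]
      · exact hag _ (hmem a) _ (hmem b) fun h0 => hab (he (Fin.ext h0))
    simp only [GhTree.comap, l8liTr, GhTree.mk.injEq]
    exact hsh
  rw [l8li_int hB hn z h F hF M hM, l8li_int hB hn z h' F hF M hM, hpull, ← gh_n_tree_comap B hB ls hn _ e he,
    ← gh_n_tree_comap B hB ls hn _ e he, htree]

/-- **the family of tree laws of a hierarchy is consistent** -/
theorem l8li_ok {r : ℕ} (hr : 2 ≤ r) : (l8liT B ls z r).Ok where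
  two := hr
  prob := fun τ _ => l8li_prob hB hn z r τ
  probF := fun k => by
    have := (spi_k_markov hB (spi_reg_of_nn hB hn)).isProbabilityMeasure z
    have := spi_kap_markov hB (spi_reg_of_nn hB hn) z k
    show IsProbabilityMeasure ((spiK B ls z) ⊗ₘ (spiKap B ls z k))
    infer_instance
  probM := (spi_k_markov hB (spi_reg_of_nn hB hn)).isProbabilityMeasure z
  symm := fun τ hτ x y hx hy => IsTr.symm hτ x y hx hy
  ultra := fun τ hτ x y w hx hy hw _ _ _ => IsTr.ultra hτ x y w hx hy hw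
  marg2 := fun τ hτ x y hx hy hxy => l8li_marg2 hB hn z hτ hx hy hxy
  fst := fun k => by
    have := (spi_k_markov hB (spi_reg_of_nn hB hn)).isProbabilityMeasure z
    have := spi_kap_markov hB (spi_reg_of_nn hB hn) z k
    exact Measure.fst_compProd _ _
  rc := fun τ τ' hτ hτ' R F hF hdep hb hag => l8li_rc hB hn z hτ hτ' R F hF hdep hb hag

end thms

end gen

/-! ### the SK instance -/

/-- **the family of tree laws of the `n`-site model on the fine path `P`, ensemble `tl`** -/
noncomputable def l8liSk (n : ℕ) (a : ℝ) (P : LlStp) (tl : Option ℕ) (r : ℕ) : L8L (SkOm n) :=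
  l8liT (skBase n a) (skLvs n (llMv tl P)) 0 r

theorem l8li_sk_mu (n : ℕ) (a : ℝ) (P : LlStp) (tl : Option ℕ) (r : ℕ) : (l8liSk n a P tl r).μ = (skSP n a (llMv tl P)).μ := rfl

theorem l8li_sk_fork (n : ℕ) (a : ℝ) (P : LlStp) (tl : Option ℕ) (r k : ℕ) :
    (l8liSk n a P tl r).fork k = (skSP n a (llMv tl P)).fork k := rfl

theorem l8li_rep_congr {r : ℕ} {τ τ' : ℕ → ℕ → ℕ} (h : JtAgree r τ τ') : (fun t => trRep r τ t) = fun t => trRep r τ' t := by
  funext t a
  unfold trRep
  have e : (fun b : Fin r => decide (t < τ a.1 b.1)) = fun b : Fin r => decide (t < τ' a.1 b.1) := by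
    funext b
    rw [h _ _ a.2 b.2]
  rw [e]

/-- **INSTANCE** of `L8LRep`: the positive laws of the jet context are the spin marginals of the path laws -/
theorem l8li_rep (n : ℕ) (a : ℝ) (ha : 0 < a) (P : LlStp) (hP : LlStpAdm a P) (tl : Option ℕ) (r : ℕ) (hr : 2 ≤ r) :
    L8LRep (llJs n a P tl) (l8liSk n a P tl r) Prod.snd r where
  ok := l8li_ok (obt_base_ok n ha) ((l8i_adm (ll2_mv_adm hP tl)).ghNn le_rfl) 0 hr
  hr := rfl
  hV := by
    show IsTr (skLvs n (llMv tl P)).length r = IsTr P.length r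
    simp [skLvs, ll2_mv_len]
  rep := fun τ _ F hF => by
    have hB := obt_base_ok n ha
    have hn : GhNn (skLvs n (llMv tl P)) := (l8i_adm (ll2_mv_adm hP tl)).ghNn le_rfl
    show ghNu (skBase n a) (skLvs n (llMv tl P)) (fun t => trRep r τ t) (fun _ => 0) (fun _ σ => F (trExt σ))
      = ∫ ω, F (fun x => (ω x).2) ∂(ghmT (skBase n a) (skLvs n (llMv tl P)) (fun t => trRep r τ t) fun _ => 0).map (l8liJ r)
    have e : ∀ x : GhmTΩ (SkCfg n) (SkDr n) r, (fun c => (l8liJ r x c).2) = trExt x.2 := by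
      intro x
      funext c
      unfold l8liJ trExt
      by_cases h : c < r <;> simp [h]
    have hm : Measurable fun x : GhmTΩ (SkCfg n) (SkDr n) r => F (trExt x.2) :=
      (Measurable.of_discrete (f := fun σ : Fin r → SkCfg n => F (trExt σ))).comp measurable_snd
    have hb : ∀ x : GhmTΩ (SkCfg n) (SkDr n) r, |F (trExt x.2)| ≤ ∑ σ : Fin r → SkCfg n, |F (trExt σ)| := fun x =>
      Finset.single_le_sum (f := fun σ : Fin r → SkCfg n => |F (trExt σ)|) (fun _ _ => abs_nonneg _) (Finset.mem_univ x.2)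
    have h1 := ghmt_integral_bdd hB hn (fun t => trRep r τ t) (fun _ => 0) (fun x => F (trExt x.2)) hm _ hb
    rw [← h1]
    have hG : (fun ω : ℕ → SkOm n => F (fun x => (ω x).2)) = fun ω => F (trExt fun c : Fin r => (ω c.1).2) := by
      funext ω
      refine hF _ _ fun i hi => ?_
      simp [trExt, hi]
    have hGm : Measurable fun ω : ℕ → SkOm n => F (fun x => (ω x).2) := by
      rw [hG]
      exact (Measurable.of_discrete (f := fun σ : Fin r → SkCfg n => F (trExt σ))).comp
        (measurable_pi_lambda _ fun c => measurable_snd.comp (measurable_pi_apply c.1))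
    rw [integral_map (l8li_J_meas r).aemeasurable hGm.aestronglyMeasurable]
    simp only [e]
  congr := fun τ τ' F h => by
    show ghNu (skBase n a) (skLvs n (llMv tl P)) (fun t => trRep r τ t) (fun _ => 0) (fun _ σ => F (trExt σ))
      = ghNu (skBase n a) (skLvs n (llMv tl P)) (fun t => trRep r τ' t) (fun _ => 0) (fun _ σ => F (trExt σ))
    rw [l8li_rep_congr h]

theorem l8li_eqns_cite : True := by
  have := @l8liTr.eq_1
  have := @l8liJ.eq_1
  have := @l8liLaw.eq_1
  have := @l8liT.eq_1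
  have := @l8liSk.eq_1
  have := @l8liLaw.congr_simp
  have := @l8liSk.congr_simp
  trivial

end Claimed.Agent.R286
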