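import Claimed.Agent.R286.L08.LsInst
import Claimed.Agent.R286.L08.Defs
import Claimed.Agent.R286.L08.SPC
import Claimed.Agent.R286.L09.RedTab
import Claimed.Agent.R286.Fd.TrA1

/-!
# Row 286 (S0533), folder L08, file Dic : THE DICTIONARY  single path / fork laws  <->  tree numbers of `llJs`      (owner helper257; prefix `l8w`)

MISFIT M1 of the board of 224 (arrow LL08 -> LL09).   TEX[LL:prop:statistics-pointwise] TEX[LL:exp:prop-low-coefficients]
GENERIC (any base `B`, levels `ls`, root field `z`; `l8liLaw B ls z q τ` = law of the PATHS of the `q` labels of the table `τ`, L08/LsInst):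
* `l8w_pull`   : PRUNE / relabel at PATH level: `∫ F (w ∘ f) d law_q τ = ∫ F d law_p (τ ∘ f)`  (`f` need not be injective);
* `l8w_att`    : ATTACHMENT = CONDITIONAL LAW: a new label attached to `x` at the depth `j` (`trAtt`) carries the spin drawn from `κ_j (w x)`;
SK LEVEL (`X = llJs n a P tl`, `SP = skSP n a (llMv tl P)`):
* `l8w_pos` : `L9rPos X` (282);   `l8w_nu` : `X.nu r τ F = ∫ F(spins) d law τ`;   `l8w_Q`, `l8w_QX_gt` : `SP.Q = skOv`, `QX k₁ k₂ = Q` beyond the terminal draw;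
* **`l8w_pair`, `l8w_pair2`, `l8w_ov`, `l8w_Dl`** : (i) `X.nu r τ (g (σ x) (σ y)) = ∫ g d fork (τ x y)`;
* `l8w_int_pair`, `l8w_ae_pair`, `l8w_prefix` : PATH level (functions of two paths, a.s. properties, common posterior means of labels which share `k` stages);
* **`l8w_env`** : `L9rEnv X r v E ↔ ∫ |msk Q - q|^r d fork v ≤ E^r`;   **`l8w_chg`** : `∫ |Q - QX c c|^r d fork v ≤ ζ^r ⟹ L9rChg X r v c (2 ζ)` (Cor. 8.7 in the resampling form).
LEVEL OF ONE INSTANCE `I : L8In` (hypotheses `0 < I.a`, `LlStpAdm I.a I.LP`): `l8w_X_eq`, `l8w_sp_eq` (rfl), (v) `l8w_msk_act`, `l8w_msk_low`, `l8w_Dl_low`, `l8w_pairI`, `l8w_DlI`,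
`l8w_mom` (`ν_pair |Δ|^(2r) = I.moF tl k r (Q - q)`), `l8w_Sf` (`= I.S k`), `l8w_envI` (from `Rnd.ref_Q`), `l8w_chgI` (from `Rnd.proj`), `l8w_chg_low`.
-/

set_option autoImplicit false
set_option linter.unusedSectionVars false

namespace Claimed.Agent.R286

open MeasureTheory ProbabilityTheory Finset

section gen

variable {S ι : Type} [Fintype S] [Fintype ι] [Inhabited S] [MeasurableSpace S] [DiscreteMeasurableSpace S]
variable {B : GhB S} (hB : B.Ok) {ls : List (GhLv S ι)} (hn : GhNn ls) (z : S → ℝ)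

/-- relabelled table -/
theorem l8w_isTr_comp {N p q : ℕ} {τ : ℕ → ℕ → ℕ} (h : IsTr N q τ) (f : ℕ → ℕ) (hf : ∀ x, x < p → f x < q) :
    IsTr N p fun x y => τ (f x) (f y) where
  le := fun x y hx hy => h.le _ _ (hf x hx) (hf y hy)
  diag := fun x hx => h.diag _ (hf x hx)
  symm := fun x y hx hy => h.symm _ _ (hf x hx) (hf y hy)
  ultra := fun x y w hx hy hw => h.ultra _ _ _ (hf x hx) (hf y hy) (hf w hw)

include hB hn in
/-- **PRUNE / relabel at path level** -/
theorem l8w_pull {p q : ℕ} {τ : ℕ → ℕ → ℕ} (h : IsTr ls.length q τ) (f : ℕ → ℕ) (hf : ∀ x, x < p → f x < q)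
    (F : (ℕ → SpiOm S ι) → ℝ) (hF : Measurable F) (hdep : DependsOn F (Set.Iio p)) (C : ℝ) (hC : ∀ w, |F w| ≤ C) :
    ∫ w, F (fun x => w (f x)) ∂(l8liLaw B ls z q τ) = ∫ w, F w ∂(l8liLaw B ls z p fun x y => τ (f x) (f y)) := by
  have h' := l8w_isTr_comp h f hf
  have hm : Measurable fun w : ℕ → SpiOm S ι => F fun x => w (f x) :=
    hF.comp (measurable_pi_lambda _ fun x => measurable_pi_apply (f x))
  rw [l8li_int hB hn z h _ hm C fun w => hC _, l8li_int hB hn z h' F hF C hC]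
  set e : Fin p → Fin q := fun a => ⟨f a.1, hf a.1 a.2⟩ with he
  have hpull : (fun η σ => F fun x => l8liJ q (η, σ) (f x)) = ghPull e fun η σ => F (l8liJ p (η, σ)) := by
    funext η σ
    simp only [ghPull]
    refine hdep fun x hx => ?_
    have hx' : x < p := hx
    simp only [l8liJ, hx', hf x hx', dif_pos, he]
  rw [hpull]
  refine gh_n_tree_pull B hB ls hn (l8liTr h) (l8liTr h') e (fun t ht a b => ?_) z _
  simp only [l8liTr, he, Fin.mk.injEq]
  constructor
  · rintro (h0 | h0)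
    · left; rw [h0]
    · right; exact h0
  · rintro (h0 | h0)
    · right
      rw [← h0, h.diag _ (hf b.1 b.2)]
      omega
    · right; exact h0

include hB hn in
/-- the table `trAtt` and the tree `GhTree.att` give the same numbers -/
theorem l8w_tr_att {q : ℕ} {τ : ℕ → ℕ → ℕ} (h : IsTr ls.length q τ) {x j : ℕ} (hx : x < q) (hj : j ≤ ls.length + 1)
    (P : GhTest S ι (q + 1)) :
    (l8liTr (tr_att_isTr h hx hj)).nu B ls z P = ((l8liTr h).att j ⟨x, hx⟩).nu B ls z P := by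
  refine gh_n_tree_pull B hB ls hn (l8liTr (tr_att_isTr h hx hj)) ((l8liTr h).att j ⟨x, hx⟩) id (fun t _ a b => ?_) z P
  simp only [id]
  induction a using Fin.lastCases with
  | last =>
    induction b using Fin.lastCases with
    | last => simp
    | cast b =>
      rw [ghp_att_lc]
      have hb : b.1 ≠ q := by have := b.2; omega
      have e1 : (l8liTr (tr_att_isTr h hx hj)).sh (Fin.last q) b.castSucc = min j (τ x b.1) := by
        simp [l8liTr, trAtt, hb]
      rw [e1]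
      by_cases hbx : b = ⟨x, hx⟩
      · subst hbx
        simp only [if_true, h.diag x hx]
        rw [min_eq_left hj]
      · simp only [hbx, if_false, l8liTr]
  | cast a =>
    induction b using Fin.lastCases with
    | last =>
      rw [ghp_att_cl]
      have ha : a.1 ≠ q := by have := a.2; omega
      have e1 : (l8liTr (tr_att_isTr h hx hj)).sh a.castSucc (Fin.last q) = min j (τ a.1 x) := by
        simp [l8liTr, trAtt, ha]
      rw [e1]
      by_cases hax : a = ⟨x, hx⟩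
      · subst hax
        simp only [if_true, h.diag x hx]
        rw [min_eq_left hj]
      · simp only [hax, if_false, l8liTr]
        rw [h.symm x a.1 hx a.2]
    | cast b =>
      have ha : a.1 ≠ q := by have := a.2; omega
      have hb : b.1 ≠ q := by have := b.2; omega
      have e1 : (l8liTr (tr_att_isTr h hx hj)).sh a.castSucc b.castSucc = τ a.1 b.1 := by
        simp [l8liTr, trAtt, ha, hb]
      rw [e1, ghp_att_cc]
      rfl

/-- conditional mean of a spin function given the prefix at the cut `j` -/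
noncomputable def l8wE (B : GhB S) (ls : List (GhLv S ι)) (z : S → ℝ) (j : ℕ) (Φ : S → ℝ) (ω : SpiOm S ι) : ℝ :=
  ∫ ω', Φ ω'.2 ∂(spiKap B ls z j ω)

theorem l8w_E_meas (j : ℕ) (Φ : S → ℝ) : Measurable (l8wE B ls z j Φ) :=
  spi_X_meas z (fun _ : Fin 1 => Φ) (fun _ => 0) j 0

include hB hn in
theorem l8w_E_bdd (j : ℕ) (Φ : S → ℝ) (ω : SpiOm S ι) : |l8wE B ls z j Φ ω| ≤ ∑ s, |Φ s| :=
  spi_X_bdd hB (spi_reg_of_nn hB hn) z (fun _ : Fin 1 => Φ) (fun _ => 0) j 0 ω

include hB hn in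
/-- **ATTACHMENT = CONDITIONAL LAW**: the spin of a new label attached to `x` at the depth `j` is drawn from `κ_j (w x)`, independently of the other paths -/
theorem l8w_att {q : ℕ} {τ : ℕ → ℕ → ℕ} (h : IsTr ls.length q τ) {x j : ℕ} (hx : x < q) (hj : j ≤ ls.length + 1)
    (F : (ℕ → SpiOm S ι) → ℝ) (hF : Measurable F) (hdep : DependsOn F (Set.Iio q)) (C : ℝ) (hC : ∀ w, |F w| ≤ C) (Φ : S → ℝ) :
    ∫ w, F w * Φ (w q).2 ∂(l8liLaw B ls z (q + 1) (trAtt ls.length q τ x j))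
      = ∫ w, F w * l8wE B ls z j Φ (w x) ∂(l8liLaw B ls z q τ) := by
  have hr := spi_reg_of_nn hB hn
  have h' := tr_att_isTr h hx hj
  have hC0 : 0 ≤ C := (abs_nonneg _).trans (hC fun _ => (fun _ _ => 0, default))
  have hΦm : Measurable fun w : ℕ → SpiOm S ι => Φ (w q).2 :=
    (Measurable.of_discrete (f := Φ)).comp (measurable_snd.comp (measurable_pi_apply q))
  have hΦb : ∀ s, |Φ s| ≤ ∑ s, |Φ s| := fun s =>
    Finset.single_le_sum (f := fun s => |Φ s|) (fun _ _ => abs_nonneg _) (Finset.mem_univ s)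
  rw [l8li_int hB hn z h' (fun w => F w * Φ (w q).2) (hF.mul hΦm) (C * ∑ s, |Φ s|) fun w => by
      rw [abs_mul]; exact mul_le_mul (hC w) (hΦb _) (abs_nonneg _) hC0,
    l8li_int hB hn z h (fun w => F w * l8wE B ls z j Φ (w x))
      (hF.mul ((l8w_E_meas z j Φ).comp (measurable_pi_apply x))) (C * ∑ s, |Φ s|) fun w => by
      rw [abs_mul]; exact mul_le_mul (hC w) (l8w_E_bdd hB hn z j Φ _) (abs_nonneg _) hC0,
    l8w_tr_att hB hn z h hx hj]
  have e1 : (fun (η : ℕ → Fin (q + 1) → ι → ℝ) (σ : Fin (q + 1) → S) => F (l8liJ (q + 1) (η, σ)) * Φ (l8liJ (q + 1) (η, σ) q).2)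
      = fun η σ => ghOld (fun η' σ' => F (l8liJ q (η', σ'))) η σ * Φ (σ (Fin.last q)) := by
    funext η σ
    congr 1
    · simp only [ghOld]
      refine hdep fun y hy => ?_
      have hy' : y < q := hy
      simp only [l8liJ, hy', show y < q + 1 by omega, dif_pos]
      rfl
    · simp only [l8liJ, show q < q + 1 by omega, dif_pos]
      rfl
  rw [e1]
  by_cases hjl : j ≤ ls.length
  · rw [gh_n_tree_att B hB ls hn (l8liTr h) j hjl ⟨x, hx⟩ z]
    congr 1
    funext η σ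
    congr 1
    have e2 := spi_X_le hB hr z (fun _ : Fin 1 => Φ) (fun _ => 0) hjl 0 (l8liJ q (η, σ) x)
    refine Eq.trans ?_ e2.symm
    simp only [spiZ, l8liJ, hx, dif_pos]
  · have hjl' : ls.length < j := by omega
    rw [gh_n_tree_coin B hB ls hn (l8liTr h) j hjl' ⟨x, hx⟩ z]
    congr 1
    funext η σ
    have e3 : l8wE B ls z j Φ (l8liJ q (η, σ) x) = Φ (l8liJ q (η, σ) x).2 :=
      spi_X_gt (B := B) z (fun _ : Fin 1 => Φ) (fun _ => 0) hjl' 0 (l8liJ q (η, σ) x)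
    rw [e3]
    simp only [ghPull, ghOld, ghFold_cast, ghFold_last, l8liJ, hx, dif_pos]

end gen

/-! ### the SK level: `X = llJs n a P tl`, single path `skSP n a (llMv tl P)` -/

section sk

theorem l8w_Q (n : ℕ) (a : ℝ) (Q : SkStp) (p : SkOm n × SkOm n) : (skSP n a Q).Q p = skOv p.1.2 p.2.2 := by
  show ∑ i, skY p.1.2 i * skY p.2.2 i = (∑ i, skSp p.1.2 i * skSp p.2.2 i) / n
  rw [Finset.sum_div]
  refine Finset.sum_congr rfl fun i _ => ?_
  unfold skY
  rw [div_mul_div_comm, Real.mul_self_sqrt (Nat.cast_nonneg n)]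

theorem l8w_QX_gt (n : ℕ) (a : ℝ) (Q : SkStp) {k₁ k₂ : ℕ} (h1 : Q.length < k₁) (h2 : Q.length < k₂) (p : SkOm n × SkOm n) :
    (skSP n a Q).QX k₁ k₂ p = (skSP n a Q).Q p := by
  unfold L8P.QX L8P.Q
  refine Finset.sum_congr rfl fun i _ => ?_
  rw [l8i_X_gt n a Q k₁ h1, l8i_X_gt n a Q k₂ h2]
  rfl

variable (n : ℕ) {a : ℝ} (ha : 0 < a) {P : LlStp} (hP : LlStpAdm a P) (tl : Option ℕ)

include ha hP in
/-- the positive laws of 282 -/
theorem l8w_pos : L9rPos (llJs n a P tl) where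
  rep := fun q τ _ => (ll2_law n ha hP tl).nu.rep q τ
  congr := fun q τ τ' F h => (ll2_law n ha hP tl).nu.congr q τ τ' h F
  comap := fun q p τ hτ f hf F hF => (ll2_law n ha hP tl).nu.comap q p τ hτ f hf F hF

include ha hP in
/-- tree numbers are integrals over the law of the paths -/
theorem l8w_nu {r : ℕ} (hr : 2 ≤ r) {τ : ℕ → ℕ → ℕ} (hτ : IsTr P.length r τ) (F : (ℕ → SkCfg n) → ℝ) (hF : TrUses r F) :
    (llJs n a P tl).nu r τ F = ∫ w, F (fun x => (w x).2) ∂(l8liSk n a P tl r).law τ :=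
  (l8li_rep n a ha P hP tl r hr).rep τ hτ F hF

include ha hP in
/-- **(i) PAIR**: a function of two labels is integrated by the fork law at the cut where they separate -/
theorem l8w_pair {r : ℕ} {τ : ℕ → ℕ → ℕ} (hτ : IsTr P.length r τ) {x y : ℕ} (hx : x < r) (hy : y < r) (hxy : x ≠ y)
    (g : SkCfg n → SkCfg n → ℝ) :
    (llJs n a P tl).nu r τ (fun σ => g (σ x) (σ y)) = ∫ p, g p.1.2 p.2.2 ∂(skSP n a (llMv tl P)).fork (τ x y) := by
  have hr : 2 ≤ r := by omega
  have hR := l8li_rep n a ha P hP tl r hr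
  rw [l8w_nu n ha hP tl hr hτ _ fun σ σ' h => by rw [h x hx, h y hy]]
  have hV : (l8liSk n a P tl r).V τ := by rw [hR.hV]; exact hτ
  have hm := hR.ok.marg2 τ hV x y (by rw [hR.hr]; exact hx) (by rw [hR.hr]; exact hy) hxy
  rw [← l8li_sk_fork n a P tl r, ← hm]
  have hg : Measurable fun p : SkOm n × SkOm n => g p.1.2 p.2.2 :=
    (Measurable.of_discrete (f := fun u : SkCfg n × SkCfg n => g u.1 u.2)).comp
      ((measurable_snd.comp measurable_fst).prodMk (measurable_snd.comp measurable_snd))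
  rw [integral_map ((measurable_pi_apply x).prodMk (measurable_pi_apply y)).aemeasurable hg.aestronglyMeasurable]

include ha hP in
/-- the pair table -/
theorem l8w_pair2 {k : ℕ} (hk : k ≤ P.length + 1) (g : SkCfg n → SkCfg n → ℝ) :
    (llJs n a P tl).nu 2 (trPair P.length k) (fun σ => g (σ 0) (σ 1)) = ∫ p, g p.1.2 p.2.2 ∂(skSP n a (llMv tl P)).fork k :=
  l8w_pair n ha hP tl (l9r_t2_isTr hk) (by norm_num) (by norm_num) (by norm_num) g

include ha hP in
/-- functions of the overlap of a pair -/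
theorem l8w_ov {r : ℕ} {τ : ℕ → ℕ → ℕ} (hτ : IsTr P.length r τ) {x y : ℕ} (hx : x < r) (hy : y < r) (hxy : x ≠ y) (g : ℝ → ℝ) :
    (llJs n a P tl).nu r τ (fun σ => g ((llJs n a P tl).ov (σ x) (σ y)))
      = ∫ p, g ((skSP n a (llMv tl P)).Q p) ∂(skSP n a (llMv tl P)).fork (τ x y) := by
  rw [l8w_pair n ha hP tl hτ hx hy hxy fun s s' => g ((llJs n a P tl).ov s s')]
  simp only [l8w_Q]
  rfl

include ha hP in
/-- functions of `Δ = Q^* - q` of a pair -/
theorem l8w_Dl {r : ℕ} {τ : ℕ → ℕ → ℕ} (hτ : IsTr P.length r τ) {x y : ℕ} (hx : x < r) (hy : y < r) (hxy : x ≠ y) (g : ℝ → ℝ) :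
    (llJs n a P tl).nu r τ (fun σ => g ((llJs n a P tl).Dl τ σ x y))
      = ∫ p, g (llMk tl (τ x y) * (skSP n a (llMv tl P)).Q p - llQs a P (τ x y)) ∂(skSP n a (llMv tl P)).fork (τ x y) :=
  l8w_ov n ha hP tl hτ hx hy hxy fun u => g (llMk tl (τ x y) * u - llQs a P (τ x y))

include ha hP in
/-- path level: functions of two paths -/
theorem l8w_int_pair {r : ℕ} {τ : ℕ → ℕ → ℕ} (hτ : IsTr P.length r τ) {x y : ℕ} (hx : x < r) (hy : y < r) (hxy : x ≠ y)
    (G : SkOm n × SkOm n → ℝ) (hG : Measurable G) :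
    ∫ w, G (w x, w y) ∂(l8liSk n a P tl r).law τ = ∫ p, G p ∂(skSP n a (llMv tl P)).fork (τ x y) := by
  have hR := l8li_rep n a ha P hP tl r (by omega)
  have hV : (l8liSk n a P tl r).V τ := by rw [hR.hV]; exact hτ
  have hm := hR.ok.marg2 τ hV x y (by rw [hR.hr]; exact hx) (by rw [hR.hr]; exact hy) hxy
  rw [← l8li_sk_fork n a P tl r, ← hm,
    integral_map ((measurable_pi_apply x).prodMk (measurable_pi_apply y)).aemeasurable hG.aestronglyMeasurable]

include ha hP in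
/-- path level: almost sure properties of two paths -/
theorem l8w_ae_pair {r : ℕ} {τ : ℕ → ℕ → ℕ} (hτ : IsTr P.length r τ) {x y : ℕ} (hx : x < r) (hy : y < r) (hxy : x ≠ y)
    {p : SkOm n × SkOm n → Prop} (hp : ∀ᵐ u ∂(skSP n a (llMv tl P)).fork (τ x y), p u) :
    ∀ᵐ w ∂(l8liSk n a P tl r).law τ, p (w x, w y) := by
  have hR := l8li_rep n a ha P hP tl r (by omega)
  have hV : (l8liSk n a P tl r).V τ := by rw [hR.hV]; exact hτ
  have hm := hR.ok.marg2 τ hV x y (by rw [hR.hr]; exact hx) (by rw [hR.hr]; exact hy) hxy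
  rw [← l8li_sk_fork n a P tl r, ← hm] at hp
  exact ae_of_ae_map ((measurable_pi_apply x).prodMk (measurable_pi_apply y)).aemeasurable hp

include ha hP in
/-- two labels which share `k` stages have the same posterior mean at the cut `k` -/
theorem l8w_prefix (hn : 1 ≤ n) {r : ℕ} {τ : ℕ → ℕ → ℕ} (hτ : IsTr P.length r τ) {x y : ℕ} (hx : x < r) (hy : y < r) {k : ℕ}
    (hk : k ≤ τ x y) (i : Fin n) :
    ∀ᵐ w ∂(l8liSk n a P tl r).law τ, (skSP n a (llMv tl P)).X k i (w x) = (skSP n a (llMv tl P)).X k i (w y) := by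
  by_cases hxy : x = y
  · subst hxy; exact ae_of_all _ fun _ => rfl
  · have hok := l8i_ok n hn a ha _ (ll2_mv_adm hP tl)
    exact l8w_ae_pair n ha hP tl hτ hx hy hxy
      ((skSP n a (llMv tl P)).l8s_fork_prefix hok (τ x y)
        (((skSP n a (llMv tl P)).l8s_X_sm hok k i).measurable.mono ((skSP n a (llMv tl P)).ℱ.mono hk) le_rfl))

include ha hP in
/-- **(D2) in the form of 282** -/
theorem l8w_env {r v : ℕ} (hv : v ≤ P.length + 1) (E : ℝ) :
    L9rEnv (llJs n a P tl) r v E ↔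
      ∫ p, |llMk tl v * (skSP n a (llMv tl P)).Q p - llQs a P v| ^ r ∂(skSP n a (llMv tl P)).fork v ≤ E ^ r := by
  unfold L9rEnv
  have h := l8w_ov n ha hP tl (l9r_t2_isTr hv) (x := 0) (y := 1) (by norm_num) (by norm_num) (by norm_num)
    fun u => |llMk tl v * u - llQs a P v| ^ r
  have e : l9rT2 P.length v 0 1 = v := by simp [l9rT2]
  rw [e] at h
  exact Iff.of_eq (congrArg (· ≤ E ^ r) h)

theorem l8w_mk_abs (tl : Option ℕ) (t : ℕ) : |llMk tl t| ≤ 1 := by
  cases tl with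
  | none => simp [llMk]
  | some js =>
    simp only [llMk]
    split_ifs <;> simp

include ha hP in
/-- **Cor. 8.7 in the RESAMPLING form of 282**: a pair which splits at `v ≤ c`, minus its copy resampled after the depth `c` -/
theorem l8w_chg (hn : 1 ≤ n) {r v c : ℕ} (hr : 1 ≤ r) (hv : v ≤ c) (hc : c ≤ P.length + 1) {ζ : ℝ}
    (h : ∫ p, |(skSP n a (llMv tl P)).Q p - (skSP n a (llMv tl P)).QX c c p| ^ r ∂(skSP n a (llMv tl P)).fork v ≤ ζ ^ r) :
    L9rChg (llJs n a P tl) r v c (2 * ζ) := by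
  set SP := skSP n a (llMv tl P) with hSP
  have hok : SP.Ok := l8i_ok n hn a ha _ (ll2_mv_adm hP tl)
  have hτ : IsTr P.length 4 (l9rT4 P.length v c) := l9r_t4_isTr hv hc
  have hR := l8li_rep n a ha P hP tl 4 (by norm_num)
  have hV : (l8liSk n a P tl 4).V (l9rT4 P.length v c) := by rw [hR.hV]; exact hτ
  have hprob := hR.ok.prob _ hV
  unfold L9rChg
  show (llJs n a P tl).nu 4 (l9rT4 P.length v c) _ ≤ _
  rw [l8w_nu n ha hP tl (by norm_num) hτ _ fun σ σ' h => by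
    rw [h 0 (by norm_num), h 1 (by norm_num), h 2 (by norm_num), h 3 (by norm_num)]]
  set D : SkOm n × SkOm n → ℝ := fun p => |SP.Q p - SP.QX c c p| ^ r with hD
  have hQm : Measurable SP.Q := (SP.l8s_fork_Q_bd_aux hok).1
  have hXm : ∀ k i, Measurable (SP.X k i) := fun k i => l8i_X_meas n a _ k i
  have hQXm : Measurable (SP.QX c c) :=
    Finset.measurable_sum _ fun i _ => ((hXm c i).comp measurable_fst).mul ((hXm c i).comp measurable_snd)
  have hDm : Measurable D := ((hQm.sub hQXm).abs).pow_const r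
  have hXb : ∀ k i ω, |SP.X k i ω| ≤ 1 := fun k i ω => l8i_X_bdd n a ha _ (ll2_mv_adm hP tl) k i ω
  have hDb : ∀ p, |D p| ≤ (1 + n) ^ r := by
    intro p
    simp only [hD, abs_pow, abs_abs]
    refine pow_le_pow_left₀ (abs_nonneg _) ((abs_sub _ _).trans (add_le_add ((SP.l8s_fork_Q_bd_aux hok).2 p) ?_)) r
    refine (Finset.abs_sum_le_sum_abs _ _).trans ?_
    calc ∑ i, |SP.X c i p.1 * SP.X c i p.2| ≤ ∑ _i : Fin n, (1 : ℝ) := Finset.sum_le_sum fun i _ => by
          rw [abs_mul]; exact mul_le_one₀ (hXb _ _ _) (abs_nonneg _) (hXb _ _ _)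
      _ = n := by simp
  have e01 : l9rT4 P.length v c 0 1 = v := by simp [l9rT4]
  have e23 : l9rT4 P.length v c 2 3 = v := by simp [l9rT4]
  have e02 : l9rT4 P.length v c 0 2 = c := by simp [l9rT4]
  have e13 : l9rT4 P.length v c 1 3 = c := by simp [l9rT4]
  have i01 := l8w_int_pair n ha hP tl hτ (x := 0) (y := 1) (by norm_num) (by norm_num) (by norm_num) D hDm
  have i23 := l8w_int_pair n ha hP tl hτ (x := 2) (y := 3) (by norm_num) (by norm_num) (by norm_num) D hDm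
  rw [e01] at i01
  rw [e23] at i23
  have p02 : ∀ i, ∀ᵐ w ∂(l8liSk n a P tl 4).law (l9rT4 P.length v c), SP.X c i (w 0) = SP.X c i (w 2) := fun i =>
    l8w_prefix n ha hP tl hn hτ (by norm_num) (by norm_num) (le_of_eq e02.symm) i
  have p13 : ∀ i, ∀ᵐ w ∂(l8liSk n a P tl 4).law (l9rT4 P.length v c), SP.X c i (w 1) = SP.X c i (w 3) := fun i =>
    l8w_prefix n ha hP tl hn hτ (by norm_num) (by norm_num) (le_of_eq e13.symm) i
  have pall : ∀ᵐ w ∂(l8liSk n a P tl 4).law (l9rT4 P.length v c), SP.QX c c (w 0, w 1) = SP.QX c c (w 2, w 3) := by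
    filter_upwards [ae_all_iff.2 p02, ae_all_iff.2 p13] with w h1 h2
    unfold L8P.QX
    exact Finset.sum_congr rfl fun i _ => by rw [h1 i, h2 i]
  have hint : ∀ x y : ℕ, Integrable (fun w : ℕ → SkOm n => D (w x, w y)) ((l8liSk n a P tl 4).law (l9rT4 P.length v c)) :=
    fun x y => Integrable.of_bound (hDm.comp ((measurable_pi_apply x).prodMk (measurable_pi_apply y))).aestronglyMeasurable
      ((1 + n) ^ r) (ae_of_all _ fun w => by rw [Real.norm_eq_abs]; exact hDb _)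
  have hle : ∀ᵐ w ∂(l8liSk n a P tl 4).law (l9rT4 P.length v c),
      |(llJs n a P tl).msk v * ((llJs n a P tl).ov (w 0).2 (w 1).2 - (llJs n a P tl).ov (w 2).2 (w 3).2)| ^ r
        ≤ 2 ^ (r - 1) * (D (w 0, w 1) + D (w 2, w 3)) := by
    filter_upwards [pall] with w hw
    have e1 : (llJs n a P tl).ov (w 0).2 (w 1).2 = SP.Q (w 0, w 1) := (l8w_Q n a (llMv tl P) (w 0, w 1)).symm
    have e2 : (llJs n a P tl).ov (w 2).2 (w 3).2 = SP.Q (w 2, w 3) := (l8w_Q n a (llMv tl P) (w 2, w 3)).symm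
    rw [e1, e2, abs_mul]
    have hm : |(llJs n a P tl).msk v| ≤ 1 := l8w_mk_abs tl v
    have h1 : |SP.Q (w 0, w 1) - SP.Q (w 2, w 3)| ≤ |SP.Q (w 0, w 1) - SP.QX c c (w 0, w 1)| + |SP.Q (w 2, w 3) - SP.QX c c (w 2, w 3)| := by
      have : SP.Q (w 0, w 1) - SP.Q (w 2, w 3) = (SP.Q (w 0, w 1) - SP.QX c c (w 0, w 1)) - (SP.Q (w 2, w 3) - SP.QX c c (w 2, w 3)) := by
        rw [hw]; ring
      rw [this]
      exact abs_sub _ _
    calc (|(llJs n a P tl).msk v| * |SP.Q (w 0, w 1) - SP.Q (w 2, w 3)|) ^ r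
        ≤ (|SP.Q (w 0, w 1) - SP.QX c c (w 0, w 1)| + |SP.Q (w 2, w 3) - SP.QX c c (w 2, w 3)|) ^ r :=
          pow_le_pow_left₀ (mul_nonneg (abs_nonneg _) (abs_nonneg _))
            ((mul_le_of_le_one_left (abs_nonneg _) hm).trans h1) r
      _ ≤ _ := add_pow_le (abs_nonneg _) (abs_nonneg _) r
  calc _ ≤ ∫ w, 2 ^ (r - 1) * (D (w 0, w 1) + D (w 2, w 3)) ∂(l8liSk n a P tl 4).law (l9rT4 P.length v c) :=
        integral_mono_of_nonneg (ae_of_all _ fun w => pow_nonneg (abs_nonneg _) r) (((hint 0 1).add (hint 2 3)).const_mul _) hle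
    _ = 2 ^ (r - 1) * (∫ p, D p ∂SP.fork v + ∫ p, D p ∂SP.fork v) := by
        rw [integral_const_mul, integral_add (hint 0 1) (hint 2 3), i01, i23]
    _ ≤ 2 ^ (r - 1) * (ζ ^ r + ζ ^ r) := by
        have := h
        gcongr
    _ = (2 * ζ) ^ r := by
        obtain ⟨r', rfl⟩ : ∃ r', r = r' + 1 := ⟨r - 1, by omega⟩
        simp only [Nat.add_sub_cancel]
        ring

end sk

/-! ### the level of one instance `I : L8In` (L08/Defs, helper75): `I.X tl`, `I.sp tl`, `I.moF`, `I.act` -/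

namespace L8In

variable (I : L8In)

/-- the ensemble as an option -/
noncomputable def l8wTl (tl : Bool) : Option ℕ := if tl then some I.js else none

theorem l8w_X_eq (tl : Bool) : I.X tl = llJs I.m I.a I.LP (I.l8wTl tl) := rfl

theorem l8w_sp_eq (tl : Bool) : I.sp tl = skSP I.m I.a (llMv (I.l8wTl tl) I.LP) := rfl

theorem l8w_N (tl : Bool) : (I.X tl).N = I.n := rfl

/-- **(v) MASK**: active cuts are the unmasked ones -/
theorem l8w_msk_act {tl : Bool} {k : ℕ} (h : I.act tl k) : (I.X tl).msk k = 1 := by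
  cases tl with
  | false => rfl
  | true =>
    show (if I.js < k then (1 : ℝ) else 0) = 1
    rw [if_pos (h.2 rfl)]

theorem l8w_msk_low {k : ℕ} (h : k ≤ I.js) : (I.X true).msk k = 0 := by
  show (if I.js < k then (1 : ℝ) else 0) = 0
  rw [if_neg (by omega)]

theorem l8w_msk_false (k : ℕ) : (I.X false).msk k = 1 := rfl

theorem l8w_ov_eq (tl : Bool) (p : SkOm I.m × SkOm I.m) : (I.X tl).ov p.1.2 p.2.2 = (I.sp tl).Q p :=
  (l8w_Q I.m I.a _ p).symm

theorem l8w_QX_term (tl : Bool) {k₁ k₂ : ℕ} (h1 : I.n < k₁) (h2 : I.n < k₂) : (I.sp tl).QX k₁ k₂ = (I.sp tl).Q := by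
  funext p
  have hl : (llMv (I.l8wTl tl) I.LP).length = I.n := ll2_mv_len _ _
  exact l8w_QX_gt I.m I.a (llMv (I.l8wTl tl) I.LP) (by rw [hl]; exact h1) (by rw [hl]; exact h2) p

variable (ha : 0 < I.a) (hP : LlStpAdm I.a I.LP)
include ha hP

theorem l8w_sp_ok (hm : 1 ≤ I.m) (tl : Bool) : (I.sp tl).Ok := l8i_ok I.m hm I.a ha _ (ll2_mv_adm hP _)

theorem l8w_posI (tl : Bool) : L9rPos (I.X tl) := l8w_pos I.m ha hP _

/-- **(i) PAIR** on any table -/
theorem l8w_pairI (tl : Bool) {r : ℕ} {τ : ℕ → ℕ → ℕ} (hτ : IsTr I.n r τ) {x y : ℕ} (hx : x < r) (hy : y < r) (hxy : x ≠ y) (g : ℝ → ℝ) :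
    (I.X tl).nu r τ (fun σ => g ((I.X tl).ov (σ x) (σ y))) = ∫ p, g ((I.sp tl).Q p) ∂(I.sp tl).fork (τ x y) :=
  l8w_ov I.m ha hP _ hτ hx hy hxy g

/-- functions of `Δ` at an ACTIVE pair -/
theorem l8w_DlI (tl : Bool) {r : ℕ} {τ : ℕ → ℕ → ℕ} (hτ : IsTr I.n r τ) {x y : ℕ} (hx : x < r) (hy : y < r) (hxy : x ≠ y)
    (hact : I.act tl (τ x y)) (g : ℝ → ℝ) :
    (I.X tl).nu r τ (fun σ => g ((I.X tl).Dl τ σ x y)) = ∫ p, g ((I.sp tl).Q p - I.q (τ x y)) ∂(I.sp tl).fork (τ x y) := by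
  have h := l8w_Dl I.m ha hP (I.l8wTl tl) hτ hx hy hxy g
  have hm : llMk (I.l8wTl tl) (τ x y) = 1 := I.l8w_msk_act hact
  rw [hm] at h
  simp only [one_mul] at h
  exact h

/-- even moments of `Δ` at an active pair are the moments `moF` of the D-list -/
theorem l8w_mom (tl : Bool) {k : ℕ} (hact : I.act tl k) (r : ℕ) :
    (I.X tl).nu 2 (trPair I.n k) (fun σ => |(I.X tl).Dl (trPair I.n k) σ 0 1| ^ (2 * r))
      = I.moF tl k r fun ω => (I.sp tl).Q ω - I.q k := by
  have hk : k ≤ I.n + 1 := hact.1.trans (Nat.le_succ _)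
  have e : trPair I.n k 0 1 = k := by simp [trPair]
  have hτ : IsTr I.n 2 (trPair I.n k) := l9r_t2_isTr hk
  have h := I.l8w_DlI ha hP tl hτ (x := 0) (y := 1) (by norm_num) (by norm_num)
    (by norm_num) (by rw [e]; exact hact) fun u => |u| ^ (2 * r)
  rw [e] at h
  rw [h]
  unfold moF
  refine integral_congr_ae (ae_of_all _ fun p => ?_)
  show |_| ^ (2 * r) = _ ^ (2 * r)
  rw [pow_mul, pow_mul, sq_abs]

omit ha hP in
/-- a masked pair: `Δ = - q` -/
theorem l8w_Dl_low {τ : ℕ → ℕ → ℕ} {x y : ℕ} (h : τ x y ≤ I.js) (σ : ℕ → SkCfg I.m) :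
    (I.X true).Dl τ σ x y = - I.q (τ x y) := by
  show (I.X true).msk (τ x y) * _ - I.q (τ x y) = _
  rw [I.l8w_msk_low h]; ring

/-- the untilted mean of a pair is `S` -/
theorem l8w_Sf (hm : 1 ≤ I.m) {k : ℕ} (hk : k ≤ I.n) :
    (I.X false).nu 2 (l9rT2 I.n k) (fun σ => (I.X false).msk k * (I.X false).ov (σ 0) (σ 1)) = I.S k := by
  have e : l9rT2 I.n k 0 1 = k := by simp [l9rT2]
  have h := I.l8w_pairI ha hP false (l9r_t2_isTr (hk.trans (Nat.le_succ _)) : IsTr I.n 2 (l9rT2 I.n k)) (x := 0) (y := 1)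
    (by norm_num) (by norm_num) (by norm_num) fun u => (I.X false).msk k * u
  rw [e] at h
  rw [h]
  simp only [l8w_msk_false, one_mul]
  rw [(I.sp false).l8s_fork_Q (I.l8w_sp_ok ha hP hm false) k]
  exact l8i_S I.m I.a ha _ hP.1 k (by
    have : (llMat I.LP).length = I.n := by simp [llMat, L8In.n]
    rw [this]; exact hk)

/-- **(D2) refined ⟹ the envelope of 282**, active pairs -/
theorem l8w_envI (tl : Bool) {k r : ℕ} (hact : I.act tl k) {E : ℝ}
    (h : I.moF tl k r (fun ω => (I.sp tl).QX (I.n + 1) (I.n + 1) ω - I.q k) ≤ E ^ (2 * r)) : L9rEnv (I.X tl) (2 * r) k E := by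
  have hk : k ≤ I.n + 1 := hact.1.trans (Nat.le_succ _)
  refine (l8w_env I.m ha hP (I.l8wTl tl) hk E).2 ?_
  have hm : llMk (I.l8wTl tl) k = 1 := I.l8w_msk_act hact
  rw [hm]
  rw [I.l8w_QX_term tl (Nat.lt_succ_self _) (Nat.lt_succ_self _)] at h
  refine le_trans (le_of_eq ?_) h
  unfold moF
  refine integral_congr_ae (ae_of_all _ fun p => ?_)
  show |1 * _ - _| ^ (2 * r) = _ ^ (2 * r)
  rw [one_mul, pow_mul, pow_mul, sq_abs]
  rfl

/-- **Cor. 8.7 ⟹ the change of 282**, active pairs -/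
theorem l8w_chgI (hm : 1 ≤ I.m) (tl : Bool) {k kc r : ℕ} (hr : 1 ≤ r) (hk : k ≤ kc) (hkc : kc ≤ I.n + 1) {ζ : ℝ}
    (h : I.moF tl k r (fun ω => (I.sp tl).QX (I.n + 1) (I.n + 1) ω - (I.sp tl).QX kc kc ω) ≤ ζ ^ (2 * r)) :
    L9rChg (I.X tl) (2 * r) k kc (2 * ζ) := by
  refine l8w_chg I.m ha hP (I.l8wTl tl) hm (by omega) hk hkc ?_
  rw [I.l8w_QX_term tl (Nat.lt_succ_self _) (Nat.lt_succ_self _)] at h
  refine le_trans (le_of_eq ?_) h
  unfold moF
  refine integral_congr_ae (ae_of_all _ fun p => ?_)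
  show |_| ^ (2 * r) = _ ^ (2 * r)
  rw [pow_mul, pow_mul, sq_abs]
  rfl

omit ha hP in
/-- masked pairs do not change -/
theorem l8w_chg_low {k kc r : ℕ} (h : k ≤ I.js) (hr : 1 ≤ r) {ζ : ℝ} (hζ : 0 ≤ ζ) (hpos : L9rPos (I.X true)) (hkc : k ≤ kc) (hkn : kc ≤ I.n + 1) :
    L9rChg (I.X true) r k kc ζ := by
  unfold L9rChg
  obtain ⟨w, -, -, hw⟩ := hpos.rep 4 (l9rT4 (I.X true).N k kc) (l9r_t4_isTr hkc hkn)
  rw [hw]
  simp only [I.l8w_msk_low h, zero_mul, abs_zero, zero_pow (by omega : r ≠ 0), mul_zero, Finset.sum_const_zero]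
  exact pow_nonneg hζ r

end L8In

theorem l8w_dic_eqns_cite : True := by
  have := @l8wE.eq_1
  have := @L8In.l8wTl.eq_1
  trivial

end Claimed.Agent.R286
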