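-- OWNER helper4 (unit INSTANCES AT llJs, head helper93; task T2)
import Claimed.Agent.R286.L08.Glue
import Claimed.Agent.R286.L09.ChDPsi
import Claimed.Agent.R286.L09.IncGlue
import Claimed.Agent.R286.LL04.ClkHe
import Claimed.Agent.R286.Exit.LL02A7
import Claimed.Agent.R286.L08.SAe
import Claimed.Agent.R286.L09.TrsFin
import Claimed.Agent.R286.L08.TlTil
import Claimed.Agent.R286.L08.Dic

/-!
# Row 286 (S0533), folder L08, file Caller : THE CALLER HYPOTHESES OF THE EXITS OF LL 02 AT THE CHAINS OF LL 08 / 09      (helper4; prefix `l8cl_`)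

The exits of LL Section 2 (`Exit/LL02A3 .. A9`) are stated for a fine path `P : LlStp` with `LlStpAdm a P`, `LlBd M0 P`, `LlTiltOk P tl`, tests with `LlOvBd`, `LlNoSite`.
Here they are PRODUCED at the fine path `I.LP = I.i9.P I.p` (`L8In`, `L9I`) of a physical point, from the P-list `LlSec3` + `LlBaseProfile` only:
1. `l8cl_at_sub_le`   two clocks which are `M`-close on `[0,a]` are `M`-close at every position;
2. `l8cl_stp_adm`, `l8cl_stp_bd`   admissibility and `LlBd` of ANY chain of admissible clocks `b, h, K`;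
3. `l8cl_model`       `b ≤ M0`, `|h - K| ≤ M0` on `[0,a]` uniformly in the point (`M0` depends on the fixed data only);
4. `l8cl_caller`      `0 < a ≤ 4`, `0 < m`, `LlStpAdm`, `LlBd M0` at every instance `I` (NO fineness needed);      `l8cl_tilt`  `LlTiltOk I.LP (some I.js)` from `js_lt`, `js_m` of `I.Fine`;
5. `LlOvBd.*`        calculus of bounded Lipschitz tests: constants, coordinates, sums, products, finite products, monotonicity;
6. `l8cl_a7`          **(A7) at `I.X tl`** for all tests of the calculus, constants uniform in the instance;   `l8cl_a7_one` = the hypothesis `hA7` of `l8z_e_main` type (`P = 1`, `k = 1`);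
7. `l8cl_d_model`, `l8cl_d_chain`   `|d| ≤ M x^δ` on the size paths (`δ ≤ p_*/2`), model and fine chain;   `l8cl_sizOk` = the import `L9SizOk` of the node TRS (65) from FINE + the P-list + `b q²` monotone (65);
8. `L8In.D8t`, `l8cl_d8t_of`, `l8cl_d8t`   **(D8) in the tilted ensemble** on the stop, same envelope (transfer `TlkTr` of 189);   `l8cl_moF_D2`, `l8cl_nu_sq` = fork / tree forms of the second moments.
-/

set_option autoImplicit false

namespace Claimed.Agent.R286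

open Set Filter Topology
open scoped BigOperators

/-! ### 1. positions -/

/-- two admissible clocks which are `M`-close on `[0,a]` are `M`-close at every position -/
theorem l8cl_at_sub_le {a : ℝ} (ha : 0 ≤ a) {c1 c2 : ℝ → ℝ} (h1 : GhClk1 a c1) (h2 : GhClk1 a c2) {M : ℝ} (hM0 : 0 ≤ M)
    (hM : ∀ v ∈ Icc 0 a, |c1 v - c2 v| ≤ M) {p : GhPos} (hp : p.Ok a) : |ghAt a c1 p - ghAt a c2 p| ≤ M := by
  have hcl : ∀ u, |ghClamp a c1 u - ghClamp a c2 u| ≤ M := by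
    intro u
    unfold ghClamp
    split_ifs with h
    · simpa using hM0
    · exact hM _ ⟨le_min (not_lt.1 h) ha, min_le_right _ _⟩
  have m1 := gh_os_clamp_mono ha h1
  have m2 := gh_os_clamp_mono ha h2
  have hL : |Function.leftLim (ghClamp a c1) p.u - Function.leftLim (ghClamp a c2) p.u| ≤ M :=
    le_of_tendsto ((m1.tendsto_leftLim p.u).sub (m2.tendsto_leftLim p.u)).abs (Eventually.of_forall hcl)
  have hR : |Function.rightLim (ghClamp a c1) p.u - Function.rightLim (ghClamp a c2) p.u| ≤ M :=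
    le_of_tendsto ((m1.tendsto_rightLim p.u).sub (m2.tendsto_rightLim p.u)).abs (Eventually.of_forall hcl)
  obtain ⟨-, -, l0, l1⟩ := hp
  unfold ghAt
  rw [abs_le] at hL hR ⊢
  constructor <;> nlinarith [hL.1, hL.2, hR.1, hR.2]

theorem l8cl_at_zero (a : ℝ) (p : GhPos) : ghAt a (fun _ => 0) p = 0 := by
  have h : ghClamp a (fun _ => 0) = fun _ => (0 : ℝ) := by
    funext u; unfold ghClamp; split_ifs <;> rfl
  have h1 : Function.leftLim (fun _ : ℝ => (0 : ℝ)) p.u = 0 := leftLim_eq_of_tendsto tendsto_const_nhds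
  have h2 : Function.rightLim (fun _ : ℝ => (0 : ℝ)) p.u = 0 := rightLim_eq_of_tendsto tendsto_const_nhds
  unfold ghAt
  rw [h, h1, h2]; ring

/-! ### 2. chains of admissible clocks -/

/-- the scalar reference of a chain -/
theorem l8cl_stp_sc (a : ℝ) (b h K : ℝ → ℝ) : ∀ (ps : List GhPos) (b0 h0 K0 : ℝ),
    llSc (l9Stp a b h K b0 h0 K0 ps) = skCStp a (fun _ => 0) K 0 K0 ps
  | [], _, _, _ => rfl
  | p :: ps, b0, h0, K0 => by
      rw [l9Stp, skCStp]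
      show _ :: llSc (l9Stp a b h K (ghAt a b p) (ghAt a h p) (ghAt a K p) ps) = _
      rw [l8cl_stp_sc a b h K ps, l8cl_at_zero, sub_zero]

/-- every chain of admissible clocks is an admissible fine path -/
theorem l8cl_stp_adm {a : ℝ} (ha : 0 ≤ a) {b h K : ℝ → ℝ} (hb : GhClk1 a b) (hh : GhClk1 a h) (hK : GhClk1 a K) {ps : List GhPos}
    (hs : ps.Pairwise (· ≤ ·)) (hok : ∀ p ∈ ps, p.Ok a) : LlStpAdm a (l9Stp a b h K 0 0 0 ps) := by
  constructor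
  · rw [l9d_stp_mat]
    exact l9d_chain_adm ha hb hh hs hok
  · rw [l8cl_stp_sc]
    exact l9d_chain_adm ha ⟨monotoneOn_const, le_rfl⟩ hK hs hok

/-- `LlBd` on every chain -/
theorem l8cl_stp_bd {a : ℝ} (ha : 0 ≤ a) {b h K : ℝ → ℝ} (hb : GhClk1 a b) (hh : GhClk1 a h) (hK : GhClk1 a K) {M0 : ℝ} (hM0 : 0 ≤ M0)
    (h1 : b a ≤ M0) (h2 : ∀ v ∈ Icc 0 a, |h v - K v| ≤ M0) {ps : List GhPos} (hok : ∀ p ∈ ps, p.Ok a) :
    LlBd M0 (l9Stp a b h K 0 0 0 ps) := by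
  intro t
  rw [l9d_stp_mat, l9d_stp_cumK]
  rcases l9d_chain_cum_cases a ps t with h0 | ⟨p, hp, hc⟩
  · rw [(h0 b h).1, (h0 b h).2, (h0 b K).2]
    simpa using hM0
  · rw [(hc b h).1, (hc b h).2, (hc b K).2]
    exact ⟨(gh_pk_at_bd ha hb (hok p hp)).2.trans h1, l8cl_at_sub_le ha hh hK hM0 h2 (hok p hp)⟩

/-! ### 3. the clocks of a physical point -/

/-- **`b ≤ M0`, `|h - K| ≤ M0`** uniformly in the point; the three clocks are admissible -/
theorem l8cl_model (F : LlFix) (𝔹 : LlBase) (hB : LlBaseProfile 𝔹 F.T) (h3 : LlSec3 𝔹 F) :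
    ∃ M0 : ℝ, 0 ≤ M0 ∧ LlUnif F fun p => GhClk1 p.a (p.b F 𝔹) ∧ GhClk1 p.a (p.h F 𝔹) ∧ GhClk1 p.a (p.K F 𝔹) ∧
      p.b F 𝔹 p.a ≤ M0 ∧ ∀ v ∈ Icc 0 p.a, |p.h F 𝔹 v - p.K F 𝔹 v| ≤ M0 := by
  have hF := h3.ok
  obtain ⟨c, C, v0, hc, hv0, N1, hR⟩ := h3.ref
  obtain ⟨c', C', hc', N2, hA⟩ := h3.adm
  obtain ⟨N3, hx3⟩ := lce_unif_x F v0 hv0
  have hĒ := ll04h_E_pos hB
  have hpS := hF.pS0
  refine ⟨|C'| + |C| + (1 + 1 / F.pS) + 2 + (1 + ll04hE 𝔹 F.T), by positivity, max (max N1 N2) N3, fun p hp hN => ?_⟩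
  have hR := hR p hp (le_trans (le_trans (le_max_left _ _) (le_max_left _ _)) hN)
  obtain ⟨mb, mh, mhS, mK, mq, hbd, -, -⟩ := hA p hp (le_trans (le_trans (le_max_right _ _) (le_max_left _ _)) hN)
  have hxv : p.x ≤ v0 := hx3 p hp (le_trans (le_max_right _ _) hN)
  obtain ⟨ha1, ha4⟩ := lce_a_mem hp
  have h0 : (0 : ℝ) ∈ Icc 0 p.a := ⟨le_rfl, by linarith⟩
  have haa : p.a ∈ Icc 0 p.a := ⟨by linarith, le_rfl⟩
  have hx0 := lce_x_pos hp.N2
  have hx1 := lce_x_lt_one hp.N2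
  obtain ⟨hl0, hl1, hl2⟩ := ll04h_lam1 hp hF.pS0.le hF.eta0.le
  have hell : 0 < p.ell := by linarith [hp.ell1]
  have hC' : C' ≤ |C'| := le_abs_self _
  have hC : C ≤ |C| := le_abs_self _
  have hinv : 0 ≤ 1 / F.pS := by positivity
  refine ⟨⟨mb, by linarith [(hbd 0 h0).1]⟩, ⟨mh, (hbd 0 h0).2.2.1⟩, ⟨mK, (hbd 0 h0).2.2.2.2⟩, ?_, ?_⟩
  · have := (hbd _ haa).2.1
    have h5 := abs_nonneg C
    linarith
  intro v hv
  have hK0 : 0 ≤ p.K F 𝔹 v := lce_K_nonneg v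
  by_cases hvx : v < p.x
  · have e : p.h F 𝔹 v = 0 := by unfold LlPt.h; rw [if_pos hvx]
    rw [e, zero_sub, abs_neg, abs_of_nonneg hK0]
    have k1 : p.K F 𝔹 v ≤ p.K F 𝔹 p.x := mK hv ⟨hx0.le, by linarith⟩ hvx.le
    have k2 : p.K F 𝔹 p.x ≤ C * p.x := hR.K_hi0 p.x hx0 hxv
    have k3 : C * p.x ≤ |C| * 1 := mul_le_mul hC hx1.le hx0.le (abs_nonneg _)
    have h5 := abs_nonneg C'
    linarith
  · have hxv' : p.x ≤ v := not_lt.1 hvx
    have e : p.h F 𝔹 v - p.K F 𝔹 v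
        = - (p.b F 𝔹 v * p.q F 𝔹 v) + p.Hlo F v + p.chiL * p.Hlin F v + p.chiE * p.He F 𝔹 v := by
      unfold LlPt.h LlPt.hS
      rw [if_neg hvx]
      ring
    have hq := ll04h_q_mem hR v
    have hb0 : 0 ≤ p.b F 𝔹 v := by linarith [(hbd v hv).1]
    have t1 : |p.b F 𝔹 v * p.q F 𝔹 v| ≤ |C'| := by
      rw [abs_of_nonneg (mul_nonneg hb0 hq.1)]
      calc p.b F 𝔹 v * p.q F 𝔹 v ≤ C' * 1 := mul_le_mul (hbd v hv).2.1 hq.2 hq.1 (hb0.trans (hbd v hv).2.1)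
        _ ≤ |C'| := by linarith
    have t2 : |p.Hlo F v| ≤ 1 + 1 / F.pS := by
      refine (ll04h_Hlo_abs hp hxv').trans ?_
      have hy0 : 0 < 1 / p.x := by positivity
      have hL := Real.log_le_rpow_div hy0.le hpS
      have hL0 : 0 ≤ Real.log (1 / p.x) := Real.log_nonneg (by rw [le_div_iff₀ hx0]; linarith)
      have hlam : p.lam1 F ≤ p.x ^ F.pS := hl1.trans hp.lam_hi
      have e1 : p.x ^ F.pS * ((1 / p.x) ^ F.pS / F.pS) = 1 / F.pS := by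
        rw [one_div p.x, Real.inv_rpow hx0.le]
        have : p.x ^ F.pS ≠ 0 := (Real.rpow_pos_of_pos hx0 _).ne'
        field_simp
      have a1 : p.lam1 F * Real.log (1 / p.x) ≤ 1 / F.pS := by
        calc p.lam1 F * Real.log (1 / p.x) ≤ p.x ^ F.pS * ((1 / p.x) ^ F.pS / F.pS) :=
              mul_le_mul hlam hL hL0 (Real.rpow_nonneg hx0.le _)
          _ = _ := e1
      have a2 : p.lam1 F ≤ 1 := hl1.trans hl2
      nlinarith
    have t3 : |p.chiL * p.Hlin F v| ≤ 2 := by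
      obtain ⟨b1, b2⟩ := lcf_Hlin_bd (p := p) (F := F) hx0.le hF.vb0.le hell.le v
      have b3 : p.x ^ 3 * p.ell ≤ 1 * 2 := mul_le_mul (pow_le_one₀ hx0.le hx1.le) (lce_ell_le hp) hell.le zero_le_one
      rw [abs_of_nonneg (mul_nonneg hp.chiL.1 b1)]
      have b4 : p.chiL * p.Hlin F v ≤ 1 * p.Hlin F v := mul_le_mul_of_nonneg_right hp.chiL.2 b1
      linarith
    have t4 : |p.chiE * p.He F 𝔹 v| ≤ 1 + ll04hE 𝔹 F.T := by
      cases hsm : p.sm
      · have hva : v / p.ell ≤ 1 := by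
          rw [div_le_one hell, ← lce_a_direct hsm]
          exact hv.2
        have b1 := ll04h_He_abs hF hB hsm hp.N2 (lce_lam_pos hp) (v := v) hva
        have b2 : p.lam1 F * (1 + ll04hE 𝔹 F.T) ≤ 1 * (1 + ll04hE 𝔹 F.T) :=
          mul_le_mul_of_nonneg_right (hl1.trans hl2) (by linarith)
        have b3 : |p.chiE * p.He F 𝔹 v| ≤ 1 * (1 + ll04hE 𝔹 F.T) :=
          ll04h_abs_mul (by rw [abs_of_nonneg hp.chiE.1]; exact hp.chiE.2) (b1.trans (by linarith))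
        linarith
      · rw [(hp.sm_fin hsm).2, zero_mul, abs_zero]
        linarith
    rw [e]
    have h5 := abs_nonneg C
    calc |-(p.b F 𝔹 v * p.q F 𝔹 v) + p.Hlo F v + p.chiL * p.Hlin F v + p.chiE * p.He F 𝔹 v|
        ≤ |p.b F 𝔹 v * p.q F 𝔹 v| + |p.Hlo F v| + |p.chiL * p.Hlin F v| + |p.chiE * p.He F 𝔹 v| := by
          refine (abs_add_le _ _).trans (add_le_add ((abs_add_le _ _).trans (add_le_add ((abs_add_le _ _).trans ?_) le_rfl)) le_rfl)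
          rw [abs_neg]
      _ ≤ _ := by linarith

/-! ### 4. the instances -/

/-- **the caller hypotheses at every instance** (no fineness): terminal mass, sites, admissibility, `LlBd` -/
theorem l8cl_caller (F : LlFix) (𝔹 : LlBase) (hB : LlBaseProfile 𝔹 F.T) (h3 : LlSec3 𝔹 F) :
    ∃ (M0 : ℝ) (N0 : ℕ), 0 ≤ M0 ∧ ∀ I : L8In, I.F = F → I.𝔹 = 𝔹 → I.Ok → N0 ≤ I.p.N →
      1 ≤ I.a ∧ I.a ≤ 4 ∧ 0 < I.m ∧ LlStpAdm I.a I.LP ∧ LlBd M0 I.LP := by
  obtain ⟨M0, hM0, N0, h⟩ := l8cl_model F 𝔹 hB h3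
  refine ⟨M0, N0, hM0, ?_⟩
  rintro I rfl rfl hOk hN
  obtain ⟨hb, hh, hK, h1, h2⟩ := h I.p hOk.pt hN
  obtain ⟨ha1, ha4⟩ := lce_a_mem hOk.pt
  have ha : (0 : ℝ) ≤ I.p.a := by linarith
  have hm : 0 < I.m := by
    have := hOk.pt.N2
    have := hOk.m_lo
    omega
  have hok : ∀ q ∈ ghPs I.p.a (l9Fl I.Fs), q.Ok I.p.a := fun q hq => (gh_os_ps_mem.1 hq).2
  exact ⟨ha1, ha4, hm, l8cl_stp_adm ha hb hh hK (gh_os_ps_pairwise _ _) hok, l8cl_stp_bd ha hb hh hK hM0 h1 h2 hok⟩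

/-- the field clock has revealed nothing at a position of mass `< x` -/
theorem l8cl_h_lo (F : LlFix) (𝔹 : LlBase) (p : LlPt) (hxa : p.x ≤ p.a) (ha : 0 ≤ p.a) {r : GhPos} (hr : r.u < p.x) : ghAt p.a (p.h F 𝔹) r = 0 := by
  have e : ghAt p.a (p.h F 𝔹)
      = ghAt p.a (l9Tb p.x fun v => p.hS F 𝔹 v + p.Hlo F v + p.chiL * p.Hlin F v + p.chiE * p.He F 𝔹 v) := by
    refine sk_stp_at_congr ha fun u _ => ?_
    unfold LlPt.h l9Tb
    by_cases h : u < p.x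
    · rw [if_pos h, if_neg (not_le.2 h)]
    · rw [if_neg h, if_pos (not_lt.1 h)]
  rw [e]
  exact l9g_at_tilt_lo hxa _ hr

/-- mass of a stage of the chain -/
theorem l8cl_v (I : L8In) {k : ℕ} (hk : k < I.n) :
    ∃ hk' : k < (ghPs I.p.a (l9Fl I.Fs)).length, I.v k = ((ghPs I.p.a (l9Fl I.Fs))[k]).u := by
  have hl : I.n = (ghPs I.p.a (l9Fl I.Fs)).length := l9d_stp_length _ _ _ _ _ _ _ _
  have hk' : k < (ghPs I.p.a (l9Fl I.Fs)).length := hl ▸ hk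
  refine ⟨hk', ?_⟩
  have e : (llMat I.LP).map SkInc.m = (ghPs I.p.a (l9Fl I.Fs)).map GhPos.u := by
    have : (llMat I.LP).map SkInc.m = I.LP.map LlInc.m := by simp [llMat, List.map_map, Function.comp_def]
    rw [this]
    exact l9d_stp_m _ _ _ _ _ _ _ _
  show ((llMat I.LP).map SkInc.m).getD k I.a = _
  rw [e, List.getD_eq_getElem?_getD, List.getElem?_map, List.getElem?_eq_getElem hk']
  rfl

/-- **the tilt stage is admissible** (fields `js_lt`, `js_m` of `I.Fine`) -/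
theorem l8cl_tilt (I : L8In) (hOk : I.Ok) (hlt : I.js < I.n) (hm : I.v I.js = I.s) : LlTiltOk I.LP (some I.js) := by
  refine ⟨hlt, ?_⟩
  obtain ⟨hk', hv⟩ := l8cl_v I hlt
  obtain ⟨ha1, -⟩ := lce_a_mem hOk.pt
  have hx1 := lce_x_lt_one hOk.pt.N2
  have e : llMat I.LP = skCStp I.p.a (I.p.b I.F I.𝔹) (I.p.h I.F I.𝔹) 0 0 (ghPs I.p.a (l9Fl I.Fs)) := l9d_stp_mat _ _ _ _ _ _ _ _
  rw [e, (l9d_chain_cum _ _ _ _ 0 0 I.js hk').2, sub_zero]
  refine l8cl_h_lo I.F I.𝔹 I.p (by linarith) (by linarith) ?_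
  rw [← hv, hm]
  exact hOk.s_lt

theorem l8cl_tilt_fine (I : L8In) (hOk : I.Ok) {η : ℝ} (hf : I.Fine η) (tl : Bool) :
    LlTiltOk I.LP (if tl then some I.js else none) := by
  cases tl
  · exact trivial
  · exact l8cl_tilt I hOk hf.js_lt hf.js_m

/-! ### 5. calculus of bounded Lipschitz tests -/

namespace LlOvBd

variable {q : ℕ} {p p' : (ℕ → ℕ → ℝ) → ℝ} {Bp Bp' L L' : ℝ}

theorem B_nonneg (h : LlOvBd q p Bp L) : 0 ≤ Bp :=
  (abs_nonneg _).trans (h.bd (fun _ _ => 0) fun _ _ => by simp)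

theorem const (q : ℕ) (c : ℝ) : LlOvBd q (fun _ => c) |c| 0 :=
  ⟨fun _ _ _ => rfl, fun _ _ => le_rfl, fun _ _ δ _ _ _ => by simp⟩

theorem coord {c d : ℕ} (hc : c < q) (hd : d < q) : LlOvBd q (fun A => A c d) 1 1 :=
  ⟨fun _ _ h => h c d hc hd, fun _ h => h c d, fun _ _ δ _ _ h => by rw [one_mul]; exact h c d⟩

theorem mono (h : LlOvBd q p Bp L) (hB : Bp ≤ Bp') (hL : L ≤ L') : LlOvBd q p Bp' L' := by
  refine ⟨h.uses, fun A hA => (h.bd A hA).trans hB, fun A A' δ hA hA' hδ => (h.lip A A' δ hA hA' hδ).trans ?_⟩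
  exact mul_le_mul_of_nonneg_right hL ((abs_nonneg _).trans (hδ 0 0))

theorem add (h : LlOvBd q p Bp L) (h' : LlOvBd q p' Bp' L') : LlOvBd q (fun A => p A + p' A) (Bp + Bp') (L + L') := by
  refine ⟨fun A A' hA => by rw [h.uses A A' hA, h'.uses A A' hA], fun A hA => (abs_add_le _ _).trans (add_le_add (h.bd A hA) (h'.bd A hA)),
    fun A A' δ hA hA' hδ => ?_⟩
  have e : p A + p' A - (p A' + p' A') = (p A - p A') + (p' A - p' A') := by ring
  rw [e, add_mul]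
  exact (abs_add_le _ _).trans (add_le_add (h.lip A A' δ hA hA' hδ) (h'.lip A A' δ hA hA' hδ))

theorem neg (h : LlOvBd q p Bp L) : LlOvBd q (fun A => - p A) Bp L := by
  refine ⟨fun A A' hA => by rw [h.uses A A' hA], fun A hA => by rw [abs_neg]; exact h.bd A hA, fun A A' δ hA hA' hδ => ?_⟩
  have e : - p A - - p A' = - (p A - p A') := by ring
  rw [e, abs_neg]
  exact h.lip A A' δ hA hA' hδ

theorem sub (h : LlOvBd q p Bp L) (h' : LlOvBd q p' Bp' L') : LlOvBd q (fun A => p A - p' A) (Bp + Bp') (L + L') := by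
  simpa only [sub_eq_add_neg] using h.add h'.neg

theorem mul (h : LlOvBd q p Bp L) (h' : LlOvBd q p' Bp' L') : LlOvBd q (fun A => p A * p' A) (Bp * Bp') (Bp * L' + L * Bp') := by
  have hB := h.B_nonneg
  have hB' := h'.B_nonneg
  refine ⟨fun A A' hA => by rw [h.uses A A' hA, h'.uses A A' hA], fun A hA => ?_, fun A A' δ hA hA' hδ => ?_⟩
  · rw [abs_mul]
    exact mul_le_mul (h.bd A hA) (h'.bd A hA) (abs_nonneg _) hB
  · have e : p A * p' A - p A' * p' A' = p A * (p' A - p' A') + (p A - p A') * p' A' := by ring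
    rw [e]
    refine (abs_add_le _ _).trans ?_
    rw [abs_mul, abs_mul]
    have k1 : |p A| * |p' A - p' A'| ≤ Bp * (L' * δ) := mul_le_mul (h.bd A hA) (h'.lip A A' δ hA hA' hδ) (abs_nonneg _) hB
    have k2 : |p A - p A'| * |p' A'| ≤ (L * δ) * Bp' :=
      mul_le_mul (h.lip A A' δ hA hA' hδ) (h'.bd A' hA') (abs_nonneg _) ((abs_nonneg _).trans (h.lip A A' δ hA hA' hδ))
    nlinarith

theorem const_mul (c : ℝ) (h : LlOvBd q p Bp L) : LlOvBd q (fun A => c * p A) (|c| * Bp) (|c| * L) := by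
  have := (const q c).mul h
  simpa using this

/-- the centred coordinate `A c d - r` -/
theorem coord_sub {c d : ℕ} (hc : c < q) (hd : d < q) (r : ℝ) : LlOvBd q (fun A => A c d - r) (1 + |r|) 1 := by
  have := (coord hc hd).sub (const q r)
  simpa using this

/-- finite products of tests with common constants `B ≥ 1`, `L ≥ 0` -/
theorem prod {ι : Type} (s : Finset ι) (f : ι → (ℕ → ℕ → ℝ) → ℝ) {B L : ℝ} (hB : 1 ≤ B) (hL : 0 ≤ L)
    (h : ∀ i ∈ s, LlOvBd q (f i) B L) : LlOvBd q (fun A => ∏ i ∈ s, f i A) (B ^ s.card) (s.card * B ^ s.card * L) := by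
  classical
  induction s using Finset.induction_on with
  | empty =>
    have := const q 1
    simpa using this
  | insert a s ha ih =>
    have h1 := h a (Finset.mem_insert_self _ _)
    have h2 := ih fun i hi => h i (Finset.mem_insert_of_mem hi)
    have h3 := h1.mul h2
    simp only [Finset.prod_insert ha, Finset.card_insert_of_notMem ha]
    refine h3.mono (le_of_eq (by ring)) ?_
    have hBn : 1 ≤ B ^ s.card := one_le_pow₀ hB
    have hB0 : 0 ≤ B := by linarith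
    push_cast
    have k1 : L * B ^ s.card ≤ B ^ (s.card + 1) * L := by
      rw [pow_succ]
      nlinarith [mul_nonneg hL (by linarith : 0 ≤ B ^ s.card), mul_nonneg (mul_nonneg hL (by linarith : 0 ≤ B ^ s.card)) (by linarith : 0 ≤ B - 1)]
    have k2 : B * (s.card * B ^ s.card * L) = s.card * B ^ (s.card + 1) * L := by ring
    rw [k2]
    nlinarith

end LlOvBd

/-- a function of the deleted overlaps does not see the site -/
theorem l8cl_noSite {n : ℕ} (i0 : Fin n) (p : (ℕ → ℕ → ℝ) → ℝ) : LlNoSite i0 fun σ : ℕ → SkCfg n => p fun c d => skOvD i0 (σ c) (σ d) := by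
  intro σ σ' h
  refine congrArg p (funext fun c => funext fun d => ?_)
  unfold skOvD
  congr 1
  refine Finset.sum_congr rfl fun i _ => ?_
  by_cases hi : i = i0
  · simp [hi]
  · simp only [hi, if_false]
    unfold skSp
    rw [h c i hi, h d i hi]

/-! ### 6. (A7) at the instances -/

/-- **(A7) at `I.X tl`**: masked overlap, test = bounded Lipschitz function of the masked overlaps; `C` depends on `q, k` and the fixed data only -/
theorem l8cl_a7 (F : LlFix) (𝔹 : LlBase) (hB : LlBaseProfile 𝔹 F.T) (h3 : LlSec3 𝔹 F) (q k : ℕ) (hk : 0 < k) :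
    ∃ (C : ℝ) (N0 : ℕ), ∀ I : L8In, I.F = F → I.𝔹 = 𝔹 → I.Ok → N0 ≤ I.p.N → ∀ tl : Bool, (tl = true → I.js < I.n ∧ I.v I.js = I.s) →
      ∀ (τ0 : JtTopo) (p : (ℕ → ℕ → ℝ) → ℝ) (Bp L : ℝ) (i j : ℕ), IsTr I.n q τ0 → LlOvBd q p Bp L → i < q → j < q → i ≠ j →
        (I.X tl).A7 q τ0 (fun σ => p fun c d => (I.X tl).Qs τ0 σ c d) i j k C (C * (Bp + L) / I.m) := by
  obtain ⟨M0, N0, -, hc⟩ := l8cl_caller F 𝔹 hB h3
  obtain ⟨C, hC⟩ := exit_a7_masked q k M0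
  refine ⟨C, N0, ?_⟩
  intro I hF h𝔹 hOk hN tl htl τ0 p Bp L i j hτ hp hi hj hij
  obtain ⟨ha1, ha4, hm, hadm, hbd⟩ := hc I hF h𝔹 hOk hN
  have ht : LlTiltOk I.LP (if tl then some I.js else none) := by
    cases tl
    · exact trivial
    · exact l8cl_tilt I hOk (htl rfl).1 (htl rfl).2
  exact hC I.m I.a I.LP (if tl then some I.js else none) τ0 p Bp L i j hm (by linarith) ha4 hadm ht hbd hτ hp hi hj hij hk

/-- the hypothesis `hA7` of the first order cavity (`P = 1`, `k = 1`) at the path reference `K` -/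
theorem l8cl_a7_one (F : LlFix) (𝔹 : LlBase) (hB : LlBaseProfile 𝔹 F.T) (h3 : LlSec3 𝔹 F) :
    ∃ (C : ℝ) (N0 : ℕ), ∀ I : L8In, I.F = F → I.𝔹 = 𝔹 → I.Ok → N0 ≤ I.p.N → ∀ tl : Bool, (tl = true → I.js < I.n ∧ I.v I.js = I.s) →
      ∀ t ≤ I.n, (I.X tl).A7 2 (trPair I.n t) (fun _ => 1) 0 1 1 C (C / I.m) := by
  obtain ⟨C, N0, h⟩ := l8cl_a7 F 𝔹 hB h3 2 1 one_pos
  refine ⟨C, N0, fun I hF h𝔹 hOk hN tl htl t ht => ?_⟩
  have := h I hF h𝔹 hOk hN tl htl (trPair I.n t) (fun _ => 1) |1| 0 0 1 (l8z_e_isTr I.n t ht) (LlOvBd.const 2 1) (by norm_num) (by norm_num)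
    (by norm_num)
  simpa using this

/-! ### 7. the defect on the size paths; the import `L9SizOk` of the node TRS -/

/-- **the model defect on the smoothed paths is a power of `x`**: `|d(v)| ≤ M x^δ` on `[0,a]`, `δ ≤ min (p_*/2) 1`      ((P6): `d = H_lo + χ_lin H_lin` above the mask, `d = - h_*` below) -/
theorem l8cl_d_model (F : LlFix) (𝔹 : LlBase) (h3 : LlSec3 𝔹 F) :
    ∃ M : ℝ, 0 ≤ M ∧ LlUnif F fun p => p.sm = true → ∀ δ : ℝ, δ ≤ F.pS / 2 → δ ≤ 1 → ∀ v ∈ Icc 0 p.a, |p.d F 𝔹 v| ≤ M * p.x ^ δ := by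
  have hF := h3.ok
  obtain ⟨c, C, v0, hc, hv0, N1, hR⟩ := h3.ref
  obtain ⟨c', C', hc', N2, hA⟩ := h3.adm
  obtain ⟨N3, hx3⟩ := lce_unif_x F v0 hv0
  have hpS := hF.pS0
  refine ⟨|C| + (1 + 2 / F.pS) + 2, by positivity, max (max N1 N2) N3, fun p hp hN hsm δ hδ1 hδ2 v hv => ?_⟩
  have hR := hR p hp (le_trans (le_trans (le_max_left _ _) (le_max_left _ _)) hN)
  obtain ⟨mb, mh, mhS, mK, mq, hbd, -, -⟩ := hA p hp (le_trans (le_trans (le_max_right _ _) (le_max_left _ _)) hN)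
  have hxv : p.x ≤ v0 := hx3 p hp (le_trans (le_max_right _ _) hN)
  obtain ⟨ha1, ha4⟩ := lce_a_mem hp
  have hx0 := lce_x_pos hp.N2
  have hx1 := lce_x_lt_one hp.N2
  obtain ⟨hl0, hl1, hl2⟩ := ll04h_lam1 hp hF.pS0.le hF.eta0.le
  have hell : 0 < p.ell := by linarith [hp.ell1]
  have hC : C ≤ |C| := le_abs_self _
  have hinv : 0 ≤ 2 / F.pS := by positivity
  have hxd : 0 < p.x ^ δ := Real.rpow_pos_of_pos hx0 _
  -- powers of `x` against `x^δ`
  have pw : ∀ e : ℝ, δ ≤ e → p.x ^ e ≤ p.x ^ δ := fun e he => Real.rpow_le_rpow_of_exponent_ge hx0 hx1.le he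
  have px1 : p.x ≤ p.x ^ δ := by simpa using pw 1 hδ2
  by_cases hvx : v < p.x
  · have e : p.d F 𝔹 v = - p.hS F 𝔹 v := by unfold LlPt.d LlPt.h; rw [if_pos hvx]; ring
    have hS0 : 0 ≤ p.hS F 𝔹 v := (hbd v hv).2.2.2.1
    rw [e, abs_neg, abs_of_nonneg hS0]
    have hq := ll04h_q_mem hR v
    have hb0 : 0 ≤ p.b F 𝔹 v := by linarith [(hbd v hv).1]
    have k0 : p.hS F 𝔹 v ≤ p.K F 𝔹 v := by
      unfold LlPt.hS
      nlinarith [mul_nonneg hb0 hq.1]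
    have k1 : p.K F 𝔹 v ≤ p.K F 𝔹 p.x := mK hv ⟨hx0.le, by linarith⟩ hvx.le
    have k2 : p.K F 𝔹 p.x ≤ C * p.x := hR.K_hi0 p.x hx0 hxv
    have k3 : C * p.x ≤ |C| * p.x ^ δ := mul_le_mul hC px1 hx0.le (abs_nonneg _)
    nlinarith
  · have hxv' : p.x ≤ v := not_lt.1 hvx
    have e : p.d F 𝔹 v = p.Hlo F v + p.chiL * p.Hlin F v := by
      unfold LlPt.d LlPt.h
      rw [if_neg hvx, (hp.sm_fin hsm).2]
      ring
    have t2 : |p.Hlo F v| ≤ (1 + 2 / F.pS) * p.x ^ δ := by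
      refine (ll04h_Hlo_abs hp hxv').trans ?_
      have hy0 : 0 < 1 / p.x := by positivity
      have hp2 : 0 < F.pS / 2 := by positivity
      have hL := Real.log_le_rpow_div hy0.le hp2
      have hL0 : 0 ≤ Real.log (1 / p.x) := Real.log_nonneg (by rw [le_div_iff₀ hx0]; linarith)
      have hlam : p.lam1 F ≤ p.x ^ F.pS := hl1.trans hp.lam_hi
      have e1 : p.x ^ F.pS * ((1 / p.x) ^ (F.pS / 2) / (F.pS / 2)) = 2 / F.pS * p.x ^ (F.pS / 2) := by
        have e2 : p.x ^ F.pS = p.x ^ (F.pS / 2) * p.x ^ (F.pS / 2) := by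
          rw [← Real.rpow_add hx0]; congr 1; ring
        rw [one_div p.x, Real.inv_rpow hx0.le, e2]
        have : p.x ^ (F.pS / 2) ≠ 0 := (Real.rpow_pos_of_pos hx0 _).ne'
        field_simp
      have a1 : p.lam1 F * Real.log (1 / p.x) ≤ 2 / F.pS * p.x ^ δ := by
        calc p.lam1 F * Real.log (1 / p.x) ≤ p.x ^ F.pS * ((1 / p.x) ^ (F.pS / 2) / (F.pS / 2)) :=
              mul_le_mul hlam hL hL0 (Real.rpow_nonneg hx0.le _)
          _ = 2 / F.pS * p.x ^ (F.pS / 2) := e1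
          _ ≤ _ := mul_le_mul_of_nonneg_left (pw _ hδ1) hinv
      have a2 : p.lam1 F ≤ p.x ^ δ := hlam.trans (pw _ (by linarith))
      nlinarith
    have t3 : |p.chiL * p.Hlin F v| ≤ 2 * p.x ^ δ := by
      obtain ⟨b1, b2⟩ := lcf_Hlin_bd (p := p) (F := F) hx0.le hF.vb0.le hell.le v
      have b0 : p.x ^ 3 ≤ p.x := by
        calc p.x ^ 3 = p.x * p.x ^ 2 := by ring
          _ ≤ p.x * 1 := mul_le_mul_of_nonneg_left (pow_le_one₀ hx0.le hx1.le) hx0.le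
          _ = p.x := mul_one _
      have b3 : p.x ^ 3 * p.ell ≤ p.x ^ δ * 2 := mul_le_mul (b0.trans px1) (lce_ell_le hp) hell.le hxd.le
      rw [abs_of_nonneg (mul_nonneg hp.chiL.1 b1)]
      have b4 : p.chiL * p.Hlin F v ≤ 1 * p.Hlin F v := mul_le_mul_of_nonneg_right hp.chiL.2 b1
      linarith
    rw [e]
    have h5 : 0 ≤ |C| * p.x ^ δ := mul_nonneg (abs_nonneg C) hxd.le
    calc |p.Hlo F v + p.chiL * p.Hlin F v| ≤ |p.Hlo F v| + |p.chiL * p.Hlin F v| := abs_add_le _ _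
      _ ≤ _ := by nlinarith

/-- the masses of the stages lie in `[0,a]` -/
theorem l8cl_v_mem (I : L8In) (ha : 0 ≤ I.a) (k : ℕ) : I.v k ∈ Icc 0 I.a := by
  by_cases hk : k < I.n
  · obtain ⟨hk', hv⟩ := l8cl_v I hk
    rw [hv]
    have := (gh_os_ps_mem.1 (List.getElem_mem hk')).2
    exact ⟨this.1, this.2.1⟩
  · have e : I.v k = I.a := by
      show ((llMat I.LP).map SkInc.m).getD k I.a = _
      refine List.getD_eq_default _ _ ?_
      have : I.n = I.LP.length := rfl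
      simp only [llMat, List.length_map]
      omega
    rw [e]
    exact ⟨ha, le_rfl⟩

/-- **the defect on a fine chain of a size point** -/
theorem l8cl_d_chain (F : LlFix) (𝔹 : LlBase) (h3 : LlSec3 𝔹 F) :
    ∃ (M : ℝ) (N0 : ℕ), 0 ≤ M ∧ ∀ I : L8In, I.F = F → I.𝔹 = 𝔹 → I.Ok → N0 ≤ I.p.N → I.p.sm = true → I.Fine (I.x ^ (1 : ℝ)) →
      ∀ δ : ℝ, δ ≤ F.pS / 2 → δ ≤ 1 → ∀ t ≤ I.n, |I.d t| ≤ M * I.x ^ δ := by
  obtain ⟨M, hM, N0, h⟩ := l8cl_d_model F 𝔹 h3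
  refine ⟨M + 1, N0, by linarith, ?_⟩
  rintro I rfl rfl hOk hN hsm hf δ hδ1 hδ2 t ht
  obtain ⟨ha1, -⟩ := lce_a_mem hOk.pt
  have hx0 : 0 < I.x := lce_x_pos hOk.pt.N2
  have hx1 : I.x < 1 := lce_x_lt_one hOk.pt.N2
  obtain ⟨v', hv', k2⟩ := hf.d_bd t ht
  have k1 := h I.p hOk.pt hN hsm δ hδ1 hδ2 v' hv'
  have k3 : I.x ^ (1 : ℝ) ≤ I.x ^ δ := Real.rpow_le_rpow_of_exponent_ge hx0 hx1.le hδ2
  have k5 : I.p.x = I.x := rfl
  rw [k5] at k1
  linarith

/-- **the import `L9SizOk` of the node TRS** (`L09/TrsFin.lean`, 65), from FINE + the P-list + the monotonicity of `b q²` in the stage (65: `L09/TrsQ.lean`) -/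
theorem l8cl_sizOk {𝔹 : LlBase} {T : ℝ} (hf : L8gFine 𝔹 T) {F0 : LlFix} (hF : L8Fix 𝔹 T F0) (pB : LLParB) {pS : ℝ} (h0 : 0 < pS) (h1 : pS ≤ 1)
    (hq : ∀ I : L8In, LlStpAdm I.a I.LP → ∀ t, I.bC t * I.q t ^ 2 ≤ I.bC (t + 1) * I.q (t + 1) ^ 2)
    {δ : ℝ} (hδ1 : δ ≤ pS / 2) : L9SizOk 𝔹 δ (F0.wExp pB.sStar pB.eta pS) := by
  have h3 : LlSec3 𝔹 (F0.wExp pB.sStar pB.eta pS) := (hF.2.2 _ _ _ (llc_expOk pB h0 h1)).sec3
  have hB : LlBaseProfile 𝔹 (F0.wExp pB.sStar pB.eta pS).T := by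
    have : (F0.wExp pB.sStar pB.eta pS).T = T := hF.1
    rw [this]
    exact hF.2.1
  obtain ⟨M0, N1, hM0, hc⟩ := l8cl_caller _ 𝔹 hB h3
  obtain ⟨M1, N2, hM1, hd⟩ := l8cl_d_chain _ 𝔹 h3
  obtain ⟨N0, h⟩ := L8Ev.of_fine hf hF pB h0 h1 1 (max N1 N2) (R := l8Siz)
    (Φ := fun I => LlStpAdm I.a I.LP ∧ LlTiltOk I.LP (some I.js) ∧ LlBd (M0 + M1) I.LP ∧
      (∀ t, I.bC t * I.q t ^ 2 ≤ I.bC (t + 1) * I.q (t + 1) ^ 2) ∧ ∀ t ≤ I.n, |I.d t| ≤ (M0 + M1) * I.x ^ δ) (by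
    intro I hIF hI𝔹 hN hR hOk hfine
    obtain ⟨-, -, -, hadm, hbd⟩ := hc I hIF hI𝔹 hOk ((le_max_left _ _).trans hN)
    refine ⟨hadm, l8cl_tilt I hOk hfine.js_lt hfine.js_m, fun t => ⟨(hbd t).1.trans (by linarith), (hbd t).2.trans (by linarith)⟩, hq I hadm, fun t ht => ?_⟩
    refine (hd I hIF hI𝔹 hOk ((le_max_right _ _).trans hN) hR.1 hfine δ hδ1 (by linarith) t ht).trans ?_
    exact mul_le_mul_of_nonneg_right (by linarith) (Real.rpow_nonneg I.x_nonneg _))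
  exact ⟨M0 + M1, N0, h⟩

/-! ### 8. (D8) in the tilted ensemble      (import `L9tiD8t` of the node TRD, 230; order of 93) -/

-- **(D8t)** `L8In.D8t` : the SAME text is now a def of `L08/Defs.lean` (75); the copy which lived here is deleted (duplicate declaration)

theorem l8cl_d8t_eqns_cite : True := by
  have := @L8In.D8t.eq_1
  trivial

/-- the untilted second moment of the overlap of a fork is `D²` -/
theorem l8cl_moF_D2 (I : L8In) (ha : 0 < I.a) (hm : 1 ≤ I.m) (hadm : LlStpAdm I.a I.LP) {k : ℕ} (hk : k ≤ I.n) :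
    I.moF false k 1 (fun ω => (I.sp false).Q ω - I.S k) = I.D2 k := by
  have hP : (I.sp false).Ok := I.l8w_sp_ok ha hadm hm false
  have h1 : (I.sp false).S k = I.S k := l8i_S I.m I.a ha _ (ll2_mv_adm hadm none) k (by rw [ll2_mv_len]; exact hk)
  have h2 : (I.sp false).B k = I.B k := l8i_B I.m I.a ha _ (ll2_mv_adm hadm none) k (by rw [ll2_mv_len]; exact hk)
  unfold L8In.moF
  rw [← h1, mul_one, (I.sp false).l8s_fork_var_Q hP k]
  show (I.sp false).B k - (I.sp false).S k ^ 2 = _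
  rw [h1, h2]
  rfl

/-- **(D8) ⟹ (D8t)** under the hypotheses of the field leaves of the transfer (189), SAME envelope -/
theorem l8cl_d8t_of {I : L8In} {e : ℕ → ℝ} {A0 A vt vp cE M δ : ℝ} {pm jm K : ℕ} (h : TlkHyp I e A0 A I.Y I.Z vt vp cE M δ pm jm K)
    (hK : 10 ≤ K) {C0 δ' : ℝ} (hC : 0 ≤ C0 * δ') (h8 : I.D8 e A0 C0 δ') : I.D8t e A C0 δ' := by
  obtain ⟨hx0, hx1, -, -, -, -, -, -, ha1, -, hm⟩ := tlk_sc h.ok h.fok
  have h4 : 4 ≤ K := by omega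
  have ha : 0 < I.a := by linarith
  have hY0 : 0 ≤ I.Y := hx0.le.trans h.Yx
  have hz6 : I.x ^ 6 ≤ I.z0 1 := (tlk_k_base h h4 h.Y1 (by norm_num)).2.1
  have hp1 : 1 ≤ I.x ^ (-(C0 * δ')) := Real.one_le_rpow_of_pos_of_le_one_of_nonpos hx0 hx1 (by linarith)
  have hY2 : I.x ^ 2 ≤ I.Y ^ 2 := pow_le_pow_left₀ hx0.le h.Yx 2
  have hZ2 : 1 ≤ I.Z ^ 2 := one_le_pow₀ h.Zh1
  have hT : I.x ^ 8 ≤ I.x ^ (-(C0 * δ')) * I.z0 1 * I.Y ^ 2 * I.Z ^ 2 := by
    calc I.x ^ 8 = 1 * I.x ^ 6 * I.x ^ 2 * 1 := by ring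
      _ ≤ _ := mul_le_mul (mul_le_mul (mul_le_mul hp1 hz6 (by positivity) (by linarith)) hY2 (by positivity)
          (mul_nonneg (by linarith) ((pow_nonneg hx0.le 6).trans hz6))) hZ2 zero_le_one
          (mul_nonneg (mul_nonneg (by linarith) ((pow_nonneg hx0.le 6).trans hz6)) (sq_nonneg _))
  have key := tlk_k_int h h.Yx (hi := I.a) (T1 := I.x ^ (-(C0 * δ')) * I.z0 1 * I.Y ^ 2 * I.Z ^ 2)
    (fun k => if I.x ^ δ' ≤ e k then 1 else 0)
    (fun k => I.moF true k 1 fun ω => (I.sp true).Q ω - I.S k)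
    (fun k => I.moF false k 1 fun ω => (I.sp false).Q ω - I.S k) (c := 4) (p := 0) (d := 8)
    (fun k _ _ => by split_ifs <;> simp) (fun k hkn hk => tlk_k_E_Q h hkn hk)
    (by
      unfold L8In.D8 at h8
      have e1 : A0 * (I.x ^ (-(C0 * δ')) * I.z0 1 * I.Y ^ 2 * I.Z ^ 2) = A0 * I.x ^ (-(C0 * δ')) * I.z0 1 * I.Y ^ 2 * I.Z ^ 2 := by ring
      rw [e1]
      refine le_trans (le_of_eq ?_) h8
      unfold L8In.int
      refine Finset.sum_congr rfl fun k hk => ?_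
      have hkn : k ≤ I.n := by have := Finset.mem_range.1 (Finset.mem_filter.1 hk).1; omega
      beta_reduce
      rw [l8cl_moF_D2 I ha hm h.fine.adm hkn]
      split_ifs <;> simp)
    ((pow_nonneg hx0.le 8).trans hT) (fun _ _ _ => hT) (by omega) h4 (by omega)
  unfold L8In.D8t
  have e2 : A * I.x ^ (-(C0 * δ')) * I.z0 1 * I.Y ^ 2 * I.Z ^ 2 = A * (I.x ^ (-(C0 * δ')) * I.z0 1 * I.Y ^ 2 * I.Z ^ 2) := by ring
  rw [e2]
  refine le_trans (le_of_eq ?_) key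
  unfold L8In.int
  refine Finset.sum_congr rfl fun k _ => ?_
  beta_reduce
  split_ifs <;> simp

/-- **(D8t) on the stop**, at ONE instance of the direct sweep with `Y ≤ x^κ`: source at the loss `C x^(-ε'/2)`, `ε' = min ε 1`, target at the loss `(|C| + 1) x^(-ε)` (the losses of `l8g_til`) -/
theorem l8cl_d8t (εs qs ε : ℝ) (hεs : 0 < εs) (hqs : 0 < qs) (hε : 0 < ε) (C : ℝ) : ∃ N0 : ℕ, ∀ I : L8In, N0 ≤ I.p.N → I.Ok → I.F.Ok → I.Fine 1 →
    ∀ κ : ℝ, 0 < κ → I.Y ≤ I.x ^ κ → I.s = qs * I.x ^ (1 + εs) → I.Stop (I.x ^ εs) →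
    ∀ (e : ℕ → ℝ) (vt vp cE : ℝ) (pm jm : ℕ), 0 < cE → I.Full e (C * I.x ^ (-(min ε 1 / 2))) I.Y I.Z vt vp cE pm jm →
    ∀ C0 δ' : ℝ, 0 ≤ C0 * δ' → I.D8 e (C * I.x ^ (-(min ε 1 / 2))) C0 δ' → I.D8t e ((|C| + 1) * I.x ^ (-ε)) C0 δ' := by
  have hε' : 0 < min ε 1 := lt_min hε one_pos
  obtain ⟨N1, htr⟩ := tlk_I_tr εs qs (min ε 1 / 4) 10 hεs hqs (by positivity)
  obtain ⟨N2, hN2pos, hloss⟩ := tlk_loss C ε hε 10
  refine ⟨max N1 N2, fun I hN hOk hF hfine κ hκ hY hs hstop e vt vp cE pm jm hcE hfull C0 δ' hC h8 => ?_⟩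
  obtain ⟨hx0, hx1, hYx, hY1, hZ1⟩ := tlk_scales hOk hF false hκ fun _ => hY
  have hxN : I.x ≤ (N2 : ℝ) ^ (-(1 / 6) : ℝ) :=
    Real.rpow_le_rpow_of_nonpos (by exact_mod_cast hN2pos) (by exact_mod_cast (le_max_right N1 N2).trans hN) (by norm_num)
  obtain ⟨hM1, hA, -, hA0x, hKx⟩ := hloss I.x hx0 hxN
  exact l8cl_d8t_of (K := 10) (M := I.x ^ (-(min ε 1 / 4))) (δ := I.x ^ 10)
    { ok := hOk, fok := hF, fine := hfine, tr := htr I ((le_max_left N1 N2).trans hN) hOk hF hfine hs hstop, full := hfull, M1 := hM1, hA := hA,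
      A0x := hA0x, Yx := hYx, Y1 := hY1, Zh1 := hZ1, cE0 := hcE, Kx := hKx, δ0 := pow_nonneg hx0.le _, δK := le_rfl } le_rfl hC h8

/-- **tree form** of the second moments of (D8), (D8t): the pair which shares `k` stages, ACTIVE in the ensemble, centred at any number `c` -/
theorem l8cl_nu_sq (I : L8In) (ha : 0 < I.a) (hadm : LlStpAdm I.a I.LP) (tl : Bool) {k : ℕ} (hact : I.act tl k) (c : ℝ) :
    (I.X tl).nu 2 (trPair I.n k) (fun σ => ((I.X tl).Qs (trPair I.n k) σ 0 1 - c) ^ 2) = I.moF tl k 1 fun ω => (I.sp tl).Q ω - c := by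
  have hk : k ≤ I.n + 1 := hact.1.trans (Nat.le_succ _)
  have e : trPair I.n k 0 1 = k := by simp [trPair]
  have hτ : IsTr I.n 2 (trPair I.n k) := l9r_t2_isTr hk
  have h := I.l8w_pairI ha hadm tl hτ (x := 0) (y := 1) (by norm_num) (by norm_num) (by norm_num) fun u => (u - c) ^ 2
  rw [e] at h
  unfold L8In.moF
  rw [mul_one, ← h]
  congr 1
  funext σ
  unfold JtCtx.Qs
  rw [e, I.l8w_msk_act hact, one_mul]

end Claimed.Agent.R286
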