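import Claimed.Agent.R286.L08.DList
import Claimed.Agent.R286.L09.TrsFin
import Claimed.Agent.R286.L09.RedC
import Claimed.Agent.R286.Brg.Stat251
import Claimed.Agent.R286.L09.TrdCore

/-!
# Row 286 (S0533), folder L08, file DSup : THE DICTIONARY LL08 → LL09 AT THE LEVEL OF THE EXITS      (owner helper220; prefix `l8q_`)

`L08/DList.lean` translates the records of LL 08 into tree numbers at ONE instance.   This file feeds the typed imports of the nodes of LL 09: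
* §1  `l8q_d11`  : `L8xD11 + L8gFine ⟹ L9D11` (import of the node TRS, 65): all moments of `Δ = msk Q - q`, both ensembles, ALL cuts (masked cuts: `Δ = - q`, `|q| ≲ x`).
* §2  `l8q_sup`  : ALL the fields of `Q.Sup` (RED, 282, `L09/RedC.lean`) but CC, at one point `Q : L9Q`, from `Env + Num + Rnd` (= `I.All`) at the instance `Q.j8 : L8In`;   envelope `l8qEv Q.N e` (`0` beyond the cuts), loss `A' ≥ 3 A`,
                   top `min vt vp` (`vp` = top of Cor. 8.7).   Masked pairs: `l8q_env_off`, `l8q_chg_off`;   terminal cut `c = N + 1`: `l8q_chg_top` (the resampled copy is the same leaf).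
* §3  links      : `l8q_Z`, `l8q_Zc`, `l8q_Y` (`Q.Y (l8Mj c) = Q.j8.Yv sm`), `l8q_x_le_U`, `l8q_dA_S`, `l8q_dA_D` (`Q.dA = |d| + |dd|` at `l9QS`, `l9QD`).
* §4  shapes     : `l8q_evS`, `l8q_evD` (`L8Ev` ⟹ "all points of the segment on the stop", with `Q.j8.Ok`, `Q.j8.Stop`);   `l8q_ptL_ok`;   **`l8q_admS : L9cAdmS`, `l8q_admD : L9cAdmD`** from `L8gFine`.
* §5  **`l8q_supS`** : `L8xLow + L8gFine + L8qCCS ⟹ L9cSupS .. (min v0 v1)`;   **`l8q_supD`** : `L8xDir + L8gFine + L8qCCD ⟹ L9cSupD .. (min v0 1)` (`v0` = top of Cor. 8.7).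
                   `L8qCCS`, `L8qCCD` = THE typed import of CC (30, 64, 70): for every envelope with `I.All`.
* §6  TRD (101)  : at one instance, `I.Sm s = I.S (min s n)`, `I.XS tl` = the context at the reference `K_S = h + b S`:   `l8q_cen : L9xCen`,   `l8q_KS_le` (`|K_S - K| ≤ (A λ max(v,Y)² + M0 A) e`),   `l8q_XS_law`, `l8q_XS_nu`, `l8q_XS_N`,
                   `l8q_J` (`J = b (Q^* - S)`),   the hypotheses of `l9y_t34`: `l8q_J_bd`, `l8q_J_mom` (all cuts, both ensembles), `l8q_J_sq`, `l8q_J_sq0`, `l8q_D8_sum`.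
-/

set_option autoImplicit false

namespace Claimed.Agent.R286

open MeasureTheory Set Filter Finset

noncomputable section

/-! ## §1 (D11) in the vocabulary of the trees -/

theorem l8q_x_lt_one {p : LlPt} {F : LlFix} (hp : p.Ok F) : p.x < 1 := by
  have h2 : (1 : ℝ) < p.N := by
    have := hp.N2
    exact_mod_cast (by omega : 1 < p.N)
  exact Real.rpow_lt_one_of_one_lt_of_neg h2 (by norm_num)

theorem l8q_one_le_a {p : LlPt} {F : LlFix} (hp : p.Ok F) : 1 ≤ p.a := by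
  have h1 := hp.ell1
  unfold LlPt.a
  split_ifs
  · norm_num
  · exact h1

/-- the response is nonnegative -/
theorem l8q_gam_nonneg {p : LlPt} {F : LlFix} {𝔹 : LlBase} {c C v0 : ℝ} (h : p.Ref F 𝔹 c C v0) {t : ℝ} (ht : 0 ≤ t) : 0 ≤ p.Gam F 𝔹 t := by
  have h1 := h.gam_ftc 0 t le_rfl ht
  rw [h.gam_zero, sub_zero] at h1
  rw [h1]
  exact intervalIntegral.integral_nonneg ht fun u hu => (h.g1_pos u hu.1).le

/-- the path overlap below the mass `x` -/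
theorem l8q_pq_low {𝔹 : LlBase} {F : LlFix} (h3 : LlSec3 𝔹 F) :
    ∃ (C : ℝ) (N0 : ℕ), 0 ≤ C ∧ ∀ p : LlPt, p.Ok F → N0 ≤ p.N → ∀ v, 0 ≤ v → v ≤ p.x → |p.q F 𝔹 v| ≤ C * p.x := by
  obtain ⟨c, C, v0, -, -, N1, href⟩ := h3.ref
  obtain ⟨c', C', -, N2, hadm⟩ := h3.adm
  refine ⟨|C|, max N1 N2, abs_nonneg _, fun p hp hN v hv0 hvx => ?_⟩
  have hr := href p hp ((le_max_left _ _).trans hN)
  obtain ⟨-, -, -, -, hq, hb, -, -⟩ := hadm p hp ((le_max_right _ _).trans hN)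
  have hx0 := llc_x_pos hp
  have hxa : p.x < p.a := (l8q_x_lt_one hp).trans_le (l8q_one_le_a hp)
  have h0 : 0 ≤ p.q F 𝔹 v := l8q_gam_nonneg hr (hb v ⟨hv0, hvx.trans hxa.le⟩).2.2.2.2
  rw [abs_of_nonneg h0]
  calc p.q F 𝔹 v ≤ p.q F 𝔹 p.x := hq ⟨hv0, hvx.trans hxa.le⟩ ⟨hx0.le, hxa.le⟩ hvx
    _ ≤ C * p.x := hr.q_hi p.x ⟨hx0, hxa⟩
    _ ≤ |C| * p.x := mul_le_mul_of_nonneg_right (le_abs_self _) hx0.le

variable {I : L8In}

theorem l8q_v_nonneg (h : I.Std) (t : ℕ) : 0 ≤ I.v t := by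
  rw [← l8d_ms]
  exact (l8d_law h false).isMs.nonneg t

/-- the masses of the masked cuts are `≤ s` -/
theorem l8q_v_masked (hOk : I.Ok) {η : ℝ} (hF : I.Fine η) {t : ℕ} (ht : t ≤ I.js) : I.v t ≤ I.s := by
  rw [← hF.js_m]
  exact l8d_v_mono (l8d_std hOk hF) ht hF.js_lt.le

/-- the reference overlap on the chain at a masked cut -/
theorem l8q_q_masked (hOk : I.Ok) {η C : ℝ} (hF : I.Fine η) (hq : ∀ v, 0 ≤ v → v ≤ I.p.x → |I.p.q I.F I.𝔹 v| ≤ C * I.p.x) {t : ℕ} (ht : t ≤ I.js) :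
    |I.q t| ≤ C * I.x + η := by
  have h1 := hF.q_link t (ht.trans hF.js_lt.le)
  have h2 := hq (I.v t) (l8q_v_nonneg (l8d_std hOk hF) t) ((l8q_v_masked hOk hF ht).trans hOk.s_lt.le)
  have h3 : |I.q t| ≤ |I.q t - I.p.q I.F I.𝔹 (I.v t)| + |I.p.q I.F I.𝔹 (I.v t)| := by
    have := abs_add_le (I.q t - I.p.q I.F I.𝔹 (I.v t)) (I.p.q I.F I.𝔹 (I.v t))
    simpa using this
  have e : I.x = I.p.x := rfl
  rw [e]
  linarith

/-- moments of `Δ` at ALL cuts of one instance: (D11) at the active pairs, `|q| ≤ sg` at the masked ones -/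
theorem l8q_mom_all (h : I.Std) {tl : Bool} {r k : ℕ} {B sg : ℝ} (hr : 1 ≤ r) (hk : k ≤ 2 * r) (hD : I.D11 tl r B) (hB : |B| ≤ sg)
    (hq : tl = true → ∀ t ≤ I.js, |I.q t| ≤ sg) {t : ℕ} (ht : t ≤ I.n) : l9sMom (I.X tl) k t ≤ sg ^ k := by
  by_cases hact : I.act tl t
  · exact (l8d_d11_mom h hD hr hact hk).trans (pow_le_pow_left₀ (abs_nonneg _) hB k)
  · have htl : tl = true := by
      by_contra hne
      exact hact ⟨ht, fun h' => absurd h' hne⟩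
    subst htl
    have hjs : t ≤ I.js := by
      by_contra hne
      exact hact ⟨ht, fun _ => by omega⟩
    rw [l8d_mom_off h hjs]
    exact pow_le_pow_left₀ (abs_nonneg _) (hq rfl t hjs) k

/-- **the import (D11) of the node TRS** (65) -/
theorem l8q_d11 {𝔹 : LlBase} {T : ℝ} (hD : L8xD11 𝔹 T) (hf : L8gFine 𝔹 T) {F0 : LlFix} (hF : L8Fix 𝔹 T F0) (pB : LLParB) (hSt : LlcStB 𝔹 F0 pB) :
    ∃ p0 : ℝ, 0 < p0 ∧ ∀ pS, 0 < pS → pS ≤ p0 → L9D11 𝔹 llDStar (F0.wExp pB.sStar pB.eta pS) := by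
  obtain ⟨p0, hp0, hD⟩ := hD F0 hF pB hSt
  refine ⟨min p0 1, lt_min hp0 one_pos, fun pS h0 h1 εs qs hεs hqs k => ?_⟩
  have h1' : pS ≤ 1 := h1.trans (min_le_right _ _)
  obtain ⟨C, N0, hD⟩ := hD pS h0 (h1.trans (min_le_left _ _)) εs qs hεs hqs (k + 1) (by omega)
  have h3 := (hF.2.2 pB.sStar pB.eta pS (llc_expOk pB h0 h1')).sec3
  obtain ⟨Cq, N1, hCq, hq⟩ := l8q_pq_low h3
  obtain ⟨N2, hfine⟩ := L8Ev.of_fine hf hF pB h0 h1' 1 N1 (R := l8Siz)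
    (Φ := fun I => I.Fine (I.x ^ (1 : ℝ)) ∧ N1 ≤ I.p.N ∧ I.F = F0.wExp pB.sStar pB.eta pS ∧ I.𝔹 = 𝔹)
    (fun I hIF hIB hN _ _ hfi => ⟨hfi, hN, hIF, hIB⟩)
  refine ⟨|C| + Cq + 1, max N0 N2, (hD.and hfine).mono le_rfl ?_⟩
  rintro I hOk ⟨hd, hfi, hN, hIF, hIB⟩ tl htl t ht
  have hx0 : 0 < I.x := llc_x_pos hOk.pt
  have hx1 : I.x ≤ 1 := llc_x_le_one hOk.pt
  have hxd : 0 < I.x ^ llDStar := Real.rpow_pos_of_pos hx0 _
  have hxx : I.x ≤ I.x ^ llDStar := by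
    calc I.x = I.x ^ (1 : ℝ) := (Real.rpow_one _).symm
      _ ≤ I.x ^ llDStar := Real.rpow_le_rpow_of_exponent_ge hx0 hx1 (by unfold llDStar; norm_num)
  refine l8q_mom_all (l8d_std hOk hfi) (r := k + 1) (B := C * I.x ^ llDStar) (by omega) (by omega) (hd tl htl) ?_ (fun _ t' ht' => ?_) ht
  · rw [abs_mul, abs_of_pos hxd]
    exact mul_le_mul_of_nonneg_right (by linarith) hxd.le
  · have hq' : ∀ v, 0 ≤ v → v ≤ I.p.x → |I.p.q I.F I.𝔹 v| ≤ Cq * I.p.x := by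
      rw [hIF, hIB]
      exact hq I.p (hIF ▸ hOk.pt) hN
    have h4 := l8q_q_masked hOk hfi hq' ht'
    rw [Real.rpow_one] at h4
    have h5 : 0 ≤ |C| := abs_nonneg _
    calc |I.q t'| ≤ (Cq + 1) * I.x := by linarith
      _ ≤ (Cq + 1) * I.x ^ llDStar := mul_le_mul_of_nonneg_left hxx (by linarith)
      _ ≤ (|C| + Cq + 1) * I.x ^ llDStar := mul_le_mul_of_nonneg_right (by linarith) hxd.le

/-! ## §2 the supply `Q.Sup` of RED (282) at one point -/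

theorem l8q_S_nonneg (h : I.Std) (t : ℕ) : 0 ≤ I.S t := bst_S_nonneg h.a_pos h.adm.1 0 t

/-- the reference overlap at a cut of mass `≤ Y`, from the envelope: `|q| ≤ S + |f| ≤ 3 A Y` -/
theorem l8q_q_le (h : I.Std) {e : ℕ → ℝ} {A Y Zh vt cE : ℝ} (hE : I.Env e A Y vt cE) (hNum : I.Num A Y Zh vt) (hA : 0 ≤ A) {t : ℕ} (ht : t ≤ I.n)
    (hv : I.v t ≤ vt) (hY : I.v t ≤ Y) : |I.q t| ≤ 3 * A * e t := by
  have h1 := hE.f_le t ht hv
  have h2 := hNum.s_le t ht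
  have h3 := l8q_S_nonneg h t
  have h4 := hE.low t ht hY
  have e1 : I.q t = I.S t - I.f t := by unfold L8In.f; ring
  have h5 : |I.q t| ≤ |I.S t| + |I.f t| := by rw [e1]; exact abs_sub _ _
  rw [abs_of_nonneg h3] at h5
  rw [h4] at h1 ⊢
  have h6 : A * (I.v t + Y) ≤ A * (Y + Y) := mul_le_mul_of_nonneg_left (by linarith) hA
  nlinarith

/-- (D2) at a masked pair: `Δ = - q` -/
theorem l8q_env_off (h : I.Std) {t : ℕ} (ht : t ≤ I.js) {E : ℝ} (hq : |I.q t| ≤ E) (j : ℕ) : L9rEnv (I.X true) j t E := by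
  have h1 : l9sMom (I.X true) j t ≤ E ^ j := by
    rw [l8d_mom_off h ht]
    exact pow_le_pow_left₀ (abs_nonneg _) hq j
  unfold l9sMom at h1
  simp only [l8d_Dl_pair] at h1
  exact h1

/-- Cor. 8.7 at a masked pair: nothing to prove -/
theorem l8q_chg_off (h : I.Std) {v : ℕ} (hv : v ≤ I.js) (c : ℕ) {j : ℕ} (hj : j ≠ 0) {ζ : ℝ} (hζ : 0 ≤ ζ) : L9rChg (I.X true) j v c ζ := by
  unfold L9rChg
  have e : (fun σ : ℕ → SkCfg I.m => |(I.X true).msk v * ((I.X true).ov (σ 0) (σ 1) - (I.X true).ov (σ 2) (σ 3))| ^ j) = fun _ => 0 := by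
    funext σ
    rw [l8d_msk_off hv, zero_mul, abs_zero, zero_pow hj]
  rw [e, (l8d_law h true).nu.const]
  positivity

/-- Cor. 8.7 at the terminal cut: the resampled copy is the same leaf -/
theorem l8q_chg_top (h : I.Std) (tl : Bool) {v : ℕ} (hv : v ≤ I.n) {j : ℕ} (hj : j ≠ 0) {ζ : ℝ} (hζ : 0 ≤ ζ) : L9rChg (I.X tl) j v (I.n + 1) ζ := by
  unfold L9rChg
  have hX := (l8d_law h tl).nu
  set P : (ℕ → SkCfg I.m) → ℝ := fun σ => |(I.X tl).msk v * ((I.X tl).ov (σ 0) (σ 1) - (I.X tl).ov (σ 2) (σ 3))| ^ j with hP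
  have hU : TrUses 4 P := fun σ σ' hσ => by
    simp only [hP]
    rw [hσ 0 (by norm_num), hσ 1 (by norm_num), hσ 2 (by norm_num), hσ 3 (by norm_num)]
  have h1 := hX.comap 2 4 (trPair I.n v) (l8d_pair_isTr I.n hv) (fun x => x % 2) (fun x _ => Nat.mod_lt _ two_pos) P hU
  have e1 : (fun σ : ℕ → SkCfg I.m => P fun x => σ (x % 2)) = fun _ => 0 := by
    funext σ
    simp only [hP]
    norm_num
    exact fun h => absurd h hj
  have e2 : (fun x y => trPair I.n v (x % 2) (y % 2)) = l9rT4 (I.X tl).N v (I.n + 1) := by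
    funext x y
    show (if x % 2 = y % 2 then I.n + 1 else v) = if x = y then I.n + 1 else if x % 2 = y % 2 then I.n + 1 else v
    by_cases hxy : x = y
    · simp [hxy]
    · simp [hxy]
  rw [e1, hX.const, e2] at h1
  rw [← h1]
  positivity

theorem l8q_env_mono {S : Type} {X : JtCtx S} {j v : ℕ} {E E' : ℝ} (h : L9rEnv X j v E) (h0 : 0 ≤ E) (hE : E ≤ E') : L9rEnv X j v E' :=
  le_trans h (pow_le_pow_left₀ h0 hE j)

theorem l8q_chg_mono {S : Type} {X : JtCtx S} {j v c : ℕ} {ζ ζ' : ℝ} (h : L9rChg X j v c ζ) (h0 : 0 ≤ ζ) (hζ : ζ ≤ ζ') : L9rChg X j v c ζ' :=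
  le_trans h (pow_le_pow_left₀ h0 hζ j)

/-- the instance of LL 08 at a point of Sec. 9 -/
def L9Q.j8 (Q : L9Q) : L8In := ⟨Q.I.F, Q.I.𝔹, Q.p, Q.I.m, Q.I.s, Q.I.Fs⟩

/-- the envelope, extended by `0` beyond the cuts -/
def l8qEv (n : ℕ) (e : ℕ → ℝ) : ℕ → ℝ := fun v => if v ≤ n then e v else 0

theorem l8q_X (Q : L9Q) (en : Bool) : Q.X en = Q.j8.X en := rfl
theorem l8q_N (Q : L9Q) : Q.N = Q.j8.n := rfl
theorem l8q_ms (Q : L9Q) (v : ℕ) : Q.ms v = Q.j8.v v := l8d_ms Q.j8 v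
theorem l8q_mc_succ (Q : L9Q) (c : ℕ) : Q.mc (c + 1) = Q.j8.v c := by
  rw [← l8q_ms]
  simp [L9Q.mc, trPm]
theorem l8q_mc_zero (Q : L9Q) : Q.mc 0 = 0 := by simp [L9Q.mc, trPm]

/-- the right end of the cell of the cut `c` -/
theorem l8q_v_eq (Q : L9Q) (c : ℕ) : Q.j8.v c = Q.mc c + Q.j8.dv c := by
  rw [← l8d_mu, ← l8d_ms]
  unfold l9rMu L9Q.mc L9Q.ms
  show _ = trPm (llMs Q.j8.a Q.j8.LP) c + _
  ring

/-- **all the fields of `Q.Sup` but CC**, from the records of LL 08 at the instance `Q.j8`, low scale `Y = Q.Y Mj`; mesh `η ≤ Y`.      `vt` = top of the refined region, `vp` = top of Cor. 8.7 -/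
theorem l8q_sup {Q : L9Q} {Mj : L9Mj} {η A A' Zh vt vp cE K Cs : ℝ} {e : ℕ → ℝ} {pm jm : ℕ} (hOk : Q.j8.Ok) (hF : Q.j8.Fine η) (hηY : η ≤ Q.Y Mj)
    (hxY : Q.j8.x ≤ Q.Y Mj) (hA : 0 ≤ A) (hA1 : 1 ≤ A') (hA' : 3 * A ≤ A') (hpm : 2 ≤ pm) (hZ : 1 ≤ Q.Zc Mj) (hE : Q.j8.Env e A (Q.Y Mj) vt cE)
    (hNum : Q.j8.Num A (Q.Y Mj) Zh vt) (hR : ∀ en, Q.j8.Rnd en e A (Q.Y Mj) Zh vt vp pm jm)
    (hdA : ∀ v ≤ Q.N, Q.dA v = |Q.j8.d v| + |Q.j8.dd v|) (hcc : Q.CC Mj (l8qEv Q.N e) A' (min vt vp) K Cs) :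
    Q.Sup Mj A' (min vt vp) K Cs (l8qEv Q.N e) := by
  have h := l8d_std hOk hF
  have hx0 : 0 < Q.j8.x := llc_x_pos hOk.pt
  have hY0 : 0 < Q.Y Mj := hx0.trans_le hxY
  have he0 : ∀ v ≤ Q.N, 0 ≤ e v := fun v hv => (Real.rpow_nonneg hx0.le _).trans (hE.lo v hv)
  have hlam : 0 ≤ Q.lam := (Real.rpow_nonneg hx0.le _).trans hOk.pt.lam_lo
  have hAA : A ≤ A' := by linarith
  refine ⟨hZ, fun v => ?_, fun v hv hm => ?_, fun v hv hm => ?_, fun en v hv hm => ?_, fun en v c hvc hc h8 hYc hct => ?_, hcc⟩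
  · unfold l8qEv
    split_ifs with hv
    · exact he0 v hv
    · exact le_rfl
  · simp only [l8qEv, hv, if_true]
    rw [l8q_ms] at hm ⊢
    rcases le_total (Q.j8.v v) (Q.Y Mj) with hvY | hvY
    · rw [hE.low v hv hvY, max_eq_right hvY]
      nlinarith
    · rw [max_eq_left hvY]
      exact (hE.hi v hv hvY).trans (mul_le_mul_of_nonneg_right hAA (hY0.le.trans hvY))
  · simp only [l8qEv, hv, if_true]
    rw [l8q_ms] at hm ⊢
    rw [hdA v hv]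
    refine (hE.d_le v hv (hm.trans (min_le_left _ _))).trans ?_
    have : 0 ≤ Q.lam * max (Q.j8.v v) (Q.Y Mj) ^ 2 * e v := mul_nonneg (mul_nonneg hlam (sq_nonneg _)) (he0 v hv)
    have e1 : ∀ B : ℝ, B * Q.j8.lam * max (Q.j8.v v) (Q.Y Mj) ^ 2 * e v = B * (Q.lam * max (Q.j8.v v) (Q.Y Mj) ^ 2 * e v) := fun B => by
      show B * Q.lam * _ * _ = _
      ring
    rw [e1]
    show _ ≤ A' * Q.lam * max (Q.j8.v v) (Q.Y Mj) ^ 2 * e v
    calc A * (Q.lam * max (Q.j8.v v) (Q.Y Mj) ^ 2 * e v) ≤ A' * (Q.lam * max (Q.j8.v v) (Q.Y Mj) ^ 2 * e v) := mul_le_mul_of_nonneg_right hAA this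
      _ = _ := by ring
  · simp only [l8qEv, hv, if_true]
    rw [l8q_ms] at hm
    have hmt := hm.trans (min_le_left _ _)
    have hAe : 0 ≤ A * e v := mul_nonneg hA (he0 v hv)
    by_cases hact : Q.j8.act en v
    · have h1 := l8d_rnd_env h (hR en) (by omega) hact hmt (j := 4) (by omega)
      rw [abs_of_nonneg hAe] at h1
      exact l8q_env_mono h1 hAe (mul_le_mul_of_nonneg_right hAA (he0 v hv))
    · have hen : en = true := by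
        by_contra hne
        exact hact ⟨hv, fun h' => absurd h' hne⟩
      subst hen
      have hjs : v ≤ Q.j8.js := by
        by_contra hne
        exact hact ⟨hv, fun _ => by omega⟩
      have hvY : Q.j8.v v ≤ Q.Y Mj := ((l8q_v_masked hOk hF hjs).trans hOk.s_lt.le).trans hxY
      refine l8q_env_off h hjs ((l8q_q_le h hE hNum hA hv hmt hvY).trans ?_) 4
      exact mul_le_mul_of_nonneg_right hA' (he0 v hv)
  · have hz : 0 ≤ Q.z0 (Q.mc c) * Q.mc c := by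
      have hc0 : 0 ≤ Q.mc c := hY0.le.trans hYc
      exact mul_nonneg (div_nonneg (pow_nonneg hx0.le _) (mul_nonneg (Real.sqrt_nonneg _) (pow_nonneg hc0 _))) hc0
    have hζ : 0 ≤ A' * (Q.z0 (Q.mc c) * Q.mc c) := mul_nonneg (by linarith) hz
    rcases Nat.lt_or_ge Q.N c with hcN | hcN
    · have hc' : c = Q.j8.n + 1 := le_antisymm hc hcN
      have hvN : v ≤ Q.j8.n := by
        by_contra hne
        have hv' : v = Q.j8.n + 1 := by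
          have : v ≤ Q.j8.n + 1 := hvc.trans hc
          omega
        -- `ms (N+1) = a = mc (N+1)`, impossible with `8 ms v ≤ mc c`
        rw [l8q_ms, hv', hc', l8q_mc_succ] at h8
        have e1 : Q.j8.v (Q.j8.n + 1) = Q.j8.a := by
          rw [← l8d_ms]; unfold llMs; simp [L8In.n]
        have e2 : Q.j8.v Q.j8.n = Q.j8.a := by
          rw [← l8d_ms]; unfold llMs; simp [L8In.n]
        rw [e1, e2] at h8
        have := h.a_pos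
        linarith
      rw [hc']
      exact l8q_chg_top h en hvN (by norm_num) (hc' ▸ hζ)
    · by_cases hact : Q.j8.act en v
      · have hvc' : Q.j8.v c ≤ 2 * Q.mc c := by
          rw [l8q_v_eq]
          have := hF.dv_le c hcN
          linarith
        have hvc'' : Q.mc c ≤ Q.j8.v c := by
          rw [l8q_v_eq]
          have : 0 ≤ Q.j8.dv c := by
            rw [← l8d_mu]
            exact l9r_mu_nonneg (l8d_law h false).isMs hcN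
          linarith
        have h1 := l8d_rnd_chg h (hR en) (by omega) (hY0.trans_le hYc) hYc (hct.trans (min_le_right _ _)) hact
          (by rw [← l8q_ms]; linarith) hcN hvc'' hvc' (j := 4) (by omega)
        refine l8q_chg_mono h1 (by positivity) ?_
        show 2 * |A * (Q.z0 (Q.mc c) * Q.mc c)| ≤ _
        rw [abs_of_nonneg (mul_nonneg hA hz)]
        nlinarith
      · have hen : en = true := by
          by_contra hne
          exact hact ⟨hvc.trans hcN, fun h' => absurd h' hne⟩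
        subst hen
        have hjs : v ≤ Q.j8.js := by
          by_contra hne
          exact hact ⟨hvc.trans hcN, fun _ => by omega⟩
        exact l8q_chg_off h hjs c (by norm_num) hζ

/-! ## §3 the scales of `L09/RedC.lean` at the concrete majorants `l8Mj c`; the dotted defect -/

theorem l8q_Z (Q : L9Q) (c : ℝ) (h : Q.p.Ok Q.I.F) : Q.Z (l8Mj c) = Q.j8.Z := by
  show (L8In.mk Q.I.F Q.I.𝔹 (l8Cl Q.I.F Q.p) Q.I.m 0 Q.I.Fs).Z = _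
  rw [l8_cl_eq h]
  rfl

theorem l8q_Zc (Q : L9Q) (c : ℝ) (h : Q.p.Ok Q.I.F) : Q.Zc (l8Mj c) = if Q.p.sm then Q.j8.Zc llDStar else Q.j8.Z := by
  unfold L9Q.Zc
  rw [l8q_Z Q c h]
  rfl

theorem l8q_Y (Q : L9Q) (c : ℝ) (h : Q.p.Ok Q.I.F) : Q.Y (l8Mj c) = Q.j8.Yv Q.p.sm := by
  unfold L9Q.Y
  rw [l8q_Zc Q c h]
  cases Q.p.sm <;> rfl

/-- `x ≤ U` -/
theorem l8q_x_le_U {p : LlPt} {F : LlFix} (hp : p.Ok F) (hs : 0 ≤ F.sS) (hpS : 0 ≤ F.pS) : p.x ≤ p.U F := by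
  have hx0 := llc_x_pos hp
  have hx1 := llc_x_le_one hp
  have hl0 : 0 < p.lam := (Real.rpow_pos_of_pos hx0 _).trans_le hp.lam_lo
  have hl1 : p.lam ≤ 1 := hp.lam_hi.trans (Real.rpow_le_one hx0.le hx1 hpS)
  refine le_min hx1 ?_
  have h1 : 1 ≤ p.lam ^ (-(F.sS / 2)) := Real.one_le_rpow_of_pos_of_le_one_of_nonpos hl0 hl1 (by linarith)
  nlinarith

/-- `|d| + |ḋ|` of RED is `|d| + |dd|` of LL 08: size segment -/
theorem l8q_dA_S (F : LlFix) (𝔹 : LlBase) (s : ℝ) (Fs : Finset GhPos) (m N : ℕ) (γ : Fin (N + 1) → ℝ) (θ : ℝ) (v : ℕ) :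
    (l9QS F 𝔹 s Fs m N γ θ).dA v = |(l9QS F 𝔹 s Fs m N γ θ).j8.d v| + |(l9QS F 𝔹 s Fs m N γ θ).j8.dd v| := by
  have e1 : (l9QS F 𝔹 s Fs m N γ θ).j8.dd v
      = deriv (fun θ' => L8In.d { (l9QS F 𝔹 s Fs m N γ θ).j8 with p := (l9QS F 𝔹 s Fs m N γ θ).j8.p.wTh θ' } v)
          (6 * Real.log (l9QS F 𝔹 s Fs m N γ θ).j8.p.ell) := if_pos rfl
  have e2 : 6 * Real.log (l9QS F 𝔹 s Fs m N γ θ).j8.p.ell = θ := by
    show 6 * Real.log (Real.exp (θ / 6)) = θ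
    rw [Real.log_exp]
    ring
  rw [e1, e2]
  rfl

/-- the same on the strength sweep -/
theorem l8q_dA_D (F : LlFix) (𝔹 : LlBase) (s : ℝ) (Fs : Finset GhPos) (m N : ℕ) (ell : ℝ) (γ : Fin (N + 1) → ℝ) (t : ℝ) (v : ℕ) :
    (l9QD F 𝔹 s Fs m N ell γ t).dA v = |(l9QD F 𝔹 s Fs m N ell γ t).j8.d v| + |(l9QD F 𝔹 s Fs m N ell γ t).j8.dd v| := by
  have e1 : (l9QD F 𝔹 s Fs m N ell γ t).j8.dd v
      = deriv (fun L => L8In.d { (l9QD F 𝔹 s Fs m N ell γ t).j8 with p := (l9QD F 𝔹 s Fs m N ell γ t).j8.p.wLam L } v)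
          (Real.log (l9QD F 𝔹 s Fs m N ell γ t).j8.p.lam) := if_neg (by simp [L9Q.j8, L9Q.p, l9QD, l9PtL, ll04Pt])
  have e2 : Real.log (l9QD F 𝔹 s Fs m N ell γ t).j8.p.lam = t := by
    show Real.log (Real.exp t) = t
    rw [Real.log_exp]
  rw [e1, e2]
  rfl

/-! ## §4 from the shape `L8Ev` of LL 08 to the shapes `L9SbS`, `L9SbD` of RED -/

/-- the points of the strength sweep are admissible parameters -/
theorem l8q_ptL_ok (F : LlFix) {N : ℕ} (hN : 2 ≤ N) {ell : ℝ} (hell : ell ∈ Set.Icc (1 : ℝ) ((2 : ℝ) ^ (1 / 6 : ℝ))) (γ : Fin (N + 1) → ℝ) {t : ℝ}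
    (ht : t ∈ l9LamRg F N) : (l9PtL N ell γ t).Ok F := by
  have hx := ll04w_x_mem (N := N) (by omega)
  have hcl : ∀ y, ll04Cl y ∈ Set.Icc (-4 : ℝ) 4 := fun y =>
    ⟨by linarith [(ll04w_cl_mem y).1], by linarith [(ll04w_cl_mem y).2]⟩
  refine ⟨hN, hell.1, hell.2, ?_, ?_, hcl _, fun h => ?_, ⟨le_rfl, zero_le_one⟩, ⟨zero_le_one, le_rfl⟩, fun h => absurd h (by simp [l9PtL, ll04Pt])⟩
  · show skX N ^ (12 : ℝ) ≤ Real.exp t
    rw [Real.rpow_def_of_pos hx.1]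
    exact Real.exp_le_exp.2 (by linarith [ht.1])
  · show Real.exp t ≤ skX N ^ F.pS
    rw [Real.rpow_def_of_pos hx.1]
    exact Real.exp_le_exp.2 (by linarith [ht.2])
  · show (if hh : h < N then ll04Cl (γ ⟨h + 1, Nat.succ_lt_succ hh⟩) else 1 / 2) ∈ Set.Icc (-4 : ℝ) 4
    split_ifs
    · exact hcl _
    · constructor <;> norm_num

/-- size segment: a statement of the shape `L8Ev` holds at the instances `Q.j8` of the points of RED; they are in the range, with the tilt `s = q x^(1+ε)`, on the stop -/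
theorem l8q_evS {𝔹 : LlBase} {F : LlFix} (hp : F.pS ≤ 12) {N0 : ℕ} {Φ : L8In → Prop} (h : L8Ev F 𝔹 N0 l8Siz Φ) {ε q : ℝ} (hε : 0 < ε) (hq : 0 < q) :
    ∃ N1 : ℕ, ∀ N : ℕ, N1 ≤ N → ∀ᶠ Fs : Finset GhPos in atTop, ∀ (m : ℕ) (γ : Fin (N + 1) → ℝ) (θ : ℝ),
      L9HyS F 𝔹 N (q * skX N ^ (1 + ε)) (skX N ^ ε) Fs m γ θ →
        (l9QS F 𝔹 (q * skX N ^ (1 + ε)) Fs m N γ θ).j8.Ok ∧ (l9QS F 𝔹 (q * skX N ^ (1 + ε)) Fs m N γ θ).j8.Stop (skX N ^ ε) ∧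
          Φ (l9QS F 𝔹 (q * skX N ^ (1 + ε)) Fs m N γ θ).j8 := by
  obtain ⟨N4, hN4⟩ := l9s_small ε q hε hq
  refine ⟨N0 + N4 + 2, fun N hN => ?_⟩
  filter_upwards [h N (q * skX N ^ (1 + ε)) (by omega)] with Fs hFs m γ θ hHy
  obtain ⟨hm1, hm2, hθ, -, hst⟩ := hHy
  have hx := l9t_skX_pos (N := N) (by omega)
  have hs0 : 0 < q * skX N ^ (1 + ε) := by positivity
  have hs1 : q * skX N ^ (1 + ε) < skX N := by
    rw [Real.rpow_add hx, Real.rpow_one]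
    have := hN4 N (by omega)
    nlinarith
  have hOk := l9s_in_ok 𝔹 F hp (N := N) (by omega) hm1 hm2 hs0 hs1 Fs γ (Set.Ioo_subset_Icc_self hθ)
  exact ⟨hOk, hst, hFs (Real.exp (θ / 6)) (skX N ^ F.pS) 1 0 true γ m ⟨rfl, rfl⟩ hOk⟩

/-- the same on the strength sweep -/
theorem l8q_evD {𝔹 : LlBase} {F : LlFix} (Mj : L9Mj) (κ : ℝ) {N0 : ℕ} {Φ : L8In → Prop} (h : L8Ev F 𝔹 N0 l8Dir Φ) {ε q : ℝ} (hε : 0 < ε) (hq : 0 < q) :
    ∃ N1 : ℕ, ∀ N : ℕ, N1 ≤ N → ∀ᶠ Fs : Finset GhPos in atTop, ∀ (m : ℕ) (ell : ℝ) (γ : Fin (N + 1) → ℝ) (t : ℝ),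
      L9HyD F 𝔹 Mj κ N (q * skX N ^ (1 + ε)) (skX N ^ ε) Fs m ell γ t →
        (l9QD F 𝔹 (q * skX N ^ (1 + ε)) Fs m N ell γ t).j8.Ok ∧ (l9QD F 𝔹 (q * skX N ^ (1 + ε)) Fs m N ell γ t).j8.Stop (skX N ^ ε) ∧
          Φ (l9QD F 𝔹 (q * skX N ^ (1 + ε)) Fs m N ell γ t).j8 := by
  obtain ⟨N4, hN4⟩ := l9s_small ε q hε hq
  refine ⟨N0 + N4 + 2, fun N hN => ?_⟩
  filter_upwards [h N (q * skX N ^ (1 + ε)) (by omega)] with Fs hFs m ell γ t hHy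
  obtain ⟨hm1, hm2, hell, ht, -, hst, -⟩ := hHy
  have hx := l9t_skX_pos (N := N) (by omega)
  have hs0 : 0 < q * skX N ^ (1 + ε) := by positivity
  have hs1 : q * skX N ^ (1 + ε) < skX N := by
    rw [Real.rpow_add hx, Real.rpow_one]
    have := hN4 N (by omega)
    nlinarith
  have hOk : (L8In.mk F 𝔹 (l9PtL N ell γ t) m (q * skX N ^ (1 + ε)) Fs).Ok := ⟨l8q_ptL_ok F (by omega) hell γ ht, hm1, hm2, hs0, hs1⟩
  exact ⟨hOk, hst, hFs ell (Real.exp t) 0 1 false γ m ⟨rfl, rfl, rfl⟩ hOk⟩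

/-- the chain at one point -/
theorem l8q_adm {Q : L9Q} {η : ℝ} (hOk : Q.j8.Ok) (hF : Q.j8.Fine η) : Q.Adm η where
  a_pos := (l8d_std hOk hF).a_pos
  adm := hF.adm
  mesh := fun j hj => by
    have := hF.dv_le j hj
    rwa [← l8d_mu] at this

/-- **the supply `L9cAdmS` of RED** -/
theorem l8q_admS {𝔹 : LlBase} {T : ℝ} (hf : L8gFine 𝔹 T) {F0 : LlFix} (hF : L8Fix 𝔹 T F0) (pB : LLParB) {pS : ℝ} (h0 : 0 < pS) (h1 : pS ≤ 1) :
    L9cAdmS 𝔹 (F0.wExp pB.sStar pB.eta pS) := by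
  intro Km δ _ ε hε q hq
  obtain ⟨N0, hfine⟩ := L8Ev.of_fine hf hF pB h0 h1 Km 0 (R := l8Siz) (Φ := fun I => I.Fine (I.x ^ Km)) (fun I _ _ _ _ _ hfi => hfi)
  obtain ⟨N1, hev⟩ := l8q_evS (show (F0.wExp pB.sStar pB.eta pS).pS ≤ 12 by show pS ≤ 12; linarith) hfine hε hq
  refine ⟨0, N1, fun N hN => ?_⟩
  filter_upwards [hev N hN] with Fs hFs m γ θ hHy
  obtain ⟨hOk, -, hfi⟩ := hFs m γ θ hHy
  exact ⟨l8q_adm hOk hfi, l9s_dot_nonneg _ _ θ (l8d_std hOk hfi).a_pos hfi.adm⟩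

/-- **the supply `L9cAdmD` of RED** -/
theorem l8q_admD {𝔹 : LlBase} {T : ℝ} (hf : L8gFine 𝔹 T) {F0 : LlFix} (hF : L8Fix 𝔹 T F0) (pB : LLParB) {pS : ℝ} (h0 : 0 < pS) (h1 : pS ≤ 1)
    (Mj : L9Mj) (κ : ℝ) : L9cAdmD 𝔹 Mj κ (F0.wExp pB.sStar pB.eta pS) := by
  intro Km δ _ ε hε q hq
  obtain ⟨N0, hfine⟩ := L8Ev.of_fine hf hF pB h0 h1 Km 0 (R := l8Dir) (Φ := fun I => I.Fine (I.x ^ Km)) (fun I _ _ _ _ _ hfi => hfi)
  obtain ⟨N1, hev⟩ := l8q_evD Mj κ hfine hε hq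
  refine ⟨0, N1, fun N hN => ?_⟩
  filter_upwards [hev N hN] with Fs hFs m ell γ t hHy
  obtain ⟨hOk, -, hfi⟩ := hFs m ell γ t hHy
  exact l8q_adm hOk hfi

/-! ## §5 the supplies `L9cSupS`, `L9cSupD` of RED from the exits of LL 08 and ONE typed import (CC) -/

theorem l8q_A_nonneg (h : I.Std) {A Y Zh vt : ℝ} (hNum : I.Num A Y Zh vt) (hY : 0 < Y) : 0 ≤ A := by
  have h1 := hNum.s_le 0 (Nat.zero_le _)
  have h2 := l8q_S_nonneg h 0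
  have h3 := l8q_v_nonneg h 0
  by_contra hneg
  have hneg' := not_le.1 hneg
  nlinarith

theorem l8q_rpow_quarter_nonneg (t : ℝ) : 0 ≤ t ^ (1 / 4 : ℝ) := by
  rcases le_or_gt 0 t with h | h
  · exact Real.rpow_nonneg h _
  · rw [Real.rpow_def_of_neg h, show (1 / 4 : ℝ) * Real.pi = Real.pi / 4 by ring, Real.cos_pi_div_four]
    positivity

theorem l8q_E3_nonneg {Q : L9Q} {Mj : L9Mj} (hx : 0 ≤ Q.x) (hl : 0 ≤ Q.lam) (hY : 0 ≤ Q.Y Mj) (hZ : 0 ≤ Q.Zc Mj) (K : ℝ) : 0 ≤ Q.E3 Mj K := by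
  unfold L9Q.E3 L9Q.gB
  have h1 : 0 ≤ Q.lam ^ ((3 * Q.I.F.sS - 1 - Q.I.F.eta) / 2) / Q.Zc Mj ^ (3 / 2 : ℝ) := div_nonneg (Real.rpow_nonneg hl _) (Real.rpow_nonneg hZ _)
  have h2 : 0 ≤ Q.x / Q.Y Mj := div_nonneg hx hY
  have h3 : 0 ≤ Q.x ^ K := Real.rpow_nonneg hx _
  positivity

/-- CC is monotone in the loss -/
theorem l8q_cc_mono {Q : L9Q} {Mj : L9Mj} {e : ℕ → ℝ} {A A' vt K Cs : ℝ} (h : Q.CC Mj e A vt K Cs) (hE : 0 ≤ Q.E3 Mj K) (hA : A ≤ A') :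
    Q.CC Mj e A' vt K Cs := by
  intro n hn hn' R hR hRn β V c hc h1 h2 h3 B L0 hL0 hB1 hB2
  exact (h n hn hn' R hR hRn β V c hc h1 h2 h3 B L0 hL0 hB1 hB2).trans
    (mul_le_mul_of_nonneg_left (mul_le_mul_of_nonneg_right hA hE) hL0)

/-- CC and `Sup` are antitone in the top of the region -/
theorem l8q_cc_anti {Q : L9Q} {Mj : L9Mj} {e : ℕ → ℝ} {A vt vt' K Cs : ℝ} (h : Q.CC Mj e A vt K Cs) (hv : vt' ≤ vt) : Q.CC Mj e A vt' K Cs :=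
  fun n hn hn' R hR hRn β V c hc h1 h2 h3 => h n hn hn' R hR hRn β V c hc h1 h2 (h3.trans hv)

theorem l8q_sup_anti {Q : L9Q} {Mj : L9Mj} {e : ℕ → ℝ} {A vt vt' K Cs : ℝ} (h : Q.Sup Mj A vt K Cs e) (hv : vt' ≤ vt) : Q.Sup Mj A vt' K Cs e :=
  ⟨h.z1, h.e_nn, fun v hv' hm => h.e_le v hv' (hm.trans hv), fun v hv' hm => h.d_le v hv' (hm.trans hv),
    fun en v hv' hm => h.d2 en v hv' (hm.trans hv), fun en v c hvc hc h8 hY hct => h.p87 en v c hvc hc h8 hY (hct.trans hv), l8q_cc_anti h.cc hv⟩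

/-- **IMPORT (CC: 30, 64, 70), size segment**: Lemma 9.1 on tables at the points of RED, for EVERY envelope of LL 08 ("for all targets there is a source": the orders `pm, jm` and the loss `ε0` of the source are chosen by the
prover of CC after the target `(K, C_s, δ)`; then the constant `C0` of the source is arbitrary) -/
def L8qCCS (𝔹 : LlBase) (Mj : L9Mj) (F : LlFix) (v0 v1 cE : ℝ) : Prop :=
  ∀ K Cs : ℝ, 4 ≤ Cs → ∀ δ ε q : ℝ, 0 < δ → 0 < ε → 0 < q → ∃ (pm jm : ℕ) (ε0 : ℝ), 2 ≤ pm ∧ 0 < ε0 ∧ ε0 ≤ δ ∧ ∀ C0 : ℝ, ∃ (C : ℝ) (N0 : ℕ),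
    ∀ N : ℕ, N0 ≤ N → ∀ᶠ Fs : Finset GhPos in atTop, ∀ (m : ℕ) (γ : Fin (N + 1) → ℝ) (θ : ℝ),
      L9HyS F 𝔹 N (q * skX N ^ (1 + ε)) (skX N ^ ε) Fs m γ θ → ∀ e : ℕ → ℝ,
        (l9QS F 𝔹 (q * skX N ^ (1 + ε)) Fs m N γ θ).j8.All e (C0 * skX N ^ (-ε0)) ((l9QS F 𝔹 (q * skX N ^ (1 + ε)) Fs m N γ θ).Y Mj) 1 v0 v1 cE ε q pm jm →
        (l9QS F 𝔹 (q * skX N ^ (1 + ε)) Fs m N γ θ).CC Mj (l8qEv (l9QS F 𝔹 (q * skX N ^ (1 + ε)) Fs m N γ θ).N e) (C * skX N ^ (-δ)) (min v0 v1) K Cs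

/-- **IMPORT (CC), strength sweep** -/
def L8qCCD (𝔹 : LlBase) (Mj : L9Mj) (κ : ℝ) (F : LlFix) (v0 cE : ℝ) : Prop :=
  ∀ K Cs : ℝ, 4 ≤ Cs → ∀ δ ε q : ℝ, 0 < δ → 0 < ε → 0 < q → ∃ (pm jm : ℕ) (ε0 : ℝ), 2 ≤ pm ∧ 0 < ε0 ∧ ε0 ≤ δ ∧ ∀ C0 : ℝ, ∃ (C : ℝ) (N0 : ℕ),
    ∀ N : ℕ, N0 ≤ N → ∀ᶠ Fs : Finset GhPos in atTop, ∀ (m : ℕ) (ell : ℝ) (γ : Fin (N + 1) → ℝ) (t : ℝ),
      L9HyD F 𝔹 Mj κ N (q * skX N ^ (1 + ε)) (skX N ^ ε) Fs m ell γ t → ∀ e : ℕ → ℝ,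
        (l9QD F 𝔹 (q * skX N ^ (1 + ε)) Fs m N ell γ t).j8.All e (C0 * skX N ^ (-ε0)) ((l9QD F 𝔹 (q * skX N ^ (1 + ε)) Fs m N ell γ t).Y Mj)
          ((l9QD F 𝔹 (q * skX N ^ (1 + ε)) Fs m N ell γ t).Z Mj) (l9QD F 𝔹 (q * skX N ^ (1 + ε)) Fs m N ell γ t).p.a v0 cE ε q pm jm →
        (l9QD F 𝔹 (q * skX N ^ (1 + ε)) Fs m N ell γ t).CC Mj (l8qEv (l9QD F 𝔹 (q * skX N ^ (1 + ε)) Fs m N ell γ t).N e) (C * skX N ^ (-δ))
          (min (l9QD F 𝔹 (q * skX N ^ (1 + ε)) Fs m N ell γ t).p.a v0) K Cs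

/-- the losses: `3 C0 x^(-ε0) ≤ (|C| + 3 |C0| + 1) x^(-δ)` etc. -/
theorem l8q_loss {x ε0 δ : ℝ} (hx0 : 0 < x) (hx1 : x ≤ 1) (hε : ε0 ≤ δ) (hδ : 0 < δ) (C C0 : ℝ) :
    1 ≤ (|C| + 3 * |C0| + 1) * x ^ (-δ) ∧ 3 * (C0 * x ^ (-ε0)) ≤ (|C| + 3 * |C0| + 1) * x ^ (-δ) ∧ C * x ^ (-δ) ≤ (|C| + 3 * |C0| + 1) * x ^ (-δ) := by
  have h1 : 1 ≤ x ^ (-δ) := Real.one_le_rpow_of_pos_of_le_one_of_nonpos hx0 hx1 (by linarith)
  have h2 : x ^ (-ε0) ≤ x ^ (-δ) := Real.rpow_le_rpow_of_exponent_ge hx0 hx1 (by linarith)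
  have h3 : 0 < x ^ (-ε0) := Real.rpow_pos_of_pos hx0 _
  have a1 := abs_nonneg C
  have a2 := abs_nonneg C0
  have a3 := le_abs_self C
  have a4 := le_abs_self C0
  refine ⟨by nlinarith, ?_, mul_le_mul_of_nonneg_right (by linarith) (by linarith)⟩
  calc 3 * (C0 * x ^ (-ε0)) ≤ 3 * (|C0| * x ^ (-ε0)) := by nlinarith
    _ ≤ 3 * (|C0| * x ^ (-δ)) := by nlinarith
    _ ≤ (|C| + 3 * |C0| + 1) * x ^ (-δ) := by nlinarith

/-- `Q.Sup` at one point from `I.All` on the stop and CC -/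
theorem l8q_sup_all {Q : L9Q} {Mj : L9Mj} {A A' Zh vt vp cE εs qs K Cs : ℝ} {e : ℕ → ℝ} {pm jm : ℕ} (hOk : Q.j8.Ok) (hF : Q.j8.Fine Q.j8.x)
    (hU : Q.j8.x ≤ Q.U) (hA1 : 1 ≤ A') (hA' : 3 * A ≤ A') (hpm : 2 ≤ pm) (hZ : 1 ≤ Q.Zc Mj) (hAll : Q.j8.All e A (Q.Y Mj) Zh vt vp cE εs qs pm jm)
    (hs : Q.j8.s = qs * Q.j8.x ^ (1 + εs)) (hst : Q.j8.Stop (Q.j8.x ^ εs)) (hdA : ∀ v ≤ Q.N, Q.dA v = |Q.j8.d v| + |Q.j8.dd v|)
    (hcc : Q.CC Mj (l8qEv Q.N e) A' (min vt vp) K Cs) : Q.Sup Mj A' (min vt vp) K Cs (l8qEv Q.N e) := by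
  have hx0 : 0 < Q.j8.x := llc_x_pos hOk.pt
  have hxY : Q.j8.x ≤ Q.Y Mj := by
    unfold L9Q.Y
    have : 0 ≤ Q.U := hx0.le.trans hU
    nlinarith
  refine l8q_sup (jm := jm) hOk hF hxY hxY (l8q_A_nonneg (l8d_std hOk hF) hAll.num (hx0.trans_le hxY)) hA1 hA' hpm hZ hAll.env hAll.num (fun en => ?_) hdA hcc
  cases en
  · exact hAll.unt
  · exact hAll.til hs hst

/-- **the supply `L9cSupS` of RED** (top `min v0 v1`: refined region and Cor. 8.7) from `L8xLow`, the fineness of the chains and CC -/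
theorem l8q_supS {𝔹 : LlBase} {T : ℝ} (hL : L8xLow 𝔹 T) (hf : L8gFine 𝔹 T) {F0 : LlFix} (hF : L8Fix 𝔹 T F0) (pB : LLParB) (hSt : LlcStB 𝔹 F0 pB) (c : ℝ) :
    ∃ p0 cE : ℝ, 0 < p0 ∧ 0 < cE ∧ ∀ pS, 0 < pS → pS ≤ p0 → ∃ v0 v1 : ℝ, 0 < v0 ∧ 0 < v1 ∧
      (L8qCCS 𝔹 (l8Mj c) (F0.wExp pB.sStar pB.eta pS) v0 v1 cE → L9cSupS 𝔹 (l8Mj c) (F0.wExp pB.sStar pB.eta pS) (min v0 v1)) := by
  obtain ⟨p0, cE, hp0, hcE, hL⟩ := hL F0 hF pB hSt
  refine ⟨min p0 1, cE, lt_min hp0 one_pos, hcE, fun pS h0 h1 => ?_⟩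
  have h1' : pS ≤ 1 := h1.trans (min_le_right _ _)
  obtain ⟨v0, v1, hv0, hv1, hL⟩ := hL pS h0 (h1.trans (min_le_left _ _))
  refine ⟨v0, v1, hv0, hv1, fun hCC K Cs hCs δ hδ ε hε q hq => ?_⟩
  obtain ⟨pm, jm, ε0, hpm, hε0, hε0δ, hCC⟩ := hCC K Cs hCs δ ε q hδ hε hq
  obtain ⟨C0, N0, hL⟩ := hL ε q hε hq pm jm ε0 hε0
  obtain ⟨C, N1, hCC⟩ := hCC C0
  obtain ⟨N2, hfine⟩ := L8Ev.of_fine hf hF pB h0 h1' 1 0 (R := l8Siz) (Φ := fun I => I.Fine (I.x ^ (1 : ℝ))) (fun I _ _ _ _ _ hfi => hfi)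
  obtain ⟨N3, hev⟩ := l8q_evS (show (F0.wExp pB.sStar pB.eta pS).pS ≤ 12 by show pS ≤ 12; linarith) (hL.and hfine) hε hq
  refine ⟨|C| + 3 * |C0| + 1, max N1 N3, fun N hN => ?_⟩
  filter_upwards [hCC N ((le_max_left _ _).trans hN), hev N ((le_max_right _ _).trans hN)] with Fs g1 g2 m γ θ hHy
  obtain ⟨hOk, hst, ⟨hZc, e, hAll⟩, hfi⟩ := g2 m γ θ hHy
  set Q := l9QS (F0.wExp pB.sStar pB.eta pS) 𝔹 (q * skX N ^ (1 + ε)) Fs m N γ θ with hQ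
  have hx0 : 0 < skX N := llc_x_pos hOk.pt
  have hx1 : skX N ≤ 1 := llc_x_le_one hOk.pt
  obtain ⟨l1, l2, l3⟩ := l8q_loss hx0 hx1 hε0δ hδ C C0
  have eY : Q.Y (l8Mj c) = Q.j8.Yc llDStar := l8q_Y Q c hOk.pt
  have eZ : Q.Zc (l8Mj c) = Q.j8.Zc llDStar := l8q_Zc Q c hOk.pt
  have hE := llc_expOk pB h0 h1'
  have hU : Q.j8.x ≤ Q.U := l8q_x_le_U hOk.pt (by show 0 ≤ pB.sStar; linarith [hE.s_lo]) (by show 0 ≤ pS; exact h0.le)
  have hZ1 : 1 ≤ Q.Zc (l8Mj c) := eZ ▸ hZc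
  have hAll' : Q.j8.All e (C0 * skX N ^ (-ε0)) (Q.Y (l8Mj c)) 1 v0 v1 cE ε q pm jm := eY ▸ hAll
  rw [Real.rpow_one] at hfi
  have hY0 : 0 ≤ Q.Y (l8Mj c) := mul_nonneg (hx0.le.trans hU) (by linarith)
  have hl0 : 0 ≤ Q.lam := (Real.rpow_nonneg hx0.le _).trans hOk.pt.lam_lo
  refine fun _ => ⟨l8qEv Q.N e, l8q_sup_all hOk hfi hU l1 l2 hpm hZ1 hAll' rfl hst (fun v _ => l8q_dA_S _ _ _ _ _ _ _ _ v) ?_⟩
  exact l8q_cc_mono (g1 m γ θ hHy e hAll') (l8q_E3_nonneg (Q := Q) hx0.le hl0 hY0 (by linarith) K) l3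

/-- **the supply of RED on the strength sweep**, top `min a v0` (`v0` = top of Cor. 8.7), from `L8xDir`, the fineness of the chains and CC -/
theorem l8q_supD {𝔹 : LlBase} {T : ℝ} (hL : L8xDir 𝔹 T) (hf : L8gFine 𝔹 T) {F0 : LlFix} (hF : L8Fix 𝔹 T F0) (pB : LLParB) {pS : ℝ} (h0 : 0 < pS) (h1 : pS ≤ 1)
    (c : ℝ) : ∃ v0 cE : ℝ, 0 < v0 ∧ 0 < cE ∧ ∀ κ : ℝ, 0 < κ → L8qCCD 𝔹 (l8Mj c) κ (F0.wExp pB.sStar pB.eta pS) v0 cE →
      L9cSupD 𝔹 (l8Mj c) κ (F0.wExp pB.sStar pB.eta pS) (min v0 1) := by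
  obtain ⟨CD, δ0, v0, cE, -, hδ0, hv0, hcE, hL⟩ := hL F0 hF pB pS h0 h1
  refine ⟨v0, cE, hv0, hcE, fun κ hκ hCC K Cs hCs δ hδ ε hε q hq => ?_⟩
  obtain ⟨pm, jm, ε0, hpm, hε0, hε0δ, hCC⟩ := hCC K Cs hCs δ ε q hδ hε hq
  obtain ⟨C0, N0, hL⟩ := hL κ ε q hκ hε hq pm jm ε0 δ0 hε0 hδ0 le_rfl
  obtain ⟨C, N1, hCC⟩ := hCC C0
  obtain ⟨N2, hfine⟩ := L8Ev.of_fine hf hF pB h0 h1 1 0 (R := l8Dir) (Φ := fun I => I.Fine (I.x ^ (1 : ℝ))) (fun I _ _ _ _ _ hfi => hfi)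
  obtain ⟨N3, hev⟩ := l8q_evD (l8Mj c) κ (hL.and hfine) hε hq
  refine ⟨|C| + 3 * |C0| + 1, max N1 N3, fun N hN => ?_⟩
  filter_upwards [hCC N ((le_max_left _ _).trans hN), hev N ((le_max_right _ _).trans hN)] with Fs g1 g2 m ell γ t hHy
  obtain ⟨hOk, hst, hAll, hfi⟩ := g2 m ell γ t hHy
  set Q := l9QD (F0.wExp pB.sStar pB.eta pS) 𝔹 (q * skX N ^ (1 + ε)) Fs m N ell γ t with hQ
  have hx0 : 0 < skX N := llc_x_pos hOk.pt
  have hx1 : skX N ≤ 1 := llc_x_le_one hOk.pt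
  obtain ⟨l1, l2, l3⟩ := l8q_loss hx0 hx1 hε0δ hδ C C0
  have eZ0 : Q.Z (l8Mj c) = Q.j8.Z := l8q_Z Q c hOk.pt
  have eY : Q.Y (l8Mj c) = Q.j8.Y := l8q_Y Q c hOk.pt
  have eZ : Q.Zc (l8Mj c) = Q.j8.Z := l8q_Zc Q c hOk.pt
  have hYκ : Q.j8.Y ≤ Q.j8.x ^ κ := by
    have := hHy.2.2.2.2.2.2
    rw [← eY]
    unfold L9Q.Y
    rw [eZ, ← eZ0]
    exact this
  obtain ⟨e, hAll, -⟩ := hAll hYκ
  have hE := llc_expOk pB h0 h1
  have hU : Q.j8.x ≤ Q.U := l8q_x_le_U hOk.pt (by show 0 ≤ pB.sStar; linarith [hE.s_lo]) (by show 0 ≤ pS; exact h0.le)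
  have hZ1 : 1 ≤ Q.Zc (l8Mj c) := by
    rw [eZ]
    unfold L8In.Z
    have := l8q_rpow_quarter_nonneg (Q.j8.bud / Q.j8.U ^ 4)
    linarith
  have hAll' : Q.j8.All e (C0 * skX N ^ (-ε0)) (Q.Y (l8Mj c)) (Q.Z (l8Mj c)) Q.p.a v0 cE ε q pm jm := by
    rw [eY, eZ0]; exact hAll
  rw [Real.rpow_one] at hfi
  have hY0 : 0 ≤ Q.Y (l8Mj c) := mul_nonneg (hx0.le.trans hU) (by linarith)
  have hl0 : 0 ≤ Q.lam := (Real.rpow_nonneg hx0.le _).trans hOk.pt.lam_lo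
  refine fun _ => ⟨l8qEv Q.N e, l8q_sup_anti (l8q_sup_all hOk hfi hU l1 l2 hpm hZ1 hAll' rfl hst (fun v _ => l8q_dA_D _ _ _ _ _ _ _ _ _ v) ?_)
    (le_min ((min_le_right _ _).trans (l8q_one_le_a hOk.pt)) (min_le_left _ _))⟩
  exact l8q_cc_mono (g1 m ell γ t hHy e hAll') (l8q_E3_nonneg (Q := Q) hx0.le hl0 hY0 (by linarith) K) l3

/-! ## §6 the supplies of TRD (101: `l9u_trd_inst`, `l9y_t34`) at one instance -/

/-- the centring of TRD: the untilted mean overlap, constant beyond the terminal cut -/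
def L8In.Sm (I : L8In) (s : ℕ) : ℝ := I.S (min s I.n)

/-- the context of the ensemble at the monotone reference `K_S = h + b S` -/
def L8In.XS (I : L8In) (tl : Bool) : JtCtx (SkCfg I.m) := llJs I.m I.a (l9xPS I.LP I.Sm) (l8dTl I tl)

theorem l8q_S_le_one (h : I.Std) {t : ℕ} (ht : t ≤ I.n) : I.S t ≤ 1 := by
  rw [← l8d_S h ht]
  exact (le_abs_self _).trans ((l8d_law h false).nu.abs_le_const 2 _ fun σ => (l8d_law h false).ov_abs _ _)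

/-- **(a)** the hypotheses on the centring -/
theorem l8q_cen (h : I.Std) : L9xCen I.LP I.Sm where
  nn := fun s => l8q_S_nonneg h _
  le := fun s => l8q_S_le_one h (min_le_right _ _)
  mono := fun s => bst_S_mono h.a_pos h.adm.1 0 (min_le_min_right _ (Nat.le_succ s))
  top := fun s hs => by
    have hs' : I.n ≤ s := hs
    show I.S (min s I.n) = I.S (min I.n I.n)
    rw [min_eq_right hs', min_self]

theorem l8q_bC_nonneg (h : I.Std) (t : ℕ) : 0 ≤ I.bC t := l9s_cumB_nonneg h.adm.1 t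

/-- `K_S - K = d + b f` -/
theorem l8q_KS_eq (I : L8In) {s : ℕ} (hs : s ≤ I.n) : l9xKS I.LP I.Sm s - I.KC s = I.d s + I.bC s * I.f s := by
  unfold l9xKS L8In.Sm L8In.d L8In.f
  rw [min_eq_left hs]
  show I.hC s + I.bC s * I.S s - I.KC s = _
  ring

/-- **(b)** the change of reference is of the size of the envelope -/
theorem l8q_KS_le (h : I.Std) {e : ℕ → ℝ} {A Y vt cE M0 : ℝ} (hE : I.Env e A Y vt cE) (hb : ∀ t, I.bC t ≤ M0) {s : ℕ} (hs : s ≤ I.n) (hv : I.v s ≤ vt) :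
    |l9xKS I.LP I.Sm s - I.KC s| ≤ (A * I.lam * max (I.v s) Y ^ 2 + M0 * A) * e s := by
  rw [l8q_KS_eq I hs]
  have h1 := hE.d_le s hs hv
  have h2 := hE.f_le s hs hv
  have h3 : |I.d s| ≤ A * I.lam * max (I.v s) Y ^ 2 * e s := (le_add_of_nonneg_right (abs_nonneg _)).trans h1
  have h4 : |I.bC s * I.f s| ≤ M0 * (A * e s) := by
    rw [abs_mul, abs_of_nonneg (l8q_bC_nonneg h s)]
    exact mul_le_mul (hb s) h2 (abs_nonneg _) ((l8q_bC_nonneg h s).trans (hb s))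
  calc |I.d s + I.bC s * I.f s| ≤ |I.d s| + |I.bC s * I.f s| := abs_add_le _ _
    _ ≤ A * I.lam * max (I.v s) Y ^ 2 * e s + M0 * (A * e s) := add_le_add h3 h4
    _ = _ := by ring

/-! the context at `K_S` -/

theorem l8q_XS_mat (I : L8In) : llMat (l9xPS I.LP I.Sm) = llMat I.LP := (l9x_ref_mat I.LP _).symm

theorem l8q_XS_N (I : L8In) (tl : Bool) : (I.XS tl).N = I.n := l9x_ref_len _ _

theorem l8q_XS_nu (I : L8In) (tl : Bool) : (I.XS tl).nu = (I.X tl).nu := by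
  show llNu I.m I.a (l9xPS I.LP I.Sm) (l8dTl I tl) = llNu I.m I.a I.LP (l8dTl I tl)
  have e : llMv (l8dTl I tl) (l9xPS I.LP I.Sm) = llMv (l8dTl I tl) I.LP := l2ri_mv_eq (l9x_ref_mat I.LP _) _
  unfold llNu
  rw [e]

theorem l8q_XS_adm (h : I.Std) : LlStpAdm I.a (l9xPS I.LP I.Sm) := l9x_ps_adm h.adm (l8q_cen h)

theorem l8q_XS_law (h : I.Std) (tl : Bool) : (I.XS tl).Law (llMs I.a I.LP) := by
  have := ll2_law I.m h.a_pos (l8q_XS_adm h) (l8dTl I tl)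
  have e : llMs I.a (l9xPS I.LP I.Sm) = llMs I.a I.LP := l2ri_ms_eq I.a (l9x_ref_mat I.LP _)
  rw [e] at this
  exact this

/-- at the reference `K_S` the insertion is `J = b (Q^* - S)` -/
theorem l8q_J (h : I.Std) (tl : Bool) (N t : ℕ) (σ : ℕ → SkCfg I.m) :
    (I.XS tl).J (trPair N t) σ 0 1 = I.bC t * ((I.X tl).msk t * (I.X tl).ov (σ 0) (σ 1) - I.Sm t) := by
  have e1 : (I.XS tl).KC t = l9xKS I.LP I.Sm t := l9x_ps_KC (l8q_cen h) t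
  have e2 : (I.XS tl).hC t = I.hC t := by
    show skCumH (llMat (l9xPS I.LP I.Sm)) t = _
    rw [l8q_XS_mat]; rfl
  have e3 : (I.XS tl).bC t = I.bC t := by
    show skCumB (llMat (l9xPS I.LP I.Sm)) t = _
    rw [l8q_XS_mat]; rfl
  have e4 : trPair N t 0 1 = t := by simp [trPair]
  unfold JtCtx.J JtCtx.Qs
  rw [e4, e1, e2, e3]
  unfold l9xKS
  show I.hC t + I.bC t * ((I.X tl).msk t * (I.X tl).ov (σ 0) (σ 1)) - (I.hC t + I.bC t * I.Sm t) = _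
  ring

/-- **(c1)** `|J| ≤ 2 M0` -/
theorem l8q_J_bd (h : I.Std) {M0 : ℝ} (hb : ∀ t, I.bC t ≤ M0) (tl : Bool) (t : ℕ) (σ : ℕ → SkCfg I.m) :
    |(I.XS tl).J (trPair (I.XS tl).N t) σ 0 1| ≤ 2 * M0 := by
  rw [l8q_J h, abs_mul, abs_of_nonneg (l8q_bC_nonneg h t)]
  have hX := l8d_law h tl
  have h1 : |(I.X tl).msk t * (I.X tl).ov (σ 0) (σ 1)| ≤ 1 := by
    rw [abs_mul]
    have := hX.ov_abs (σ 0) (σ 1)
    rcases hX.msk t with e | e <;> rw [e] <;> simp [this]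
  have h2 := (l8q_cen h).nn t
  have h3 := (l8q_cen h).le t
  have h4 : |(I.X tl).msk t * (I.X tl).ov (σ 0) (σ 1) - I.Sm t| ≤ 2 := by
    rw [abs_le] at h1 ⊢
    constructor <;> linarith [h1.1, h1.2]
  have h5 := l8q_bC_nonneg h t
  nlinarith [hb t]

/-- **(c2)** moments of `J` at every cut of mass `≤ vt` (masked cuts: mass `≤ Y`) -/
theorem l8q_J_mom (h : I.Std) {tl : Bool} {e : ℕ → ℝ} {A Y Zh vt vp cE M0 : ℝ} {pm jm : ℕ} (hE : I.Env e A Y vt cE) (hNum : I.Num A Y Zh vt)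
    (hR : I.Rnd tl e A Y Zh vt vp pm jm) (hpm : 1 ≤ pm) (hA : 0 ≤ A) (he : ∀ t ≤ I.n, 0 ≤ e t) (hb : ∀ t, I.bC t ≤ M0)
    (hjs : tl = true → ∀ t ≤ I.js, I.v t ≤ Y) {t : ℕ} (ht : t ≤ I.n) (hv : I.v t ≤ vt) {k : ℕ} (hk1 : 1 ≤ k) (hk : k ≤ 2 * pm) :
    (I.XS tl).nu 2 (trPair (I.XS tl).N t) (fun σ => |(I.XS tl).J (trPair (I.XS tl).N t) σ 0 1| ^ k) ≤ (2 * M0 * A * e t) ^ k := by
  have hX := l8d_law h tl
  have hb0 := l8q_bC_nonneg h t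
  have hM0 : 0 ≤ M0 := hb0.trans (hb t)
  have hAe : 0 ≤ A * e t := mul_nonneg hA (he t ht)
  have hSm : I.Sm t = I.S t := by unfold L8In.Sm; rw [min_eq_left ht]
  rw [l8q_XS_nu, l8q_XS_N]
  have eJ : (fun σ : ℕ → SkCfg I.m => |(I.XS tl).J (trPair I.n t) σ 0 1| ^ k)
      = fun σ => I.bC t ^ k * |(I.X tl).msk t * (I.X tl).ov (σ 0) (σ 1) - I.Sm t| ^ k := by
    funext σ
    rw [l8q_J h, abs_mul, mul_pow, abs_of_nonneg hb0]
  rw [eJ, hX.nu.const_mul]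
  have key : (I.X tl).nu 2 (trPair I.n t) (fun σ => |(I.X tl).msk t * (I.X tl).ov (σ 0) (σ 1) - I.Sm t| ^ k) ≤ (2 * (A * e t)) ^ k := by
    by_cases hact : I.act tl t
    · have h1 := l8d_rnd_mom h hR hpm hact hv hk
      unfold l9sMom at h1
      simp only [l8d_Dl_pair] at h1
      rw [abs_of_nonneg hAe] at h1
      have h2 := hE.f_le t ht hv
      calc (I.X tl).nu 2 (trPair I.n t) (fun σ => |(I.X tl).msk t * (I.X tl).ov (σ 0) (σ 1) - I.Sm t| ^ k)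
          ≤ (I.X tl).nu 2 (trPair I.n t) (fun σ => 2 ^ (k - 1) * (|(I.X tl).msk t * (I.X tl).ov (σ 0) (σ 1) - (I.X tl).qC t| ^ k + (A * e t) ^ k)) := by
            refine hX.nu.mono 2 _ fun σ => ?_
            have e1 : (I.X tl).msk t * (I.X tl).ov (σ 0) (σ 1) - I.Sm t = ((I.X tl).msk t * (I.X tl).ov (σ 0) (σ 1) - (I.X tl).qC t) + (-I.f t) := by
              rw [hSm]
              show _ = _ - I.q t + -(I.S t - I.q t)
              ring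
            rw [e1]
            calc |(I.X tl).msk t * (I.X tl).ov (σ 0) (σ 1) - (I.X tl).qC t + -I.f t| ^ k
                ≤ (|(I.X tl).msk t * (I.X tl).ov (σ 0) (σ 1) - (I.X tl).qC t| + |I.f t|) ^ k := by
                  refine pow_le_pow_left₀ (abs_nonneg _) ?_ k
                  have := abs_add_le ((I.X tl).msk t * (I.X tl).ov (σ 0) (σ 1) - (I.X tl).qC t) (-I.f t)
                  rwa [abs_neg] at this
              _ ≤ 2 ^ (k - 1) * (|(I.X tl).msk t * (I.X tl).ov (σ 0) (σ 1) - (I.X tl).qC t| ^ k + |I.f t| ^ k) :=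
                  add_pow_le (abs_nonneg _) (abs_nonneg _) k
              _ ≤ _ := by
                  refine mul_le_mul_of_nonneg_left (add_le_add le_rfl (pow_le_pow_left₀ (abs_nonneg _) h2 k)) (by positivity)
        _ = 2 ^ (k - 1) * ((I.X tl).nu 2 (trPair I.n t) (fun σ => |(I.X tl).msk t * (I.X tl).ov (σ 0) (σ 1) - (I.X tl).qC t| ^ k) + (A * e t) ^ k) := by
            rw [hX.nu.const_mul, hX.nu.add, hX.nu.const]
        _ ≤ 2 ^ (k - 1) * ((A * e t) ^ k + (A * e t) ^ k) :=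
            mul_le_mul_of_nonneg_left (add_le_add h1 le_rfl) (by positivity)
        _ ≤ (2 * (A * e t)) ^ k := by
            obtain ⟨j, rfl⟩ : ∃ j, k = j + 1 := ⟨k - 1, by omega⟩
            have e2 : (2 * (A * e t)) ^ (j + 1) = 2 ^ j * ((A * e t) ^ (j + 1) + (A * e t) ^ (j + 1)) := by
              rw [mul_pow, pow_succ (2 : ℝ) j]
              ring
            rw [Nat.add_sub_cancel, e2]
    · have htl : tl = true := by
        by_contra hne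
        exact hact ⟨ht, fun h' => absurd h' hne⟩
      subst htl
      have hjs' : t ≤ I.js := by
        by_contra hne
        exact hact ⟨ht, fun _ => by omega⟩
      have hvY := hjs rfl t hjs'
      have e1 : (fun σ : ℕ → SkCfg I.m => |(I.X true).msk t * (I.X true).ov (σ 0) (σ 1) - I.Sm t| ^ k) = fun _ => I.S t ^ k := by
        funext σ
        rw [l8d_msk_off hjs', zero_mul, zero_sub, abs_neg, hSm, abs_of_nonneg (l8q_S_nonneg h t)]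
      rw [e1, hX.nu.const]
      refine pow_le_pow_left₀ (l8q_S_nonneg h t) ?_ k
      have h2 := hNum.s_le t ht
      rw [hE.low t ht hvY]
      have : A * (I.v t + Y) ≤ A * (Y + Y) := mul_le_mul_of_nonneg_left (by linarith) hA
      linarith
  calc I.bC t ^ k * (I.X tl).nu 2 (trPair I.n t) (fun σ => |(I.X tl).msk t * (I.X tl).ov (σ 0) (σ 1) - I.Sm t| ^ k)
      ≤ M0 ^ k * (2 * (A * e t)) ^ k :=
        mul_le_mul (pow_le_pow_left₀ hb0 (hb t) k) key (hX.nu.nonneg 2 _ fun σ => by positivity) (by positivity)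
    _ = (2 * M0 * A * e t) ^ k := by rw [← mul_pow]; ring_nf

/-- **(c3)** the second moment of `J` at an active cut is `b²` times the integrand of `d7_Q`, `d9_Q`, (D8) -/
theorem l8q_J_sq (h : I.Std) {tl : Bool} {t : ℕ} (ht : I.act tl t) :
    (I.XS tl).nu 2 (trPair (I.XS tl).N t) (fun σ => (I.XS tl).J (trPair (I.XS tl).N t) σ 0 1 ^ 2)
      = I.bC t ^ 2 * I.moF tl t 1 (fun ω => (I.sp tl).Q ω - I.S t) := by
  have hX := l8d_law h tl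
  have hSm : I.Sm t = I.S t := by unfold L8In.Sm; rw [min_eq_left ht.1]
  rw [l8q_XS_nu, l8q_XS_N, l8d_rnd_var h tl ht.1]
  simp only [l8q_J h, mul_pow, l8d_msk_act ht, one_mul, hSm]
  rw [hX.nu.const_mul]

/-- untilted: `ν[J²] = b² D²` -/
theorem l8q_J_sq0 (h : I.Std) {t : ℕ} (ht : t ≤ I.n) :
    (I.XS false).nu 2 (trPair (I.XS false).N t) (fun σ => (I.XS false).J (trPair (I.XS false).N t) σ 0 1 ^ 2) = I.bC t ^ 2 * I.D2 t := by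
  rw [l8q_J_sq h (tl := false) ⟨ht, by simp⟩, l8d_rnd_var h false ht, l8d_D2 h ht]

/-- **(d)** (D8) as the sum of `l9y_t34`: the cuts whose envelope is `≥ x^δ'` have mass `≥ Y` as soon as `Y < x^δ'` -/
theorem l8q_D8_sum (h : I.Std) {e : ℕ → ℝ} {A vt cE C0 δ' : ℝ} (hE : I.Env e A I.Y vt cE) (hD : I.D8 e A C0 δ') (hY : I.Y < I.x ^ δ') :
    ∑ t ∈ (range (I.n + 1)).filter (fun t => I.x ^ δ' ≤ e t), (llMs I.a I.LP t - trPm (llMs I.a I.LP) t) * I.D2 t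
      ≤ A * I.x ^ (-(C0 * δ')) * I.z0 1 * I.Y ^ 2 * I.Z ^ 2 := by
  refine le_trans (le_of_eq ?_) hD
  unfold L8In.int
  rw [Finset.sum_filter, Finset.sum_filter]
  refine Finset.sum_congr rfl fun t ht => ?_
  have htn : t ≤ I.n := by have := Finset.mem_range.1 ht; omega
  have emu : llMs I.a I.LP t - trPm (llMs I.a I.LP) t = I.dv t := l8d_mu I t
  rw [emu]
  by_cases he : I.x ^ δ' ≤ e t
  · have hvY : I.Y ≤ I.v t := by
      by_contra hcon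
      have := hE.low t htn (not_le.1 hcon).le
      linarith
    have hva : I.v t ≤ I.a := by
      have h1 := l8d_v_mono h htn le_rfl
      have e2 : I.v I.n = I.a := by rw [← l8d_ms]; unfold llMs; simp [L8In.n]
      linarith
    rw [if_pos he, if_pos ⟨hvY, hva⟩]
    show I.dv t * I.D2 t = I.dv t * (if I.x ^ δ' ≤ e t then I.D2 t else 0)
    rw [if_pos he]
  · rw [if_neg he]
    split_ifs
    · show 0 = I.dv t * (if I.x ^ δ' ≤ e t then I.D2 t else 0)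
      rw [if_neg he, mul_zero]
    · rfl

theorem l8q_ds_eqns_cite : True := by
  have := @L9Q.j8.eq_1
  have := @l8qEv.eq_1
  have := @L8qCCS.eq_1
  have := @L8qCCD.eq_1
  have := @L8In.Sm.eq_1
  have := @L8In.XS.eq_1
  trivial

end

end Claimed.Agent.R286
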