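import Claimed.Agent.R286.L08.HiCtx

/-!
# Row 286 (S0533), folder L08, file HiKit : KIT of the context `JtCtx.Ok` (LL Prop 8.11, (D15))      (owner helper221; prefix `l8hk_`)

Consequences of `X.Ok a` (`L08/HiCtx.lean`) which the covariance equation (`L08/HiCov*`), the longitudinal equation (`L08/HiLong`) and LL 09 use again and again.  0 sorry.
* tables: `l8hk_tab2_isTr`;
* positive laws (`IsTr` table): `l8hk_nu_mono, _const, _add, _sub, _smul, _nonneg, _abs_le, _cs, _l1_le_l2`, pair marginal `l8hk_marg`;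
* absolute allocation: `l8hk_abs_mono, _congr, _add, _smul, _nonneg, _abs_le, _const`, `l8hk_sum_le_abs, _sum_congr, _sum_smul, _sum_add`, `l8hk_abs_tail` (a function of the first labels comes out of the later attachments);
* row mismatch: `l8hk_J_eq`, `l8hk_J_marg`, `l8hk_J_tail`, truncation `l8hk_trunc`, `l8hk_prod_trunc`, remainder `l8hk_rem_le`.
-/

set_option autoImplicit false

namespace Claimed.Agent.R286

open Finset

/-! ### 1. tables -/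

theorem l8hk_tab2_isTr (N t : ℕ) (ht : t ≤ N + 1) : IsTr N 2 (jtTab2 N t) where
  le := fun x y _ _ => by unfold jtTab2; split_ifs <;> omega
  diag := fun x _ => by simp [jtTab2]
  symm := fun x y _ _ => by simp [jtTab2, eq_comm]
  ultra := fun x y z _ _ _ => by
    unfold jtTab2
    split_ifs <;> simp_all

theorem l8hk_agree_refl (q : ℕ) (τ : JtTopo) : JtAgree q τ τ := fun _ _ _ _ => rfl

theorem l8hk_agree_trans {q q' : ℕ} {τ τ' τ'' : JtTopo} (hq : q ≤ q') (h : JtAgree q τ τ') (h' : JtAgree q' τ' τ'') :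
    JtAgree q τ τ'' := fun x y hx hy => by rw [h' x y (by omega) (by omega), h x y hx hy]

variable {S : Type} {X : JtCtx S} {a : ℝ}

/-! ### 2. positive laws -/

theorem l8hk_nu_mono (h : X.Ok a) {q : ℕ} {τ : JtTopo} (hτ : IsTr X.N q τ) {F G : (ℕ → S) → ℝ} (hFG : ∀ σ, F σ ≤ G σ) :
    X.nu q τ F ≤ X.nu q τ G := by
  obtain ⟨ι, _, p, σ, hp, _, hrep⟩ := h.nu_rep q τ hτ
  rw [hrep, hrep]
  exact Finset.sum_le_sum fun i _ => mul_le_mul_of_nonneg_left (hFG _) (hp i)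

theorem l8hk_nu_const (h : X.Ok a) {q : ℕ} {τ : JtTopo} (hτ : IsTr X.N q τ) (c : ℝ) : X.nu q τ (fun _ => c) = c := by
  obtain ⟨ι, _, p, σ, _, hp1, hrep⟩ := h.nu_rep q τ hτ
  rw [hrep, ← Finset.sum_mul, hp1, one_mul]

theorem l8hk_nu_add (h : X.Ok a) {q : ℕ} {τ : JtTopo} (hτ : IsTr X.N q τ) (F G : (ℕ → S) → ℝ) :
    X.nu q τ (fun σ => F σ + G σ) = X.nu q τ F + X.nu q τ G := by
  obtain ⟨ι, _, p, σ, _, _, hrep⟩ := h.nu_rep q τ hτ
  rw [hrep, hrep, hrep, ← Finset.sum_add_distrib]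
  exact Finset.sum_congr rfl fun i _ => by ring

theorem l8hk_nu_smul (h : X.Ok a) {q : ℕ} {τ : JtTopo} (hτ : IsTr X.N q τ) (c : ℝ) (F : (ℕ → S) → ℝ) :
    X.nu q τ (fun σ => c * F σ) = c * X.nu q τ F := by
  obtain ⟨ι, _, p, σ, _, _, hrep⟩ := h.nu_rep q τ hτ
  rw [hrep, hrep, Finset.mul_sum]
  exact Finset.sum_congr rfl fun i _ => by ring

theorem l8hk_nu_sub (h : X.Ok a) {q : ℕ} {τ : JtTopo} (hτ : IsTr X.N q τ) (F G : (ℕ → S) → ℝ) :
    X.nu q τ (fun σ => F σ - G σ) = X.nu q τ F - X.nu q τ G := by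
  obtain ⟨ι, _, p, σ, _, _, hrep⟩ := h.nu_rep q τ hτ
  rw [hrep, hrep, hrep, ← Finset.sum_sub_distrib]
  exact Finset.sum_congr rfl fun i _ => by ring

theorem l8hk_nu_nonneg (h : X.Ok a) {q : ℕ} {τ : JtTopo} (hτ : IsTr X.N q τ) {F : (ℕ → S) → ℝ} (hF : ∀ σ, 0 ≤ F σ) :
    0 ≤ X.nu q τ F := by
  obtain ⟨ι, _, p, σ, hp, _, hrep⟩ := h.nu_rep q τ hτ
  rw [hrep]
  exact Finset.sum_nonneg fun i _ => mul_nonneg (hp i) (hF _)

theorem l8hk_nu_abs_le (h : X.Ok a) {q : ℕ} {τ : JtTopo} (hτ : IsTr X.N q τ) (F : (ℕ → S) → ℝ) :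
    |X.nu q τ F| ≤ X.nu q τ fun σ => |F σ| := by
  obtain ⟨ι, _, p, σ, hp, _, hrep⟩ := h.nu_rep q τ hτ
  rw [hrep, hrep]
  refine (Finset.abs_sum_le_sum_abs _ _).trans (Finset.sum_le_sum fun i _ => ?_)
  rw [abs_mul, abs_of_nonneg (hp i)]

/-- Cauchy-Schwarz -/
theorem l8hk_nu_cs (h : X.Ok a) {q : ℕ} {τ : JtTopo} (hτ : IsTr X.N q τ) (F G : (ℕ → S) → ℝ) :
    X.nu q τ (fun σ => |F σ| * |G σ|) ≤ Real.sqrt (X.nu q τ fun σ => F σ ^ 2) * Real.sqrt (X.nu q τ fun σ => G σ ^ 2) := by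
  obtain ⟨ι, _, p, σ, hp, _, hrep⟩ := h.nu_rep q τ hτ
  rw [hrep, hrep, hrep]
  have h1 := Real.sum_mul_le_sqrt_mul_sqrt Finset.univ (fun i => Real.sqrt (p i) * |F (σ i)|) fun i => Real.sqrt (p i) * |G (σ i)|
  have e1 : ∀ i, Real.sqrt (p i) * |F (σ i)| * (Real.sqrt (p i) * |G (σ i)|) = p i * (|F (σ i)| * |G (σ i)|) := fun i => by
    have := Real.mul_self_sqrt (hp i)
    calc _ = (Real.sqrt (p i) * Real.sqrt (p i)) * (|F (σ i)| * |G (σ i)|) := by ring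
      _ = _ := by rw [this]
  have e2 : ∀ (H : (ℕ → S) → ℝ) i, (Real.sqrt (p i) * |H (σ i)|) ^ 2 = p i * H (σ i) ^ 2 := fun H i => by
    rw [mul_pow, Real.sq_sqrt (hp i), sq_abs]
  simp only [e1, e2] at h1
  exact h1

/-- `L¹ ≤ L²` -/
theorem l8hk_nu_l1_le_l2 (h : X.Ok a) {q : ℕ} {τ : JtTopo} (hτ : IsTr X.N q τ) (F : (ℕ → S) → ℝ) :
    X.nu q τ (fun σ => |F σ|) ≤ Real.sqrt (X.nu q τ fun σ => F σ ^ 2) := by
  have h1 := l8hk_nu_cs h hτ F fun _ => 1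
  simp only [abs_one, mul_one, one_pow] at h1
  rwa [l8hk_nu_const h hτ, Real.sqrt_one, mul_one] at h1

/-- **pair marginal**: a function of the two labels `c, d` is seen by the law of the pair which shares `τ c d` stages -/
theorem l8hk_marg (h : X.Ok a) {q : ℕ} {τ : JtTopo} (hτ : IsTr X.N q τ) {c d : ℕ} (hc : c < q) (hd : d < q) (F : S → S → ℝ) :
    X.nu q τ (fun σ => F (σ c) (σ d)) = X.nu 2 (jtTab2 X.N (τ c d)) fun σ => F (σ 0) (σ 1) := by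
  have h1 := h.nu_comap q 2 τ (fun x => if x = 0 then c else d) hτ (fun x _ => by split_ifs <;> assumption)
    (fun σ => F (σ 0) (σ 1)) (fun σ σ' hσ => by show F (σ 0) (σ 1) = F (σ' 0) (σ' 1); rw [hσ 0 (by norm_num), hσ 1 (by norm_num)])
  simp only [if_true, one_ne_zero, if_false] at h1
  rw [h1]
  refine h.nu_congr 2 _ _ _ fun x y hx hy => ?_
  have hx' : x = 0 ∨ x = 1 := by omega
  have hy' : y = 0 ∨ y = 1 := by omega
  rcases hx' with rfl | rfl <;> rcases hy' with rfl | rfl <;> simp [jtTab2, hτ.diag c hc, hτ.diag d hd, hτ.symm d c hd hc]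

/-! ### 3. absolute allocation -/

theorem l8hk_abs_mono (h : X.Ok a) {k q : ℕ} {τ : JtTopo} (hτ : IsTr X.N q τ) {Φ Ψ : JtTopo → ℝ}
    (hΦ : ∀ τ', IsTr X.N (q + k) τ' → JtAgree q τ τ' → Φ τ' ≤ Ψ τ') : X.absK k q τ Φ ≤ X.absK k q τ Ψ := by
  obtain ⟨ι, _, A, E, hA, hE, hrep⟩ := h.abs_rep k q τ hτ
  rw [hrep, hrep]
  exact Finset.sum_le_sum fun i _ => mul_le_mul_of_nonneg_left (hΦ _ (hE i).1 (hE i).2) (hA i)

theorem l8hk_abs_congr (h : X.Ok a) {k q : ℕ} {τ : JtTopo} (hτ : IsTr X.N q τ) {Φ Ψ : JtTopo → ℝ}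
    (hΦ : ∀ τ', IsTr X.N (q + k) τ' → JtAgree q τ τ' → Φ τ' = Ψ τ') : X.absK k q τ Φ = X.absK k q τ Ψ :=
  le_antisymm (l8hk_abs_mono h hτ fun τ' h1 h2 => (hΦ τ' h1 h2).le) (l8hk_abs_mono h hτ fun τ' h1 h2 => (hΦ τ' h1 h2).ge)

theorem l8hk_abs_add (h : X.Ok a) {k q : ℕ} {τ : JtTopo} (hτ : IsTr X.N q τ) (Φ Ψ : JtTopo → ℝ) :
    X.absK k q τ (fun τ' => Φ τ' + Ψ τ') = X.absK k q τ Φ + X.absK k q τ Ψ := by
  obtain ⟨ι, _, A, E, _, _, hrep⟩ := h.abs_rep k q τ hτ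
  rw [hrep, hrep, hrep, ← Finset.sum_add_distrib]
  exact Finset.sum_congr rfl fun i _ => by ring

theorem l8hk_abs_smul (h : X.Ok a) {k q : ℕ} {τ : JtTopo} (hτ : IsTr X.N q τ) (c : ℝ) (Φ : JtTopo → ℝ) :
    X.absK k q τ (fun τ' => c * Φ τ') = c * X.absK k q τ Φ := by
  obtain ⟨ι, _, A, E, _, _, hrep⟩ := h.abs_rep k q τ hτ
  rw [hrep, hrep, Finset.mul_sum]
  exact Finset.sum_congr rfl fun i _ => by ring

theorem l8hk_abs_nonneg (h : X.Ok a) {k q : ℕ} {τ : JtTopo} (hτ : IsTr X.N q τ) {Φ : JtTopo → ℝ}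
    (hΦ : ∀ τ', IsTr X.N (q + k) τ' → JtAgree q τ τ' → 0 ≤ Φ τ') : 0 ≤ X.absK k q τ Φ := by
  obtain ⟨ι, _, A, E, hA, hE, hrep⟩ := h.abs_rep k q τ hτ
  rw [hrep]
  exact Finset.sum_nonneg fun i _ => mul_nonneg (hA i) (hΦ _ (hE i).1 (hE i).2)

theorem l8hk_abs_abs_le (h : X.Ok a) {k q : ℕ} {τ : JtTopo} (hτ : IsTr X.N q τ) (Φ : JtTopo → ℝ) :
    |X.absK k q τ Φ| ≤ X.absK k q τ fun τ' => |Φ τ'| := by
  obtain ⟨ι, _, A, E, hA, _, hrep⟩ := h.abs_rep k q τ hτ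
  rw [hrep, hrep]
  refine (Finset.abs_sum_le_sum_abs _ _).trans (Finset.sum_le_sum fun i _ => ?_)
  rw [abs_mul, abs_of_nonneg (hA i)]

/-- the mass bound of `JtCtx.Ok` -/
noncomputable def l8hkMass (a : ℝ) (k q : ℕ) : ℝ := (2 * a) ^ k * ∏ i ∈ range k, ((q : ℝ) + i)

theorem l8hk_mass_nonneg (h : X.Ok a) (k q : ℕ) : 0 ≤ l8hkMass a k q := by
  have := h.a_pos
  unfold l8hkMass
  positivity

theorem l8hk_abs_const (h : X.Ok a) {k q : ℕ} {τ : JtTopo} (hτ : IsTr X.N q τ) {c : ℝ} (hc : 0 ≤ c) :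
    X.absK k q τ (fun _ => c) ≤ l8hkMass a k q * c := by
  have h1 := l8hk_abs_smul h (k := k) hτ c fun _ => 1
  simp only [mul_one] at h1
  rw [h1, mul_comm]
  exact mul_le_mul_of_nonneg_right (h.abs_mass k q τ hτ) hc

/-- a bounded summand -/
theorem l8hk_abs_le_const (h : X.Ok a) {k q : ℕ} {τ : JtTopo} (hτ : IsTr X.N q τ) {Φ : JtTopo → ℝ} {c : ℝ} (hc : 0 ≤ c)
    (hΦ : ∀ τ', IsTr X.N (q + k) τ' → JtAgree q τ τ' → Φ τ' ≤ c) : X.absK k q τ Φ ≤ l8hkMass a k q * c :=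
  (l8hk_abs_mono h hτ hΦ).trans (l8hk_abs_const h hτ hc)

theorem l8hk_sum_le_abs (h : X.Ok a) {k q : ℕ} {τ : JtTopo} (hτ : IsTr X.N q τ) (Φ : JtTopo → ℝ) :
    |X.sumK k q τ Φ| ≤ X.absK k q τ fun τ' => |Φ τ'| := by
  obtain ⟨sg, _, hsg, hs⟩ := h.sum_sign k q
  rw [hs τ Φ hτ]
  refine (l8hk_abs_abs_le h hτ _).trans (l8hk_abs_mono h hτ fun τ' _ _ => ?_)
  rw [abs_mul]
  exact mul_le_of_le_one_left (abs_nonneg _) (hsg τ')

theorem l8hk_sum_congr (h : X.Ok a) {k q : ℕ} {τ : JtTopo} (hτ : IsTr X.N q τ) {Φ Ψ : JtTopo → ℝ}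
    (hΦ : ∀ τ', IsTr X.N (q + k) τ' → JtAgree q τ τ' → Φ τ' = Ψ τ') : X.sumK k q τ Φ = X.sumK k q τ Ψ := by
  obtain ⟨sg, _, _, hs⟩ := h.sum_sign k q
  rw [hs τ Φ hτ, hs τ Ψ hτ]
  exact l8hk_abs_congr h hτ fun τ' h1 h2 => by rw [hΦ τ' h1 h2]

theorem l8hk_sum_smul (h : X.Ok a) {k q : ℕ} {τ : JtTopo} (hτ : IsTr X.N q τ) (c : ℝ) (Φ : JtTopo → ℝ) :
    X.sumK k q τ (fun τ' => c * Φ τ') = c * X.sumK k q τ Φ := by
  obtain ⟨sg, _, _, hs⟩ := h.sum_sign k q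
  rw [hs τ _ hτ, hs τ Φ hτ, ← l8hk_abs_smul h hτ]
  exact l8hk_abs_congr h hτ fun τ' _ _ => by ring

theorem l8hk_sum_add (h : X.Ok a) {k q : ℕ} {τ : JtTopo} (hτ : IsTr X.N q τ) (Φ Ψ : JtTopo → ℝ) :
    X.sumK k q τ (fun τ' => Φ τ' + Ψ τ') = X.sumK k q τ Φ + X.sumK k q τ Ψ := by
  obtain ⟨sg, _, _, hs⟩ := h.sum_sign k q
  rw [hs τ _ hτ, hs τ Φ hτ, hs τ Ψ hτ, ← l8hk_abs_add h hτ]
  exact l8hk_abs_congr h hτ fun τ' _ _ => by ring

/-- a nonnegative function of the first `q + k` labels comes out of the `l` later attachments, at the price of their mass -/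
theorem l8hk_abs_tail (h : X.Ok a) {k l q : ℕ} {τ : JtTopo} (hτ : IsTr X.N q τ) {g : JtTopo → ℝ} (hg : JtLoc (q + k) g)
    (hg0 : ∀ τ', 0 ≤ g τ') : X.absK (k + l) q τ g ≤ l8hkMass a l (q + k) * X.absK k q τ g := by
  rw [h.abs_add k l q τ g, ← l8hk_abs_smul h hτ]
  refine l8hk_abs_mono h hτ fun τ' hτ' _ => ?_
  have h1 : X.absK l (q + k) τ' g = X.absK l (q + k) τ' fun _ => g τ' :=
    l8hk_abs_congr h hτ' fun τ'' _ h2 => (hg τ' τ'' h2).symm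
  rw [h1]
  exact l8hk_abs_const h hτ' (hg0 τ')

/-! ### 4. the row mismatch -/

/-- the row mismatch as a function of the level and of the two spins -/
def JtCtx.Jf (X : JtCtx S) (t : ℕ) (s s' : S) : ℝ := X.hC t + X.bC t * (X.msk t * X.ov s s') - X.KC t

theorem l8hk_J_eq (τ : JtTopo) (σ : ℕ → S) (c d : ℕ) : X.J τ σ c d = X.Jf (τ c d) (σ c) (σ d) := rfl

theorem l8hk_J_tab2 (t : ℕ) (σ : ℕ → S) : X.J (jtTab2 X.N t) σ 0 1 = X.Jf t (σ 0) (σ 1) := by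
  rw [l8hk_J_eq]; simp [jtTab2]

/-- pair marginal of a function of one row mismatch -/
theorem l8hk_J_marg (h : X.Ok a) {q : ℕ} {τ : JtTopo} (hτ : IsTr X.N q τ) {c d : ℕ} (hc : c < q) (hd : d < q) (φ : ℝ → ℝ) :
    X.nu q τ (fun σ => φ (X.J τ σ c d)) = X.nu 2 (jtTab2 X.N (τ c d)) fun σ => φ (X.J (jtTab2 X.N (τ c d)) σ 0 1) := by
  simp only [l8hk_J_eq]
  exact l8hk_marg h hτ hc hd fun s s' => φ (X.Jf (τ c d) s s')

theorem l8hk_Sf_abs_le (h : X.Ok a) {t : ℕ} (ht : t ≤ X.N + 1) : |X.Sf t| ≤ 1 := by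
  have hτ := l8hk_tab2_isTr X.N t ht
  refine (l8hk_nu_abs_le h hτ _).trans ?_
  rw [← l8hk_nu_const h hτ 1]
  exact l8hk_nu_mono h hτ fun σ => h.ov_bd _ _

theorem l8hk_dl_abs_le (h : X.Ok a) {τ : JtTopo} {c d : ℕ} (ht : τ c d ≤ X.N + 1) (σ : ℕ → S) : |X.dl τ σ c d| ≤ 2 := by
  unfold JtCtx.dl
  have h1 := h.ov_bd (σ c) (σ d)
  have h2 := l8hk_Sf_abs_le h ht
  rw [abs_le] at *
  constructor <;> linarith [h1.1, h1.2, h2.1, h2.2]

/-- `J = b δ + (b f + d)` in the untilted ensemble -/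
theorem l8hk_J_split (hm : ∀ t, X.msk t = 1) (τ : JtTopo) (σ : ℕ → S) (c d : ℕ) :
    X.J τ σ c d = X.bC (τ c d) * X.dl τ σ c d + X.ph (τ c d) := by
  unfold JtCtx.J JtCtx.Qs JtCtx.dl JtCtx.ph
  rw [hm]; ring

theorem l8hk_ph_eq (t : ℕ) : X.ph t = X.bC t * X.ff t + X.dd t := by
  unfold JtCtx.ph JtCtx.ff JtCtx.dd; ring

/-- `ν[δ] = 0` -/
theorem l8hk_nu_dl (h : X.Ok a) {q : ℕ} {τ : JtTopo} (hτ : IsTr X.N q τ) {c d : ℕ} (hc : c < q) (hd : d < q) :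
    X.nu q τ (fun σ => X.dl τ σ c d) = 0 := by
  unfold JtCtx.dl
  rw [l8hk_nu_sub h hτ, l8hk_nu_const h hτ, l8hk_marg h hτ hc hd fun s s' => X.ov s s']
  exact sub_self _

/-- `ν[J] = b f + d` -/
theorem l8hk_nu_J (h : X.Ok a) (hm : ∀ t, X.msk t = 1) {q : ℕ} {τ : JtTopo} (hτ : IsTr X.N q τ) {c d : ℕ} (hc : c < q) (hd : d < q) :
    X.nu q τ (fun σ => X.J τ σ c d) = X.ph (τ c d) := by
  simp only [l8hk_J_split hm]
  rw [l8hk_nu_add h hτ, l8hk_nu_smul h hτ, l8hk_nu_dl h hτ hc hd, l8hk_nu_const h hτ]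
  ring

/-- `ν[δ²] = D²` at the level of the pair -/
theorem l8hk_nu_dl_sq (h : X.Ok a) {q : ℕ} {τ : JtTopo} (hτ : IsTr X.N q τ) {c d : ℕ} (hc : c < q) (hd : d < q) :
    X.nu q τ (fun σ => X.dl τ σ c d ^ 2) = X.D2 (τ c d) := by
  unfold JtCtx.dl JtCtx.D2
  exact l8hk_marg h hτ hc hd fun s s' => (X.ov s s' - X.Sf (τ c d)) ^ 2

theorem l8hk_D2_nonneg (h : X.Ok a) {t : ℕ} (ht : t ≤ X.N + 1) : 0 ≤ X.D2 t :=
  l8hk_nu_nonneg h (l8hk_tab2_isTr X.N t ht) fun _ => sq_nonneg _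

/-- bound of the row mismatch -/
theorem l8hk_Jf_abs_le (h : X.Ok a) (hm : ∀ t, X.msk t = 1) {bb Cp : ℝ} {t : ℕ} (ht : t ≤ X.N + 1) (hb : |X.bC t| ≤ bb)
    (hp : |X.ph t| ≤ Cp) (s s' : S) : |X.Jf t s s'| ≤ 2 * bb + Cp := by
  have e : X.Jf t s s' = X.bC t * (X.ov s s' - X.Sf t) + X.ph t := by
    unfold JtCtx.Jf JtCtx.ph; rw [hm]; ring
  have h1 := h.ov_bd s s'
  have h2 := l8hk_Sf_abs_le h ht
  have h3 : |X.ov s s' - X.Sf t| ≤ 2 := by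
    rw [abs_le] at *
    constructor <;> linarith [h1.1, h1.2, h2.1, h2.2]
  rw [e]
  refine (abs_add_le _ _).trans ?_
  rw [abs_mul]
  have := mul_le_mul hb h3 (abs_nonneg _) ((abs_nonneg _).trans hb)
  linarith

/-- truncation of one bounded number -/
theorem l8hk_trunc {x es C : ℝ} (hes : 0 ≤ es) (hx : |x| ≤ C) : |x| ≤ es + C * (if es < |x| then 1 else 0) := by
  split_ifs with h1
  · linarith
  · push Not at h1; linarith

/-- truncation of a product of bounded numbers -/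
theorem l8hk_prod_trunc {ι : Type} (s : Finset ι) (x : ι → ℝ) {es C : ℝ} (hes : 0 ≤ es) (hx : ∀ i ∈ s, |x i| ≤ C) :
    ∏ i ∈ s, |x i| ≤ es ^ s.card + C ^ s.card * ∑ i ∈ s, (if es < |x i| then (1 : ℝ) else 0) := by
  have hsum : 0 ≤ ∑ i ∈ s, (if es < |x i| then (1 : ℝ) else 0) := Finset.sum_nonneg fun i _ => by split_ifs <;> norm_num
  by_cases hall : ∀ i ∈ s, |x i| ≤ es
  · have h1 : ∏ i ∈ s, |x i| ≤ es ^ s.card := by
      rw [← Finset.prod_const]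
      exact Finset.prod_le_prod (fun i _ => abs_nonneg _) hall
    rcases s.eq_empty_or_nonempty with rfl | ⟨i0, hi0⟩
    · simp
    · have hC : 0 ≤ C := (abs_nonneg _).trans (hx i0 hi0)
      have := mul_nonneg (pow_nonneg hC s.card) hsum
      linarith
  · push Not at hall
    obtain ⟨i0, hi0, h0⟩ := hall
    have hC : 0 ≤ C := (abs_nonneg _).trans (hx i0 hi0)
    have h1 : ∏ i ∈ s, |x i| ≤ C ^ s.card := by
      rw [← Finset.prod_const]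
      exact Finset.prod_le_prod (fun i _ => abs_nonneg _) hx
    have h2 : (1 : ℝ) ≤ ∑ i ∈ s, (if es < |x i| then (1 : ℝ) else 0) := by
      have := Finset.single_le_sum (f := fun i => if es < |x i| then (1 : ℝ) else 0) (fun i _ => by split_ifs <;> norm_num) hi0
      simpa [h0] using this
    have h3 := mul_le_mul_of_nonneg_left h2 (pow_nonneg hC s.card)
    have h4 := pow_nonneg hes s.card
    linarith

/-- the indicator `off` is `0` or `1`; in the second case all the inserted pairs consist of distinct leaves -/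
theorem l8hk_off_cases (X : JtCtx S) (q n : ℕ) (τ : JtTopo) :
    X.off q n τ = 0 ∨ (X.off q n τ = 1 ∧ ∀ i, i < n → τ (jtC q i) (jtD q i) ≤ X.N) := by
  by_cases hall : ∀ i, i < n → τ (jtC q i) (jtD q i) ≤ X.N
  · right
    refine ⟨?_, hall⟩
    unfold JtCtx.off
    exact Finset.prod_eq_one fun i hi => if_pos (hall i (Finset.mem_range.mp hi))
  · left
    push Not at hall
    obtain ⟨i, hi, h1⟩ := hall
    unfold JtCtx.off
    exact Finset.prod_eq_zero (Finset.mem_range.mpr hi) (if_neg (by omega))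

theorem l8hk_off_nonneg (X : JtCtx S) (q n : ℕ) (τ : JtTopo) : 0 ≤ X.off q n τ := by
  rcases l8hk_off_cases X q n τ with h | h
  · rw [h]
  · rw [h.1]; norm_num

theorem l8hk_off_le_one (X : JtCtx S) (q n : ℕ) (τ : JtTopo) : X.off q n τ ≤ 1 := by
  rcases l8hk_off_cases X q n τ with h | h
  · rw [h]; norm_num
  · rw [h.1]

/-- hypotheses on the row mismatch: bound and tail ((D11)) -/
structure L8HkJ (X : JtCtx S) (CJ es etaT : ℝ) : Prop where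
  es_nonneg : 0 ≤ es
  CJ_nonneg : 0 ≤ CJ
  bd : ∀ t s s', t ≤ X.N → |X.Jf t s s'| ≤ CJ
  tail : ∀ t, t ≤ X.N → X.nu 2 (jtTab2 X.N t) (fun σ => if es < |X.J (jtTab2 X.N t) σ 0 1| then 1 else 0) ≤ etaT

/-- tail of one inserted pair under the law of a big tree -/
theorem l8hk_J_tail (h : X.Ok a) {CJ es etaT : ℝ} (hJ : L8HkJ X CJ es etaT) {q : ℕ} {τ : JtTopo} (hτ : IsTr X.N q τ) {c d : ℕ}
    (hc : c < q) (hd : d < q) (hcd : τ c d ≤ X.N) : X.nu q τ (fun σ => if es < |X.J τ σ c d| then 1 else 0) ≤ etaT := by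
  rw [l8hk_J_marg h hτ hc hd fun x => if es < |x| then 1 else 0]
  exact hJ.tail _ hcd

theorem l8hk_nu_sum (h : X.Ok a) {q : ℕ} {τ : JtTopo} (hτ : IsTr X.N q τ) {ι : Type} (s : Finset ι) (F : ι → (ℕ → S) → ℝ) :
    X.nu q τ (fun σ => ∑ i ∈ s, F i σ) = ∑ i ∈ s, X.nu q τ (F i) := by
  obtain ⟨κ, _, p, σ, _, _, hrep⟩ := h.nu_rep q τ hτ
  simp only [hrep, Finset.mul_sum]
  exact Finset.sum_comm

/-- product of `n` row mismatches under a positive law: all truncated -/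
theorem l8hk_nu_Jprod_le (h : X.Ok a) {CJ es etaT : ℝ} (hJ : L8HkJ X CJ es etaT) {q n : ℕ} {τ : JtTopo}
    (hτ : IsTr X.N (q + 2 * n) τ) (hoff : ∀ i, i < n → τ (jtC q i) (jtD q i) ≤ X.N) :
    X.nu (q + 2 * n) τ (fun σ => |X.Jprod q n τ σ|) ≤ es ^ n + CJ ^ n * (n * etaT) := by
  have h1 : ∀ σ, |X.Jprod q n τ σ| ≤ es ^ n + CJ ^ n * ∑ i ∈ range n, (if es < |X.J τ σ (jtC q i) (jtD q i)| then (1 : ℝ) else 0) := by
    intro σ
    unfold JtCtx.Jprod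
    rw [Finset.abs_prod]
    have := l8hk_prod_trunc (range n) (fun i => X.J τ σ (jtC q i) (jtD q i)) hJ.es_nonneg
      (fun i hi => hJ.bd _ _ _ (hoff i (Finset.mem_range.mp hi)))
    simpa using this
  refine (l8hk_nu_mono h hτ h1).trans ?_
  rw [l8hk_nu_add h hτ, l8hk_nu_const h hτ, l8hk_nu_smul h hτ, l8hk_nu_sum h hτ]
  have h2 : ∑ i ∈ range n, X.nu (q + 2 * n) τ (fun σ => if es < |X.J τ σ (jtC q i) (jtD q i)| then (1 : ℝ) else 0) ≤ n * etaT := by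
    have : ∀ i ∈ range n, X.nu (q + 2 * n) τ (fun σ => if es < |X.J τ σ (jtC q i) (jtD q i)| then (1 : ℝ) else 0) ≤ etaT := by
      intro i hi
      have hi' := Finset.mem_range.mp hi
      exact l8hk_J_tail h hJ hτ (by unfold jtC; omega) (by unfold jtD; omega) (hoff i hi')
    simpa using Finset.sum_le_sum this
  have := mul_le_mul_of_nonneg_left h2 (pow_nonneg hJ.CJ_nonneg n)
  linarith

/-- **the Taylor remainder** of (A7) with a bounded test -/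
theorem l8hk_rem_le (h : X.Ok a) {CJ es etaT : ℝ} (hJ : L8HkJ X CJ es etaT) (heta : 0 ≤ etaT) {q k : ℕ} {τ0 : JtTopo} (hτ0 : IsTr X.N q τ0)
    {P : (ℕ → S) → ℝ} {CP : ℝ} (hP : ∀ σ, |P σ| ≤ CP) :
    X.rem q τ0 P k ≤ l8hkMass a (2 * k) q * (CP * (es ^ k + CJ ^ k * (k * etaT))) := by
  have hb0 : 0 ≤ es ^ k + CJ ^ k * (k * etaT) := by
    have := hJ.es_nonneg
    have := hJ.CJ_nonneg
    positivity
  unfold JtCtx.rem
  by_cases hCP : 0 ≤ CP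
  swap
  · -- no configuration at all
    refine (l8hk_abs_mono h hτ0 (Ψ := fun _ => 0) fun τ hτ _ => ?_).trans ?_
    · obtain ⟨ι, _, p, σ, _, hp1, _⟩ := h.nu_rep _ τ hτ
      exfalso
      rcases isEmpty_or_nonempty ι with hι | ⟨⟨i⟩⟩
      · simp at hp1
      · exact hCP ((abs_nonneg _).trans (hP (σ i)))
    · exfalso
      obtain ⟨ι, _, p, σ, _, hp1, _⟩ := h.nu_rep _ τ0 hτ0
      rcases isEmpty_or_nonempty ι with hι | ⟨⟨i⟩⟩
      · simp at hp1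
      · exact hCP ((abs_nonneg _).trans (hP (σ i)))
  refine l8hk_abs_le_const h hτ0 (mul_nonneg hCP hb0) fun τ hτ _ => ?_
  rcases l8hk_off_cases X q k τ with h0 | ⟨h1, hoff⟩
  · rw [h0, zero_mul]; exact mul_nonneg hCP hb0
  · rw [h1, one_mul]
    refine (l8hk_nu_mono h hτ (G := fun σ => CP * |X.Jprod q k τ σ|) fun σ => mul_le_mul_of_nonneg_right (hP σ) (abs_nonneg _)).trans ?_
    rw [l8hk_nu_smul h hτ]
    exact mul_le_mul_of_nonneg_left (l8hk_nu_Jprod_le h hJ hτ hoff) hCP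

end Claimed.Agent.R286
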