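import Claimed.Agent.R286.L08.LsCh
import Claimed.Agent.R286.Fd.TrA2

/-!
# Row 286 (S0533), folder L08, file LsChS : FLAT CHARTS, the STEP "one more label"      (owner / prover helper105, HEAD of CH; architect helper234; prefix `l8s`)

Two types of new charts only, indexed by `(x, Z, z₀)`, `x < q`, `Z ⊆ range q`, `z₀ ≤ q`:
* FREE (`z₀ = q`): the level `j` of the attachment is not a level `τ x z`: new vertex `last`, reference measure `l8lMu`, `trDeg = 1`;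
* EXISTING (`z₀ < q`): `j = τ x z₀` (`z₀ = x`: coincidence); new vertex unused (atom at `N + 1`); the weight `|trWt|`, divided by the number of `z` with `τ x z = j`, is in the density.
`Z = {z < q : j ≤ τ x z}` (indicator in the density).
-/

set_option autoImplicit false

namespace Claimed.Agent.R286

open Finset

/-! ### 1. weights -/

theorem l8s_mu_nonneg {N : ℕ} {ms : ℕ → ℝ} (hms : IsMs N ms) (l : ℕ) : 0 ≤ l8lMu ms N l := by
  unfold l8lMu
  split_ifs with h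
  · exact sub_nonneg.2 (tra2_pm_le hms h)
  · exact le_rfl

theorem l8s_tele (ms : ℕ → ℝ) (n : ℕ) : ∑ l ∈ range (n + 1), (ms l - trPm ms l) = ms n := by
  induction n with
  | zero => simp [trPm]
  | succ n ih => rw [Finset.sum_range_succ, ih, tra2_pm_succ]; ring

theorem l8s_mu_sum (ms : ℕ → ℝ) (N : ℕ) : ∑ l ∈ range (N + 2), l8lMu ms N l = ms N := by
  rw [Finset.sum_range_succ]
  have h1 : l8lMu ms N (N + 1) = 0 := by
    unfold l8lMu
    rw [if_neg (by omega)]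
  rw [h1, add_zero, ← l8s_tele ms N]
  refine Finset.sum_congr rfl fun l hl => ?_
  unfold l8lMu
  rw [if_pos (by have := Finset.mem_range.1 hl; omega)]

/-- no fork of the path of `x` at the depth `j`: one child -/
theorem l8s_deg_one {N q : ℕ} {τ : ℕ → ℕ → ℕ} (hτ : IsTr N q τ) {x j : ℕ} (hx : x < q) (hj : j ≤ N)
    (h : ∀ z, z < q → τ x z ≠ j) : trDeg q τ j x = 1 := by
  refine le_antisymm ?_ (tra2_deg_pos hτ hx hj)
  rw [tra2_deg_eq_card]
  refine Finset.card_le_one.2 fun a ha b hb => ?_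
  have key : ∀ a ∈ tra2Ch q τ j x, tra2Rp τ (j + 1) x = a := by
    intro a ha
    simp only [tra2Ch, Finset.mem_filter, Finset.mem_range] at ha
    obtain ⟨haq, h1, h2⟩ := ha
    refine tra2_rp_eq hτ hx haq (by omega) ?_ h2
    rw [hτ.symm a x haq hx]
    have := h a haq
    omega
  rw [← key a ha, ← key b hb]

theorem l8s_wt_free {N q : ℕ} {τ : ℕ → ℕ → ℕ} {ms : ℕ → ℝ} (hτ : IsTr N q τ) (hms : IsMs N ms) {x j : ℕ} (hx : x < q)
    (hj : j < N + 2) (h : ∀ z, z < q → τ x z ≠ j) :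
    |trWt ms N q τ x j| = l8lMu ms N j * (if trIsMin τ j x then 1 else 0) := by
  have hjN : j ≠ N + 1 := fun e => h x hx (by rw [hτ.diag x hx, e])
  have hjN' : j ≤ N := by omega
  unfold trWt
  split_ifs with h1
  · rw [l8s_deg_one hτ hx hjN' h, mul_one]
    unfold l8lMu
    rw [if_pos hjN', Nat.cast_one, one_mul, abs_sub_comm, abs_of_nonneg (sub_nonneg.2 (tra2_pm_le hms hjN'))]
  · simp

theorem l8s_pm_nonneg {N : ℕ} {ms : ℕ → ℝ} (hms : IsMs N ms) (j : ℕ) : 0 ≤ trPm ms j := by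
  unfold trPm
  split_ifs
  · exact le_rfl
  · exact hms.nonneg _

theorem l8s_wt_le {N : ℕ} {ms : ℕ → ℝ} (hms : IsMs N ms) (q : ℕ) (τ : ℕ → ℕ → ℕ) (x : ℕ) {j : ℕ} (hj : j ≤ N + 1) :
    |trWt ms N q τ x j| ≤ ((q : ℝ) + 1) * ms N := by
  have h0 : 0 ≤ ms N := hms.nonneg N
  have hq : (0 : ℝ) ≤ q := Nat.cast_nonneg q
  unfold trWt
  split_ifs with h1 h2
  · rw [abs_of_nonneg h0]
    nlinarith
  · have hjN : j ≤ N := by omega
    have a1 : trPm ms j ≤ ms N := (tra2_pm_le hms hjN).trans (hms.mono j N hjN le_rfl)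
    have a2 : 0 ≤ trPm ms j := l8s_pm_nonneg hms j
    have a3 : ms j ≤ ms N := hms.mono j N hjN le_rfl
    have a4 : 0 ≤ ms j := hms.nonneg j
    have a5 : ((trDeg q τ j x : ℕ) : ℝ) ≤ q := by
      have : trDeg q τ j x ≤ q := by
        unfold trDeg
        exact (Finset.card_filter_le _ _).trans (by simp)
      exact_mod_cast this
    have a6 : (0 : ℝ) ≤ (trDeg q τ j x : ℕ) := Nat.cast_nonneg _
    have a7 : ((trDeg q τ j x : ℕ) : ℝ) * ms j ≤ q * ms N := mul_le_mul a5 a3 a4 hq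
    have a8 : 0 ≤ ((trDeg q τ j x : ℕ) : ℝ) * ms j := mul_nonneg a6 a4
    rw [abs_le]
    constructor <;> nlinarith
  · rw [abs_zero]
    positivity

/-! ### 2. splitting of the sum over the level of the attachment -/

theorem l8s_split {N q : ℕ} {τ : ℕ → ℕ → ℕ} {ms : ℕ → ℝ} (hτ : IsTr N q τ) (hms : IsMs N ms) {x : ℕ} (hx : x < q)
    (Ψ : ℕ → ℝ) :
    ∑ j ∈ range (N + 2), |trWt ms N q τ x j| * Ψ j
      = ∑ j ∈ range (N + 2), l8lMu ms N j * (if trIsMin τ j x ∧ ∀ z, z < q → τ x z ≠ j then 1 else 0) * Ψ j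
        + ∑ z₀ ∈ range q, |trWt ms N q τ x (τ x z₀)| / (((range q).filter fun z => τ x z = τ x z₀).card : ℝ) * Ψ (τ x z₀) := by
  set I := (range q).image (fun z => τ x z) with hI
  have hIs : (range (N + 2)).filter (fun j => j ∈ I) = I := by
    ext j
    simp only [Finset.mem_filter, Finset.mem_range, and_iff_right_iff_imp]
    intro hj
    obtain ⟨z, hz, rfl⟩ := Finset.mem_image.1 hj
    have := hτ.le x z hx (Finset.mem_range.1 hz)
    omega
  rw [← Finset.sum_filter_add_sum_filter_not (range (N + 2)) (fun j => j ∈ I), hIs, add_comm]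
  congr 1
  · rw [Finset.sum_filter]
    refine Finset.sum_congr rfl fun j hj => ?_
    by_cases hjI : j ∈ I
    · rw [if_neg (not_not.2 hjI)]
      obtain ⟨z, hz, hzj⟩ := Finset.mem_image.1 hjI
      rw [if_neg (fun h => h.2 z (Finset.mem_range.1 hz) hzj)]
      simp
    · rw [if_pos hjI]
      have hno : ∀ z, z < q → τ x z ≠ j := fun z hz e => hjI (Finset.mem_image.2 ⟨z, Finset.mem_range.2 hz, e⟩)
      rw [l8s_wt_free hτ hms hx (Finset.mem_range.1 hj) hno]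
      by_cases hm : trIsMin τ j x
      · rw [if_pos hm, if_pos ⟨hm, hno⟩]
      · rw [if_neg hm, if_neg (fun h => hm h.1)]
  · have h := Finset.sum_comp (s := range q)
      (fun j => |trWt ms N q τ x j| / (((range q).filter fun z => τ x z = j).card : ℝ) * Ψ j) (fun z => τ x z)
    rw [h]
    refine Finset.sum_congr rfl fun j hj => ?_
    obtain ⟨z, hz, hzj⟩ := Finset.mem_image.1 hj
    have hc : (((range q).filter fun z => τ x z = j).card : ℝ) ≠ 0 := by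
      have : 0 < ((range q).filter fun z => τ x z = j).card :=
        Finset.card_pos.2 ⟨z, Finset.mem_filter.2 ⟨hz, hzj⟩⟩
      exact_mod_cast this.ne'
    rw [nsmul_eq_mul]
    field_simp

/-! ### 3. the new charts -/

/-- the level of the attachment: the new coordinate (FREE) or the level of the pair `(x, z₀)` (EXISTING) -/
def l8sJ (q : ℕ) (τ : ℕ → ℕ → ℕ) (x z₀ l : ℕ) : ℕ := if z₀ = q then l else τ x z₀

/-- reference measure of the new vertex -/
noncomputable def l8sM (N q : ℕ) (mu : ℕ → ℝ) (z₀ : ℕ) : ℕ → ℝ := if z₀ = q then mu else fun l => if l = N + 1 then 1 else 0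

/-- the density of the new chart with respect to the old one -/
noncomputable def l8sDen (ms : ℕ → ℝ) (N q : ℕ) (τ : ℕ → ℕ → ℕ) (x : ℕ) (Z : Finset ℕ) (z₀ l : ℕ) : ℝ :=
  if Z = (range q).filter (fun z => l8sJ q τ x z₀ l ≤ τ x z) then
    (if z₀ = q then (if l < N + 2 ∧ trIsMin τ l x ∧ ∀ z, z < q → τ x z ≠ l then 1 else 0)
     else (if l = N + 1 then |trWt ms N q τ x (τ x z₀)| / (((range q).filter fun z => τ x z = τ x z₀).card : ℝ) else 0))
  else 0

/-- index of the pair (new label, `w`) -/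
def l8sNew {nv : ℕ} (q : ℕ) (Ch : L8LCh nv) (x : ℕ) (Z : Finset ℕ) (z₀ w : ℕ) : Fin (nv + 1) :=
  if w ∈ Z then (if z₀ = q then Fin.last nv else (Ch.vtx x z₀).castSucc) else (Ch.vtx x w).castSucc

/-- the new chart -/
noncomputable def l8sCh {nv : ℕ} (N q : ℕ) (mu : ℕ → ℝ) (Ch : L8LCh nv) (x : ℕ) (Z : Finset ℕ) (z₀ : ℕ) : L8LCh (nv + 1) where
  vtx u w := if u = q then (if w = q then (Ch.vtx x x).castSucc else l8sNew q Ch x Z z₀ w)
    else if w = q then l8sNew q Ch x Z z₀ u else (Ch.vtx u w).castSucc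
  mm := Fin.snoc (α := fun _ => ℕ → ℝ) Ch.mm (l8sM N q mu z₀)
  L := N + 2

/-- the old coordinates -/
def l8sIn {nv : ℕ} (co' : Fin (nv + 1) → ℕ) : Fin nv → ℕ := fun v => co' v.castSucc

theorem l8s_eqns_cite : True := by
  have := @l8sJ.eq_1
  have := @l8sM.eq_1
  have := @l8sDen.eq_1
  have := @l8sNew.eq_1
  have := @l8sCh.eq_1
  have := @l8sIn.eq_1
  trivial

theorem l8s_M_nonneg {N q : ℕ} {mu : ℕ → ℝ} (hmu : ∀ l, 0 ≤ mu l) (z₀ l : ℕ) : 0 ≤ l8sM N q mu z₀ l := by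
  unfold l8sM
  by_cases h : z₀ = q
  · rw [if_pos h]; exact hmu l
  · rw [if_neg h]
    show (0 : ℝ) ≤ if l = N + 1 then 1 else 0
    split_ifs
    · exact zero_le_one
    · exact le_rfl

/-- the pointwise identity: the sum over the level = sum over the types and the new coordinate -/
theorem l8s_point {N q : ℕ} {τ : ℕ → ℕ → ℕ} {ms : ℕ → ℝ} (hτ : IsTr N q τ) (hms : IsMs N ms) {x : ℕ} (hx : x < q)
    (Ψ : ℕ → ℝ) :
    ∑ j ∈ range (N + 2), |trWt ms N q τ x j| * Ψ j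
      = ∑ Z ∈ (range q).powerset, ∑ z₀ ∈ range (q + 1), ∑ l ∈ range (N + 2),
          l8sM N q (l8lMu ms N) z₀ l * l8sDen ms N q τ x Z z₀ l * Ψ (l8sJ q τ x z₀ l) := by
  rw [Finset.sum_comm]
  have h1 : ∀ z₀ ∈ range (q + 1), ∑ Z ∈ (range q).powerset, ∑ l ∈ range (N + 2),
      l8sM N q (l8lMu ms N) z₀ l * l8sDen ms N q τ x Z z₀ l * Ψ (l8sJ q τ x z₀ l)
      = ∑ l ∈ range (N + 2), l8sM N q (l8lMu ms N) z₀ l *
        (if z₀ = q then (if l < N + 2 ∧ trIsMin τ l x ∧ ∀ z, z < q → τ x z ≠ l then 1 else 0)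
          else (if l = N + 1 then |trWt ms N q τ x (τ x z₀)| / (((range q).filter fun z => τ x z = τ x z₀).card : ℝ) else 0))
        * Ψ (l8sJ q τ x z₀ l) := by
    intro z₀ _
    rw [Finset.sum_comm]
    refine Finset.sum_congr rfl fun l _ => ?_
    unfold l8sDen
    simp only [mul_ite, ite_mul, mul_zero, zero_mul]
    rw [Finset.sum_ite_eq']
    rw [if_pos (Finset.mem_powerset.2 (Finset.filter_subset _ _))]
  rw [Finset.sum_congr rfl h1, l8s_split hτ hms hx Ψ, Finset.sum_range_succ _ q, add_comm]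
  congr 1
  · refine Finset.sum_congr rfl fun z₀ hz₀ => ?_
    have hne : z₀ ≠ q := (Finset.mem_range.1 hz₀).ne
    simp only [l8sM, l8sJ, if_neg hne]
    rw [Finset.sum_eq_single (N + 1)]
    · simp
    · intro l _ hl
      simp [hl]
    · intro h
      exact absurd (Finset.mem_range.2 (by omega)) h
  · refine Finset.sum_congr rfl fun l hl => ?_
    simp only [l8sM, l8sJ, if_true]
    have hl' := Finset.mem_range.1 hl
    congr 2
    by_cases hc : trIsMin τ l x ∧ ∀ z, z < q → τ x z ≠ l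
    · rw [if_pos hc, if_pos ⟨hl', hc⟩]
    · rw [if_neg hc, if_neg (fun h => hc h.2)]

/-! ### 4. the table of a new chart -/

theorem l8s_isTr_congr {N q : ℕ} {τ τ' : ℕ → ℕ → ℕ} (h : IsTr N q τ) (hag : ∀ u w, u < q → w < q → τ' u w = τ u w) :
    IsTr N q τ' :=
  ⟨fun x y hx hy => by rw [hag x y hx hy]; exact h.le x y hx hy,
    fun x hx => by rw [hag x x hx hx]; exact h.diag x hx,
    fun x y hx hy => by rw [hag x y hx hy, hag y x hy hx]; exact h.symm x y hx hy,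
    fun x y z hx hy hz => by rw [hag x y hx hy, hag y z hy hz, hag x z hx hz]; exact h.ultra x y z hx hy hz⟩

section tab
variable {nv N q : ℕ} {mu : ℕ → ℝ} {Ch : L8LCh nv} {x z₀ : ℕ} {Z : Finset ℕ} {co' : Fin (nv + 1) → ℕ}

theorem l8s_new_val (hZ : Z = (range q).filter (fun z => l8sJ q (Ch.tab (l8sIn co')) x z₀ (co' (Fin.last nv)) ≤ Ch.tab (l8sIn co') x z))
    {w : ℕ} (hw : w < q) :
    co' (l8sNew q Ch x Z z₀ w) = min (l8sJ q (Ch.tab (l8sIn co')) x z₀ (co' (Fin.last nv))) (Ch.tab (l8sIn co') x w) := by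
  unfold l8sNew
  by_cases hwZ : w ∈ Z
  · rw [if_pos hwZ]
    have h1 : l8sJ q (Ch.tab (l8sIn co')) x z₀ (co' (Fin.last nv)) ≤ Ch.tab (l8sIn co') x w := by
      rw [hZ] at hwZ
      exact (Finset.mem_filter.1 hwZ).2
    rw [min_eq_left h1]
    unfold l8sJ
    split_ifs
    · rfl
    · rfl
  · rw [if_neg hwZ]
    have h1 : ¬ l8sJ q (Ch.tab (l8sIn co')) x z₀ (co' (Fin.last nv)) ≤ Ch.tab (l8sIn co') x w := by
      intro h
      apply hwZ
      rw [hZ]
      exact Finset.mem_filter.2 ⟨Finset.mem_range.2 hw, h⟩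
    rw [min_eq_right (not_le.1 h1).le]
    rfl

/-- the table of the new chart is the enlarged tree -/
theorem l8s_tab (hτ : IsTr N q (Ch.tab (l8sIn co'))) (hx : x < q)
    (hZ : Z = (range q).filter (fun z => l8sJ q (Ch.tab (l8sIn co')) x z₀ (co' (Fin.last nv)) ≤ Ch.tab (l8sIn co') x z))
    (u w : ℕ) (hu : u < q + 1) (hw : w < q + 1) :
    (l8sCh N q mu Ch x Z z₀).tab co' u w
      = trAtt N q (Ch.tab (l8sIn co')) x (l8sJ q (Ch.tab (l8sIn co')) x z₀ (co' (Fin.last nv))) u w := by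
  show co' ((l8sCh N q mu Ch x Z z₀).vtx u w) = _
  unfold trAtt
  simp only [l8sCh]
  by_cases huq : u = q
  · rw [if_pos huq, if_pos huq]
    by_cases hwq : w = q
    · rw [if_pos hwq, if_pos hwq]
      exact hτ.diag x hx
    · rw [if_neg hwq, if_neg hwq]
      exact l8s_new_val hZ (by omega)
  · rw [if_neg huq, if_neg huq]
    by_cases hwq : w = q
    · rw [if_pos hwq, if_pos hwq, l8s_new_val hZ (by omega), hτ.symm x u hx (by omega)]
    · rw [if_neg hwq, if_neg hwq]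
      rfl

end tab

/-! ### 5. validity of the new chart, weights, box -/

theorem l8s_mm_castSucc {nv : ℕ} (N q : ℕ) (mu : ℕ → ℝ) (Ch : L8LCh nv) (x : ℕ) (Z : Finset ℕ) (z₀ : ℕ) (v : Fin nv) :
    (l8sCh N q mu Ch x Z z₀).mm v.castSucc = Ch.mm v := by
  simp [l8sCh]

theorem l8s_mm_last {nv : ℕ} (N q : ℕ) (mu : ℕ → ℝ) (Ch : L8LCh nv) (x : ℕ) (Z : Finset ℕ) (z₀ : ℕ) :
    (l8sCh N q mu Ch x Z z₀).mm (Fin.last nv) = l8sM N q mu z₀ := by
  simp [l8sCh]

theorem l8s_ok {nv N q : ℕ} {ms : ℕ → ℝ} (hms : IsMs N ms) {Ch : L8LCh nv} {ti : ℕ} {A0 : ℝ}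
    (hCh : Ch.Ok (l8lMu ms N) ti A0) (hL : Ch.L = N + 2) (hA : ms N ≤ A0) (h1 : 1 ≤ A0) (hti : ti ≤ N + 1)
    (x : ℕ) (Z : Finset ℕ) (z₀ : ℕ) : (l8sCh N q (l8lMu ms N) Ch x Z z₀).Ok (l8lMu ms N) ti A0 := by
  refine ⟨?_, ?_, ?_, ?_⟩
  · intro u w
    simp only [l8sCh]
    by_cases hu : u = q
    · by_cases hw : w = q
      · rw [hu, hw]
      · rw [if_pos hu, if_neg hw, if_neg hw, if_pos hu]
    · by_cases hw : w = q
      · rw [if_neg hu, if_pos hw, if_pos hw, if_neg hu]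
      · rw [if_neg hu, if_neg hw, if_neg hw, if_neg hu, hCh.vsymm u w]
  · intro j l
    refine Fin.lastCases ?_ (fun v => ?_) j
    · rw [l8s_mm_last]; exact l8s_M_nonneg (l8s_mu_nonneg hms) z₀ l
    · rw [l8s_mm_castSucc]; exact hCh.nonneg v l
  · intro j
    show ∑ l ∈ range (N + 2), _ ≤ A0
    refine Fin.lastCases ?_ (fun v => ?_) j
    · rw [l8s_mm_last]
      unfold l8sM
      by_cases h : z₀ = q
      · rw [if_pos h, l8s_mu_sum]; exact hA
      · rw [if_neg h]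
        simp only [Finset.sum_ite_eq', Finset.mem_range]
        rw [if_pos (by omega)]
        exact h1
    · rw [l8s_mm_castSucc, ← hL]; exact hCh.mass v
  · intro j l hl
    refine Fin.lastCases ?_ (fun v => ?_) j
    · rw [l8s_mm_last]
      unfold l8sM
      by_cases h : z₀ = q
      · rw [if_pos h]
      · rw [if_neg h]
        show (if l = N + 1 then (1 : ℝ) else 0) ≤ _
        rw [if_neg (by omega)]
        exact l8s_mu_nonneg hms l
    · rw [l8s_mm_castSucc]; exact hCh.low v l hl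

theorem l8s_wt {nv : ℕ} (N q : ℕ) (mu : ℕ → ℝ) (Ch : L8LCh nv) (x : ℕ) (Z : Finset ℕ) (z₀ : ℕ) (co' : Fin (nv + 1) → ℕ) :
    (l8sCh N q mu Ch x Z z₀).wt co' = Ch.wt (l8sIn co') * l8sM N q mu z₀ (co' (Fin.last nv)) := by
  unfold L8LCh.wt
  rw [Fin.prod_univ_castSucc, l8s_mm_last]
  congr 1
  exact Finset.prod_congr rfl fun v _ => by rw [l8s_mm_castSucc]; rfl

theorem l8s_in_snoc {nv : ℕ} (co : Fin nv → ℕ) (l : ℕ) : l8sIn (Fin.snoc (α := fun _ => ℕ) co l) = co := by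
  funext v
  simp [l8sIn]

theorem l8s_box {nv : ℕ} (N q : ℕ) (mu : ℕ → ℝ) (Ch : L8LCh nv) (hL : Ch.L = N + 2) (x : ℕ) (Z : Finset ℕ) (z₀ : ℕ)
    (F : (Fin (nv + 1) → ℕ) → ℝ) :
    ∑ co' ∈ (l8sCh N q mu Ch x Z z₀).box, F co'
      = ∑ co ∈ Ch.box, ∑ l ∈ range (N + 2), F (Fin.snoc (α := fun _ => ℕ) co l) := by
  rw [← Finset.sum_product']
  symm
  refine Finset.sum_bij' (fun p _ => Fin.snoc (α := fun _ => ℕ) p.1 p.2) (fun co' _ => (l8sIn co', co' (Fin.last nv)))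
    ?_ ?_ ?_ ?_ ?_
  · intro p hp
    obtain ⟨h1, h2⟩ := Finset.mem_product.1 hp
    unfold L8LCh.box at h1 ⊢
    rw [Fintype.mem_piFinset] at h1 ⊢
    intro v
    show _ ∈ range (N + 2)
    refine Fin.lastCases ?_ (fun v => ?_) v
    · simpa using Finset.mem_range.1 h2
    · have := h1 v
      rw [hL] at this
      simpa using Finset.mem_range.1 this
  · intro co' hco'
    unfold L8LCh.box at hco'
    rw [Fintype.mem_piFinset] at hco'
    refine Finset.mem_product.2 ⟨?_, hco' _⟩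
    unfold L8LCh.box
    rw [Fintype.mem_piFinset]
    intro v
    rw [hL]
    exact hco' v.castSucc
  · intro p _
    simp [l8s_in_snoc]
  · intro co' _
    exact Fin.snoc_init_self co'
  · intro p _
    rfl

/-! ### 6. the density -/

theorem l8s_den_nonneg (ms : ℕ → ℝ) (N q : ℕ) (τ : ℕ → ℕ → ℕ) (x : ℕ) (Z : Finset ℕ) (z₀ l : ℕ) :
    0 ≤ l8sDen ms N q τ x Z z₀ l := by
  unfold l8sDen
  split_ifs
  · exact zero_le_one
  · exact le_rfl
  · exact div_nonneg (abs_nonneg _) (Nat.cast_nonneg _)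
  · exact le_rfl
  · exact le_rfl

theorem l8s_den_le {N q : ℕ} {τ : ℕ → ℕ → ℕ} {ms : ℕ → ℝ} (hτ : IsTr N q τ) (hms : IsMs N ms) {x z₀ : ℕ} (hx : x < q)
    (hz : z₀ ≤ q) (Z : Finset ℕ) (l : ℕ) : l8sDen ms N q τ x Z z₀ l ≤ 1 + ((q : ℝ) + 1) * ms N := by
  have h0 : 0 ≤ ((q : ℝ) + 1) * ms N := mul_nonneg (by positivity) (hms.nonneg N)
  unfold l8sDen
  split_ifs with h1 h2 h3 h3
  · linarith
  · linarith
  · have hz' : z₀ < q := by omega
    have hc : (1 : ℝ) ≤ (((range q).filter fun z => τ x z = τ x z₀).card : ℝ) := by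
      have : 0 < ((range q).filter fun z => τ x z = τ x z₀).card :=
        Finset.card_pos.2 ⟨z₀, Finset.mem_filter.2 ⟨Finset.mem_range.2 hz', rfl⟩⟩
      exact_mod_cast this
    have := l8s_wt_le hms q τ x (hτ.le x z₀ hx hz')
    have h4 := div_le_self (abs_nonneg (trWt ms N q τ x (τ x z₀))) hc
    linarith
  · linarith
  · linarith

theorem l8s_den_ne {N q : ℕ} {τ : ℕ → ℕ → ℕ} {ms : ℕ → ℝ} (hτ : IsTr N q τ) {x z₀ l : ℕ} {Z : Finset ℕ} (hx : x < q)
    (hz : z₀ ≤ q) (h : l8sDen ms N q τ x Z z₀ l ≠ 0) :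
    Z = (range q).filter (fun z => l8sJ q τ x z₀ l ≤ τ x z) ∧ l8sJ q τ x z₀ l ≤ N + 1 := by
  unfold l8sDen at h
  by_cases h1 : Z = (range q).filter (fun z => l8sJ q τ x z₀ l ≤ τ x z)
  · refine ⟨h1, ?_⟩
    rw [if_pos h1] at h
    unfold l8sJ
    by_cases h2 : z₀ = q
    · rw [if_pos h2] at h ⊢
      by_cases h3 : l < N + 2 ∧ trIsMin τ l x ∧ ∀ z, z < q → τ x z ≠ l
      · have := h3.1; omega
      · rw [if_neg h3] at h; exact absurd rfl h
    · rw [if_neg h2]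
      exact hτ.le x z₀ hx (by omega)
  · rw [if_neg h1] at h; exact absurd rfl h

/-! ### 7. validity of the coordinates -/

theorem l8s_vtx_qw {nv : ℕ} (N q : ℕ) (mu : ℕ → ℝ) (Ch : L8LCh nv) (x : ℕ) (Z : Finset ℕ) (z₀ : ℕ) {w : ℕ} (hw : w ≠ q) :
    (l8sCh N q mu Ch x Z z₀).vtx q w = l8sNew q Ch x Z z₀ w := by
  simp [l8sCh, hw]

theorem l8s_vtx_wq {nv : ℕ} (N q : ℕ) (mu : ℕ → ℝ) (Ch : L8LCh nv) (x : ℕ) (Z : Finset ℕ) (z₀ : ℕ) {w : ℕ} (hw : w ≠ q) :
    (l8sCh N q mu Ch x Z z₀).vtx w q = l8sNew q Ch x Z z₀ w := by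
  simp [l8sCh, hw]

theorem l8s_vtx_old {nv : ℕ} (N q : ℕ) (mu : ℕ → ℝ) (Ch : L8LCh nv) (x : ℕ) (Z : Finset ℕ) (z₀ : ℕ) {u w : ℕ} (hu : u ≠ q)
    (hw : w ≠ q) : (l8sCh N q mu Ch x Z z₀).vtx u w = (Ch.vtx u w).castSucc := by
  simp [l8sCh, hu, hw]

theorem l8s_val {nv N q : ℕ} {mu : ℕ → ℝ} {Ch : L8LCh nv} {t0 ti x z₀ : ℕ} {Z : Finset ℕ} {co' : Fin (nv + 1) → ℕ}
    (hq : 2 ≤ q) (hti : ti ≤ N + 1) (hx : x < q) (hz : z₀ ≤ q) (hval : Ch.Val (IsTr N q) q t0 ti (l8sIn co'))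
    (hZ : Z = (range q).filter (fun z => l8sJ q (Ch.tab (l8sIn co')) x z₀ (co' (Fin.last nv)) ≤ Ch.tab (l8sIn co') x z))
    (hJ : l8sJ q (Ch.tab (l8sIn co')) x z₀ (co' (Fin.last nv)) ≤ N + 1) :
    (l8sCh N q mu Ch x Z z₀).Val (IsTr N (q + 1)) (q + 1) t0 ti co' := by
  have hτ : IsTr N q (Ch.tab (l8sIn co')) := hval.tree
  set τ := Ch.tab (l8sIn co') with hτdef
  set J := l8sJ q τ x z₀ (co' (Fin.last nv)) with hJdef
  set C' := l8sCh N q mu Ch x Z z₀ with hC'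
  have hag : ∀ u w, u < q + 1 → w < q + 1 → C'.tab co' u w = trAtt N q τ x J u w := l8s_tab hτ hx hZ
  have hτ' : IsTr N (q + 1) (C'.tab co') := l8s_isTr_congr (tr_att_isTr hτ hx hJ) hag
  have hold : ∀ u w, u < q → w < q → C'.tab co' u w = τ u w := by
    intro u w hu hw
    rw [hag u w (by omega) (by omega), tr_att_old hu hw]
  have hqw : ∀ w, w < q → C'.tab co' q w = min J (τ x w) := by
    intro w hw
    rw [hag q w (by omega) (by omega)]
    unfold trAtt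
    rw [if_pos rfl, if_neg (by omega)]
  have hwq : ∀ w, w < q → C'.tab co' w q = min J (τ x w) := by
    intro w hw
    rw [hτ'.symm w q (by omega) (by omega), hqw w hw]
  have hqx : C'.tab co' q x = J := by
    rw [hqw x hx, hτ.diag x hx, min_eq_left hJ]
  -- the index of a new pair
  have hnew : ∀ y, y < q → min J (τ x y) < ti → l8sNew q Ch x Z z₀ y = Fin.last nv ∨
      ∃ b, b < q ∧ x ≠ b ∧ l8sNew q Ch x Z z₀ y = (Ch.vtx x b).castSucc := by
    intro y hy hlow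
    unfold l8sNew
    by_cases hyZ : y ∈ Z
    · rw [if_pos hyZ]
      by_cases hzq : z₀ = q
      · left; rw [if_pos hzq]
      · right
        rw [if_neg hzq]
        refine ⟨z₀, by omega, ?_, rfl⟩
        intro e
        have h1 : J ≤ τ x y := by
          rw [hZ] at hyZ
          exact (Finset.mem_filter.1 hyZ).2
        have h2 : J = N + 1 := by
          rw [hJdef]
          unfold l8sJ
          rw [if_neg hzq, ← e, hτ.diag x hx]
        rw [min_eq_left h1] at hlow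
        omega
    · right
      rw [if_neg hyZ]
      refine ⟨y, hy, ?_, rfl⟩
      intro e
      apply hyZ
      rw [hZ]
      refine Finset.mem_filter.2 ⟨Finset.mem_range.2 hy, ?_⟩
      rw [← e, hτ.diag x hx]
      exact hJ
  have anchor : ∀ u w, u < q + 1 → w < q + 1 → u ≠ w → C'.tab co' u w < ti →
      (C'.vtx u w = Fin.last nv ∧ C'.tab co' u w ≤ C'.tab co' u x) ∨
        ∃ a b, a < q ∧ b < q ∧ a ≠ b ∧ C'.vtx u w = (Ch.vtx a b).castSucc ∧ C'.tab co' u w ≤ C'.tab co' u a := by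
    intro u w hu hw huw hlow
    by_cases huq : u = q
    · subst huq
      have hw' : w < u := by omega
      have hv : C'.vtx u w = l8sNew u Ch x Z z₀ w := l8s_vtx_qw N u mu Ch x Z z₀ (by omega)
      have hle : C'.tab co' u w ≤ C'.tab co' u x := by
        rw [hqw w hw', hqx]; exact min_le_left _ _
      rw [hqw w hw'] at hlow
      rcases hnew w hw' hlow with h | ⟨b, hb, hxb, h⟩
      · exact Or.inl ⟨hv.trans h, hle⟩
      · exact Or.inr ⟨x, b, hx, hb, hxb, hv.trans h, hle⟩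
    · have hu' : u < q := by omega
      by_cases hwq' : w = q
      · subst hwq'
        have hv : C'.vtx u w = l8sNew w Ch x Z z₀ u := l8s_vtx_wq N w mu Ch x Z z₀ huq
        have hle : C'.tab co' u w ≤ C'.tab co' u x := by
          rw [hwq u hu', hold u x hu' hx, hτ.symm u x hu' hx]; exact min_le_right _ _
        rw [hwq u hu'] at hlow
        rcases hnew u hu' hlow with h | ⟨b, hb, hxb, h⟩
        · exact Or.inl ⟨hv.trans h, hle⟩
        · exact Or.inr ⟨x, b, hx, hb, hxb, hv.trans h, hle⟩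
      · have hw' : w < q := by omega
        refine Or.inr ⟨u, w, hu', hw', huw, ?_, ?_⟩
        · exact l8s_vtx_old N q mu Ch x Z z₀ huq hwq'
        · rw [hτ'.diag u hu]
          exact hτ'.le u w hu hw
  refine ⟨hτ', ?_, ?_⟩
  · show co' (C'.vtx 0 1) = t0
    have : C'.vtx 0 1 = (Ch.vtx 0 1).castSucc := l8s_vtx_old N q mu Ch x Z z₀ (by omega) (by omega)
    rw [this]
    exact hval.old
  · intro x₁ y₁ x₂ y₂ hx₁ hy₁ hx₂ hy₂ hxy₁ hxy₂ hvv hlow hxx
    show C'.tab co' x₁ y₁ ≤ C'.tab co' x₁ x₂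
    have hlow₁ : C'.tab co' x₁ y₁ < ti := hlow
    have heq : C'.tab co' x₂ y₂ = C'.tab co' x₁ y₁ := by
      show co' (C'.vtx x₂ y₂) = co' (C'.vtx x₁ y₁)
      rw [hvv]
    have hlow₂ : C'.tab co' x₂ y₂ < ti := by rw [heq]; exact hlow₁
    have chain : ∀ a, a < q + 1 → C'.tab co' x₁ y₁ ≤ C'.tab co' x₁ a → C'.tab co' x₁ y₁ ≤ C'.tab co' x₂ a →
        C'.tab co' x₁ y₁ ≤ C'.tab co' x₁ x₂ := by
      intro a ha h1 h2
      have := hτ'.ultra x₁ a x₂ hx₁ ha hx₂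
      rw [hτ'.symm a x₂ ha hx₂] at this
      exact (le_min h1 h2).trans this
    rcases anchor x₁ y₁ hx₁ hy₁ hxy₁ hlow₁ with ⟨hv₁, hl₁⟩ | ⟨a₁, b₁, ha₁, hb₁, hab₁, hv₁, hl₁⟩ <;>
      rcases anchor x₂ y₂ hx₂ hy₂ hxy₂ hlow₂ with ⟨hv₂, hl₂⟩ | ⟨a₂, b₂, ha₂, hb₂, hab₂, hv₂, hl₂⟩
    · exact chain x (by omega) hl₁ (by rw [← heq]; exact hl₂)
    · exfalso
      rw [hv₁, hv₂] at hvv
      exact (Fin.castSucc_lt_last _).ne hvv.symm
    · exfalso
      rw [hv₁, hv₂] at hvv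
      exact (Fin.castSucc_lt_last _).ne hvv
    · rw [heq] at hl₂
      rw [hv₁, hv₂] at hvv
      have hvv' : Ch.vtx a₁ b₁ = Ch.vtx a₂ b₂ := Fin.castSucc_injective _ hvv
      by_cases haa : a₁ = a₂
      · subst haa
        exact chain a₁ (by omega) hl₁ hl₂
      · have hlam : C'.tab co' x₁ y₁ = l8sIn co' (Ch.vtx a₁ b₁) := by
          show co' (C'.vtx x₁ y₁) = _
          rw [hv₁]; rfl
        have h3 := hval.same a₁ b₁ a₂ b₂ ha₁ hb₁ ha₂ hb₂ hab₁ hab₂ hvv' (by rw [← hlam]; exact hlow₁) haa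
        have h4 : C'.tab co' x₁ y₁ ≤ C'.tab co' a₁ a₂ := by
          rw [hold a₁ a₂ ha₁ ha₂, hlam]; exact h3
        have h5 := hτ'.ultra x₁ a₁ a₂ hx₁ (by omega) (by omega)
        exact chain a₂ (by omega) ((le_min hl₁ h4).trans h5) hl₂

/-! ### 8. one old chart -/

theorem l8s_one {nv N q : ℕ} {ms : ℕ → ℝ} (hms : IsMs N ms) (Ch : L8LCh nv) (hL : Ch.L = N + 2) (ρ : (Fin nv → ℕ) → ℝ)
    (hρ : ∀ co, ρ co ≠ 0 → IsTr N q (Ch.tab co)) (Φ : JtTopo → ℝ) (hΦ : JtLoc (q + 1) Φ) :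
    ∑ co ∈ Ch.box, Ch.wt co * ρ co * trAbs ms N q (Ch.tab co) Φ
      = ∑ x ∈ range q, ∑ Z ∈ (range q).powerset, ∑ z₀ ∈ range (q + 1),
          ∑ co' ∈ (l8sCh N q (l8lMu ms N) Ch x Z z₀).box, (l8sCh N q (l8lMu ms N) Ch x Z z₀).wt co' *
            (ρ (l8sIn co') * l8sDen ms N q (Ch.tab (l8sIn co')) x Z z₀ (co' (Fin.last nv))) *
            Φ ((l8sCh N q (l8lMu ms N) Ch x Z z₀).tab co') := by
  have hterm : ∀ co ∈ Ch.box, Ch.wt co * ρ co * trAbs ms N q (Ch.tab co) Φ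
      = ∑ x ∈ range q, ∑ Z ∈ (range q).powerset, ∑ z₀ ∈ range (q + 1), ∑ l ∈ range (N + 2),
          (l8sCh N q (l8lMu ms N) Ch x Z z₀).wt (Fin.snoc (α := fun _ => ℕ) co l) *
            (ρ (l8sIn (Fin.snoc (α := fun _ => ℕ) co l)) *
              l8sDen ms N q (Ch.tab (l8sIn (Fin.snoc (α := fun _ => ℕ) co l))) x Z z₀
                ((Fin.snoc (α := fun _ => ℕ) co l : Fin (nv + 1) → ℕ) (Fin.last nv))) *
            Φ ((l8sCh N q (l8lMu ms N) Ch x Z z₀).tab (Fin.snoc (α := fun _ => ℕ) co l)) := by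
    intro co _
    by_cases hρ0 : ρ co = 0
    · rw [hρ0, mul_zero, zero_mul]
      symm
      refine Finset.sum_eq_zero fun x _ => Finset.sum_eq_zero fun Z _ => Finset.sum_eq_zero fun z₀ _ =>
        Finset.sum_eq_zero fun l _ => ?_
      rw [l8s_in_snoc, hρ0]
      ring
    · have hτ := hρ co hρ0
      unfold trAbs
      rw [Finset.mul_sum]
      refine Finset.sum_congr rfl fun x hx => ?_
      have hx' := Finset.mem_range.1 hx
      rw [l8s_point hτ hms hx' (fun j => Φ (trAtt N q (Ch.tab co) x j)), Finset.mul_sum]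
      refine Finset.sum_congr rfl fun Z _ => ?_
      rw [Finset.mul_sum]
      refine Finset.sum_congr rfl fun z₀ hz₀ => ?_
      have hz₀' : z₀ ≤ q := by have := Finset.mem_range.1 hz₀; omega
      rw [Finset.mul_sum]
      refine Finset.sum_congr rfl fun l _ => ?_
      have e1 : l8sIn (Fin.snoc (α := fun _ => ℕ) co l) = co := l8s_in_snoc co l
      have e2 : (Fin.snoc (α := fun _ => ℕ) co l : Fin (nv + 1) → ℕ) (Fin.last nv) = l := Fin.snoc_last _ _
      rw [l8s_wt, e1, e2]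
      by_cases hd : l8sDen ms N q (Ch.tab co) x Z z₀ l = 0
      · rw [hd]; ring
      · obtain ⟨hZ, -⟩ := l8s_den_ne hτ hx' hz₀' hd
        have hag := l8s_tab (N := N) (mu := l8lMu ms N) (Ch := Ch) (x := x) (z₀ := z₀) (Z := Z)
          (co' := Fin.snoc (α := fun _ => ℕ) co l) (by rw [e1]; exact hτ) hx' (by rw [e1, e2]; exact hZ)
        rw [e1, e2] at hag
        have hΦe : Φ (trAtt N q (Ch.tab co) x (l8sJ q (Ch.tab co) x z₀ l))
            = Φ ((l8sCh N q (l8lMu ms N) Ch x Z z₀).tab (Fin.snoc (α := fun _ => ℕ) co l)) :=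
          hΦ _ _ fun u w hu hw => hag u w hu hw
        rw [← hΦe]
        ring
  rw [Finset.sum_congr rfl hterm, Finset.sum_comm]
  refine Finset.sum_congr rfl fun x _ => ?_
  rw [Finset.sum_comm]
  refine Finset.sum_congr rfl fun Z _ => ?_
  rw [Finset.sum_comm]
  refine Finset.sum_congr rfl fun z₀ _ => ?_
  rw [l8s_box N q (l8lMu ms N) Ch hL x Z z₀]

/-! ### 9. the step -/

/-- **step: one more label** (statement `l8l_ch_step` of `L08/LsCh`) -/
theorem l8l_ch_step_pf (q nv nch : ℕ) (abar : ℝ) : ∃ (nch' : ℕ) (c : ℝ), 0 ≤ c ∧ ∀ (N : ℕ) (ms : ℕ → ℝ) (t0 ti : ℕ) (Cch A0 : ℝ)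
    (𝓐 : (JtTopo → ℝ) → ℝ), IsMs N ms → ms N ≤ abar → abar ≤ A0 → 1 ≤ A0 → ti ≤ N + 1 → 2 ≤ q → 0 ≤ Cch →
    L8LCharted N (l8lMu ms N) t0 ti q nv nch Cch A0 𝓐 →
    L8LCharted N (l8lMu ms N) t0 ti (q + 1) (nv + 1) nch' (Cch * c) A0 fun Φ => 𝓐 fun τ => trAbs ms N q τ Φ := by
  refine ⟨nch * (q * (2 ^ q * (q + 1))), 1 + ((q : ℝ) + 1) * |abar|, by positivity, ?_⟩
  intro N ms t0 ti Cch A0 𝓐 hms hma haA hA0 hti hq hCch ⟨ι, _, Ch, ρ, hcard, hOk, hL, hρ, hval, hsum⟩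
  set D : Finset (ℕ × Finset ℕ × ℕ) := range q ×ˢ ((range q).powerset ×ˢ range (q + 1)) with hD
  have hDmem : ∀ p : D, p.1.1 < q ∧ p.1.2.2 ≤ q := by
    intro p
    have h : p.1 ∈ range q ×ˢ ((range q).powerset ×ˢ range (q + 1)) := p.2
    rw [Finset.mem_product, Finset.mem_product] at h
    exact ⟨Finset.mem_range.1 h.1, by have := Finset.mem_range.1 h.2.2; omega⟩
  refine ⟨ι × D, inferInstance, fun p => l8sCh N q (l8lMu ms N) (Ch p.1) p.2.1.1 p.2.1.2.1 p.2.1.2.2,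
    fun p co' => ρ p.1 (l8sIn co') *
      l8sDen ms N q ((Ch p.1).tab (l8sIn co')) p.2.1.1 p.2.1.2.1 p.2.1.2.2 (co' (Fin.last nv)), ?_, ?_, ?_, ?_, ?_, ?_⟩
  · rw [Fintype.card_prod, Fintype.card_coe, hD, Finset.card_product, Finset.card_product, Finset.card_powerset,
      Finset.card_range, Finset.card_range]
    exact Nat.mul_le_mul_right _ hcard
  · intro p
    exact l8s_ok hms (hOk p.1) (hL p.1) (hma.trans haA) hA0 hti _ _ _
  · intro p
    rfl
  · intro p co'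
    beta_reduce
    refine ⟨mul_nonneg (hρ p.1 _).1 (l8s_den_nonneg _ _ _ _ _ _ _ _), ?_⟩
    by_cases h0 : ρ p.1 (l8sIn co') = 0
    · rw [h0, zero_mul]
      exact mul_nonneg hCch (by positivity)
    · have hτ := (hval p.1 _ h0).tree
      have h1 := l8s_den_le hτ hms (hDmem p.2).1 (hDmem p.2).2 p.2.1.2.1 (co' (Fin.last nv))
      have h2 : 1 + ((q : ℝ) + 1) * ms N ≤ 1 + ((q : ℝ) + 1) * |abar| := by
        have : ms N ≤ |abar| := hma.trans (le_abs_self _)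
        have hq0 : (0 : ℝ) ≤ (q : ℝ) + 1 := by positivity
        nlinarith
      exact mul_le_mul (hρ p.1 _).2 (h1.trans h2) (l8s_den_nonneg _ _ _ _ _ _ _ _) hCch
  · intro p co' hne
    beta_reduce at hne ⊢
    have h0 : ρ p.1 (l8sIn co') ≠ 0 := fun h => hne (by rw [h, zero_mul])
    have h1 : l8sDen ms N q ((Ch p.1).tab (l8sIn co')) p.2.1.1 p.2.1.2.1 p.2.1.2.2 (co' (Fin.last nv)) ≠ 0 :=
      fun h => hne (by rw [h, mul_zero])
    have hv := hval p.1 _ h0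
    obtain ⟨hZ, hJ⟩ := l8s_den_ne hv.tree (hDmem p.2).1 (hDmem p.2).2 h1
    exact l8s_val hq hti (hDmem p.2).1 (hDmem p.2).2 hv hZ hJ
  · intro Φ hΦ
    beta_reduce
    rw [hsum _ (l8l_abs_loc ms N q Φ hΦ), Fintype.sum_prod_type]
    refine Finset.sum_congr rfl fun i _ => ?_
    rw [l8s_one hms (Ch i) (hL i) (ρ i) (fun co h => (hval i co h).tree) Φ hΦ]
    rw [Finset.sum_coe_sort D (fun p => ∑ co' ∈ (l8sCh N q (l8lMu ms N) (Ch i) p.1 p.2.1 p.2.2).box,
      (l8sCh N q (l8lMu ms N) (Ch i) p.1 p.2.1 p.2.2).wt co' *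
        (ρ i (l8sIn co') * l8sDen ms N q ((Ch i).tab (l8sIn co')) p.1 p.2.1 p.2.2 (co' (Fin.last nv))) *
        Φ ((l8sCh N q (l8lMu ms N) (Ch i) p.1 p.2.1 p.2.2).tab co'))]
    rw [hD, Finset.sum_product]
    refine Finset.sum_congr rfl fun x _ => ?_
    rw [Finset.sum_product]

/-! ### 10. induction on the number of new labels (helper80) -/

/-- `k` more labels over a charted base -/
theorem l8l_ch_gen (q0 nv0 nch0 : ℕ) (hq0 : 2 ≤ q0) (abar : ℝ) (k : ℕ) : ∃ (nch : ℕ) (c : ℝ), 0 ≤ c ∧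
    ∀ (N : ℕ) (ms : ℕ → ℝ) (t0 ti : ℕ) (Cch A0 : ℝ) (𝓐 : (JtTopo → ℝ) → ℝ), IsMs N ms → ms N ≤ abar → abar ≤ A0 → 1 ≤ A0 →
      ti ≤ N + 1 → 0 ≤ Cch → L8LCharted N (l8lMu ms N) t0 ti q0 nv0 nch0 Cch A0 𝓐 →
      L8LCharted N (l8lMu ms N) t0 ti (q0 + k) (nv0 + k) nch (Cch * c) A0 fun Φ => 𝓐 fun τ => trAbsK ms N k q0 τ Φ := by
  induction k with
  | zero =>
    refine ⟨nch0, 1, zero_le_one, ?_⟩
    intro N ms t0 ti Cch A0 𝓐 _ _ _ _ _ _ h
    rw [mul_one]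
    exact h
  | succ k ih =>
    obtain ⟨nch, c, hc, H⟩ := ih
    obtain ⟨nch', c', hc', H'⟩ := l8l_ch_step_pf (q0 + k) (nv0 + k) nch abar
    refine ⟨nch', c * c', mul_nonneg hc hc', ?_⟩
    intro N ms t0 ti Cch A0 𝓐 hms h1 h2 h3 h4 h5 h
    have a1 := H N ms t0 ti Cch A0 𝓐 hms h1 h2 h3 h4 h5 h
    have a2 := H' N ms t0 ti (Cch * c) A0 _ hms h1 h2 h3 h4 (by omega) (mul_nonneg h5 hc) a1
    have e : (fun Φ => 𝓐 fun τ => trAbsK ms N (k + 1) q0 τ Φ)
        = fun Φ => (fun Φ => 𝓐 fun τ => trAbsK ms N k q0 τ Φ) fun τ => trAbs ms N (q0 + k) τ Φ := by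
      funext Φ
      simp only
      congr 1
      funext τ
      rw [tr_absK_add k 1]
      rfl
    rw [e, ← mul_assoc]
    exact a2

theorem l8l_ch : L8_LS_CH := by
  intro k abar
  obtain ⟨nch, c, hc, H⟩ := l8l_ch_gen 2 2 1 le_rfl abar k
  refine ⟨nch, 1 * c, by positivity, ?_⟩
  intro N ms t0 ti A0 hms h1 h2 h3 h4 h5
  exact H N ms t0 ti 1 A0 _ hms h1 h2 h3 (by omega) zero_le_one
    (l8l_ch_base N _ (l8s_mu_nonneg hms) t0 ti h4 h5 A0 h3)

theorem l8l_chO : L8_LS_CHO := by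
  intro k abar
  obtain ⟨nch, c, hc, H⟩ := l8l_ch_gen 4 2 1 (by norm_num) abar k
  refine ⟨nch, 1 * c, by positivity, ?_⟩
  intro N ms t0 ti A0 hms h1 h2 h3 h4 h5
  exact H N ms t0 ti 1 A0 _ hms h1 h2 h3 (by omega) zero_le_one
    (l8l_ch_baseO N _ (l8s_mu_nonneg hms) t0 ti h4 h5 A0 h3)

end Claimed.Agent.R286
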