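import Claimed.Agent.R286.L08.LsNum

/-!
# Row 286 (S0533), folder L08, file LsCen : STEP 2 of the abstract low-source lemma, CENTRED INTEGRATION      (architect helper234, head prover helper80; prefix `l8l_`)

PLAN (LL 08 l.1437-1487; NO induction on the vertices: one expansion).      `jv s := Ch.vtx (c s) (d s)`, `J := l8lJ = Sto.image jv`, `pw j := l8lDeg Ch Sto c d j`, `q j := l8lDeg Ch Det c d j`.
1. CANONICAL LABELS `l8lLam co j` = least label through the vertex `j` (a FUNCTION of `co`; `l8lSel j` = a chosen factor at `j`).   LEAF `l8l_cen_canon` (K5, C1, `same`).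
2. EXPANSION `Xi^pw = am + Y`:  LEAF `l8l_cen_expand` (`Finset.prod_add`).   `B = ∅`: K6.
3. CLASSES: for `B ≠ ∅` the class of `co` is `(l8lLam co, l8lTop B co)`;  `Finset.sum_fiberwise_of_maps_to`  (`r^nv * nv` classes): `l8l_cen_B` (proved here).
4. ONE CLASS `l8l_cen_class` (proved here from the leaves):
   LEAF `l8l_cen_trunc` (K8: truncate `Y_j`, `j ∈ B \ {j0}`, at `2 eb^pw`),  LEAF `l8l_cen_hR` (C4 = `l8l_comb`),  `l8l_os`,
   LEAF `l8l_cen_slice` (N0, `mean`, `low`, N7 `l8l_homog` + `cen0 / cenv / cen1`),  LEAF `l8l_cen_num` (N6b `l8l_slice_rest`, N5 `l8l_regimes`).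
`K = 2^nv * (r^nv * nv) * (2^n + 4 * 4^n * n)`.
-/

set_option autoImplicit false

namespace Claimed.Agent.R286

open MeasureTheory Finset

variable {Ω : Type} [MeasurableSpace Ω] {T : L8L Ω} {I : L8LIn Ω}
variable {nv : ℕ} {Ch : L8LCh nv} {n r : ℕ} {A0 : ℝ} {w : (Fin nv → ℕ) → ℝ} {Sto Det : Finset ℕ} {c d : ℕ → ℕ}

/-- the vertices which carry a stochastic factor -/
def l8lJ (Ch : L8LCh nv) (Sto : Finset ℕ) (c d : ℕ → ℕ) : Finset (Fin nv) := Sto.image fun s => Ch.vtx (c s) (d s)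

open Classical in
/-- a chosen stochastic factor at the vertex `j` -/
noncomputable def l8lSel (Ch : L8LCh nv) (Sto : Finset ℕ) (c d : ℕ → ℕ) (j : Fin nv) : ℕ :=
  if h : ∃ s ∈ Sto, Ch.vtx (c s) (d s) = j then h.choose else 0

/-- the canonical label of the vertex `j` at the coordinates `co` -/
noncomputable def l8lLam (Ch : L8LCh nv) (Sto : Finset ℕ) (c d : ℕ → ℕ) (co : Fin nv → ℕ) (j : Fin nv) : ℕ :=
  if j ∈ l8lJ Ch Sto c d then l8lLb (Ch.tab co) (co j) (c (l8lSel Ch Sto c d j)) else 0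

/-- a vertex of `B` with the largest level -/
noncomputable def l8lTop (B : Finset (Fin nv)) (hB : B.Nonempty) (co : Fin nv → ℕ) : Fin nv := (B.exists_max_image co hB).choose

/-- what the moving vertex pays -/
noncomputable def l8lX0 (I : L8LIn Ω) (Ch : L8LCh nv) (Sto Det : Finset ℕ) (c d : ℕ → ℕ) (j0 : Fin nv) : ℝ :=
  if (Sto ∪ Det).card = 1 then I.cv else if 1 ≤ l8lDeg Ch Det c d j0 + (l8lDeg Ch Sto c d j0 - 1) then I.c1 else I.c0

theorem l8l_top_mem (B : Finset (Fin nv)) (hB : B.Nonempty) (co : Fin nv → ℕ) : l8lTop B hB co ∈ B :=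
  (B.exists_max_image co hB).choose_spec.1

theorem l8l_top_max (B : Finset (Fin nv)) (hB : B.Nonempty) (co : Fin nv → ℕ) : ∀ j ∈ B, co j ≤ co (l8lTop B hB co) :=
  (B.exists_max_image co hB).choose_spec.2

theorem l8l_sel_spec {j : Fin nv} (hj : j ∈ l8lJ Ch Sto c d) :
    l8lSel Ch Sto c d j ∈ Sto ∧ Ch.vtx (c (l8lSel Ch Sto c d j)) (d (l8lSel Ch Sto c d j)) = j := by
  have h : ∃ s ∈ Sto, Ch.vtx (c s) (d s) = j := by
    simpa [l8lJ] using hj
  unfold l8lSel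
  rw [dif_pos h]
  exact h.choose_spec

/-- the canonical labels are labels -/
theorem l8l_lam_lt (H : L8LHyp T I Ch n r A0 w Sto Det c d) (co : Fin nv → ℕ) (j : Fin nv) : l8lLam Ch Sto c d co j < r := by
  unfold l8lLam
  split_ifs with hj
  · have h1 := l8l_sel_spec hj
    have h2 := (H.lab _ (Finset.mem_union_left _ h1.1)).1
    exact lt_of_le_of_lt (l8l_lb_le _ _ _) h2
  · have := H.hT.two
    rw [H.hr] at this
    omega

/-! ### helpers of the leaves (helper214) -/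

theorem l8l_J_deg_pos {j : Fin nv} (hj : j ∈ l8lJ Ch Sto c d) : 1 ≤ l8lDeg Ch Sto c d j := by
  have h := l8l_sel_spec hj
  have := l8l_deg_pos Ch h.1 c d
  rwa [h.2] at this

theorem l8l_J_deg_zero {j : Fin nv} (hj : j ∉ l8lJ Ch Sto c d) : l8lDeg Ch Sto c d j = 0 := by
  unfold l8lDeg
  rw [Finset.card_eq_zero, Finset.filter_eq_empty_iff]
  intro s hs hsj
  exact hj (by rw [← hsj]; exact Finset.mem_image_of_mem _ hs)

theorem l8l_X0_nonneg (hI : I.Ok T) (Ch : L8LCh nv) (Sto Det : Finset ℕ) (c d : ℕ → ℕ) (j0 : Fin nv) :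
    0 ≤ l8lX0 I Ch Sto Det c d j0 := by
  unfold l8lX0
  split_ifs
  · exact hI.cv_nonneg
  · exact hI.c1_nonneg
  · exact hI.c0_nonneg

theorem l8l_J_card_le (H : L8LHyp T I Ch n r A0 w Sto Det c d) : (l8lJ Ch Sto c d).card ≤ n := by
  have h1 : (l8lJ Ch Sto c d).card ≤ Sto.card := Finset.card_image_le
  have h2 : Sto.card ≤ (range n).card := Finset.card_le_card fun x hx => H.sub (Finset.mem_union_left _ hx)
  rw [Finset.card_range] at h2
  omega

theorem l8l_cen_eb_prod {B : Finset (Fin nv)} (_hB : B ⊆ l8lJ Ch Sto c d) {j0 : Fin nv} (hj0 : j0 ∈ B) (f : Fin nv → ℝ) :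
    (∏ j ∈ B.erase j0, f j ^ l8lDeg Ch Sto c d j) * ∏ j ∈ l8lJ Ch Sto c d \ B, f j ^ l8lDeg Ch Sto c d j
      = ∏ j ∈ univ.erase j0, f j ^ l8lDeg Ch Sto c d j := by
  have hdis : Disjoint (B.erase j0) (l8lJ Ch Sto c d \ B) :=
    Finset.disjoint_left.2 fun j h1 h2 => (Finset.mem_sdiff.1 h2).2 (Finset.mem_of_mem_erase h1)
  rw [← Finset.prod_union hdis]
  refine Finset.prod_subset (fun j hj => ?_) fun j hj hjn => ?_
  · rcases Finset.mem_union.1 hj with h | h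
    · exact Finset.mem_erase.2 ⟨Finset.ne_of_mem_erase h, mem_univ _⟩
    · refine Finset.mem_erase.2 ⟨fun he => ?_, mem_univ _⟩
      exact (Finset.mem_sdiff.1 h).2 (he ▸ hj0)
  · have hne := Finset.ne_of_mem_erase hj
    have hJ : j ∉ l8lJ Ch Sto c d := by
      intro hJ
      apply hjn
      by_cases hb : j ∈ B
      · exact Finset.mem_union_left _ (Finset.mem_erase.2 ⟨hne, hb⟩)
      · exact Finset.mem_union_right _ (Finset.mem_sdiff.2 ⟨hJ, hb⟩)
    rw [l8l_J_deg_zero hJ, pow_zero]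

theorem l8l_lam_eq (H : L8LHyp T I Ch n r A0 w Sto Det c d) {co : Fin nv → ℕ} (hw : w co ≠ 0) {s : ℕ} (hs : s ∈ Sto) :
    l8lLam Ch Sto c d co (Ch.vtx (c s) (d s)) = l8lLb (Ch.tab co) (co (Ch.vtx (c s) (d s))) (c s) := by
  have hJ : Ch.vtx (c s) (d s) ∈ l8lJ Ch Sto c d := Finset.mem_image_of_mem _ hs
  obtain ⟨h1, h2⟩ := l8l_sel_spec hJ
  have hval := H.val co hw
  rw [← H.hr] at hval
  obtain ⟨a1, a2, a3⟩ := H.lab s (Finset.mem_union_left _ hs)
  obtain ⟨b1, b2, b3⟩ := H.lab _ (Finset.mem_union_left _ h1)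
  rw [← H.hr] at a1 a2 b1 b2
  unfold l8lLam
  rw [if_pos hJ]
  have := l8l_lb_same H.hT Ch hval a1 a2 a3 b1 b2 b3 h2.symm (H.low co hw s (Finset.mem_union_left _ hs))
  rw [this, h2]

theorem l8l_cen_Y_meas (hI : I.Ok T) (l x p : ℕ) : Measurable fun ω : ℕ → Ω => I.Xi l (ω x) ^ p - I.am T p l :=
  (((hI.Xi_meas l).comp (measurable_pi_apply x)).pow_const p).sub_const _

theorem l8l_cen_Y_abs_le (hT : T.Ok) (hI : I.Ok T) (l p : ℕ) (ω : Ω) : |I.Xi l ω ^ p - I.am T p l| ≤ 2 := by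
  have a1 : |I.Xi l ω ^ p| ≤ 1 := by
    rw [abs_pow]; exact pow_le_one₀ (abs_nonneg _) (hI.Xi_bd l ω)
  have a2 := l8l_am_abs_le hT hI p l
  calc |I.Xi l ω ^ p - I.am T p l| ≤ |I.Xi l ω ^ p| + |I.am T p l| := abs_sub _ _
    _ ≤ 2 := by linarith

/-- LEAF 1 (proved, helper214): canonical labels.   PROOF: a.e. `Xi (co (jv s)) (ω (c s)) = Xi (co (jv s)) (ω (l8lLam co (jv s)))` for every `s ∈ Sto`
(K5 `l8l_share`; `c s` and `l8lLb ..` pass through the vertex of `l8lSel (jv s)`: `Val.same`, `l8l_lb_thr`, C1 `l8l_thr_thr`); then `Finset.prod_comp`. -/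
theorem l8l_cen_canon (H : L8LHyp T I Ch n r A0 w Sto Det c d) {co : Fin nv → ℕ} (hw : w co ≠ 0) :
    ∫ ω, I.P0 (ω 0, ω 1) * (∏ s ∈ Sto, I.Xi (co (Ch.vtx (c s) (d s))) (ω (c s))) *
        ∏ s ∈ (∅ : Finset ℕ), I.fac s (co (Ch.vtx (c s) (d s))) (ω (c s), ω (d s)) ∂T.law (Ch.tab co)
      = ∫ ω, I.P0 (ω 0, ω 1) * ∏ j ∈ l8lJ Ch Sto c d, I.Xi (co j) (ω (l8lLam Ch Sto c d co j)) ^ l8lDeg Ch Sto c d j
          ∂T.law (Ch.tab co) := by
  have hT := H.hT
  have hI := H.hI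
  have hV : T.V (Ch.tab co) := (H.val co hw).tree
  have hae : ∀ s ∈ Sto, ∀ᵐ ω ∂T.law (Ch.tab co), I.Xi (co (Ch.vtx (c s) (d s))) (ω (c s))
      = I.Xi (co (Ch.vtx (c s) (d s))) (ω (l8lLam Ch Sto c d co (Ch.vtx (c s) (d s)))) := by
    intro s hs
    obtain ⟨a1, _, _⟩ := H.lab s (Finset.mem_union_left _ hs)
    have a4 := l8l_lam_lt H co (Ch.vtx (c s) (d s))
    rw [← H.hr] at a1 a4
    refine l8l_share hT hI hV a1 a4 ?_
    have hthr := l8l_lb_thr (Ch.tab co) (co (Ch.vtx (c s) (d s))) (c s)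
    rw [← l8l_lam_eq H hw hs] at hthr
    rcases hthr with h | h
    · exact Or.inl h.symm
    · right
      rw [hT.symm _ hV _ _ a1 a4]
      exact h
  have hall : ∀ᵐ ω ∂T.law (Ch.tab co), ∀ s ∈ Sto, I.Xi (co (Ch.vtx (c s) (d s))) (ω (c s))
      = I.Xi (co (Ch.vtx (c s) (d s))) (ω (l8lLam Ch Sto c d co (Ch.vtx (c s) (d s)))) :=
    (Finset.eventually_all Sto).2 hae
  refine integral_congr_ae ?_
  filter_upwards [hall] with ω hω
  rw [Finset.prod_empty, mul_one, Finset.prod_congr rfl hω]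
  congr 1
  exact Finset.prod_comp (fun j => I.Xi (co j) (ω (l8lLam Ch Sto c d co j))) (fun s => Ch.vtx (c s) (d s))

/-- LEAF 2 (proved, helper214): expansion around the means (`Finset.prod_add`, linearity; everything is bounded and measurable) -/
theorem l8l_cen_expand (hT : T.Ok) (hI : I.Ok T) {τ : ℕ → ℕ → ℕ} (hτ : T.V τ) (J : Finset (Fin nv)) (co : Fin nv → ℕ)
    (Λ : Fin nv → ℕ) (pw : Fin nv → ℕ) :
    ∫ ω, I.P0 (ω 0, ω 1) * ∏ j ∈ J, I.Xi (co j) (ω (Λ j)) ^ pw j ∂T.law τ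
      = ∑ B ∈ J.powerset, (∏ j ∈ J \ B, I.am T (pw j) (co j)) *
          ∫ ω, I.P0 (ω 0, ω 1) * ∏ j ∈ B, (I.Xi (co j) (ω (Λ j)) ^ pw j - I.am T (pw j) (co j)) ∂T.law τ := by
  have hprob := hT.prob τ hτ
  have mP : Measurable fun ω : ℕ → Ω => I.P0 (ω 0, ω 1) :=
    hI.P0_meas.comp ((measurable_pi_apply 0).prodMk (measurable_pi_apply 1))
  have hint : ∀ B : Finset (Fin nv), Integrable (fun ω : ℕ → Ω =>
      I.P0 (ω 0, ω 1) * ∏ j ∈ B, (I.Xi (co j) (ω (Λ j)) ^ pw j - I.am T (pw j) (co j))) (T.law τ) := by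
    intro B
    refine Integrable.of_bound (mP.mul (Finset.measurable_prod _ fun j _ => l8l_cen_Y_meas hI _ _ _)).aestronglyMeasurable
      (2 * 2 ^ B.card) (Filter.Eventually.of_forall fun ω => ?_)
    rw [Real.norm_eq_abs, abs_mul, Finset.abs_prod]
    have a1 := hI.P0_bd (ω 0, ω 1)
    have a2 : ∏ j ∈ B, |I.Xi (co j) (ω (Λ j)) ^ pw j - I.am T (pw j) (co j)| ≤ 2 ^ B.card := by
      calc ∏ j ∈ B, |I.Xi (co j) (ω (Λ j)) ^ pw j - I.am T (pw j) (co j)| ≤ ∏ _j ∈ B, (2 : ℝ) :=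
            Finset.prod_le_prod (fun _ _ => abs_nonneg _) fun j _ => l8l_cen_Y_abs_le hT hI _ _ _
        _ = 2 ^ B.card := Finset.prod_const _
    exact mul_le_mul a1 a2 (Finset.prod_nonneg fun _ _ => abs_nonneg _) (by norm_num)
  have e : ∀ ω : ℕ → Ω, I.P0 (ω 0, ω 1) * ∏ j ∈ J, I.Xi (co j) (ω (Λ j)) ^ pw j
      = ∑ B ∈ J.powerset, (∏ j ∈ J \ B, I.am T (pw j) (co j)) *
          (I.P0 (ω 0, ω 1) * ∏ j ∈ B, (I.Xi (co j) (ω (Λ j)) ^ pw j - I.am T (pw j) (co j))) := by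
    intro ω
    have h1 : ∏ j ∈ J, I.Xi (co j) (ω (Λ j)) ^ pw j
        = ∏ j ∈ J, ((I.Xi (co j) (ω (Λ j)) ^ pw j - I.am T (pw j) (co j)) + I.am T (pw j) (co j)) :=
      Finset.prod_congr rfl fun j _ => by ring
    rw [h1, Finset.prod_add, Finset.mul_sum]
    refine Finset.sum_congr rfl fun B _ => ?_
    ring
  simp only [e]
  rw [integral_finsetSum _ fun B _ => (hint B).const_mul _]
  refine Finset.sum_congr rfl fun B _ => ?_
  rw [integral_const_mul]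

/-- LEAF 3 (proved, helper214): truncation of the factors `≠ j0` at `2 eb^pw` (K8 with `b = 2`, `F = B.erase j0`, `card ≤ n`;
`{2 eb^p < |Xi^p - am|} ⊆ {eb < |Xi|}` by `mean`; K4 `l8l_prob1`, `tailX`; levels `< ti` by `H.low`) -/
theorem l8l_cen_trunc (H : L8LHyp T I Ch n r A0 w Sto Det c d) {B : Finset (Fin nv)} (hB : B ⊆ l8lJ Ch Sto c d) {j0 : Fin nv}
    (hj0 : j0 ∈ B) (Λ : Fin nv → ℕ) (hΛ : ∀ j ∈ B, Λ j < r) {co : Fin nv → ℕ} (hw : w co ≠ 0) :
    |(∫ ω, I.P0 (ω 0, ω 1) * ∏ j ∈ B, (I.Xi (co j) (ω (Λ j)) ^ l8lDeg Ch Sto c d j - I.am T (l8lDeg Ch Sto c d j) (co j))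
          ∂T.law (Ch.tab co))
        - ∫ ω, I.P0 (ω 0, ω 1) * (∏ j ∈ B.erase j0, l8lTr (2 * I.eb (co j) ^ l8lDeg Ch Sto c d j)
            (I.Xi (co j) (ω (Λ j)) ^ l8lDeg Ch Sto c d j - I.am T (l8lDeg Ch Sto c d j) (co j))) *
            (I.Xi (co j0) (ω (Λ j0)) ^ l8lDeg Ch Sto c d j0 - I.am T (l8lDeg Ch Sto c d j0) (co j0)) ∂T.law (Ch.tab co)|
      ≤ 4 * 4 ^ n * n * I.eta := by
  have hT := H.hT
  have hI := H.hI
  have hV : T.V (Ch.tab co) := (H.val co hw).tree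
  have hprob := hT.prob _ hV
  have hcardn : (Sto ∪ Det).card ≤ n := by simpa using Finset.card_le_card H.sub
  have htail : ∀ j ∈ B.erase j0, (T.law (Ch.tab co)).real {ω | 2 * I.eb (co j) ^ l8lDeg Ch Sto c d j
      < |I.Xi (co j) (ω (Λ j)) ^ l8lDeg Ch Sto c d j - I.am T (l8lDeg Ch Sto c d j) (co j)|} ≤ I.eta := by
    intro j hj
    have hjB : j ∈ B := Finset.mem_of_mem_erase hj
    obtain ⟨hs, hsv⟩ := l8l_sel_spec (hB hjB)
    have hlow : co j < I.ti := by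
      have := H.low co hw _ (Finset.mem_union_left _ hs)
      rwa [hsv] at this
    have hp1 := l8l_J_deg_pos (hB hjB)
    have hp2 : l8lDeg Ch Sto c d j ≤ I.dmax := by
      have a1 := l8l_deg_le_card Ch Sto c d j
      have a2 : Sto.card ≤ (Sto ∪ Det).card := Finset.card_le_card Finset.subset_union_left
      have := H.deg
      omega
    have hmean := hI.mean _ _ hp1 hp2 hlow
    have hm : MeasurableSet {ω' : Ω | I.eb (co j) < |I.Xi (co j) ω'|} := measurableSet_lt measurable_const (hI.Xi_meas _).abs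
    have hpr := l8l_prob1 hT hV (x := Λ j) (by rw [H.hr]; exact hΛ j hjB) hm
    have hsubset : {ω : ℕ → Ω | 2 * I.eb (co j) ^ l8lDeg Ch Sto c d j
        < |I.Xi (co j) (ω (Λ j)) ^ l8lDeg Ch Sto c d j - I.am T (l8lDeg Ch Sto c d j) (co j)|}
        ⊆ {ω : ℕ → Ω | ω (Λ j) ∈ {ω' : Ω | I.eb (co j) < |I.Xi (co j) ω'|}} := by
      intro ω hω
      by_contra hcon
      have hle : |I.Xi (co j) (ω (Λ j))| ≤ I.eb (co j) := not_lt.1 hcon
      have b1 : |I.Xi (co j) (ω (Λ j)) ^ l8lDeg Ch Sto c d j| ≤ I.eb (co j) ^ l8lDeg Ch Sto c d j := by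
        rw [abs_pow]; exact pow_le_pow_left₀ (abs_nonneg _) hle _
      have b2 : |I.Xi (co j) (ω (Λ j)) ^ l8lDeg Ch Sto c d j - I.am T (l8lDeg Ch Sto c d j) (co j)|
          ≤ |I.Xi (co j) (ω (Λ j)) ^ l8lDeg Ch Sto c d j| + |I.am T (l8lDeg Ch Sto c d j) (co j)| := abs_sub _ _
      have b3 : 2 * I.eb (co j) ^ l8lDeg Ch Sto c d j
          < |I.Xi (co j) (ω (Λ j)) ^ l8lDeg Ch Sto c d j - I.am T (l8lDeg Ch Sto c d j) (co j)| := hω
      linarith
    calc (T.law (Ch.tab co)).real _ ≤ (T.law (Ch.tab co)).real {ω : ℕ → Ω | ω (Λ j) ∈ {ω' : Ω | I.eb (co j) < |I.Xi (co j) ω'|}} :=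
          measureReal_mono hsubset
      _ = T.μ.real {ω' : Ω | I.eb (co j) < |I.Xi (co j) ω'|} := hpr
      _ ≤ I.eta := hI.tailX _ hlow
  have htr := l8l_trunc hT hI hV (B.erase j0)
    (fun j ω => I.Xi (co j) (ω (Λ j)) ^ l8lDeg Ch Sto c d j - I.am T (l8lDeg Ch Sto c d j) (co j))
    (fun j => 2 * I.eb (co j) ^ l8lDeg Ch Sto c d j) (fun j _ => l8l_cen_Y_meas hI _ _ _)
    (fun j _ ω => (l8l_cen_Y_abs_le hT hI _ _ _).trans (by norm_num))
    (Y := fun ω => I.Xi (co j0) (ω (Λ j0)) ^ l8lDeg Ch Sto c d j0 - I.am T (l8lDeg Ch Sto c d j0) (co j0))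
    (l8l_cen_Y_meas hI _ _ _) (b := 2) (fun ω => l8l_cen_Y_abs_le hT hI _ _ _) htail
  have e : ∀ ω : ℕ → Ω, I.P0 (ω 0, ω 1) * ∏ j ∈ B, (I.Xi (co j) (ω (Λ j)) ^ l8lDeg Ch Sto c d j - I.am T (l8lDeg Ch Sto c d j) (co j))
      = I.P0 (ω 0, ω 1) * (∏ j ∈ B.erase j0, (I.Xi (co j) (ω (Λ j)) ^ l8lDeg Ch Sto c d j - I.am T (l8lDeg Ch Sto c d j) (co j))) *
        (I.Xi (co j0) (ω (Λ j0)) ^ l8lDeg Ch Sto c d j0 - I.am T (l8lDeg Ch Sto c d j0) (co j0)) := by
    intro ω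
    rw [← Finset.prod_erase_mul B _ hj0, mul_assoc]
  simp only [e]
  refine htr.trans ?_
  have hcard : (B.erase j0).card ≤ n := by
    have a1 : (B.erase j0).card ≤ B.card := Finset.card_le_card (Finset.erase_subset _ _)
    have a2 : B.card ≤ (l8lJ Ch Sto c d).card := Finset.card_le_card hB
    have a3 := l8l_J_card_le H
    omega
  have a1 : (4 : ℝ) ^ (B.erase j0).card ≤ 4 ^ n := pow_le_pow_right₀ (by norm_num) hcard
  have a2 : ((B.erase j0).card : ℝ) ≤ n := by exact_mod_cast hcard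
  have a3 : (4 : ℝ) ^ (B.erase j0).card * ((B.erase j0).card : ℝ) ≤ 4 ^ n * n := mul_le_mul a1 a2 (by positivity) (by positivity)
  have := mul_le_mul_of_nonneg_right a3 hI.eta_nonneg
  nlinarith

/-- LEAF 4 (proved, helper214): the moving vertex is not a fork of the retained tree (C4 `l8l_comb` with `S = Sto.filter (jv · ∈ B)`, `s0 = l8lSel j0`;
`S.image (canonical label) = B.image Λ` by C3 `l8l_lb_same`) -/
theorem l8l_cen_hR (H : L8LHyp T I Ch n r A0 w Sto Det c d) {B : Finset (Fin nv)} (hB : B ⊆ l8lJ Ch Sto c d) {j0 : Fin nv}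
    (hj0 : j0 ∈ B) (Λ : Fin nv → ℕ) {co : Fin nv → ℕ} (hw : w co ≠ 0) (hΛ : ∀ j ∈ B, l8lLam Ch Sto c d co j = Λ j)
    (htop : ∀ j ∈ B, co j ≤ co j0) :
    ∀ x ∈ insert 0 (insert 1 (B.image Λ)), ∀ y ∈ insert 0 (insert 1 (B.image Λ)), x ≠ y → Ch.vtx x y ≠ j0 := by
  have hval := H.val co hw
  rw [← H.hr] at hval
  obtain ⟨hs0, hs0v⟩ := l8l_sel_spec (hB hj0)
  set S := Sto.filter (fun s => Ch.vtx (c s) (d s) ∈ B) with hS
  have hSS : ∀ s ∈ S, s ∈ Sto := fun s hs => (Finset.mem_filter.1 hs).1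
  have hSB : ∀ s ∈ S, Ch.vtx (c s) (d s) ∈ B := fun s hs => (Finset.mem_filter.1 hs).2
  have himg : S.image (fun s => l8lLb (Ch.tab co) (co (Ch.vtx (c s) (d s))) (c s)) = B.image Λ := by
    ext x
    simp only [Finset.mem_image]
    constructor
    · rintro ⟨s, hs, rfl⟩
      exact ⟨Ch.vtx (c s) (d s), hSB s hs, by rw [← hΛ _ (hSB s hs), l8l_lam_eq H hw (hSS s hs)]⟩
    · rintro ⟨j, hj, rfl⟩
      obtain ⟨h1, h2⟩ := l8l_sel_spec (hB hj)
      refine ⟨l8lSel Ch Sto c d j, Finset.mem_filter.2 ⟨h1, by rw [h2]; exact hj⟩, ?_⟩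
      rw [← l8l_lam_eq H hw h1, h2, hΛ j hj]
  have hcomb := l8l_comb H.hT Ch H.hCh.vsymm H.hI.le hval S c d
    (fun s hs => by rw [H.hr]; exact H.lab s (Finset.mem_union_left _ (hSS s hs)))
    (fun s hs => H.low co hw s (Finset.mem_union_left _ (hSS s hs)))
    (s0 := l8lSel Ch Sto c d j0) (Finset.mem_filter.2 ⟨hs0, by rw [hs0v]; exact hj0⟩)
    (fun s hs => by rw [hs0v]; exact htop _ (hSB s hs))
    (insert 0 (insert 1 (B.image Λ))) (by rw [himg])
  rw [hs0v] at hcomb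
  exact hcomb

/-- LEAF 5 (proved, helper214): the centred sum on a slice.   `κ l = mm j0 l * W (update co j0 l)`: `κ l = 0` for `l ≥ ti` (`H.low`),
`|κ l| ≤ ρ * (mu l * eb l ^ q j0 * (vv l if sole))` with `ρ` = the first factor of the bound (N0 `l8l_maj_vertex` at `update co j0 l`, `Ch.Ok.low`);
N7 `l8l_homog` with `cenv` (sole: `pw j0 = 1`, `q j0 = 0`) | `cen1` (`pw j0 + q j0 ≥ 2`, `≤ card ≤ n ≤ dmax`) | `cen0` (`pw j0 = 1`, `q j0 = 0`). -/
theorem l8l_cen_slice (H : L8LHyp T I Ch n r A0 w Sto Det c d) {B : Finset (Fin nv)} (hB : B ⊆ l8lJ Ch Sto c d) {j0 : Fin nv}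
    (hj0 : j0 ∈ B) (W : (Fin nv → ℕ) → ℝ)
    (hW2 : ∀ co, |W co| ≤ |w co| * ∏ j ∈ l8lJ Ch Sto c d \ B, I.eb (co j) ^ l8lDeg Ch Sto c d j) (co : Fin nv → ℕ) :
    Real.sqrt (∫ ω, (∑ l ∈ range Ch.L, Ch.mm j0 l * W (Function.update co j0 l) *
        (I.Xi l ω ^ l8lDeg Ch Sto c d j0 - I.am T (l8lDeg Ch Sto c d j0) l)) ^ 2 ∂T.μ)
      ≤ ((∏ j ∈ univ.erase j0, l8lG I Ch Sto Det c d j (co j)) * ∏ j ∈ l8lJ Ch Sto c d \ B, I.eb (co j) ^ l8lDeg Ch Sto c d j)
          * l8lX0 I Ch Sto Det c d j0 := by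
  have hT := H.hT
  have hI := H.hI
  have hJ0 : j0 ∈ l8lJ Ch Sto c d := hB hj0
  obtain ⟨hsel, hselv⟩ := l8l_sel_spec hJ0
  have hpos := l8l_J_deg_pos hJ0
  have hdS : l8lDeg Ch (Sto ∪ Det) c d j0 = l8lDeg Ch Sto c d j0 + l8lDeg Ch Det c d j0 := l8l_deg_union Ch H.disj c d j0
  have hcardn : (Sto ∪ Det).card ≤ n := by simpa using Finset.card_le_card H.sub
  have hdegn : l8lDeg Ch (Sto ∪ Det) c d j0 ≤ I.dmax := (l8l_deg_le_card Ch _ c d j0).trans (hcardn.trans H.deg)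
  set ρ : ℝ := (∏ j ∈ univ.erase j0, l8lG I Ch Sto Det c d j (co j)) * ∏ j ∈ l8lJ Ch Sto c d \ B, I.eb (co j) ^ l8lDeg Ch Sto c d j with hρdef
  have hρ1 : 0 ≤ ∏ j ∈ univ.erase j0, l8lG I Ch Sto Det c d j (co j) := Finset.prod_nonneg fun j _ => l8l_G_nonneg hI Ch Sto Det c d j _
  have hρ2 : 0 ≤ ∏ j ∈ l8lJ Ch Sto c d \ B, I.eb (co j) ^ l8lDeg Ch Sto c d j :=
    Finset.prod_nonneg fun j _ => pow_nonneg (hI.eb_nonneg _) _
  have hρ : 0 ≤ ρ := mul_nonneg hρ1 hρ2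
  -- the envelope product does not see the moving coordinate
  have heb : ∀ l, ∏ j ∈ l8lJ Ch Sto c d \ B, I.eb (Function.update co j0 l j) ^ l8lDeg Ch Sto c d j
      = ∏ j ∈ l8lJ Ch Sto c d \ B, I.eb (co j) ^ l8lDeg Ch Sto c d j := by
    intro l
    refine Finset.prod_congr rfl fun j hj => ?_
    have hne : j ≠ j0 := fun he => (Finset.mem_sdiff.1 hj).2 (he ▸ hj0)
    rw [Function.update_of_ne hne]
  have hGu : ∀ l, ∏ j, l8lG I Ch Sto Det c d j (Function.update co j0 l j)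
      = l8lG I Ch Sto Det c d j0 l * ∏ j ∈ univ.erase j0, l8lG I Ch Sto Det c d j (co j) := by
    intro l
    rw [← Finset.mul_prod_erase univ _ (mem_univ j0), Function.update_self]
    congr 1
    refine Finset.prod_congr rfl fun j hj => ?_
    rw [Function.update_of_ne (Finset.ne_of_mem_erase hj)]
  -- the coefficients
  have hκ0 : ∀ l, I.ti ≤ l → Ch.mm j0 l * W (Function.update co j0 l) = 0 := by
    intro l hl
    have hw0 : w (Function.update co j0 l) = 0 := by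
      by_contra hne
      have := H.low _ hne _ (Finset.mem_union_left _ hsel)
      rw [hselv, Function.update_self] at this
      omega
    have := hW2 (Function.update co j0 l)
    rw [hw0, abs_zero, zero_mul] at this
    rw [abs_eq_zero.1 (le_antisymm this (abs_nonneg _)), mul_zero]
  have hκ : ∀ l, l < I.ti → |Ch.mm j0 l * W (Function.update co j0 l)|
      ≤ ρ * (I.mu l * (I.eb l ^ l8lDeg Ch Det c d j0 * (if (Sto ∪ Det).card = 1 then I.vv l else 1))) := by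
    intro l hl
    have hG : l8lG I Ch Sto Det c d j0 l = I.eb l ^ l8lDeg Ch Det c d j0 * (if (Sto ∪ Det).card = 1 then I.vv l else 1) := by
      unfold l8lG
      rw [if_neg (by omega), if_pos hl]
    have hG0 := l8l_G_nonneg hI Ch Sto Det c d j0 l
    have a1 := hW2 (Function.update co j0 l)
    rw [heb l] at a1
    have a2 := l8l_maj_vertex H (Function.update co j0 l)
    rw [hGu l] at a2
    have a3 : |W (Function.update co j0 l)| ≤ l8lG I Ch Sto Det c d j0 l * ρ := by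
      calc |W (Function.update co j0 l)| ≤ |w (Function.update co j0 l)| * ∏ j ∈ l8lJ Ch Sto c d \ B, I.eb (co j) ^ l8lDeg Ch Sto c d j := a1
        _ ≤ (l8lG I Ch Sto Det c d j0 l * ∏ j ∈ univ.erase j0, l8lG I Ch Sto Det c d j (co j)) *
            ∏ j ∈ l8lJ Ch Sto c d \ B, I.eb (co j) ^ l8lDeg Ch Sto c d j := mul_le_mul_of_nonneg_right a2 hρ2
        _ = _ := by rw [hρdef]; ring
    rw [abs_mul, abs_of_nonneg (H.hCh.nonneg j0 l)]
    calc Ch.mm j0 l * |W (Function.update co j0 l)| ≤ I.mu l * (l8lG I Ch Sto Det c d j0 l * ρ) :=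
          mul_le_mul (H.hCh.low j0 l hl) a3 (abs_nonneg _) (hI.mu_nonneg l)
      _ = _ := by rw [hG]; ring
  unfold l8lX0
  by_cases hc1 : (Sto ∪ Det).card = 1
  · -- sole factor
    rw [if_pos hc1]
    have hd1 : l8lDeg Ch (Sto ∪ Det) c d j0 ≤ 1 := hc1 ▸ l8l_deg_le_card Ch _ c d j0
    have hp1 : l8lDeg Ch Sto c d j0 = 1 := by omega
    have hq0 : l8lDeg Ch Det c d j0 = 0 := by omega
    rw [hp1]
    refine l8l_homog hT hI 1 (fun l => I.mu l * I.vv l) (fun l => mul_nonneg (hI.mu_nonneg l) (hI.vv_nonneg l)) hI.cv_nonneg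
      hI.cenv Ch.L (fun l => Ch.mm j0 l * W (Function.update co j0 l)) hρ (fun l hl => ?_) hκ0
    have := hκ l hl
    rw [hq0, if_pos hc1, pow_zero, one_mul] at this
    exact this
  · rw [if_neg hc1]
    by_cases hd : 1 ≤ l8lDeg Ch Det c d j0 + (l8lDeg Ch Sto c d j0 - 1)
    · rw [if_pos hd]
      refine l8l_homog hT hI (l8lDeg Ch Sto c d j0) (fun l => I.mu l * I.eb l ^ l8lDeg Ch Det c d j0)
        (fun l => mul_nonneg (hI.mu_nonneg l) (pow_nonneg (hI.eb_nonneg l) _)) hI.c1_nonneg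
        (fun κ hκb => hI.cen1 (l8lDeg Ch Sto c d j0) (l8lDeg Ch Det c d j0) κ hpos (by omega) (by omega) hκb)
        Ch.L (fun l => Ch.mm j0 l * W (Function.update co j0 l)) hρ (fun l hl => ?_) hκ0
      have := hκ l hl
      rw [if_neg hc1, mul_one] at this
      exact this
    · rw [if_neg hd]
      have hp1 : l8lDeg Ch Sto c d j0 = 1 := by omega
      have hq0 : l8lDeg Ch Det c d j0 = 0 := by omega
      rw [hp1]
      refine l8l_homog hT hI 1 (fun l => I.mu l) hI.mu_nonneg hI.c0_nonneg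
        hI.cen0 Ch.L (fun l => Ch.mm j0 l * W (Function.update co j0 l)) hρ (fun l hl => ?_) hκ0
      have := hκ l hl
      rw [hq0, if_neg hc1, pow_zero, one_mul, mul_one] at this
      exact this

/-- LEAF 6 (proved, helper214): the sum over the slices.   `(∏_{B \ j0} 2 eb^pw) * (∏_{J \ B} eb^pw) = 2^(card B - 1) * ∏_{j ≠ j0} eb^pw` (`pw = 0` outside `J`);
N6b `l8l_slice_rest` with `e = pw`, N5 `l8l_regimes` with `e0 = pw j0 - 1`, `X0 = l8lX0`, `(B0, B1, Bv) = (c0, c1, cv)`. -/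
theorem l8l_cen_num (H : L8LHyp T I Ch n r A0 w Sto Det c d) {B : Finset (Fin nv)} (hB : B ⊆ l8lJ Ch Sto c d) {j0 : Fin nv}
    (hj0 : j0 ∈ B) :
    ∑ co ∈ Ch.box.filter (fun co => co j0 = 0), (∏ j ∈ univ.erase j0, Ch.mm j (co j)) *
        (∏ j ∈ B.erase j0, 2 * I.eb (co j) ^ l8lDeg Ch Sto c d j) *
        (((∏ j ∈ univ.erase j0, l8lG I Ch Sto Det c d j (co j)) * ∏ j ∈ l8lJ Ch Sto c d \ B, I.eb (co j) ^ l8lDeg Ch Sto c d j)
          * l8lX0 I Ch Sto Det c d j0)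
      ≤ 2 ^ n * (A0 ^ nv * max I.c1 (max I.cv (I.c0 * I.E1))) := by
  have hI := H.hI
  have hX0 := l8l_X0_nonneg hI Ch Sto Det c d j0
  set pw : Fin nv → ℕ := fun j => l8lDeg Ch Sto c d j with hpw
  have e1 : ∀ co : Fin nv → ℕ, (∏ j ∈ univ.erase j0, Ch.mm j (co j)) *
        (∏ j ∈ B.erase j0, 2 * I.eb (co j) ^ l8lDeg Ch Sto c d j) *
        (((∏ j ∈ univ.erase j0, l8lG I Ch Sto Det c d j (co j)) * ∏ j ∈ l8lJ Ch Sto c d \ B, I.eb (co j) ^ l8lDeg Ch Sto c d j)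
          * l8lX0 I Ch Sto Det c d j0)
      = (2 ^ (B.erase j0).card * l8lX0 I Ch Sto Det c d j0) * ((∏ j ∈ univ.erase j0, Ch.mm j (co j)) *
        ∏ j ∈ univ.erase j0, (l8lG I Ch Sto Det c d j (co j) * I.eb (co j) ^ pw j)) := by
    intro co
    rw [Finset.prod_mul_distrib, Finset.prod_const, Finset.prod_mul_distrib,
      ← l8l_cen_eb_prod hB hj0 (fun j => I.eb (co j))]
    ring
  rw [Finset.sum_congr rfl fun co _ => e1 co, ← Finset.mul_sum]
  have h1 := l8l_slice_rest H pw j0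
  have hpos := l8l_J_deg_pos (hB hj0)
  have hdS : ∀ j, l8lDeg Ch (Sto ∪ Det) c d j = pw j + l8lDeg Ch Det c d j := fun j => l8l_deg_union Ch H.disj c d j
  have h2 := l8l_regimes H pw j0 (pw j0 - 1) (X0 := l8lX0 I Ch Sto Det c d j0) (B0 := I.c0) (B1 := I.c1) (Bv := I.cv) hX0
    (by rw [hdS j0]; simp only [hpw]; omega)
    (fun j _ hne => by rw [hdS j] at hne; omega)
    (le_of_eq rfl)
  have hc : (2 : ℝ) ^ (B.erase j0).card ≤ 2 ^ n := by
    refine pow_le_pow_right₀ (by norm_num) ?_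
    have a1 : (B.erase j0).card ≤ B.card := Finset.card_le_card (Finset.erase_subset _ _)
    have a2 : B.card ≤ (l8lJ Ch Sto c d).card := Finset.card_le_card hB
    have a3 := l8l_J_card_le H
    omega
  have hR0 : 0 ≤ l8lX0 I Ch Sto Det c d j0 * ∏ j ∈ univ.erase j0, l8lVs I Ch Sto Det c d pw j :=
    mul_nonneg hX0 (Finset.prod_nonneg fun j _ => l8l_vs_nonneg H pw j)
  calc 2 ^ (B.erase j0).card * l8lX0 I Ch Sto Det c d j0 *
        ∑ co ∈ Ch.box.filter (fun co => co j0 = 0), (∏ j ∈ univ.erase j0, Ch.mm j (co j)) *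
          ∏ j ∈ univ.erase j0, (l8lG I Ch Sto Det c d j (co j) * I.eb (co j) ^ pw j)
      ≤ 2 ^ (B.erase j0).card * l8lX0 I Ch Sto Det c d j0 * ∏ j ∈ univ.erase j0, l8lVs I Ch Sto Det c d pw j :=
        mul_le_mul_of_nonneg_left h1 (by positivity)
    _ = 2 ^ (B.erase j0).card * (l8lX0 I Ch Sto Det c d j0 * ∏ j ∈ univ.erase j0, l8lVs I Ch Sto Det c d pw j) := by ring
    _ ≤ 2 ^ n * (l8lX0 I Ch Sto Det c d j0 * ∏ j ∈ univ.erase j0, l8lVs I Ch Sto Det c d pw j) :=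
        mul_le_mul_of_nonneg_right hc hR0
    _ ≤ _ := mul_le_mul_of_nonneg_left h2 (by positivity)

/-! ### ASSEMBLY (proved from the six leaves) -/

theorem l8l_cmax_nonneg (hI : I.Ok T) : 0 ≤ max I.c1 (max I.cv (I.c0 * I.E1)) :=
  le_trans hI.c1_nonneg (le_max_left _ _)

/-- the product of envelopes is `≤ 1` -/
theorem l8l_eb_prod_le_one (hI : I.Ok T) (F : Finset (Fin nv)) (co : Fin nv → ℕ) (pw : Fin nv → ℕ) :
    ∏ j ∈ F, I.eb (co j) ^ pw j ≤ 1 :=
  Finset.prod_le_one (fun j _ => pow_nonneg (hI.eb_nonneg _) _) (fun j _ => pow_le_one₀ (hI.eb_nonneg _) (hI.eb_le _))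

/-- ONE CLASS: labels `Λ`, set `B` of centred vertices, top vertex `j0` -/
theorem l8l_cen_class (H : L8LHyp T I Ch n r A0 w Sto Det c d) {B : Finset (Fin nv)} (hB : B ⊆ l8lJ Ch Sto c d) {j0 : Fin nv}
    (hj0 : j0 ∈ B) (Λ : Fin nv → ℕ) (W : (Fin nv → ℕ) → ℝ)
    (hW1 : ∀ co, W co ≠ 0 → w co ≠ 0 ∧ (∀ j ∈ B, l8lLam Ch Sto c d co j = Λ j) ∧ ∀ j ∈ B, co j ≤ co j0)
    (hW2 : ∀ co, |W co| ≤ |w co| * ∏ j ∈ l8lJ Ch Sto c d \ B, I.eb (co j) ^ l8lDeg Ch Sto c d j) :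
    |∑ co ∈ Ch.box, Ch.wt co * W co * ∫ ω, I.P0 (ω 0, ω 1) *
        ∏ j ∈ B, (I.Xi (co j) (ω (Λ j)) ^ l8lDeg Ch Sto c d j - I.am T (l8lDeg Ch Sto c d j) (co j)) ∂T.law (Ch.tab co)|
      ≤ A0 ^ nv * (2 ^ n * (I.Dab * max I.c1 (max I.cv (I.c0 * I.E1))) + 4 * 4 ^ n * n * I.eta) := by
  have hI := H.hI
  have hT := H.hT
  have hA : 0 ≤ A0 ^ nv := pow_nonneg (le_trans zero_le_one H.hA0) _
  have hm := l8l_cmax_nonneg hI
  have hD := hI.Dab_nonneg
  have he := hI.eta_nonneg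
  have hrhs : 0 ≤ A0 ^ nv * (2 ^ n * (I.Dab * max I.c1 (max I.cv (I.c0 * I.E1))) + 4 * 4 ^ n * n * I.eta) := by positivity
  by_cases hsupp : ∃ co, W co ≠ 0
  swap
  · push Not at hsupp
    simpa [hsupp] using hrhs
  obtain ⟨co1, hco1⟩ := hsupp
  obtain ⟨hw1, hΛ1, htop1⟩ := hW1 co1 hco1
  have hR := l8l_cen_hR H hB hj0 Λ hw1 hΛ1 htop1
  have hΛr : ∀ j ∈ B, Λ j < r := fun j hj => by rw [← hΛ1 j hj]; exact l8l_lam_lt H co1 j
  have hos := l8l_os hT hI Ch H.hCh.nonneg W j0 (insert 0 (insert 1 (B.image Λ))) (Λ j0) (l8lDeg Ch Sto c d j0)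
    (by simp only [Finset.mem_insert, Finset.mem_image]; exact Or.inr (Or.inr ⟨j0, hj0, rfl⟩))
    (by rw [H.hr]; exact hΛr j0 hj0) (by simp) (by simp) hR
    (fun co ω => ∏ j ∈ B.erase j0, l8lTr (2 * I.eb (co j) ^ l8lDeg Ch Sto c d j)
            (I.Xi (co j) (ω (Λ j)) ^ l8lDeg Ch Sto c d j - I.am T (l8lDeg Ch Sto c d j) (co j)))
    (fun co => ∏ j ∈ B.erase j0, 2 * I.eb (co j) ^ l8lDeg Ch Sto c d j)
    (by
      intro co
      refine Finset.measurable_prod _ fun j _ => ?_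
      exact (l8l_tr_meas _).comp ((((hI.Xi_meas _).comp (measurable_pi_apply _)).pow_const _).sub_const _))
    (by
      intro co x y hxy
      refine Finset.prod_congr rfl fun j hj => ?_
      have : x (Λ j) = y (Λ j) := hxy _ (by
        simp only [Finset.coe_insert, Finset.coe_image, Set.mem_insert_iff, Set.mem_image, Finset.mem_coe]
        exact Or.inr (Or.inr ⟨j, Finset.mem_of_mem_erase hj, rfl⟩))
      rw [this])
    (by
      intro co ω
      rw [Finset.abs_prod]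
      refine Finset.prod_le_prod (fun j _ => abs_nonneg _) fun j _ => ?_
      exact l8l_tr_abs_le (mul_nonneg zero_le_two (pow_nonneg (hI.eb_nonneg _) _)) _)
    (by
      intro co l
      funext ω
      refine Finset.prod_congr rfl fun j hj => ?_
      rw [Function.update_of_ne (Finset.ne_of_mem_erase hj)])
    (by
      intro co l
      refine Finset.prod_congr rfl fun j hj => ?_
      rw [Function.update_of_ne (Finset.ne_of_mem_erase hj)])
    (by
      intro co hco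
      have := H.val co (hW1 co hco).1
      exact ⟨this.tree, this.old⟩)
  -- the slices
  have hsl : ∑ co ∈ Ch.box.filter (fun co => co j0 = 0), (∏ j' ∈ univ.erase j0, Ch.mm j' (co j')) *
        (∏ j ∈ B.erase j0, 2 * I.eb (co j) ^ l8lDeg Ch Sto c d j) *
          Real.sqrt (∫ ω, (∑ l ∈ range Ch.L, Ch.mm j0 l * W (Function.update co j0 l) *
            (I.Xi l ω ^ l8lDeg Ch Sto c d j0 - I.am T (l8lDeg Ch Sto c d j0) l)) ^ 2 ∂T.μ)
      ≤ 2 ^ n * (A0 ^ nv * max I.c1 (max I.cv (I.c0 * I.E1))) := by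
    refine le_trans (Finset.sum_le_sum fun co _ => ?_) (l8l_cen_num H hB hj0)
    refine mul_le_mul_of_nonneg_left (l8l_cen_slice H hB hj0 W hW2 co) ?_
    exact mul_nonneg (Finset.prod_nonneg fun j _ => H.hCh.nonneg _ _)
      (Finset.prod_nonneg fun j _ => mul_nonneg zero_le_two (pow_nonneg (hI.eb_nonneg _) _))
  have h1 := hos.trans (mul_le_mul_of_nonneg_left hsl hD)
  -- the truncation error
  have h2 : |(∑ co ∈ Ch.box, Ch.wt co * W co * ∫ ω, I.P0 (ω 0, ω 1) *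
        ∏ j ∈ B, (I.Xi (co j) (ω (Λ j)) ^ l8lDeg Ch Sto c d j - I.am T (l8lDeg Ch Sto c d j) (co j)) ∂T.law (Ch.tab co))
      - ∑ co ∈ Ch.box, Ch.wt co * W co * ∫ ω, I.P0 (ω 0, ω 1) * (∏ j ∈ B.erase j0, l8lTr (2 * I.eb (co j) ^ l8lDeg Ch Sto c d j)
            (I.Xi (co j) (ω (Λ j)) ^ l8lDeg Ch Sto c d j - I.am T (l8lDeg Ch Sto c d j) (co j))) *
            (I.Xi (co j0) (ω (Λ j0)) ^ l8lDeg Ch Sto c d j0 - I.am T (l8lDeg Ch Sto c d j0) (co j0)) ∂T.law (Ch.tab co)|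
      ≤ 4 * 4 ^ n * n * I.eta * A0 ^ nv := by
    rw [← Finset.sum_sub_distrib]
    refine (Finset.abs_sum_le_sum_abs _ _).trans ?_
    refine le_trans (Finset.sum_le_sum (g := fun co => 4 * 4 ^ n * n * I.eta * (Ch.wt co * |w co|)) fun co _ => ?_) ?_
    · rw [← mul_sub, abs_mul, abs_mul, abs_of_nonneg (l8l_wt_nonneg H co)]
      by_cases hco : W co = 0
      · rw [hco]
        simp only [abs_zero, mul_zero, zero_mul]
        have := l8l_wt_nonneg H co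
        positivity
      · have ht := l8l_cen_trunc H hB hj0 Λ hΛr (hW1 co hco).1
        have hWw : |W co| ≤ |w co| := (hW2 co).trans
          (mul_le_of_le_one_right (abs_nonneg _) (l8l_eb_prod_le_one hI _ _ _))
        have h0 := l8l_wt_nonneg H co
        calc Ch.wt co * |W co| * _ ≤ Ch.wt co * |w co| * (4 * 4 ^ n * n * I.eta) :=
              mul_le_mul (mul_le_mul_of_nonneg_left hWw h0) ht (abs_nonneg _) (mul_nonneg h0 (abs_nonneg _))
          _ = _ := by ring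
    · rw [← Finset.mul_sum]
      exact mul_le_mul_of_nonneg_left (l8l_wsum H) (by positivity)
  have h3 := abs_sub_abs_le_abs_sub
    (∑ co ∈ Ch.box, Ch.wt co * W co * ∫ ω, I.P0 (ω 0, ω 1) *
        ∏ j ∈ B, (I.Xi (co j) (ω (Λ j)) ^ l8lDeg Ch Sto c d j - I.am T (l8lDeg Ch Sto c d j) (co j)) ∂T.law (Ch.tab co))
    (∑ co ∈ Ch.box, Ch.wt co * W co * ∫ ω, I.P0 (ω 0, ω 1) * (∏ j ∈ B.erase j0, l8lTr (2 * I.eb (co j) ^ l8lDeg Ch Sto c d j)
            (I.Xi (co j) (ω (Λ j)) ^ l8lDeg Ch Sto c d j - I.am T (l8lDeg Ch Sto c d j) (co j))) *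
            (I.Xi (co j0) (ω (Λ j0)) ^ l8lDeg Ch Sto c d j0 - I.am T (l8lDeg Ch Sto c d j0) (co j0)) ∂T.law (Ch.tab co))
  calc _ ≤ I.Dab * (2 ^ n * (A0 ^ nv * max I.c1 (max I.cv (I.c0 * I.E1)))) + 4 * 4 ^ n * n * I.eta * A0 ^ nv := by linarith
    _ = _ := by ring

/-- facts on a vertex which carries a stochastic factor, at a point of the support -/
theorem l8l_J_facts (H : L8LHyp T I Ch n r A0 w Sto Det c d) {j : Fin nv} (hj : j ∈ l8lJ Ch Sto c d) :
    1 ≤ l8lDeg Ch Sto c d j ∧ l8lDeg Ch Sto c d j ≤ I.dmax ∧ ∀ co, w co ≠ 0 → co j < I.ti := by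
  obtain ⟨h1, h2⟩ := l8l_sel_spec hj
  refine ⟨?_, ?_, ?_⟩
  · have := l8l_deg_pos Ch h1 c d
    rwa [h2] at this
  · have a1 := l8l_deg_le_card Ch Sto c d j
    have a2 : Sto.card ≤ (range n).card := Finset.card_le_card (fun x hx => H.sub (Finset.mem_union_left _ hx))
    rw [Finset.card_range] at a2
    exact a1.trans (a2.trans H.deg)
  · intro co hw
    have := H.low co hw _ (Finset.mem_union_left _ h1)
    rwa [h2] at this

theorem l8l_am_prod_le (H : L8LHyp T I Ch n r A0 w Sto Det c d) {co : Fin nv → ℕ} (hw : w co ≠ 0) {F : Finset (Fin nv)}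
    (hF : F ⊆ l8lJ Ch Sto c d) :
    |∏ j ∈ F, I.am T (l8lDeg Ch Sto c d j) (co j)| ≤ ∏ j ∈ F, I.eb (co j) ^ l8lDeg Ch Sto c d j := by
  rw [Finset.abs_prod]
  refine Finset.prod_le_prod (fun j _ => abs_nonneg _) fun j hj => ?_
  obtain ⟨a1, a2, a3⟩ := l8l_J_facts H (hF hj)
  exact H.hI.mean _ _ a1 a2 (a3 co hw)

/-- ONE SET `B ≠ ∅` of centred vertices: sum over the classes -/
theorem l8l_cen_B (H : L8LHyp T I Ch n r A0 w Sto Det c d) {B : Finset (Fin nv)} (hB : B ⊆ l8lJ Ch Sto c d) (hne : B.Nonempty) :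
    |∑ co ∈ Ch.box, Ch.wt co * w co * ((∏ j ∈ l8lJ Ch Sto c d \ B, I.am T (l8lDeg Ch Sto c d j) (co j)) *
        ∫ ω, I.P0 (ω 0, ω 1) * ∏ j ∈ B, (I.Xi (co j) (ω (l8lLam Ch Sto c d co j)) ^ l8lDeg Ch Sto c d j
          - I.am T (l8lDeg Ch Sto c d j) (co j)) ∂T.law (Ch.tab co))|
      ≤ (r ^ nv * nv : ℕ) * (A0 ^ nv * (2 ^ n * (I.Dab * max I.c1 (max I.cv (I.c0 * I.E1))) + 4 * 4 ^ n * n * I.eta)) := by
  classical
  have hI := H.hI
  have hA : 0 ≤ A0 ^ nv := pow_nonneg (le_trans zero_le_one H.hA0) _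
  have hm := l8l_cmax_nonneg hI
  have hD := hI.Dab_nonneg
  have he := hI.eta_nonneg
  have hrhs : 0 ≤ A0 ^ nv * (2 ^ n * (I.Dab * max I.c1 (max I.cv (I.c0 * I.E1))) + 4 * 4 ^ n * n * I.eta) := by positivity
  have hg : ∀ co ∈ Ch.box, ((l8lLam Ch Sto c d co, l8lTop B hne co) : (Fin nv → ℕ) × Fin nv)
      ∈ (Fintype.piFinset fun _ : Fin nv => range r) ×ˢ B := by
    intro co _
    rw [Finset.mem_product]
    refine ⟨?_, l8l_top_mem B hne co⟩
    rw [Fintype.mem_piFinset]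
    intro j
    exact Finset.mem_range.2 (l8l_lam_lt H co j)
  rw [← Finset.sum_fiberwise_of_maps_to hg]
  refine (Finset.abs_sum_le_sum_abs _ _).trans ?_
  have hcard : (((Fintype.piFinset fun _ : Fin nv => range r) ×ˢ B).card : ℝ) ≤ (r ^ nv * nv : ℕ) := by
    rw [Finset.card_product, Fintype.card_piFinset]
    simp only [Finset.card_range, Finset.prod_const, Finset.card_univ, Fintype.card_fin]
    have : B.card ≤ nv := by
      have := Finset.card_le_univ B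
      simpa using this
    exact_mod_cast Nat.mul_le_mul_left _ this
  refine le_trans (Finset.sum_le_card_nsmul _ _
    (A0 ^ nv * (2 ^ n * (I.Dab * max I.c1 (max I.cv (I.c0 * I.E1))) + 4 * 4 ^ n * n * I.eta)) ?_) ?_
  · rintro ⟨Λ, j0⟩ hy
    have hj0 : j0 ∈ B := (Finset.mem_product.1 hy).2
    have key := l8l_cen_class H hB hj0 Λ
      (fun co => if ((l8lLam Ch Sto c d co, l8lTop B hne co) : (Fin nv → ℕ) × Fin nv) = (Λ, j0)
        then w co * ∏ j ∈ l8lJ Ch Sto c d \ B, I.am T (l8lDeg Ch Sto c d j) (co j) else 0)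
      (by
        intro co hco
        split_ifs at hco with h
        · have h1 : l8lLam Ch Sto c d co = Λ := (Prod.ext_iff.1 h).1
          have h2 : l8lTop B hne co = j0 := (Prod.ext_iff.1 h).2
          refine ⟨left_ne_zero_of_mul hco, fun j _ => by rw [h1], ?_⟩
          rw [← h2]
          exact l8l_top_max B hne co
        · exact absurd rfl hco)
      (by
        intro co
        have h0 : 0 ≤ |w co| * ∏ j ∈ l8lJ Ch Sto c d \ B, I.eb (co j) ^ l8lDeg Ch Sto c d j :=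
          mul_nonneg (abs_nonneg _) (Finset.prod_nonneg fun j _ => pow_nonneg (hI.eb_nonneg _) _)
        split_ifs with h
        · by_cases hw : w co = 0
          · simp [hw]
          · rw [abs_mul]
            exact mul_le_mul_of_nonneg_left (l8l_am_prod_le H hw Finset.sdiff_subset) (abs_nonneg _)
        · simpa using h0)
    refine le_of_eq_of_le ?_ key
    congr 1
    rw [Finset.sum_filter]
    refine Finset.sum_congr rfl fun co _ => ?_
    split_ifs with h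
    · have h1 : l8lLam Ch Sto c d co = Λ := (Prod.ext_iff.1 h).1
      rw [h1]
      ring
    · simp
  · rw [nsmul_eq_mul]
    exact mul_le_mul_of_nonneg_right hcard hrhs

theorem l8l_cen : L8_LS_CEN := by
  intro n nv r
  refine ⟨2 ^ nv * (r ^ nv * nv : ℕ) * (2 ^ n + 4 * 4 ^ n * n), by positivity, ?_⟩
  intro Ω _ T I Ch A0 w Sto Det c d H
  have hI := H.hI
  have hT := H.hT
  have hA : 0 ≤ A0 ^ nv := pow_nonneg (le_trans zero_le_one H.hA0) _
  have hm := l8l_cmax_nonneg hI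
  have hD := hI.Dab_nonneg
  have he := hI.eta_nonneg
  have hrhs : 0 ≤ A0 ^ nv * (2 ^ n * (I.Dab * max I.c1 (max I.cv (I.c0 * I.E1))) + 4 * 4 ^ n * n * I.eta) := by positivity
  have e1 : l8lMix T I Ch w Sto ∅ (fun s => Ch.vtx (c s) (d s)) c c d
      = ∑ B ∈ (l8lJ Ch Sto c d).powerset, ∑ co ∈ Ch.box,
          Ch.wt co * w co * ((∏ j ∈ l8lJ Ch Sto c d \ B, I.am T (l8lDeg Ch Sto c d j) (co j)) *
        ∫ ω, I.P0 (ω 0, ω 1) * ∏ j ∈ B, (I.Xi (co j) (ω (l8lLam Ch Sto c d co j)) ^ l8lDeg Ch Sto c d j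
          - I.am T (l8lDeg Ch Sto c d j) (co j)) ∂T.law (Ch.tab co)) := by
    rw [Finset.sum_comm]
    unfold l8lMix
    refine Finset.sum_congr rfl fun co _ => ?_
    rw [← Finset.mul_sum]
    by_cases hw : w co = 0
    · simp [hw]
    · congr 1
      rw [l8l_cen_canon H hw]
      exact l8l_cen_expand hT hI (H.val co hw).tree _ co _ _
  rw [e1]
  refine (Finset.abs_sum_le_sum_abs _ _).trans ?_
  have hcard : (((l8lJ Ch Sto c d).powerset).card : ℝ) ≤ 2 ^ nv := by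
    rw [Finset.card_powerset]
    have : (l8lJ Ch Sto c d).card ≤ nv := by
      have := Finset.card_le_univ (l8lJ Ch Sto c d)
      simpa using this
    exact_mod_cast Nat.pow_le_pow_right (by norm_num) this
  refine le_trans (Finset.sum_le_card_nsmul _ _
    ((r ^ nv * nv : ℕ) * (A0 ^ nv * (2 ^ n * (I.Dab * max I.c1 (max I.cv (I.c0 * I.E1))) + 4 * 4 ^ n * n * I.eta))) ?_) ?_
  · intro B hB
    have hB' : B ⊆ l8lJ Ch Sto c d := Finset.mem_powerset.1 hB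
    rcases B.eq_empty_or_nonempty with rfl | hne
    · have : ∑ co ∈ Ch.box, Ch.wt co * w co * ((∏ j ∈ l8lJ Ch Sto c d \ ∅, I.am T (l8lDeg Ch Sto c d j) (co j)) *
          ∫ ω, I.P0 (ω 0, ω 1) * ∏ j ∈ (∅ : Finset (Fin nv)), (I.Xi (co j) (ω (l8lLam Ch Sto c d co j)) ^ l8lDeg Ch Sto c d j
          - I.am T (l8lDeg Ch Sto c d j) (co j)) ∂T.law (Ch.tab co)) = 0 := by
        refine Finset.sum_eq_zero fun co _ => ?_
        by_cases hw : w co = 0
        · simp [hw]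
        · have := l8l_P0_mean hT hI (H.val co hw).tree (H.val co hw).old
          simp only [Finset.prod_empty, mul_one]
          rw [this]
          ring
      rw [this, abs_zero]
      positivity
    · exact l8l_cen_B H hB' hne
  · rw [nsmul_eq_mul]
    have hq : (0:ℝ) ≤ 4 * 4 ^ n * n := by positivity
    have hDm : 0 ≤ I.Dab * max I.c1 (max I.cv (I.c0 * I.E1)) := mul_nonneg hD hm
    have hN : (0:ℝ) ≤ (r ^ nv * nv : ℕ) := Nat.cast_nonneg _
    calc (((l8lJ Ch Sto c d).powerset).card : ℝ) * ((r ^ nv * nv : ℕ) * (A0 ^ nv * (2 ^ n * (I.Dab * max I.c1 (max I.cv (I.c0 * I.E1))) + 4 * 4 ^ n * n * I.eta)))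
        ≤ 2 ^ nv * ((r ^ nv * nv : ℕ) * (A0 ^ nv * (2 ^ n * (I.Dab * max I.c1 (max I.cv (I.c0 * I.E1))) + 4 * 4 ^ n * n * I.eta))) :=
          mul_le_mul_of_nonneg_right hcard (mul_nonneg hN hrhs)
      _ ≤ 2 ^ nv * ((r ^ nv * nv : ℕ) * (A0 ^ nv * ((2 ^ n + 4 * 4 ^ n * n) * (I.Dab * max I.c1 (max I.cv (I.c0 * I.E1)) + I.eta)))) := by
          apply mul_le_mul_of_nonneg_left _ (by positivity)
          apply mul_le_mul_of_nonneg_left _ hN
          apply mul_le_mul_of_nonneg_left _ hA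
          have h2 : (0:ℝ) ≤ 2 ^ n := by positivity
          nlinarith [mul_nonneg hq hDm, mul_nonneg h2 he]
      _ = _ := by ring

end Claimed.Agent.R286
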