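import Claimed.Agent.R286.L08.LsAli
import Claimed.Agent.R286.L08.LsCen

/-!
# Row 286 (S0533), folder L08, file LsTop : the abstract low-source lemma from its two steps      (helper234)
-/

set_option autoImplicit false

namespace Claimed.Agent.R286

open MeasureTheory Finset

theorem l8l_abs_of (h1 : L8_LS_ALI) (h2 : L8_LS_CEN) : L8_LS_ABS := by
  intro n nv r
  obtain ⟨K1, hK1, H1⟩ := h1 n nv r
  obtain ⟨K2, hK2, H2⟩ := h2 n nv r
  refine ⟨K1 + K2, by positivity, ?_⟩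
  intro Ω _ T I Ch A0 w Sto Det c d H
  have e1 := H1 Ω T I Ch A0 w Sto Det c d H
  have e2 := H2 Ω T I Ch A0 w Sto Det c d H
  have hI := H.hI
  have hA : 0 ≤ A0 ^ nv := pow_nonneg (le_trans zero_le_one H.hA0) _
  have ha0 : 0 ≤ I.a0 := le_trans (Finset.sum_nonneg fun l _ => mul_nonneg (hI.mu_nonneg l) (hI.al_nonneg l)) hI.ha0
  have ha1 : 0 ≤ I.a1 := le_trans (Finset.sum_nonneg fun l _ =>
    mul_nonneg (mul_nonneg (hI.mu_nonneg l) (hI.eb_nonneg l)) (hI.al_nonneg l)) hI.ha1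
  have hav : 0 ≤ I.av := le_trans (Finset.sum_nonneg fun l _ =>
    mul_nonneg (mul_nonneg (hI.mu_nonneg l) (hI.vv_nonneg l)) (hI.al_nonneg l)) hI.hav
  have hE1 : 0 ≤ I.E1 := le_trans (Finset.sum_nonneg fun l _ => mul_nonneg (hI.mu_nonneg l) (hI.eb_nonneg l)) hI.hE1
  have hc0 := hI.c0_nonneg
  have hc1 := hI.c1_nonneg
  have hcv := hI.cv_nonneg
  have g1 : max I.a1 (max I.av (I.a0 * I.E1)) ≤ I.gain := by
    unfold L8LIn.gain
    refine max_le_max (by linarith) (max_le_max (by linarith) ?_)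
    exact mul_le_mul_of_nonneg_right (by linarith) hE1
  have g2 : max I.c1 (max I.cv (I.c0 * I.E1)) ≤ I.gain := by
    unfold L8LIn.gain
    refine max_le_max (by linarith) (max_le_max (by linarith) ?_)
    exact mul_le_mul_of_nonneg_right (by linarith) hE1
  have hD := hI.Dab_nonneg
  have f1 : K1 * A0 ^ nv * (I.Dab * max I.a1 (max I.av (I.a0 * I.E1)) + I.eta)
      ≤ K1 * A0 ^ nv * (I.Dab * I.gain + I.eta) := by
    apply mul_le_mul_of_nonneg_left _ (mul_nonneg hK1 hA)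
    have := mul_le_mul_of_nonneg_left g1 hD
    linarith
  have f2 : K2 * A0 ^ nv * (I.Dab * max I.c1 (max I.cv (I.c0 * I.E1)) + I.eta)
      ≤ K2 * A0 ^ nv * (I.Dab * I.gain + I.eta) := by
    apply mul_le_mul_of_nonneg_left _ (mul_nonneg hK2 hA)
    have := mul_le_mul_of_nonneg_left g2 hD
    linarith
  have tri : |l8lSum T I Ch w Sto c d| ≤ |l8lSum T I Ch w Sto c d - l8lMix T I Ch w Sto ∅ (fun s => Ch.vtx (c s) (d s)) c c d|
      + |l8lMix T I Ch w Sto ∅ (fun s => Ch.vtx (c s) (d s)) c c d| := by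
    have := abs_add_le (l8lSum T I Ch w Sto c d - l8lMix T I Ch w Sto ∅ (fun s => Ch.vtx (c s) (d s)) c c d)
      (l8lMix T I Ch w Sto ∅ (fun s => Ch.vtx (c s) (d s)) c c d)
    simpa using this
  calc |l8lSum T I Ch w Sto c d| ≤ _ := tri
    _ ≤ K1 * A0 ^ nv * (I.Dab * I.gain + I.eta) + K2 * A0 ^ nv * (I.Dab * I.gain + I.eta) := by linarith
    _ = (K1 + K2) * A0 ^ nv * (I.Dab * I.gain + I.eta) := by ring

theorem l8l_abs : L8_LS_ABS := l8l_abs_of l8l_ali l8l_cen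

end Claimed.Agent.R286
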