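import Claimed.Agent.R286.L08.LsLink
import Claimed.Agent.R286.L08.LsTwo
import Claimed.Agent.R286.L08.LsTop
import Claimed.Agent.R286.L08.LsChS
import Claimed.Agent.R286.L08.LsInst

/-!
# Row 286 (S0533), folder L08, file LsLk2 : (D16), SECOND conclusion, in the interface form `L8_LS2` from the chart form `L8_LS_TWO`      (helper297; interface typed by helper234; prefix `L8T` / `l8t_`)

TEX[LL:lem:statistics-low-sources], second conclusion ("compare its tilted and untilted expectations on the stop, with no `P`, using `δ* = Q* - S_v` in the tilted law and the same deterministic coefficients in both laws").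
Copy of `l8l_link` (`L08/LsLink.lean`, 234) for the contract `L8_LS_TWO` (`L08/LsTwo.lean`, 62; PROVED: `l8t_two l8l_abs`).
Inputs: the charts of `X.absK k 2 (jtTab2 N t0)` (`L8LCharted`, unit CH; the allocation measure is the one of the UNTILTED context, it is common to the two ensembles),
the representations `L8LRep` of the positive laws of BOTH contexts by consistent families of path laws on the SAME path space (unit SPI / `L08/LsInst.lean`), the analytic inputs `I : L8TIn Ω` of both ensembles.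

* sec. 1  `L8_LS2`, `L8TFit`, **`l8t_link`** (abstract contexts);
* sec. 2  THE SK FORMS (everything abstract is discharged: `l8l_abs`, `l8t_two`, charts `l8l_ch` at `abar = A0 = 4`, tree laws `l8li_rep`): on `llJs m a P ..`, `0 < a ≤ 4`, `LlStpAdm a P`:
          **`l8l_link_sk`** : `L8LFit` at every retained level ⟹ `L8_LS1 .. (K * gain) (K * eta)`;      **`l8t_link_sk`** : `L8TFit` ⟹ `L8_LS2 .. (K * (gain + eta))`;      `K` depends on `(k, n)` only;
* sec. 3  monotonicity of the two interface forms (`l8l_ls1_mono`, `l8t_ls2_mono`: larger bounds, fewer factors, smaller envelopes).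
-/

set_option autoImplicit false

namespace Claimed.Agent.R286

open MeasureTheory Finset

/-- **(D16), second conclusion, interface form**: tilted (`Xt`) minus untilted (`X`), no test, `δ^* = Q^* - S_v` in the tilted law (`S` = the UNTILTED mean), the same weight in both laws.
The labels `0, 1` = a base pair which shares `t0 ≥ ti` stages (LL 09 l.349); the consumer sums over `t0`. -/
def L8_LS2 {S : Type} (X Xt : JtCtx S) (ti : ℕ) (eb vv : ℕ → ℝ) (k n : ℕ) (Lam : ℝ) : Prop :=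
  ∀ t0, ti ≤ t0 → t0 ≤ X.N → ∀ (Sto Det : Finset ℕ) (c d : ℕ → ℕ) (w : JtTopo → ℝ),
    Sto.Nonempty → Disjoint Sto Det → Sto ∪ Det ⊆ range n →
    (∀ s ∈ Sto ∪ Det, c s < 2 + k ∧ d s < 2 + k ∧ c s ≠ d s) → JtLoc (2 + k) w →
    (∀ τ, w τ ≠ 0 → ∀ s ∈ Sto ∪ Det, τ (c s) (d s) < ti) →
    (∀ τ, |w τ| ≤ (∏ s ∈ Det, eb (τ (c s) (d s))) * if (Sto ∪ Det).card = 1 then ∏ s ∈ Sto, vv (τ (c s) (d s)) else 1) →
    |X.absK k 2 (jtTab2 X.N t0) fun τ => w τ *
        (Xt.nu (2 + k) τ (fun σ => ∏ s ∈ Sto, (Xt.Qs τ σ (c s) (d s) - X.Sf (τ (c s) (d s))))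
          - X.nu (2 + k) τ fun σ => ∏ s ∈ Sto, X.dl τ σ (c s) (d s))| ≤ Lam

/-- the analytic inputs of the two ensembles belong to the contexts `X` (untilted), `Xt` (tilted) -/
structure L8TFit {S : Type} (X Xt : JtCtx S) {Ω : Type} [MeasurableSpace Ω] (T : Bool → L8L Ω) (sp : Ω → S) (I : L8TIn Ω)
    (ti n : ℕ) (eb vv mu : ℕ → ℝ) (gain eta : ℝ) : Prop where
  ok : I.Ok T
  hti : I.ti = ti
  heb : I.eb = eb
  hvv : I.vv = vv
  hmu : I.mu = mu
  hd : n ≤ I.dmax
  hg : I.gain ≤ gain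
  he : I.eta ≤ eta
  /-- LOW levels only (ask of 225, as `L8LFit.hf`) -/
  hf0 : ∀ s l p, l < ti → I.fac false s l p = X.ov (sp p.1) (sp p.2) - X.Sf l
  hf1 : ∀ s l p, l < ti → I.fac true s l p = Xt.msk l * Xt.ov (sp p.1) (sp p.2) - X.Sf l

theorem l8t_lk2_eqns_cite : True := by
  have := @L8_LS2.eq_1
  trivial

/-- the gain of the two-ensemble inputs is nonnegative -/
theorem l8t_gain_nonneg {Ω : Type} [MeasurableSpace Ω] {T : Bool → L8L Ω} {I : L8TIn Ω} (hI : I.Ok T) : 0 ≤ I.gain := by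
  have ha1 : 0 ≤ I.a1 := le_trans (Finset.sum_nonneg fun l _ =>
    mul_nonneg (mul_nonneg (hI.mu_nonneg l) (hI.eb_nonneg l)) (hI.al_nonneg l)) hI.ha1
  unfold L8TIn.gain
  exact le_max_of_le_left (add_nonneg ha1 (mul_nonneg (by norm_num) hI.c1_nonneg))

theorem l8t_link (htwo : L8_LS_TWO) (n k nv nch : ℕ) : ∃ K : ℝ, 0 ≤ K ∧ ∀ (S : Type) (X Xt : JtCtx S) (Ω : Type) [MeasurableSpace Ω]
    (T : Bool → L8L Ω) (sp : Ω → S) (ti : ℕ) (Cch A0 : ℝ) (I : L8TIn Ω) (eb vv mu : ℕ → ℝ) (gain eta : ℝ),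
    L8LRep X (T false) sp (2 + k) → L8LRep Xt (T true) sp (2 + k) → Xt.N = X.N → 1 ≤ A0 → 0 ≤ Cch →
    L8TFit X Xt T sp I ti n eb vv mu gain eta →
    (∀ t0, ti ≤ t0 → t0 ≤ X.N → L8LCharted X.N mu t0 ti (2 + k) nv nch Cch A0 (X.absK k 2 (jtTab2 X.N t0))) →
    L8_LS2 X Xt ti eb vv k n (K * nch * Cch * A0 ^ (nv + 1) * (gain + eta)) := by
  obtain ⟨K, hK, H⟩ := htwo n nv (2 + k)
  refine ⟨K, hK, ?_⟩
  intro S X Xt Ω _ T sp ti Cch A0 I eb vv mu gain eta hRep hRept hN hA0 hCch F hChd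
  intro t0 h1 h2 Sto Det c d w hne hdisj hsub hlab hloc hlow hmaj
  obtain ⟨ι, _, Ch, ρ, hcard, hChOk, hL, hρ, hval, hsum⟩ := hChd t0 h1 h2
  -- the two tests
  set Gt : JtTopo → (ℕ → S) → ℝ := fun τ σ => ∏ s ∈ Sto, (Xt.Qs τ σ (c s) (d s) - X.Sf (τ (c s) (d s))) with hGt
  set Gu : JtTopo → (ℕ → S) → ℝ := fun τ σ => ∏ s ∈ Sto, X.dl τ σ (c s) (d s) with hGu
  have hGtc : ∀ τ τ', JtAgree (2 + k) τ τ' → Gt τ = Gt τ' := by
    intro τ τ' hag
    funext σ
    refine Finset.prod_congr rfl fun s hs => ?_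
    have hs' := hlab s (Finset.mem_union_left _ hs)
    unfold JtCtx.Qs
    rw [hag _ _ hs'.1 hs'.2.1]
  have hGuc : ∀ τ τ', JtAgree (2 + k) τ τ' → Gu τ = Gu τ' := by
    intro τ τ' hag
    funext σ
    refine Finset.prod_congr rfl fun s hs => ?_
    have hs' := hlab s (Finset.mem_union_left _ hs)
    unfold JtCtx.dl
    rw [hag _ _ hs'.1 hs'.2.1]
  have hGtu : ∀ τ, TrUses (2 + k) (Gt τ) := by
    intro τ σ σ' hσ
    refine Finset.prod_congr rfl fun s hs => ?_
    have hs' := hlab s (Finset.mem_union_left _ hs)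
    unfold JtCtx.Qs
    rw [hσ _ hs'.1, hσ _ hs'.2.1]
  have hGuu : ∀ τ, TrUses (2 + k) (Gu τ) := by
    intro τ σ σ' hσ
    refine Finset.prod_congr rfl fun s hs => ?_
    have hs' := hlab s (Finset.mem_union_left _ hs)
    unfold JtCtx.dl
    rw [hσ _ hs'.1, hσ _ hs'.2.1]
  -- the summand is local
  have hΦ : JtLoc (2 + k) fun τ => w τ * (Xt.nu (2 + k) τ (Gt τ) - X.nu (2 + k) τ (Gu τ)) := by
    intro τ τ' hag
    simp only
    rw [hloc τ τ' hag, hGtc τ τ' hag, hGuc τ τ' hag, hRep.congr τ τ' _ hag, hRept.congr τ τ' _ hag]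
  show |X.absK k 2 (jtTab2 X.N t0) fun τ => w τ * (Xt.nu (2 + k) τ (Gt τ) - X.nu (2 + k) τ (Gu τ))| ≤ _
  rw [hsum _ hΦ]
  have hg0 : 0 ≤ gain := le_trans (l8t_gain_nonneg F.ok) F.hg
  have he0 : 0 ≤ eta := le_trans F.ok.eta_nonneg F.he
  have hA : 0 ≤ A0 ^ (nv + 1) := pow_nonneg (le_trans zero_le_one hA0) _
  -- one chart
  have hone : ∀ i, |∑ co ∈ (Ch i).box, (Ch i).wt co * ρ i co *
      (w ((Ch i).tab co) * (Xt.nu (2 + k) ((Ch i).tab co) (Gt ((Ch i).tab co)) - X.nu (2 + k) ((Ch i).tab co) (Gu ((Ch i).tab co))))|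
      ≤ Cch * (K * A0 ^ (nv + 1) * (gain + eta)) := by
    intro i
    set w' : (Fin nv → ℕ) → ℝ := fun co => ρ i co * w ((Ch i).tab co) / Cch with hw'
    have hscale : ∀ co, ρ i co * w ((Ch i).tab co) = Cch * w' co := by
      intro co
      rcases eq_or_lt_of_le hCch with h0 | h0
      · have : ρ i co = 0 := le_antisymm (by rw [h0]; exact (hρ i co).2) (hρ i co).1
        simp [hw', this, ← h0]
      · simp only [hw']; field_simp
    have hw'0 : ∀ co, w' co ≠ 0 → ρ i co ≠ 0 ∧ w ((Ch i).tab co) ≠ 0 := by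
      intro co h
      constructor
      · intro h0; apply h; simp [hw', h0]
      · intro h0; apply h; simp [hw', h0]
    have hw'le : ∀ co, |w' co| ≤ |w ((Ch i).tab co)| := by
      intro co
      rcases eq_or_lt_of_le hCch with h0 | h0
      · simp [hw', ← h0]
      · simp only [hw', abs_div, abs_mul, abs_of_pos h0, abs_of_nonneg (hρ i co).1]
        rw [div_le_iff₀ h0]
        have := mul_le_mul_of_nonneg_right (hρ i co).2 (abs_nonneg (w ((Ch i).tab co)))
        linarith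
    have hV : ∀ e, (T e).V = IsTr X.N (2 + k) := by
      intro e
      cases e
      · exact hRep.hV
      · rw [hRept.hV, hN]
    have HH : L8THyp T I (Ch i) n (2 + k) A0 w' Sto Det c d := by
      refine ⟨fun e => by cases e; exacts [hRep.ok, hRept.ok], F.ok, fun e => by cases e; exacts [hRep.hr, hRept.hr], hA0, ?_, hne, hdisj,
        hsub, F.hd, hlab, ?_, ?_, ?_, ?_⟩
      · rw [F.hmu, F.hti]; exact hChOk i
      · intro co h
        rw [F.hti, (hval i co (hw'0 co h).1).old]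
        exact h1
      · intro co h
        have v := hval i co (hw'0 co h).1
        rw [F.hti]
        exact ⟨fun e => by rw [hV e]; exact v.tree, rfl, v.same⟩
      · intro co h s hs
        rw [F.hti]
        exact hlow _ (hw'0 co h).2 s hs
      · intro co
        refine le_trans (hw'le co) ?_
        have := hmaj ((Ch i).tab co)
        rw [F.heb, F.hvv]
        exact this
    have hb := H Ω T I (Ch i) A0 w' Sto Det c d HH
    have heq : ∑ co ∈ (Ch i).box, (Ch i).wt co * ρ i co *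
        (w ((Ch i).tab co) * (Xt.nu (2 + k) ((Ch i).tab co) (Gt ((Ch i).tab co)) - X.nu (2 + k) ((Ch i).tab co) (Gu ((Ch i).tab co))))
        = Cch * (l8tSum (T true) (I.fac true) (Ch i) w' Sto c d - l8tSum (T false) (I.fac false) (Ch i) w' Sto c d) := by
      unfold l8tSum
      rw [← Finset.sum_sub_distrib, Finset.mul_sum]
      refine Finset.sum_congr rfl fun co _ => ?_
      by_cases hw0 : w' co = 0
      · have h0 := hscale co
        rw [hw0, mul_zero] at h0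
        have : (Ch i).wt co * ρ i co * (w ((Ch i).tab co) * (Xt.nu (2 + k) ((Ch i).tab co) (Gt ((Ch i).tab co)) - X.nu (2 + k) ((Ch i).tab co) (Gu ((Ch i).tab co))))
            = (Ch i).wt co * (ρ i co * w ((Ch i).tab co)) * (Xt.nu (2 + k) ((Ch i).tab co) (Gt ((Ch i).tab co)) - X.nu (2 + k) ((Ch i).tab co) (Gu ((Ch i).tab co))) := by ring
        rw [this, h0, hw0]
        simp
      · have hr0 : ρ i co ≠ 0 := (hw'0 co hw0).1
        have hlw : ∀ s ∈ Sto, co ((Ch i).vtx (c s) (d s)) < ti := fun s hs => hlow _ (hw'0 co hw0).2 s (Finset.mem_union_left _ hs)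
        have htr : IsTr X.N (2 + k) ((Ch i).tab co) := (hval i co hr0).tree
        have htr' : IsTr Xt.N (2 + k) ((Ch i).tab co) := by rw [hN]; exact htr
        rw [hRep.rep _ htr _ (hGuu _), hRept.rep _ htr' _ (hGtu _)]
        have hint0 : (∫ ω, Gu ((Ch i).tab co) (fun x => sp (ω x)) ∂(T false).law ((Ch i).tab co))
            = ∫ ω, ∏ s ∈ Sto, I.fac false s (co ((Ch i).vtx (c s) (d s))) (ω (c s), ω (d s)) ∂(T false).law ((Ch i).tab co) := by
          refine integral_congr_ae (Filter.Eventually.of_forall fun ω => ?_)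
          simp only [hGu]
          refine Finset.prod_congr rfl fun s hs => ?_
          rw [F.hf0 _ _ _ (hlw s hs)]
          simp only [JtCtx.dl, L8LCh.tab]
        have hint1 : (∫ ω, Gt ((Ch i).tab co) (fun x => sp (ω x)) ∂(T true).law ((Ch i).tab co))
            = ∫ ω, ∏ s ∈ Sto, I.fac true s (co ((Ch i).vtx (c s) (d s))) (ω (c s), ω (d s)) ∂(T true).law ((Ch i).tab co) := by
          refine integral_congr_ae (Filter.Eventually.of_forall fun ω => ?_)
          simp only [hGt]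
          refine Finset.prod_congr rfl fun s hs => ?_
          rw [F.hf1 _ _ _ (hlw s hs)]
          simp only [JtCtx.Qs, L8LCh.tab]
        rw [hint0, hint1]
        have := hscale co
        generalize (∫ ω, ∏ s ∈ Sto, I.fac false s (co ((Ch i).vtx (c s) (d s))) (ω (c s), ω (d s)) ∂(T false).law ((Ch i).tab co)) = Z0
        generalize (∫ ω, ∏ s ∈ Sto, I.fac true s (co ((Ch i).vtx (c s) (d s))) (ω (c s), ω (d s)) ∂(T true).law ((Ch i).tab co)) = Z1
        calc (Ch i).wt co * ρ i co * (w ((Ch i).tab co) * (Z1 - Z0)) = (Ch i).wt co * (ρ i co * w ((Ch i).tab co)) * (Z1 - Z0) := by ring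
          _ = Cch * ((Ch i).wt co * w' co * Z1 - (Ch i).wt co * w' co * Z0) := by rw [this]; ring
    rw [heq, abs_mul, abs_of_nonneg hCch]
    apply mul_le_mul_of_nonneg_left _ hCch
    refine le_trans hb ?_
    apply mul_le_mul_of_nonneg_left _ (mul_nonneg hK hA)
    linarith [F.hg, F.he]
  have hbnd : 0 ≤ Cch * (K * A0 ^ (nv + 1) * (gain + eta)) := by positivity
  calc |∑ i, ∑ co ∈ (Ch i).box, (Ch i).wt co * ρ i co *
      (w ((Ch i).tab co) * (Xt.nu (2 + k) ((Ch i).tab co) (Gt ((Ch i).tab co)) - X.nu (2 + k) ((Ch i).tab co) (Gu ((Ch i).tab co))))|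
      ≤ ∑ i : ι, Cch * (K * A0 ^ (nv + 1) * (gain + eta)) :=
        le_trans (Finset.abs_sum_le_sum_abs _ _) (Finset.sum_le_sum fun i _ => hone i)
    _ = (Fintype.card ι : ℝ) * (Cch * (K * A0 ^ (nv + 1) * (gain + eta))) := by
        rw [Finset.sum_const, Finset.card_univ, nsmul_eq_mul]
    _ ≤ (nch : ℝ) * (Cch * (K * A0 ^ (nv + 1) * (gain + eta))) :=
        mul_le_mul_of_nonneg_right (by exact_mod_cast hcard) hbnd
    _ = K * nch * Cch * A0 ^ (nv + 1) * (gain + eta) := by ring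

/-! ## 2. the SK forms -/

theorem l8t_ms_top (a : ℝ) (P : LlStp) : llMs a P P.length = a := by
  simp [llMs]

/-- the charts of the absolute allocation measure of the SK context -/
theorem l8t_charted_sk (k : ℕ) : ∃ (nch : ℕ) (Cch : ℝ), 0 ≤ Cch ∧ ∀ (m : ℕ) (a : ℝ) (P : LlStp) (tl : Option ℕ) (t0 ti : ℕ), 0 < a → a ≤ 4 → LlStpAdm a P →
    ti ≤ t0 → t0 ≤ P.length →
    L8LCharted P.length (l8lMu (llMs a P) P.length) t0 ti (2 + k) (2 + k) nch Cch 4 ((llJs m a P tl).absK k 2 (jtTab2 P.length t0)) := by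
  obtain ⟨nch, Cch, hC, H⟩ := l8l_ch k 4
  refine ⟨nch, Cch, hC, ?_⟩
  intro m a P tl t0 ti ha ha4 hP h1 h2
  exact H P.length (llMs a P) t0 ti 4 (ll2_isMs ha hP) (by rw [l8t_ms_top]; exact ha4) le_rfl (by norm_num) h1 h2

/-- **(D16), first conclusion, SK form of the link**: only the analytic inputs are left -/
theorem l8l_link_sk (k n : ℕ) : ∃ K : ℝ, 0 ≤ K ∧ ∀ (m : ℕ) (a : ℝ) (P : LlStp) (tl : Option ℕ) (ti : ℕ) (J : ℕ → L8LIn (SkOm m)) (eb vv : ℕ → ℝ) (gain eta : ℝ),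
    0 < a → a ≤ 4 → LlStpAdm a P →
    (∀ t0, ti ≤ t0 → t0 ≤ P.length →
      L8LFit (llJs m a P tl) (l8liSk m a P tl (2 + k)) Prod.snd (J t0) t0 ti n eb vv (l8lMu (llMs a P) P.length) gain eta) →
    L8_LS1 (llJs m a P tl) ti eb vv k n (K * gain) (K * eta) := by
  obtain ⟨nch, Cch, hC, hch⟩ := l8t_charted_sk k
  obtain ⟨K, hK, H⟩ := l8l_link l8l_abs n k (2 + k) nch
  refine ⟨K * nch * Cch * 4 ^ (2 + k), by positivity, ?_⟩
  intro m a P tl ti J eb vv gain eta ha ha4 hP hfit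
  exact H (SkCfg m) (llJs m a P tl) (SkOm m) (l8liSk m a P tl (2 + k)) Prod.snd ti Cch 4 J eb vv (l8lMu (llMs a P) P.length) gain eta
    (l8li_rep m a ha P hP tl (2 + k) (by omega)) (by norm_num) hC hfit (fun t0 h1 h2 => hch m a P tl t0 ti ha ha4 hP h1 h2)

/-- the two families of tree laws -/
noncomputable def l8tSk (m : ℕ) (a : ℝ) (P : LlStp) (js r : ℕ) (e : Bool) : L8L (SkOm m) := l8liSk m a P (if e then some js else none) r

/-- **(D16), second conclusion, SK form of the link**: only the analytic inputs of the two ensembles are left -/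
theorem l8t_link_sk (k n : ℕ) : ∃ K : ℝ, 0 ≤ K ∧ ∀ (m : ℕ) (a : ℝ) (P : LlStp) (js ti : ℕ) (J : L8TIn (SkOm m)) (eb vv : ℕ → ℝ) (gain eta : ℝ),
    0 < a → a ≤ 4 → LlStpAdm a P →
    L8TFit (llJs m a P none) (llJs m a P (some js)) (l8tSk m a P js (2 + k)) Prod.snd J ti n eb vv (l8lMu (llMs a P) P.length) gain eta →
    L8_LS2 (llJs m a P none) (llJs m a P (some js)) ti eb vv k n (K * (gain + eta)) := by
  obtain ⟨nch, Cch, hC, hch⟩ := l8t_charted_sk k
  obtain ⟨K, hK, H⟩ := l8t_link (l8t_two l8l_abs) n k (2 + k) nch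
  refine ⟨K * nch * Cch * 4 ^ (2 + k + 1), by positivity, ?_⟩
  intro m a P js ti J eb vv gain eta ha ha4 hP hfit
  exact H (SkCfg m) (llJs m a P none) (llJs m a P (some js)) (SkOm m) (l8tSk m a P js (2 + k)) Prod.snd ti Cch 4 J eb vv
    (l8lMu (llMs a P) P.length) gain eta (l8li_rep m a ha P hP none (2 + k) (by omega)) (l8li_rep m a ha P hP (some js) (2 + k) (by omega)) rfl
    (by norm_num) hC hfit (fun t0 h1 h2 => hch m a P none t0 ti ha ha4 hP h1 h2)

theorem l8t_sk_eqns_cite : True := by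
  have := @l8tSk.eq_1
  trivial

/-! ## 3. monotonicity of the interface forms -/

/-- the majorant of the weight is monotone in the envelopes on the low levels -/
theorem l8t_maj_mono {ti : ℕ} {eb eb' vv vv' : ℕ → ℝ} (h0 : ∀ l, 0 ≤ eb l) (h0' : ∀ l, 0 ≤ eb' l) (hle : ∀ l, l < ti → eb' l ≤ eb l)
    (v0 : ∀ l, 0 ≤ vv l) (v0' : ∀ l, 0 ≤ vv' l) (vle : ∀ l, l < ti → vv' l ≤ vv l)
    (Sto Det : Finset ℕ) (c d : ℕ → ℕ) (w : JtTopo → ℝ) (hlow : ∀ τ, w τ ≠ 0 → ∀ s ∈ Sto ∪ Det, τ (c s) (d s) < ti)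
    (hmaj : ∀ τ, |w τ| ≤ (∏ s ∈ Det, eb' (τ (c s) (d s))) * if (Sto ∪ Det).card = 1 then ∏ s ∈ Sto, vv' (τ (c s) (d s)) else 1) (τ : JtTopo) :
    |w τ| ≤ (∏ s ∈ Det, eb (τ (c s) (d s))) * if (Sto ∪ Det).card = 1 then ∏ s ∈ Sto, vv (τ (c s) (d s)) else 1 := by
  by_cases hw : w τ = 0
  · rw [hw, abs_zero]
    refine mul_nonneg (Finset.prod_nonneg fun s _ => h0 _) ?_
    split_ifs
    · exact Finset.prod_nonneg fun s _ => v0 _
    · exact zero_le_one
  · refine (hmaj τ).trans ?_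
    have hl := hlow τ hw
    refine mul_le_mul (Finset.prod_le_prod (fun s _ => h0' _) fun s hs => hle _ (hl s (Finset.mem_union_right _ hs))) ?_ ?_
      (Finset.prod_nonneg fun s _ => h0 _)
    · split_ifs
      · exact Finset.prod_le_prod (fun s _ => v0' _) fun s hs => vle _ (hl s (Finset.mem_union_left _ hs))
      · exact le_rfl
    · split_ifs
      · exact Finset.prod_nonneg fun s _ => v0' _
      · exact zero_le_one

/-- `L8_LS1` : larger bounds, fewer factors, smaller envelopes -/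
theorem l8l_ls1_mono {S : Type} {X : JtCtx S} {ti : ℕ} {eb eb' vv vv' : ℕ → ℝ} {k n n' : ℕ} {Lam Lam' eta eta' : ℝ}
    (h : L8_LS1 X ti eb vv k n Lam eta) (hn : n' ≤ n) (hL : Lam ≤ Lam') (he : eta ≤ eta')
    (h0 : ∀ l, 0 ≤ eb l) (h0' : ∀ l, 0 ≤ eb' l) (hle : ∀ l, l < ti → eb' l ≤ eb l)
    (v0 : ∀ l, 0 ≤ vv l) (v0' : ∀ l, 0 ≤ vv' l) (vle : ∀ l, l < ti → vv' l ≤ vv l) : L8_LS1 X ti eb' vv' k n' Lam' eta' := by
  intro t0 h1 h2 Sto Det c d w hne hdisj hsub hlab hloc hlow hmaj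
  refine (h t0 h1 h2 Sto Det c d w hne hdisj (hsub.trans (Finset.range_subset_range.2 hn)) hlab hloc hlow
    (l8t_maj_mono h0 h0' hle v0 v0' vle Sto Det c d w hlow hmaj)).trans ?_
  have hD : 0 ≤ X.Dd t0 := Real.sqrt_nonneg _
  have := mul_le_mul_of_nonneg_right hL hD
  linarith

/-- `L8_LS2` : larger bounds, fewer factors, smaller envelopes -/
theorem l8t_ls2_mono {S : Type} {X Xt : JtCtx S} {ti : ℕ} {eb eb' vv vv' : ℕ → ℝ} {k n n' : ℕ} {Lam Lam' : ℝ}
    (h : L8_LS2 X Xt ti eb vv k n Lam) (hn : n' ≤ n) (hL : Lam ≤ Lam')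
    (h0 : ∀ l, 0 ≤ eb l) (h0' : ∀ l, 0 ≤ eb' l) (hle : ∀ l, l < ti → eb' l ≤ eb l)
    (v0 : ∀ l, 0 ≤ vv l) (v0' : ∀ l, 0 ≤ vv' l) (vle : ∀ l, l < ti → vv' l ≤ vv l) : L8_LS2 X Xt ti eb' vv' k n' Lam' := by
  intro t0 h1 h2 Sto Det c d w hne hdisj hsub hlab hloc hlow hmaj
  exact (h t0 h1 h2 Sto Det c d w hne hdisj (hsub.trans (Finset.range_subset_range.2 hn)) hlab hloc hlow
    (l8t_maj_mono h0 h0' hle v0 v0' vle Sto Det c d w hlow hmaj)).trans hL

end Claimed.Agent.R286
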