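-- KEEP
import Claimed.Agent.R286.L08.DdExit

/-!
# Row 286 (S0533), folder L08, file DdHigh : THE DOTTED CHAIN DEFECT AT ALL CUTS, `L¹`-EXCESS FORM      (owner helper226; prefix `l8dh_`; idea of helper124, ruling of helper60 07:00Z, post of helper82 07:08Z)

WHY.   `l8dd_exit` (L08/DdExit) bounds `|I.dd k|` on a SIZE path only at the cuts below the kinks of `Â⁻¹` (`v (k-1) ≤ vl`): at a cut which sits in the window of a kink the own-cut Taylor defect of `KC k` at the step `h0` is `O(h0)`, not `O(h0²)`.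
WHAT.   EXIT `l8dh_exit`: for all sufficiently fine chains, uniformly in the point, AT EVERY POINT WHERE THE SCALAR CLOCK VALUES `KC j` (`j ≤ n`) OF THE CHAIN ARE DIFFERENTIABLE in the parameter (`L9I.Dif`):
    `∃ ex ≥ 0`,   `∑_{k ≤ n} dv k * ex k ≤ η N`,      `|I.dd k| ≤ Lp + η N + ex k`   at ALL cuts `k ≤ n`, for EVERY local Lipschitz constant `Lp` of the path part `I.Dp k` (as in `l8dd_exit`).
HOW.   (M) (`l8dd_Mq`) with the direction `Kd` of the supply UPDATED AT THE OWN CUT ONLY by the true derivative `κ = deriv (KC k)` (on the chain at `k`, on the finer chain at the same position `k'`: `KC' k' = KC k`, `l8dd_refine`; NO differentiability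
on the finer chains):   defect `≤ E h (h + μ) + 5 C0 T_k(h)`, `T_k(h) = |KC k (t + σ h) - KC k (t) - σ h κ|`.   (FD) at `h0`: the Taylor coefficient of `q^chain - q^finer` is `≤ (2 η + E h0 (h0 + μ) + 10 C0 T_k(h0))/h0`;   small steps: `T_k(h) = o(h)`.
`ex k = 10 C0 Bm T_k(h0)/h0`;      `∑ dv T(h0) ≤ C h0 (h0 + 2 μ)`: `DdS.km` (b) + its limit `h → 0` (`∑ dv |κ - Kd| ≤ C μ`; differentiability at the cuts of the OWN chain).
PARTS: A abstract (`l8dh_r_incr`, `l8dh_core`, `l8dh_little`, `l8dh_sum`) | B (M) with the own cut updated (`L8In.DdS.MqH`) | C one instance (`l8dh_one`) | D `l8dh_link` | E `l8dh_exit`.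
TEX[LL:prop:statistics-pointwise] TEX[LL:paths:parameter-regularity]
-/

set_option autoImplicit false

namespace Claimed.Agent.R286

open Set Filter Topology

/-! ## A. abstract -/

/-- `l8dd_r_incr` with an extra defect (`T0` at the step `h0`, `Th` at the step `h`) -/
theorem l8dh_r_incr {r : ℝ → ℝ} {t σ h0 h η E μ T0 Th : ℝ} (hσ : |σ| = 1) (hh0 : 0 < h0) (hh : 0 < h) (hhh : h ≤ h0) (hE : 0 ≤ E)
    (H : ∀ ε' : ℝ, 0 < ε' → ∃ (φ : ℝ → ℝ) (L : ℝ), |r t - φ t| ≤ ε' ∧ |r (t + σ * h0) - φ (t + σ * h0)| ≤ ε' ∧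
      |r (t + σ * h) - φ (t + σ * h)| ≤ ε' ∧ |φ (t + σ * h0) - φ t - σ * h0 * L| ≤ E * h0 * (h0 + μ) + T0 ∧
      |φ (t + σ * h) - φ t - σ * h * L| ≤ E * h * (h + μ) + Th)
    (b0 : |r t| ≤ η) (b1 : |r (t + σ * h0)| ≤ η) :
    |r (t + σ * h) - r t| ≤ (2 * η / h0 + 2 * E * (h0 + μ) + T0 / h0) * h + Th := by
  refine le_of_forall_pos_le_add fun δ hδ => ?_
  obtain ⟨φ, L, c0, c1, c2, T0', T'⟩ := H (δ / 4) (by linarith)
  have tri : ∀ x y : ℝ, |y| ≤ |x| + |x - y| := by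
    intro x y
    have : y = x + -(x - y) := by ring
    calc |y| = |x + -(x - y)| := by rw [← this]
      _ ≤ |x| + |-(x - y)| := abs_add_le _ _
      _ = _ := by rw [abs_neg]
  have p0 : |φ t| ≤ η + δ / 4 := (tri (r t) (φ t)).trans (by linarith)
  have p1 : |φ (t + σ * h0)| ≤ η + δ / 4 := (tri (r (t + σ * h0)) (φ (t + σ * h0))).trans (by linarith)
  have k := l8dd_incr hσ hh0 hh.le p0 p1 T0' T'
  have k2 : |r (t + σ * h) - r t| ≤ |φ (t + σ * h) - φ t| + δ / 4 + δ / 4 := by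
    have e : r (t + σ * h) - r t = (φ (t + σ * h) - φ t) + (r (t + σ * h) - φ (t + σ * h)) + -(r t - φ t) := by ring
    calc |r (t + σ * h) - r t| = |(φ (t + σ * h) - φ t) + (r (t + σ * h) - φ (t + σ * h)) + -(r t - φ t)| := by rw [← e]
      _ ≤ |(φ (t + σ * h) - φ t) + (r (t + σ * h) - φ (t + σ * h))| + |-(r t - φ t)| := abs_add_le _ _
      _ ≤ |φ (t + σ * h) - φ t| + |r (t + σ * h) - φ (t + σ * h)| + |-(r t - φ t)| := by gcongr; exact abs_add_le _ _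
      _ ≤ _ := by rw [abs_neg]; linarith
  have k3 : h * ((2 * (η + δ / 4) + (E * h0 * (h0 + μ) + T0)) / h0) = (2 * η / h0 + E * (h0 + μ) + T0 / h0) * h + (h / h0) * (δ / 2) := by
    field_simp
    ring
  have k4 : h / h0 ≤ 1 := (div_le_one hh0).2 hhh
  have k5 : (h / h0) * (δ / 2) ≤ δ / 2 := by nlinarith
  have k6 : E * h * (h + μ) ≤ E * (h0 + μ) * h := by
    have : E * h * (h + μ) ≤ E * h * (h0 + μ) := mul_le_mul_of_nonneg_left (by linarith) (mul_nonneg hE hh.le)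
    linarith
  rw [k3] at k
  nlinarith

/-- `l8dd_core` with increments of `r` which are `≤ ε h + o(h)` -/
theorem l8dh_core {g D B r Th : ℝ → ℝ} {t σ h1 Lp Bm LB η ε : ℝ} (hσ : |σ| = 1) (hh1 : 0 < h1) (hBm : 0 ≤ Bm)
    (hg : ∀ h, 0 ≤ h → h ≤ h1 → g (t + σ * h) = D (t + σ * h) + B (t + σ * h) * r (t + σ * h))
    (hD : ∀ h, 0 < h → h ≤ h1 → |D (t + σ * h) - D t| ≤ Lp * h)
    (hB : ∀ h, 0 < h → h ≤ h1 → |B (t + σ * h)| ≤ Bm)
    (hB' : ∀ h, 0 < h → h ≤ h1 → |B (t + σ * h) - B t| ≤ LB * h)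
    (hr : |r t| ≤ η)
    (hr' : ∀ h, 0 < h → h ≤ h1 → |r (t + σ * h) - r t| ≤ ε * h + Th h)
    (hT : ∀ δ : ℝ, 0 < δ → ∃ h3 : ℝ, 0 < h3 ∧ ∀ h, 0 < h → h ≤ h3 → Th h ≤ δ * h) : |deriv g t| ≤ Lp + Bm * ε + LB * η := by
  refine le_of_forall_pos_le_add fun δ hδ => ?_
  have hB1 : 0 < Bm + 1 := by linarith
  obtain ⟨h3, hh3, H3⟩ := hT (δ / (Bm + 1)) (div_pos hδ hB1)
  have hm : 0 < min h1 h3 := lt_min hh1 hh3
  have key := l8dd_core (g := g) (D := D) (B := B) (r := r) (Lp := Lp) (Bm := Bm) (LB := LB) (η := η) (ε := ε + δ / (Bm + 1)) hσ hm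
    (fun h a b => hg h a (b.trans (min_le_left _ _))) (fun h a b => hD h a (b.trans (min_le_left _ _)))
    (fun h a b => hB h a (b.trans (min_le_left _ _))) (fun h a b => hB' h a (b.trans (min_le_left _ _))) hr
    (fun h a b => by
      have h1' := hr' h a (b.trans (min_le_left _ _))
      have h2' := H3 h a (b.trans (min_le_right _ _))
      linarith)
  have e : Bm * (δ / (Bm + 1)) ≤ δ := by
    rw [← mul_div_assoc, div_le_iff₀ hB1]
    nlinarith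
  linarith

/-- differentiability, read along one direction -/
theorem l8dh_little {f : ℝ → ℝ} {t σ : ℝ} (hσ : |σ| = 1) (hf : DifferentiableAt ℝ f t) :
    ∀ δ : ℝ, 0 < δ → ∃ h3 : ℝ, 0 < h3 ∧ ∀ h, 0 < h → h ≤ h3 → |f (t + σ * h) - f t - σ * h * deriv f t| ≤ δ * h := by
  intro δ hδ
  have h1 := hf.hasDerivAt
  rw [hasDerivAt_iff_isLittleO] at h1
  obtain ⟨ε, hε, H⟩ := Metric.eventually_nhds_iff.1 (h1.def hδ)
  refine ⟨ε / 2, half_pos hε, fun h hh hh' => ?_⟩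
  have e : t + σ * h - t = σ * h := by ring
  have e2 : |σ * h| = h := by rw [abs_mul, hσ, one_mul, abs_of_pos hh]
  have := H (y := t + σ * h) (by rw [Real.dist_eq, e, e2]; linarith)
  rw [e, Real.norm_eq_abs, Real.norm_eq_abs, e2, smul_eq_mul] at this
  exact this

/-- the weighted sum of the Taylor defects with the TRUE derivatives -/
theorem l8dh_sum {n : ℕ} {w : ℕ → ℝ} (hw : ∀ j, 0 ≤ w j) {f : ℕ → ℝ → ℝ} {t σ h1 C μ : ℝ} {Kd : ℕ → ℝ} (hσ : |σ| = 1) (hh1 : 0 < h1) (hC : 0 ≤ C)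
    (hf : ∀ j ∈ Finset.range n, DifferentiableAt ℝ (f j) t)
    (H : ∀ h, 0 < h → h ≤ h1 → ∑ j ∈ Finset.range n, w j * |f j (t + σ * h) - f j t - σ * h * Kd j| ≤ C * h * (h + μ)) :
    ∀ h, 0 < h → h ≤ h1 → ∑ j ∈ Finset.range n, w j * |f j (t + σ * h) - f j t - σ * h * deriv (f j) t| ≤ C * h * (h + 2 * μ) := by
  set W : ℝ := ∑ j ∈ Finset.range n, w j with hW
  have hW0 : 0 ≤ W := Finset.sum_nonneg fun j _ => hw j
  -- the limit `h → 0`
  have hS : ∑ j ∈ Finset.range n, w j * |deriv (f j) t - Kd j| ≤ C * μ := by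
    refine le_of_forall_pos_le_add fun δ hδ => ?_
    have hd : 0 < δ / (C + W + 1) := div_pos hδ (by linarith)
    set δ' : ℝ := δ / (C + W + 1) with hδ'
    have ev : ∀ᶠ h in 𝓝[>] (0 : ℝ), ∀ j ∈ Finset.range n, |f j (t + σ * h) - f j t - σ * h * deriv (f j) t| ≤ δ' * h := by
      rw [Filter.eventually_all_finset]
      intro j hj
      obtain ⟨h3, hh3, H3⟩ := l8dh_little hσ (hf j hj) δ' hd
      filter_upwards [Ioc_mem_nhdsGT hh3] with h hh
      exact H3 h hh.1 hh.2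
    obtain ⟨h, hev, hh⟩ := (ev.and (Ioc_mem_nhdsGT (lt_min hh1 hd))).exists
    have hh0 : 0 < h := hh.1
    have hle1 : h ≤ h1 := hh.2.trans (min_le_left _ _)
    have hle2 : h ≤ δ' := hh.2.trans (min_le_right _ _)
    have pt : ∀ j ∈ Finset.range n, w j * (h * |deriv (f j) t - Kd j|) ≤ w j * |f j (t + σ * h) - f j t - σ * h * Kd j| + w j * (δ' * h) := by
      intro j hj
      rw [← mul_add]
      refine mul_le_mul_of_nonneg_left ?_ (hw j)
      have e : h * |deriv (f j) t - Kd j| = |σ * h * (deriv (f j) t - Kd j)| := by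
        rw [abs_mul, abs_mul, hσ, one_mul, abs_of_pos hh0]
      rw [e]
      have e2 : σ * h * (deriv (f j) t - Kd j) = (f j (t + σ * h) - f j t - σ * h * Kd j) - (f j (t + σ * h) - f j t - σ * h * deriv (f j) t) := by ring
      rw [e2]
      exact (abs_sub _ _).trans (by linarith [hev j hj])
    have s1 := Finset.sum_le_sum pt
    rw [Finset.sum_add_distrib, ← Finset.sum_mul, ← hW] at s1
    have s2 : ∑ j ∈ Finset.range n, w j * (h * |deriv (f j) t - Kd j|) = h * ∑ j ∈ Finset.range n, w j * |deriv (f j) t - Kd j| := by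
      rw [Finset.mul_sum]
      exact Finset.sum_congr rfl fun j _ => by ring
    rw [s2] at s1
    have s3 := H h hh0 hle1
    have s4 : h * ∑ j ∈ Finset.range n, w j * |deriv (f j) t - Kd j| ≤ h * (C * (h + μ) + W * δ') := by nlinarith
    have s5 := le_of_mul_le_mul_left s4 hh0
    have s6 : C * h + W * δ' ≤ (C + W) * δ' := by nlinarith
    have s7 : (C + W) * δ' ≤ δ := by
      rw [hδ', ← mul_div_assoc, div_le_iff₀ (by linarith)]
      nlinarith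
    linarith
  intro h hh hh'
  have pt : ∀ j ∈ Finset.range n, w j * |f j (t + σ * h) - f j t - σ * h * deriv (f j) t|
      ≤ w j * |f j (t + σ * h) - f j t - σ * h * Kd j| + h * (w j * |deriv (f j) t - Kd j|) := by
    intro j _
    have e : h * (w j * |deriv (f j) t - Kd j|) = w j * |σ * h * (deriv (f j) t - Kd j)| := by
      rw [abs_mul, abs_mul, hσ, one_mul, abs_of_pos hh]; ring
    rw [e, ← mul_add]
    refine mul_le_mul_of_nonneg_left ?_ (hw j)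
    have e2 : f j (t + σ * h) - f j t - σ * h * deriv (f j) t = (f j (t + σ * h) - f j t - σ * h * Kd j) - σ * h * (deriv (f j) t - Kd j) := by ring
    rw [e2]
    exact abs_sub _ _
  have s1 := Finset.sum_le_sum pt
  rw [Finset.sum_add_distrib, ← Finset.mul_sum] at s1
  have s2 := H h hh hh'
  have s3 : h * ∑ j ∈ Finset.range n, w j * |deriv (f j) t - Kd j| ≤ h * (C * μ) := mul_le_mul_of_nonneg_left hS hh.le
  nlinarith

/-! ## B. (M) with the direction updated at the own cut -/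

theorem L8In.dh_dv_mem (I : L8In) (ha : 0 < I.a) (j : ℕ) : 0 ≤ I.dv j ∧ I.dv j ≤ I.a := by
  have hok : ∀ p ∈ I.i9.ps I.p, p.Ok I.a := fun p hp => (gh_os_ps_mem.1 hp).2
  have hmono : Monotone (l9kiM I.a (I.i9.ps I.p)) := l9ki_M_mono ha.le (gh_os_ps_pairwise _ _) hok
  have hmem : ∀ j, l9kiM I.a (I.i9.ps I.p) j ∈ Icc 0 I.a := l9ki_M_mem ha.le hok
  rw [I.dd_dv_eq]
  exact ⟨sub_nonneg.2 (hmono (Nat.le_succ j)), by linarith [(hmem (j + 1)).2, (hmem j).1]⟩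

/-- **(M) for the chain overlap at ANY cut `k ≤ n`**, the direction at the own cut replaced by any number `κ`: the own-cut defect appears explicitly -/
theorem L8In.DdS.MqH {C0 : ℝ} (hC0 : 0 ≤ C0)
    (hM : ∀ a : ℝ, 0 < a → a ≤ 4 → ∀ P0 P1 : LlStp, P0.map LlInc.m = P1.map LlInc.m →
      SkAdm a (llSc P0) → SkAdm a (llSc P1) → ∀ k ≤ P0.length, ∀ (Kd : ℕ → ℝ) (h M : ℝ) (d : ℕ → ℝ),
      (∀ j, |llCumK P1 j - llCumK P0 j| ≤ M) → (∀ j, |llCumK P1 j - llCumK P0 j - h * Kd j| ≤ d j) →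
        |llQs a P1 k - llQs a P0 k - h * l8ddL a P0 k Kd|
          ≤ C0 * (M ^ 2 + ∑ j ∈ Finset.range (P0.length + 1), skGap a (llMat P0) j * d j + d k + d (P0.length + 1)))
    {I : L8In} {σ h1 η μ LK C Bm LB vl : ℝ} (ha : 0 < I.a) (ha4 : I.a ≤ 4) (hh1 : 0 < h1) (hμ : 0 ≤ μ) (hC : 0 ≤ C)
    (hS : I.DdS σ h1 η μ LK C Bm LB vl) {k : ℕ} (hk : k ≤ I.n) (κ : ℝ) :
    ∃ Lf : ℝ, ∀ h, 0 < h → h ≤ h1 →
      |(I.wP (I.t0 + σ * h)).q k - (I.wP I.t0).q k - σ * h * Lf| ≤ C0 * (LK ^ 2 + 2 * C) * h * (h + μ) + 5 * C0 * |I.kT (fun _ => κ) σ h k| := by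
  obtain ⟨Kd, hKd⟩ := hS.km
  refine ⟨l8ddL I.a (I.wP I.t0).LP k (Function.update Kd k κ), ?_⟩
  intro h hh hh'
  obtain ⟨k1, k2, k3⟩ := hKd h hh hh'
  have hn0 : (I.wP I.t0).LP.length = I.n := I.wP_n I.t0
  have a0 : SkAdm I.a (llSc (I.wP I.t0).LP) := by
    have := hS.adm 0 le_rfl hh1.le
    rwa [mul_zero, add_zero] at this
  set T : ℝ := |I.kT (fun _ => κ) σ h k| with hT
  have hT0 : 0 ≤ T := abs_nonneg _
  have key := hM I.a ha ha4 (I.wP I.t0).LP (I.wP (I.t0 + σ * h)).LP (by rw [I.wP_mass, I.wP_mass]) a0 (hS.adm h hh.le hh') k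
    (by rw [hn0]; exact hk) (Function.update Kd k κ) (σ * h) (LK * h) (fun j => if j = k then T else |I.kT Kd σ h j|) k1 (fun j => by
      by_cases hj : j = k
      · subst hj
        rw [if_pos rfl, Function.update_self]
        exact le_rfl
      · rw [if_neg hj, Function.update_of_ne hj]
        exact le_rfl)
  rw [hn0] at key
  have e1 : (I.wP (I.t0 + σ * h)).q k = llQs I.a (I.wP (I.t0 + σ * h)).LP k := by
    show llQs (I.wP (I.t0 + σ * h)).a _ k = _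
    rw [I.wP_a]
  have e2 : (I.wP I.t0).q k = llQs I.a (I.wP I.t0).LP k := by
    show llQs (I.wP I.t0).a _ k = _
    rw [I.wP_a]
  rw [e1, e2]
  refine key.trans ?_
  have hgap : ∀ j, skGap I.a (llMat (I.wP I.t0).LP) j = I.dv j := fun j => by
    rw [l8dd_gap_congr I.a (I.wP_mass I.t0) j]
    rfl
  have s1 : ∑ j ∈ Finset.range (I.n + 1), skGap I.a (llMat (I.wP I.t0).LP) j * (if j = k then T else |I.kT Kd σ h j|) ≤ C * h * (h + μ) + 4 * T := by
    have pt : ∀ j ∈ Finset.range (I.n + 1), skGap I.a (llMat (I.wP I.t0).LP) j * (if j = k then T else |I.kT Kd σ h j|)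
        ≤ I.dv j * |I.kT Kd σ h j| + (if j = k then 4 * T else 0) := by
      intro j _
      rw [hgap j]
      obtain ⟨d0, d1⟩ := I.dh_dv_mem ha j
      have p0 : 0 ≤ I.dv j * |I.kT Kd σ h j| := mul_nonneg d0 (abs_nonneg _)
      split_ifs
      · have : I.dv j * T ≤ 4 * T := mul_le_mul_of_nonneg_right (d1.trans ha4) hT0
        linarith
      · linarith
    refine (Finset.sum_le_sum pt).trans ?_
    rw [Finset.sum_add_distrib, Finset.sum_ite_eq' (Finset.range (I.n + 1)) k (fun _ => 4 * T), if_pos (Finset.mem_range.2 (by omega))]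
    linarith
  have s2 : (if k = k then T else |I.kT Kd σ h k|) = T := if_pos rfl
  have s3 : (if I.n + 1 = k then T else |I.kT Kd σ h (I.n + 1)|) ≤ C * h ^ 2 := by
    rw [if_neg (by omega)]
    exact k3 (I.n + 1) fun _ => Or.inr (Or.inr (Nat.le_succ _))
  have s4 : (LK * h) ^ 2 + ∑ j ∈ Finset.range (I.n + 1), skGap I.a (llMat (I.wP I.t0).LP) j * (if j = k then T else |I.kT Kd σ h j|)
      + (if k = k then T else |I.kT Kd σ h k|) + (if I.n + 1 = k then T else |I.kT Kd σ h (I.n + 1)|) ≤ (LK ^ 2 + 2 * C) * h * (h + μ) + 5 * T := by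
    rw [s2]
    have t1 : 0 ≤ LK ^ 2 * h * μ := by positivity
    have t2 : 0 ≤ C * h * μ := by positivity
    nlinarith
  calc _ ≤ C0 * ((LK ^ 2 + 2 * C) * h * (h + μ) + 5 * T) := mul_le_mul_of_nonneg_left s4 hC0
    _ = _ := by ring

/-! ## C. one instance -/

/-- **ONE INSTANCE, ANY CUT**: `Kd k` = a number such that the own-cut Taylor defect `I.kT Kd σ h k` is `o(h)` -/
theorem l8dh_one {C0 : ℝ} (hC0 : 0 ≤ C0)
    (hM : ∀ a : ℝ, 0 < a → a ≤ 4 → ∀ P0 P1 : LlStp, P0.map LlInc.m = P1.map LlInc.m →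
      SkAdm a (llSc P0) → SkAdm a (llSc P1) → ∀ k ≤ P0.length, ∀ (Kd : ℕ → ℝ) (h M : ℝ) (d : ℕ → ℝ),
      (∀ j, |llCumK P1 j - llCumK P0 j| ≤ M) → (∀ j, |llCumK P1 j - llCumK P0 j - h * Kd j| ≤ d j) →
        |llQs a P1 k - llQs a P0 k - h * l8ddL a P0 k Kd|
          ≤ C0 * (M ^ 2 + ∑ j ∈ Finset.range (P0.length + 1), skGap a (llMat P0) j * d j + d k + d (P0.length + 1)))
    {I : L8In} {σ h1 h0 η μ LK C Bm LB vl : ℝ} (hσ : |σ| = 1) (ha : 0 < I.a) (ha4 : I.a ≤ 4) (hh0 : 0 < h0) (hh01 : h0 ≤ h1) (hμ : 0 ≤ μ) (hC : 0 ≤ C) (hBm : 0 ≤ Bm)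
    (hS : I.DdS σ h1 η μ LK C Bm LB vl)
    (hR : ∀ ε' : ℝ, 0 < ε' → ∃ Fs', I.Fs ⊆ Fs' ∧ (I.wFs Fs').DdS σ h1 ε' μ LK C Bm LB vl)
    {k : ℕ} (hk : k ≤ I.n) {Kd : ℕ → ℝ}
    (hκ : ∀ δ : ℝ, 0 < δ → ∃ h3 : ℝ, 0 < h3 ∧ ∀ h, 0 < h → h ≤ h3 → |I.kT Kd σ h k| ≤ δ * h)
    {Lp h2 : ℝ} (hh2 : 0 < h2)
    (hLp : ∀ h, 0 < h → h ≤ h2 → |I.Dp k (I.t0 + σ * h) - I.Dp k I.t0| ≤ Lp * h) :
    |I.dd k| ≤ Lp + Bm * (2 * η / h0 + 2 * (2 * (C0 * (LK ^ 2 + 2 * C))) * (h0 + μ) + 10 * C0 * |I.kT Kd σ h0 k| / h0) + LB * η := by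
  have hh1 : 0 < h1 := hh0.trans_le hh01
  set E : ℝ := 2 * (C0 * (LK ^ 2 + 2 * C)) with hE
  have hE0 : 0 ≤ E := by positivity
  obtain ⟨Lf, hLf⟩ := hS.MqH hC0 hM ha ha4 hh1 hμ hC hk (Kd k)
  have hkT : ∀ h, I.kT (fun _ => Kd k) σ h k = I.kT Kd σ h k := fun h => rfl
  -- increments of `r`
  have hr' : ∀ h, 0 < h → h ≤ min h0 h2 → |I.rr k (I.t0 + σ * h) - I.rr k I.t0|
      ≤ (2 * η / h0 + 2 * E * (h0 + μ) + 10 * C0 * |I.kT Kd σ h0 k| / h0) * h + 10 * C0 * |I.kT Kd σ h k| := by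
    intro h hh hh'
    have hhh0 : h ≤ h0 := hh'.trans (min_le_left _ _)
    refine l8dh_r_incr hσ hh0 hh hhh0 hE0 ?_ ?_ ?_
    · intro ε' hε'
      obtain ⟨Fs', hsub, hS'⟩ := hR ε' hε'
      obtain ⟨k', hk', hKC, -, -⟩ := l8dd_refine I hsub hk
      obtain ⟨Lf', hLf'⟩ := hS'.MqH hC0 hM (I := I.wFs Fs') ha ha4 hh1 hμ hC hk' (Kd k)
      have hkT' : ∀ h, (I.wFs Fs').kT (fun _ => Kd k) σ h k' = I.kT Kd σ h k := by
        intro h
        unfold L8In.kT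
        rw [hKC, hKC]
        rfl
      refine ⟨fun t => (I.wP t).q k - ((I.wFs Fs').wP t).q k', Lf - Lf', ?_⟩
      have hdiff : ∀ t, I.rr k t - ((I.wP t).q k - ((I.wFs Fs').wP t).q k') = (I.wFs Fs').rr k' t := by
        intro t
        unfold L8In.rr
        rw [hKC t, I.wFs_pAt]
        show _ = ((I.wFs Fs').wP t).q k' - (I.pAt t).Gam I.F I.𝔹 ((I.wP t).KC k)
        ring
      have q0 := hS'.ql 0 le_rfl hh1.le k' hk'
      rw [mul_zero, add_zero] at q0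
      refine ⟨by rw [hdiff]; exact q0, by rw [hdiff]; exact hS'.ql h0 hh0.le hh01 k' hk', by rw [hdiff]; exact hS'.ql h hh.le (hhh0.trans hh01) k' hk', ?_, ?_⟩
      · have m1 := hLf h0 hh0 hh01
        have m2 := hLf' h0 hh0 hh01
        rw [I.wFs_t0, hkT'] at m2
        rw [hkT] at m1
        have e : (I.wP (I.t0 + σ * h0)).q k - ((I.wFs Fs').wP (I.t0 + σ * h0)).q k' - ((I.wP I.t0).q k - ((I.wFs Fs').wP I.t0).q k') - σ * h0 * (Lf - Lf')
            = ((I.wP (I.t0 + σ * h0)).q k - (I.wP I.t0).q k - σ * h0 * Lf) - (((I.wFs Fs').wP (I.t0 + σ * h0)).q k' - ((I.wFs Fs').wP I.t0).q k' - σ * h0 * Lf') := by ring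
        rw [e]
        refine (abs_sub _ _).trans ?_
        rw [hE]; linarith
      · have m1 := hLf h hh (hhh0.trans hh01)
        have m2 := hLf' h hh (hhh0.trans hh01)
        rw [I.wFs_t0, hkT'] at m2
        rw [hkT] at m1
        have e : (I.wP (I.t0 + σ * h)).q k - ((I.wFs Fs').wP (I.t0 + σ * h)).q k' - ((I.wP I.t0).q k - ((I.wFs Fs').wP I.t0).q k') - σ * h * (Lf - Lf')
            = ((I.wP (I.t0 + σ * h)).q k - (I.wP I.t0).q k - σ * h * Lf) - (((I.wFs Fs').wP (I.t0 + σ * h)).q k' - ((I.wFs Fs').wP I.t0).q k' - σ * h * Lf') := by ring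
        rw [e]
        refine (abs_sub _ _).trans ?_
        rw [hE]; linarith
    · have := hS.ql 0 le_rfl hh1.le k hk
      rwa [mul_zero, add_zero] at this
    · exact hS.ql h0 hh0.le hh01 k hk
  rw [I.dd_eq]
  have hmin : 0 < min h0 h2 := lt_min hh0 hh2
  refine l8dh_core (D := I.Dp k) (B := fun t => (I.wP t).bC k) (r := I.rr k) (Th := fun h => 10 * C0 * |I.kT Kd σ h k|) hσ hmin hBm (fun h _ _ => I.d_split k _)
    (fun h hh hh' => hLp h hh (hh'.trans (min_le_right _ _)))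
    (fun h hh hh' => (hS.bm k hk h hh.le ((hh'.trans (min_le_left _ _)).trans hh01)).1)
    (fun h hh hh' => (hS.bm k hk h hh.le ((hh'.trans (min_le_left _ _)).trans hh01)).2) ?_ hr' ?_
  · have := hS.ql 0 le_rfl hh1.le k hk
    rwa [mul_zero, add_zero] at this
  · intro δ hδ
    have hc : 0 < 10 * C0 + 1 := by linarith
    obtain ⟨h3, hh3, H3⟩ := hκ (δ / (10 * C0 + 1)) (div_pos hδ hc)
    refine ⟨h3, hh3, fun h hh hh' => ?_⟩
    have h4 := H3 h hh hh'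
    have h5 : 10 * C0 * |I.kT Kd σ h k| ≤ 10 * C0 * (δ / (10 * C0 + 1) * h) := mul_le_mul_of_nonneg_left h4 (by linarith)
    refine h5.trans ?_
    have h6 : 10 * C0 * (δ / (10 * C0 + 1)) ≤ δ := by
      rw [← mul_div_assoc, div_le_iff₀ hc]
      nlinarith
    calc 10 * C0 * (δ / (10 * C0 + 1) * h) = 10 * C0 * (δ / (10 * C0 + 1)) * h := by ring
      _ ≤ δ * h := mul_le_mul_of_nonneg_right h6 hh.le

/-! ## D. the link -/

/-- **DD-LINK, `L¹`-EXCESS FORM**.   For all sufficiently fine chains, uniformly in the point, where the scalar clock values of the chain are differentiable: ALL cuts, up to an excess `ex` which is small in the mass integral. -/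
theorem l8dh_link {F : LlFix} {𝔹 : LlBase} {N0 : ℕ} {vl : ℝ} (hpS : F.pS ≤ 1) (hS : L8ddSup F 𝔹 N0 vl) (η : ℕ → ℝ) (hη : ∀ N, 0 < η N) :
    L8Ev F 𝔹 N0 (fun _ => True) fun I => (∀ j ≤ I.n, DifferentiableAt ℝ (fun t => (I.wP t).KC j) I.t0) →
      ∃ ex : ℕ → ℝ, (∀ k, 0 ≤ ex k) ∧ ∑ k ∈ Finset.range (I.n + 1), I.dv k * ex k ≤ η I.p.N ∧
        ∀ k ≤ I.n, ∀ Lp : ℝ, (∀ᶠ t in 𝓝 I.t0, (I.pAt t).Ok I.F → |I.Dp k t - I.Dp k I.t0| ≤ Lp * |t - I.t0|) → |I.dd k| ≤ Lp + η I.p.N + ex k := by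
  intro N s hN
  obtain ⟨C0, hC0, hM⟩ := l8dd_Mq 4
  obtain ⟨LK, C, Bm, LB, hLK, hC, hBm, hLB, H⟩ := hS N hN
  have hc30 : 0 < 30 * (Bm * C0 * C) + 1 := by positivity
  have hh1 : (0 : ℝ) < min (1 / 3) (η N / (30 * (Bm * C0 * C) + 1)) := lt_min (by norm_num) (div_pos (hη N) hc30)
  obtain ⟨h0, η1, hh0, hh01', hη1, har⟩ := l8dd_arith (hη N) hBm (by positivity : 0 ≤ 2 * (C0 * (LK ^ 2 + 2 * C))) hLB hh1
  have hh01 : h0 ≤ 1 / 3 := hh01'.trans (min_le_left _ _)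
  have hh02 : 30 * (Bm * C0 * C) * h0 ≤ η N := by
    have h1 := hh01'.trans (min_le_right _ _)
    rw [le_div_iff₀ hc30] at h1
    nlinarith
  filter_upwards [H η1 h0 hη1 hh0] with Fs hFs ell lam chiL chiE sm γ m _ hOk hDif
  set I : L8In := ⟨F, 𝔹, ll04Pt N ell lam chiL chiE sm γ, m, s, Fs⟩ with hI
  obtain ⟨σ, hσ, hside⟩ := l8dd_side hpS I hOk.pt le_rfl
  have hSI := hFs I rfl rfl rfl rfl hOk.pt σ hσ hside
  have hR : ∀ ε' : ℝ, 0 < ε' → ∃ Fs', I.Fs ⊆ Fs' ∧ (I.wFs Fs').DdS σ (1 / 3) ε' h0 LK C Bm LB vl := by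
    intro ε' hε'
    obtain ⟨Fs1, hF1⟩ := eventually_atTop.1 (H ε' h0 hε' hh0)
    exact ⟨Fs ∪ Fs1, Finset.subset_union_left, hF1 (Fs ∪ Fs1) Finset.subset_union_right (I.wFs (Fs ∪ Fs1)) rfl rfl rfl rfl hOk.pt σ hσ hside⟩
  have ha : 0 < I.a ∧ I.a ≤ 4 := by
    have h1 := hOk.pt.ell1
    have h2 : I.p.ell ≤ 2 := by
      refine hOk.pt.ell2.trans ?_
      calc (2 : ℝ) ^ (1 / 6 : ℝ) ≤ (2 : ℝ) ^ (1 : ℝ) := Real.rpow_le_rpow_of_exponent_le (by norm_num) (by norm_num)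
        _ = 2 := Real.rpow_one 2
    show 0 < I.p.a ∧ I.p.a ≤ 4
    unfold LlPt.a
    split_ifs
    · exact ⟨by norm_num, le_rfl⟩
    · exact ⟨by linarith, by linarith⟩
  -- the true derivatives
  set Ks : ℕ → ℝ := fun j => deriv (fun t => (I.wP t).KC j) I.t0 with hKs
  refine ⟨fun k => Bm * (10 * C0 * |I.kT Ks σ h0 k| / h0), fun k => by positivity, ?_, ?_⟩
  · -- the mass integral of the excess
    obtain ⟨Kd, hKd⟩ := hSI.km
    have hsum := l8dh_sum (n := I.n + 1) (w := I.dv) (fun j => (I.dh_dv_mem ha.1 j).1) (f := fun j t => (I.wP t).KC j) (t := I.t0) (σ := σ) (h1 := 1 / 3)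
      (C := C) (μ := h0) (Kd := Kd) hσ (by norm_num) hC (fun j hj => hDif j (by have := Finset.mem_range.1 hj; omega))
      (fun h hh hh' => (hKd h hh hh').2.1) h0 hh0 hh01
    have e : ∑ k ∈ Finset.range (I.n + 1), I.dv k * (Bm * (10 * C0 * |I.kT Ks σ h0 k| / h0))
        = Bm * (10 * C0) / h0 * ∑ k ∈ Finset.range (I.n + 1), I.dv k * |I.kT Ks σ h0 k| := by
      rw [Finset.mul_sum]
      exact Finset.sum_congr rfl fun k _ => by ring
    rw [e]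
    have hsum' : ∑ k ∈ Finset.range (I.n + 1), I.dv k * |I.kT Ks σ h0 k| ≤ C * h0 * (h0 + 2 * h0) := hsum
    have hc : 0 ≤ Bm * (10 * C0) / h0 := by positivity
    refine (mul_le_mul_of_nonneg_left hsum' hc).trans ?_
    have e2 : Bm * (10 * C0) / h0 * (C * h0 * (h0 + 2 * h0)) = 30 * (Bm * C0 * C) * h0 := by
      field_simp
      ring
    rw [e2]
    exact hh02
  · intro k hk Lp hLp
    obtain ⟨h2, hh2, hL⟩ := Metric.eventually_nhds_iff.1 hLp
    have hLp' : ∀ h, 0 < h → h ≤ min (h2 / 2) (1 / 3) → |I.Dp k (I.t0 + σ * h) - I.Dp k I.t0| ≤ Lp * h := by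
      intro h hh hh'
      have e : |I.t0 + σ * h - I.t0| = h := by
        rw [add_sub_cancel_left, abs_mul, hσ, one_mul, abs_of_pos hh]
      have := hL (y := I.t0 + σ * h) (by
        rw [Real.dist_eq, e]
        have := hh'.trans (min_le_left _ _)
        linarith) (hside h hh.le (hh'.trans (min_le_right _ _)))
      rwa [e] at this
    have hκ : ∀ δ : ℝ, 0 < δ → ∃ h3 : ℝ, 0 < h3 ∧ ∀ h, 0 < h → h ≤ h3 → |I.kT Ks σ h k| ≤ δ * h := l8dh_little hσ (hDif k hk)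
    have key := l8dh_one hC0 hM hσ ha.1 ha.2 hh0 hh01 hh0.le hC hBm hSI hR hk hκ (lt_min (half_pos hh2) (by norm_num : (0 : ℝ) < 1 / 3)) hLp'
    have : I.p.N = N := rfl
    rw [this]
    have e3 : Bm * (2 * η1 / h0 + 2 * (2 * (C0 * (LK ^ 2 + 2 * C))) * (h0 + h0) + 10 * C0 * |I.kT Ks σ h0 k| / h0)
        = Bm * (2 * η1 / h0 + 2 * (2 * (C0 * (LK ^ 2 + 2 * C))) * (h0 + h0)) + Bm * (10 * C0 * |I.kT Ks σ h0 k| / h0) := by ring
    rw [e3] at key
    linarith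

/-! ## E. the exit -/

/-- all the supplies of the DD-LINK at `llBase` (the leaves of L08/DdExit, all proved) -/
theorem l8dh_sup (T : ℝ) (hT : 1 < T) : ∀ F0, L8Fix llBase T F0 → ∀ (pB : LLParB) (pS : ℝ), 0 < pS → pS ≤ 1 →
    ∃ (vl : ℝ) (N0 : ℕ), 0 < vl ∧ L8ddSup (F0.wExp pB.sStar pB.eta pS) llBase N0 vl := by
  intro F0 hF pB pS h0 h1
  obtain ⟨Na, hA⟩ := l8dd_supA T hT F0 hF pB pS h0 h1
  obtain ⟨Nq, hQ⟩ := l8dd_supQ T hT F0 hF pB pS h0 h1
  obtain ⟨Nb, hB⟩ := l8dd_supB T hT F0 hF pB pS h0 h1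
  obtain ⟨Nd, hD⟩ := l8dd_supKD T hT F0 hF pB pS h0 h1
  obtain ⟨Nk, vl, hvl, hK⟩ := l8dd_supKS T hT F0 hF pB pS h0 h1
  obtain ⟨Nc, hC⟩ := l8dd_supC T hT F0 hF pB pS h0 h1
  refine ⟨vl, max (max (max Na Nq) (max Nb Nk)) (max Nc Nd), hvl, ?_⟩
  set N0 := max (max (max Na Nq) (max Nb Nk)) (max Nc Nd) with hN0
  have i1 : Na ≤ N0 := ((le_max_left _ _).trans (le_max_left _ _)).trans (le_max_left _ _)
  have i2 : Nq ≤ N0 := ((le_max_right _ _).trans (le_max_left _ _)).trans (le_max_left _ _)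
  have i3 : Nb ≤ N0 := ((le_max_left _ _).trans (le_max_right _ _)).trans (le_max_left _ _)
  have i4 : Nk ≤ N0 := ((le_max_right _ _).trans (le_max_right _ _)).trans (le_max_left _ _)
  have i5 : Nc ≤ N0 := (le_max_left _ _).trans (le_max_right _ _)
  have i6 : Nd ≤ N0 := (le_max_right _ _).trans (le_max_right _ _)
  exact l8dd_sup_of (hA.mono i1) (hQ.mono i2) (hB.mono i3) (l8dd_supK_of (l8dd_supKP_of (hD.mono i6) (hK.mono i4)) (hC.mono i5) l8dd_supM)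

/-- **EXIT of the file** (HI, size path, high masses: `Q.HiNum.dd_hi`): ALL cuts `k ≤ n` of BOTH kinds of paths, ANY accuracy `η N`; the excess `ex` depends on the instance. -/
theorem l8dh_exit (T : ℝ) (hT : 1 < T) : ∀ F0, L8Fix llBase T F0 → ∀ (pB : LLParB) (pS : ℝ), 0 < pS → pS ≤ 1 →
    ∀ η : ℕ → ℝ, (∀ N, 0 < η N) → ∃ N0 : ℕ, L8Ev (F0.wExp pB.sStar pB.eta pS) llBase N0 (fun _ => True) fun I =>
      (∀ j ≤ I.n, DifferentiableAt ℝ (fun t => (I.wP t).KC j) I.t0) →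
      ∃ ex : ℕ → ℝ, (∀ k, 0 ≤ ex k) ∧ ∑ k ∈ Finset.range (I.n + 1), I.dv k * ex k ≤ η I.p.N ∧
        ∀ k ≤ I.n, ∀ Lp : ℝ, (∀ᶠ t in 𝓝 I.t0, (I.pAt t).Ok I.F → |I.Dp k t - I.Dp k I.t0| ≤ Lp * |t - I.t0|) → |I.dd k| ≤ Lp + η I.p.N + ex k := by
  intro F0 hF pB pS h0 h1 η hη
  obtain ⟨vl, N0, -, hS⟩ := l8dh_sup T hT F0 hF pB pS h0 h1
  exact ⟨N0, l8dh_link (F := F0.wExp pB.sStar pB.eta pS) h1 hS η hη⟩

end Claimed.Agent.R286
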