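import Mathlib

/-!
# Row 286, LL sec. 8: the adjacent-interval comparison (l.138-154)

A nonnegative function with a bounded `n`-th derivative is bounded on an interval by its average
on any neighbouring interval of comparable length, up to `M * l ^ n`.
Route: Taylor polynomial on the hull, explicit Lagrange bound at shifted equally spaced nodes.
-/

set_option autoImplicit false
open MeasureTheory Set Polynomial

namespace Claimed.Agent.R286.L08

/-- Lagrange bound at equally spaced nodes shifted by `u`. -/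
theorem l8a_lagrange (n : ℕ) (hn : 0 < n) (P : ℝ[X]) (hP : P.degree < n) (a b T x u : ℝ)
    (hab : a < b) (hxa : |x - a| ≤ T * (b - a)) (hxb : |x - b| ≤ T * (b - a))
    (hu0 : 0 ≤ u) (hu1 : u ≤ 1) :
    |P.eval x| ≤ (T * n) ^ (n - 1) *
      ∑ j ∈ Finset.range n, |P.eval (a + (b - a) * ((j + u) / n))| := by
  classical
  set v : ℕ → ℝ := fun j => a + (b - a) * ((j + u) / n) with hv
  have hn' : (0 : ℝ) < n := by exact_mod_cast hn
  have hba : 0 < b - a := sub_pos.2 hab
  have hdiff : ∀ i j : ℕ, v i - v j = (b - a) * (((i : ℝ) - j) / n) := by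
    intro i j; simp only [hv]; field_simp; ring
  have hinj : Set.InjOn v (Finset.range n : Set ℕ) := by
    intro i _ j _ hij
    have h0 : v i - v j = 0 := sub_eq_zero.2 hij
    rw [hdiff] at h0
    have h1 : ((i : ℝ) - j) / n = 0 := by
      rcases mul_eq_zero.1 h0 with h | h
      · exact absurd h hba.ne'
      · exact h
    have h2 : (i : ℝ) - j = 0 := by
      rcases div_eq_zero_iff.1 h1 with h | h
      · exact h
      · exact absurd h hn'.ne'
    exact_mod_cast sub_eq_zero.1 h2
  have hP' : P.degree < (Finset.range n).card := by simpa using hP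
  have hrep := Lagrange.eq_interpolate (s := Finset.range n) (v := v) hinj hP'
  have heval : P.eval x = ∑ j ∈ Finset.range n, P.eval (v j) *
      ∏ i ∈ (Finset.range n).erase j, ((v j - v i)⁻¹ * (x - v i)) := by
    conv_lhs => rw [hrep]
    rw [Lagrange.interpolate_apply, Polynomial.eval_finsetSum]
    refine Finset.sum_congr rfl fun j _ => ?_
    rw [Polynomial.eval_mul, Polynomial.eval_C, Lagrange.basis, Polynomial.eval_prod]
    congr 1
    refine Finset.prod_congr rfl fun i _ => ?_
    simp [Lagrange.basisDivisor]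
  have hmem : ∀ j ∈ Finset.range n, a ≤ v j ∧ v j ≤ b := by
    intro j hj
    have hj' : (j : ℝ) + 1 ≤ n := by exact_mod_cast Finset.mem_range.1 hj
    have h0 : 0 ≤ ((j : ℝ) + u) / n := by positivity
    have h1 : ((j : ℝ) + u) / n ≤ 1 := by rw [div_le_one hn']; linarith
    constructor
    · simp only [hv]; nlinarith
    · simp only [hv]; nlinarith
  have hxv : ∀ j ∈ Finset.range n, |x - v j| ≤ T * (b - a) := by
    intro j hj
    obtain ⟨h1, h2⟩ := hmem j hj
    rw [abs_le] at hxa hxb ⊢
    constructor <;> linarith [hxa.1, hxa.2, hxb.1, hxb.2]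
  have hfac : ∀ j ∈ Finset.range n, ∀ i ∈ (Finset.range n).erase j,
      |(v j - v i)⁻¹ * (x - v i)| ≤ T * n := by
    intro j _ i hi
    have hij : i ≠ j := (Finset.mem_erase.1 hi).1
    have hi' : i ∈ Finset.range n := (Finset.mem_erase.1 hi).2
    have h1 : (1 : ℝ) ≤ |(j : ℝ) - i| := by
      have : (1 : ℤ) ≤ |(j : ℤ) - i| := by
        have : (j : ℤ) - i ≠ 0 := by
          intro h; apply hij; omega
        exact Int.one_le_abs this
      exact_mod_cast this
    have h2 : (b - a) / n ≤ |v j - v i| := by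
      rw [hdiff, abs_mul, abs_div, abs_of_pos hba, abs_of_pos hn']
      rw [div_eq_mul_one_div (b - a), ← div_eq_mul_one_div]
      have : (b - a) / n = (b - a) * (1 / n) := by ring
      rw [this]
      apply mul_le_mul_of_nonneg_left _ hba.le
      exact div_le_div_of_nonneg_right h1 hn'.le
    have h3 : 0 < (b - a) / n := by positivity
    rw [abs_mul, abs_inv]
    calc |v j - v i|⁻¹ * |x - v i| ≤ ((b - a) / n)⁻¹ * (T * (b - a)) := by
          apply mul_le_mul _ (hxv i hi') (abs_nonneg _) (by positivity)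
          exact inv_anti₀ h3 h2
      _ = T * n := by field_simp
  rw [heval]
  calc |∑ j ∈ Finset.range n, P.eval (v j) *
        ∏ i ∈ (Finset.range n).erase j, ((v j - v i)⁻¹ * (x - v i))|
      ≤ ∑ j ∈ Finset.range n, |P.eval (v j) *
        ∏ i ∈ (Finset.range n).erase j, ((v j - v i)⁻¹ * (x - v i))| :=
        Finset.abs_sum_le_sum_abs _ _
    _ ≤ ∑ j ∈ Finset.range n, (T * n) ^ (n - 1) * |P.eval (v j)| := by
        refine Finset.sum_le_sum fun j hj => ?_
        rw [abs_mul, Finset.abs_prod, mul_comm]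
        apply mul_le_mul_of_nonneg_right _ (abs_nonneg _)
        calc ∏ i ∈ (Finset.range n).erase j, |(v j - v i)⁻¹ * (x - v i)|
            ≤ ∏ _i ∈ (Finset.range n).erase j, (T * n) :=
              Finset.prod_le_prod (fun i _ => abs_nonneg _) (hfac j hj)
          _ = (T * n) ^ (n - 1) := by
              rw [Finset.prod_const, Finset.card_erase_of_mem hj, Finset.card_range]
    _ = (T * n) ^ (n - 1) * ∑ j ∈ Finset.range n, |P.eval (v j)| := by
        rw [Finset.mul_sum]

/-- sup of a polynomial of degree `< n` near an interval against its `L¹` average there. -/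
theorem l8a_poly_avg (n : ℕ) (hn : 0 < n) (P : ℝ[X]) (hP : P.degree < n) (a b T x : ℝ)
    (hab : a < b) (hxa : |x - a| ≤ T * (b - a)) (hxb : |x - b| ≤ T * (b - a)) :
    |P.eval x| ≤ (T * n) ^ (n - 1) * n * ((∫ s in a..b, |P.eval s|) / (b - a)) := by
  have hn' : (0 : ℝ) < n := by exact_mod_cast hn
  have hba : 0 < b - a := sub_pos.2 hab
  have hcont : Continuous fun s : ℝ => |P.eval s| := P.continuous.abs
  set c : ℝ := (b - a) / n with hc
  have hc0 : 0 < c := by positivity
  set w : ℕ → ℝ := fun j => a + c * j with hw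
  have hint : ∀ j : ℕ, (∫ u in (0 : ℝ)..1, |P.eval (a + (b - a) * ((j + u) / n))|)
      = c⁻¹ * ∫ s in w j..w (j + 1), |P.eval s| := by
    intro j
    have h1 : ∀ u : ℝ, a + (b - a) * ((j + u) / n) = w j + c * u := by
      intro u; simp only [hw, hc]; field_simp; ring
    simp_rw [h1]
    rw [intervalIntegral.integral_comp_add_mul (fun s => |P.eval s|) hc0.ne' (w j)]
    have h2 : w j + c * 0 = w j := by ring
    have h3 : w j + c * 1 = w (j + 1) := by simp only [hw]; push_cast; ring
    rw [h2, h3, smul_eq_mul]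
  have hsum : ∑ j ∈ Finset.range n, ∫ s in w j..w (j + 1), |P.eval s|
      = ∫ s in a..b, |P.eval s| := by
    rw [intervalIntegral.sum_integral_adjacent_intervals
      (fun k _ => hcont.intervalIntegrable _ _)]
    have h0 : w 0 = a := by simp [hw]
    have h1 : w n = b := by simp only [hw, hc]; field_simp; ring
    rw [h0, h1]
  have hmain : (∫ _u in (0 : ℝ)..1, |P.eval x|) ≤ ∫ u in (0 : ℝ)..1, (T * n) ^ (n - 1) *
      ∑ j ∈ Finset.range n, |P.eval (a + (b - a) * ((j + u) / n))| := by
    apply intervalIntegral.integral_mono_on (by norm_num)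
    · exact intervalIntegrable_const
    · apply Continuous.intervalIntegrable
      apply Continuous.mul continuous_const
      apply continuous_finsetSum
      intro j _
      apply hcont.comp
      fun_prop
    · intro u hu
      exact l8a_lagrange n hn P hP a b T x u hab hxa hxb hu.1 hu.2
  rw [intervalIntegral.integral_const, intervalIntegral.integral_const_mul,
    intervalIntegral.integral_finsetSum] at hmain
  · simp only [sub_zero, one_smul] at hmain
    refine hmain.trans (le_of_eq ?_)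
    simp_rw [hint]
    rw [← Finset.mul_sum, hsum, hc]
    field_simp
  · intro j _
    apply Continuous.intervalIntegrable
    apply hcont.comp
    fun_prop

/-- Core of the adjacent-interval comparison: a nonnegative function which is `δ`-close to a
polynomial of degree `< n` on `[c,d]` is bounded there by its average on any subinterval of
comparable length. -/
theorem l8a_core (n : ℕ) (hn : 0 < n) (P : ℝ[X]) (hP : P.degree < n) (G : ℝ → ℝ)
    (c d a b T δ : ℝ) (hca : c ≤ a) (hab : a < b) (hbd : b ≤ d)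
    (hG0 : ∀ s ∈ Icc c d, 0 ≤ G s) (hGP : ∀ s ∈ Icc c d, |G s - P.eval s| ≤ δ)
    (hGi : IntervalIntegrable G volume a b) (hT : d - c ≤ T * (b - a)) :
    ∀ z ∈ Icc c d, G z ≤ (T * n) ^ (n - 1) * n * ((∫ s in a..b, G s) / (b - a) + δ) + δ := by
  intro z hz
  have hba : 0 < b - a := sub_pos.2 hab
  have hn' : (0 : ℝ) < n := by exact_mod_cast hn
  have hT0 : 0 ≤ T := by
    by_contra h
    have : T * (b - a) < 0 := mul_neg_of_neg_of_pos (not_le.1 h) hba
    linarith
  have hK : 0 ≤ (T * n) ^ (n - 1) * n := by positivity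
  have hxa : |z - a| ≤ T * (b - a) := by
    rw [abs_le]; constructor <;> linarith [hz.1, hz.2]
  have hxb : |z - b| ≤ T * (b - a) := by
    rw [abs_le]; constructor <;> linarith [hz.1, hz.2]
  have h1 := l8a_poly_avg n hn P hP a b T z hab hxa hxb
  have h2 : G z ≤ |P.eval z| + δ := by
    have := hGP z hz
    rw [abs_le] at this
    linarith [le_abs_self (P.eval z), this.2]
  have hcont : Continuous fun s : ℝ => |P.eval s| := P.continuous.abs
  have h3 : (∫ s in a..b, |P.eval s|) ≤ ∫ s in a..b, (G s + δ) := by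
    apply intervalIntegral.integral_mono_on hab.le (hcont.intervalIntegrable _ _)
      (hGi.add intervalIntegrable_const)
    intro s hs
    have hs' : s ∈ Icc c d := ⟨hca.trans hs.1, hs.2.trans hbd⟩
    have h4 := hGP s hs'
    have h5 := hG0 s hs'
    rw [abs_le] at h4 ⊢
    constructor <;> linarith [h4.1, h4.2]
  rw [intervalIntegral.integral_add hGi intervalIntegrable_const,
    intervalIntegral.integral_const, smul_eq_mul] at h3
  have h6 : (∫ s in a..b, |P.eval s|) / (b - a) ≤ (∫ s in a..b, G s) / (b - a) + δ := by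
    rw [div_le_iff₀ hba, add_mul, div_mul_cancel₀ _ hba.ne']
    linarith
  calc G z ≤ |P.eval z| + δ := h2
    _ ≤ (T * n) ^ (n - 1) * n * ((∫ s in a..b, |P.eval s|) / (b - a)) + δ := by linarith
    _ ≤ _ := by
      have := mul_le_mul_of_nonneg_left h6 hK
      linarith

/-- the Taylor polynomial as a genuine polynomial -/
theorem l8a_taylor_poly (G : ℝ → ℝ) (k : ℕ) (s : Set ℝ) (x₀ : ℝ) :
    ∃ P : ℝ[X], P.degree < (k + 1 : ℕ) ∧ ∀ x, P.eval x = taylorWithinEval G k s x₀ x := by
  refine ⟨∑ j ∈ Finset.range (k + 1),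
    C ((j.factorial : ℝ)⁻¹ * iteratedDerivWithin j G s x₀) * (X - C x₀) ^ j, ?_, ?_⟩
  · refine lt_of_le_of_lt (Polynomial.degree_sum_le _ _) ?_
    rw [Finset.sup_lt_iff (by exact_mod_cast WithBot.bot_lt_coe (k + 1))]
    intro j hj
    refine lt_of_le_of_lt (Polynomial.degree_mul_le _ _) ?_
    rw [Polynomial.degree_pow, Polynomial.degree_X_sub_C]
    simp only [nsmul_eq_mul, mul_one]
    have h1 : (C ((j.factorial : ℝ)⁻¹ * iteratedDerivWithin j G s x₀)).degree ≤ 0 :=
      Polynomial.degree_C_le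
    have h2 : ((j : ℕ) : WithBot ℕ) < ((k + 1 : ℕ) : WithBot ℕ) := by
      exact_mod_cast Finset.mem_range.1 hj
    calc (C ((j.factorial : ℝ)⁻¹ * iteratedDerivWithin j G s x₀)).degree + (j : WithBot ℕ)
        ≤ 0 + (j : WithBot ℕ) := by gcongr
      _ = (j : WithBot ℕ) := zero_add _
      _ < _ := h2
  · intro x
    rw [taylor_within_apply, Polynomial.eval_finsetSum]
    refine Finset.sum_congr rfl fun j _ => ?_
    simp only [eval_mul, eval_C, eval_pow, eval_sub, eval_X, smul_eq_mul]
    ring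

/-- iterated derivatives within a subinterval -/
theorem l8a_iter_sub (n : ℕ) (G : ℝ → ℝ) (al be c d : ℝ) (hG : ContDiffOn ℝ n G (Icc al be))
    (h1 : al ≤ c) (h2 : c < d) (h3 : d ≤ be) (y : ℝ) (hy : y ∈ Icc c d) :
    iteratedDerivWithin n G (Icc c d) y = iteratedDerivWithin n G (Icc al be) y := by
  rw [iteratedDerivWithin_eq_iteratedFDerivWithin, iteratedDerivWithin_eq_iteratedFDerivWithin,
    iteratedFDerivWithin_subset (Icc_subset_Icc h1 h3) (uniqueDiffOn_Icc h2)
      (uniqueDiffOn_Icc (lt_of_le_of_lt h1 (lt_of_lt_of_le h2 h3))) hG hy]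

/-- hull version of the adjacent-interval comparison -/
theorem l8a_hull (k : ℕ) (G : ℝ → ℝ) (al be M c d a b T : ℝ)
    (hG : ContDiffOn ℝ (k + 1 : ℕ) G (Icc al be)) (hG0 : ∀ z ∈ Icc al be, 0 ≤ G z)
    (hM : ∀ z ∈ Icc al be, |iteratedDerivWithin (k + 1) G (Icc al be) z| ≤ M)
    (h1 : al ≤ c) (hca : c ≤ a) (hab : a < b) (hbd : b ≤ d) (h2 : d ≤ be)
    (hT : d - c ≤ T * (b - a)) :
    ∀ z ∈ Icc c d, G z ≤ (T * (k + 1 : ℕ)) ^ k * (k + 1 : ℕ) *
      ((∫ s in a..b, G s) / (b - a) + M * (d - c) ^ (k + 1)) + M * (d - c) ^ (k + 1) := by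
  have hcd : c < d := lt_of_le_of_lt hca (lt_of_lt_of_le hab hbd)
  have hsub : Icc c d ⊆ Icc al be := Icc_subset_Icc h1 h2
  have hM0 : 0 ≤ M := (abs_nonneg _).trans (hM c (hsub ⟨le_rfl, hcd.le⟩))
  obtain ⟨P, hPd, hPe⟩ := l8a_taylor_poly G k (Icc c d) c
  have hGc : ContDiffOn ℝ (k + 1 : ℕ) G (Icc c d) := hG.mono hsub
  have hGP : ∀ s ∈ Icc c d, |G s - P.eval s| ≤ M * (d - c) ^ (k + 1) := by
    intro s hs
    have hb := taylor_mean_remainder_bound (f := G) (C := M) (n := k) hcd.le
      (by exact_mod_cast hGc) hs (by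
        intro y hy
        rw [l8a_iter_sub (k + 1) G al be c d hG h1 hcd h2 y hy]
        exact hM y (hsub hy))
    rw [hPe, ← Real.norm_eq_abs]
    refine hb.trans ?_
    have hf : (1 : ℝ) ≤ (k.factorial : ℝ) := by exact_mod_cast Nat.one_le_iff_ne_zero.2 (Nat.factorial_ne_zero k)
    have hp : (s - c) ^ (k + 1) ≤ (d - c) ^ (k + 1) :=
      pow_le_pow_left₀ (sub_nonneg.2 hs.1) (by linarith [hs.2]) _
    have hp0 : 0 ≤ (s - c) ^ (k + 1) := pow_nonneg (sub_nonneg.2 hs.1) _
    calc M * (s - c) ^ (k + 1) / (k.factorial : ℝ) ≤ M * (s - c) ^ (k + 1) :=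
          div_le_self (mul_nonneg hM0 hp0) hf
      _ ≤ M * (d - c) ^ (k + 1) := mul_le_mul_of_nonneg_left hp hM0
  have hGi : IntervalIntegrable G volume a b := by
    apply ContinuousOn.intervalIntegrable
    rw [uIcc_of_le hab.le]
    exact hGc.continuousOn.mono (Icc_subset_Icc hca hbd)
  have := l8a_core (k + 1) (Nat.succ_pos k) P hPd G c d a b T _ hca hab hbd
    (fun s hs => hG0 s (hsub hs)) hGP hGi hT
  simpa using this

/-- **Adjacent intervals** (LL sec. 8, l.138-154; S4 of the L10 note). -/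
theorem l8a_adjacent (n : ℕ) (kap : ℝ) (hk : 1 ≤ kap) : ∃ C : ℝ, 0 < C ∧
    ∀ (G : ℝ → ℝ) (al be M l : ℝ), ContDiffOn ℝ n G (Icc al be) → (∀ z ∈ Icc al be, 0 ≤ G z) →
    (∀ z ∈ Icc al be, |iteratedDerivWithin n G (Icc al be) z| ≤ M) →
    ∀ a b a' b' : ℝ, al ≤ a → a ≤ b → b ≤ be → al ≤ a' → a' < b' → b' ≤ be →
      b - a ≤ kap * l → l / kap ≤ b' - a' → b' - a' ≤ kap * l → |a - a'| ≤ kap * l →
    ∀ z ∈ Icc a b, G z ≤ C * ((∫ s in a'..b', G s) / (b' - a') + M * l ^ n) := by
  have hk0 : 0 < kap := by linarith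
  rcases n with _ | k
  · refine ⟨1, one_pos, ?_⟩
    intro G al be M l _ hG0 hM a b a' b' h1 h2 h3 h4 h5 h6 _ _ _ _ z hz
    have hz' : z ∈ Icc al be := ⟨h1.trans hz.1, hz.2.trans h3⟩
    have hMz := hM z hz'
    rw [iteratedDerivWithin_zero] at hMz
    have havg : 0 ≤ (∫ s in a'..b', G s) / (b' - a') := by
      apply div_nonneg _ (sub_nonneg.2 h5.le)
      apply intervalIntegral.integral_nonneg h5.le
      intro s hs
      exact hG0 s ⟨h4.trans hs.1, hs.2.trans h6⟩
    have := le_abs_self (G z)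
    simp only [pow_zero, mul_one, one_mul]
    linarith
  · set K : ℝ := (2 * kap ^ 2 * (k + 1 : ℕ)) ^ k * (k + 1 : ℕ) with hK
    set Λ : ℝ := (2 * kap) ^ (k + 1) with hΛ
    have hK0 : 0 ≤ K := by positivity
    have hΛ1 : 1 ≤ Λ := one_le_pow₀ (by linarith)
    refine ⟨(K + 1) * Λ, by positivity, ?_⟩
    intro G al be M l hG hG0 hM a b a' b' h1 h2 h3 h4 h5 h6 h7 h8 h9 h10 z hz
    have hl : 0 < l := by
      by_contra h
      have : kap * l ≤ 0 := mul_nonpos_of_nonneg_of_nonpos hk0.le (not_lt.1 h)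
      linarith
    have hM0 : 0 ≤ M := (abs_nonneg _).trans (hM a ⟨h1, h2.trans h3⟩)
    have habs := abs_le.1 h10
    have hc1 : a ≤ min a a' + kap * l := by
      rcases le_total a a' with h | h
      · rw [min_eq_left h]; nlinarith
      · rw [min_eq_right h]; linarith [habs.2]
    have hc2 : a' ≤ min a a' + kap * l := by
      rcases le_total a a' with h | h
      · rw [min_eq_left h]; linarith [habs.1]
      · rw [min_eq_right h]; nlinarith
    have hdc : max b b' - min a a' ≤ 2 * kap * l := by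
      have : max b b' ≤ min a a' + 2 * kap * l := max_le (by linarith) (by linarith)
      linarith
    have hl2 : l ≤ kap * (b' - a') := by
      rw [div_le_iff₀ hk0] at h8; linarith
    have hT : max b b' - min a a' ≤ 2 * kap ^ 2 * (b' - a') := by
      have : 2 * kap * l ≤ 2 * kap * (kap * (b' - a')) :=
        mul_le_mul_of_nonneg_left hl2 (by positivity)
      nlinarith
    have hmain := l8a_hull k G al be M (min a a') (max b b') a' b' (2 * kap ^ 2)
      (by exact_mod_cast hG) hG0 hM (le_min h1 h4) (min_le_right _ _) h5 (le_max_right _ _)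
      (max_le h3 h6) hT z ⟨(min_le_left _ _).trans hz.1, hz.2.trans (le_max_left _ _)⟩
    have hdc0 : 0 ≤ max b b' - min a a' := by
      have := min_le_left a a'
      have := le_max_left b b'
      linarith
    have hpow : (max b b' - min a a') ^ (k + 1) ≤ Λ * l ^ (k + 1) := by
      rw [hΛ, ← mul_pow]
      exact pow_le_pow_left₀ hdc0 hdc _
    have havg : 0 ≤ (∫ s in a'..b', G s) / (b' - a') := by
      apply div_nonneg _ (sub_nonneg.2 h5.le)
      apply intervalIntegral.integral_nonneg h5.le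
      intro s hs
      exact hG0 s ⟨h4.trans hs.1, hs.2.trans h6⟩
    have hMp : M * (max b b' - min a a') ^ (k + 1) ≤ Λ * (M * l ^ (k + 1)) := by
      have := mul_le_mul_of_nonneg_left hpow hM0
      linarith
    have hMl : 0 ≤ M * l ^ (k + 1) := by positivity
    set avg := (∫ s in a'..b', G s) / (b' - a') with havgdef
    set R := M * (max b b' - min a a') ^ (k + 1) with hR
    set Q := M * l ^ (k + 1) with hQ
    calc G z ≤ K * (avg + R) + R := hmain
      _ ≤ K * (avg + Λ * Q) + Λ * Q := by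
          have := mul_le_mul_of_nonneg_left (add_le_add_right hMp avg) hK0
          linarith
      _ ≤ (K + 1) * Λ * (avg + Q) := by
          have h11 : K * avg ≤ (K + 1) * Λ * avg := by
            apply mul_le_mul_of_nonneg_right _ havg
            nlinarith
          nlinarith

/-- mass form of the adjacent-interval comparison -/
theorem l8a_adjacent_mass (n : ℕ) (kap : ℝ) (hk : 1 ≤ kap) : ∃ C : ℝ, 0 < C ∧
    ∀ (G : ℝ → ℝ) (al be M l : ℝ), ContDiffOn ℝ n G (Icc al be) → (∀ z ∈ Icc al be, 0 ≤ G z) →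
    (∀ z ∈ Icc al be, |iteratedDerivWithin n G (Icc al be) z| ≤ M) →
    ∀ a b a' b' : ℝ, al ≤ a → a ≤ b → b ≤ be → al ≤ a' → a' < b' → b' ≤ be →
      b - a ≤ kap * l → l / kap ≤ b' - a' → b' - a' ≤ kap * l → |a - a'| ≤ kap * l →
    (∫ s in a..b, G s) ≤ C * ((∫ s in a'..b', G s) + M * l ^ (n + 1)) := by
  have hk0 : 0 < kap := by linarith
  obtain ⟨C, hC, hmain⟩ := l8a_adjacent n kap hk
  refine ⟨C * kap ^ 2, by positivity, ?_⟩
  intro G al be M l hG hG0 hM a b a' b' h1 h2 h3 h4 h5 h6 h7 h8 h9 h10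
  have hl : 0 < l := by
    by_contra h
    have : kap * l ≤ 0 := mul_nonpos_of_nonneg_of_nonpos hk0.le (not_lt.1 h)
    linarith
  have hM0 : 0 ≤ M := (abs_nonneg _).trans (hM a ⟨h1, h2.trans h3⟩)
  have hsup := hmain G al be M l hG hG0 hM a b a' b' h1 h2 h3 h4 h5 h6 h7 h8 h9 h10
  have hI0 : 0 ≤ ∫ s in a'..b', G s := by
    apply intervalIntegral.integral_nonneg h5.le
    intro s hs
    exact hG0 s ⟨h4.trans hs.1, hs.2.trans h6⟩
  have hGi : IntervalIntegrable G volume a b := by
    apply ContinuousOn.intervalIntegrable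
    rw [uIcc_of_le h2]
    exact hG.continuousOn.mono (Icc_subset_Icc h1 h3)
  set B := C * ((∫ s in a'..b', G s) / (b' - a') + M * l ^ n) with hB
  have h11 : (∫ s in a..b, G s) ≤ ∫ _s in a..b, B :=
    intervalIntegral.integral_mono_on h2 hGi intervalIntegrable_const hsup
  rw [intervalIntegral.integral_const, smul_eq_mul] at h11
  have hB0 : 0 ≤ B := by
    have : 0 ≤ (∫ s in a'..b', G s) / (b' - a') := div_nonneg hI0 (sub_nonneg.2 h5.le)
    positivity
  have h12 : (b - a) * B ≤ kap * l * B := mul_le_mul_of_nonneg_right h7 hB0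
  have h13 : (∫ s in a'..b', G s) / (b' - a') ≤ (∫ s in a'..b', G s) * (kap / l) := by
    rw [div_eq_mul_inv]
    apply mul_le_mul_of_nonneg_left _ hI0
    have : (b' - a')⁻¹ ≤ (l / kap)⁻¹ := inv_anti₀ (by positivity) h8
    rwa [inv_div] at this
  have h14 : kap * l * B ≤ C * kap ^ 2 * ((∫ s in a'..b', G s) + M * l ^ (n + 1)) := by
    have h15 : B ≤ C * ((∫ s in a'..b', G s) * (kap / l) + M * l ^ n) := by
      rw [hB]; apply mul_le_mul_of_nonneg_left _ hC.le; linarith
    have h16 : kap * l * B ≤ kap * l * (C * ((∫ s in a'..b', G s) * (kap / l) + M * l ^ n)) :=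
      mul_le_mul_of_nonneg_left h15 (by positivity)
    have h17 : kap * l * (C * ((∫ s in a'..b', G s) * (kap / l) + M * l ^ n))
        = C * kap ^ 2 * (∫ s in a'..b', G s) + C * kap * (M * l ^ (n + 1)) := by
      field_simp
      ring
    have h18 : C * kap * (M * l ^ (n + 1)) ≤ C * kap ^ 2 * (M * l ^ (n + 1)) := by
      apply mul_le_mul_of_nonneg_right _ (by positivity)
      apply mul_le_mul_of_nonneg_left _ hC.le
      nlinarith
    linarith
  linarith

end Claimed.Agent.R286.L08
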