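import Claimed.Agent.R286.L08.SPI
import Claimed.Agent.R286.L08.IvP
import Claimed.Agent.R286.L08.IvSk
import Claimed.Agent.R286.L08.Cen
import Claimed.Agent.R286.L02.Tilt
import Claimed.Agent.R286.L09.ChD

/-!
# Row 286 (S0533), folder L08, file CS : COARSE PATHS AND MULTIPLIER CHANGES, THE STEP LEVEL      (owner helper78; prefix `l8y_`, `L8y`, `l8y`)

TEX[LL:lem:statistics-coarse-switch]  (LL 08-statistics l.925-1010).   This file = everything which lives on ONE admissible step path `A : SkStp`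
(no `LlPt`, no asymptotics, explicit constants).   The passage to `L9Coarse`, `L9Switch` (targets of 216, `L09/Contract`) is `L08/CSP.lean`.

REDUCED PATH `A = ⟨0, b0, 0⟩ :: Q`: the initial matrix revelation at the mass `0`, then the chain at the masses `≥ x` (`L8yRed a x A`).
`ψ(A) = skPsi n a s A = f(skTilt s A) - f(A)`.   Along a curve `t ↦ A t` with fixed masses and differentiable cumulative clocks (speeds `β j`, `η j` on the cut `j`),
`dψ/dt = l8yD n a s A β η := l9dA1 (skTilt s A) β η - l9dA1 A β η`   (`l8y_psi_hasDerivAt`, from Theorem A of 151, `L09/ChD`).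

PLAN (paper l.941-975):
* A (abstract, `L8P`): an INITIAL DENSITY TILT `R` (`L8yTilt`: measurable at the cut `1`, mean one).  `S^s_k = ∫ R |X_k|²`, `B^s_k = ∫ R ‖E_k yyᵀ‖²`.
    LIN  `S^s_k - S_k = ∫ (R - 1)(2 L_k - S_k)` EXACTLY ("no alias error"), then Cauchy-Schwarz + pinned variance (A1): `l8y_lin_le`.
    QUAD `I_k := ∫ R (Q - S_k)² d fork_k = B^s_k - 2 S_k S^s_k + S_k²`, Hölder transfer (`l8c_transfer`, 187): `l8y_quad_sum`.
    `B^s - B = I - D² + 2 S (S^s - S)`: `l8y_abs_total`.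
* B (SK): `R = ghD` of the tilted first level as a function of the first driver; `μ^s = R μ` (`l8y_mu_tilt`); `∫ R^p = exp (K(ps) - p K(s))` (77, `L02/Tilt`).
* C: the derivative, its decomposition: cut `0` nothing, cuts `1` and `A.length` crude (their lengths are `≤ x`), the cuts `2 .. A.length - 1` by A.
* D: `∑ gap E W ≤ 16 / (n κ0)`, `∑ gap D² ≲ (n κ0)^(-1/2)` when `Δh_k ≥ κ0 log (m_k / m_(k-1))` (mass layer of 228 / 189 with a SYNTHETIC logarithmic clock).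
* E: the two pointwise bounds `l8y_core` (strength sweep), `l8y_core_sw` (multiplier sweeps).
-/

set_option autoImplicit false

namespace Claimed.Agent.R286

open MeasureTheory ProbabilityTheory Finset
open scoped ENNReal

/-! ## A. An initial density tilt on an abstract single path -/

namespace L8P

variable {Ω : Type} [mΩ : MeasurableSpace Ω] {m : ℕ} (P : L8P Ω m)

/-- TEX[LL:lem:statistics-coarse-switch] an initial density tilt ((A4)): a density which is known at the cut `1` -/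
structure L8yTilt (R : Ω → ℝ) : Prop where
  meas : Measurable[P.ℱ 1] R
  nonneg : ∀ ω, 0 ≤ R ω
  int : ∀ n : ℕ, Integrable (fun ω => R ω ^ n) P.μ
  one : ∫ ω, R ω ∂P.μ = 1

/-- `S_k` under the tilted law -/
noncomputable def l8ySs (R : Ω → ℝ) (k : ℕ) : ℝ := ∫ ω, R ω * P.nX k ω ∂P.μ

/-- `B_k` under the tilted law -/
noncomputable def l8yBs (R : Ω → ℝ) (k : ℕ) : ℝ :=
  ∫ ω, R ω * ∑ i, ∑ j, P.E k (fun ω' => P.y i ω' * P.y j ω') ω ^ 2 ∂P.μ

/-- the tilted second moment of the overlap of a pair split at the cut `k`, centered at the UNTILTED mean -/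
noncomputable def l8yI (R : Ω → ℝ) (k : ℕ) : ℝ := ∫ p, R p.1 * (P.Q p - P.S k) ^ 2 ∂(P.fork k)

/-- `‖R - 1‖₂²` -/
noncomputable def l8yV (R : Ω → ℝ) : ℝ := ∫ ω, (R ω - 1) ^ 2 ∂P.μ

/-- conditional averaging against an INTEGRABLE prefix-measurable weight.
PROOF: `μ = κ k ∘ₘ μ` (`l8s_fork_snd_aux`), `Measure.integral_comp`, `l8s_E_pull`. -/
theorem l8y_int_mul_E (h : P.Ok) (k : ℕ) {g f : Ω → ℝ} (hg : Measurable[P.ℱ k] g) (hgi : Integrable g P.μ) (hf : L8Bd f) :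
    ∫ ω, g ω * P.E k f ω ∂P.μ = ∫ ω, g ω * f ω ∂P.μ := by
  have := h.prob
  have := h.markov k
  have := h.markov 0
  obtain ⟨hfm, c, hc⟩ := hf
  have hgf : Integrable (fun ω => g ω * f ω) P.μ :=
    hgi.mul_bdd (c := c) hfm.aestronglyMeasurable (ae_of_all _ fun x => by simpa [Real.norm_eq_abs] using hc x)
  obtain ⟨ω0⟩ := nonempty_of_isProbabilityMeasure P.μ
  have h1 : Integrable (fun ω => g ω * f ω) ((P.κ k ∘ₖ P.κ 0) ω0) := by
    rw [P.l8s_comp_eq h (Nat.zero_le k) ω0, h.root]; exact hgf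
  have h2 := Kernel.integral_comp (η := P.κ k) (κ := P.κ 0) (a := ω0) h1
  rw [P.l8s_comp_eq h (Nat.zero_le k) ω0, h.root] at h2
  rw [h2]
  refine integral_congr_ae (ae_of_all _ fun ω => ?_)
  exact (P.l8s_E_pull h k hg ω).symm

/-- Fubini on the fork space against an integrable weight of the first branch.   PROOF: `Measure.integral_compProd`; integrability by `fork.map fst = μ`. -/
theorem l8y_fork_int (h : P.Ok) (k : ℕ) {g : Ω → ℝ} (hg : Measurable g) (hgi : Integrable g P.μ) {F : Ω × Ω → ℝ} (hF : L8Bd F) :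
    ∫ p, g p.1 * F p ∂(P.fork k) = ∫ ω, g ω * ∫ ω', F (ω, ω') ∂(P.κ k ω) ∂P.μ := by
  have := h.prob
  have := h.markov k
  obtain ⟨hFm, c, hc⟩ := hF
  have hg1 : Integrable (fun p : Ω × Ω => g p.1) (P.fork k) := by
    have e := P.l8s_fork_fst h k
    have : Integrable g ((P.fork k).map Prod.fst) := by rw [e]; exact hgi
    exact (integrable_map_measure hg.aestronglyMeasurable measurable_fst.aemeasurable).1 this
  have hi : Integrable (fun p : Ω × Ω => g p.1 * F p) (P.fork k) :=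
    hg1.mul_bdd (c := c) hFm.aestronglyMeasurable (ae_of_all _ fun x => by simpa [Real.norm_eq_abs] using hc x)
  have h1 := Measure.integral_compProd (μ := P.μ) (κ := P.κ k) hi
  refine h1.trans ?_
  refine integral_congr_ae (ae_of_all _ fun ω => ?_)
  exact integral_const_mul (g ω) fun ω' => F (ω, ω')

/-- TEX[LL:lem:statistics-coarse-switch] "conditional averaging replaces `Q - S_v` first by `|X_v|² - S_v` and then by `2 L_v - S_v` exactly; there is no alias error".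
PROOF: `l8y_int_mul_E` at the cut `k` with `g = R` (`ℱ 1 ≤ ℱ k`), `f = 2 L_k`, `l8s_E_L_future` (`2 E_k L_k = |X_k|²`), `l8c_T_mean`, `hR.one`. -/
theorem l8y_lin_id (h : P.Ok) {R : Ω → ℝ} (hR : P.L8yTilt R) {k : ℕ} (hk : 1 ≤ k) :
    P.l8ySs R k - P.S k = ∫ ω, (R ω - 1) * P.l8cT k ω ∂P.μ := by
  have := h.prob
  have hRk : Measurable[P.ℱ k] R := hR.meas.mono (P.ℱ.mono hk) le_rfl
  have hRi : Integrable R P.μ := by simpa using hR.int 1
  obtain ⟨hLm, cL, hcL⟩ := P.l8s_L_bd h k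
  have hRL : Integrable (fun ω => R ω * P.L k ω) P.μ :=
    hRi.mul_bdd (c := cL) hLm.aestronglyMeasurable (ae_of_all _ fun x => by simpa [Real.norm_eq_abs] using hcL x)
  have e1 := P.l8y_int_mul_E h k hRk hRi (P.l8s_L_bd h k)
  have e2 : ∀ ω, P.nX k ω = 2 * P.E k (P.L k) ω := fun ω => by
    rw [P.l8s_E_L_future h le_rfl ω, P.l8s_E_self h k (P.l8s_nX_meas_aux h k) ω]
  have e3 : P.l8ySs R k = 2 * ∫ ω, R ω * P.L k ω ∂P.μ := by
    unfold L8P.l8ySs
    rw [← e1, ← integral_const_mul]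
    refine integral_congr_ae (ae_of_all _ fun ω => ?_)
    simp only [e2 ω]; ring
  have hTi : Integrable (P.l8cT k) P.μ := (P.l8c_T_bd h k).integrable _
  have e4 : ∀ ω, (R ω - 1) * P.l8cT k ω = 2 * (R ω * P.L k ω) - P.S k * R ω - P.l8cT k ω := fun ω => by
    unfold L8P.l8cT; ring
  simp only [e4]
  have i1 : Integrable (fun ω => 2 * (R ω * P.L k ω)) P.μ := hRL.const_mul 2
  have i2 : Integrable (fun ω => P.S k * R ω) P.μ := hRi.const_mul _
  have i3 : Integrable (fun ω => 2 * (R ω * P.L k ω) - P.S k * R ω) P.μ := i1.sub i2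
  rw [integral_sub i3 hTi, integral_sub i1 i2, integral_const_mul, integral_const_mul, hR.one, P.l8c_T_mean h k, e3]
  ring

/-- the pinned variance (A1) with arbitrary deterministic weights (the proof of `l8c_linear` of 187 without its last step) -/
theorem l8y_linear_w (h : P.Ok) {c0 : ℝ} (hp : P.Pin 1 c0) {K : Finset ℕ} (hK : K ⊆ range (P.n + 1)) (κ : ℕ → ℝ) :
    ∫ ω, (∑ k ∈ K, P.dv k * κ k * P.l8cT k ω) ^ 2 ∂P.μ ≤ 4 * c0 * ∑ k ∈ K, P.dv k * κ k ^ 2 * ∫ ω, P.W k ω ∂P.μ := by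
  classical
  have := h.prob
  have h1 := P.l8c_pin_shift hp (fun k => if k ∈ K then κ k else 0) (fun _ => Polynomial.X)
  have e1 : ∀ ω, ∑ k ∈ range (P.n + 1), P.dv k * (if k ∈ K then κ k else 0) *
        ((Polynomial.X : Polynomial ℝ).eval (P.l8cT k ω) - ∫ ω', (Polynomial.X : Polynomial ℝ).eval (P.l8cT k ω') ∂P.μ)
      = ∑ k ∈ K, P.dv k * κ k * P.l8cT k ω := by
    intro ω
    rw [← Finset.sum_subset hK (fun k _ hk => by simp [hk])]
    exact Finset.sum_congr rfl fun k hk => by simp [hk, P.l8c_T_mean h k]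
  have e2 : ∀ ω, ∑ k ∈ range (P.n + 1), P.dv k * (if k ∈ K then κ k else 0) ^ 2 *
        (2 * (Polynomial.X : Polynomial ℝ).derivative.eval (P.l8cT k ω)) ^ 2 * P.W k ω
      = ∑ k ∈ K, P.dv k * κ k ^ 2 * 4 * P.W k ω := by
    intro ω
    rw [← Finset.sum_subset hK (fun k _ hk => by simp [hk])]
    exact Finset.sum_congr rfl fun k hk => by simp [hk]; norm_num
  simp only [e1, e2, mul_one, pow_one] at h1
  refine h1.trans (le_of_eq ?_)
  have hWi : ∀ k, Integrable (P.W k) P.μ := fun k => (P.l8s_W_bd h k).integrable _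
  rw [integral_finsetSum _ fun k _ => (hWi k).const_mul _, mul_assoc 4 c0, mul_comm 4, mul_assoc c0]
  congr 1
  rw [Finset.sum_mul]
  refine Finset.sum_congr rfl fun k _ => ?_
  rw [integral_const_mul]
  ring

/-- Cauchy-Schwarz -/
theorem _root_.Claimed.Agent.R286.l8y_cs {α : Type*} [MeasurableSpace α] (ν : Measure α) {f g : α → ℝ} (hf2 : Integrable (fun x => f x ^ 2) ν)
    (hg2 : Integrable (fun x => g x ^ 2) ν) (hfg : Integrable (fun x => f x * g x) ν) :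
    |∫ x, f x * g x ∂ν| ≤ √(∫ x, f x ^ 2 ∂ν) * √(∫ x, g x ^ 2 ∂ν) := by
  have key : ∀ t : ℝ, 0 ≤ (∫ x, f x ^ 2 ∂ν) * (t * t) + (-2 * ∫ x, f x * g x ∂ν) * t + ∫ x, g x ^ 2 ∂ν := by
    intro t
    have h0 : 0 ≤ ∫ x, (f x * t - g x) ^ 2 ∂ν := integral_nonneg fun x => sq_nonneg _
    have e : (fun x => (f x * t - g x) ^ 2) = fun x => f x ^ 2 * (t * t) + (-2 * (f x * g x)) * t + g x ^ 2 := by
      funext x; ring
    have i1 : Integrable (fun x => f x ^ 2 * (t * t)) ν := hf2.mul_const _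
    have i2 : Integrable (fun x => -2 * (f x * g x) * t) ν := (hfg.const_mul (-2)).mul_const t
    have i3 : Integrable (fun x => f x ^ 2 * (t * t) + -2 * (f x * g x) * t) ν := i1.add i2
    rw [e, integral_add i3 hg2, integral_add i1 i2, integral_mul_const, integral_mul_const, integral_const_mul] at h0
    exact h0
  have hd := discrim_le_zero key
  unfold discrim at hd
  have h2 : (∫ x, f x * g x ∂ν) ^ 2 ≤ (∫ x, f x ^ 2 ∂ν) * ∫ x, g x ^ 2 ∂ν := by nlinarith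
  rw [← Real.sqrt_mul (integral_nonneg fun x => sq_nonneg _)]
  exact Real.abs_le_sqrt h2

/-- TEX[LL:lem:statistics-coarse-switch] **LIN**: "The centered integral estimate from (A1) costs `O(e_1)`.  Transfer to the stopped tilted law by (A4)."
PROOF: sum `l8y_lin_id`, Cauchy-Schwarz in `L²(μ)` (`R - 1`, bounded sum), `l8y_linear_w`. -/
theorem l8y_lin_le (h : P.Ok) {c0 : ℝ} (hp : P.Pin 1 c0) {R : Ω → ℝ} (hR : P.L8yTilt R) {K : Finset ℕ}
    (hK : K ⊆ Icc 1 P.n) (κ : ℕ → ℝ) :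
    |∑ k ∈ K, P.dv k * κ k * (P.l8ySs R k - P.S k)|
      ≤ √(P.l8yV R) * √(4 * c0 * ∑ k ∈ K, P.dv k * κ k ^ 2 * ∫ ω, P.W k ω ∂P.μ) := by
  have := h.prob
  have hRi : Integrable R P.μ := by simpa using hR.int 1
  have hK' : K ⊆ range (P.n + 1) := fun k hk => by
    have := Finset.mem_Icc.1 (hK hk); exact Finset.mem_range.2 (by omega)
  set G : Ω → ℝ := fun ω => ∑ k ∈ K, P.dv k * κ k * P.l8cT k ω with hG
  have hGb : L8Bd G := L8Bd.sum _ fun k _ => (P.l8c_T_bd h k).const_mul _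
  obtain ⟨hGm, cG, hcG⟩ := hGb
  have hR1 : Integrable (fun ω => R ω - 1) P.μ := hRi.sub (integrable_const _)
  have hT : ∀ k, Integrable (fun ω => (R ω - 1) * P.l8cT k ω) P.μ := fun k => by
    obtain ⟨hm, c, hc⟩ := P.l8c_T_bd h k
    exact hR1.mul_bdd (c := c) hm.aestronglyMeasurable (ae_of_all _ fun x => by simpa [Real.norm_eq_abs] using hc x)
  have e1 : ∑ k ∈ K, P.dv k * κ k * (P.l8ySs R k - P.S k) = ∫ ω, (R ω - 1) * G ω ∂P.μ := by
    have e2 : ∀ ω, (R ω - 1) * G ω = ∑ k ∈ K, P.dv k * κ k * ((R ω - 1) * P.l8cT k ω) := fun ω => by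
      simp only [hG, Finset.mul_sum]
      exact Finset.sum_congr rfl fun k _ => by ring
    simp only [e2]
    rw [integral_finsetSum _ fun k _ => (hT k).const_mul _]
    refine Finset.sum_congr rfl fun k hk => ?_
    rw [integral_const_mul, P.l8y_lin_id h hR (Finset.mem_Icc.1 (hK hk)).1]
  rw [e1]
  have hf2 : Integrable (fun ω => (R ω - 1) ^ 2) P.μ := by
    have e : (fun ω => (R ω - 1) ^ 2) = fun ω => R ω ^ 2 - 2 * R ω + 1 := by funext ω; ring
    rw [e]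
    exact ((hR.int 2).sub (hRi.const_mul 2)).add (integrable_const _)
  have hg2 : Integrable (fun ω => G ω ^ 2) P.μ := (L8Bd.pow ⟨hGm, cG, hcG⟩ 2).integrable _
  have hfg : Integrable (fun ω => (R ω - 1) * G ω) P.μ :=
    hR1.mul_bdd (c := cG) hGm.aestronglyMeasurable (ae_of_all _ fun x => by simpa [Real.norm_eq_abs] using hcG x)
  refine (l8y_cs P.μ hf2 hg2 hfg).trans ?_
  exact mul_le_mul_of_nonneg_left (Real.sqrt_le_sqrt (P.l8y_linear_w h hp hK' κ)) (Real.sqrt_nonneg _)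

/-- products on the fork space against an integrable prefix-measurable weight -/
theorem l8y_fork_prod (h : P.Ok) (k : ℕ) {R f g : Ω → ℝ} (hRk : Measurable[P.ℱ k] R) (hRi : Integrable R P.μ) (hf : L8Bd f) (hg : L8Bd g) :
    Integrable (fun p : Ω × Ω => R p.1 * (f p.1 * g p.2)) (P.fork k) ∧
      ∫ p, R p.1 * (f p.1 * g p.2) ∂(P.fork k) = ∫ ω, R ω * (P.E k f ω * P.E k g ω) ∂P.μ := by
  have := h.prob
  have := h.markov k
  have hRm : Measurable R := hRk.mono (P.ℱ.le k) le_rfl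
  have hF : L8Bd (fun p : Ω × Ω => f p.1 * g p.2) := (l8c_bd_fst hf).mul (l8c_bd_snd hg)
  constructor
  · obtain ⟨hFm, c, hc⟩ := hF
    have hg1 : Integrable (fun p : Ω × Ω => R p.1) (P.fork k) := by
      have e := P.l8s_fork_fst h k
      have : Integrable R ((P.fork k).map Prod.fst) := by rw [e]; exact hRi
      exact (integrable_map_measure hRm.aestronglyMeasurable measurable_fst.aemeasurable).1 this
    exact hg1.mul_bdd (c := c) hFm.aestronglyMeasurable (ae_of_all _ fun x => by simpa [Real.norm_eq_abs] using hc x)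
  · rw [P.l8y_fork_int h k hRm hRi hF]
    have hEg := P.l8s_E_bd h k hg
    have hw : Measurable[P.ℱ k] fun ω => R ω * P.E k g ω := hRk.mul (P.l8s_E_sm h k hg).measurable
    have hwi : Integrable (fun ω => R ω * P.E k g ω) P.μ := by
      obtain ⟨hm, c, hc⟩ := hEg
      exact hRi.mul_bdd (c := c) hm.aestronglyMeasurable (ae_of_all _ fun x => by simpa [Real.norm_eq_abs] using hc x)
    have e1 := P.l8y_int_mul_E h k hw hwi hf
    have e2 : ∀ ω, R ω * ∫ ω', f ω * g ω' ∂(P.κ k ω) = R ω * P.E k g ω * f ω := fun ω => by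
      rw [integral_const_mul]; unfold L8P.E; ring
    have e3 : ∀ ω, R ω * (P.E k f ω * P.E k g ω) = R ω * P.E k g ω * P.E k f ω := fun ω => by ring
    simp only [e2, e3]
    exact e1.symm

/-- TEX[LL:lem:statistics-coarse-switch] "expand `Q²` around the common untilted mean `S_v`".
PROOF: `l8y_fork_int`; inner integrals `∫ Q² dκ = ∑ y_i y_j E_k(y_i y_j)`, `∫ Q dκ = ∑ y_i X_i`; then `l8y_int_mul_E` with the weights `R E_k(y_i y_j)`, `R X_i`. -/
theorem l8y_quad_id (h : P.Ok) {R : Ω → ℝ} (hR : P.L8yTilt R) {k : ℕ} (hk : 1 ≤ k) :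
    P.l8yI R k = P.l8yBs R k - 2 * P.S k * P.l8ySs R k + P.S k ^ 2 := by
  have := h.prob
  have := P.l8s_fork_prob h k
  have hRk : Measurable[P.ℱ k] R := hR.meas.mono (P.ℱ.mono hk) le_rfl
  have hRm : Measurable R := hRk.mono (P.ℱ.le k) le_rfl
  have hRi : Integrable R P.μ := by simpa using hR.int 1
  have hy := P.l8s_y_bd h
  have hyy : ∀ i j, L8Bd (fun ω' => P.y i ω' * P.y j ω') := fun i j => (hy i).mul (hy j)
  have hbd : ∀ {f : Ω → ℝ}, L8Bd f → Integrable (fun ω => R ω * f ω) P.μ := fun {f} hf => by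
    obtain ⟨hm, c, hc⟩ := hf
    exact hRi.mul_bdd (c := c) hm.aestronglyMeasurable (ae_of_all _ fun x => by simpa [Real.norm_eq_abs] using hc x)
  -- the three integrals
  have a1 : ∫ p, R p.1 * P.Q p ^ 2 ∂(P.fork k) = P.l8yBs R k := by
    have e : ∀ p : Ω × Ω, R p.1 * P.Q p ^ 2 = ∑ i, ∑ j, R p.1 * ((P.y i p.1 * P.y j p.1) * (P.y i p.2 * P.y j p.2)) := by
      intro p
      unfold L8P.Q
      rw [sq, Finset.sum_mul_sum, Finset.mul_sum]
      refine Finset.sum_congr rfl fun i _ => ?_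
      rw [Finset.mul_sum]
      exact Finset.sum_congr rfl fun j _ => by ring
    have e' : ∀ ω, R ω * ∑ i, ∑ j, P.E k (fun ω' => P.y i ω' * P.y j ω') ω ^ 2
        = ∑ i, ∑ j, R ω * (P.E k (fun ω' => P.y i ω' * P.y j ω') ω * P.E k (fun ω' => P.y i ω' * P.y j ω') ω) := by
      intro ω
      rw [Finset.mul_sum]
      refine Finset.sum_congr rfl fun i _ => ?_
      rw [Finset.mul_sum]
      exact Finset.sum_congr rfl fun j _ => by ring
    unfold L8P.l8yBs
    simp only [e, e']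
    rw [integral_finsetSum _ fun i _ => integrable_finsetSum _ fun j _ => (P.l8y_fork_prod h k hRk hRi (hyy i j) (hyy i j)).1,
      integral_finsetSum _ fun i _ => integrable_finsetSum _ fun j _ =>
        hbd ((P.l8s_E_bd h k (hyy i j)).mul (P.l8s_E_bd h k (hyy i j)))]
    refine Finset.sum_congr rfl fun i _ => ?_
    rw [integral_finsetSum _ fun j _ => (P.l8y_fork_prod h k hRk hRi (hyy i j) (hyy i j)).1,
      integral_finsetSum _ fun j _ => hbd ((P.l8s_E_bd h k (hyy i j)).mul (P.l8s_E_bd h k (hyy i j)))]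
    exact Finset.sum_congr rfl fun j _ => (P.l8y_fork_prod h k hRk hRi (hyy i j) (hyy i j)).2
  have a2 : ∫ p, R p.1 * P.Q p ∂(P.fork k) = P.l8ySs R k := by
    have e : ∀ p : Ω × Ω, R p.1 * P.Q p = ∑ i, R p.1 * (P.y i p.1 * P.y i p.2) := by
      intro p; unfold L8P.Q; rw [Finset.mul_sum]
    have e' : ∀ ω, R ω * P.nX k ω = ∑ i, R ω * (P.E k (P.y i) ω * P.E k (P.y i) ω) := by
      intro ω; unfold L8P.nX L8P.X; rw [Finset.mul_sum]
      exact Finset.sum_congr rfl fun i _ => by ring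
    unfold L8P.l8ySs
    simp only [e, e']
    rw [integral_finsetSum _ fun i _ => (P.l8y_fork_prod h k hRk hRi (hy i) (hy i)).1,
      integral_finsetSum _ fun i _ => hbd ((P.l8s_E_bd h k (hy i)).mul (P.l8s_E_bd h k (hy i)))]
    exact Finset.sum_congr rfl fun i _ => (P.l8y_fork_prod h k hRk hRi (hy i) (hy i)).2
  have a3 : ∫ p : Ω × Ω, R p.1 ∂(P.fork k) = 1 := by rw [P.l8c_fork_int_fst h k hRm, hR.one]
  obtain ⟨hQm, hQb⟩ := P.l8s_fork_Q_bd_aux h
  have hR1 : Integrable (fun p : Ω × Ω => R p.1) (P.fork k) := by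
    have e := P.l8s_fork_fst h k
    have : Integrable R ((P.fork k).map Prod.fst) := by rw [e]; exact hRi
    exact (integrable_map_measure hRm.aestronglyMeasurable measurable_fst.aemeasurable).1 this
  have i1 : Integrable (fun p : Ω × Ω => R p.1 * P.Q p ^ 2) (P.fork k) :=
    hR1.mul_bdd (c := 1) (hQm.pow_const 2).aestronglyMeasurable (ae_of_all _ fun x => by
      rw [Real.norm_eq_abs, abs_pow]; exact pow_le_one₀ (abs_nonneg _) (hQb x))
  have i2 : Integrable (fun p : Ω × Ω => R p.1 * P.Q p) (P.fork k) :=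
    hR1.mul_bdd (c := 1) hQm.aestronglyMeasurable (ae_of_all _ fun x => by simpa [Real.norm_eq_abs] using hQb x)
  have e : ∀ p : Ω × Ω, R p.1 * (P.Q p - P.S k) ^ 2 = R p.1 * P.Q p ^ 2 - 2 * P.S k * (R p.1 * P.Q p) + P.S k ^ 2 * R p.1 :=
    fun p => by ring
  unfold L8P.l8yI
  simp only [e]
  have i4 : Integrable (fun p : Ω × Ω => 2 * P.S k * (R p.1 * P.Q p)) (P.fork k) := i2.const_mul _
  have i5 : Integrable (fun p : Ω × Ω => R p.1 * P.Q p ^ 2 - 2 * P.S k * (R p.1 * P.Q p)) (P.fork k) := i1.sub i4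
  have i6 : Integrable (fun p : Ω × Ω => P.S k ^ 2 * R p.1) (P.fork k) := hR1.const_mul _
  rw [integral_add i5 i6, integral_sub i1 i4, integral_const_mul, integral_const_mul, a1, a2, a3]
  ring

theorem l8y_quad_nonneg {R : Ω → ℝ} (hR : P.L8yTilt R) (k : ℕ) : 0 ≤ P.l8yI R k :=
  integral_nonneg fun _ => mul_nonneg (hR.nonneg _) (sq_nonneg _)

/-- Hölder transfer at one cut.   PROOF: `l8c_transfer` on `ν = fork k`, `F = Q - S_k`, `M = 2`, `A = D²_k` (`l8s_fork_var_Q`); `∫ R(p.1)^n d fork = ∫ R^n dμ` (`l8c_fork_int_fst`). -/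
theorem l8y_quad_le (h : P.Ok) {R : Ω → ℝ} (hR : P.L8yTilt R) (k : ℕ) {n : ℕ} (hn : 2 ≤ n) :
    P.l8yI R k ^ n ≤ 4 * (∫ ω, R ω ^ n ∂P.μ) * P.D2 k ^ (n - 1) := by
  have := h.prob
  have := P.l8s_fork_prob h k
  have hRm : Measurable R := hR.meas.mono (P.ℱ.le 1) le_rfl
  obtain ⟨hQm, hQb⟩ := P.l8s_fork_Q_bd_aux h
  have hRn : Integrable (fun p : Ω × Ω => R p.1 ^ n) (P.fork k) := by
    have e := P.l8s_fork_fst h k
    have : Integrable (fun ω => R ω ^ n) ((P.fork k).map Prod.fst) := by rw [e]; exact hR.int n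
    exact (integrable_map_measure (hRm.pow_const n).aestronglyMeasurable measurable_fst.aemeasurable).1 this
  have h1 := l8c_transfer (P.fork k) n hn (R := fun p : Ω × Ω => R p.1) (F := fun p => P.Q p - P.S k)
    (hRm.comp measurable_fst) (fun p => hR.nonneg _) hRn (hQm.sub_const _) (M := 2) (A := P.D2 k)
    (fun p => by
      have h1 := abs_le.1 (hQb p)
      have h2 := P.l8s_S_nonneg k
      have h3 := P.l8s_S_le_one h k
      rw [abs_le]; constructor <;> linarith [h1.1, h1.2])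
    (P.l8s_fork_var_Q h k).le
  rw [P.l8c_fork_int_fst h k (f := fun ω => R ω ^ n) (hRm.pow_const n)] at h1
  unfold L8P.l8yI
  refine h1.trans (le_of_eq ?_)
  ring

/-- TEX[LL:lem:statistics-coarse-switch] **QUAD**: "The quadratic centered term uses the preceding `D_v²` estimate" (Hölder per cut, then in the cut: `l8c_transfer_sum`) -/
theorem l8y_quad_sum (h : P.Ok) {R : Ω → ℝ} (hR : P.L8yTilt R) (K : Finset ℕ) {n : ℕ} (hn : 2 ≤ n) :
    (∑ k ∈ K, P.dv k * P.l8yI R k) ^ n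
      ≤ 4 * (∫ ω, R ω ^ n ∂P.μ) * (∑ k ∈ K, P.dv k) * (∑ k ∈ K, P.dv k * P.D2 k) ^ (n - 1) := by
  have hD : ∀ k, 0 ≤ P.D2 k := fun k => by
    rw [← P.l8s_fork_var_Q h k]; exact integral_nonneg fun _ => sq_nonneg _
  exact l8c_transfer_sum K n (by omega) P.dv (P.l8yI R) P.D2 (c := 4 * ∫ ω, R ω ^ n ∂P.μ)
    (mul_nonneg (by norm_num) (integral_nonneg fun ω => pow_nonneg (hR.nonneg ω) n)) (fun k _ => P.l8c_dv_nonneg h k)
    (fun k _ => P.l8y_quad_nonneg hR k) (fun k _ => hD k) fun k _ => P.l8y_quad_le h hR k hn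

/-- TEX[LL:lem:statistics-coarse-switch] **the difference of the two pressure derivatives over a band `K` of cuts `≥ 1`**.
PROOF: `B^s - B = I - D² + 2 S (S^s - S)` (`l8y_quad_id`); `|β| ≤ Λ`, `I, D² ≥ 0`; `l8y_lin_le` with the weights `S_k β_k` (`0 ≤ S ≤ 1`) and `η_k`. -/
theorem l8y_abs_total (h : P.Ok) {c0 : ℝ} (hc0 : 0 ≤ c0) (hp : P.Pin 1 c0) {R : Ω → ℝ} (hR : P.L8yTilt R) {K : Finset ℕ}
    (hK : K ⊆ Icc 1 P.n) (β η : ℕ → ℝ) {Λ : ℝ} (hβ : ∀ k ∈ K, |β k| ≤ Λ) :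
    |-(1 / 4) * ∑ k ∈ K, P.dv k * (P.l8yBs R k - P.B k) * β k - (1 / 2) * ∑ k ∈ K, P.dv k * (P.l8ySs R k - P.S k) * η k|
      ≤ 1 / 4 * Λ * (∑ k ∈ K, P.dv k * P.l8yI R k + ∑ k ∈ K, P.dv k * P.D2 k)
        + √(P.l8yV R) * (Λ * √(c0 * ∑ k ∈ K, P.dv k * ∫ ω, P.W k ω ∂P.μ)
            + √(c0 * ∑ k ∈ K, P.dv k * η k ^ 2 * ∫ ω, P.W k ω ∂P.μ)) := by
  have := h.prob
  have hd := P.l8c_dv_nonneg h
  have hD : ∀ k, 0 ≤ P.D2 k := fun k => by
    rw [← P.l8s_fork_var_Q h k]; exact integral_nonneg fun _ => sq_nonneg _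
  have hI := P.l8y_quad_nonneg hR
  have hW : ∀ k, 0 ≤ ∫ ω, P.W k ω ∂P.μ := fun k => integral_nonneg fun ω => P.l8s_W_nonneg h k ω
  rcases K.eq_empty_or_nonempty with rfl | ⟨k0, hk0⟩
  · simp
  have hΛ : 0 ≤ Λ := (abs_nonneg _).trans (hβ k0 hk0)
  -- decomposition
  have e1 : ∑ k ∈ K, P.dv k * (P.l8yBs R k - P.B k) * β k
      = ∑ k ∈ K, P.dv k * (P.l8yI R k - P.D2 k) * β k + 2 * ∑ k ∈ K, P.dv k * (P.S k * β k) * (P.l8ySs R k - P.S k) := by
    rw [Finset.mul_sum, ← Finset.sum_add_distrib]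
    refine Finset.sum_congr rfl fun k hk => ?_
    rw [P.l8y_quad_id h hR (Finset.mem_Icc.1 (hK hk)).1]
    unfold L8P.D2
    ring
  have e2 : ∑ k ∈ K, P.dv k * (P.l8ySs R k - P.S k) * η k = ∑ k ∈ K, P.dv k * η k * (P.l8ySs R k - P.S k) :=
    Finset.sum_congr rfl fun k _ => by ring
  have b1 : |∑ k ∈ K, P.dv k * (P.l8yI R k - P.D2 k) * β k| ≤ Λ * (∑ k ∈ K, P.dv k * P.l8yI R k + ∑ k ∈ K, P.dv k * P.D2 k) := by
    refine (Finset.abs_sum_le_sum_abs _ _).trans ?_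
    rw [← Finset.sum_add_distrib, Finset.mul_sum]
    refine Finset.sum_le_sum fun k hk => ?_
    rw [abs_mul, abs_mul, abs_of_nonneg (hd k)]
    have h1 : |P.l8yI R k - P.D2 k| ≤ P.l8yI R k + P.D2 k := by
      rw [abs_le]; constructor <;> linarith [hI k, hD k]
    calc P.dv k * |P.l8yI R k - P.D2 k| * |β k| ≤ P.dv k * (P.l8yI R k + P.D2 k) * Λ :=
          mul_le_mul (mul_le_mul_of_nonneg_left h1 (hd k)) (hβ k hk) (abs_nonneg _)
            (mul_nonneg (hd k) (add_nonneg (hI k) (hD k)))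
      _ = _ := by ring
  have b2 := P.l8y_lin_le h hp hR hK (fun k => P.S k * β k)
  have b3 := P.l8y_lin_le h hp hR hK η
  have c2 : √(4 * c0 * ∑ k ∈ K, P.dv k * (P.S k * β k) ^ 2 * ∫ ω, P.W k ω ∂P.μ)
      ≤ 2 * (Λ * √(c0 * ∑ k ∈ K, P.dv k * ∫ ω, P.W k ω ∂P.μ)) := by
    have h1 : 4 * c0 * ∑ k ∈ K, P.dv k * (P.S k * β k) ^ 2 * ∫ ω, P.W k ω ∂P.μ
        ≤ (2 * Λ) ^ 2 * (c0 * ∑ k ∈ K, P.dv k * ∫ ω, P.W k ω ∂P.μ) := by
      have h2 : ∑ k ∈ K, P.dv k * (P.S k * β k) ^ 2 * ∫ ω, P.W k ω ∂P.μ ≤ Λ ^ 2 * ∑ k ∈ K, P.dv k * ∫ ω, P.W k ω ∂P.μ := by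
        rw [Finset.mul_sum]
        refine Finset.sum_le_sum fun k hk => ?_
        have h3 : (P.S k * β k) ^ 2 ≤ Λ ^ 2 := by
          rw [← sq_abs, abs_mul, abs_of_nonneg (P.l8s_S_nonneg k)]
          refine pow_le_pow_left₀ (mul_nonneg (P.l8s_S_nonneg k) (abs_nonneg _)) ?_ 2
          calc P.S k * |β k| ≤ 1 * Λ := mul_le_mul (P.l8s_S_le_one h k) (hβ k hk) (abs_nonneg _) zero_le_one
            _ = Λ := one_mul _
        calc P.dv k * (P.S k * β k) ^ 2 * ∫ ω, P.W k ω ∂P.μ ≤ P.dv k * Λ ^ 2 * ∫ ω, P.W k ω ∂P.μ :=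
              mul_le_mul_of_nonneg_right (mul_le_mul_of_nonneg_left h3 (hd k)) (hW k)
          _ = _ := by ring
      calc _ ≤ 4 * c0 * (Λ ^ 2 * ∑ k ∈ K, P.dv k * ∫ ω, P.W k ω ∂P.μ) := mul_le_mul_of_nonneg_left h2 (by positivity)
        _ = _ := by ring
    refine (Real.sqrt_le_sqrt h1).trans (le_of_eq ?_)
    rw [Real.sqrt_mul (sq_nonneg _), Real.sqrt_sq (by positivity)]
    ring
  have c3 : √(4 * c0 * ∑ k ∈ K, P.dv k * η k ^ 2 * ∫ ω, P.W k ω ∂P.μ)
      = 2 * √(c0 * ∑ k ∈ K, P.dv k * η k ^ 2 * ∫ ω, P.W k ω ∂P.μ) := by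
    rw [mul_assoc, Real.sqrt_mul (by norm_num : (0 : ℝ) ≤ 4)]
    congr 1
    rw [show (4 : ℝ) = 2 ^ 2 by norm_num, Real.sqrt_sq (by norm_num)]
  rw [c3] at b3
  have b2' := b2.trans (mul_le_mul_of_nonneg_left c2 (Real.sqrt_nonneg _))
  rw [e1, e2]
  set T1 := ∑ k ∈ K, P.dv k * (P.l8yI R k - P.D2 k) * β k
  set T2 := ∑ k ∈ K, P.dv k * (P.S k * β k) * (P.l8ySs R k - P.S k)
  set T3 := ∑ k ∈ K, P.dv k * η k * (P.l8ySs R k - P.S k)
  have f1 := abs_le.1 b1
  have f2 := abs_le.1 b2'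
  have f3 := abs_le.1 b3
  rw [abs_le]
  constructor <;> nlinarith [f1.1, f1.2, f2.1, f2.2, f3.1, f3.2]

end L8P

/-! ## B. The SK instance of the tilt -/

section spi
variable {S ι : Type} [Fintype S] [Fintype ι] [MeasurableSpace S] [DiscreteMeasurableSpace S]

/-- one step of the planted kernel, for nonnegative measurable tests (no bound).
PROOF: unfold `spiK`; `Kernel.map_apply`, `lintegral_map`, `Kernel.lintegral_compProd`, `Kernel.lintegral_withDensity` as in `spi_int` (257). -/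
theorem l8y_spi_lint {B : GhB S} (l : GhLv S ι) {ls : List (GhLv S ι)} (hr : SpiReg B (l :: ls)) (z : S → ℝ)
    {f : SpiOm S ι → ℝ≥0∞} (hf : Measurable f) :
    ∫⁻ ω, f ω ∂(spiK B (l :: ls) z)
      = ∫⁻ ξ, ENNReal.ofReal (ghD B l ls z ξ) * ∫⁻ ω, f (ghCons ξ ω.1, ω.2) ∂(spiK B ls (z + l.inc ξ)) ∂ghStd ι := by
  have hm : Measurable (Function.uncurry fun (z : S → ℝ) (ξ : ι → ℝ) => ((ghD B l ls z ξ).toNNReal : ℝ≥0∞)) :=
    (spi_d_meas' l hr).coe_nnreal_ennreal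
  have hg : Measurable fun ξ : ι → ℝ => ∫⁻ ω, f (ghCons ξ ω.1, ω.2)
      ∂(((spiK B ls).comap (fun p : (S → ℝ) × (ι → ℝ) => p.1 + l.inc p.2) (spi_inc_meas l)) (z, ξ)) := by
    have h1 : Measurable fun p : (ι → ℝ) × SpiOm S ι => f (ghCons p.1 p.2.1, p.2.2) := hf.comp spi_cons_meas
    have h2 := Measurable.lintegral_kernel_prod_right'
      (κ := ((spiK B ls).comap (fun p : (S → ℝ) × (ι → ℝ) => p.1 + l.inc p.2) (spi_inc_meas l)).comap
        (fun ξ : ι → ℝ => (z, ξ)) measurable_prodMk_left) h1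
    simpa only [Kernel.comap_apply] using h2
  simp only [spiK]
  have h1 : Measurable fun p : (ι → ℝ) × SpiOm S ι => f (ghCons p.1 p.2.1, p.2.2) := hf.comp spi_cons_meas
  rw [Kernel.map_apply _ spi_cons_meas, lintegral_map hf spi_cons_meas,
    Kernel.lintegral_compProd _ _ _ h1, spiK1, Kernel.lintegral_withDensity _ hm _ hg,
    Kernel.const_apply]
  rfl

/-- **(A4)** on the abstract planted chain: the tilted path law is `R μ` -/
theorem l8y_spi_tilt {B : GhB S} (s : ℝ) (A0 : S → ι → ℝ) {ls : List (GhLv S ι)} (h0 : SpiReg B (⟨0, A0⟩ :: ls))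
    (hs : SpiReg B (⟨s, A0⟩ :: ls)) (z : S → ℝ) :
    spiK B (⟨s, A0⟩ :: ls) z
      = (spiK B (⟨0, A0⟩ :: ls) z).withDensity fun ω => ENNReal.ofReal (ll2tR B s A0 ls z (ω.1 0)) := by
  have hR : Measurable fun ω : SpiOm S ι => ENNReal.ofReal (ll2tR B s A0 ls z (ω.1 0)) := by
    have h1 : Measurable fun ξ : ι → ℝ => ghD B ⟨s, A0⟩ ls z ξ := (spi_d_meas _ hs).comp measurable_prodMk_left
    exact (h1.comp ((measurable_pi_apply 0).comp measurable_fst)).ennreal_ofReal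
  refine Measure.ext_of_lintegral _ fun f hf => ?_
  rw [lintegral_withDensity_eq_lintegral_mul _ hR hf, l8y_spi_lint _ hs z hf, l8y_spi_lint _ h0 z (hR.mul hf)]
  refine lintegral_congr fun ξ => ?_
  have e1 : ghD B ⟨0, A0⟩ ls z ξ = 1 := by simp [ghD]
  rw [e1, ENNReal.ofReal_one, one_mul]
  simp only [Pi.mul_apply, ghCons]
  rw [lintegral_const_mul' _ _ ENNReal.ofReal_ne_top]
  rfl

/-- the first driver of a chain which starts at the mass `0` is standard -/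
theorem l8y_spi_fst {B : GhB S} (hB : B.Ok) (A0 : S → ι → ℝ) {ls : List (GhLv S ι)} (h0 : SpiReg B (⟨0, A0⟩ :: ls)) (z : S → ℝ) :
    (spiK B (⟨0, A0⟩ :: ls) z).map (fun ω => ω.1 0) = ghStd ι := by
  have hm : Measurable fun ω : SpiOm S ι => ω.1 0 := (measurable_pi_apply 0).comp measurable_fst
  have := spi_k_markov hB h0.2.2
  refine Measure.ext_of_lintegral _ fun f hf => ?_
  have hfm : Measurable fun ω : SpiOm S ι => f (ω.1 0) := hf.comp hm
  rw [lintegral_map hf hm, l8y_spi_lint _ h0 z hfm]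
  refine lintegral_congr fun ξ => ?_
  have e1 : ghD B ⟨0, A0⟩ ls z ξ = 1 := by simp [ghD]
  rw [e1, ENNReal.ofReal_one, one_mul]
  simp [ghCons]

end spi

/-- TEX[LL:lem:statistics-coarse-switch] the density `R = e^{sG} / E e^{sG}` of the tilted root ((A4)) as a function on the path space of the UNTILTED reduced path -/
noncomputable def l8yR (n : ℕ) (a s : ℝ) : SkStp → SkOm n → ℝ
  | [], _ => 1
  | e :: Q, ω => ll2tR (skBase n a) s (e.lv n).A (skLvs n Q) 0 (ω.1 0)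

theorem l8y_lvs_zero (n : ℕ) (e : SkInc) (Q : SkStp) (he : e.m = 0) :
    skLvs n (e :: Q) = ⟨0, (e.lv n).A⟩ :: skLvs n Q := by
  obtain ⟨m, db, dh⟩ := e
  simp only at he
  subst he
  rfl

theorem l8y_lvs_tilt (n : ℕ) (s : ℝ) (e : SkInc) (Q : SkStp) :
    skLvs n (skTilt s (e :: Q)) = ⟨s, (e.lv n).A⟩ :: skLvs n Q := rfl

/-- **(A4)**: the tilted path law is `R μ`.   PROOF: `Measure.ext`, `l8y_spi_lint` on both sides; the two first levels have the same `inc`; `ghD = 1` at the mass `0`. -/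
theorem l8y_mu_tilt (n : ℕ) {a : ℝ} (ha : 0 < a) (s : ℝ) (e : SkInc) (Q : SkStp) (he : e.m = 0) (hA : SkAdm a (e :: Q))
    (hT : SkAdm a (skTilt s (e :: Q))) :
    (skSP n a (skTilt s (e :: Q))).μ = (skSP n a (e :: Q)).μ.withDensity fun ω => ENNReal.ofReal (l8yR n a s (e :: Q) ω) := by
  have r0 := l8i_reg (n := n) ha hA
  have rs := l8i_reg (n := n) ha hT
  rw [l8y_lvs_zero n e Q he] at r0
  rw [l8y_lvs_tilt] at rs
  show spiK (skBase n a) (skLvs n (skTilt s (e :: Q))) 0 = (spiK (skBase n a) (skLvs n (e :: Q)) 0).withDensity _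
  rw [l8y_lvs_tilt, l8y_lvs_zero n e Q he]
  exact l8y_spi_tilt s _ r0 rs 0

/-- the first driver of the untilted path is standard.   PROOF: `l8y_spi_lint`, `ghD = 1`, the remaining kernel is Markov. -/
theorem l8y_mu_fst (n : ℕ) {a : ℝ} (ha : 0 < a) (e : SkInc) (Q : SkStp) (he : e.m = 0) (hA : SkAdm a (e :: Q)) :
    (skSP n a (e :: Q)).μ.map (fun ω => ω.1 0) = ghStd (SkDr n) := by
  have r0 := l8i_reg (n := n) ha hA
  rw [l8y_lvs_zero n e Q he] at r0
  show (spiK (skBase n a) (skLvs n (e :: Q)) 0).map _ = _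
  rw [l8y_lvs_zero n e Q he]
  exact l8y_spi_fst (obt_base_ok n ha) _ r0 0

/-- `K_n(s)` in the vocabulary of 77.   PROOF: `ll2t_A4` with empty `mid`; the self corrections of the two pressures agree. -/
theorem l8y_KK_eq (n : ℕ) (hn : 1 ≤ n) {a : ℝ} (ha : 0 < a) {s : ℝ} (hs : s ≠ 0) (e : SkInc) (Q : SkStp) (he : e.m = 0) :
    skKK n a s (e :: Q) = ll2tK (skBase n a) s (e.lv n).A (skLvs n Q) 0 := by
  have hn' : (n : ℝ) ≠ 0 := by
    have : (0 : ℝ) < n := by exact_mod_cast hn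
    exact this.ne'
  have h := ll2t_A4 (obt_base_ok n ha) hs (e.lv n).A (mid0 := []) (midS := []) (fun l hl => by simp at hl)
    (fun l hl => by simp at hl) (skLvs n Q) 0
  rw [← h]
  have e1 : skTotB (skTilt s (e :: Q)) = skTotB (e :: Q) := by simp [skTilt, skTotB]
  have e2 : skTotH (skTilt s (e :: Q)) = skTotH (e :: Q) := by simp [skTilt, skTotH]
  unfold skKK skPsi skPr skF
  rw [e1, e2, l8y_lvs_tilt, l8y_lvs_zero n e Q he]
  simp only [ll2tT, ll2tU, List.nil_append]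
  field_simp
  ring

theorem l8y_KK_nonneg (n : ℕ) (hn : 1 ≤ n) {a : ℝ} (ha : 0 < a) {s : ℝ} (hs : s ≠ 0) (e : SkInc) (Q : SkStp) (he : e.m = 0) :
    0 ≤ skKK n a s (e :: Q) := by
  rw [l8y_KK_eq n hn ha hs e Q he]
  exact ll2t_K_nonneg (obt_base_ok n ha) _ _ _ _

/-- integrals of functions of the first driver -/
theorem l8y_int_fst (n : ℕ) {a : ℝ} (ha : 0 < a) (e : SkInc) (Q : SkStp) (he : e.m = 0) (hA : SkAdm a (e :: Q))
    {g : (SkDr n → ℝ) → ℝ} (hg : Measurable g) :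
    ∫ ω, g (ω.1 0) ∂(skSP n a (e :: Q)).μ = ∫ ξ, g ξ ∂ghStd (SkDr n) := by
  have hm : Measurable fun ω : SkOm n => ω.1 0 := (measurable_pi_apply 0).comp measurable_fst
  rw [← l8y_mu_fst n ha e Q he hA, integral_map hm.aemeasurable hg.aestronglyMeasurable]

theorem l8y_intble_fst (n : ℕ) {a : ℝ} (ha : 0 < a) (e : SkInc) (Q : SkStp) (he : e.m = 0) (hA : SkAdm a (e :: Q))
    {g : (SkDr n → ℝ) → ℝ} (hg : Measurable g) (hi : Integrable g (ghStd (SkDr n))) :
    Integrable (fun ω : SkOm n => g (ω.1 0)) (skSP n a (e :: Q)).μ := by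
  have hm : Measurable fun ω : SkOm n => ω.1 0 := (measurable_pi_apply 0).comp measurable_fst
  rw [← l8y_mu_fst n ha e Q he hA] at hi
  exact (integrable_map_measure hg.aestronglyMeasurable hm.aemeasurable).1 hi

theorem l8y_R_meas (n : ℕ) {a : ℝ} (ha : 0 < a) {s : ℝ} (hs : 0 ≤ s) (e : SkInc) (Q : SkStp) (hA : SkAdm a (e :: Q)) :
    Measurable fun ξ : SkDr n → ℝ => ll2tR (skBase n a) s (e.lv n).A (skLvs n Q) 0 ξ := by
  have hnn : GhNn (⟨s, (e.lv n).A⟩ :: skLvs n Q) := by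
    intro l hl
    rcases List.mem_cons.1 hl with rfl | hl
    · exact hs
    · exact ((l8i_adm (n := n) hA).ghNn le_rfl) l (List.mem_cons_of_mem _ hl)
  have rs : SpiReg (skBase n a) (⟨s, (e.lv n).A⟩ :: skLvs n Q) := spi_reg_of_nn (obt_base_ok n ha) hnn
  exact (spi_d_meas _ rs).comp measurable_prodMk_left

/-- `∫ R^p dμ = exp (K(ps) - p K(s))`.   PROOF: `integral_map` with `l8y_mu_fst`, `ll2t_R_norm` (77) at the real exponent `p`, `l8y_KK_eq`. -/
theorem l8y_R_mom (n : ℕ) (hn : 1 ≤ n) {a : ℝ} (ha : 0 < a) {s : ℝ} (hs : 0 < s) (e : SkInc) (Q : SkStp) (he : e.m = 0)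
    (hA : SkAdm a (e :: Q)) (p : ℕ) (hp : 1 ≤ p) :
    ∫ ω, l8yR n a s (e :: Q) ω ^ p ∂(skSP n a (e :: Q)).μ = Real.exp (skKK n a (p * s) (e :: Q) - p * skKK n a s (e :: Q)) := by
  have hp' : (0 : ℝ) < p := by exact_mod_cast hp
  have hm := l8y_R_meas n ha hs.le e Q hA
  rw [l8y_KK_eq n hn ha (mul_pos hp' hs).ne' e Q he, l8y_KK_eq n hn ha hs.ne' e Q he,
    ← ll2t_R_norm (obt_base_ok n ha) hs.ne']
  simp only [Real.rpow_natCast]
  exact l8y_int_fst n ha e Q he hA (hm.pow_const p)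

/-- PROOF: `meas`: `R` is a measurable function of `spiPf 1 ω 0` (`spi_fil_le`); `int`: `ll2t_R_rpow_int` through `l8y_mu_fst`; `one`: `ll2t_R_one`. -/
theorem l8y_R_tilt (n : ℕ) (hn : 1 ≤ n) {a : ℝ} (ha : 0 < a) {s : ℝ} (hs : 0 < s) (e : SkInc) (Q : SkStp) (he : e.m = 0)
    (hA : SkAdm a (e :: Q)) : (skSP n a (e :: Q)).L8yTilt (l8yR n a s (e :: Q)) := by
  have hm := l8y_R_meas n ha hs.le e Q hA
  refine ⟨?_, fun ω => (ll2t_R_pos _ _ _ _ _ _).le, fun p => ?_, ?_⟩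
  · show Measurable[spiFil (SkCfg n) (SkDr n) (skLvs n (e :: Q)).length 1] _
    rw [spi_fil_le _ (by simp [skLvs])]
    have e1 : l8yR n a s (e :: Q)
        = (fun η : ℕ → SkDr n → ℝ => ll2tR (skBase n a) s (e.lv n).A (skLvs n Q) 0 (η 0)) ∘ spiPf 1 := by
      funext ω
      simp [l8yR, spiPf, spiCut, spiSpl]
    rw [e1]
    exact (hm.comp (measurable_pi_apply 0)).comp (comap_measurable _)
  · have h1 := ll2t_R_rpow_int (obt_base_ok n ha) hs.ne' (e.lv n).A (skLvs n Q) 0 (p : ℝ)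
    simp only [Real.rpow_natCast] at h1
    exact l8y_intble_fst n ha e Q he hA (hm.pow_const p) h1
  · exact (l8y_int_fst n ha e Q he hA hm).trans (ll2t_R_one (obt_base_ok n ha) s _ _ _)

/-- `‖R - 1‖₂² = exp (K(2s) - 2 K(s)) - 1` -/
theorem l8y_R_var (n : ℕ) (hn : 1 ≤ n) {a : ℝ} (ha : 0 < a) {s : ℝ} (hs : 0 < s) (e : SkInc) (Q : SkStp) (he : e.m = 0)
    (hA : SkAdm a (e :: Q)) :
    (skSP n a (e :: Q)).l8yV (l8yR n a s (e :: Q)) = Real.exp (skKK n a (2 * s) (e :: Q) - 2 * skKK n a s (e :: Q)) - 1 := by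
  have hT := l8y_R_tilt n hn ha hs e Q he hA
  have hpr := (l8i_ok n hn a ha (e :: Q) hA).prob
  have h2 := l8y_R_mom n hn ha hs e Q he hA 2 (by norm_num)
  have i2 := hT.int 2
  have i1 : Integrable (l8yR n a s (e :: Q)) (skSP n a (e :: Q)).μ := by simpa using hT.int 1
  unfold L8P.l8yV
  have e1 : ∀ ω, (l8yR n a s (e :: Q) ω - 1) ^ 2 = l8yR n a s (e :: Q) ω ^ 2 - 2 * l8yR n a s (e :: Q) ω + 1 := fun ω => by ring
  simp only [e1]
  have e2 : ∫ ω, (l8yR n a s (e :: Q) ω ^ 2 - 2 * l8yR n a s (e :: Q) ω + 1) ∂(skSP n a (e :: Q)).μ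
      = ∫ ω, l8yR n a s (e :: Q) ω ^ 2 ∂(skSP n a (e :: Q)).μ - 2 * ∫ ω, l8yR n a s (e :: Q) ω ∂(skSP n a (e :: Q)).μ + 1 := by
    have h3 := integral_add (i2.sub (i1.const_mul 2)) (integrable_const (μ := (skSP n a (e :: Q)).μ) (1 : ℝ))
    have h4 := integral_sub i2 (i1.const_mul 2)
    simp only [Pi.sub_apply] at h3
    rw [h3, h4, integral_const_mul]
    simp
  rw [e2, hT.one, h2]
  push_cast
  ring

/-- the prefix fields do not see the mass of the first revelation -/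
theorem l8y_fld_tilt (n : ℕ) (s : ℝ) (e : SkInc) (Q : SkStp) (ξ : ℕ → SkDr n → ℝ) (k : ℕ) :
    obFld n (skTilt s (e :: Q)) 0 ξ k = obFld n (e :: Q) 0 ξ k := by
  unfold obFld ghPre
  cases k with
  | zero => rfl
  | succ k => rfl

theorem l8y_drop_tilt (s : ℝ) (e : SkInc) (Q : SkStp) {k : ℕ} (hk : 1 ≤ k) : (skTilt s (e :: Q)).drop k = (e :: Q).drop k := by
  obtain ⟨j, rfl⟩ := Nat.exists_eq_add_of_le hk
  simp [skTilt, add_comm 1 j]

/-- integration against the tilted law -/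
theorem l8y_int_tilt (n : ℕ) {a : ℝ} (ha : 0 < a) {s : ℝ} (hs : 0 ≤ s) (e : SkInc) (Q : SkStp) (he : e.m = 0) (hA : SkAdm a (e :: Q))
    (hT : SkAdm a (skTilt s (e :: Q))) (f : SkOm n → ℝ) :
    ∫ ω, f ω ∂(skSP n a (skTilt s (e :: Q))).μ = ∫ ω, l8yR n a s (e :: Q) ω * f ω ∂(skSP n a (e :: Q)).μ := by
  have hm : Measurable (l8yR n a s (e :: Q)) :=
    (l8y_R_meas n ha hs e Q hA).comp ((measurable_pi_apply 0).comp measurable_fst)
  rw [l8y_mu_tilt n ha s e Q he hA hT,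
    integral_withDensity_eq_integral_toReal_smul hm.ennreal_ofReal (Filter.Eventually.of_forall fun _ => ENNReal.ofReal_lt_top)]
  refine integral_congr_ae (Filter.Eventually.of_forall fun ω => ?_)
  simp only [smul_eq_mul]
  rw [ENNReal.toReal_ofReal (show 0 ≤ l8yR n a s (e :: Q) ω from (ll2t_R_pos _ _ _ _ _ _).le)]

/-- the statistics of the tilted path at the cuts `≥ 1`.
PROOF: `l8i_S` for the tilted path, `l8y_mu_tilt` + `integral_withDensity_eq_integral_smul`; `X_k` of the two paths agree pointwise for `k ≥ 1` (`l8i_X`: `drop k` and the prefix fields agree). -/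
theorem l8y_S_tilt (n : ℕ) (hn : 1 ≤ n) {a : ℝ} (ha : 0 < a) {s : ℝ} (hs : 0 < s) (e : SkInc) (Q : SkStp) (he : e.m = 0)
    (hA : SkAdm a (e :: Q)) (hT : SkAdm a (skTilt s (e :: Q))) {k : ℕ} (hk : 1 ≤ k) (hk' : k ≤ Q.length + 1) :
    obS n a (skTilt s (e :: Q)) 0 k = (skSP n a (e :: Q)).l8ySs (l8yR n a s (e :: Q)) k := by
  have hl : k ≤ (skTilt s (e :: Q)).length := by simpa [skTilt] using hk'
  have hl' : k ≤ (e :: Q).length := by simpa using hk'
  rw [← l8i_S n a ha _ hT k hl]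
  unfold L8P.S L8P.l8ySs
  rw [l8y_int_tilt n ha hs.le e Q he hA hT]
  refine integral_congr_ae (Filter.Eventually.of_forall fun ω => ?_)
  simp only [L8P.nX, l8i_X n a ha _ hT k hl, l8i_X n a ha _ hA k hl', obXp, l8y_fld_tilt, l8y_drop_tilt s e Q hk]

/-- the same for `B` (`l8i_B`, `l8i_M`) -/
theorem l8y_B_tilt (n : ℕ) (hn : 1 ≤ n) {a : ℝ} (ha : 0 < a) {s : ℝ} (hs : 0 < s) (e : SkInc) (Q : SkStp) (he : e.m = 0)
    (hA : SkAdm a (e :: Q)) (hT : SkAdm a (skTilt s (e :: Q))) {k : ℕ} (hk : 1 ≤ k) (hk' : k ≤ Q.length + 1) :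
    obB n a (skTilt s (e :: Q)) 0 k = (skSP n a (e :: Q)).l8yBs (l8yR n a s (e :: Q)) k := by
  have hl : k ≤ (skTilt s (e :: Q)).length := by simpa [skTilt] using hk'
  have hl' : k ≤ (e :: Q).length := by simpa using hk'
  rw [← l8i_B n a ha _ hT k hl]
  unfold L8P.B L8P.l8yBs
  rw [l8y_int_tilt n ha hs.le e Q he hA hT]
  refine integral_congr_ae (Filter.Eventually.of_forall fun ω => ?_)
  simp only [l8i_M n a ha _ hT k hl, l8i_M n a ha _ hA k hl', l8y_fld_tilt, l8y_drop_tilt s e Q hk]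

/-! ## C. The derivative of `ψ` along a curve of reduced paths -/

/-- TEX[LL:lem:statistics-coarse-switch] a REDUCED path: first revelation at the mass `0`, the second at the mass `x`, mesh of the masses `≤ x` -/
structure L8yRed (a x : ℝ) (A : SkStp) : Prop where
  adm : SkAdm a A
  x0 : 0 < x
  len : 2 ≤ A.length
  m0 : skMs a A 0 = 0
  m1 : skMs a A 1 = x
  gap : ∀ k, 1 ≤ k → k ≤ A.length → skGap a A k ≤ x

/-- the speed of `ψ` when the cumulative clocks on the cuts move with the speeds `β j`, `η j` -/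
noncomputable def l8yD (n : ℕ) (a s : ℝ) (A : SkStp) (β η : ℕ → ℝ) : ℝ :=
  l9dA1 n a (skTilt s A) 0 β η - l9dA1 n a A 0 β η

/-- the fine cuts -/
def l8yK (A : SkStp) : Finset ℕ := Icc 2 (A.length - 1)

/-- `∫_{v ≥ x} E W dv` -/
noncomputable def l8yW1 (n : ℕ) (a : ℝ) (A : SkStp) : ℝ := ∑ k ∈ l8yK A, skGap a A k * ∫ ω, (skSP n a A).W k ω ∂(skSP n a A).μ

/-- `∫_{v ≥ x} η² E W dv` -/
noncomputable def l8yWe (n : ℕ) (a : ℝ) (A : SkStp) (η : ℕ → ℝ) : ℝ :=
  ∑ k ∈ l8yK A, skGap a A k * η k ^ 2 * ∫ ω, (skSP n a A).W k ω ∂(skSP n a A).μ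

/-- `∫_{v ≥ x} D_v² dv` -/
noncomputable def l8yDq (n : ℕ) (a : ℝ) (A : SkStp) : ℝ := ∑ k ∈ l8yK A, skGap a A k * (skSP n a A).D2 k

/-- the tilted quadratic term -/
noncomputable def l8yQ (n : ℕ) (a s : ℝ) (A : SkStp) : ℝ := ∑ k ∈ l8yK A, skGap a A k * (skSP n a A).l8yI (l8yR n a s A) k

theorem l8y_red_cons {a x : ℝ} {A : SkStp} (hA : L8yRed a x A) :
    ∃ (e : SkInc) (Q : SkStp), A = e :: Q ∧ e.m = 0 ∧ Q ≠ [] ∧ (∀ e' ∈ Q, x ≤ e'.m) ∧ x ≤ a := by
  obtain ⟨hadm, hx0, hlen, hm0, hm1, -⟩ := hA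
  match A, hlen, hadm, hm0, hm1 with
  | e :: e1 :: Q', _, hadm, hm0, hm1 =>
    have h0 : e.m = 0 := by simpa [skMs] using hm0
    have h1 : e1.m = x := by simpa [skMs] using hm1
    refine ⟨e, e1 :: Q', rfl, h0, by simp, ?_, ?_⟩
    · intro e' he'
      rcases List.mem_cons.1 he' with rfl | he'
      · exact h1.ge
      · rw [← h1]; exact (List.pairwise_cons.1 (List.pairwise_cons.1 hadm.1).2).1 e' he'
    · rw [← h1]; exact (hadm.2 e1 (by simp)).2.1

theorem l8y_red_tilt {a x s : ℝ} {A : SkStp} (hA : L8yRed a x A) (hs : 0 ≤ s) (hsx : s ≤ x) : SkAdm a (skTilt s A) := by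
  obtain ⟨e, Q, rfl, -, -, hQ, hxa⟩ := l8y_red_cons hA
  have hadm := hA.adm
  refine ⟨?_, ?_⟩
  · show List.Pairwise _ (_ :: Q)
    exact List.pairwise_cons.2 ⟨fun e' he' => hsx.trans (hQ e' he'), (List.pairwise_cons.1 hadm.1).2⟩
  · intro e' he'
    rcases List.mem_cons.1 he' with rfl | he'
    · have := hadm.2 e (by simp)
      exact ⟨hs, hsx.trans hxa, this.2.2.1, this.2.2.2⟩
    · exact hadm.2 e' (List.mem_cons_of_mem _ he')

theorem l8y_tilt_len (s : ℝ) (A : SkStp) : (skTilt s A).length = A.length := by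
  cases A <;> rfl

theorem l8y_tilt_cumB (s : ℝ) (A : SkStp) (j : ℕ) : skCumB (skTilt s A) j = skCumB A j := by
  cases A with
  | nil => rfl
  | cons e Q => cases j <;> rfl

theorem l8y_tilt_cumH (s : ℝ) (A : SkStp) (j : ℕ) : skCumH (skTilt s A) j = skCumH A j := by
  cases A with
  | nil => rfl
  | cons e Q => cases j <;> rfl

theorem l8y_tilt_m (s : ℝ) {A A' : SkStp} (h : A.map SkInc.m = A'.map SkInc.m) :
    (skTilt s A).map SkInc.m = (skTilt s A').map SkInc.m := by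
  cases A with
  | nil => cases A' with
    | nil => rfl
    | cons e' Q' => simp at h
  | cons e Q => cases A' with
    | nil => simp at h
    | cons e' Q' =>
      simp only [List.map_cons, List.cons.injEq] at h
      simp only [skTilt, List.map_cons, h.2]

/-- **the derivative of `ψ` on one chain**.   PROOF: `l9d_hasDerivAt` (151) for `t ↦ skTilt s (A t)` and for `t ↦ A t`; `skCumB`, `skCumH`, lengths do not see `skTilt`; `skPrS .. 0 = skPr`. -/
theorem l8y_psi_hasDerivAt (n : ℕ) (hn : 1 ≤ n) {a x s : ℝ} (hs : 0 ≤ s) (hsx : s ≤ x) (A : ℝ → SkStp) {t0 : ℝ}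
    (hred : ∀ᶠ t in nhds t0, L8yRed a x (A t)) (hm : ∀ᶠ t in nhds t0, (A t).map SkInc.m = (A t0).map SkInc.m) {β η : ℕ → ℝ}
    (hβ : ∀ j ≤ (A t0).length, HasDerivAt (fun t => skCumB (A t) j) (β j) t0)
    (hη : ∀ j ≤ (A t0).length, HasDerivAt (fun t => skCumH (A t) j) (η j) t0) :
    HasDerivAt (fun t => skPsi n a s (A t)) (l8yD n a s (A t0) β η) t0 := by
  have h0 := hred.self_of_nhds
  obtain ⟨-, -, -, -, -, -, hxa⟩ := l8y_red_cons h0
  have ha : 0 < a := h0.x0.trans_le hxa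
  have h1 := l9d_hasDerivAt (n := n) hn ha (fun t => skTilt s (A t)) (t0 := t0)
    (hred.mono fun t ht => l8y_red_tilt ht hs hsx) (hm.mono fun t ht => l8y_tilt_m s ht) 0 (β := β) (η := η)
    (fun j hj => by simpa only [l8y_tilt_cumB] using hβ j (by simpa only [l8y_tilt_len] using hj))
    (fun j hj => by simpa only [l8y_tilt_cumH] using hη j (by simpa only [l8y_tilt_len] using hj))
  have h2 := l9d_hasDerivAt (n := n) hn ha A (t0 := t0) (hred.mono fun t ht => ht.adm) hm 0 (β := β) (η := η) hβ hη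
  exact h1.sub h2

theorem l8y_sum_split (f : ℕ → ℝ) {L : ℕ} (hL : 2 ≤ L) :
    ∑ j ∈ range (L + 1), f j = f 0 + f 1 + ∑ k ∈ Icc 2 (L - 1), f k + f L := by
  induction L, hL using Nat.le_induction with
  | base => simp [Finset.sum_range_succ]
  | succ L hL ih =>
    rw [Finset.sum_range_succ, ih]
    have e : L + 1 - 1 = (L - 1) + 1 := by omega
    rw [e, Finset.sum_Icc_succ_top (by omega)]
    have e2 : L - 1 + 1 = L := by omega
    rw [e2]
    ring

/-- raw bounds of the observables -/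
theorem l8y_ob_bd (n : ℕ) (hn : 1 ≤ n) {a : ℝ} (ha : 0 < a) {A : SkStp} (hA : SkAdm a A) {j : ℕ} (hj : j ≤ A.length) :
    0 ≤ obS n a A 0 j ∧ obS n a A 0 j ≤ 1 ∧ 0 ≤ obB n a A 0 j ∧ obB n a A 0 j ≤ 1 := by
  refine ⟨?_, (abs_le.1 (l9d_obS_abs hn ha hA 0 hj)).2, ?_, (abs_le.1 (l9d_obB_abs hn ha hA 0 hj)).2⟩
  · rw [← l8i_S n a ha A hA j hj]; exact L8P.l8s_S_nonneg _ j
  · rw [← l8i_B n a ha A hA j hj]
    exact integral_nonneg fun ω => Finset.sum_nonneg fun i _ => Finset.sum_nonneg fun k _ => sq_nonneg _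

theorem l8y_tilt_gap (a s : ℝ) (e : SkInc) (Q : SkStp) {j : ℕ} (hj : 2 ≤ j) : skGap a (skTilt s (e :: Q)) j = skGap a (e :: Q) j := by
  obtain ⟨i, rfl⟩ : ∃ i, j = i + 2 := ⟨j - 2, by omega⟩
  simp [skGap, skMs, skTilt]

/-- TEX[LL:lem:statistics-coarse-switch] **the decomposition of the derivative**: "the portion `v < x` costs `O(λ x)`.  At the other splits expand `Q²` around the common untilted mean".
PROOF: split `range (A.length + 1)` into `{0}` (`skGap` of `A` is `0`, of the tilted path `s`, but then `obB, obS` are multiplied by .. NOTE `β 0`, `η 0` are arbitrary here, so the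
hypotheses `hβ0`, `hη0`), `{1}`, `l8yK A`, `{A.length}`.   Cut `1`: gaps `x - s` and `x`, `0 ≤ obB, obS ≤ 1` for both paths, so `|(x - s) B^s - x B| ≤ x`.   Last cut: same gap, `|B^s - B| ≤ 1`.
Fine cuts: `l8y_S_tilt`, `l8y_B_tilt`, `l8i_S`, `l8i_B`, `l8i_dv`, `l8y_abs_total` with `c0 = 7/3` (`l8i_pin` at `r = 1`), `√(l8yV R) ≤ 2` by `l8y_R_var`, `hK2`, `l8y_KK_nonneg`. -/
theorem l8y_D_le (n : ℕ) (hn : 1 ≤ n) {a x s : ℝ} {A : SkStp} (hA : L8yRed a x A) (hs : 0 < s) (hsx : s ≤ x) (β η : ℕ → ℝ)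
    (hβ0 : β 0 = 0) (hη0 : η 0 = 0) {Λ : ℝ} (hβ : ∀ k, |β k| ≤ Λ) (hK2 : skKK n a (2 * s) A ≤ 1) :
    |l8yD n a s A β η| ≤ x * (1 / 4 * |β 1| + 1 / 2 * |η 1|)
      + skGap a A A.length * (1 / 4 * |β A.length| + 1 / 2 * |η A.length|)
      + 2 * (Λ * √(7 / 3 * l8yW1 n a A) + √(7 / 3 * l8yWe n a A η))
      + 1 / 4 * Λ * (l8yQ n a s A + l8yDq n a A) := by
  obtain ⟨e, Q, rfl, he, -, -, hxa⟩ := l8y_red_cons hA
  have ha : 0 < a := hA.x0.trans_le hxa
  have hadm := hA.adm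
  have hT : SkAdm a (skTilt s (e :: Q)) := l8y_red_tilt hA hs.le hsx
  have hP : (skSP n a (e :: Q)).Ok := l8i_ok n hn a ha _ hadm
  have hR := l8y_R_tilt n hn ha hs e Q he hadm
  have hpin : (skSP n a (e :: Q)).Pin 1 (7 / 3) := by
    have := l8i_pin n hn a ha (e :: Q) hadm 1 le_rfl
    norm_num at this
    exact this
  have hΛ : 0 ≤ Λ := (abs_nonneg _).trans (hβ 0)
  have hL : 2 ≤ (e :: Q).length := hA.len
  set L := (e :: Q).length with hLdef
  have hLQ : L = Q.length + 1 := by simp [hLdef]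
  -- the summand
  set d : ℕ → ℝ := fun j =>
    -(1 / 4) * ((skGap a (skTilt s (e :: Q)) j * obB n a (skTilt s (e :: Q)) 0 j - skGap a (e :: Q) j * obB n a (e :: Q) 0 j) * β j)
      - (1 / 2) * ((skGap a (skTilt s (e :: Q)) j * obS n a (skTilt s (e :: Q)) 0 j - skGap a (e :: Q) j * obS n a (e :: Q) 0 j) * η j)
    with hd
  have eD : l8yD n a s (e :: Q) β η = ∑ j ∈ range (L + 1), d j := by
    unfold l8yD l9dA1
    rw [l8y_tilt_len]
    simp only [hd, Finset.sum_sub_distrib, ← Finset.mul_sum, sub_mul]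
    ring
  rw [eD, l8y_sum_split d hL]
  have d0 : d 0 = 0 := by simp only [hd, hβ0, hη0]; ring
  -- cut 1
  have g1 : skGap a (e :: Q) 1 = x := by
    have := hA.m1; have h0 := hA.m0
    simp only [skGap] at *
    simp [this, h0]
  have g1s : skGap a (skTilt s (e :: Q)) 1 = x - s := by
    have := hA.m1
    simp only [skGap, skMs, skTilt] at *
    simpa using this
  have o1 := l8y_ob_bd n hn ha hadm (j := 1) (by omega)
  have o1s := l8y_ob_bd n hn ha hT (j := 1) (by rw [l8y_tilt_len]; omega)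
  have hx0 := hA.x0
  have aux : ∀ u v : ℝ, 0 ≤ u → u ≤ 1 → 0 ≤ v → v ≤ 1 → |(x - s) * u - x * v| ≤ x := by
    intro u v hu0 hu1 hv0 hv1
    have h1 : 0 ≤ (x - s) * u := mul_nonneg (by linarith) hu0
    have h2 : (x - s) * u ≤ x := by nlinarith
    have h3 : 0 ≤ x * v := mul_nonneg hx0.le hv0
    have h4 : x * v ≤ x := by nlinarith
    rw [abs_le]; constructor <;> linarith
  have d1 : |d 1| ≤ x * (1 / 4 * |β 1| + 1 / 2 * |η 1|) := by
    simp only [hd, g1, g1s]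
    have b1 := aux _ _ o1s.2.2.1 o1s.2.2.2 o1.2.2.1 o1.2.2.2
    have b2 := aux _ _ o1s.1 o1s.2.1 o1.1 o1.2.1
    have c1 : |((x - s) * obB n a (skTilt s (e :: Q)) 0 1 - x * obB n a (e :: Q) 0 1) * β 1| ≤ x * |β 1| := by
      rw [abs_mul]; exact mul_le_mul_of_nonneg_right b1 (abs_nonneg _)
    have c2 : |((x - s) * obS n a (skTilt s (e :: Q)) 0 1 - x * obS n a (e :: Q) 0 1) * η 1| ≤ x * |η 1| := by
      rw [abs_mul]; exact mul_le_mul_of_nonneg_right b2 (abs_nonneg _)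
    have c1' := abs_le.1 c1
    have c2' := abs_le.1 c2
    rw [abs_le]; constructor <;> linarith [c1'.1, c1'.2, c2'.1, c2'.2]
  -- last cut
  have gL : skGap a (skTilt s (e :: Q)) L = skGap a (e :: Q) L := l8y_tilt_gap a s e Q hL
  have gL0 : 0 ≤ skGap a (e :: Q) L := pin_gap_nonneg ha _ hadm L
  have oL := l8y_ob_bd n hn ha hadm (j := L) le_rfl
  have oLs := l8y_ob_bd n hn ha hT (j := L) (by rw [l8y_tilt_len])
  have dL : |d L| ≤ skGap a (e :: Q) L * (1 / 4 * |β L| + 1 / 2 * |η L|) := by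
    simp only [hd, gL]
    have aux2 : ∀ u v w : ℝ, 0 ≤ u → u ≤ 1 → 0 ≤ v → v ≤ 1 →
        |(skGap a (e :: Q) L * u - skGap a (e :: Q) L * v) * w| ≤ skGap a (e :: Q) L * |w| := by
      intro u v w hu0 hu1 hv0 hv1
      rw [← mul_sub, abs_mul, abs_mul, abs_of_nonneg gL0]
      have : |u - v| ≤ 1 := by rw [abs_le]; constructor <;> linarith
      calc skGap a (e :: Q) L * |u - v| * |w| ≤ skGap a (e :: Q) L * 1 * |w| :=
            mul_le_mul_of_nonneg_right (mul_le_mul_of_nonneg_left this gL0) (abs_nonneg _)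
        _ = _ := by ring
    have c1' := abs_le.1 (aux2 _ _ (β L) oLs.2.2.1 oLs.2.2.2 oL.2.2.1 oL.2.2.2)
    have c2' := abs_le.1 (aux2 _ _ (η L) oLs.1 oLs.2.1 oL.1 oL.2.1)
    rw [abs_le]; constructor <;> linarith [c1'.1, c1'.2, c2'.1, c2'.2]
  -- the fine cuts
  have hKsub : Icc 2 (L - 1) ⊆ Icc 1 (skSP n a (e :: Q)).n := by
    intro k hk
    have := Finset.mem_Icc.1 hk
    have e1 : (skSP n a (e :: Q)).n = L := rfl
    rw [e1]
    exact Finset.mem_Icc.2 ⟨by omega, by omega⟩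
  have tot := (skSP n a (e :: Q)).l8y_abs_total hP (by norm_num : (0 : ℝ) ≤ 7 / 3) hpin hR hKsub β η (Λ := Λ) fun k _ => hβ k
  have eK : ∑ k ∈ Icc 2 (L - 1), d k
      = -(1 / 4) * ∑ k ∈ Icc 2 (L - 1), (skSP n a (e :: Q)).dv k *
            ((skSP n a (e :: Q)).l8yBs (l8yR n a s (e :: Q)) k - (skSP n a (e :: Q)).B k) * β k
        - (1 / 2) * ∑ k ∈ Icc 2 (L - 1), (skSP n a (e :: Q)).dv k *
            ((skSP n a (e :: Q)).l8ySs (l8yR n a s (e :: Q)) k - (skSP n a (e :: Q)).S k) * η k := by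
    rw [Finset.mul_sum, Finset.mul_sum, ← Finset.sum_sub_distrib]
    refine Finset.sum_congr rfl fun k hk => ?_
    have hk' := Finset.mem_Icc.1 hk
    have k1 : 1 ≤ k := by omega
    have k2 : k ≤ Q.length + 1 := by omega
    have k3 : k ≤ (e :: Q).length := by omega
    simp only [hd]
    rw [l8y_tilt_gap a s e Q hk'.1, l8y_B_tilt n hn ha hs e Q he hadm hT k1 k2, l8y_S_tilt n hn ha hs e Q he hadm hT k1 k2,
      ← l8i_B n a ha _ hadm k k3, ← l8i_S n a ha _ hadm k k3, l8i_dv]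
    ring
  rw [← eK] at tot
  have hV : √((skSP n a (e :: Q)).l8yV (l8yR n a s (e :: Q))) ≤ 2 := by
    rw [l8y_R_var n hn ha hs e Q he hadm]
    have h1 := l8y_KK_nonneg n hn ha hs.ne' e Q he
    have h2 : Real.exp (skKK n a (2 * s) (e :: Q) - 2 * skKK n a s (e :: Q)) ≤ Real.exp 1 := Real.exp_le_exp.2 (by linarith)
    have h3 := Real.exp_one_lt_d9
    rw [show (2 : ℝ) = √(2 ^ 2) by rw [Real.sqrt_sq (by norm_num)]]
    exact Real.sqrt_le_sqrt (by norm_num; linarith)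
  have hbr : 0 ≤ Λ * √(7 / 3 * ∑ k ∈ Icc 2 (L - 1), (skSP n a (e :: Q)).dv k * ∫ ω, (skSP n a (e :: Q)).W k ω ∂(skSP n a (e :: Q)).μ)
      + √(7 / 3 * ∑ k ∈ Icc 2 (L - 1), (skSP n a (e :: Q)).dv k * η k ^ 2 * ∫ ω, (skSP n a (e :: Q)).W k ω ∂(skSP n a (e :: Q)).μ) :=
    add_nonneg (mul_nonneg hΛ (Real.sqrt_nonneg _)) (Real.sqrt_nonneg _)
  have tot2 := tot.trans (add_le_add_right (mul_le_mul_of_nonneg_right hV hbr) _)
  have fin : |∑ k ∈ Icc 2 (L - 1), d k| ≤ 2 * (Λ * √(7 / 3 * l8yW1 n a (e :: Q)) + √(7 / 3 * l8yWe n a (e :: Q) η))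
      + 1 / 4 * Λ * (l8yQ n a s (e :: Q) + l8yDq n a (e :: Q)) := by
    refine tot2.trans (le_of_eq ?_)
    unfold l8yW1 l8yWe l8yQ l8yDq l8yK
    simp only [l8i_dv]
    ring
  rw [d0]
  have t1 := abs_le.1 d1
  have t2 := abs_le.1 dL
  have t3 := abs_le.1 fin
  rw [abs_le]
  constructor <;> linarith [t1.1, t1.2, t2.1, t2.2, t3.1, t3.2]

/-- raw bounds of the statistics of an abstract single path -/
theorem l8y_raw {Ω : Type} [mΩ : MeasurableSpace Ω] {m : ℕ} {P : L8P Ω m} (hP : P.Ok) (k : ℕ) :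
    ∫ ω, P.nX k ω ^ 2 ∂P.μ ≤ 1 ∧ ivkVar P k ≤ 1 ∧ ∫ ω, P.trC2 k ω ∂P.μ ≤ 1 := by
  have := hP.prob
  have h4 : ∫ ω, P.nX k ω ^ 2 ∂P.μ ≤ 1 := by
    calc ∫ ω, P.nX k ω ^ 2 ∂P.μ ≤ ∫ _ω, (1 : ℝ) ∂P.μ :=
          integral_mono (ivk_intμ hP ((ivk_nX_bd hP k).pow 2)) (integrable_const _) fun ω => by
            have h0 := ivk_nX_nonneg (P := P) k ω
            have h1 := ivk_nX_le hP k ω
            show P.nX k ω ^ 2 ≤ 1
            nlinarith
      _ = 1 := by simp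
  refine ⟨h4, ?_, ?_⟩
  · rw [ivk_Var_eq hP]
    nlinarith [sq_nonneg (P.S k)]
  · have h1 := ivk_D2_eq hP k
    have h2 := ivs_D2_le_one hP k
    have h3 : 0 ≤ ivkVar P k := integral_nonneg fun _ => sq_nonneg _
    have h5 : 0 ≤ ∫ ω, P.xCx k ω ∂P.μ := integral_nonneg (ivk_xCx_nonneg hP k)
    linarith

/-- the sums over the fine cuts are integrals of step functions over `[x, u]`, `u` = the mass of the last revelation -/
theorem l8y_sum_int (n : ℕ) (hn : 1 ≤ n) {a x : ℝ} {A : SkStp} (hA : L8yRed a x A) (ha : 0 < a) (f : ℕ → ℝ) :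
    ∫ v in x..skMs a A (A.length - 1), f ((ivpM (skSP n a A)).idx v) = ∑ k ∈ l8yK A, skGap a A k * f k := by
  have hP : (skSP n a A).Ok := l8i_ok n hn a ha A hA.adm
  have hlen := hA.len
  have hmono : Monotone (skMs a A) := hP.v_mono
  have hxu : x ≤ skMs a A (A.length - 1) := by
    rw [← hA.m1]
    exact hmono (by omega)
  have hua : skMs a A (A.length - 1) ≤ a := ivk_v_le_a hP _
  have hc := ivp_M_ok hP
  rw [IvCells.step_integral_one hc f (show (0 : ℝ) ≤ x from hA.x0.le) hxu (by rw [ivp_M_top hP]; exact hua)]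
  have hsub : l8yK A ⊆ Finset.range ((ivpM (skSP n a A)).n + 1) := by
    intro k hk
    have := Finset.mem_Icc.1 hk
    refine Finset.mem_range.2 ?_
    show k < A.length + 1
    omega
  rw [← Finset.sum_subset hsub]
  · refine Finset.sum_congr rfl fun k hk => ?_
    obtain ⟨k2, kN⟩ := Finset.mem_Icc.1 hk
    congr 1
    have hb : (ivpM (skSP n a A)).b k = skMs a A k := rfl
    have hl : (ivpM (skSP n a A)).lft k = skMs a A (k - 1) := by
      unfold IvCells.lft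
      rw [if_neg (by omega)]
      rfl
    have h1 : x ≤ skMs a A (k - 1) := by rw [← hA.m1]; exact hmono (by omega)
    have h2 : skMs a A (k - 1) ≤ skMs a A k := hmono (by omega)
    have h3 : skMs a A k ≤ skMs a A (A.length - 1) := hmono kN
    unfold IvCells.len ivCl skGap
    rw [hb, hl, if_neg (by omega), min_eq_left h3, min_eq_left (h2.trans h3), max_eq_right (h1.trans h2), max_eq_right h1]
  · intro k hk hk'
    have hkN : k < A.length + 1 := Finset.mem_range.1 hk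
    have hcase : k ≤ 1 ∨ k = A.length := by
      by_contra hcon
      have c1 : ¬ k ≤ 1 := fun h => hcon (Or.inl h)
      have c2 : ¬ k = A.length := fun h => hcon (Or.inr h)
      exact hk' (Finset.mem_Icc.2 ⟨by omega, by omega⟩)
    have hz : (ivpM (skSP n a A)).len x (skMs a A (A.length - 1)) k = 0 := by
      unfold IvCells.len
      rcases hcase with h1 | h1
      · have hb : (ivpM (skSP n a A)).b k ≤ x := by
          show skMs a A k ≤ x
          rw [← hA.m1]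
          exact hmono h1
        rw [ivc_cl_of_le hb hxu, ivc_cl_of_le ((IvCells.lft_le hc k).trans hb) hxu, sub_self]
      · have hl : skMs a A (A.length - 1) ≤ (ivpM (skSP n a A)).lft k := by
          unfold IvCells.lft
          rw [if_neg (by omega), h1]
          exact le_rfl
        rw [ivc_cl_of_ge hl hxu, ivc_cl_of_ge (hl.trans (IvCells.lft_le hc k)) hxu, sub_self]
    rw [hz, zero_mul]

theorem l8y_gap_nonneg (n : ℕ) (hn : 1 ≤ n) {a : ℝ} (ha : 0 < a) {A : SkStp} (hA : SkAdm a A) (k : ℕ) : 0 ≤ skGap a A k := by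
  rw [← l8i_dv n a A k]
  exact ivk_dv_nonneg (l8i_ok n hn a ha A hA) k

theorem l8y_Dq_nonneg (n : ℕ) (hn : 1 ≤ n) {a : ℝ} (ha : 0 < a) {A : SkStp} (hA : SkAdm a A) : 0 ≤ l8yDq n a A :=
  Finset.sum_nonneg fun k _ => mul_nonneg (l8y_gap_nonneg n hn ha hA k) (ivs_D2_nonneg (l8i_ok n hn a ha A hA) k)

/-- PROOF: `l8y_quad_sum`, `l8y_R_mom`, `∑ gap ≤ a`, `l8y_KK_nonneg`. -/
theorem l8y_Q_le (n : ℕ) (hn : 1 ≤ n) {a x s : ℝ} {A : SkStp} (hA : L8yRed a x A) (hs : 0 < s) {p : ℕ} (hp : 2 ≤ p)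
    (hKp : skKK n a (p * s) A ≤ 1) :
    l8yQ n a s A ^ p ≤ 4 * Real.exp 1 * a * l8yDq n a A ^ (p - 1) := by
  obtain ⟨e, Q, hAe, he, _, _, hxa⟩ := l8y_red_cons hA
  have hx := hA.x0
  have ha : 0 < a := lt_of_lt_of_le hx hxa
  have hP : (skSP n a A).Ok := l8i_ok n hn a ha A hA.adm
  have hR : (skSP n a A).L8yTilt (l8yR n a s A) := by
    rw [hAe]
    exact l8y_R_tilt n hn ha hs e Q he (hAe ▸ hA.adm)
  have h1 := (skSP n a A).l8y_quad_sum hP hR (l8yK A) hp
  have hmom : ∫ ω, l8yR n a s A ω ^ p ∂(skSP n a A).μ ≤ Real.exp 1 := by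
    have h2 := l8y_R_mom n hn ha hs e Q he (hAe ▸ hA.adm) p (by omega)
    rw [← hAe] at h2
    rw [h2]
    refine Real.exp_le_exp.2 ?_
    have h3 := l8y_KK_nonneg n hn ha hs.ne' e Q he
    rw [← hAe] at h3
    have h4 : 0 ≤ (p : ℝ) * skKK n a s A := mul_nonneg (Nat.cast_nonneg p) h3
    linarith
  have hmom0 : 0 ≤ ∫ ω, l8yR n a s A ω ^ p ∂(skSP n a A).μ := integral_nonneg fun ω => pow_nonneg (hR.nonneg ω) p
  have hsum : ∑ k ∈ l8yK A, (skSP n a A).dv k ≤ a := by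
    have e1 := l8y_sum_int n hn hA ha fun _ => 1
    simp only [mul_one, intervalIntegral.integral_const, smul_eq_mul] at e1
    have e2 : ∑ k ∈ l8yK A, (skSP n a A).dv k = ∑ k ∈ l8yK A, skGap a A k := rfl
    rw [e2, ← e1]
    have := ivk_v_le_a hP (A.length - 1)
    have h5 : skMs a A (A.length - 1) ≤ a := this
    linarith
  have hsum0 : 0 ≤ ∑ k ∈ l8yK A, (skSP n a A).dv k := Finset.sum_nonneg fun k _ => ivk_dv_nonneg hP k
  have hD0 : 0 ≤ l8yDq n a A ^ (p - 1) := pow_nonneg (l8y_Dq_nonneg n hn ha hA.adm) _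
  calc l8yQ n a s A ^ p ≤ 4 * (∫ ω, l8yR n a s A ω ^ p ∂(skSP n a A).μ) * (∑ k ∈ l8yK A, (skSP n a A).dv k)
        * l8yDq n a A ^ (p - 1) := h1
    _ ≤ 4 * Real.exp 1 * a * l8yDq n a A ^ (p - 1) := by
        refine mul_le_mul_of_nonneg_right ?_ hD0
        exact mul_le_mul (mul_le_mul_of_nonneg_left hmom (by norm_num)) hsum hsum0 (by positivity)

/-! ## D. The integrated statistics above the lower cut -/

/-- TEX[LL:lem:statistics-coarse-switch] the mass layer with unit raw bounds: "mass slides of width `e_1` cost `O(e_1)` ..  The trace term on `v ≥ max(e_1, x)` costs `O(e_1)` by division by `v`; below `e_1`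
use the unit raw bound.  Cauchy-Schwarz on dyads handles the mixed covariance term."
PROOF: `int_EW_log` (needs `μ ≤ v1`), then `int_Dsq_split` with `R = 1`, `W = 4 / (msz κ0)`, `θ = max v1 (min √W v2)`; if `v2 ≤ √W` the trivial bound `Dsq ≤ 1`. -/
theorem l8y_stat_abs {d : L11Mass} (hd : d.Ok) {κ0 v1 v2 : ℝ} (hκ : 0 < κ0) (h1 : 0 < v1) (hμ : d.μ ≤ v1) (h12 : v1 ≤ v2) (h2 : v2 ≤ d.a)
    (hsl : ∀ u1 u2, v1 ≤ u1 → u1 ≤ u2 → u2 ≤ v2 → κ0 * (u2 - u1) ≤ u2 * (d.hclk u2 - d.hclk u1))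
    (hS0 : ∀ v, 0 ≤ d.S v) (hS1 : ∀ v, d.S v ≤ 1) (hV : ∀ v, d.VarX v ≤ 1) (hM : ∀ v, d.M4 v ≤ 1) (hT : ∀ v, d.TrC v ≤ 1)
    (hD : ∀ v, d.Dsq v ≤ 1) :
    ∫ v in v1..v2, d.EW v ≤ 4 / (d.msz * κ0) ∧
      ∫ v in v1..v2, d.Dsq v ≤ (20 + 32 * d.c0 + 4 * √(Real.log (v2 / v1))) / √(d.msz * κ0) := by
  have hm := hd.msz_pos
  have hmk : 0 < d.msz * κ0 := mul_pos hm hκ
  set W := 4 / (d.msz * κ0) with hW
  have hW0 : 0 < W := by positivity
  have hEW : ∫ v in v1..v2, d.EW v ≤ W := by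
    refine (L11Mass.int_EW_log hd hκ h1 hμ h12 h2 hsl).trans ?_
    rw [hW]
    exact div_le_div_of_nonneg_right (by nlinarith [hS0 v1, hS1 (v2 + d.μ)]) hmk.le
  refine ⟨hEW, ?_⟩
  have hsq : √W = 2 / √(d.msz * κ0) := by
    rw [hW, Real.sqrt_div (by norm_num), show (4 : ℝ) = 2 ^ 2 by norm_num, Real.sqrt_sq (by norm_num)]
  set L := √(Real.log (v2 / v1)) with hL
  have hL0 : 0 ≤ L := Real.sqrt_nonneg _
  have hgoal : (20 + 32 * d.c0 + 4 * L) / √(d.msz * κ0) = (10 + 16 * d.c0 + 2 * L) * √W := by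
    rw [hsq]; ring
  rw [hgoal]
  have hsW : 0 < √W := Real.sqrt_pos.2 hW0
  have hWW : √W * √W = W := Real.mul_self_sqrt hW0.le
  have hc0 := hd.c0_nonneg
  by_cases hc : v2 ≤ √W
  · have hDf : d.Dsq = fun v => d.VarX v + 2 * d.Mix v + d.TrC v := funext hd.dsq
    have hDi : IntervalIntegrable d.Dsq volume v1 v2 := by
      rw [hDf]
      exact ((L11Mass.iVarX hd _ _).add ((L11Mass.iMix hd _ _).const_mul 2)).add (L11Mass.iTrC hd _ _)
    have h3 : ∫ v in v1..v2, d.Dsq v ≤ ∫ _v in v1..v2, (1 : ℝ) :=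
      intervalIntegral.integral_mono_on h12 hDi intervalIntegrable_const fun v _ => hD v
    rw [intervalIntegral.integral_const, smul_eq_mul, mul_one] at h3
    nlinarith [mul_nonneg hc0 hsW.le, mul_nonneg hL0 hsW.le]
  · have hc' : √W < v2 := not_le.1 hc
    have h1θ : v1 ≤ max v1 √W := le_max_left _ _
    have hθ2 : max v1 √W ≤ v2 := max_le h12 hc'.le
    have hθ0 : 0 < max v1 √W := lt_of_lt_of_le h1 h1θ
    have h3 := L11Mass.int_Dsq_split hd h1 h1θ hθ2 h2 hEW (R := 1) (fun v _ => by simpa using hV v)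
      (by linarith [hS0 v1, hS1 v2]) (fun v _ => by simpa using hM v) (fun v _ => by simpa using hT v)
    simp only [one_mul, one_pow] at h3
    have t1 : max v1 √W - v1 ≤ √W := by
      have : max v1 √W ≤ v1 + √W := max_le (by linarith) (by linarith)
      linarith
    have t2 : √(W * Real.log (v2 / max v1 √W)) ≤ √W * L := by
      rw [Real.sqrt_mul hW0.le]
      refine mul_le_mul_of_nonneg_left (Real.sqrt_le_sqrt ?_) hsW.le
      exact Real.log_le_log (div_pos (lt_of_lt_of_le h1 h12) hθ0)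
        (div_le_div_of_nonneg_left (lt_of_lt_of_le h1 h12).le h1 h1θ)
    have t3 : W / max v1 √W ≤ √W := by
      rw [div_le_iff₀ hθ0]
      nlinarith [le_max_right v1 √W]
    nlinarith

/-- TEX[LL:lem:statistics-coarse-switch] fineness of a reduced path: mesh of the clocks (for the susceptibility `l8i_sus`), logarithmic lower slope of the field clock "`v dh/dv ≳ λ_1 U³` for `v ≥ x`" -/
structure L8yFine (n : ℕ) (a κ0 : ℝ) (A : SkStp) : Prop where
  mesh : ∀ e ∈ A, e.dh = 0 ∨ a ^ 2 * n * (e.dh + e.db) ≤ 1 / 8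
  slope : ∀ k, 2 ≤ k → k < A.length → κ0 * Real.log (skMs a A k / skMs a A (k - 1)) ≤ (A.map SkInc.dh).getD k 0

/-- TEX[LL:lem:statistics-coarse-switch] `∫_{v ≥ x} E W dv ≲ e_1²`, `∫_{v ≥ x} D_v² dv ≲_∘ e_1`, `e_1² = 1 / (n κ0)`.
PROOF: `P = skSP n a A`; `ivp_mass_ok` (189) with `c0 = 7/3` (`l8i_pin`), `cs = 1/4` (`l8i_sus`), `μ = x` and the SYNTHETIC clock `hclk v = κ0 log (min (max v x) u / x)`, `u = skMs a A (A.length - 1)`
(`hdh`: `k = 0, 1`: `0`; `2 ≤ k < length`: `slope`; `k = length`: `0`);   `κ0 (u2 - u1) ≤ u2 κ0 log (u2/u1)` by `1 - 1/r ≤ log r`;   `l8y_stat_abs` on `[x, u]`;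
the sums over `l8yK A` are the integrals over `[x, u]` (`IvCells.step_integral_one`, `len`);   raw bounds `≤ 1` from the kits (`l8s_S_le_one`, `ivk_nX_le`, ..). -/
theorem l8y_stat (n : ℕ) (hn : 1 ≤ n) {a x κ0 : ℝ} {A : SkStp} (hA : L8yRed a x A) (hκ : 0 < κ0) (hf : L8yFine n a κ0 A) :
    l8yW1 n a A ≤ 16 / (n * κ0) ∧ l8yDq n a A ≤ (190 + 8 * √(Real.log (a / x))) / √(n * κ0) := by
  obtain ⟨_, _, _, _, _, _, hxa⟩ := l8y_red_cons hA
  have hx := hA.x0
  have ha : 0 < a := lt_of_lt_of_le hx hxa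
  have hP : (skSP n a A).Ok := l8i_ok n hn a ha A hA.adm
  have hlen := hA.len
  have hmono : Monotone (skMs a A) := hP.v_mono
  set u := skMs a A (A.length - 1) with hu
  have hxu : x ≤ u := by
    rw [← hA.m1]
    exact hmono (by omega)
  have hua : u ≤ a := ivk_v_le_a hP _
  have hu0 : 0 < u := lt_of_lt_of_le hx hxu
  -- the synthetic clock
  let φ : ℝ → ℝ := fun v => min (max v x) u
  have hφx : ∀ v, x ≤ φ v := fun v => le_min (le_max_right _ _) hxu
  have hφlo : ∀ v, v ≤ x → φ v = x := fun v hv => by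
    simp only [φ]
    rw [max_eq_right hv, min_eq_left hxu]
  have hφhi : ∀ v, u ≤ v → φ v = u := fun v hv => by
    simp only [φ]
    exact min_eq_right (hv.trans (le_max_left _ _))
  have hφid : ∀ v, x ≤ v → v ≤ u → φ v = v := fun v h1 h2 => by
    simp only [φ]
    rw [max_eq_left h1, min_eq_left h2]
  have hφm : Monotone φ := fun v w hvw => min_le_min (max_le_max hvw le_rfl) le_rfl
  let hclk : ℝ → ℝ := fun v => κ0 * Real.log (φ v / x)
  have hcm : Monotone hclk := fun v w hvw =>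
    mul_le_mul_of_nonneg_left (Real.log_le_log (div_pos (lt_of_lt_of_le hx (hφx v)) hx)
      (div_le_div_of_nonneg_right (hφm hvw) hx.le)) hκ.le
  have hv0 : skMs a A 0 = 0 := hA.m0
  have hdvv : ∀ k, (skSP n a A).v k - (skSP n a A).dv k = if k = 0 then 0 else skMs a A (k - 1) := fun k => by
    show skMs a A k - (skMs a A k - (if k = 0 then 0 else skMs a A (k - 1))) = _
    ring
  have hdh : ∀ k ≤ (skSP n a A).n, hclk ((skSP n a A).v k) - hclk ((skSP n a A).v k - (skSP n a A).dv k) ≤ (skSP n a A).dh k := by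
    intro k hk
    have hk' : k ≤ A.length := hk
    have hdh0 := hP.dh_nonneg k
    have hle : (skSP n a A).v k - (skSP n a A).dv k ≤ (skSP n a A).v k := by
      have := ivk_dv_nonneg hP k
      linarith
    by_cases h1 : k ≤ 1
    · have hvk : (skSP n a A).v k ≤ x := by
        show skMs a A k ≤ x
        rw [← hA.m1]
        exact hmono h1
      simp only [hclk]
      rw [hφlo _ hvk, hφlo _ (hle.trans hvk), sub_self]
      exact hdh0
    · by_cases h2 : k = A.length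
      · have hl : u ≤ (skSP n a A).v k - (skSP n a A).dv k := by
          rw [hdvv, if_neg (by omega), h2]
        simp only [hclk]
        rw [hφhi _ hl, hφhi _ (hl.trans hle), sub_self]
        exact hdh0
      · have hs := hf.slope k (by omega) (by omega)
        have g1 : x ≤ skMs a A (k - 1) := by rw [← hA.m1]; exact hmono (by omega)
        have g2 : skMs a A (k - 1) ≤ skMs a A k := hmono (by omega)
        have g3 : skMs a A k ≤ u := hmono (by omega)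
        have p1 : 0 < skMs a A (k - 1) := lt_of_lt_of_le hx g1
        have p2 : 0 < skMs a A k := lt_of_lt_of_le p1 g2
        rw [hdvv, if_neg (by omega)]
        simp only [hclk]
        show κ0 * Real.log (φ (skMs a A k) / x) - κ0 * Real.log (φ (skMs a A (k - 1)) / x) ≤ _
        rw [hφid _ (g1.trans g2) g3, hφid _ g1 (g2.trans g3), Real.log_div p2.ne' hx.ne', Real.log_div p1.ne' hx.ne']
        rw [Real.log_div p2.ne' p1.ne'] at hs
        have : (skSP n a A).dh k = (A.map SkInc.dh).getD k 0 := rfl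
        rw [this]
        linarith
  have hmesh : ∀ k ≤ (skSP n a A).n, (skSP n a A).dv k ≤ x := by
    intro k hk
    rw [l8i_dv]
    rcases Nat.eq_zero_or_pos k with rfl | hk0
    · unfold skGap
      rw [if_pos rfl, hv0]
      linarith
    · exact hA.gap k hk0 hk
  have hpin : (skSP n a A).Pin 1 (7 / 3) := by
    have h := l8i_pin n hn a ha A hA.adm 1 le_rfl
    have e : ((1 + (2 * ((1 : ℕ) : ℝ)) ^ 2 / 3) ^ 1 : ℝ) = 7 / 3 := by norm_num
    rwa [e] at h
  have hdhn : (skSP n a A).dh (skSP n a A).n = 0 := by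
    show (A.map SkInc.dh).getD A.length 0 = 0
    rw [List.getD_eq_default _ _ (by simp)]
  have hd := ivp_mass_ok hP (c0 := 7 / 3) (cs := 1 / 4) (μ := x) (hclk := hclk) (by omega) (by norm_num) (by norm_num)
    (l8i_sus n hn a ha A hA.adm hf.mesh) hpin hdhn (hcm.monotoneOn _) hdh hmesh
  have hsl : ∀ u1 u2, x ≤ u1 → u1 ≤ u2 → u2 ≤ u → κ0 * (u2 - u1) ≤ u2 * (hclk u2 - hclk u1) := by
    intro u1 u2 h1 h12 h2
    have p1 : 0 < u1 := lt_of_lt_of_le hx h1
    have p2 : 0 < u2 := lt_of_lt_of_le p1 h12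
    simp only [hclk]
    rw [hφid _ (h1.trans h12) h2, hφid _ h1 (h12.trans h2), Real.log_div p2.ne' hx.ne', Real.log_div p1.ne' hx.ne']
    have h3 := Real.log_le_sub_one_of_pos (div_pos p1 p2)
    rw [Real.log_div p1.ne' p2.ne'] at h3
    have h4 : u2 * (u1 / u2 - 1) = u1 - u2 := by field_simp
    have h5 : u2 * (Real.log u1 - Real.log u2) ≤ u1 - u2 := by
      rw [← h4]
      exact mul_le_mul_of_nonneg_left h3 p2.le
    nlinarith
  have main := l8y_stat_abs hd hκ hx le_rfl hxu hua hsl (fun v => ivk_S_nonneg _) (fun v => ivk_S_le_one hP _)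
    (fun v => (l8y_raw hP _).2.1) (fun v => (l8y_raw hP _).1) (fun v => (l8y_raw hP _).2.2) (fun v => ivs_D2_le_one hP _)
  have hnk : 0 < (n : ℝ) * κ0 := mul_pos (by exact_mod_cast hn) hκ
  have hmsz : (ivpMass (skSP n a A) (7 / 3) (1 / 4) x hclk).msz * κ0 = (n * κ0) / 4 := by
    show 1 / 4 * (n : ℝ) * κ0 = _
    ring
  have hc0 : (ivpMass (skSP n a A) (7 / 3) (1 / 4) x hclk).c0 = 7 / 3 := rfl
  rw [hmsz, hc0] at main
  constructor
  · have e := l8y_sum_int n hn hA ha fun k => ∫ ω, (skSP n a A).W k ω ∂(skSP n a A).μ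
    unfold l8yW1
    rw [← e]
    refine main.1.trans (le_of_eq ?_)
    field_simp
    norm_num
  · have e := l8y_sum_int n hn hA ha fun k => (skSP n a A).D2 k
    unfold l8yDq
    rw [← e]
    refine main.2.trans ?_
    have hs : √((n : ℝ) * κ0 / 4) = √((n : ℝ) * κ0) / 2 := by
      rw [Real.sqrt_div hnk.le, show (4 : ℝ) = 2 ^ 2 by norm_num, Real.sqrt_sq (by norm_num)]
    have hsp : 0 < √((n : ℝ) * κ0) := Real.sqrt_pos.2 hnk
    have hL : √(Real.log (u / x)) ≤ √(Real.log (a / x)) :=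
      Real.sqrt_le_sqrt (Real.log_le_log (div_pos hu0 hx) (div_le_div_of_nonneg_right hua hx.le))
    rw [hs, div_div_eq_mul_div]
    exact div_le_div_of_nonneg_right (by linarith) hsp.le

/-! ## E. The two pointwise bounds -/

/-- the bound of `∫ D²` -/
noncomputable def l8yDb (n : ℕ) (a x κ0 : ℝ) : ℝ := (190 + 8 * √(Real.log (a / x))) / √(n * κ0)

/-- TEX[LL:lem:statistics-coarse-switch] **"The stopped derivative is consequently `O(λ (x + e_1))` at each parameter value"** (`Λ` = sup of the dotted clocks; `p` = Hölder exponent of the transfer: loss `e_1^(-1/p)`).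
PROOF: `l8y_D_le`, `l8y_stat`, `l8y_Q_le` (`p`-th root), `l8yWe ≤ Λ² l8yW1`, `√(7/3 · 16) ≤ 25/4`. -/
theorem l8y_core (n : ℕ) (hn : 1 ≤ n) {a x s κ0 : ℝ} {A : SkStp} (hA : L8yRed a x A) (hκ : 0 < κ0) (hf : L8yFine n a κ0 A) (hs : 0 < s)
    (hsx : s ≤ x) (β η : ℕ → ℝ) (hβ0 : β 0 = 0) (hη0 : η 0 = 0) {Λ : ℝ} (hβ : ∀ k, |β k| ≤ Λ) (hη : ∀ k, |η k| ≤ Λ) {p : ℕ} (hp : 2 ≤ p)
    (hK2 : skKK n a (2 * s) A ≤ 1) (hKp : skKK n a (p * s) A ≤ 1) :
    |l8yD n a s A β η| ≤ Λ * (2 * x + 25 / √(n * κ0)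
      + 1 / 4 * (l8yDb n a x κ0 + (4 * Real.exp 1 * a * l8yDb n a x κ0 ^ (p - 1)) ^ (1 / (p : ℝ)))) := by
  obtain ⟨e, Q, hAe, he, _, _, hxa⟩ := l8y_red_cons hA
  have hx := hA.x0
  have ha : 0 < a := lt_of_lt_of_le hx hxa
  have hP : (skSP n a A).Ok := l8i_ok n hn a ha A hA.adm
  have hR : (skSP n a A).L8yTilt (l8yR n a s A) := by
    rw [hAe]
    exact l8y_R_tilt n hn ha hs e Q he (hAe ▸ hA.adm)
  have hΛ : 0 ≤ Λ := (abs_nonneg _).trans (hβ 0)
  have hD := l8y_D_le n hn hA hs hsx β η hβ0 hη0 hβ hK2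
  obtain ⟨hW1, hDq⟩ := l8y_stat n hn hA hκ hf
  have hQp := l8y_Q_le n hn hA hs hp hKp
  have hnk : 0 < (n : ℝ) * κ0 := mul_pos (by exact_mod_cast hn) hκ
  have hsp : 0 < √((n : ℝ) * κ0) := Real.sqrt_pos.2 hnk
  have hgap := fun k => l8y_gap_nonneg n hn ha hA.adm k
  have hW0 : ∀ k, 0 ≤ ∫ ω, (skSP n a A).W k ω ∂(skSP n a A).μ := fun k => ivk_int_W_nonneg hP k
  -- the end cuts
  have t1 : x * (1 / 4 * |β 1| + 1 / 2 * |η 1|) ≤ Λ * x := by
    nlinarith [hβ 1, hη 1, abs_nonneg (β 1), abs_nonneg (η 1)]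
  have t2 : skGap a A A.length * (1 / 4 * |β A.length| + 1 / 2 * |η A.length|) ≤ Λ * x := by
    have g1 := hA.gap A.length (by have := hA.len; omega) le_rfl
    have g0 := hgap A.length
    have b1 : 1 / 4 * |β A.length| + 1 / 2 * |η A.length| ≤ Λ := by linarith [hβ A.length, hη A.length]
    have b0 : 0 ≤ 1 / 4 * |β A.length| + 1 / 2 * |η A.length| := by positivity
    calc _ ≤ x * Λ := mul_le_mul g1 b1 b0 hx.le
      _ = Λ * x := mul_comm _ _
  -- the linear terms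
  have hsq : √(7 / 3 * l8yW1 n a A) ≤ 25 / 4 / √((n : ℝ) * κ0) := by
    rw [Real.sqrt_le_left (by positivity), div_pow, Real.sq_sqrt hnk.le]
    calc 7 / 3 * l8yW1 n a A ≤ 7 / 3 * (16 / (n * κ0)) := mul_le_mul_of_nonneg_left hW1 (by norm_num)
      _ ≤ (25 / 4) ^ 2 / (n * κ0) := by
          rw [← mul_div_assoc]
          exact div_le_div_of_nonneg_right (by norm_num) hnk.le
  have hWe : l8yWe n a A η ≤ Λ ^ 2 * l8yW1 n a A := by
    unfold l8yWe l8yW1
    rw [Finset.mul_sum]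
    refine Finset.sum_le_sum fun k _ => ?_
    have h2 : η k ^ 2 ≤ Λ ^ 2 := by
      rw [← sq_abs]
      exact pow_le_pow_left₀ (abs_nonneg _) (hη k) 2
    calc skGap a A k * η k ^ 2 * ∫ ω, (skSP n a A).W k ω ∂(skSP n a A).μ
        ≤ skGap a A k * Λ ^ 2 * ∫ ω, (skSP n a A).W k ω ∂(skSP n a A).μ :=
          mul_le_mul_of_nonneg_right (mul_le_mul_of_nonneg_left h2 (hgap k)) (hW0 k)
      _ = _ := by ring
  have hsq2 : √(7 / 3 * l8yWe n a A η) ≤ Λ * (25 / 4 / √((n : ℝ) * κ0)) := by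
    calc √(7 / 3 * l8yWe n a A η) ≤ √(Λ ^ 2 * (7 / 3 * l8yW1 n a A)) :=
          Real.sqrt_le_sqrt (by nlinarith)
      _ = Λ * √(7 / 3 * l8yW1 n a A) := by rw [Real.sqrt_mul (sq_nonneg _), Real.sqrt_sq hΛ]
      _ ≤ _ := mul_le_mul_of_nonneg_left hsq hΛ
  -- the quadratic terms
  have hDq0 := l8y_Dq_nonneg n hn ha hA.adm
  have hDb : l8yDq n a A ≤ l8yDb n a x κ0 := hDq
  have hQ0 : 0 ≤ l8yQ n a s A :=
    Finset.sum_nonneg fun k _ => mul_nonneg (hgap k) ((skSP n a A).l8y_quad_nonneg hR k)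
  have hQ : l8yQ n a s A ≤ (4 * Real.exp 1 * a * l8yDb n a x κ0 ^ (p - 1)) ^ (1 / (p : ℝ)) := by
    have h1 : l8yQ n a s A ^ p ≤ 4 * Real.exp 1 * a * l8yDb n a x κ0 ^ (p - 1) :=
      hQp.trans (mul_le_mul_of_nonneg_left (pow_le_pow_left₀ hDq0 hDb _) (by positivity))
    have h2 := Real.rpow_le_rpow (pow_nonneg hQ0 p) h1 (by positivity : (0 : ℝ) ≤ 1 / (p : ℝ))
    rwa [one_div, Real.pow_rpow_inv_natCast hQ0 (by omega), ← one_div] at h2
  have e25 : Λ * (25 / √((n : ℝ) * κ0)) = 4 * (Λ * (25 / 4 / √((n : ℝ) * κ0))) := by ring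
  have t3 : 2 * (Λ * √(7 / 3 * l8yW1 n a A) + √(7 / 3 * l8yWe n a A η)) ≤ Λ * (25 / √((n : ℝ) * κ0)) := by
    rw [e25]
    have := mul_le_mul_of_nonneg_left hsq hΛ
    linarith
  have t4 : 1 / 4 * Λ * (l8yQ n a s A + l8yDq n a A)
      ≤ Λ * (1 / 4 * (l8yDb n a x κ0 + (4 * Real.exp 1 * a * l8yDb n a x κ0 ^ (p - 1)) ^ (1 / (p : ℝ)))) := by
    have := mul_le_mul_of_nonneg_left (add_le_add hQ hDb) (by positivity : 0 ≤ 1 / 4 * Λ)
    linarith
  calc |l8yD n a s A β η| ≤ _ := hD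
    _ ≤ Λ * x + Λ * x + Λ * (25 / √((n : ℝ) * κ0))
        + Λ * (1 / 4 * (l8yDb n a x κ0 + (4 * Real.exp 1 * a * l8yDb n a x κ0 ^ (p - 1)) ^ (1 / (p : ℝ)))) := by
        linarith
    _ = _ := by ring

/-- TEX[LL:lem:statistics-coarse-switch] **the multiplier sweeps**: "By (A1), (A4) the derivative difference along each multiplier costs the square root of this bound on the stopped set (again exact linear conditional averaging)".
PROOF: `l8y_D_le` with `β = 0`, `Λ = 0`. -/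
theorem l8y_core_sw (n : ℕ) (hn : 1 ≤ n) {a x s : ℝ} {A : SkStp} (hA : L8yRed a x A) (hs : 0 < s) (hsx : s ≤ x) (η : ℕ → ℝ) (hη0 : η 0 = 0)
    (hK2 : skKK n a (2 * s) A ≤ 1) :
    |l8yD n a s A (fun _ => 0) η| ≤ 1 / 2 * (x * |η 1| + skGap a A A.length * |η A.length|) + 2 * √(7 / 3 * l8yWe n a A η) := by
  have h := l8y_D_le n hn hA hs hsx (fun _ => 0) η rfl hη0 (Λ := 0) (fun _ => by simp) hK2
  simp only [abs_zero, mul_zero, zero_add, zero_mul, add_zero] at h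
  linarith

theorem l8y_eqns_cite : True := by
  have := @L8P.l8ySs.eq_1
  have := @L8P.l8yBs.eq_1
  have := @L8P.l8yI.eq_1
  have := @L8P.l8yV.eq_1
  have := @l8yR.eq_1
  have := @l8yR.eq_2
  have := @l8yR.eq_def
  have := @l8yD.eq_1
  have := @l8yK.eq_1
  have := @l8yW1.eq_1
  have := @l8yWe.eq_1
  have := @l8yDq.eq_1
  have := @l8yQ.eq_1
  have := @l8yDb.eq_1
  trivial

end Claimed.Agent.R286
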