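-- KEEP
import Claimed.Agent.R286.L08.Cen
import Claimed.Agent.R286.L08.SPKitC
import Claimed.Agent.R286.L08.TlLink

/-!
# Row 286 (S0533), folder L08, file CenLk : THE TILT LINK ON THE SINGLE PATH      (owner helper187; prefix `l8c_lk_`, `l8c_rot_`, `L8cLink`)

TEX[LL:par:statistics-tilt-transfer] (LL 08 l.890-900): "For a tilted active path on the stop, (A4) represents its expectation as an untilted expectation multiplied by a density having every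
fixed moment required here.  Hölder therefore transfers the integrated second moments and squared errors in (D7)-(D10)."

## A. `L8cLink P0 Ps k₁ R τ` (abstract): the tilted single path `Ps` is the untilted one `P0`, reweighted by the density `R` and relabelled by the measurable map `τ` of the path space:
`Ps.μ = τ_* (R P0.μ)`,   `Ps.κ k (τ ω) = τ_* (P0.κ k ω)` at the ACTIVE cuts `k ≥ k₁`,   `Ps.y ∘ τ = P0.y`, same stages and masses.
CONSEQUENCES (`l8c_lk_X .. l8c_lk_QX`): every observable of `L08/SP.lean` at an active cut satisfies `Obs_s (τ ω) = Obs_0 ω`;   `l8c_lk_int`, `l8c_lk_intF`: expectations under `μ`, `fork k`.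
`l8c_lk_tlk`: the `τ`-form implies the image-law form `TlkLink` of 189 (L08/TlLink.lean), which is what the users consume.
## B. the three transfers, on `TlkLink` (`l8c_lk_mom(F)` fixed moments, Cauchy-Schwarz;  `l8c_lk_sq` one squared error, Hölder + interpolation;  `l8c_lk_sum(F)` mass-integrated first moments of bounded nonnegative observables).
PRODUCER of the link on the chains of `L8Ev` (the jump `b(0+)` is spread over several stages of mass `0`: no relabelling `τ` there; law of (field at the cut `js + 1`, tail) + Gaussian additivity): 189, `L08/TlSpi.lean`.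
-/

set_option autoImplicit false

namespace Claimed.Agent.R286

open MeasureTheory ProbabilityTheory Finset
open scoped ENNReal

variable {Ω : Type} [mΩ : MeasurableSpace Ω] {m : ℕ}

/-! ## A. the abstract link -/

/-- TEX[LL:par:statistics-tilt-transfer] the tilted single path = the untilted one, reweighted by `R`, relabelled by `τ`; `k₁` = the first active cut -/
structure L8cLink (P0 Ps : L8P Ω m) (k₁ : ℕ) (R : Ω → ℝ) (τ : Ω → Ω) : Prop where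
  τ_meas : Measurable τ
  R_meas : Measurable R
  R_nonneg : ∀ ω, 0 ≤ R ω
  law : Ps.μ = (P0.μ.withDensity fun ω => ENNReal.ofReal (R ω)).map τ
  ker : ∀ k, k₁ ≤ k → ∀ ω, Ps.κ k (τ ω) = (P0.κ k ω).map τ
  y : ∀ i ω, Ps.y i (τ ω) = P0.y i ω
  n : Ps.n = P0.n
  v : ∀ k, Ps.v k = P0.v k

section A

variable {P0 Ps : L8P Ω m} {k₁ : ℕ} {R : Ω → ℝ} {τ : Ω → Ω}

theorem l8c_lk_E (h : L8cLink P0 Ps k₁ R τ) {k : ℕ} (hk : k₁ ≤ k) {f : Ω → ℝ} (hf : Measurable f) (ω : Ω) :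
    Ps.E k f (τ ω) = P0.E k (fun ω' => f (τ ω')) ω := by
  unfold L8P.E
  rw [h.ker k hk, integral_map h.τ_meas.aemeasurable hf.aestronglyMeasurable]

theorem l8c_lk_X (h : L8cLink P0 Ps k₁ R τ) (hs : Ps.Ok) {k : ℕ} (hk : k₁ ≤ k) (i : Fin m) (ω : Ω) : Ps.X k i (τ ω) = P0.X k i ω := by
  unfold L8P.X
  rw [l8c_lk_E h hk (hs.y_meas i)]
  simp only [h.y]

theorem l8c_lk_dX (h : L8cLink P0 Ps k₁ R τ) (hs : Ps.Ok) {k : ℕ} (hk : k₁ ≤ k) (i : Fin m) (ω : Ω) : Ps.dX k i (τ ω) = P0.dX k i ω := by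
  unfold L8P.dX
  rw [l8c_lk_X h hs hk, l8c_lk_X h hs (by omega)]

theorem l8c_lk_R (h : L8cLink P0 Ps k₁ R τ) (hs : Ps.Ok) {k : ℕ} (hk : k₁ ≤ k) (i : Fin m) (ω : Ω) : Ps.R k i (τ ω) = P0.R k i ω := by
  unfold L8P.R
  rw [l8c_lk_X h hs hk, h.y]

theorem l8c_lk_nX (h : L8cLink P0 Ps k₁ R τ) (hs : Ps.Ok) {k : ℕ} (hk : k₁ ≤ k) (ω : Ω) : Ps.nX k (τ ω) = P0.nX k ω := by
  unfold L8P.nX
  simp only [l8c_lk_X h hs hk]

theorem l8c_lk_L (h : L8cLink P0 Ps k₁ R τ) (hs : Ps.Ok) {k : ℕ} (hk : k₁ ≤ k) (ω : Ω) : Ps.L k (τ ω) = P0.L k ω := by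
  unfold L8P.L
  simp only [l8c_lk_X h hs hk, l8c_lk_nX h hs hk, h.y]

theorem l8c_lk_C (h : L8cLink P0 Ps k₁ R τ) (hs : Ps.Ok) {k : ℕ} (hk : k₁ ≤ k) (i j : Fin m) (ω : Ω) : Ps.C k i j (τ ω) = P0.C k i j ω := by
  unfold L8P.C
  rw [l8c_lk_E h hk (l8k_yy_bd hs i j).1]
  simp only [l8c_lk_X h hs hk, h.y]

theorem l8c_lk_H (h : L8cLink P0 Ps k₁ R τ) (hs : Ps.Ok) {k : ℕ} (hk : k₁ ≤ k) (i j : Fin m) (ω : Ω) : Ps.H k i j (τ ω) = P0.H k i j ω := by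
  unfold L8P.H
  rw [l8c_lk_E h hk (l8k_Hint_bd hs k i j).1, h.n]
  refine l8k_E_congr (fun ω' => Finset.sum_congr rfl fun l hl => ?_) k ω
  have hl' : k₁ ≤ l := hk.trans (Finset.mem_Ico.1 hl).1
  rw [l8c_lk_dX h hs hl', l8c_lk_dX h hs hl', h.v]

theorem l8c_lk_W (h : L8cLink P0 Ps k₁ R τ) (hs : Ps.Ok) {k : ℕ} (hk : k₁ ≤ k) (ω : Ω) : Ps.W k (τ ω) = P0.W k ω := by
  unfold L8P.W
  simp only [l8c_lk_R h hs hk, l8c_lk_H h hs hk]

theorem l8c_lk_xCx (h : L8cLink P0 Ps k₁ R τ) (hs : Ps.Ok) {k : ℕ} (hk : k₁ ≤ k) (ω : Ω) : Ps.xCx k (τ ω) = P0.xCx k ω := by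
  unfold L8P.xCx
  simp only [l8c_lk_X h hs hk, l8c_lk_C h hs hk]

theorem l8c_lk_trC2 (h : L8cLink P0 Ps k₁ R τ) (hs : Ps.Ok) {k : ℕ} (hk : k₁ ≤ k) (ω : Ω) : Ps.trC2 k (τ ω) = P0.trC2 k ω := by
  unfold L8P.trC2
  simp only [l8c_lk_C h hs hk]

theorem l8c_lk_QX (h : L8cLink P0 Ps k₁ R τ) (hs : Ps.Ok) {k k' : ℕ} (hk : k₁ ≤ k) (hk' : k₁ ≤ k') (p : Ω × Ω) :
    Ps.QX k k' (τ p.1, τ p.2) = P0.QX k k' p := by
  unfold L8P.QX
  simp only [l8c_lk_X h hs hk, l8c_lk_X h hs hk']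

theorem l8c_lk_Q (h : L8cLink P0 Ps k₁ R τ) (p : Ω × Ω) : Ps.Q (τ p.1, τ p.2) = P0.Q p := by
  unfold L8P.Q
  simp only [h.y]

theorem l8c_lk_dv (h : L8cLink P0 Ps k₁ R τ) (k : ℕ) : Ps.dv k = P0.dv k := by
  unfold L8P.dv
  simp only [h.v]

/-- expectations on the tilted path -/
theorem l8c_lk_int (h : L8cLink P0 Ps k₁ R τ) {G : Ω → ℝ} (hG : Measurable G) : ∫ ω, G ω ∂Ps.μ = ∫ ω, R ω * G (τ ω) ∂P0.μ := by
  rw [h.law, integral_map h.τ_meas.aemeasurable hG.aestronglyMeasurable,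
    integral_withDensity_eq_integral_toReal_smul h.R_meas.ennreal_ofReal (Filter.Eventually.of_forall fun _ => ENNReal.ofReal_lt_top)]
  refine integral_congr_ae (Filter.Eventually.of_forall fun ω => ?_)
  simp only [ENNReal.toReal_ofReal (h.R_nonneg ω), smul_eq_mul]

/-- the tilted fork law at an active cut -/
theorem l8c_lk_fork (h : L8cLink P0 Ps k₁ R τ) (h0 : P0.Ok) (hs : Ps.Ok) {k : ℕ} (hk : k₁ ≤ k) :
    Ps.fork k = ((P0.fork k).withDensity fun p => ENNReal.ofReal (R p.1)).map (Prod.map τ τ) := by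
  have := h0.prob
  have := hs.prob
  have := h0.markov k
  have := hs.markov k
  have hρ : Measurable fun ω => ENNReal.ofReal (R ω) := h.R_meas.ennreal_ofReal
  have hττ : Measurable (Prod.map τ τ) := h.τ_meas.prodMap h.τ_meas
  refine Measure.ext_of_lintegral _ fun f hf => ?_
  have hg : Measurable fun ω => ∫⁻ ω', f (ω, ω') ∂(Ps.κ k ω) := hf.lintegral_kernel_prod_right'
  have hg' : Measurable fun ω => ∫⁻ ω', f (τ ω, ω') ∂(Ps.κ k (τ ω)) := hg.comp h.τ_meas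
  have hf' : Measurable fun p : Ω × Ω => f (Prod.map τ τ p) := hf.comp hττ
  have hρ' : Measurable fun p : Ω × Ω => ENNReal.ofReal (R p.1) := hρ.comp measurable_fst
  unfold L8P.fork
  rw [Measure.lintegral_compProd hf, h.law, lintegral_map hg h.τ_meas, lintegral_withDensity_eq_lintegral_mul _ hρ hg',
    lintegral_map hf hττ, lintegral_withDensity_eq_lintegral_mul _ hρ' hf', Measure.lintegral_compProd (hρ'.mul hf')]
  refine lintegral_congr fun ω => ?_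
  simp only [Pi.mul_apply, Prod.map]
  have h1 : Measurable fun ω' => f (τ ω, ω') := hf.comp measurable_prodMk_left
  have h2 : Measurable fun ω' => f (τ ω, τ ω') := h1.comp h.τ_meas
  rw [h.ker k hk, lintegral_map h1 h.τ_meas, lintegral_const_mul _ h2]

/-- expectations under the tilted fork law at an active cut -/
theorem l8c_lk_intF (h : L8cLink P0 Ps k₁ R τ) (h0 : P0.Ok) (hs : Ps.Ok) {k : ℕ} (hk : k₁ ≤ k) {G : Ω × Ω → ℝ} (hG : Measurable G) :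
    ∫ p, G p ∂(Ps.fork k) = ∫ p, R p.1 * G (τ p.1, τ p.2) ∂(P0.fork k) := by
  rw [l8c_lk_fork h h0 hs hk, integral_map (h.τ_meas.prodMap h.τ_meas).aemeasurable hG.aestronglyMeasurable,
    integral_withDensity_eq_integral_toReal_smul (f := fun p : Ω × Ω => ENNReal.ofReal (R p.1)) (h.R_meas.comp measurable_fst).ennreal_ofReal
      (Filter.Eventually.of_forall fun _ => ENNReal.ofReal_lt_top)]
  refine integral_congr_ae (Filter.Eventually.of_forall fun p => ?_)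
  simp only [ENNReal.toReal_ofReal (h.R_nonneg p.1), smul_eq_mul, Prod.map]

end A

/-- the `τ`-form gives the image-law form of 189 (`L08/TlLink.lean`) -/
theorem l8c_lk_tlk {P0 Ps : L8P Ω m} {k₁ : ℕ} {R : Ω → ℝ} {τ : Ω → Ω} (h : L8cLink P0 Ps k₁ R τ) (h0 : P0.Ok) (hs : Ps.Ok) :
    TlkLink Ps P0 k₁ R := by
  have hobs : ∀ {P : L8P Ω m}, P.Ok → Measurable (tlkObs P k₁) := fun {P} hP => by
    unfold tlkObs
    refine Measurable.prodMk (measurable_pi_lambda _ fun i => hP.y_meas i) (Measurable.prodMk ?_ (Measurable.prodMk ?_ ?_))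
    · exact measurable_pi_lambda _ fun k => measurable_pi_lambda _ fun i => (l8k_X_bd hP _ i).1
    · exact measurable_pi_lambda _ fun k => measurable_pi_lambda _ fun i => measurable_pi_lambda _ fun j => (l8k_C_bd hP _ i j).1
    · exact measurable_pi_lambda _ fun k => measurable_pi_lambda _ fun i => measurable_pi_lambda _ fun j => (l8k_H_bd hP _ i j).1
  have e : ∀ ω, tlkObs Ps k₁ (τ ω) = tlkObs P0 k₁ ω := fun ω => by
    unfold tlkObs
    simp only [h.y, l8c_lk_X h hs (Nat.le_add_right k₁ _), l8c_lk_C h hs (Nat.le_add_right k₁ _), l8c_lk_H h hs (Nat.le_add_right k₁ _)]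
  refine ⟨h.R_meas, h.R_nonneg, hobs hs, hobs h0, ?_, fun k hk => ?_⟩
  · rw [h.law, Measure.map_map (hobs hs) h.τ_meas]
    congr 1
    funext ω
    exact e ω
  · rw [l8c_lk_fork h h0 hs hk, Measure.map_map ((hobs hs).prodMap (hobs hs)) (h.τ_meas.prodMap h.τ_meas)]
    congr 1
    funext p
    simp only [Function.comp_apply, Prod.map, e]

/-! ## B. the three transfers (on the link of 189) -/
section B

variable {Pt Pu : L8P Ω m} {k0 : ℕ} {R : Ω → ℝ}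

/-- TEX[LL:par:statistics-tilt-transfer] fixed moments ((D2), Cor. 8.7) on the tilted path: Cauchy-Schwarz, from the untilted moment of the double order -/
theorem l8c_lk_mom (h : TlkLink Pt Pu k0 R) (hu : Pu.Ok) {R2 : ℝ} (hR : L8cTilt Pu.μ 2 R2 R) {Gt Gu : Ω → ℝ} (hl : TlkLk Pt Pu k0 Gt Gu)
    (hb : ∃ c, ∀ ω, |Gu ω| ≤ c) (r : ℕ) {B : ℝ} (hB0 : 0 ≤ B) (hB : ∫ ω, Gu ω ^ (2 * (2 * r)) ∂Pu.μ ≤ B ^ (2 * (2 * r))) :
    ∫ ω, Gt ω ^ (2 * r) ∂Pt.μ ≤ √R2 * B ^ (2 * r) := by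
  have := hu.prob
  have hbd : L8Bd fun ω => (Gu ω ^ (2 * r)) ^ 2 := l8k_bd_pow (l8k_bd_pow ⟨hl.meas_u h, hb⟩ _) 2
  have h1 := tlk_cs h (hl.pow (2 * r)) hR.int (l8k_bd_integrable hbd _)
  refine (le_abs_self _).trans (h1.trans ?_)
  have e : ∀ ω, (Gu ω ^ (2 * r)) ^ 2 = Gu ω ^ (2 * (2 * r)) := fun ω => by rw [← pow_mul]; congr 1; ring
  simp only [e]
  have h2 : √(∫ ω, Gu ω ^ (2 * (2 * r)) ∂Pu.μ) ≤ B ^ (2 * r) := by
    rw [show B ^ (2 * r) = √((B ^ (2 * r)) ^ 2) by rw [Real.sqrt_sq (by positivity)]]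
    refine Real.sqrt_le_sqrt (hB.trans_eq ?_)
    rw [← pow_mul]; congr 1; ring
  exact mul_le_mul (Real.sqrt_le_sqrt hR.mom) h2 (Real.sqrt_nonneg _) (Real.sqrt_nonneg _)

/-- the same under the fork law at an active cut -/
theorem l8c_lk_momF (h : TlkLink Pt Pu k0 R) (hu : Pu.Ok) {R2 : ℝ} (hR : L8cTilt Pu.μ 2 R2 R) {k : ℕ} (hk : k0 ≤ k) {Gt Gu : Ω × Ω → ℝ}
    (hl : TlkLk2 Pt Pu k0 Gt Gu) (hb : ∃ c, ∀ p, |Gu p| ≤ c) (r : ℕ) {B : ℝ} (hB0 : 0 ≤ B)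
    (hB : ∫ p, Gu p ^ (2 * (2 * r)) ∂(Pu.fork k) ≤ B ^ (2 * (2 * r))) :
    ∫ p, Gt p ^ (2 * r) ∂(Pt.fork k) ≤ √R2 * B ^ (2 * r) := by
  have := Pu.l8s_fork_prob hu k
  have hRk := Pu.l8c_tilt_fork hu k hR
  have hbd : L8Bd fun p => (Gu p ^ (2 * r)) ^ 2 := l8k_bd_pow (l8k_bd_pow ⟨hl.meas_u h, hb⟩ _) 2
  have h1 := tlk_cs2 h hk (hl.pow (2 * r)) hRk.int (l8k_bd_integrable hbd _)
  refine (le_abs_self _).trans (h1.trans ?_)
  have e : ∀ p, (Gu p ^ (2 * r)) ^ 2 = Gu p ^ (2 * (2 * r)) := fun p => by rw [← pow_mul]; congr 1; ring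
  simp only [e]
  have h2 : √(∫ p, Gu p ^ (2 * (2 * r)) ∂(Pu.fork k)) ≤ B ^ (2 * r) := by
    rw [show B ^ (2 * r) = √((B ^ (2 * r)) ^ 2) by rw [Real.sqrt_sq (by positivity)]]
    refine Real.sqrt_le_sqrt (hB.trans_eq ?_)
    rw [← pow_mul]; congr 1; ring
  exact mul_le_mul (Real.sqrt_le_sqrt hRk.mom) h2 (Real.sqrt_nonneg _) (Real.sqrt_nonneg _)

/-- TEX[LL:par:statistics-tilt-transfer] one squared error ((D10), the low linear integral): Hölder + interpolation with the deterministic bound `M` -/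
theorem l8c_lk_sq (h : TlkLink Pt Pu k0 R) (hu : Pu.Ok) {n : ℕ} (hn : 2 ≤ n) {Rn : ℝ} (hR : L8cTilt Pu.μ n Rn R) {Gt Gu : Ω → ℝ}
    (hl : TlkLk Pt Pu k0 Gt Gu) {M A : ℝ} (hM : ∀ ω, |Gu ω| ≤ M) (hA : ∫ ω, Gu ω ^ 2 ∂Pu.μ ≤ A) :
    (∫ ω, Gt ω ^ 2 ∂Pt.μ) ^ n ≤ Rn * A ^ (n - 1) * M ^ 2 := by
  have := hu.prob
  have hA0 : 0 ≤ A := (integral_nonneg fun _ => sq_nonneg _).trans hA
  rw [tlk_int h (hl.pow 2)]
  have h1 := l8c_transfer Pu.μ n hn hR.meas hR.nonneg hR.int (hl.meas_u h) hM hA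
  exact h1.trans (mul_le_mul_of_nonneg_right (mul_le_mul_of_nonneg_right hR.mom (pow_nonneg hA0 _)) (sq_nonneg _))

/-- Hölder + interpolation for a bounded nonnegative observable -/
theorem l8c_lk_one {α : Type*} [MeasurableSpace α] (ν : Measure α) [IsFiniteMeasure ν] {n : ℕ} (hn : 2 ≤ n) {R G : α → ℝ} {Rn M : ℝ}
    (hRm : Measurable R) (hR0 : ∀ x, 0 ≤ R x) (hRi : Integrable (fun x => R x ^ n) ν) (hRn : ∫ x, R x ^ n ∂ν ≤ Rn) (hG : Measurable G)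
    (hG0 : ∀ x, 0 ≤ G x) (hM0 : 0 ≤ M) (hM : ∀ x, G x ≤ M) :
    (∫ x, R x * G x ∂ν) ^ n ≤ Rn * M * (∫ x, G x ∂ν) ^ (n - 1) := by
  have e : ∀ x, √(G x) ^ 2 = G x := fun x => Real.sq_sqrt (hG0 x)
  have h1 := l8c_transfer ν n hn hRm hR0 hRi hG.sqrt (M := √M) (A := ∫ x, G x ∂ν)
    (fun x => by rw [abs_of_nonneg (Real.sqrt_nonneg _)]; exact Real.sqrt_le_sqrt (hM x)) (by simp only [e]; exact le_rfl)
  simp only [e, Real.sq_sqrt hM0] at h1
  have hI : 0 ≤ ∫ x, G x ∂ν := integral_nonneg hG0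
  calc _ ≤ _ := h1
    _ ≤ Rn * (∫ x, G x ∂ν) ^ (n - 1) * M := by gcongr
    _ = _ := by ring

/-- TEX[LL:par:statistics-tilt-transfer] mass-integrated first moments of bounded nonnegative observables ((D7), (D9), lines `W`, `C`): Hölder per cut, then in the cut -/
theorem l8c_lk_sum (h : TlkLink Pt Pu k0 R) (hu : Pu.Ok) {n : ℕ} (hn : 2 ≤ n) {Rn : ℝ} (hR : L8cTilt Pu.μ n Rn R) (K : Finset ℕ) (w : ℕ → ℝ)
    (hw : ∀ k ∈ K, 0 ≤ w k) {Gt Gu : ℕ → Ω → ℝ} (hl : ∀ k ∈ K, TlkLk Pt Pu k0 (Gt k) (Gu k)) {M : ℝ} (hM0 : 0 ≤ M)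
    (h00 : ∀ k ∈ K, ∀ ω, 0 ≤ Gu k ω) (hM : ∀ k ∈ K, ∀ ω, Gu k ω ≤ M) :
    (∑ k ∈ K, w k * ∫ ω, Gt k ω ∂Pt.μ) ^ n ≤ Rn * M * (∑ k ∈ K, w k) * (∑ k ∈ K, w k * ∫ ω, Gu k ω ∂Pu.μ) ^ (n - 1) := by
  have := hu.prob
  have hRn0 : 0 ≤ Rn := (integral_nonneg fun ω => pow_nonneg (hR.nonneg ω) n).trans hR.mom
  refine l8c_transfer_sum K n (by omega) w _ _ (mul_nonneg hRn0 hM0) hw (fun k hk => ?_) (fun k hk => integral_nonneg (h00 k hk)) fun k hk => ?_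
  · rw [tlk_int h (hl k hk)]
    exact integral_nonneg fun ω => mul_nonneg (hR.nonneg ω) (h00 k hk ω)
  · rw [tlk_int h (hl k hk)]
    exact l8c_lk_one Pu.μ hn hR.meas hR.nonneg hR.int hR.mom ((hl k hk).meas_u h) (h00 k hk) hM0 (hM k hk)

/-- the same under the fork laws ((D7), (D9), lines `Q`): the law moves with the cut -/
theorem l8c_lk_sumF (h : TlkLink Pt Pu k0 R) (hu : Pu.Ok) {n : ℕ} (hn : 2 ≤ n) {Rn : ℝ} (hR : L8cTilt Pu.μ n Rn R) (K : Finset ℕ)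
    (hK : ∀ k ∈ K, k0 ≤ k) (w : ℕ → ℝ) (hw : ∀ k ∈ K, 0 ≤ w k) {Gt Gu : ℕ → Ω × Ω → ℝ} (hl : ∀ k ∈ K, TlkLk2 Pt Pu k0 (Gt k) (Gu k)) {M : ℝ}
    (hM0 : 0 ≤ M) (h00 : ∀ k ∈ K, ∀ p, 0 ≤ Gu k p) (hM : ∀ k ∈ K, ∀ p, Gu k p ≤ M) :
    (∑ k ∈ K, w k * ∫ p, Gt k p ∂(Pt.fork k)) ^ n ≤ Rn * M * (∑ k ∈ K, w k) * (∑ k ∈ K, w k * ∫ p, Gu k p ∂(Pu.fork k)) ^ (n - 1) := by
  have hRn0 : 0 ≤ Rn := (integral_nonneg fun ω => pow_nonneg (hR.nonneg ω) n).trans hR.mom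
  refine l8c_transfer_sum K n (by omega) w _ _ (mul_nonneg hRn0 hM0) hw (fun k hk => ?_) (fun k hk => integral_nonneg (h00 k hk)) fun k hk => ?_
  · rw [tlk_int2 h (hK k hk) (hl k hk)]
    exact integral_nonneg fun p => mul_nonneg (hR.nonneg p.1) (h00 k hk p)
  · have := Pu.l8s_fork_prob hu k
    have hRk := Pu.l8c_tilt_fork hu k hR
    rw [tlk_int2 h (hK k hk) (hl k hk)]
    exact l8c_lk_one (Pu.fork k) hn hRk.meas hRk.nonneg hRk.int hRk.mom ((hl k hk).meas_u h) (h00 k hk) hM0 (hM k hk)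

end B

end Claimed.Agent.R286
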