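import Claimed.Agent.R286.L08.L11Ctr

/-!
Row 286, LL 08-statistics (units IV + PC, architect helper228).  OWNER: helper178.
Proofs of the 12 contracts of `L08/L11Ctr.lean` (Mathlib only): `l11_<name> : L11_<name>`.
The scale arithmetic AR1..AR7 is done in exponential coordinates `x = exp X`, `lam = exp L`, ...
-/

set_option autoImplicit false
open MeasureTheory
open scoped BigOperators

namespace Claimed.Agent.R286

/-! ### LEVEL, TRANSFER, TRUNC, MARKOV, POLYDER -/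

theorem l11_level : L11_level := by
  intro R Λ k hk hR hΛ
  obtain ⟨m, rfl⟩ : ∃ m, k = m + 1 := ⟨k - 1, by omega⟩
  simp only [Nat.add_sub_cancel]
  have hΛm : 0 < Λ ^ m := pow_pos hΛ m
  rcases le_total R Λ with h | h
  · have : 0 ≤ R ^ (m + 1) / Λ ^ m := div_nonneg (pow_nonneg hR _) hΛm.le
    linarith
  · have h1 : Λ ^ m ≤ R ^ m := pow_le_pow_left₀ hΛ.le h m
    have h2 : R ≤ R ^ (m + 1) / Λ ^ m := by
      rw [le_div_iff₀ hΛm, pow_succ']
      exact mul_le_mul_of_nonneg_left h1 hR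
    linarith

theorem l11_transfer : L11_transfer := by
  intro Ω _ μ _ R F k Λ M hk hΛ hRm hFm hR hF hFM hRk
  have hΛk : 0 < Λ ^ (k - 1) := pow_pos hΛ _
  have hFint : Integrable F μ :=
    Integrable.of_bound hFm.aestronglyMeasurable M
      (Filter.Eventually.of_forall fun ω => by
        rw [Real.norm_eq_abs, abs_of_nonneg (hF ω)]; exact hFM ω)
  have hg : Integrable (fun ω => Λ * F ω + M / Λ ^ (k - 1) * R ω ^ k) μ :=
    (hFint.const_mul Λ).add (hRk.const_mul _)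
  have hpt : ∀ ω, R ω * F ω ≤ Λ * F ω + M / Λ ^ (k - 1) * R ω ^ k := by
    intro ω
    have h1 := l11_level (R ω) Λ k hk (hR ω) hΛ
    have h2 : 0 ≤ R ω ^ k / Λ ^ (k - 1) := div_nonneg (pow_nonneg (hR ω) _) hΛk.le
    calc R ω * F ω ≤ (Λ + R ω ^ k / Λ ^ (k - 1)) * F ω :=
          mul_le_mul_of_nonneg_right h1 (hF ω)
      _ = Λ * F ω + R ω ^ k / Λ ^ (k - 1) * F ω := by ring
      _ ≤ Λ * F ω + R ω ^ k / Λ ^ (k - 1) * M := by
          have := mul_le_mul_of_nonneg_left (hFM ω) h2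
          linarith
      _ = Λ * F ω + M / Λ ^ (k - 1) * R ω ^ k := by ring
  calc ∫ ω, R ω * F ω ∂μ ≤ ∫ ω, (Λ * F ω + M / Λ ^ (k - 1) * R ω ^ k) ∂μ :=
        integral_mono_of_nonneg
          (Filter.Eventually.of_forall fun ω => mul_nonneg (hR ω) (hF ω)) hg
          (Filter.Eventually.of_forall hpt)
    _ = Λ * ∫ ω, F ω ∂μ + M / Λ ^ (k - 1) * ∫ ω, R ω ^ k ∂μ := by
        rw [integral_add (hFint.const_mul Λ) (hRk.const_mul _), integral_const_mul,
          integral_const_mul]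
    _ = Λ * ∫ ω, F ω ∂μ + M * (∫ ω, R ω ^ k ∂μ) / Λ ^ (k - 1) := by ring

theorem l11_trunc : L11_trunc := by
  intro Ω _ μ _ ξ W F Wmax θ q1 q2 δ hξ hW hF hW0 hWm hF0 hq1 hFq1 hFq2 hδ
  obtain ⟨ω0⟩ : Nonempty Ω := nonempty_of_isProbabilityMeasure μ
  have hq2 : 0 ≤ q2 := (hF0 _).trans (hFq2 ω0)
  have hWmax : 0 ≤ Wmax := (hW0 ω0).trans (hWm ω0)
  set S : Set Ω := {ω | θ < |ξ ω|} with hS
  have hSm : MeasurableSet S :=
    measurableSet_lt measurable_const (continuous_abs.measurable.comp hξ)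
  have hWint : Integrable W μ :=
    Integrable.of_bound hW.aestronglyMeasurable Wmax
      (Filter.Eventually.of_forall fun ω => by
        rw [Real.norm_eq_abs, abs_of_nonneg (hW0 ω)]; exact hWm ω)
  have hind : Integrable (S.indicator fun _ : Ω => q2 * Wmax) μ :=
    (integrable_const _).indicator hSm
  have hg : Integrable (fun ω => q1 * W ω + S.indicator (fun _ : Ω => q2 * Wmax) ω) μ :=
    (hWint.const_mul q1).add hind
  have hpt : ∀ ω, F (ξ ω) * W ω ≤ q1 * W ω + S.indicator (fun _ : Ω => q2 * Wmax) ω := by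
    intro ω
    by_cases hω : ω ∈ S
    · rw [Set.indicator_of_mem hω]
      have h1 : F (ξ ω) * W ω ≤ q2 * Wmax :=
        mul_le_mul (hFq2 ω) (hWm ω) (hW0 ω) hq2
      have h2 : 0 ≤ q1 * W ω := mul_nonneg hq1 (hW0 ω)
      linarith
    · rw [Set.indicator_of_notMem hω]
      have h0 : |ξ ω| ≤ θ := not_lt.mp hω
      have h1 : F (ξ ω) * W ω ≤ q1 * W ω :=
        mul_le_mul_of_nonneg_right (hFq1 _ h0) (hW0 ω)
      linarith
  calc ∫ ω, F (ξ ω) * W ω ∂μ
      ≤ ∫ ω, (q1 * W ω + S.indicator (fun _ : Ω => q2 * Wmax) ω) ∂μ :=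
        integral_mono_of_nonneg
          (Filter.Eventually.of_forall fun ω => mul_nonneg (hF0 _) (hW0 ω)) hg
          (Filter.Eventually.of_forall hpt)
    _ = q1 * ∫ ω, W ω ∂μ + μ.real S * (q2 * Wmax) := by
        rw [integral_add (hWint.const_mul q1) hind, integral_const_mul,
          integral_indicator_const _ hSm, smul_eq_mul]
    _ ≤ q1 * ∫ ω, W ω ∂μ + q2 * Wmax * δ := by
        have := mul_le_mul_of_nonneg_right hδ (mul_nonneg hq2 hWmax)
        linarith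

theorem l11_markov : L11_markov := by
  intro Ω _ μ _ ξ r M T e hξ hint he hT hM hmom
  have hTe : 0 < T * e := mul_pos hT he
  have hpow : 0 < (T * e) ^ (2 * r) := pow_pos hTe _
  have hnn : ∀ ω, 0 ≤ ξ ω ^ (2 * r) := fun ω => (even_two_mul r).pow_nonneg _
  have h1 := mul_meas_ge_le_integral_of_nonneg (μ := μ)
    (Filter.Eventually.of_forall hnn) hint ((T * e) ^ (2 * r))
  have hsub : {ω | T * e < |ξ ω|} ⊆ {ω | (T * e) ^ (2 * r) ≤ ξ ω ^ (2 * r)} := by
    intro ω hω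
    have hω' : T * e < |ξ ω| := hω
    show (T * e) ^ (2 * r) ≤ ξ ω ^ (2 * r)
    rw [← (even_two_mul r).pow_abs (ξ ω)]
    exact pow_le_pow_left₀ hTe.le hω'.le _
  have h2 : μ.real {ω | T * e < |ξ ω|} ≤ μ.real {ω | (T * e) ^ (2 * r) ≤ ξ ω ^ (2 * r)} :=
    measureReal_mono hsub
  have h3 : (T * e) ^ (2 * r) * μ.real {ω | T * e < |ξ ω|} ≤ (M * e) ^ (2 * r) :=
    (mul_le_mul_of_nonneg_left h2 hpow.le).trans (h1.trans hmom)
  have h4 : (M / T) ^ (2 * r) = (M * e) ^ (2 * r) / (T * e) ^ (2 * r) := by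
    rw [← div_pow]; congr 1; field_simp
  rw [h4, le_div_iff₀ hpow]
  linarith

theorem l11_polyder : L11_polyder := by
  intro p j C e T t hj hdeg hC he hT hco ht
  have hT0 : 0 ≤ T := by linarith
  have hsum : p.derivative.eval t
      = ∑ i ∈ Finset.range (j + 1), p.coeff i * (i : ℝ) * t ^ (i - 1) := by
    rw [Polynomial.derivative_eval,
      Polynomial.sum_over_range' p (f := fun n a => a * (n : ℝ) * t ^ (n - 1))
        (fun n => by simp) (j + 1) (by omega)]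
  rw [hsum, Finset.sum_range_succ']
  simp only [Nat.cast_zero, mul_zero, zero_mul, add_zero, Nat.add_sub_cancel]
  have hterm : ∀ i ∈ Finset.range j,
      |p.coeff (i + 1) * ((i + 1 : ℕ) : ℝ) * t ^ i| ≤ C * (j : ℝ) * T ^ (j - 1) * e ^ (j - 1) := by
    intro i hi
    have hij : i + 1 ≤ j := Finset.mem_range.mp hi
    have h1 : |p.coeff (i + 1)| ≤ C * e ^ (j - (i + 1)) := hco _ hij
    have h2 : ((i + 1 : ℕ) : ℝ) ≤ (j : ℝ) := by exact_mod_cast hij
    have h3 : |t| ^ i ≤ (T * e) ^ i := pow_le_pow_left₀ (abs_nonneg t) ht i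
    have h4 : T ^ i ≤ T ^ (j - 1) := pow_le_pow_right₀ hT (by omega)
    have h5 : e ^ (j - (i + 1)) * e ^ i = e ^ (j - 1) := by
      rw [← pow_add]; congr 1; omega
    rw [abs_mul, abs_mul, abs_pow, Nat.abs_cast]
    calc |p.coeff (i + 1)| * ((i + 1 : ℕ) : ℝ) * |t| ^ i
        ≤ (C * e ^ (j - (i + 1))) * (j : ℝ) * (T * e) ^ i := by
          apply mul_le_mul (mul_le_mul h1 h2 (Nat.cast_nonneg _)
            (mul_nonneg hC (pow_nonneg he _))) h3 (pow_nonneg (abs_nonneg t) _)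
          exact mul_nonneg (mul_nonneg hC (pow_nonneg he _)) (Nat.cast_nonneg _)
      _ = C * (j : ℝ) * T ^ i * (e ^ (j - (i + 1)) * e ^ i) := by rw [mul_pow]; ring
      _ = C * (j : ℝ) * T ^ i * e ^ (j - 1) := by rw [h5]
      _ ≤ C * (j : ℝ) * T ^ (j - 1) * e ^ (j - 1) := by
          apply mul_le_mul_of_nonneg_right _ (pow_nonneg he _)
          exact mul_le_mul_of_nonneg_left h4 (mul_nonneg hC (Nat.cast_nonneg _))
  calc |∑ i ∈ Finset.range j, p.coeff (i + 1) * ((i + 1 : ℕ) : ℝ) * t ^ i|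
      ≤ ∑ i ∈ Finset.range j, |p.coeff (i + 1) * ((i + 1 : ℕ) : ℝ) * t ^ i| :=
        Finset.abs_sum_le_sum_abs _ _
    _ ≤ ∑ _i ∈ Finset.range j, C * (j : ℝ) * T ^ (j - 1) * e ^ (j - 1) :=
        Finset.sum_le_sum hterm
    _ = C * (j : ℝ) ^ 2 * T ^ (j - 1) * e ^ (j - 1) := by
        rw [Finset.sum_const, Finset.card_range, nsmul_eq_mul]; ring

/-! ### exponential coordinates -/

theorem l11x_U (X L s : ℝ) :
    l11U (Real.exp X) (Real.exp L) s = Real.exp (min 0 (X - L * s / 2)) := by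
  unfold l11U
  rw [← Real.exp_mul, ← Real.exp_add, Real.exp_monotone.map_min, Real.exp_zero]
  congr 2; ring

theorem l11x_sq (L η : ℝ) :
    Real.sqrt (l11lam1 (Real.exp L) η) = Real.exp (L * (1 + η) / 2) := by
  unfold l11lam1
  rw [← Real.exp_mul, ← Real.exp_half]

theorem l11x_z0 (X L η R : ℝ) :
    l11z0 (Real.exp X) (Real.exp L) η (Real.exp R)
      = Real.exp (3 * X - L * (1 + η) / 2 - 3 * R) := by
  unfold l11z0
  rw [l11x_sq, ← Real.exp_nat_mul, ← Real.exp_nat_mul, ← Real.exp_add, ← Real.exp_sub]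
  congr 1; push_cast; ring

theorem l11x_e1 (X L s η : ℝ) :
    l11e1 (Real.exp X) (Real.exp L) s η
      = Real.exp (3 * X - L * (1 + η) / 2 - 3 / 2 * min 0 (X - L * s / 2)) := by
  unfold l11e1
  rw [l11x_sq, l11x_U, ← Real.exp_nat_mul, ← Real.exp_mul, ← Real.exp_add, ← Real.exp_sub]
  congr 1; push_cast; ring

theorem l11x_epsw (X L s η ζ w : ℝ) :
    l11epsw (Real.exp X) (Real.exp L) s η (Real.exp ζ) (Real.exp w)
      = Real.exp (3 * X + (min 0 (X - L * s / 2) + ζ) / 2 - L * (1 + η) / 2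
          - 3 / 2 * max w (min 0 (X - L * s / 2))) := by
  unfold l11epsw
  rw [l11x_sq, l11x_U, ← Real.exp_monotone.map_max, ← Real.exp_nat_mul, ← Real.exp_mul,
    ← Real.exp_add, ← Real.exp_half, ← Real.exp_add, ← Real.exp_add, ← Real.exp_sub]
  congr 1; push_cast; ring

theorem l11x_le1 (X L s : ℝ) :
    Real.exp X * Real.exp L ^ (-(s / 2)) ≤ 1 ↔ X - L * s / 2 ≤ 0 := by
  rw [← Real.exp_mul, ← Real.exp_add, Real.exp_le_one_iff]
  constructor <;> intro h <;> linarith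

/-! ### AR1 .. AR7 -/

theorem l11_ar1 : L11_ar1 := by
  intro x lam s η r hx hlam hr h
  obtain ⟨X, rfl⟩ : ∃ X, x = Real.exp X := ⟨Real.log x, (Real.exp_log hx).symm⟩
  obtain ⟨L, rfl⟩ : ∃ L, lam = Real.exp L := ⟨Real.log lam, (Real.exp_log hlam).symm⟩
  obtain ⟨R, rfl⟩ : ∃ R, r = Real.exp R := ⟨Real.log r, (Real.exp_log hr).symm⟩
  rw [l11x_le1] at h
  rw [l11x_z0, l11x_U, min_eq_right h, ← Real.exp_mul, ← Real.exp_sub, ← Real.exp_nat_mul,
    ← Real.exp_add]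
  congr 1; push_cast; ring

theorem l11_ar2 : L11_ar2 := by
  intro x lam s η r Z hx hlam hlam1 hZ hs h hr
  have hZ0 : 0 < Z := by linarith
  have hU0 : 0 < l11U x lam s := by
    unfold l11U
    exact lt_min one_pos (mul_pos hx (Real.rpow_pos_of_pos hlam _))
  have hr0 : 0 < r := lt_of_lt_of_le (mul_pos hU0 hZ0) hr
  obtain ⟨X, rfl⟩ : ∃ X, x = Real.exp X := ⟨Real.log x, (Real.exp_log hx).symm⟩
  obtain ⟨L, rfl⟩ : ∃ L, lam = Real.exp L := ⟨Real.log lam, (Real.exp_log hlam).symm⟩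
  obtain ⟨R, rfl⟩ : ∃ R, r = Real.exp R := ⟨Real.log r, (Real.exp_log hr0).symm⟩
  obtain ⟨ζ, rfl⟩ : ∃ ζ, Z = Real.exp ζ := ⟨Real.log Z, (Real.exp_log hZ0).symm⟩
  rw [l11x_le1] at h
  rw [l11x_U, min_eq_right h, ← Real.exp_add, Real.exp_le_exp] at hr
  have hL : L ≤ 0 := Real.exp_le_one_iff.mp hlam1
  have hζ : 0 ≤ ζ := Real.one_le_exp_iff.mp hZ
  rw [l11x_z0, ← Real.exp_add, Real.exp_le_one_iff]
  nlinarith [mul_nonneg (neg_nonneg.mpr hL) (sub_nonneg.mpr hs)]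

theorem l11_ar3 : L11_ar3 := by
  intro x lam s hx hlam
  obtain ⟨X, rfl⟩ : ∃ X, x = Real.exp X := ⟨Real.log x, (Real.exp_log hx).symm⟩
  obtain ⟨L, rfl⟩ : ∃ L, lam = Real.exp L := ⟨Real.log lam, (Real.exp_log hlam).symm⟩
  rw [l11x_U, ← Real.exp_nat_mul, ← Real.exp_nat_mul, ← Real.exp_mul, ← Real.exp_add,
    ← Real.exp_add, ← Real.exp_add, Real.exp_le_exp]
  have := min_le_right 0 (X - L * s / 2)
  push_cast
  linarith

theorem l11_ar4 : L11_ar4 := by
  intro x lam s η hx hx1 hlam hlam1 hs hη h25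
  obtain ⟨X, rfl⟩ : ∃ X, x = Real.exp X := ⟨Real.log x, (Real.exp_log hx).symm⟩
  obtain ⟨L, rfl⟩ : ∃ L, lam = Real.exp L := ⟨Real.log lam, (Real.exp_log hlam).symm⟩
  rw [l11x_e1, l11x_U, ← Real.exp_nat_mul, ← Real.exp_mul, ← Real.exp_add, ← Real.exp_add,
    Real.exp_le_exp]
  push_cast
  have hXs : X * (3 + (1 - η) / s) = 3 * X + (1 - η) * (X / s) := by field_simp
  rw [hXs]
  rcases le_total (X - L * s / 2) 0 with h | h
  · rw [min_eq_right h]
    -- `2 X / s ≤ L`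
    have h1 : X / s ≤ L / 2 := by
      rw [div_le_iff₀ hs]; linarith
    have hX : X = s * (X / s) := by field_simp
    have hc : 0 ≤ (5 * s - 2 * (1 - η)) * (L / 2 - X / s) :=
      mul_nonneg (by linarith) (by linarith)
    nlinarith [hc, hX]
  · rw [min_eq_left h]
    have h1 : L / 2 ≤ X / s := by
      rw [le_div_iff₀ hs]; linarith
    have hc : 0 ≤ (1 - η) * (X / s - L / 2) := mul_nonneg (by linarith) (by linarith)
    nlinarith [hc]

theorem l11_ar5 : L11_ar5 := by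
  intro x lam s η Z w hx hlam _ _ hZ hw
  have hZ0 : 0 < Z := by linarith
  obtain ⟨X, rfl⟩ : ∃ X, x = Real.exp X := ⟨Real.log x, (Real.exp_log hx).symm⟩
  obtain ⟨L, rfl⟩ : ∃ L, lam = Real.exp L := ⟨Real.log lam, (Real.exp_log hlam).symm⟩
  obtain ⟨ζ, rfl⟩ : ∃ ζ, Z = Real.exp ζ := ⟨Real.log Z, (Real.exp_log hZ0).symm⟩
  obtain ⟨v, rfl⟩ : ∃ v, w = Real.exp v := ⟨Real.log w, (Real.exp_log hw).symm⟩
  rw [l11x_epsw, l11x_U]
  set u := min 0 (X - L * s / 2) with hu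
  rw [← Real.exp_add, ← Real.exp_add, ← Real.exp_add, ← Real.exp_half, ← Real.exp_add,
    ← Real.exp_nat_mul, ← Real.exp_mul, ← Real.exp_mul, ← Real.exp_add, ← Real.exp_add,
    Real.exp_le_exp]
  have h1 : u ≤ X - L * s / 2 := min_le_right _ _
  have h2 : v ≤ max v u := le_max_left _ _
  have h3 : u ≤ max v u := le_max_right _ _
  push_cast
  linarith

theorem l11_ar6 : L11_ar6 := by
  intro x lam s η hx hlam
  obtain ⟨X, rfl⟩ : ∃ X, x = Real.exp X := ⟨Real.log x, (Real.exp_log hx).symm⟩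
  obtain ⟨L, rfl⟩ : ∃ L, lam = Real.exp L := ⟨Real.log lam, (Real.exp_log hlam).symm⟩
  rw [l11x_sq, l11x_U, ← Real.exp_nat_mul, ← Real.exp_nat_mul, ← Real.exp_nat_mul,
    ← Real.exp_mul, ← Real.exp_add, ← Real.exp_add, ← Real.exp_add, Real.exp_le_exp]
  have := min_le_right 0 (X - L * s / 2)
  push_cast
  linarith

theorem l11_ar7 : L11_ar7 := by
  intro x lam s η Z w hx hlam hZ hw
  have hZ0 : 0 < Z := by linarith
  obtain ⟨X, rfl⟩ : ∃ X, x = Real.exp X := ⟨Real.log x, (Real.exp_log hx).symm⟩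
  obtain ⟨L, rfl⟩ : ∃ L, lam = Real.exp L := ⟨Real.log lam, (Real.exp_log hlam).symm⟩
  obtain ⟨ζ, rfl⟩ : ∃ ζ, Z = Real.exp ζ := ⟨Real.log Z, (Real.exp_log hZ0).symm⟩
  obtain ⟨v, rfl⟩ : ∃ v, w = Real.exp v := ⟨Real.log w, (Real.exp_log hw).symm⟩
  rw [l11x_U, l11x_epsw, l11x_epsw, l11x_le1]
  refine ⟨?_, fun h => ?_⟩
  · rw [Real.exp_le_exp, max_self]
    have h3 : min 0 (X - L * s / 2) ≤ max v (min 0 (X - L * s / 2)) := le_max_right _ _
    linarith
  · rw [max_self, min_eq_right h, ← Real.exp_mul, ← Real.exp_nat_mul, ← Real.exp_half,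
      ← Real.exp_add, ← Real.exp_add]
    congr 1; push_cast; ring

end Claimed.Agent.R286
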