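import Claimed.Agent.R286.L08.IvSk
import Claimed.Agent.R286.L08.TlLink
import Claimed.Agent.R286.L08.L11CtrP

/-!
# Row 286 (S0533), folder L08, file Dcs : LL LEMMA 8.8 (coarse paths and multiplier changes), COMMON CORE + COARSE HALF      (owner helper228; switch half: helper10, `L08/DcsSw.lean`; prefix `dcs_` / `Dcs`)

TEX[LL:lem:statistics-coarse-switch]      Plan: `git show origin/helper228:notes/R286/DCS_PLAN_228.md`.
## PART A: the abstract core, over two single paths `Pt` (tilted), `Pu` (untilted) joined by the tilt link `TlkLink Pt Pu k0 R` of 189.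
`dcsF Pt Pu k0 β η` = THE FORMULA of 151 (`l9d_psiDot_eq`) for the speed of `ψ`:  `-1/4 ∑ dv_j (B^s_j 1_{j ≥ k0} - B_j) β_j - 1/2 ∑ dv_j (S^s_j - S_j) η_j`.
* `dcs_B_sub`   EXACT: `B^s_j - B_j = T_j - D_j² + 2 S_j (S^s_j - S_j)`,  `T_j` = tilted second moment of the overlap about the UNTILTED mean (expansion of `Q²` around `S_v`, LL 08 l.958);
* `dcs_lin`     the linear term: exact conditional averaging (`S^s_j = 2 E^s L_j`: no alias error) + link + Cauchy-Schwarz + (A1) line 3 (`Pin 1`);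
* `dcs_core`    the bound of the formula;      `dcs_T_le`  transfer of `T_j` (level-set form, `l11_transfer`).
-/

set_option autoImplicit false

namespace Claimed.Agent.R286

open MeasureTheory

variable {Ω : Type} [mΩ : MeasurableSpace Ω] {m : ℕ} {Pt Pu : L8P Ω m} {k0 : ℕ} {R : Ω → ℝ}

/-- tilted second moment of the overlap about the untilted mean -/
noncomputable def dcsT (Pt Pu : L8P Ω m) (j : ℕ) : ℝ := ∫ p, (Pt.Q p - Pu.S j) ^ 2 ∂(Pt.fork j)

/-- **THE FORMULA** for the speed of `ψ`, on two abstract single paths -/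
noncomputable def dcsF (Pt Pu : L8P Ω m) (k0 : ℕ) (β η : ℕ → ℝ) : ℝ :=
  -(1 / 4) * ∑ j ∈ Finset.range (Pu.n + 1), Pu.dv j * ((if j < k0 then 0 else Pt.B j) - Pu.B j) * β j
    - (1 / 2) * ∑ j ∈ Finset.range (Pu.n + 1), Pu.dv j * (Pt.S j - Pu.S j) * η j

theorem dcs_T_nonneg (Pt Pu : L8P Ω m) (j : ℕ) : 0 ≤ dcsT Pt Pu j := integral_nonneg fun _ => sq_nonneg _

/-- second moment about any constant -/
theorem dcs_B_eq {P : L8P Ω m} (hP : P.Ok) (c : ℝ) (j : ℕ) :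
    P.B j = (∫ p, (P.Q p - c) ^ 2 ∂(P.fork j)) + 2 * c * (P.S j - c) + c ^ 2 := by
  have := P.l8s_fork_prob hP j
  obtain ⟨hm, hb⟩ := P.l8s_fork_Q_bd_aux hP
  have i1 : Integrable P.Q (P.fork j) := P.l8s_fork_integrable_aux hP j hm hb
  have i2 : Integrable (fun p => P.Q p ^ 2) (P.fork j) :=
    P.l8s_fork_integrable_aux hP j (hm.pow_const 2) (c := 1) fun p => by
      rw [abs_pow]; exact pow_le_one₀ (abs_nonneg _) (hb p)
  have e : ∀ p, (P.Q p - c) ^ 2 = P.Q p ^ 2 - 2 * c * P.Q p + c ^ 2 := fun p => by ring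
  simp only [e]
  have i3 : Integrable (fun p => 2 * c * P.Q p) (P.fork j) := i1.const_mul _
  have i4 : Integrable (fun p => P.Q p ^ 2 - 2 * c * P.Q p) (P.fork j) := i2.sub i3
  rw [integral_add i4 (integrable_const _), integral_sub i2 i3,
    integral_const_mul, P.l8s_fork_Q hP j, P.l8s_fork_Q_sq hP j]
  simp
  ring

/-- **expansion of `Q²` around the untilted mean** -/
theorem dcs_B_sub (hPt : Pt.Ok) (j : ℕ) :
    Pt.B j - Pu.B j = dcsT Pt Pu j - Pu.D2 j + 2 * Pu.S j * (Pt.S j - Pu.S j) := by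
  rw [dcs_B_eq hPt (Pu.S j) j]
  unfold dcsT L8P.D2
  ring

theorem dcs_B_nonneg {P : L8P Ω m} (hP : P.Ok) (j : ℕ) : 0 ≤ P.B j := by
  rw [← P.l8s_fork_Q_sq hP j]; exact integral_nonneg fun _ => sq_nonneg _

theorem dcs_B_le_one {P : L8P Ω m} (hP : P.Ok) (j : ℕ) : P.B j ≤ 1 := by
  have h1 := ivs_D2_le_one hP j
  rw [← P.l8s_fork_Q_sq hP j]
  have := P.l8s_fork_prob hP j
  obtain ⟨hm, hb⟩ := P.l8s_fork_Q_bd_aux hP
  calc ∫ p, P.Q p ^ 2 ∂(P.fork j) ≤ ∫ _p, (1 : ℝ) ∂(P.fork j) := by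
        refine integral_mono_of_nonneg (ae_of_all _ fun _ => sq_nonneg _) (integrable_const _) (ae_of_all _ fun p => ?_)
        show P.Q p ^ 2 ≤ 1
        rw [← sq_abs]; exact pow_le_one₀ (abs_nonneg _) (hb p)
    _ = 1 := by simp

/-- the density has mean one -/
theorem dcs_R_int (h : TlkLink Pt Pu k0 R) (hPt : Pt.Ok) : ∫ ω, R ω ∂Pu.μ = 1 := by
  have := hPt.prob
  have e := tlk_int h (TlkLk.const (Pt := Pt) (Pu := Pu) (k0 := k0) 1)
  simpa using e.symm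

theorem dcs_R_integrable (h : TlkLink Pt Pu k0 R) (hPt : Pt.Ok) : Integrable R Pu.μ :=
  integrable_of_integral_eq_one (dcs_R_int h hPt)

theorem dcs_R_mul {f : Ω → ℝ} (h : TlkLink Pt Pu k0 R) (hPt : Pt.Ok) (hf : IvBd f) :
    Integrable (fun ω => R ω * f ω) Pu.μ := by
  obtain ⟨hm, C, hC⟩ := hf
  exact (dcs_R_integrable h hPt).mul_bdd (c := C) hm.aestronglyMeasurable
    (ae_of_all _ fun ω => by rw [Real.norm_eq_abs]; exact hC ω)

/-- **exact linear conditional averaging + link** -/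
theorem dcs_S_sub (h : TlkLink Pt Pu k0 R) (hPt : Pt.Ok) (hPu : Pu.Ok) {j : ℕ} (hj : k0 ≤ j) :
    Pt.S j - Pu.S j = 2 * ∫ ω, (R ω - 1) * (Pu.L j ω - ∫ ω', Pu.L j ω' ∂Pu.μ) ∂Pu.μ := by
  have := hPu.prob
  rw [← ivk_two_int_L hPt j, ← ivk_two_int_L hPu j, tlk_int h (tlk_L Pt Pu hj)]
  set ℓ := ∫ ω', Pu.L j ω' ∂Pu.μ with hℓ
  have iR := dcs_R_integrable h hPt
  have iL : Integrable (Pu.L j) Pu.μ := ivk_intμ hPu (ivk_L_bd hPu j)
  have iRL := dcs_R_mul h hPt (ivk_L_bd hPu j)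
  have e : ∀ ω, (R ω - 1) * (Pu.L j ω - ℓ) = R ω * Pu.L j ω - ℓ * R ω - Pu.L j ω + ℓ := fun ω => by ring
  simp only [e]
  have i1 : Integrable (fun ω => ℓ * R ω) Pu.μ := iR.const_mul _
  have i2 : Integrable (fun ω => R ω * Pu.L j ω - ℓ * R ω) Pu.μ := iRL.sub i1
  have i3 : Integrable (fun ω => R ω * Pu.L j ω - ℓ * R ω - Pu.L j ω) Pu.μ := i2.sub iL
  rw [integral_add i3 (integrable_const _), integral_sub i2 iL,
    integral_sub iRL i1, integral_const_mul, dcs_R_int h hPt, ← hℓ]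
  simp
  ring

/-- variance of the density -/
noncomputable def dcsV (Pu : L8P Ω m) (R : Ω → ℝ) : ℝ := ∫ ω, (R ω - 1) ^ 2 ∂Pu.μ

/-- the source sum with weights `w` -/
noncomputable def dcsW (P : L8P Ω m) (w : ℕ → ℝ) : ℝ :=
  ∑ j ∈ Finset.range (P.n + 1), P.dv j * w j ^ 2 * ∫ ω, P.W j ω ∂P.μ

theorem dcs_W_nonneg {P : L8P Ω m} (hP : P.Ok) (w : ℕ → ℝ) : 0 ≤ dcsW P w :=
  Finset.sum_nonneg fun j _ => mul_nonneg (mul_nonneg (ivk_dv_nonneg hP j) (sq_nonneg _)) (ivk_int_W_nonneg hP j)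

/-- **the linear term**: LL 08 l.960-964 -/
theorem dcs_lin (h : TlkLink Pt Pu k0 R) (hPt : Pt.Ok) (hPu : Pu.Ok) {c0 : ℝ} (hpin : Pu.Pin 1 c0)
    (hR2 : Integrable (fun ω => R ω ^ 2) Pu.μ) (w : ℕ → ℝ) (hw : ∀ j < k0, w j = 0) :
    |∑ j ∈ Finset.range (Pu.n + 1), Pu.dv j * (Pt.S j - Pu.S j) * w j|
      ≤ 2 * (√(dcsV Pu R) * √(c0 * dcsW Pu w)) := by
  have := hPu.prob
  have iR := dcs_R_integrable h hPt
  have hA := ivk_A_bd hPu w
  have e1 : ∀ j ∈ Finset.range (Pu.n + 1), Pu.dv j * (Pt.S j - Pu.S j) * w j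
      = 2 * ∫ ω, (R ω - 1) * (Pu.dv j * w j * (Pu.L j ω - ∫ ω', Pu.L j ω' ∂Pu.μ)) ∂Pu.μ := by
    intro j _
    by_cases hj : j < k0
    · rw [hw j hj]; simp
    · rw [dcs_S_sub h hPt hPu (not_lt.1 hj)]
      have : ∀ ω, (R ω - 1) * (Pu.dv j * w j * (Pu.L j ω - ∫ ω', Pu.L j ω' ∂Pu.μ))
          = (Pu.dv j * w j) * ((R ω - 1) * (Pu.L j ω - ∫ ω', Pu.L j ω' ∂Pu.μ)) := fun ω => by ring
      simp only [this]
      rw [integral_const_mul]
      ring
  have iterm : ∀ j ∈ Finset.range (Pu.n + 1),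
      Integrable (fun ω => (R ω - 1) * (Pu.dv j * w j * (Pu.L j ω - ∫ ω', Pu.L j ω' ∂Pu.μ))) Pu.μ := by
    intro j _
    have hb : IvBd (fun ω => Pu.dv j * w j * (Pu.L j ω - ∫ ω', Pu.L j ω' ∂Pu.μ)) :=
      ((ivk_L_bd hPu j).sub (IvBd.const _)).const_mul _
    have i1 := dcs_R_mul h hPt hb
    have i2 := ivk_intμ hPu hb
    have : (fun ω => (R ω - 1) * (Pu.dv j * w j * (Pu.L j ω - ∫ ω', Pu.L j ω' ∂Pu.μ)))
        = fun ω => R ω * (Pu.dv j * w j * (Pu.L j ω - ∫ ω', Pu.L j ω' ∂Pu.μ))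
          - Pu.dv j * w j * (Pu.L j ω - ∫ ω', Pu.L j ω' ∂Pu.μ) := by
      funext ω; ring
    rw [this]; exact i1.sub i2
  rw [Finset.sum_congr rfl e1, ← Finset.mul_sum, ← integral_finsetSum _ iterm]
  have e2 : ∀ ω, ∑ j ∈ Finset.range (Pu.n + 1), (R ω - 1) * (Pu.dv j * w j * (Pu.L j ω - ∫ ω', Pu.L j ω' ∂Pu.μ))
      = (R ω - 1) * ivkA Pu w ω := fun ω => by
    unfold ivkA; rw [Finset.mul_sum]
  simp only [e2]
  rw [abs_mul, abs_of_pos (by norm_num : (0 : ℝ) < 2)]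
  refine mul_le_mul_of_nonneg_left ?_ (by norm_num)
  have iR1 : Integrable (fun ω => (R ω - 1) ^ 2) Pu.μ := by
    have : (fun ω => (R ω - 1) ^ 2) = fun ω => R ω ^ 2 - 2 * R ω + 1 := by funext ω; ring
    rw [this]
    exact (hR2.sub (iR.const_mul 2)).add (integrable_const _)
  have cs := tlk_cs_aux Pu.μ (f := fun ω => R ω - 1) (g := ivkA Pu w) (h.R_meas.sub_const 1) hA.1 iR1
    (ivk_intμ hPu (hA.pow 2))
  refine (abs_integral_le_integral_abs.trans cs).trans ?_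
  exact mul_le_mul_of_nonneg_left (Real.sqrt_le_sqrt (ivk_A_var hPu hpin w)) (Real.sqrt_nonneg _)

/-- **THE CORE of LL Lemma 8.8**: bound of the formula.  `k1 ≥ k0` = the first cut whose mass cell starts at a mass `≥ x` -/
theorem dcs_core (h : TlkLink Pt Pu k0 R) (hPt : Pt.Ok) (hPu : Pu.Ok) {c0 : ℝ} (hpin : Pu.Pin 1 c0)
    (hR2 : Integrable (fun ω => R ω ^ 2) Pu.μ) {k1 : ℕ} (hk : k0 ≤ k1) (β η : ℕ → ℝ) (hη : ∀ j < k1, η j = 0) :
    |dcsF Pt Pu k0 β η|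
      ≤ 1 / 4 * ∑ j ∈ Finset.range (Pu.n + 1), (if j < k1 then Pu.dv j * |β j| else 0)
        + 1 / 4 * ∑ j ∈ Finset.range (Pu.n + 1), (if j < k1 then 0 else Pu.dv j * |β j| * (dcsT Pt Pu j + Pu.D2 j))
        + √(dcsV Pu R) * (√(c0 * dcsW Pu fun j => if j < k1 then 0 else β j * Pu.S j) + √(c0 * dcsW Pu η)) := by
  set wβ : ℕ → ℝ := fun j => if j < k1 then 0 else β j * Pu.S j with hwβ
  have l1 := dcs_lin h hPt hPu hpin hR2 wβ (fun j hj => by simp only [hwβ]; rw [if_pos (lt_of_lt_of_le hj hk)])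
  have l2 := dcs_lin h hPt hPu hpin hR2 η (fun j hj => hη j (lt_of_lt_of_le hj hk))
  -- decomposition of the matrix part
  have dec : ∀ j ∈ Finset.range (Pu.n + 1), Pu.dv j * ((if j < k0 then 0 else Pt.B j) - Pu.B j) * β j
      = (if j < k1 then Pu.dv j * ((if j < k0 then 0 else Pt.B j) - Pu.B j) * β j else 0)
        + (if j < k1 then 0 else Pu.dv j * β j * (dcsT Pt Pu j - Pu.D2 j))
        + 2 * (Pu.dv j * (Pt.S j - Pu.S j) * wβ j) := by
    intro j _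
    by_cases hj : j < k1
    · simp only [hwβ, if_pos hj]; ring
    · have hj0 : ¬ j < k0 := fun h' => hj (lt_of_lt_of_le h' hk)
      simp only [hwβ, if_neg hj, if_neg hj0]
      rw [dcs_B_sub hPt j]; ring
  have b1 : |∑ j ∈ Finset.range (Pu.n + 1),
      (if j < k1 then Pu.dv j * ((if j < k0 then 0 else Pt.B j) - Pu.B j) * β j else 0)|
      ≤ ∑ j ∈ Finset.range (Pu.n + 1), (if j < k1 then Pu.dv j * |β j| else 0) := by
    refine (Finset.abs_sum_le_sum_abs _ _).trans (Finset.sum_le_sum fun j _ => ?_)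
    split_ifs with h1 h2
    · rw [abs_mul, abs_mul, abs_of_nonneg (ivk_dv_nonneg hPu j)]
      have : |(0 : ℝ) - Pu.B j| ≤ 1 := by
        rw [zero_sub, abs_neg, abs_of_nonneg (dcs_B_nonneg hPu j)]; exact dcs_B_le_one hPu j
      calc Pu.dv j * |0 - Pu.B j| * |β j| ≤ Pu.dv j * 1 * |β j| := by
            gcongr
            exact ivk_dv_nonneg hPu j
        _ = _ := by ring
    · rw [abs_mul, abs_mul, abs_of_nonneg (ivk_dv_nonneg hPu j)]
      have : |Pt.B j - Pu.B j| ≤ 1 := by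
        rw [abs_le]
        constructor <;> linarith [dcs_B_nonneg hPu j, dcs_B_le_one hPu j, dcs_B_nonneg hPt j, dcs_B_le_one hPt j]
      calc Pu.dv j * |Pt.B j - Pu.B j| * |β j| ≤ Pu.dv j * 1 * |β j| := by
            gcongr
            exact ivk_dv_nonneg hPu j
        _ = _ := by ring
    · simp
  have b2 : |∑ j ∈ Finset.range (Pu.n + 1), (if j < k1 then 0 else Pu.dv j * β j * (dcsT Pt Pu j - Pu.D2 j))|
      ≤ ∑ j ∈ Finset.range (Pu.n + 1), (if j < k1 then 0 else Pu.dv j * |β j| * (dcsT Pt Pu j + Pu.D2 j)) := by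
    refine (Finset.abs_sum_le_sum_abs _ _).trans (Finset.sum_le_sum fun j _ => ?_)
    split_ifs with h1
    · simp
    · rw [abs_mul, abs_mul, abs_of_nonneg (ivk_dv_nonneg hPu j)]
      have : |dcsT Pt Pu j - Pu.D2 j| ≤ dcsT Pt Pu j + Pu.D2 j := by
        rw [abs_le]
        constructor <;> linarith [dcs_T_nonneg Pt Pu j, ivs_D2_nonneg hPu j]
      exact mul_le_mul_of_nonneg_left this (mul_nonneg (ivk_dv_nonneg hPu j) (abs_nonneg _))
  unfold dcsF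
  rw [Finset.sum_congr rfl dec, Finset.sum_add_distrib, Finset.sum_add_distrib, ← Finset.mul_sum]
  set A1 := ∑ j ∈ Finset.range (Pu.n + 1),
      (if j < k1 then Pu.dv j * ((if j < k0 then 0 else Pt.B j) - Pu.B j) * β j else 0)
  set A2 := ∑ j ∈ Finset.range (Pu.n + 1), (if j < k1 then 0 else Pu.dv j * β j * (dcsT Pt Pu j - Pu.D2 j))
  set A3 := ∑ j ∈ Finset.range (Pu.n + 1), Pu.dv j * (Pt.S j - Pu.S j) * wβ j
  set A4 := ∑ j ∈ Finset.range (Pu.n + 1), Pu.dv j * (Pt.S j - Pu.S j) * η j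
  have t : |-(1 / 4) * (A1 + A2 + 2 * A3) - 1 / 2 * A4| ≤ 1 / 4 * |A1| + 1 / 4 * |A2| + 1 / 2 * |A3| + 1 / 2 * |A4| := by
    have e : -(1 / 4) * (A1 + A2 + 2 * A3) - 1 / 2 * A4
        = (-(1 / 4)) * A1 + (-(1 / 4)) * A2 + (-(1 / 2)) * A3 + (-(1 / 2)) * A4 := by ring
    rw [e]
    refine (abs_add_le _ _).trans (add_le_add ((abs_add_le _ _).trans (add_le_add ((abs_add_le _ _).trans
      (add_le_add ?_ ?_)) ?_)) ?_) <;> rw [abs_mul, abs_neg] <;> norm_num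
  refine t.trans ?_
  rw [mul_add]
  linarith

/-- **transfer of the quadratic term** to the tilted law (level-set form) -/
theorem dcs_T_le (h : TlkLink Pt Pu k0 R) (hPu : Pu.Ok) {j : ℕ} (hj : k0 ≤ j) {k : ℕ} (hk : 1 ≤ k) {Λ : ℝ} (hΛ : 0 < Λ)
    (hRk : Integrable (fun ω => R ω ^ k) Pu.μ) :
    dcsT Pt Pu j ≤ Λ * Pu.D2 j + 4 * (∫ ω, R ω ^ k ∂Pu.μ) / Λ ^ (k - 1) := by
  have := Pu.l8s_fork_prob hPu j
  obtain ⟨hm, hb⟩ := Pu.l8s_fork_Q_bd_aux hPu
  have hS0 := ivk_S_nonneg (P := Pu) j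
  have hS1 := ivk_S_le_one hPu j
  unfold dcsT
  rw [tlk_int2 h hj (((tlk_Q Pt Pu k0).sub_const (Pu.S j)).pow 2), ← Pu.l8s_fork_var_Q hPu j]
  have hfst : ∀ f : Ω → ℝ, Measurable f → ∫ p, f p.1 ∂(Pu.fork j) = ∫ ω, f ω ∂Pu.μ := fun f hf => by
    rw [← Pu.l8s_fork_fst hPu j, integral_map measurable_fst.aemeasurable hf.aestronglyMeasurable]
  have hint : Integrable (fun p : Ω × Ω => R p.1 ^ k) (Pu.fork j) := by
    have h1 : Integrable (fun ω => R ω ^ k) ((Pu.fork j).map Prod.fst) := by rw [Pu.l8s_fork_fst hPu j]; exact hRk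
    exact h1.comp_measurable measurable_fst
  have key := l11_transfer (Ω × Ω) (Pu.fork j) (fun p => R p.1) (fun p => (Pu.Q p - Pu.S j) ^ 2) k Λ 4 hk hΛ
    (h.R_meas.comp measurable_fst) ((hm.sub_const _).pow_const 2) (fun p => h.R_nonneg p.1) (fun _ => sq_nonneg _)
    (fun p => by
      have := abs_le.1 (hb p)
      nlinarith [this.1, this.2]) hint
  rw [hfst (fun ω => R ω ^ k) (h.R_meas.pow_const k)] at key
  exact key

end Claimed.Agent.R286
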