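import Claimed.Agent.R286.W.Defs
import Claimed.Agent.R286.L08.Dcs

/-!
# Row 286 (S0533), folder L08, file DcsTile : LL LEMMA 8.8, SWITCH HALF, the ABSTRACT TILE BOUND      (owner helper10; prefix `l8st_`)

TEX[LL:lem:statistics-coarse-switch]   (08 l.985-1000): `E ∫ H² W dv ≲_⋄ χ_e⁻¹ x⁶ λ_1⁻¹ Z² {x⁶ | λ_1² U⁴}`.
Pure real analysis + one abstract single path `P : L8P`.   Cell of the cut `k` = `[zc k, zc (k+1)]` in the coordinate `z` of Lemma 8.2 (`dv_k = ∫_cell G`).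
* `l8st_cell`       `∫_a^b G ≤ (b - a) ∑_i 1{(a,b) meets the tile i} g_i`  if `G ≤ g_i` inside the tile `i`;
* `l8st_tile_sum`   LEMMA T: `∑_k dv_k ω_k e_k ≤ A ∑_i g_i Ω_i V_i`  if  `Δz_k e_k ≤ A ΔS_k` (source = susceptibility (A1) line 2 + slope (D3));
* `l8st_bud_cover`  `∫_{zlo}^{zmax} G 𝔥² ≤ J C L U⁴ / r(zlo)` (dyadic cover by the budget of Lemma 8.2);
* `l8st_concl_sum`  LEMMA T on the tiles (D5) of `SkwConcl`, weights `ω_k ≤ M0 + M1 𝔥(z_k)²`;
* `l8st_src`        the source inequality of a single path;      `l8st_main`  the bound of `dcsW P w`.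
-/

set_option autoImplicit false

namespace Claimed.Agent.R286

open MeasureTheory Set

/-! ## 1. Tiles and cells -/

/-- the boundaries of the tiles are increasing -/
theorem l8st_t_mono {n : ℕ} {t : ℕ → ℝ} (ht : ∀ i < n, t i < t (i + 1)) {i j : ℕ} (hij : i ≤ j) (hj : j ≤ n) : t i ≤ t j := by
  induction j, hij using Nat.le_induction with
  | base => exact le_rfl
  | succ k _ ih => exact (ih (by omega)).trans (ht k (by omega)).le

/-- a point of `(t 0, t n)` which is not a boundary lies inside a tile -/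
theorem l8st_find {n : ℕ} {t : ℕ → ℝ} {z : ℝ} (h0 : t 0 < z) (hn : z < t n) (hne : ∀ i ≤ n, z ≠ t i) :
    ∃ i < n, z ∈ Ioo (t i) (t (i + 1)) := by
  classical
  have hex : ∃ j, z < t j := ⟨n, hn⟩
  have hs := Nat.find_spec hex
  have hle : Nat.find hex ≤ n := Nat.find_min' hex hn
  have hpos : Nat.find hex ≠ 0 := fun h => by rw [h] at hs; exact absurd hs (not_lt.2 h0.le)
  obtain ⟨i, hi⟩ := Nat.exists_eq_succ_of_ne_zero hpos
  have hmin : ¬ z < t i := Nat.find_min hex (by omega)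
  refine ⟨i, by omega, lt_of_le_of_ne (not_lt.1 hmin) (fun h => hne i (by omega) h.symm), ?_⟩
  rw [hi] at hs
  exact hs

/-- the integral of `G` over a cell against the sup of `G` on the tiles that the cell meets -/
theorem l8st_cell {n : ℕ} {t : ℕ → ℝ} {G : ℝ → ℝ} {g : ℕ → ℝ}
    (hG : ∀ i < n, ∀ z ∈ Ioo (t i) (t (i + 1)), G z ≤ g i) (hg : ∀ i < n, 0 ≤ g i)
    {a b : ℝ} (hab : a ≤ b) (ha : t 0 ≤ a) (hb : b ≤ t n) (hGi : IntervalIntegrable G volume a b) :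
    ∫ z in a..b, G z ≤ (b - a) * ∑ i ∈ Finset.range n, if a < t (i + 1) ∧ t i < b then g i else 0 := by
  classical
  obtain ⟨c, hc⟩ : ∃ c, c = ∑ i ∈ Finset.range n, if a < t (i + 1) ∧ t i < b then g i else 0 := ⟨_, rfl⟩
  rw [← hc]
  have hae : ∀ᵐ z ∂(volume.restrict (Icc a b)), G z ≤ c := by
    have hfin : (({a, b} : Set ℝ) ∪ (t '' (Set.Iic n))).Countable :=
      ((Set.toFinite _).union ((Set.finite_Iic n).image t)).countable
    rw [ae_restrict_iff' measurableSet_Icc]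
    filter_upwards [hfin.ae_notMem volume] with z hz hzI
    have hza : z ≠ a := fun h => hz (Or.inl (by simp [h]))
    have hzb : z ≠ b := fun h => hz (Or.inl (by simp [h]))
    have haz : a < z := lt_of_le_of_ne hzI.1 (Ne.symm hza)
    have hzb' : z < b := lt_of_le_of_ne hzI.2 hzb
    obtain ⟨i, hi, hzi⟩ := l8st_find (n := n) (t := t) (lt_of_le_of_lt ha haz) (lt_of_lt_of_le hzb' hb)
      (fun i hi h => hz (Or.inr ⟨i, hi, h.symm⟩))
    refine (hG i hi z hzi).trans ?_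
    rw [hc]
    have h1 : g i = if a < t (i + 1) ∧ t i < b then g i else 0 := by
      rw [if_pos ⟨haz.trans hzi.2, hzi.1.trans hzb'⟩]
    rw [h1]
    refine Finset.single_le_sum (f := fun i => if a < t (i + 1) ∧ t i < b then g i else 0) (fun j hj => ?_) (Finset.mem_range.2 hi)
    show 0 ≤ if a < t (j + 1) ∧ t j < b then g j else 0
    split_ifs
    · exact hg j (Finset.mem_range.1 hj)
    · exact le_rfl
  calc ∫ z in a..b, G z ≤ ∫ _ in a..b, c := intervalIntegral.integral_mono_ae_restrict hab hGi intervalIntegrable_const hae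
    _ = (b - a) * c := by rw [intervalIntegral.integral_const, smul_eq_mul]

/-- telescoping over a finite set of cells -/
theorem l8st_tel {S : ℕ → ℝ} (hS : Monotone S) (T : Finset ℕ) (hT : T.Nonempty) :
    ∑ k ∈ T, (S (k + 1) - S k) ≤ S (T.max' hT + 1) - S (T.min' hT) := by
  have hsub : T ⊆ Finset.Icc (T.min' hT) (T.max' hT) := fun k hk => Finset.mem_Icc.2 ⟨T.min'_le k hk, T.le_max' k hk⟩
  calc ∑ k ∈ T, (S (k + 1) - S k) ≤ ∑ k ∈ Finset.Icc (T.min' hT) (T.max' hT), (S (k + 1) - S k) :=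
        Finset.sum_le_sum_of_subset_of_nonneg hsub fun k _ _ => sub_nonneg.2 (hS (Nat.le_succ k))
    _ = _ := Finset.sum_Icc_sub (T.min'_le _ (T.max'_mem hT)) S

/-- **LEMMA T** -/
theorem l8st_tile_sum {n : ℕ} {t : ℕ → ℝ} {G : ℝ → ℝ} {g Om V : ℕ → ℝ}
    (hG : ∀ i < n, ∀ z ∈ Ioo (t i) (t (i + 1)), G z ≤ g i) (hGi : IntervalIntegrable G volume (t 0) (t n))
    (hg : ∀ i < n, 0 ≤ g i) (hOm : ∀ i < n, 0 ≤ Om i) (hV : ∀ i < n, 0 ≤ V i)
    {zc S om e : ℕ → ℝ} {A : ℝ} (hA : 0 ≤ A) (hS : Monotone S) (hzc : Monotone zc)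
    (K : Finset ℕ) (hK : ∀ k ∈ K, t 0 ≤ zc k ∧ zc (k + 1) ≤ t n)
    (he : ∀ k ∈ K, 0 ≤ e k) (hom : ∀ k ∈ K, 0 ≤ om k)
    (hsrc : ∀ k ∈ K, (zc (k + 1) - zc k) * e k ≤ A * (S (k + 1) - S k))
    (hOm' : ∀ k ∈ K, ∀ i < n, zc k < t (i + 1) → t i < zc (k + 1) → om k ≤ Om i)
    (hV' : ∀ i < n, ∀ k ∈ K, ∀ k' ∈ K, k ≤ k' → t i < zc (k + 1) → zc k' < t (i + 1) → S (k' + 1) - S k ≤ V i) :
    ∑ k ∈ K, (∫ z in (zc k)..(zc (k + 1)), G z) * om k * e k ≤ A * ∑ i ∈ Finset.range n, g i * Om i * V i := by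
  classical
  have h1 : ∀ k ∈ K, (∫ z in (zc k)..(zc (k + 1)), G z) * om k * e k
      ≤ ∑ i ∈ Finset.range n, if zc k < t (i + 1) ∧ t i < zc (k + 1) then A * (g i * Om i) * (S (k + 1) - S k) else 0 := by
    intro k hk
    have hab : zc k ≤ zc (k + 1) := hzc (Nat.le_succ k)
    have hGk : IntervalIntegrable G volume (zc k) (zc (k + 1)) := hGi.mono_set (by
      rw [uIcc_of_le hab, uIcc_of_le ((hK k hk).1.trans (hab.trans (hK k hk).2))]
      exact Icc_subset_Icc (hK k hk).1 (hK k hk).2)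
    have hc := l8st_cell hG hg hab (hK k hk).1 (hK k hk).2 hGk
    have hoe : 0 ≤ om k * e k := mul_nonneg (hom k hk) (he k hk)
    calc (∫ z in (zc k)..(zc (k + 1)), G z) * om k * e k = (∫ z in (zc k)..(zc (k + 1)), G z) * (om k * e k) := by ring
      _ ≤ ((zc (k + 1) - zc k) * ∑ i ∈ Finset.range n, if zc k < t (i + 1) ∧ t i < zc (k + 1) then g i else 0) * (om k * e k) :=
          mul_le_mul_of_nonneg_right hc hoe
      _ = ∑ i ∈ Finset.range n, if zc k < t (i + 1) ∧ t i < zc (k + 1) then g i * om k * ((zc (k + 1) - zc k) * e k) else 0 := by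
          rw [mul_comm (zc (k + 1) - zc k), mul_assoc, Finset.sum_mul]
          refine Finset.sum_congr rfl fun i _ => ?_
          split_ifs <;> ring
      _ ≤ _ := Finset.sum_le_sum fun i hi => by
          split_ifs with h
          · have hi' := Finset.mem_range.1 hi
            have a1 := hOm' k hk i hi' h.1 h.2
            have a2 := hsrc k hk
            have a3 : g i * om k * ((zc (k + 1) - zc k) * e k) ≤ g i * Om i * (A * (S (k + 1) - S k)) :=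
              mul_le_mul (mul_le_mul_of_nonneg_left a1 (hg i hi')) a2 (mul_nonneg (sub_nonneg.2 hab) (he k hk))
                (mul_nonneg (hg i hi') (hOm i hi'))
            calc _ ≤ _ := a3
              _ = _ := by ring
          · exact le_rfl
  calc ∑ k ∈ K, (∫ z in (zc k)..(zc (k + 1)), G z) * om k * e k
      ≤ ∑ k ∈ K, ∑ i ∈ Finset.range n, if zc k < t (i + 1) ∧ t i < zc (k + 1) then A * (g i * Om i) * (S (k + 1) - S k) else 0 :=
        Finset.sum_le_sum h1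
    _ = ∑ i ∈ Finset.range n, ∑ k ∈ K, if zc k < t (i + 1) ∧ t i < zc (k + 1) then A * (g i * Om i) * (S (k + 1) - S k) else 0 :=
        Finset.sum_comm
    _ ≤ ∑ i ∈ Finset.range n, A * (g i * Om i * V i) := Finset.sum_le_sum fun i hi => by
        have hi' := Finset.mem_range.1 hi
        rw [← Finset.sum_filter, ← Finset.mul_sum]
        have hc0 : 0 ≤ A * (g i * Om i) := mul_nonneg hA (mul_nonneg (hg i hi') (hOm i hi'))
        have key : ∑ k ∈ K.filter (fun k => zc k < t (i + 1) ∧ t i < zc (k + 1)), (S (k + 1) - S k) ≤ V i := by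
          rcases (K.filter (fun k => zc k < t (i + 1) ∧ t i < zc (k + 1))).eq_empty_or_nonempty with h0 | hne
          · rw [h0, Finset.sum_empty]
            exact hV i hi'
          · refine (l8st_tel hS _ hne).trans ?_
            have m1 := Finset.mem_filter.1 (Finset.min'_mem _ hne)
            have m2 := Finset.mem_filter.1 (Finset.max'_mem _ hne)
            exact hV' i hi' _ m1.1 _ m2.1 (Finset.min'_le _ _ (Finset.max'_mem _ hne)) m1.2.2 m2.2.1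
        calc _ ≤ A * (g i * Om i) * V i := mul_le_mul_of_nonneg_left key hc0
          _ = _ := by ring
    _ = A * ∑ i ∈ Finset.range n, g i * Om i * V i := by rw [Finset.mul_sum]

/-! ## 2. The tiles of Lemma 8.2 -/

/-- integrability of `G 𝔥²` -/
theorem l8st_int {c : SkwC} {d : SkwD} {C zj : ℝ} {hh : ℝ → ℝ} (H : SkwHyp c d) (W : SkwConcl C d d.zmax d.zmax zj hh)
    {a b : ℝ} (ha : d.zlo / 2 ≤ a) (hab : a ≤ b) (hb : b ≤ d.zmax) :
    IntervalIntegrable (fun z => d.G z * hh z ^ 2) volume a b := by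
  have hz0 := H.zlo0
  have hb0 := H.b0
  have hsub : Icc a b ⊆ Icc (d.zlo / 2) d.zmax := Icc_subset_Icc ha hb
  have hbd : ∀ z ∈ Icc (d.zlo / 2) d.zmax, |hh z| ≤ |C| + d.b / |C| := by
    intro z hz
    have hz' : 0 < z := by linarith [hz.1]
    have hr0 : 0 ≤ skwR z := le_min hz'.le zero_le_one
    have hr1 : skwR z ≤ 1 := min_le_right _ _
    have hup := W.upper z hz
    have hlo := W.lower z hz
    have hm0 : 0 ≤ min (d.b * skwR z) (d.U ^ 2 / skwR z) := le_min (by positivity) (by positivity)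
    have hm1 : min (d.b * skwR z) (d.U ^ 2 / skwR z) ≤ d.b := (min_le_left _ _).trans (by nlinarith)
    have h1 : hh z ≤ |C| := hup.trans ((mul_le_mul_of_nonneg_right (le_abs_self C) hr0).trans (by nlinarith [abs_nonneg C]))
    have h2 : -(d.b / |C|) ≤ hh z := by
      refine le_trans ?_ hlo
      have : |min (d.b * skwR z) (d.U ^ 2 / skwR z) / C| ≤ d.b / |C| := by
        rw [abs_div, abs_of_nonneg hm0]
        exact div_le_div_of_nonneg_right hm1 (abs_nonneg C)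
      linarith [neg_abs_le (min (d.b * skwR z) (d.U ^ 2 / skwR z) / C)]
    have h3 : 0 ≤ d.b / |C| := by positivity
    rw [abs_le]
    exact ⟨by linarith [abs_nonneg C], by linarith⟩
  rw [intervalIntegrable_iff_integrableOn_Icc_of_le hab]
  have hGi : IntegrableOn d.G (Icc a b) volume := by
    have := (intervalIntegrable_iff_integrableOn_Icc_of_le (by linarith : (0 : ℝ) ≤ d.zmax)).1 H.Gi
    exact this.mono_set (Icc_subset_Icc (by linarith) hb)
  have hm : AEStronglyMeasurable (fun z => hh z ^ 2) (volume.restrict (Icc a b)) := (W.meas.mono_set hsub).pow 2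
  refine Integrable.mul_bdd (c := (|C| + d.b / |C|) ^ 2) hGi hm ?_
  rw [ae_restrict_iff' measurableSet_Icc]
  refine Filter.Eventually.of_forall fun z hz => ?_
  rw [Real.norm_eq_abs, abs_pow]
  exact pow_le_pow_left₀ (abs_nonneg _) (hbd z (hsub hz)) 2

/-- dyadic cover by the budget -/
theorem l8st_bud_cover {c : SkwC} {d : SkwD} {C zj : ℝ} {hh : ℝ → ℝ} (H : SkwHyp c d) (hC : 1 ≤ C)
    (W : SkwConcl C d d.zmax d.zmax zj hh) (J : ℕ) (hJ : d.zmax ≤ 2 ^ J * d.zlo) :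
    ∫ z in d.zlo..d.zmax, d.G z * hh z ^ 2 ≤ J * (C * skwL d * d.U ^ 4 / skwR d.zlo) := by
  have hz0 := H.zlo0
  have hzm : d.zlo ≤ d.zmax := by linarith [H.zlo1, H.zmax]
  have hL : 1 ≤ skwL d := by
    unfold skwL
    have ht1 : d.tiny ≤ 1 := H.t1.trans (pow_le_one₀ H.x0.le (H.xU.trans H.U1))
    have : 0 ≤ Real.log (1 / d.tiny) := Real.log_nonneg ((one_le_div H.t0).2 ht1)
    linarith
  obtain ⟨ρ, hρ⟩ : ∃ ρ : ℕ → ℝ, ρ = fun j => min (2 ^ j * d.zlo) d.zmax := ⟨_, rfl⟩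
  have hρ0 : ρ 0 = d.zlo := by rw [hρ]; simp [hzm]
  have hρJ : ρ J = d.zmax := by rw [hρ]; exact min_eq_right hJ
  have hρlo : ∀ j, d.zlo ≤ ρ j := fun j => by
    rw [hρ]
    refine le_min ?_ hzm
    have : (1 : ℝ) ≤ 2 ^ j := one_le_pow₀ (by norm_num)
    nlinarith
  have hρhi : ∀ j, ρ j ≤ d.zmax := fun j => by rw [hρ]; exact min_le_right _ _
  have hρs : ∀ j, ρ (j + 1) = min (2 * ρ j) d.zmax := fun j => by
    rw [hρ]
    show min (2 ^ (j + 1) * d.zlo) d.zmax = min (2 * min (2 ^ j * d.zlo) d.zmax) d.zmax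
    have e : (2 : ℝ) ^ (j + 1) * d.zlo = 2 * (2 ^ j * d.zlo) := by rw [pow_succ]; ring
    rw [e]
    rcases le_total (2 ^ j * d.zlo) d.zmax with h | h
    · rw [min_eq_left h]
    · rw [min_eq_right h, min_eq_right (by linarith), min_eq_right (by linarith)]
  have hρm : ∀ j, ρ j ≤ ρ (j + 1) := fun j => by
    rw [hρs]
    exact le_min (by linarith [hρlo j]) (hρhi j)
  have hint : ∀ k < J, IntervalIntegrable (fun z => d.G z * hh z ^ 2) volume (ρ k) (ρ (k + 1)) := fun k _ =>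
    l8st_int H W (by linarith [hρlo k]) (hρm k) (hρhi _)
  rw [← hρ0, ← hρJ, ← intervalIntegral.sum_integral_adjacent_intervals hint, hρ0]
  have hr0 : 0 < skwR d.zlo := lt_min hz0 one_pos
  have hnum : 0 ≤ C * skwL d * d.U ^ 4 := by positivity
  calc ∑ k ∈ Finset.range J, ∫ z in (ρ k)..(ρ (k + 1)), d.G z * hh z ^ 2
      ≤ ∑ _k ∈ Finset.range J, C * skwL d * d.U ^ 4 / skwR d.zlo := Finset.sum_le_sum fun k _ => by
        rw [hρs]
        refine (W.budget (ρ k) ⟨hρlo k, hρhi k⟩).trans ?_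
        exact div_le_div_of_nonneg_left hnum hr0 (min_le_min_right _ (hρlo k))
    _ = J * (C * skwL d * d.U ^ 4 / skwR d.zlo) := by rw [Finset.sum_const, Finset.card_range, nsmul_eq_mul]

/-- LEMMA T on the tiles (D5), weights `ω_k ≤ M0 + M1 𝔥(z_k)²`; `K` = nondegenerate cells above `zlo` -/
theorem l8st_concl_sum {c : SkwC} {d : SkwD} {C zj : ℝ} {hh : ℝ → ℝ} (H : SkwHyp c d) (hC : 1 ≤ C)
    (W : SkwConcl C d d.zmax d.zmax zj hh)
    {zc S om e : ℕ → ℝ} {A M0 M1 mu : ℝ} (hA : 0 ≤ A) (hM0 : 0 ≤ M0) (hM1 : 0 ≤ M1) (hS : Monotone S) (hzc : Monotone zc)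
    (K : Finset ℕ) (hK : ∀ k ∈ K, d.zlo ≤ zc k ∧ zc (k + 1) ≤ d.zmax)
    (hmesh : ∀ k ∈ K, zc (k + 1) - zc k ≤ mu) (hmu : mu ≤ min (d.b * skwR d.zlo) (d.U ^ 2) / C ^ 2)
    (he : ∀ k ∈ K, 0 ≤ e k) (hom0 : ∀ k ∈ K, 0 ≤ om k) (hom : ∀ k ∈ K, om k ≤ M0 + M1 * hh (zc k) ^ 2)
    (hsrc : ∀ k ∈ K, (zc (k + 1) - zc k) * e k ≤ A * (S (k + 1) - S k))
    (hSlo : ∀ k ∈ K, d.S (zc k) ≤ S k) (hShi : ∀ k ∈ K, S (k + 1) ≤ d.S (zc (k + 1))) :
    ∑ k ∈ K, (∫ z in (zc k)..(zc (k + 1)), d.G z) * om k * e k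
      ≤ A * ((C / d.b) ^ 2 * d.Z ^ 2 * (M0 * ((∫ z in d.zlo..d.zmax, d.G z) + d.tiny * (d.zmax - d.zlo))
          + M1 * (C * (C + 1)) ^ 2 * (C ^ 2 * (∫ z in d.zlo..d.zmax, d.G z * hh z ^ 2) + d.tiny * C ^ 4 * (d.zmax - d.zlo)))) := by
  obtain ⟨n, t, t0, tn, tinc, -, T⟩ := W.tiles
  have hC0 : 0 < C := by linarith
  have hb0 := H.b0
  have hz0 := H.zlo0
  have ht0 := H.t0
  have hΔ0 : ∀ i < n, 0 < t (i + 1) - t i := fun i hi => sub_pos.2 (tinc i hi)
  have tmem : ∀ i ≤ n, t i ∈ Icc d.zlo d.zmax := fun i hi =>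
    ⟨t0 ▸ l8st_t_mono tinc (Nat.zero_le i) hi, tn ▸ l8st_t_mono tinc hi le_rfl⟩
  have buf : ∀ z, d.zlo ≤ z → z ≤ d.zmax → z ∈ Icc (d.zlo / 2) d.zmax := fun z h1 h2 => ⟨by linarith, h2⟩
  have hr0 : ∀ z, d.zlo ≤ z → 0 < skwR z := fun z hz => lt_min (by linarith) one_pos
  -- the mesh is below every tile
  have hmuΔ : ∀ i < n, mu ≤ t (i + 1) - t i := by
    intro i hi
    have hz := tmem i hi.le
    have h1 := ((T i hi).1 (t i) ⟨le_rfl, (tinc i hi).le⟩).1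
    have h2 := W.lower (t i) (buf _ hz.1 hz.2)
    have h3 : min (d.b * skwR d.zlo) (d.U ^ 2) ≤ min (d.b * skwR (t i)) (d.U ^ 2 / skwR (t i)) := by
      refine min_le_min (mul_le_mul_of_nonneg_left (min_le_min hz.1 le_rfl) hb0.le) ?_
      rw [le_div_iff₀ (hr0 _ hz.1)]
      have : skwR (t i) ≤ 1 := min_le_right _ _
      nlinarith [sq_nonneg d.U]
    calc mu ≤ min (d.b * skwR d.zlo) (d.U ^ 2) / C ^ 2 := hmu
      _ ≤ min (d.b * skwR (t i)) (d.U ^ 2 / skwR (t i)) / C ^ 2 := by gcongr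
      _ = min (d.b * skwR (t i)) (d.U ^ 2 / skwR (t i)) / C / C := by rw [div_div, ← sq]
      _ ≤ hh (t i) / C := by gcongr
      _ ≤ _ := h1
  have sub : ∀ a b : ℝ, d.zlo ≤ a → a ≤ b → b ≤ d.zmax → uIcc a b ⊆ uIcc 0 d.zmax := fun a b h1 h2 h3 => by
    rw [uIcc_of_le h2, uIcc_of_le (by linarith)]
    exact Icc_subset_Icc (by linarith) h3
  have hGi : ∀ a b : ℝ, d.zlo ≤ a → a ≤ b → b ≤ d.zmax → IntervalIntegrable d.G volume a b := fun a b h1 h2 h3 =>
    H.Gi.mono_set (sub a b h1 h2 h3)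
  have hGt : ∀ i < n, IntervalIntegrable d.G volume (t i) (t (i + 1)) := fun i hi =>
    hGi _ _ (tmem i hi.le).1 (tinc i hi).le (tmem (i + 1) hi).2
  have hHt : ∀ i < n, IntervalIntegrable (fun z => d.G z * hh z ^ 2) volume (t i) (t (i + 1)) := fun i hi =>
    l8st_int H W (by linarith [(tmem i hi.le).1]) (tinc i hi).le (tmem (i + 1) hi).2
  have hG0 : ∀ i < n, ∀ z ∈ Icc (t i) (t (i + 1)), 0 ≤ d.G z := fun i hi z hz =>
    H.G0 z ⟨by linarith [(tmem i hi.le).1, hz.1], hz.2.trans (tmem (i + 1) hi).2⟩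
  have hm0 : ∀ i < n, 0 ≤ ∫ s in (t i)..(t (i + 1)), d.G s := fun i hi =>
    intervalIntegral.integral_nonneg (tinc i hi).le (hG0 i hi)
  have key := l8st_tile_sum (n := n) (t := t) (G := d.G)
    (g := fun i => C / d.b * ((∫ s in (t i)..(t (i + 1)), d.G s) / (t (i + 1) - t i) + d.tiny))
    (Om := fun i => M0 + M1 * (C * (C + 1)) ^ 2 * (t (i + 1) - t i) ^ 2)
    (V := fun i => C / d.b * (d.Z ^ 2 * (t (i + 1) - t i)))
    (fun i hi => (T i hi).2.1) (by rw [t0, tn]; exact hGi _ _ le_rfl ((tmem 0 (Nat.zero_le n)).2.trans' (by rw [t0])) le_rfl)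
    (fun i hi => by have := hm0 i hi; have := hΔ0 i hi; positivity)
    (fun i hi => by positivity) (fun i hi => by have := hΔ0 i hi; positivity)
    hA hS hzc K (fun k hk => by rw [t0, tn]; exact hK k hk) he hom0 hsrc ?_ ?_
  rotate_left
  · -- the weights
    intro k hk i hi h1 h2
    refine (hom k hk).trans (add_le_add le_rfl ?_)
    rw [mul_assoc, ← mul_pow]
    refine mul_le_mul_of_nonneg_left ?_ hM1
    have hzk : zc k ∈ Icc (d.zlo / 2) d.zmax := buf _ (hK k hk).1 ((hzc (Nat.le_succ k)).trans (hK k hk).2)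
    have hh0 : 0 ≤ hh (zc k) := by
      refine le_trans ?_ (W.lower _ hzk)
      have := hr0 _ (hK k hk).1
      have : 0 ≤ min (d.b * skwR (zc k)) (d.U ^ 2 / skwR (zc k)) := le_min (by positivity) (by positivity)
      positivity
    refine pow_le_pow_left₀ hh0 ?_ 2
    have hΔ := hΔ0 i hi
    rcases le_or_gt (t i) (zc k) with h3 | h3
    · have := ((T i hi).1 (zc k) ⟨h3, h1.le⟩).1
      rw [div_le_iff₀ hC0] at this
      nlinarith
    · have hti := tmem i hi.le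
      have q1 := W.qlip (t i) (buf _ hti.1 hti.2) (zc k) hzk
      have q2 := ((T i hi).1 (t i) ⟨le_rfl, (tinc i hi).le⟩).1
      rw [div_le_iff₀ hC0] at q2
      have q3 : |t i - zc k| ≤ t (i + 1) - t i := by
        rw [abs_of_pos (by linarith)]
        have := hmesh k hk
        have := hmuΔ i hi
        linarith
      calc hh (zc k) ≤ C * (hh (t i) + |t i - zc k|) := q1
        _ ≤ C * ((t (i + 1) - t i) * C + (t (i + 1) - t i)) := by gcongr
        _ = _ := by ring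
  · -- the variations
    intro i hi k hk k' hk' hkk h1 h2
    have a1 := hSlo k hk
    have a2 := hShi k' hk'
    have hm1 := hmesh k hk
    have hm2 := hmesh k' hk'
    have hmu' := hmuΔ i hi
    have hz1 : zc k ∈ Icc (d.zlo / 2) d.zmax := buf _ (hK k hk).1 ((hzc (Nat.le_succ k)).trans (hK k hk).2)
    have hz2 : zc (k' + 1) ∈ Icc (d.zlo / 2) d.zmax := buf _ ((hK k' hk').1.trans (hzc (Nat.le_succ k'))) (hK k' hk').2
    have a3 := (T i hi).2.2 (zc k) hz1 (zc (k' + 1)) hz2 (hzc (by omega)) (by linarith) (by linarith)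
    have a4 : C / d.b * min (skwR (t i)) (d.Z ^ 2 * (t (i + 1) - t i)) ≤ C / d.b * (d.Z ^ 2 * (t (i + 1) - t i)) :=
      mul_le_mul_of_nonneg_left (min_le_right _ _) (by positivity)
    linarith
  refine key.trans (mul_le_mul_of_nonneg_left ?_ hA)
  -- the sum over the tiles
  have s1 : ∑ i ∈ Finset.range n, ∫ s in (t i)..(t (i + 1)), d.G s = ∫ z in d.zlo..d.zmax, d.G z := by
    rw [intervalIntegral.sum_integral_adjacent_intervals hGt, t0, tn]
  have s2 : ∑ i ∈ Finset.range n, ∫ s in (t i)..(t (i + 1)), d.G s * hh s ^ 2 = ∫ z in d.zlo..d.zmax, d.G z * hh z ^ 2 := by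
    rw [intervalIntegral.sum_integral_adjacent_intervals hHt, t0, tn]
  have s3 : ∑ i ∈ Finset.range n, (t (i + 1) - t i) = d.zmax - d.zlo := by
    rw [Finset.sum_range_sub, t0, tn]
  have term : ∀ i ∈ Finset.range n,
      C / d.b * ((∫ s in (t i)..(t (i + 1)), d.G s) / (t (i + 1) - t i) + d.tiny) * (M0 + M1 * (C * (C + 1)) ^ 2 * (t (i + 1) - t i) ^ 2)
          * (C / d.b * (d.Z ^ 2 * (t (i + 1) - t i)))
        ≤ (C / d.b) ^ 2 * d.Z ^ 2 * (M0 * ((∫ s in (t i)..(t (i + 1)), d.G s) + d.tiny * (t (i + 1) - t i))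
          + M1 * (C * (C + 1)) ^ 2 * (C ^ 2 * (∫ s in (t i)..(t (i + 1)), d.G s * hh s ^ 2) + d.tiny * C ^ 4 * (t (i + 1) - t i))) := by
    intro i hi'
    have hi := Finset.mem_range.1 hi'
    have hΔ := hΔ0 i hi
    have b1 : (∫ s in (t i)..(t (i + 1)), d.G s) * (t (i + 1) - t i) ^ 2 ≤ C ^ 2 * ∫ s in (t i)..(t (i + 1)), d.G s * hh s ^ 2 := by
      rw [← intervalIntegral.integral_mul_const, ← intervalIntegral.integral_const_mul]
      refine intervalIntegral.integral_mono_on (tinc i hi).le ((hGt i hi).mul_const _) ((hHt i hi).const_mul _) fun x hx => ?_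
      have q := ((T i hi).1 x hx).2
      have : (t (i + 1) - t i) ^ 2 ≤ (C * hh x) ^ 2 := pow_le_pow_left₀ hΔ.le q 2
      have g0 := hG0 i hi x hx
      calc d.G x * (t (i + 1) - t i) ^ 2 ≤ d.G x * (C * hh x) ^ 2 := mul_le_mul_of_nonneg_left this g0
        _ = _ := by ring
    have b2 : (t (i + 1) - t i) ^ 2 ≤ C ^ 4 := by
      have hti := tmem i hi.le
      have q := ((T i hi).1 (t i) ⟨le_rfl, (tinc i hi).le⟩).2
      have q' := W.upper (t i) (buf _ hti.1 hti.2)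
      have q'' : skwR (t i) ≤ 1 := min_le_right _ _
      have : t (i + 1) - t i ≤ C ^ 2 := by nlinarith
      calc (t (i + 1) - t i) ^ 2 ≤ (C ^ 2) ^ 2 := pow_le_pow_left₀ hΔ.le this 2
        _ = C ^ 4 := by ring
    have e : C / d.b * ((∫ s in (t i)..(t (i + 1)), d.G s) / (t (i + 1) - t i) + d.tiny) * (M0 + M1 * (C * (C + 1)) ^ 2 * (t (i + 1) - t i) ^ 2)
          * (C / d.b * (d.Z ^ 2 * (t (i + 1) - t i)))
        = (C / d.b) ^ 2 * d.Z ^ 2 * (M0 * ((∫ s in (t i)..(t (i + 1)), d.G s) + d.tiny * (t (i + 1) - t i))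
          + M1 * (C * (C + 1)) ^ 2 * ((∫ s in (t i)..(t (i + 1)), d.G s) * (t (i + 1) - t i) ^ 2 + d.tiny * (t (i + 1) - t i) ^ 2 * (t (i + 1) - t i))) := by
      field_simp
    rw [e]
    have b3 : d.tiny * (t (i + 1) - t i) ^ 2 * (t (i + 1) - t i) ≤ d.tiny * C ^ 4 * (t (i + 1) - t i) := by gcongr
    gcongr
  refine (Finset.sum_le_sum term).trans (le_of_eq ?_)
  rw [← Finset.mul_sum, Finset.sum_add_distrib, ← Finset.mul_sum, ← Finset.mul_sum, Finset.sum_add_distrib, Finset.sum_add_distrib,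
    ← Finset.mul_sum, ← Finset.mul_sum, ← Finset.mul_sum, s1, s2, s3]

/-! ## 3. The single path -/

variable {Ω : Type} [mΩ : MeasurableSpace Ω] {m : ℕ}

/-- the source inequality: susceptibility (A1) line 2, `v_k E W_k ≤ E tr H_k²`, slope (D3) -/
theorem l8st_src {P : L8P Ω m} (hP : P.Ok) (hm : 0 < m) {cs κ vlo dz : ℝ} (hcs : 0 < cs) (hsus : P.Sus cs) (hκ : 0 < κ) (hvlo : 0 < vlo)
    {k : ℕ} (hk : k < P.n) (hdz : 0 ≤ dz) (hslope : κ * dz ≤ P.dh k) (hv : vlo ≤ P.v k) :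
    dz * ∫ ω, P.W k ω ∂P.μ ≤ 1 / (cs * m * κ * vlo) * (P.S (k + 1) - P.S k) := by
  have hmR : (0 : ℝ) < m := by exact_mod_cast hm
  have h1 := ivk_v_int_W_le hP k
  have h2 := hsus k hk
  have h0 := ivk_int_W_nonneg hP k
  have hpos : 0 < cs * m * κ * vlo := by positivity
  rw [one_div, inv_mul_eq_div, le_div_iff₀ hpos]
  have a1 : vlo * ∫ ω, P.W k ω ∂P.μ ≤ ∫ ω, P.trH2 k ω ∂P.μ := (mul_le_mul_of_nonneg_right hv h0).trans h1
  have a2 : 0 ≤ vlo * ∫ ω, P.W k ω ∂P.μ := by positivity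
  calc dz * (∫ ω, P.W k ω ∂P.μ) * (cs * m * κ * vlo) = cs * m * (κ * dz) * (vlo * ∫ ω, P.W k ω ∂P.μ) := by ring
    _ ≤ cs * m * P.dh k * ∫ ω, P.trH2 k ω ∂P.μ := by
        refine mul_le_mul (mul_le_mul_of_nonneg_left hslope (by positivity)) a1 a2 ?_
        have := hP.dh_nonneg k
        positivity
    _ ≤ _ := h2

/-- TEX[LL:lem:statistics-coarse-switch] **the tile bound of the source sum** `E ∫ H² W dv`, abstract form -/
theorem l8st_main {P : L8P Ω m} (hP : P.Ok) (hm : 0 < m) {cs : ℝ} (hcs : 0 < cs) (hsus : P.Sus cs)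
    {c : SkwC} {d : SkwD} {C zj : ℝ} {hh : ℝ → ℝ} (H : SkwHyp c d) (hC : 1 ≤ C) (W : SkwConcl C d d.zmax d.zmax zj hh)
    {zc w : ℕ → ℝ} (hzc : Monotone zc) {κ vlo M0 M1 mu Wn : ℝ} {J : ℕ} (hκ : 0 < κ) (hvlo : 0 < vlo) (hM0 : 0 ≤ M0) (hM1 : 0 ≤ M1)
    (hztop : ∀ k ≤ P.n, zc k ≤ d.zmax)
    (hgap : ∀ k < P.n, P.dv k = ∫ z in (zc k)..(zc (k + 1)), d.G z)
    (hmesh : ∀ k < P.n, zc (k + 1) - zc k ≤ mu) (hmu : mu ≤ min (d.b * skwR d.zlo) (d.U ^ 2) / C ^ 2)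
    (hslope : ∀ k < P.n, d.zlo ≤ zc k → κ * (zc (k + 1) - zc k) ≤ P.dh k)
    (hv : ∀ k < P.n, d.zlo ≤ zc k → vlo ≤ P.v k)
    (hw0 : ∀ k < P.n, zc k < d.zlo → w k = 0)
    (hw : ∀ k < P.n, d.zlo ≤ zc k → w k ^ 2 ≤ M0 + M1 * hh (zc k) ^ 2)
    (hSlo : ∀ k < P.n, zc k < zc (k + 1) → d.S (zc k) ≤ P.S k) (hShi : ∀ k < P.n, P.S (k + 1) ≤ d.S (zc (k + 1)))
    (hlast : P.dv P.n * w P.n ^ 2 ≤ Wn) (hJ : d.zmax ≤ 2 ^ J * d.zlo) :
    dcsW P w ≤ 1 / (cs * m * κ * vlo) * ((C / d.b) ^ 2 * d.Z ^ 2 * (M0 * ((∫ z in d.zlo..d.zmax, d.G z) + d.tiny * (d.zmax - d.zlo))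
        + M1 * (C * (C + 1)) ^ 2 * (C ^ 2 * (J * (C * skwL d * d.U ^ 4 / skwR d.zlo)) + d.tiny * C ^ 4 * (d.zmax - d.zlo))))
      + 4 * P.a * Wn := by
  classical
  have hmR : (0 : ℝ) < m := by exact_mod_cast hm
  have hA : 0 ≤ 1 / (cs * m * κ * vlo) := by positivity
  set K : Finset ℕ := (Finset.range P.n).filter fun k => d.zlo ≤ zc k ∧ zc k < zc (k + 1) with hKdef
  have hKm : ∀ k ∈ K, k < P.n ∧ d.zlo ≤ zc k ∧ zc k < zc (k + 1) := fun k hk => by
    rw [hKdef, Finset.mem_filter, Finset.mem_range] at hk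
    exact hk
  have key := l8st_concl_sum H hC W (zc := zc) (S := P.S) (om := fun k => w k ^ 2) (e := fun k => ∫ ω, P.W k ω ∂P.μ) (A := 1 / (cs * m * κ * vlo))
    (M0 := M0) (M1 := M1) (mu := mu) hA hM0 hM1 (ivk_S_mono hP) hzc K
    (fun k hk => ⟨(hKm k hk).2.1, hztop (k + 1) (hKm k hk).1⟩) (fun k hk => hmesh k (hKm k hk).1) hmu
    (fun k _ => ivk_int_W_nonneg hP k) (fun k _ => sq_nonneg _) (fun k hk => hw k (hKm k hk).1 (hKm k hk).2.1)
    (fun k hk => l8st_src hP hm hcs hsus hκ hvlo (hKm k hk).1 (sub_nonneg.2 (hKm k hk).2.2.le) (hslope k (hKm k hk).1 (hKm k hk).2.1)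
      (hv k (hKm k hk).1 (hKm k hk).2.1))
    (fun k hk => hSlo k (hKm k hk).1 (hKm k hk).2.2) (fun k hk => hShi k (hKm k hk).1)
  have hbud := l8st_bud_cover H hC W J hJ
  have e1 : ∑ j ∈ Finset.range P.n, P.dv j * w j ^ 2 * ∫ ω, P.W j ω ∂P.μ
      = ∑ k ∈ K, (∫ z in (zc k)..(zc (k + 1)), d.G z) * w k ^ 2 * ∫ ω, P.W k ω ∂P.μ := by
    rw [hKdef, Finset.sum_filter]
    refine Finset.sum_congr rfl fun j hj => ?_
    have hj' := Finset.mem_range.1 hj
    split_ifs with hc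
    · rw [hgap j hj']
    · rcases lt_or_ge (zc j) d.zlo with h1 | h1
      · rw [hw0 j hj' h1]; ring
      · have h2 : zc (j + 1) = zc j := le_antisymm (not_lt.1 fun h => hc ⟨h1, h⟩) (hzc (Nat.le_succ j))
        rw [hgap j hj', h2, intervalIntegral.integral_same]; ring
  have e2 : P.dv P.n * w P.n ^ 2 * ∫ ω, P.W P.n ω ∂P.μ ≤ 4 * P.a * Wn := by
    have h1 := ivs_int_W_le hP P.n
    have h2 := ivk_int_W_nonneg hP P.n
    have h3 : 0 ≤ P.dv P.n * w P.n ^ 2 := mul_nonneg (ivk_dv_nonneg hP _) (sq_nonneg _)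
    calc P.dv P.n * w P.n ^ 2 * ∫ ω, P.W P.n ω ∂P.μ ≤ Wn * (4 * P.a) := mul_le_mul hlast h1 h2 (h3.trans hlast)
      _ = _ := by ring
  have hC0 : 0 < C := by linarith
  have e3 : (1 : ℝ) / (cs * m * κ * vlo) * ((C / d.b) ^ 2 * d.Z ^ 2 * (M0 * ((∫ z in d.zlo..d.zmax, d.G z) + d.tiny * (d.zmax - d.zlo))
          + M1 * (C * (C + 1)) ^ 2 * (C ^ 2 * (∫ z in d.zlo..d.zmax, d.G z * hh z ^ 2) + d.tiny * C ^ 4 * (d.zmax - d.zlo))))
      ≤ 1 / (cs * m * κ * vlo) * ((C / d.b) ^ 2 * d.Z ^ 2 * (M0 * ((∫ z in d.zlo..d.zmax, d.G z) + d.tiny * (d.zmax - d.zlo))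
        + M1 * (C * (C + 1)) ^ 2 * (C ^ 2 * (J * (C * skwL d * d.U ^ 4 / skwR d.zlo)) + d.tiny * C ^ 4 * (d.zmax - d.zlo)))) := by
    gcongr
  unfold dcsW
  rw [Finset.sum_range_succ, e1]
  exact add_le_add (key.trans e3) e2

end Claimed.Agent.R286
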