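import Claimed.Agent.R286.PM.InstA
import Claimed.Agent.R286.W.InstLlC
import Claimed.Agent.R286.W.InstL03
import Claimed.Agent.R286.L08.DcsTile

/-!
# Row 286 (S0533), folder L08, file DcsInst : LL LEMMA 8.8, SWITCH HALF, the TILE BOUND AT THE LL INSTANCE      (owner helper10; prefix `l8si_` / `L8si`)

TEX[LL:lem:statistics-coarse-switch]   (08 l.985-1000)   `E ∫ H² W dv ≲_⋄ χ_e⁻¹ x⁶ λ_1⁻¹ Z² {x⁶ | λ_1² U⁴}`, `H = H_lin | H_e`, UNTILTED system, at the points of the multiplier sweeps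
(`sm = false`, `λ = x^(p_*)`, ANY `χ_lin`, `χ_e > 0`; NO smallness of `Y = U Z`): "tiles (D5) on macroscopic bands, W without `Y = o(1)`, slope (D3) weakened by `χ_e`".
EXIT = `L8siMain` (interface with the TOP half `L08/DcsSw.lean` of helper49).
ROUTE: the width construction of Lemma 8.2 with the MACROSCOPIC lower end `zlo = zl` (a constant), i.e. the records of 37 (`PM/Inst`, `PM/InstA`) at the parameters `k.par I` (`c1 := zl / Y`, so `zlo = c1 Y = zl`) and with the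
slope constant `c3 χ_e`;   then `l8st_main` (`L08/DcsTile.lean`) with `cs = 1/2`, `κ = c3 χ_e λ_1 zl²`, `vlo = cv zl`, mesh `x^50`.
Both weights vanish below `zl`:  `H_e = 0` for `z ≤ ξ_* - E_b`,  `H_lin = 0` for `v ≤ 4 v_b`.
The leaves CLK, DEV, MESH are COPIES of `l8p_leaf_clk/dev/mesh` (PM/InstA; they use `hat.dir` only through `.1`, `hat.hY` only for the smallness of `zlo`, `U`).
-/

set_option autoImplicit false

namespace Claimed.Agent.R286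

open Set MeasureTheory

noncomputable section

/-! ## 1. Shape -/

/-- the standing hypotheses on ONE instance of a multiplier sweep -/
structure L8siAt (𝔹 : LlBase) (F : LlFix) (N0 : ℕ) (Kf : ℝ) (I : L8In) : Prop where
  hF : I.F = F
  hB : I.𝔹 = 𝔹
  hN : N0 ≤ I.p.N
  ok : I.Ok
  sm : I.p.sm = false
  hlam : I.p.lam = I.p.x ^ F.pS
  fine : I.Fine (I.x ^ Kf)

theorem L8siAt.mono {𝔹 : LlBase} {F : LlFix} {N0 N1 : ℕ} {Kf Kf' : ℝ} {I : L8In} (h : L8siAt 𝔹 F N1 Kf' I) (hN : N0 ≤ N1) (hK : Kf ≤ Kf') :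
    L8siAt 𝔹 F N0 Kf I :=
  ⟨h.hF, h.hB, hN.trans h.hN, h.ok, h.sm, h.hlam,
    h.fine.mono (Real.rpow_le_rpow_of_exponent_ge (I.x_pos h.ok) (I.x_le_one h.ok) hK)⟩

/-- "at all sufficiently large and fine instances of the multiplier sweeps" -/
def L8siEvt (𝔹 : LlBase) (F : LlFix) (Φ : L8In → Prop) : Prop :=
  ∃ (N0 : ℕ) (Kf : ℝ), ∀ I : L8In, L8siAt 𝔹 F N0 Kf I → Φ I

theorem L8siEvt.and {𝔹 : LlBase} {F : LlFix} {Φ Ψ : L8In → Prop} (h : L8siEvt 𝔹 F Φ) (h' : L8siEvt 𝔹 F Ψ) :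
    L8siEvt 𝔹 F fun I => Φ I ∧ Ψ I := by
  obtain ⟨N1, K1, H1⟩ := h
  obtain ⟨N2, K2, H2⟩ := h'
  exact ⟨max N1 N2, max K1 K2, fun I hI => ⟨H1 I (hI.mono (le_max_left _ _) (le_max_left _ _)), H2 I (hI.mono (le_max_right _ _) (le_max_right _ _))⟩⟩

theorem L8siEvt.mono {𝔹 : LlBase} {F : LlFix} {Φ Ψ : L8In → Prop} (h : L8siEvt 𝔹 F Φ)
    (hi : ∀ I : L8In, L8siAt 𝔹 F 0 0 I → Φ I → Ψ I) : L8siEvt 𝔹 F Ψ := by
  obtain ⟨N1, K1, H1⟩ := h
  exact ⟨N1, max K1 0, fun I hI => hi I (hI.mono (Nat.zero_le _) (le_max_right _ _)) (H1 I (hI.mono le_rfl (le_max_left _ _)))⟩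

theorem l8si_evt_fine (𝔹 : LlBase) (F : LlFix) : L8siEvt 𝔹 F fun I => I.Fine (I.x ^ 55) :=
  ⟨0, 55, fun I h => by
    have := h.fine
    rwa [show (55 : ℝ) = ((55 : ℕ) : ℝ) by norm_num, Real.rpow_natCast] at this⟩

/-- TEX[LL:lem:statistics-coarse-switch] **EXIT / INTERFACE**: the tile bound of the source sum with the weights `H (left end of the mass cell of the cut)` -/
def L8siMain (𝔹 : LlBase) (T : ℝ) : Prop :=
  ∀ F0, L8Fix 𝔹 T F0 → ∀ (pB : LLParB) (pS : ℝ), 0 < pS → pS ≤ 1 → ∀ δ : ℝ, 0 < δ → ∃ (C : ℝ) (N0 : ℕ) (Kf : ℝ), ∀ I : L8In,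
    L8siAt 𝔹 (F0.wExp pB.sStar pB.eta pS) N0 Kf I →
      (I.p.chiE = 1 → dcsW (I.sp false) (fun k => I.p.Hlin I.F (l8pVl I k)) ≤ C * I.x ^ (-δ) * I.Z ^ 2 * (I.x ^ 12 / I.lam1)) ∧
      (0 < I.p.chiE → dcsW (I.sp false) (fun k => I.p.He I.F I.𝔹 (l8pVl I k))
        ≤ C * I.x ^ (-δ) * I.Z ^ 2 * (I.p.chiE⁻¹ * I.x ^ 6 * I.lam1 * I.U ^ 4))

/-! ## 2. Constants and records -/

/-- the constants of the relaxed width construction, fixed before `N` -/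
structure L8siK where
  At : ℝ → ℝ
  cA : ℝ
  eps : ℝ
  K : ℕ
  A : ℝ
  c : SkwC
  CW : ℝ
  cv : ℝ
  c3 : ℝ
  cG : ℝ
  zr : ℝ
  Lq : ℝ
  /-- the macroscopic lower end -/
  zl : ℝ
  /-- the constants `Cp`, `cv` of the context `SkwLlcCtx` -/
  Cx : ℝ
  cx : ℝ

/-- the parameters of 37 at the instance: `zlo = c1 Y = zl` -/
def L8siK.par (k : L8siK) (I : L8In) : L8pPar := ⟨k.At, k.cA, k.eps, k.K, k.A, k.zl / I.Y, k.c⟩

theorem L8siK.par_eqns_cite (k : L8siK) (I : L8In) : k.par I = ⟨k.At, k.cA, k.eps, k.K, k.A, k.zl / I.Y, k.c⟩ := rfl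

structure L8siK.Ok (k : L8siK) : Prop where
  eps0 : 0 < k.eps
  eps1 : k.eps ≤ 1
  K : 100 ≤ k.K
  A1 : 1 ≤ k.A
  c : k.c.Ok
  CW : 1 ≤ k.CW
  cv0 : 0 < k.cv
  cv1 : k.cv ≤ 1
  c3 : 0 < k.c3
  Lq : 1 ≤ k.Lq
  zl0 : 0 < k.zl
  zl1 : k.zl ≤ 1
  zls : k.zl ≤ k.c.zs / 4

/-- what unit W gives at one instance -/
structure L8siW (I : L8In) (k : L8siK) (C1v : ℝ) : Prop where
  /-- geometry of the coordinate `z`; the slope (D3) is weakened by `χ_e` -/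
  geo : L8pGeo I (k.par I) k.cv (k.c3 * I.p.chiE) k.cG k.zr k.Lq
  ctx : SkwLlcCtx I.𝔹 I.F k.At k.cA I.p (l8pIn I (k.par I)) k.Cx k.cx
  /-- `H_lin` vanishes below `zl` -/
  vzl : l8pV I (k.par I) k.zl ≤ 4 * I.F.vb
  imp : SkwLlDev I.𝔹 I.F (l8pProf I (k.par I)) I.p (l8pIn I (k.par I)) C1v (1 / k.zl) →
    SkwHyp k.c (l8pD I (k.par I)) ∧ SkwPlat k.c (l8pD I (k.par I)) ∧
    SkwConcl k.CW (l8pD I (k.par I)) (l8pD I (k.par I)).zmax (l8pD I (k.par I)).zmax k.c.zs (l8pH I (k.par I))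

/-- small numerics at one instance -/
structure L8siNum (I : L8In) (k : L8siK) : Prop where
  /-- masses above `zl` are above the jump of `h` -/
  xz : I.x < k.cv * k.zl
  /-- the mesh `x^50` is below all the tiles -/
  mu : I.x ^ 50 ≤ min (I.x ^ k.eps * k.zl) (I.U ^ 2) / k.CW ^ 2
  xU : I.x ≤ I.U
  U1 : I.U ≤ 1
  l0 : 0 < I.lam1
  l1 : I.lam1 ≤ 1

/-- everything at one instance -/
structure L8siRec (I : L8In) (k : L8siK) (S : SkpS) (Kc : SkpC) : Prop where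
  ok : I.Ok
  sm : I.p.sm = false
  fine : I.Fine (I.x ^ 55)
  hyp : SkwHyp k.c (l8pD I (k.par I))
  plat : SkwPlat k.c (l8pD I (k.par I))
  concl : SkwConcl k.CW (l8pD I (k.par I)) (l8pD I (k.par I)).zmax (l8pD I (k.par I)).zmax k.c.zs (l8pH I (k.par I))
  geo : L8pGeo I (k.par I) k.cv (k.c3 * I.p.chiE) k.cG k.zr k.Lq
  ctx : SkwLlcCtx I.𝔹 I.F k.At k.cA I.p (l8pIn I (k.par I)) k.Cx k.cx
  vzl : l8pV I (k.par I) k.zl ≤ 4 * I.F.vb
  zlo : (l8pD I (k.par I)).zlo = k.zl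
  clk : L8pClk I
  grid : L8pGrid I (k.par I) S
  Cv : S.Cv = 1 / k.cv
  mesh : L8pMesh I (k.par I)
  str : L8pStr I Kc
  sus : (I.sp false).Sus (1 / 2)
  Sl : ∀ j ≤ I.n, I.S j = (I.sp false).S j
  Z1 : 1 ≤ I.Z
  num : L8siNum I k

/-! ## 3. The leaves -/

/-- **W** (relaxed W-AT).   ORDER OF THE CONSTANTS: `r` from `eps, K` (`skw_l03_direct`: `n > K / eps`, `r = n + 2`), `At, cA, zb` from `skw_l03`;   the constants `M0, Cx, cx, U1, N1` of the CONTEXT (first half of the proof of `skw_ll_d3`,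
W/InstLlC l.421-480: they do not see `Klo`);   `zl := min (ξ_*/4) (min 1 (4 v_b cx))` (`V(zl) ≤ r(zl)/cx ≤ 4 v_b` by `SkwInVConcl.upper`);   `Klo := 1/zl`;   `skw_ll_direct` at `(eps, K, C1v, Klo)` gives `A, CW, cv, c, N0`;   `skw_ll_d3` gives `c0`.
`geo`: as in W-AT of 37 (`l8p_w_at`, helper246), except `d3`: active `c0 λ r² Δz ≥ c0 χ_e λ_1 r² Δz` (`λ_1 ≤ λ`, `χ_e ≤ 1`), plateau `χ_e λ_1 / 2 Δz ≥ χ_e λ_1 r² Δz / 2`, across the join split at `ξ_*`; `c3 = min c0 (1/2)`.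
`U ≤ min (1/CW) U1`: `U ≤ x λ^(-s/2) = x^(1 - p_* s_*/2) ≤ x^(3/4)`, small for `N ≥ N0`.   NEEDS `F.z0 ≤ zb(T)`, `8 v_b ≤ p_top` from `L8Fix` exactly as `l8p_w_at`. -/
def L8siLeafW (𝔹 : LlBase) (T : ℝ) : Prop :=
  ∀ F0, L8Fix 𝔹 T F0 → ∀ (pB : LLParB) (pS : ℝ), 0 < pS → pS ≤ 1 → ∀ (eps : ℝ) (K : ℕ) (C1v : ℝ), 0 < eps → eps ≤ 1 → 100 ≤ K → 1 ≤ C1v →
    ∃ k : L8siK, k.Ok ∧ k.eps = eps ∧ k.K = K ∧ L8siEvt 𝔹 (F0.wExp pB.sStar pB.eta pS) fun I => L8siW I k C1v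

/-- **CLK**: copy of `l8p_leaf_clk` (21) -/
def L8siLeafClk (𝔹 : LlBase) (T : ℝ) : Prop :=
  ∀ F0, L8Fix 𝔹 T F0 → ∀ (pB : LLParB) (pS : ℝ), 0 < pS → pS ≤ 1 → L8siEvt 𝔹 (F0.wExp pB.sStar pB.eta pS) fun I => L8pClk I

/-- **DEV**: copy of `l8p_leaf_dev` (21), `C1v = 6`.   Changes: `zlo = zl / Y * Y = zl` (`Y = U Z > 0`), `zlo1` = `k.Ok.zls` + `geo.zs`, `zloY`: `min (U Z) 1 ≤ 1 = 1 / zl * zl`;
`U ≤ V(zl/4)`: `V(zl/4) ≥ cv zl / 4` (`geo.vc.lower`) and `U ≤ x^(3/4) ≤ cv zl / 4` for `N ≥ N0`. -/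
def L8siLeafDev (𝔹 : LlBase) (T : ℝ) : Prop :=
  ∃ C1v : ℝ, 1 ≤ C1v ∧ ∀ F0, L8Fix 𝔹 T F0 → ∀ (pB : LLParB) (pS : ℝ), 0 < pS → pS ≤ 1 → ∀ k : L8siK, k.Ok →
    L8siEvt 𝔹 (F0.wExp pB.sStar pB.eta pS) fun I => L8pGeo I (k.par I) k.cv (k.c3 * I.p.chiE) k.cG k.zr k.Lq → L8pClk I →
      SkwLlDev I.𝔹 I.F (l8pProf I (k.par I)) I.p (l8pIn I (k.par I)) C1v (1 / k.zl) ∧ 1 ≤ I.Z ∧ (∀ j ≤ I.n, I.S j = (I.sp false).S j) ∧
      (l8pD I (k.par I)).zlo = k.zl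

/-- **MESH**: copy of `l8p_leaf_mesh` (215); the thresholds see `π` through `π.c.Cp` only -/
def L8siLeafMesh (𝔹 : LlBase) (F : LlFix) : Prop :=
  ∀ c : SkwC, c.Ok → L8siEvt 𝔹 F fun I => ∀ (π : L8pPar) (S : SkpS) (cv c3 cG zr Lq : ℝ), π.c = c →
    L8pGeo I π cv c3 cG zr Lq → L8pClk I → L8pGrid I π S → SkwHyp π.c (l8pD I π) → SkwPlat π.c (l8pD I π) → L8pMesh I π

/-- **SUS**: `l8i_sus_h` with `δ = 1`: `a² m dh ≤ 2 · 3 N · x^7 = 6 x ≤ 1` (`Fine.dh_le`, `Kf = 7`, `x⁶ = 1/N`: `l8p_str_x6`; `I.P false = I.P0 = llMat I.LP`) -/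
def L8siLeafSus (𝔹 : LlBase) (F : LlFix) : Prop :=
  L8siEvt 𝔹 F fun I => (I.sp false).Sus (1 / 2)

/-- **NUM0**: powers of `x`.   `U = min 1 (x λ^(-s/2))`, `λ = x^pS ≤ 1`;  `x ≤ U`;  `x^50 CW² ≤ min (x^eps zl) x²` for `N ≥ N0` (`l8p_hn_small`) -/
def L8siLeafNum (𝔹 : LlBase) : Prop :=
  ∀ (F0 : LlFix) (pB : LLParB) (pS : ℝ), 0 < pS → pS ≤ 1 → ∀ k : L8siK, k.Ok → L8siEvt 𝔹 (F0.wExp pB.sStar pB.eta pS) fun I => L8siNum I k

/-- **INST-L**: `l8st_main` at `w = H_lin`, `M0 = 4 x⁶`, `M1 = 0`, + arithmetic.   `2 eps ≤ δ`. -/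
def L8siLeafL : Prop :=
  ∀ (k : L8siK) (δ : ℝ), k.Ok → 2 * k.eps ≤ δ → ∃ C : ℝ, ∀ (I : L8In) (S : SkpS) (Kc : SkpC), L8siRec I k S Kc → I.p.chiE = 1 →
    dcsW (I.sp false) (fun j => I.p.Hlin I.F (l8pVl I j)) ≤ C * I.x ^ (-δ) * I.Z ^ 2 * (I.x ^ 12 / I.lam1)

/-- **INST-E**: `l8st_main` at `w = H_e`, `M0 = 0`, `M1 = (Cp λ_1 / (2 b))²`, + arithmetic.   `5 eps ≤ δ`. -/
def L8siLeafE : Prop :=
  ∀ (k : L8siK) (δ : ℝ), k.Ok → 5 * k.eps ≤ δ → ∃ C : ℝ, ∀ (I : L8In) (S : SkpS) (Kc : SkpC), L8siRec I k S Kc → 0 < I.p.chiE →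
    dcsW (I.sp false) (fun j => I.p.He I.F I.𝔹 (l8pVl I j)) ≤ C * I.x ^ (-δ) * I.Z ^ 2 * (I.p.chiE⁻¹ * I.x ^ 6 * I.lam1 * I.U ^ 4)

end

/-! ## 4. Glue (proved) -/

theorem l8si_main_of {𝔹 : LlBase} {T : ℝ} (hW : L8siLeafW 𝔹 T) (hclk : L8siLeafClk 𝔹 T) (hdev : L8siLeafDev 𝔹 T) (hmesh : ∀ F, L8siLeafMesh 𝔹 F)
    (hsus : ∀ F, L8siLeafSus 𝔹 F) (hnum : L8siLeafNum 𝔹) (hL : L8siLeafL) (hE : L8siLeafE) : L8siMain 𝔹 T := by
  intro F0 hF pB pS h0 h1 δ hδ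
  obtain ⟨C1v, hC1v, hdev⟩ := hdev
  obtain ⟨Kc, -, -, hstr⟩ := l8p_leaf_str
  have he0 : 0 < min (δ / 5) 1 := lt_min (by positivity) one_pos
  obtain ⟨k, hk, hke, -, hW⟩ := hW F0 hF pB pS h0 h1 (min (δ / 5) 1) 100 C1v he0 (min_le_right _ _) le_rfl hC1v
  have he5 : 5 * k.eps ≤ δ := by
    rw [hke]
    have := min_le_left (δ / 5) 1
    linarith
  have he2 : 2 * k.eps ≤ δ := by
    have := hk.eps0
    linarith
  obtain ⟨CL, hL⟩ := hL k δ hk he2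
  obtain ⟨CE, hE⟩ := hE k δ hk he5
  set F := F0.wExp pB.sStar pB.eta pS with hFdef
  set S : SkpS := ⟨k.c, Kc, k.CW, 1 / k.cv, k.c3, 2, 1, k.zr, k.cG, k.Lq, 1⟩ with hS
  obtain ⟨N0, Kf, H⟩ := (((hW.and (hclk F0 hF pB pS h0 h1)).and ((hdev F0 hF pB pS h0 h1 k hk).and (hmesh F k.c hk.c))).and
    (((hsus F).and (hnum F0 pB pS h0 h1 k hk)).and (l8si_evt_fine 𝔹 F)))
  refine ⟨max CL CE, N0, Kf, fun I hat => ?_⟩
  obtain ⟨⟨⟨w, clk⟩, dev, mesh⟩, ⟨sus, num⟩, fine⟩ := H I hat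
  obtain ⟨dev, hZ1, hSl, hzlo⟩ := dev w.geo clk
  obtain ⟨hyp, plat, concl⟩ := w.imp dev
  have grid : L8pGrid I (k.par I) S :=
    l8p_leaf_grid I (k.par I) S k.cv hk.cv0 le_rfl hat.ok hat.sm fine.adm (hk.c.zs.le.trans w.geo.zsm) w.geo.vc hSl
  have mesh := mesh (k.par I) S k.cv (k.c3 * I.p.chiE) k.cG k.zr k.Lq rfl w.geo clk grid hyp plat
  have R : L8siRec I k S Kc :=
    { ok := hat.ok, sm := hat.sm, fine := fine, hyp := hyp, plat := plat, concl := concl, geo := w.geo, ctx := w.ctx, vzl := w.vzl, zlo := hzlo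
      clk := clk, grid := grid, Cv := rfl, mesh := mesh, str := hstr I hat.ok fine.adm, sus := sus, Sl := hSl, Z1 := hZ1, num := num }
  have hx0 : 0 < I.x := I.x_pos hat.ok
  have hp1 : 0 ≤ I.x ^ (-δ) * I.Z ^ 2 * (I.x ^ 12 / I.lam1) := by
    have := num.l0
    have := Real.rpow_pos_of_pos hx0 (-δ)
    positivity
  refine ⟨fun hc => (hL I S Kc R hc).trans ?_, fun hc => (hE I S Kc R hc).trans ?_⟩
  · have := mul_le_mul_of_nonneg_right (le_max_left CL CE) hp1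
    simpa [mul_assoc] using this
  · have hp2 : 0 ≤ I.x ^ (-δ) * I.Z ^ 2 * (I.p.chiE⁻¹ * I.x ^ 6 * I.lam1 * I.U ^ 4) := by
      have := num.l0
      have := Real.rpow_pos_of_pos hx0 (-δ)
      have : 0 < I.U := hx0.trans_le num.xU
      positivity
    have := mul_le_mul_of_nonneg_right (le_max_right CL CE) hp2
    simpa [mul_assoc] using this

/-! ## 5. The leaves at `llBase` -/

/-- OWNER: free (with helper246: same construction as `l8p_w_at`) -/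
theorem l8si_w (T : ℝ) (hT : 1 < T) : L8siLeafW llBase T := by
  intro F0 hfix pB pS hp0 hp1 eps K C1v he he1 hK hC1v
  obtain ⟨hT0, hb, hP⟩ := hfix
  have hE := llc_expOk pB hp0 hp1
  have h3 := (hP _ _ _ hE).sec3
  have hsm := (hP _ _ _ hE).small
  obtain ⟨F, hFdef⟩ : ∃ F, F = F0.wExp pB.sStar pB.eta pS := ⟨_, rfl⟩
  rw [← hFdef] at h3 hsm ⊢
  have hFT : F.T = T := by rw [hFdef]; exact hT0
  have hFpS : F.pS ≤ 1 := by rw [hFdef]; exact hp1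
  obtain ⟨cr, Cr, v0, hcr, -, href⟩ := h3.ref
  -- the order of the representative
  obtain ⟨n, hn⟩ := exists_nat_gt ((K : ℝ) / eps)
  have hr2 : 2 ≤ n + 2 := by omega
  have hKr : (K : ℝ) < eps * (((n + 2 : ℕ) : ℝ) - 1) := by
    rw [div_lt_iff₀ he] at hn
    push_cast
    nlinarith
  obtain ⟨cA, hcA, hAt⟩ := l8pw_l03 llBase T hb F h3.ok hFT hsm
  obtain ⟨At, hAt⟩ := hAt (n + 2) (by omega)
  have hI := hAt cr Cr v0 hcr href
  obtain ⟨Lq, hLqdef⟩ : ∃ Lq, Lq = max 1 (1 / cr) := ⟨_, rfl⟩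
  rw [← hLqdef] at hI
  obtain ⟨c0, U3, N3, hc0, hU3, hD3⟩ := skw_ll_d3 llBase F At cA Lq (n + 2) hr2 hI h3.p4
  obtain ⟨M0, Cp, cv, U5, N5, hM0, hCp, hcv0, hcv1, hU5, hX⟩ := l8pw_ctx llBase F At cA Lq (n + 2) hr2 hI
  have hz00 := h3.ok.z00
  have hvb0 := h3.ok.vb0
  have hL0 : 0 < llBase.xiS F.T := by linarith [hsm.z0s]
  -- the macroscopic lower end
  obtain ⟨zl, hzldef⟩ : ∃ zl, zl = min (llBase.xiS F.T / 4) (min 1 (4 * F.vb * cv)) := ⟨_, rfl⟩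
  have hzl0 : 0 < zl := by
    rw [hzldef]
    exact lt_min (by linarith) (lt_min one_pos (by positivity))
  have hzl1 : zl ≤ 1 := by rw [hzldef]; exact (min_le_right _ _).trans (min_le_left _ _)
  have hzls : zl ≤ llBase.xiS F.T / 4 := by rw [hzldef]; exact min_le_left _ _
  have hzlv : zl ≤ 4 * F.vb * cv := by rw [hzldef]; exact (min_le_right _ _).trans (min_le_right _ _)
  have hKlo : 1 ≤ 1 / zl := by rw [le_div_iff₀ hzl0]; linarith
  obtain ⟨A, C, cv', c, N4, hA, hC, _hcv', hc, hczs, hW⟩ :=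
    skw_ll_direct llBase F eps K C1v (1 / zl) he (by omega) hC1v hKlo (n + 2) hr2 hKr At cA Lq hI
  obtain ⟨N6, hGam⟩ := hI.Gam
  have hC0 : 0 < C := by linarith
  refine ⟨⟨At, cA, eps, K, A, c, C, cv, min c0 (1 / 2), cA / 2, min 1 (2 * F.z0), Lq, zl, Cp, cv⟩,
    ⟨he, he1, hK, hA, hc, hC, hcv0, hcv1, lt_min hc0 (by norm_num), hI.Lq1, hzl0, hzl1, by rw [hczs]; exact hzls⟩, rfl, rfl, ?_⟩
  obtain ⟨N7, hN7⟩ := skw_llb_small (3 / 4) (min (1 / C) (min U3 U5)) (by norm_num) (lt_min (by positivity) (lt_min hU3 hU5))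
  refine ⟨max (max N3 N4) (max (max N5 N6) N7), 0, ?_⟩
  intro I hIat
  obtain ⟨IF, IB, p, m, s, Fs⟩ := I
  have e1 : IF = F := hIat.hF
  have e2 : IB = llBase := hIat.hB
  subst e1 e2
  have hN : max (max N3 N4) (max (max N5 N6) N7) ≤ p.N := hIat.hN
  have hN3 : N3 ≤ p.N := ((le_max_left _ _).trans (le_max_left _ _)).trans hN
  have hN4 : N4 ≤ p.N := ((le_max_right _ _).trans (le_max_left _ _)).trans hN
  have hN5 : N5 ≤ p.N := (((le_max_left _ _).trans (le_max_left _ _)).trans (le_max_right _ _)).trans hN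
  have hN6 : N6 ≤ p.N := (((le_max_right _ _).trans (le_max_left _ _)).trans (le_max_right _ _)).trans hN
  have hN7' : N7 ≤ p.N := ((le_max_right _ _).trans (le_max_right _ _)).trans hN
  have hp : p.Ok IF := hIat.ok.pt
  have hdsm : p.sm = false := hIat.sm
  have hplam : p.lam = p.x ^ IF.pS := hIat.hlam
  have hchi0 : 0 ≤ p.chiE := hp.chiE.1
  have hchi1 : p.chiE ≤ 1 := hp.chiE.2
  set I : L8In := ⟨IF, llBase, p, m, s, Fs⟩ with hIdef
  have hl := skw_llc_lam_pos hp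
  have hx0 := skw_llc_x_pos hp
  have hx1 : p.x ≤ 1 := llc_x_le_one hp
  -- smallness of `U`
  have hUp : 0 < p.U IF := skw_llc_U_pos hp
  have hUx : p.U IF ≤ p.x ^ (3 / 4 : ℝ) := by
    unfold LlPt.U
    refine (min_le_right _ _).trans ?_
    rw [hplam, ← Real.rpow_mul hx0.le]
    calc p.x * p.x ^ (IF.pS * -(IF.sS / 2)) = p.x ^ (1 + IF.pS * -(IF.sS / 2)) := by
          rw [Real.rpow_add hx0, Real.rpow_one]
      _ ≤ p.x ^ (3 / 4 : ℝ) := by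
          refine Real.rpow_le_rpow_of_exponent_ge hx0 hx1 ?_
          have a1 := h3.ok.sS0
          have a2 := h3.ok.sS1
          have a3 := h3.ok.pS0
          nlinarith
  have hUs : p.U IF ≤ min (1 / C) (min U3 U5) := hUx.trans (hN7 p hN7')
  have hUa : p.U IF ≤ 1 / C := hUs.trans (min_le_left _ _)
  have hUb : p.U IF ≤ U3 := hUs.trans ((min_le_right _ _).trans (min_le_left _ _))
  have hUc : p.U IF ≤ U5 := hUs.trans ((min_le_right _ _).trans (min_le_right _ _))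
  obtain ⟨k, hk⟩ : ∃ k : L8siK, k = ⟨At, cA, eps, K, A, c, C, cv, min c0 (1 / 2), cA / 2, min 1 (2 * IF.z0), Lq, zl, Cp, cv⟩ := ⟨_, rfl⟩
  rw [← hk]
  obtain ⟨π, hπ⟩ : ∃ π : L8pPar, π = ⟨At, cA, eps, K, A, zl / I.Y, c⟩ := ⟨_, rfl⟩
  have hkπ : k.par I = π := by rw [hk, hπ]; rfl
  have hprof : l8pProf I π = skwLlProf llBase IF At cA := by rw [hπ]; rfl
  have hin : l8pIn I π = skwLlIn llBase IF p (l8pSv I) I.Z eps K A (zl / I.Y * I.Y) := by rw [hπ]; rfl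
  obtain ⟨X, g1, g2, g4⟩ := hX p hp hN5 hdsm hUc (l8pIn I π) (by rw [hin]; rfl) (by rw [hin]; rfl) (by rw [hin]; rfl) (by rw [hin]; rfl)
  obtain ⟨hlip, hG0, hG1⟩ := hGam p hp hN6 hdsm
  obtain ⟨q1, q2, q3⟩ := l8pw_geo X hI.Lq1 (by rw [hin]; rfl) g1 hlip hG0 hG1
  have hd3 := hD3 p hp hN3 hdsm hUb (l8pIn I π) (by rw [hin]; rfl) (by rw [hin]; rfl) (by rw [hin]; rfl) (by rw [hin]; rfl)
  have hLm := skw_llc_L_le X
  have hl1 : p.lam ≤ 1 := hp.lam_hi.trans (Real.rpow_le_one hx0.le hx1 h3.ok.pS0.le)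
  have hlam1 : p.lam1 IF ≤ p.lam := by
    unfold LlPt.lam1
    calc p.lam ^ (1 + IF.eta) ≤ p.lam ^ (1 : ℝ) := Real.rpow_le_rpow_of_exponent_ge hl hl1 (by linarith [h3.ok.eta0])
      _ = p.lam := Real.rpow_one _
  have hlam10 : 0 < p.lam1 IF := Real.rpow_pos_of_pos hl _
  have hV : l8pV I π = skwInV (skwLlProf llBase IF At cA) (l8pIn I π) := by rw [← hprof]; rfl
  have hkcv : k.cv = cv := by rw [hk]
  have hkc3 : k.c3 = min c0 (1 / 2) := by rw [hk]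
  have hkcG : k.cG = cA / 2 := by rw [hk]
  have hkzr : k.zr = min 1 (2 * IF.z0) := by rw [hk]
  have hkLq : k.Lq = Lq := by rw [hk]
  have hkzl : k.zl = zl := by rw [hk]
  have hkAt : k.At = At := by rw [hk]
  have hkcA : k.cA = cA := by rw [hk]
  have hkCx : k.Cx = Cp := by rw [hk]
  have hkcx : k.cx = cv := by rw [hk]
  have hkc : k.c = c := by rw [hk]
  have hkCW : k.CW = C := by rw [hk]
  refine ⟨?_, ?_, ?_, ?_⟩
  · rw [hkπ, hkcv, hkc3, hkcG, hkzr, hkLq]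
    have hD : l8pD I π = skwInD (skwLlProf llBase IF At cA) (l8pIn I π) := by rw [← hprof]; rfl
    have hzm : (l8pD I π).zmax = ((l8pIn I π).pf (skwLlProf llBase IF At cA)).zmax := by rw [hD]; rfl
    have hπc : π.c = c := by rw [hπ]
    have hc3a : min c0 (1 / 2) ≤ c0 := min_le_left _ _
    have hc3b : min c0 (1 / 2) ≤ 1 / 2 := min_le_right _ _
    have hc30 : 0 < min c0 (1 / 2) := lt_min hc0 (by norm_num)
    refine
      { vc := by rw [hprof]; exact X.v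
        zs := by rw [hπc, hczs]
        zsm := by rw [hπc, hczs, hzm]; exact hLm
        K := ?_, q := ?_
        qlip := by rw [hD]; exact q1
        qr := by rw [hD]; exact q2
        d3 := ?_, Greg := ?_
        Gm := by rw [hD]; exact l8pw_G_meas _ _ X.pt0.le g4
        Gb := by rw [hD]; exact q3 }
    · intro z hz
      rw [hzm] at hz
      rw [hV, hπc, hczs]
      exact (X.xi z hz).2.1
    · intro z hz
      rw [hzm] at hz
      rw [hV, hD]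
      refine (X.xi z hz).2.2.trans ?_
      rw [hin]
      rfl
    · intro z₁ hz₁ z₂ hz₂ h12 hx
      rw [hzm] at hz₁ hz₂
      rw [hV] at hx ⊢
      show min c0 (1 / 2) * p.chiE * p.lam1 IF * skwR z₁ ^ 2 * (z₂ - z₁) ≤ p.h IF llBase _ - p.h IF llBase _
      have hr0 : 0 ≤ skwR z₁ := le_min hz₁.1 zero_le_one
      have hr1 : skwR z₁ ≤ 1 := min_le_right _ _
      have hr2' : skwR z₁ ^ 2 ≤ 1 := pow_le_one₀ hr0 hr1
      have hcc : min c0 (1 / 2) * p.chiE ≤ c0 := by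
        calc min c0 (1 / 2) * p.chiE ≤ min c0 (1 / 2) * 1 := mul_le_mul_of_nonneg_left hchi1 hc30.le
          _ ≤ c0 := by rw [mul_one]; exact hc3a
      have ha : ∀ z z' : ℝ, z ≤ z' → min c0 (1 / 2) * p.chiE * p.lam1 IF * skwR z₁ ^ 2 * (z' - z) ≤ c0 * p.lam * skwR z₁ ^ 2 * (z' - z) := by
        intro z z' hzz
        refine mul_le_mul_of_nonneg_right (mul_le_mul_of_nonneg_right ?_ (sq_nonneg _)) (sub_nonneg.2 hzz)
        exact mul_le_mul hcc hlam1 hlam10.le hc0.le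
      have hbb : ∀ z z' : ℝ, z ≤ z' → min c0 (1 / 2) * p.chiE * p.lam1 IF * skwR z₁ ^ 2 * (z' - z) ≤ p.chiE * p.lam1 IF / 2 * (z' - z) := by
        intro z z' hzz
        refine mul_le_mul_of_nonneg_right ?_ (sub_nonneg.2 hzz)
        have hcl : 0 ≤ p.chiE * p.lam1 IF := mul_nonneg hchi0 hlam10.le
        have e1 : min c0 (1 / 2) * (p.chiE * p.lam1 IF) ≤ 1 / 2 * (p.chiE * p.lam1 IF) := mul_le_mul_of_nonneg_right hc3b hcl
        have e2 : min c0 (1 / 2) * (p.chiE * p.lam1 IF) * skwR z₁ ^ 2 ≤ min c0 (1 / 2) * (p.chiE * p.lam1 IF) * 1 :=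
          mul_le_mul_of_nonneg_left hr2' (mul_nonneg hc30.le hcl)
        have e3 : min c0 (1 / 2) * p.chiE * p.lam1 IF * skwR z₁ ^ 2 = min c0 (1 / 2) * (p.chiE * p.lam1 IF) * skwR z₁ ^ 2 := by ring
        rw [e3]
        linarith
      rcases le_total z₂ (llBase.xiS IF.T) with c2 | c2
      · exact (ha z₁ z₂ h12).trans ((hd3 z₁ hz₁ z₂ hz₂ h12 hx).1 c2)
      · rcases le_total (llBase.xiS IF.T) z₁ with c1' | c1'
        · exact (hbb z₁ z₂ h12).trans ((hd3 z₁ hz₁ z₂ hz₂ h12 hx).2 c1')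
        · have hLmem : llBase.xiS IF.T ∈ Icc 0 ((l8pIn I π).pf (skwLlProf llBase IF At cA)).zmax := ⟨X.L0.le, hLm⟩
          have hxL : p.x ≤ skwInV (skwLlProf llBase IF At cA) (l8pIn I π) (llBase.xiS IF.T) := hx.trans (skw_llc_V_mono X hz₁ hLmem c1')
          have k1 := (ha z₁ _ c1').trans ((hd3 z₁ hz₁ _ hLmem c1' hx).1 le_rfl)
          have k2 := (hbb _ z₂ c2).trans ((hd3 _ hLmem z₂ hz₂ c2 hxL).2 le_rfl)
          have e : min c0 (1 / 2) * p.chiE * p.lam1 IF * skwR z₁ ^ 2 * (z₂ - z₁)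
              = min c0 (1 / 2) * p.chiE * p.lam1 IF * skwR z₁ ^ 2 * (llBase.xiS IF.T - z₁)
                + min c0 (1 / 2) * p.chiE * p.lam1 IF * skwR z₁ ^ 2 * (z₂ - llBase.xiS IF.T) := by ring
          rw [e]
          linarith
    · intro z hz
      have hz2 : z ≤ 2 * IF.z0 := hz.2.trans (min_le_right _ _)
      rw [hD]
      show cA / 2 ≤ skwInG (skwLlProf llBase IF At cA) (l8pIn I π) z
      unfold skwInG
      rw [if_pos (show z ≤ (skwLlProf llBase IF At cA).zs by show z ≤ llBase.xiS IF.T; linarith [hsm.z0s])]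
      exact g2 z ⟨hz.1, hz2⟩
  · rw [hkπ, hkAt, hkcA, hkCx, hkcx]
    exact X
  · rw [hkπ, hkzl, hV]
    have hmem : zl ∈ Icc 0 ((l8pIn I π).pf (skwLlProf llBase IF At cA)).zmax := ⟨hzl0.le, by linarith⟩
    refine (X.v.upper zl hmem).trans ?_
    rw [div_le_iff₀ hcv0]
    exact (min_le_left _ _).trans hzlv
  · rw [hkπ, hkzl, hkc, hkCW]
    intro hdev
    rw [hprof, hin] at hdev
    obtain ⟨w1, w2, -, w4⟩ := hW p hp hN4 hdsm hUa (l8pSv I) I.Z (zl / I.Y * I.Y) hdev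
    have hD : l8pD I π = skwInD (skwLlProf llBase IF At cA) (skwLlIn llBase IF p (l8pSv I) I.Z eps K A (zl / I.Y * I.Y)) := by rw [hπ]; rfl
    have hH : l8pH I π = skwH c (skwInD (skwLlProf llBase IF At cA) (skwLlIn llBase IF p (l8pSv I) I.Z eps K A (zl / I.Y * I.Y))) := by rw [hπ]; rfl
    rw [hD, hH]
    exact ⟨w1, w2, w4⟩

/-- OWNER: free -/
theorem l8si_clk (T : ℝ) (hT : 1 < T) : L8siLeafClk llBase T := by
  intro F0 hF pB pS h0 h1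
  have h3 : LlSec3 llBase (F0.wExp pB.sStar pB.eta pS) := (hF.2.2 _ _ _ (llc_expOk pB h0 h1)).sec3
  obtain ⟨Ne, hequi⟩ := h3.equi
  obtain ⟨ca, Ca, hca, Na, hadm⟩ := h3.adm
  obtain ⟨cr, Cr, v0, hcr, hv0, Nr, href⟩ := h3.ref
  refine ⟨max Ne (max Na Nr), 0, fun I hI => ?_⟩
  have hNe : Ne ≤ I.p.N := (le_max_left _ _).trans hI.hN
  have hNa : Na ≤ I.p.N := ((le_max_left _ _).trans (le_max_right _ _)).trans hI.hN
  have hNr : Nr ≤ I.p.N := ((le_max_right _ _).trans (le_max_right _ _)).trans hI.hN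
  have hpt : I.p.Ok (F0.wExp pB.sStar pB.eta pS) := hI.hF ▸ hI.ok.pt
  have hA := hadm I.p hpt hNa
  have hR := href I.p hpt hNr
  rw [← hI.hF, ← hI.hB] at hA hR
  have ha0 : 0 < I.a := by
    unfold L8In.a LlPt.a
    split_ifs
    · norm_num
    · linarith [hI.ok.pt.ell1]
  have hx0 : 0 < I.x := I.x_pos hI.ok
  obtain ⟨-, hmh, -, hmK, -, hpos, -, -⟩ := hA
  have hz : (0 : ℝ) ∈ Icc 0 I.p.a := ⟨le_rfl, ha0.le⟩
  have hKc : GhClk1 I.a (I.p.K I.F I.𝔹) := ⟨hmK, (hpos 0 hz).2.2.2.2⟩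
  have hhc : GhClk1 I.a (I.p.h I.F I.𝔹) := ⟨hmh, (hpos 0 hz).2.2.1⟩
  have hK0 : I.p.K I.F I.𝔹 0 = 0 := by
    refine le_antisymm ?_ (hpos 0 hz).2.2.2.2
    by_contra hc
    push Not at hc
    set k0 := I.p.K I.F I.𝔹 0 with hk0
    have hC : 0 < |Cr| + 1 := by positivity
    set v := min (min v0 I.a) (k0 / (2 * (|Cr| + 1))) with hv
    have hvpos : 0 < v := lt_min (lt_min hv0 ha0) (by positivity)
    have e1 := hR.K_hi0 v hvpos ((min_le_left _ _).trans (min_le_left _ _))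
    have e2 := hmK hz ⟨hvpos.le, (min_le_left _ _).trans (min_le_right _ _)⟩ hvpos.le
    have e3 : v ≤ k0 / (2 * (|Cr| + 1)) := min_le_right _ _
    rw [le_div_iff₀ (by positivity)] at e3
    have e4 : Cr * v ≤ |Cr| * v := mul_le_mul_of_nonneg_right (le_abs_self _) hvpos.le
    nlinarith
  have heK : ∀ η : ℝ, 0 < η → ∃ δ : ℝ, 0 < δ ∧ ∀ v v' : ℝ, 0 ≤ v → v ≤ v' → v' ≤ I.a → v' - v ≤ δ →
      I.p.K I.F I.𝔹 v' - I.p.K I.F I.𝔹 v ≤ η := by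
    intro η hη
    obtain ⟨δ, hδ, H⟩ := hequi I.p.N hNe η hη
    refine ⟨δ, hδ, fun v v' a1 a2 a3 a4 => ?_⟩
    have := (H I.p hpt rfl v v' a1 a2 a3 a4).1
    rwa [← hI.hF, ← hI.hB] at this
  have heh : ∀ η : ℝ, 0 < η → ∃ δ : ℝ, 0 < δ ∧ ∀ v v' : ℝ, I.x ≤ v → v ≤ v' → v' ≤ I.a → v' - v ≤ δ →
      I.p.h I.F I.𝔹 v' - I.p.h I.F I.𝔹 v ≤ η := by
    intro η hη
    obtain ⟨δ, hδ, H⟩ := hequi I.p.N hNe η hη
    refine ⟨δ, hδ, fun v v' a1 a2 a3 a4 => ?_⟩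
    have := (H I.p hpt rfl v v' (hx0.le.trans a1) a2 a3 a4).2.2.2.2 (Or.inr a1)
    rwa [← hI.hF, ← hI.hB] at this
  constructor
  · intro k hk
    rcases k with _ | j
    · show llCumK I.LP 0 = I.p.K I.F I.𝔹 (if 0 = 0 then 0 else _)
      rw [if_pos rfl, hK0]
      simp [llCumK]
    · obtain ⟨q, hq, e1, e2, -⟩ := l8p_clk_dict I (Nat.lt_of_succ_le hk)
      have hok := (gh_os_ps_mem.1 hq).2
      rw [e1, e2]
      exact l8p_clk_at0 ha0.le hKc hK0 heK hok.1 hok.2.1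
  · intro k hk hx
    rcases k with _ | j
    · exfalso
      have : l8pVl I 0 = 0 := if_pos rfl
      rw [this] at hx
      linarith
    · obtain ⟨q, hq, e1, -, e3⟩ := l8p_clk_dict I (Nat.lt_of_succ_le hk)
      have hok := (gh_os_ps_mem.1 hq).2
      rw [e1] at hx ⊢
      rw [e3]
      exact l8p_clk_at ha0.le hhc hx0.le heh hx hok.2.1

/-- OWNER: free -/
theorem l8si_dev (T : ℝ) (_hT : 1 < T) : L8siLeafDev llBase T := by
  refine ⟨6, by norm_num, ?_⟩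
  intro F0 hF pB pS h0 h1 k hk
  have h3 : LlSec3 llBase (F0.wExp pB.sStar pB.eta pS) := (hF.2.2 _ _ _ (llc_expOk pB h0 h1)).sec3
  obtain ⟨ca, Ca, hca, Na, hadm⟩ := h3.adm
  have hxi : 0 < llBase.xiS T := hF.2.1.xi_pos
  have hcv := hk.cv0
  have hzl := hk.zl0
  have hLq := hk.Lq
  obtain ⟨N1, a1⟩ := l8p_hn_small (3 / 4) (k.cv * k.zl / 4) (by norm_num) (by positivity)
  obtain ⟨N2, a2⟩ := l8p_hn_small 1 (1 / (3 * (1 + 2 * k.Lq))) one_pos (by positivity)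
  refine ⟨max Na (max N1 N2), 3, fun I hI geo clk => ?_⟩
  have hNa : Na ≤ I.p.N := (le_max_left _ _).trans hI.hN
  have b1 := a1 I.p (((le_max_left _ _).trans (le_max_right _ _)).trans hI.hN)
  have b2 := a2 I.p (((le_max_right _ _).trans (le_max_right _ _)).trans hI.hN)
  clear a1 a2
  have hpt : I.p.Ok (F0.wExp pB.sStar pB.eta pS) := hI.hF ▸ hI.ok.pt
  have hA := hadm I.p hpt hNa
  rw [← hI.hF, ← hI.hB] at hA
  obtain ⟨-, -, -, hmK, hmq, -, -, -⟩ := hA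
  have hx0 : 0 < I.x := I.x_pos hI.ok
  have hx1 : I.x ≤ 1 := I.x_le_one hI.ok
  have fine : I.Fine (I.x ^ 3) := by
    have := hI.fine
    rwa [show (3 : ℝ) = ((3 : ℕ) : ℝ) by norm_num, Real.rpow_natCast] at this
  have hm : 0 < I.m := by have := hI.ok.m_lo; have := hI.ok.pt.N2; omega
  have hae : I.a = I.p.ell := by
    show (if I.p.sm then 4 else I.p.ell) = I.p.ell
    rw [hI.sm]; rfl
  have hell1 : 1 ≤ I.p.ell := hI.ok.pt.ell1
  have ha0 : 0 < I.a := by rw [hae]; linarith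
  have hadmP : SkAdm I.a I.P0 := fine.adm.1
  have hS : ∀ k, 0 ≤ I.S k ∧ I.S k ≤ 1 := fun k => fd_S_range hm ha0 I.P0 hadmP 0 k
  have hdv0 : ∀ k ≤ I.n, 0 ≤ I.dv k := fun k _ => pin_gap_nonneg ha0 I.P0 hadmP k
  have hA0 : ∀ k ≤ I.n, 0 ≤ I.A k := by
    intro k _
    have := (fd_B_range hm ha0 I.P0 hadmP 0 k).1
    have h' : I.S k ^ 2 ≤ I.B k := this
    unfold L8In.A
    nlinarith [sq_nonneg (I.S k - I.q k)]
  -- `x ≤ U ≤ x^(3/4)`
  have hsS : I.F.sS = pB.sStar := by rw [hI.hF]; rfl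
  have hpS : I.F.pS = pS := by rw [hI.hF]; rfl
  have hFT : I.F.T = T := by rw [hI.hF]; exact hF.1
  have hlamE : I.lam = I.x ^ pS := hI.hlam
  have hl0 : 0 < I.lam := by rw [hlamE]; exact Real.rpow_pos_of_pos hx0 _
  have hl1 : I.lam ≤ 1 := by rw [hlamE]; exact Real.rpow_le_one hx0.le hx1 h0.le
  have hs0 : 0 ≤ pB.sStar := by
    have := (llc_expOk pB h0 h1).s_lo
    linarith
  have hs1 : pB.sStar ≤ 1 / 2 := by
    have := pB.tau_pos
    unfold LLParB.sStar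
    linarith
  have hxU : I.x ≤ I.U := by
    show I.x ≤ min 1 (I.x * I.lam ^ (-(I.F.sS / 2)))
    rw [hsS]
    exact le_min hx1 (le_mul_of_one_le_right hx0.le (Real.one_le_rpow_of_pos_of_le_one_of_nonpos hl0 hl1 (by linarith)))
  have hUx : I.U ≤ I.x ^ (3 / 4 : ℝ) := by
    show min 1 (I.x * I.lam ^ (-(I.F.sS / 2))) ≤ _
    refine (min_le_right _ _).trans ?_
    rw [hsS, hlamE, ← Real.rpow_mul hx0.le]
    nth_rewrite 1 [← Real.rpow_one I.x]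
    rw [← Real.rpow_add hx0]
    refine Real.rpow_le_rpow_of_exponent_ge hx0 hx1 ?_
    nlinarith
  have hU0 : 0 < I.U := hx0.trans_le hxU
  have hZ1 := l8p_dev_Z1 I hA0 hdv0
  have hY : I.Y = I.U * I.Z := rfl
  have hUY : I.U ≤ I.Y := by rw [hY]; exact le_mul_of_one_le_right hU0.le hZ1
  have hY0 : 0 < I.Y := hU0.trans_le hUY
  have hzsE : (l8pProf I (k.par I)).zs = llBase.xiS T := by
    show I.𝔹.xiS I.F.T = _
    rw [hI.hB, hFT]
  have hczs : k.c.zs = llBase.xiS T := by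
    have := geo.zs
    rw [hI.hB, hFT] at this
    exact this
  have hzs0 : 0 ≤ (k.par I).c.zs := by
    show 0 ≤ k.c.zs
    rw [hczs]; exact hxi.le
  have hxs : 3 * (1 + 2 * k.Lq) * I.x ≤ 1 := by
    rw [Real.rpow_one, le_div_iff₀ (by positivity)] at b2
    have e : I.x = I.p.x := rfl
    rw [e]
    linarith
  have hSl : ∀ k ≤ I.n, I.S k = (I.sp false).S k := by
    intro k hk
    have hk' : k ≤ I.P0.length := by
      have : I.n = I.P0.length := by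
        show I.LP.length = (llMat I.LP).length
        simp [llMat]
      omega
    exact (l8i_S I.m I.a ha0 I.P0 hadmP k hk').symm
  have hzlo : (l8pIn I (k.par I)).zlo = k.zl := by
    show k.zl / I.Y * I.Y = k.zl
    exact div_mul_cancel₀ _ hY0.ne'
  have hzloD : (l8pD I (k.par I)).zlo = k.zl := hzlo
  refine ⟨?_, hZ1, hSl, hzloD⟩
  refine
    { Z1 := hZ1
      zlo0 := by rw [hzlo]; exact hzl
      zlo1 := by rw [hzlo, hzsE, ← hczs]; exact hk.zls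
      zloY := ?_
      Smono := ?_
      S0 := fun v _ => (hS _).1
      S1 := fun v _ => (hS _).2
      D1v := ?_ }
  · rw [hzlo, one_div, inv_mul_cancel₀ hzl.ne']
    exact min_le_right _ _
  · intro v _ v' _ hvv
    exact bst_S_mono ha0 hadmP 0 (sap_idx_mono I.P0 hvv)
  · intro r hr1 hr2
    show ∫ v in r..I.p.ell, (l8pSv I v - I.p.q I.F I.𝔹 v) ^ 2 ≤ 6 * (I.U * I.Z) ^ 4 / r
    set U' := skwInV (l8pProf I (k.par I)) (l8pIn I (k.par I)) ((l8pIn I (k.par I)).zlo / 4) with hU'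
    have hzm : (l8pIn I (k.par I)).zlo / 4 ∈ Icc 0 ((l8pIn I (k.par I)).pf (l8pProf I (k.par I))).zmax := by
      rw [hzlo]
      refine ⟨by positivity, ?_⟩
      have e1 : k.c.zs ≤ ((l8pIn I (k.par I)).pf (l8pProf I (k.par I))).zmax := geo.zsm
      have e3 := hk.zls
      linarith
    have hUU : I.U ≤ U' := by
      have := geo.vc.lower _ hzm
      have e1 : skwR ((l8pIn I (k.par I)).zlo / 4) = k.zl / 4 := by
        rw [hzlo]
        unfold skwR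
        exact min_eq_left (by linarith [hk.zl1])
      rw [e1] at this
      refine le_trans ?_ this
      have e2 : I.x ^ (3 / 4 : ℝ) ≤ k.cv * k.zl / 4 := b1
      linarith
    have hU'0 : 0 < U' := hU0.trans_le hUU
    have key := skw_leaf_inTail (fun v => (l8pSv I v - I.p.q I.F I.𝔹 v) ^ 2) U' I.p.ell (3 * (I.U * I.Z) ^ 4) hU'0 (hr1.trans hr2) (by positivity)
      (fun v _ => sq_nonneg _) (l8p_dev_intble I hmq hS hU'0.le (hr1.trans hr2) hae.ge)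
      (fun r' hr' => l8p_dev_dy_est geo clk fine hI.ok hI.sm hmq hmK hLq hxs hxU hzs0 (hUU.trans hr'.1) hr'.2) r ⟨hr1, hr2⟩
    refine key.trans (le_of_eq ?_)
    ring

/-- OWNER: free -/
theorem l8si_mesh (𝔹 : LlBase) (F : LlFix) : L8siLeafMesh 𝔹 F := by
  intro c hc
  obtain ⟨N0, hN0⟩ := skw_llb_small 1 (1 / (4 + c.Cp ^ 4)) one_pos (by have := hc.Cp; positivity)
  refine ⟨N0, 55, ?_⟩
  intro I hat π S cv c3 cG zr Lq hπ geo clk grid H P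
  subst hπ
  have hCp1 : 1 ≤ π.c.Cp := hc.Cp
  have hCp0 : 0 < π.c.Cp := by linarith
  have hCp4 : 1 ≤ π.c.Cp ^ 4 := one_le_pow₀ hCp1
  have hx0 : 0 < I.x := I.x_pos hat.ok
  have hx1 : I.x ≤ 1 := I.x_le_one hat.ok
  have hxs : (4 + π.c.Cp ^ 4) * I.x ≤ 1 := by
    have h1 : I.x ^ (1 : ℝ) ≤ 1 / (4 + π.c.Cp ^ 4) := hN0 I.p hat.hN
    rw [Real.rpow_one, le_div_iff₀ (by positivity)] at h1
    linarith
  have fine : I.Fine (I.x ^ 55) := by
    have := hat.fine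
    rwa [show (55 : ℝ) = ((55 : ℕ) : ℝ) by norm_num, Real.rpow_natCast] at this
  have hη0 : 0 < I.x ^ 55 := by positivity
  have ha : I.a = I.p.ell := by
    have : I.a = if I.p.sm then (4 : ℝ) else I.p.ell := rfl
    rw [this, hat.sm]; simp
  have hell1 : 1 ≤ I.p.ell := hat.ok.pt.ell1
  have hell2 : I.p.ell ≤ 2 := by
    refine hat.ok.pt.ell2.trans ?_
    calc (2 : ℝ) ^ (1 / 6 : ℝ) ≤ (2 : ℝ) ^ (1 : ℝ) := Real.rpow_le_rpow_of_exponent_le (by norm_num) (by norm_num)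
      _ = 2 := Real.rpow_one _
  have hxU : I.x ≤ (l8pD I π).U := H.xU
  have hlen : I.P0.length = I.n := by simp [L8In.P0, L8In.n, llMat]
  have hVls : ∀ k, l8pVl I (k + 1) = I.v k := fun k => by simp [l8pVl]
  have hvn : I.v I.n = I.a := l8pg_ms_ge I.a (by rw [hlen])
  have hdv : ∀ k, I.dv k = l8pVl I (k + 1) - l8pVl I k := fun k => by rw [hVls]; rfl
  have hK : ∀ k, I.p.K I.F I.𝔹 (l8pVl I k) = (I.p.ell ^ 2)⁻¹ * min (l8pZc I π k) π.c.zs := by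
    intro k
    rw [← (grid.vz k).2]
    exact geo.K _ (grid.vz k).1
  have hdK : ∀ k ≤ I.n, I.p.K I.F I.𝔹 (l8pVl I (k + 1)) - I.p.K I.F I.𝔹 (l8pVl I k) ≤ I.x ^ 55 := by
    intro k hk
    rcases Nat.lt_or_ge k I.n with h | h
    · rw [← clk.K (k + 1) h, ← clk.K k hk]
      show llCumK I.LP (k + 1) - llCumK I.LP k ≤ I.x ^ 55
      rw [l8pg_cumK_succ I.LP h]
      have := fine.dK_le _ (List.getElem_mem h)
      linarith
    · have e : k = I.n := le_antisymm hk h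
      rw [e, hVls, hvn, ← clk.K I.n le_rfl]
      exact fine.K_top
  have hmin : ∀ k ≤ I.n, min (l8pZc I π (k + 1)) π.c.zs - min (l8pZc I π k) π.c.zs ≤ 4 * I.x ^ 55 := by
    intro k hk
    have h1 := hdK k hk
    rw [hK, hK, ← mul_sub] at h1
    have h2 : 0 < I.p.ell ^ 2 := by positivity
    rw [inv_mul_le_iff₀ h2] at h1
    have h3 : I.p.ell ^ 2 ≤ 4 := by nlinarith
    nlinarith
  have hmax : ∀ k ≤ I.n, max (l8pZc I π (k + 1)) π.c.zs - max (l8pZc I π k) π.c.zs ≤ π.c.Cp ^ 4 * I.x ^ 51 := by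
    intro k hk
    have hkk : l8pZc I π k ≤ l8pZc I π (k + 1) := grid.zmono (Nat.le_succ k)
    rcases le_or_gt (l8pZc I π (k + 1)) π.c.zs with h | h
    · rw [max_eq_right h, max_eq_right (hkk.trans h), sub_self]
      positivity
    · rw [max_eq_left h.le]
      have h1 : π.c.zs ≤ max (l8pZc I π k) π.c.zs := le_max_right _ _
      have h12 : max (l8pZc I π k) π.c.zs ≤ l8pZc I π (k + 1) := max_le hkk h.le
      have h2 := (grid.vz (k + 1)).1.2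
      have h3 := l8pg_len hc H P h1 h12 h2
      have hz1 : max (l8pZc I π k) π.c.zs ∈ Icc 0 (l8pD I π).zmax := ⟨hc.zs.le.trans h1, h12.trans h2⟩
      have h4 : ∫ z in (max (l8pZc I π k) π.c.zs)..(l8pZc I π (k + 1)), (l8pD I π).G z
          = l8pV I π (l8pZc I π (k + 1)) - l8pV I π (max (l8pZc I π k) π.c.zs) := geo.vc.mass _ hz1 _ (grid.vz (k + 1)).1
      have h5 : l8pV I π (l8pZc I π k) ≤ l8pV I π (max (l8pZc I π k) π.c.zs) :=
        geo.vc.mono.monotoneOn (grid.vz k).1 hz1 (le_max_left _ _)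
      have h6 : I.dv k ≤ I.x ^ 55 := fine.dv_le k hk
      rw [hdv] at h6
      rw [h4, (grid.vz (k + 1)).2] at h3
      rw [(grid.vz k).2] at h5
      have h7 : (l8pZc I π (k + 1) - max (l8pZc I π k) π.c.zs) * ((l8pD I π).U ^ 4 / π.c.Cp ^ 4) ≤ I.x ^ 55 := by linarith
      have h8 : I.x ^ 4 / π.c.Cp ^ 4 ≤ (l8pD I π).U ^ 4 / π.c.Cp ^ 4 :=
        div_le_div_of_nonneg_right (pow_le_pow_left₀ hx0.le hxU 4) (by positivity)
      have h9 : (l8pZc I π (k + 1) - max (l8pZc I π k) π.c.zs) * (I.x ^ 4 / π.c.Cp ^ 4) ≤ I.x ^ 55 :=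
        (mul_le_mul_of_nonneg_left h8 (by linarith)).trans h7
      have e : I.x ^ 55 = π.c.Cp ^ 4 * I.x ^ 51 * (I.x ^ 4 / π.c.Cp ^ 4) := by
        field_simp
      rw [e] at h9
      exact le_of_mul_le_mul_right h9 (by positivity)
  refine ⟨?_, ?_⟩
  · intro k hk
    have h1 := hmin k hk
    have h2 := hmax k hk
    have h3 := min_add_max (l8pZc I π (k + 1)) π.c.zs
    have h4 := min_add_max (l8pZc I π k) π.c.zs
    have h5 : I.x ^ 55 ≤ I.x ^ 51 := pow_le_pow_of_le_one hx0.le hx1 (by norm_num)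
    have h6 : (4 + π.c.Cp ^ 4) * I.x ^ 51 ≤ I.x ^ 50 := by
      have e : (4 + π.c.Cp ^ 4) * I.x ^ 51 = ((4 + π.c.Cp ^ 4) * I.x) * I.x ^ 50 := by ring
      rw [e]
      calc ((4 + π.c.Cp ^ 4) * I.x) * I.x ^ 50 ≤ 1 * I.x ^ 50 := mul_le_mul_of_nonneg_right hxs (by positivity)
        _ = I.x ^ 50 := one_mul _
    linarith
  · by_contra hcon
    rw [not_le] at hcon
    have hzs : π.c.zs ∈ Icc 0 (l8pD I π).zmax := ⟨hc.zs.le, H.zmax⟩
    have hzm : (l8pD I π).zmax ∈ Icc 0 (l8pD I π).zmax := ⟨hc.zs.le.trans H.zmax, le_rfl⟩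
    have h1 : l8pV I π (l8pZc I π I.n) < l8pV I π π.c.zs := geo.vc.mono (grid.vz I.n).1 hzs hcon
    have h2 : 1 / π.c.Cp ≤ ∫ z in π.c.zs..(l8pD I π).zmax, (l8pD I π).G z := P.mass
    have h3 : ∫ z in π.c.zs..(l8pD I π).zmax, (l8pD I π).G z = l8pV I π (l8pD I π).zmax - l8pV I π π.c.zs :=
      geo.vc.mass _ hzs _ hzm
    have h4 : l8pV I π (l8pD I π).zmax = I.p.ell := geo.vc.vmax
    have h5 : I.dv I.n ≤ I.x ^ 55 := fine.dv_le I.n le_rfl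
    rw [hdv, hVls, hvn, ha] at h5
    rw [(grid.vz I.n).2] at h1
    have h6 : I.x ^ 55 ≤ I.x := by
      calc I.x ^ 55 ≤ I.x ^ 1 := pow_le_pow_of_le_one hx0.le hx1 (by norm_num)
        _ = I.x := pow_one _
    have h7 : I.x < 1 / π.c.Cp := by
      rw [lt_div_iff₀ hCp0]
      have h8 : π.c.Cp ≤ π.c.Cp ^ 4 := by
        calc π.c.Cp = π.c.Cp ^ 1 := (pow_one _).symm
          _ ≤ π.c.Cp ^ 4 := pow_le_pow_right₀ hCp1 (by norm_num)
      nlinarith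
    rw [h3, h4] at h2
    linarith

/-- OWNER: free -/
theorem l8si_sus (𝔹 : LlBase) (F : LlFix) : L8siLeafSus 𝔹 F := by
  obtain ⟨N1, a1⟩ := l8p_hn_small 1 (1 / 6) one_pos (by norm_num)
  refine ⟨N1, 7, fun I hI => ?_⟩
  have b1 := a1 I.p hI.hN
  rw [Real.rpow_one] at b1
  have hx0 : 0 < I.x := I.x_pos hI.ok
  have fine : I.Fine (I.x ^ 7) := by
    have := hI.fine
    rwa [show (7 : ℝ) = ((7 : ℕ) : ℝ) by norm_num, Real.rpow_natCast] at this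
  have hm : 1 ≤ I.m := by have := hI.ok.m_lo; have := hI.ok.pt.N2; omega
  have hae : I.a = I.p.ell := by
    show (if I.p.sm then 4 else I.p.ell) = I.p.ell
    rw [hI.sm]; rfl
  have hell1 : 1 ≤ I.p.ell := hI.ok.pt.ell1
  have hell2 : I.p.ell ^ 2 ≤ 2 := by
    have h1 : I.p.ell ≤ (2 : ℝ) ^ (1 / 6 : ℝ) := hI.ok.pt.ell2
    calc I.p.ell ^ 2 ≤ ((2 : ℝ) ^ (1 / 6 : ℝ)) ^ 2 := pow_le_pow_left₀ (by linarith) h1 2
      _ = (2 : ℝ) ^ (1 / 3 : ℝ) := by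
          rw [← Real.rpow_natCast, ← Real.rpow_mul (by norm_num)]; norm_num
      _ ≤ (2 : ℝ) ^ (1 : ℝ) := Real.rpow_le_rpow_of_exponent_le (by norm_num) (by norm_num)
      _ = 2 := by norm_num
  have ha0 : 0 < I.a := by rw [hae]; linarith
  have hadm : SkAdm I.a I.P0 := fine.adm.1
  have hmx : (I.m : ℝ) * I.x ^ 6 ≤ 3 := by
    rw [show I.x ^ 6 = 1 / (I.p.N : ℝ) from l8p_str_x6 I.p]
    have hN' : (0 : ℝ) < I.p.N := by exact_mod_cast (by have := hI.ok.pt.N2; omega : 0 < I.p.N)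
    have h2 : (I.m : ℝ) ≤ 3 * I.p.N := by exact_mod_cast hI.ok.m_hi
    rw [mul_one_div, div_le_iff₀ hN']
    exact h2
  have h := l8i_sus_h I.m hm I.a ha0 I.P0 hadm (δ := 1) (by norm_num) (fun e he => ?_)
  · norm_num at h
    norm_num
    exact h
  · obtain ⟨e', he', rfl⟩ := List.mem_map.1 he
    have d1 : e'.dh ≤ I.x ^ 7 := fine.dh_le e' he'
    have d0 : 0 ≤ e'.dh := (hadm.2 _ he).2.2.2
    show I.a ^ 2 * ((I.m : ℝ) * e'.dh) ≤ 1
    rw [hae]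
    have m0 : (0 : ℝ) ≤ I.m := Nat.cast_nonneg _
    have e1 : (I.m : ℝ) * e'.dh ≤ 1 / 2 := by
      calc (I.m : ℝ) * e'.dh ≤ I.m * I.x ^ 7 := mul_le_mul_of_nonneg_left d1 m0
        _ = (I.m * I.x ^ 6) * I.x := by ring
        _ ≤ 3 * (1 / 6) := mul_le_mul hmx b1 hx0.le (by norm_num)
        _ = 1 / 2 := by norm_num
    have e2 : 0 ≤ (I.m : ℝ) * e'.dh := mul_nonneg m0 d0
    nlinarith

/-- OWNER: free -/
theorem l8si_num (𝔹 : LlBase) : L8siLeafNum 𝔹 := by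
  intro F0 pB pS h0 h1 k hk
  have hcv := hk.cv0
  have hzl := hk.zl0
  have hCW : 0 < k.CW := lt_of_lt_of_le one_pos hk.CW
  obtain ⟨N1, a1⟩ := l8p_hn_small 1 (k.cv * k.zl / 2) one_pos (by positivity)
  obtain ⟨N2, a2⟩ := l8p_hn_small 1 (k.zl / k.CW ^ 2) one_pos (by positivity)
  refine ⟨max N1 N2, 0, fun I hat => ?_⟩
  have b1 := a1 I.p ((le_max_left _ _).trans hat.hN)
  have b2 := a2 I.p ((le_max_right _ _).trans hat.hN)
  rw [Real.rpow_one] at b1 b2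
  have hx0 : 0 < I.x := I.x_pos hat.ok
  have hx1 : I.x ≤ 1 := I.x_le_one hat.ok
  have hsS : I.F.sS = pB.sStar := by rw [hat.hF]; rfl
  have heta : I.F.eta = pB.eta := by rw [hat.hF]; rfl
  have hpS : I.F.pS = pS := by rw [hat.hF]; rfl
  have hl0 : 0 < I.lam := lt_of_lt_of_le (Real.rpow_pos_of_pos hx0 _) hat.ok.pt.lam_lo
  have hlhi : I.lam ≤ I.x ^ pS := hpS ▸ hat.ok.pt.lam_hi
  have hl1 : I.lam ≤ 1 := hlhi.trans (Real.rpow_le_one hx0.le hx1 h0.le)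
  have t1 := pB.tau_le
  have t2 := pB.eta_le
  have t3 := pB.tau_pos
  have t4 := pB.eta_pos
  have hs : pB.sStar = 1 / 2 - pB.tau := rfl
  obtain ⟨t, ht⟩ : ∃ t, t = I.x * I.lam ^ (-(pB.sStar / 2)) := ⟨_, rfl⟩
  have hUdef : I.U = min 1 t := by rw [ht, ← hsS]; rfl
  have hxt : I.x ≤ t := by
    rw [ht]
    exact le_mul_of_one_le_right hx0.le (Real.one_le_rpow_of_pos_of_le_one_of_nonpos hl0 hl1 (by linarith))
  have hxU : I.x ≤ I.U := by rw [hUdef]; exact le_min hx1 hxt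
  have hlam1 : I.lam1 = I.lam ^ (1 + pB.eta) := by rw [← heta]; rfl
  have hb2 : I.x * k.CW ^ 2 ≤ k.zl := by
    have : I.x ≤ k.zl / k.CW ^ 2 := b2
    rwa [le_div_iff₀ (by positivity)] at this
  refine
    { xz := by
        have : I.x ≤ k.cv * k.zl / 2 := b1
        have h2 : 0 < k.cv * k.zl := by positivity
        linarith
      mu := ?_
      xU := hxU
      U1 := by rw [hUdef]; exact min_le_left _ _
      l0 := by rw [hlam1]; exact Real.rpow_pos_of_pos hl0 _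
      l1 := by rw [hlam1]; exact Real.rpow_le_one hl0.le hl1 (by linarith) }
  rw [le_div_iff₀ (by positivity)]
  refine le_min ?_ ?_
  · have e1 : I.x ≤ I.x ^ k.eps := by
      calc I.x = I.x ^ (1 : ℝ) := (Real.rpow_one _).symm
        _ ≤ I.x ^ k.eps := Real.rpow_le_rpow_of_exponent_ge hx0 hx1 hk.eps1
    have e2 : I.x ^ 49 ≤ I.x := by
      calc I.x ^ 49 ≤ I.x ^ 1 := pow_le_pow_of_le_one hx0.le hx1 (by norm_num)
        _ = I.x := pow_one _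
    calc I.x ^ 50 * k.CW ^ 2 = I.x * (I.x ^ 49 * k.CW ^ 2) := by ring
      _ ≤ I.x * (I.x * k.CW ^ 2) := mul_le_mul_of_nonneg_left (mul_le_mul_of_nonneg_right e2 (by positivity)) hx0.le
      _ ≤ I.x * k.zl := mul_le_mul_of_nonneg_left hb2 hx0.le
      _ ≤ I.x ^ k.eps * k.zl := mul_le_mul_of_nonneg_right e1 hzl.le
  · have e2 : I.x ^ 48 ≤ I.x := by
      calc I.x ^ 48 ≤ I.x ^ 1 := pow_le_pow_of_le_one hx0.le hx1 (by norm_num)
        _ = I.x := pow_one _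
    have e3 : I.x * k.CW ^ 2 ≤ 1 := hb2.trans hk.zl1
    calc I.x ^ 50 * k.CW ^ 2 = I.x ^ 2 * (I.x ^ 48 * k.CW ^ 2) := by ring
      _ ≤ I.x ^ 2 * (I.x * k.CW ^ 2) := mul_le_mul_of_nonneg_left (mul_le_mul_of_nonneg_right e2 (by positivity)) (by positivity)
      _ ≤ I.x ^ 2 * 1 := mul_le_mul_of_nonneg_left e3 (by positivity)
      _ = I.x ^ 2 := mul_one _
      _ ≤ I.U ^ 2 := pow_le_pow_left₀ hx0.le hxU 2

/-! INST-L, INST-E and the exit `l8si_main` : `L08/DcsInstB.lean` -/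

end Claimed.Agent.R286
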