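import Mathlib

/-!
# Row 286 (S0533), LL 08/09, DD-LINK, ABSTRACT PART      (helper245; prefix `l8k_`; Mathlib only; 0 sorry)

Design: note `DDLINK_60.md` of helper60, sec. 2 and 4.   Head of the unit: helper226 (`L08/DdLink.lean`).

PROBLEM.   `F(t) = G(t) + B(t) E(t)`, `E = u - w`, `u` = a chain number, `w` = a path number, `sup |E| ≤ η` (q-link, uniform in the point).   Wanted: `|deriv F t| ≤ L + tiny`,
`L` = a one sided Lipschitz constant of `G`.   No second derivative is available (kinks of the size clock; only Lipschitz information on the path number), and no differentiability of any piece.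
CURE = ANCHORED DIFFERENCES on ONE side of `t`.   Everything is stated for functions `U, Wf` of the STEP `r ∈ [0,h]` (`U r = u (t + σ r)`, `σ = ± 1`), so that both sides are the same lemma.

* `l8k_dy`         dyadic telescoping: `|Wf(2r) - 2 Wf(r) + Wf(0)| ≤ C r²` on `(0,h/2]`  ⟹  `|dW(s) - dW(2ⁿ s)/2ⁿ| ≤ C s² (2ⁿ - 1)/2`
* `l8k_lk0`        (H0) `|U - Wf| ≤ η`, (H1) `|U r - U 0 - r a| ≤ C r (r + dl)`, (H2)  ⟹  `|E s - E 0| ≤ s (4 η/h + 3 C (h + dl))`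
* `l8k_lk`, `l8k_lk_left`      the same at `t + r`, `t - r`
* `l8k_h2`         (H2) with `6 C` for the path number from (H1) for chains with `dl, η` arbitrarily small (finer chains)
* `l8k_link`       (H0), (H1) for the chain + finer chains  ⟹  `|E s - E 0| ≤ s (4 η/h + 18 C (h + dl))`
* `l8k_deriv_le`   `|F (t + σ s) - F t| ≤ M s` on `(0,h]`, `σ = ± 1`  ⟹  `|deriv F t| ≤ M`      (`deriv = 0` if `F` is not differentiable)
* `l8k_prod`       increments of `G + B E`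
* `l8k_deriv`      `|deriv F t| ≤ L + Lb η + Cb κ` from `|E (t + σ s) - E t| ≤ s κ`
* `l8k_dd`         all in one: `|deriv F t| ≤ L + Lb η + Cb (4 η/h + 18 C (h + dl))`
* `l8k_tiny`       the order of the choices: `C`, then `h`, then `η, dl`: the error is `≤ tiny`
-/

set_option autoImplicit false

namespace Claimed.Agent.R286

open Set Filter Topology

/-- dyadic telescoping of an anchored second difference -/
theorem l8k_dy {Wf : ℝ → ℝ} {h C : ℝ}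
    (H2 : ∀ r ∈ Ioc (0 : ℝ) (h / 2), |Wf (2 * r) - 2 * Wf r + Wf 0| ≤ C * r ^ 2) {s : ℝ} (hs : 0 < s) (n : ℕ)
    (hn : 2 ^ n * s ≤ h) :
    |(Wf s - Wf 0) - (Wf (2 ^ n * s) - Wf 0) / 2 ^ n| ≤ C * s ^ 2 * (2 ^ n - 1) / 2 := by
  induction n with
  | zero => simp
  | succ n ih =>
    have h2 : (0 : ℝ) < 2 ^ n := by positivity
    have hle : 2 ^ n * s ≤ h / 2 := by
      rw [pow_succ] at hn
      linarith
    have hh : 2 ^ n * s ≤ h := by
      have : 0 < 2 ^ n * s := by positivity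
      linarith
    have i1 := ih hh
    have i2 := H2 (2 ^ n * s) ⟨by positivity, hle⟩
    have e0 : (2 : ℝ) ^ (n + 1) * s = 2 * (2 ^ n * s) := by rw [pow_succ]; ring
    rw [e0]
    have e1 : (Wf s - Wf 0) - (Wf (2 * (2 ^ n * s)) - Wf 0) / 2 ^ (n + 1)
        = ((Wf s - Wf 0) - (Wf (2 ^ n * s) - Wf 0) / 2 ^ n)
          - (Wf (2 * (2 ^ n * s)) - 2 * Wf (2 ^ n * s) + Wf 0) / 2 ^ (n + 1) := by
      rw [pow_succ]
      field_simp
      ring
    rw [e1]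
    refine (abs_sub _ _).trans ?_
    rw [abs_div, abs_of_pos (by positivity : (0 : ℝ) < 2 ^ (n + 1))]
    have i3 : |Wf (2 * (2 ^ n * s)) - 2 * Wf (2 ^ n * s) + Wf 0| / 2 ^ (n + 1) ≤ C * (2 ^ n * s) ^ 2 / 2 ^ (n + 1) :=
      div_le_div_of_nonneg_right i2 (by positivity)
    have e2 : C * (2 ^ n * s) ^ 2 / 2 ^ (n + 1) = C * s ^ 2 * 2 ^ n / 2 := by
      rw [pow_succ]
      field_simp
      try ring
    have e3 : C * s ^ 2 * (2 ^ (n + 1) - 1) / 2 = C * s ^ 2 * (2 ^ n - 1) / 2 + C * s ^ 2 * 2 ^ n / 2 := by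
      rw [pow_succ]; ring
    rw [e3, ← e2]
    exact add_le_add i1 i3

/-- **the anchored Landau-Kolmogorov inequality** (functions of the step) -/
theorem l8k_lk0 {U Wf : ℝ → ℝ} {h η C dl a : ℝ} (hh : 0 < h) (hC : 0 ≤ C) (hdl : 0 ≤ dl)
    (H0 : ∀ r ∈ Icc (0 : ℝ) h, |U r - Wf r| ≤ η)
    (H1 : ∀ r ∈ Ioc (0 : ℝ) h, |U r - U 0 - r * a| ≤ C * r * (r + dl))
    (H2 : ∀ r ∈ Ioc (0 : ℝ) (h / 2), |Wf (2 * r) - 2 * Wf r + Wf 0| ≤ C * r ^ 2) :
    ∀ s ∈ Ioc (0 : ℝ) h, |(U s - Wf s) - (U 0 - Wf 0)| ≤ s * (4 * η / h + 3 * C * (h + dl)) := by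
  intro s hs
  have hs0 := hs.1
  have hη : 0 ≤ η := (abs_nonneg _).trans (H0 0 ⟨le_rfl, hh.le⟩)
  obtain ⟨n, hn1, hn2⟩ := exists_nat_pow_near (x := h / s) ((one_le_div hs0).2 hs.2) (one_lt_two)
  rw [le_div_iff₀ hs0] at hn1
  rw [div_lt_iff₀ hs0] at hn2
  set p : ℝ := 2 ^ n with hp
  have hp0 : 0 < p := by positivity
  have hp1 : 1 ≤ p := one_le_pow₀ one_le_two
  set h' : ℝ := p * s with hh'
  have hh'0 : 0 < h' := by positivity
  have hh'2 : h / 2 < h' := by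
    rw [pow_succ] at hn2
    rw [hh']
    linarith
  have a1 := l8k_dy H2 hs0 n hn1
  rw [← hp, ← hh'] at a1
  have a2 := H1 s hs
  have a3 := H1 h' ⟨hh'0, hn1⟩
  have a4 := H0 h' ⟨hh'0.le, hn1⟩
  have a5 := H0 0 ⟨le_rfl, hh.le⟩
  -- decomposition
  have e : (U s - Wf s) - (U 0 - Wf 0)
      = ((U h' - Wf h') - (U 0 - Wf 0)) / p + (U s - U 0 - s * a) - (U h' - U 0 - h' * a) / p
        - ((Wf s - Wf 0) - (Wf h' - Wf 0) / p) := by
    rw [hh']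
    field_simp
    ring
  have b1 : |((U h' - Wf h') - (U 0 - Wf 0)) / p| ≤ 2 * η / p := by
    rw [abs_div, abs_of_pos hp0]
    exact div_le_div_of_nonneg_right ((abs_sub _ _).trans (by linarith)) hp0.le
  have b2 : |(U h' - U 0 - h' * a) / p| ≤ C * s * (h' + dl) := by
    rw [abs_div, abs_of_pos hp0, div_le_iff₀ hp0]
    refine a3.trans (le_of_eq ?_)
    rw [hh']; ring
  have b3 : 2 * η / p ≤ s * (4 * η / h) := by
    rw [div_le_iff₀ hp0]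
    have : s * (4 * η / h) * p = 4 * η * h' / h := by rw [hh']; ring
    rw [this, le_div_iff₀ hh]
    nlinarith
  have b4 : C * s ^ 2 * (p - 1) / 2 ≤ C * s * h' / 2 := by
    have : C * s ^ 2 * (p - 1) = C * s * h' - C * s ^ 2 := by rw [hh']; ring
    rw [this]
    have : 0 ≤ C * s ^ 2 := by positivity
    linarith
  have hCs : 0 ≤ C * s := by positivity
  have b5 : C * s * (s + dl) ≤ C * s * (h + dl) := mul_le_mul_of_nonneg_left (by linarith [hs.2]) hCs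
  have b6 : C * s * (h' + dl) ≤ C * s * (h + dl) := mul_le_mul_of_nonneg_left (by linarith) hCs
  have b7 : C * s * h' / 2 ≤ C * s * (h + dl) := by
    have : C * s * h' ≤ C * s * (h + dl) := mul_le_mul_of_nonneg_left (by linarith) hCs
    have : 0 ≤ C * s * (h + dl) := by positivity
    linarith
  rw [e]
  have t1 := abs_sub (((U h' - Wf h') - (U 0 - Wf 0)) / p + (U s - U 0 - s * a) - (U h' - U 0 - h' * a) / p)
    ((Wf s - Wf 0) - (Wf h' - Wf 0) / p)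
  have t2 := abs_sub (((U h' - Wf h') - (U 0 - Wf 0)) / p + (U s - U 0 - s * a)) ((U h' - U 0 - h' * a) / p)
  have t3 := abs_add_le (((U h' - Wf h') - (U 0 - Wf 0)) / p) (U s - U 0 - s * a)
  have e2 : s * (4 * η / h + 3 * C * (h + dl)) = s * (4 * η / h) + 3 * (C * s * (h + dl)) := by ring
  rw [e2]
  linarith

/-- right side -/
theorem l8k_lk {u w : ℝ → ℝ} {t h η C dl a : ℝ} (hh : 0 < h) (hC : 0 ≤ C) (hdl : 0 ≤ dl)
    (H0 : ∀ r ∈ Icc (0 : ℝ) h, |u (t + r) - w (t + r)| ≤ η)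
    (H1 : ∀ r ∈ Ioc (0 : ℝ) h, |u (t + r) - u t - r * a| ≤ C * r * (r + dl))
    (H2 : ∀ r ∈ Ioc (0 : ℝ) (h / 2), |w (t + 2 * r) - 2 * w (t + r) + w t| ≤ C * r ^ 2) :
    ∀ s ∈ Ioc (0 : ℝ) h, |(u (t + s) - w (t + s)) - (u t - w t)| ≤ s * (4 * η / h + 3 * C * (h + dl)) := by
  have := l8k_lk0 (U := fun r => u (t + r)) (Wf := fun r => w (t + r)) (a := a) hh hC hdl H0
    (by simpa using H1) (by simpa using H2)
  simpa using this

/-- left side -/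
theorem l8k_lk_left {u w : ℝ → ℝ} {t h η C dl a : ℝ} (hh : 0 < h) (hC : 0 ≤ C) (hdl : 0 ≤ dl)
    (H0 : ∀ r ∈ Icc (0 : ℝ) h, |u (t - r) - w (t - r)| ≤ η)
    (H1 : ∀ r ∈ Ioc (0 : ℝ) h, |u (t - r) - u t - r * a| ≤ C * r * (r + dl))
    (H2 : ∀ r ∈ Ioc (0 : ℝ) (h / 2), |w (t - 2 * r) - 2 * w (t - r) + w t| ≤ C * r ^ 2) :
    ∀ s ∈ Ioc (0 : ℝ) h, |(u (t - s) - w (t - s)) - (u t - w t)| ≤ s * (4 * η / h + 3 * C * (h + dl)) := by
  have := l8k_lk0 (U := fun r => u (t - r)) (Wf := fun r => w (t - r)) (a := a) hh hC hdl H0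
    (by simpa using H1) (by simpa using H2)
  simpa using this

/-- **(H2) for the path number from (H1) on finer and finer chains** -/
theorem l8k_h2 {Wf : ℝ → ℝ} {h C : ℝ} (hC : 0 ≤ C)
    (H : ∀ ε : ℝ, 0 < ε → ∃ (U : ℝ → ℝ) (a dl η : ℝ), dl ≤ ε ∧ η ≤ ε ∧
      (∀ r ∈ Ioc (0 : ℝ) h, |U r - U 0 - r * a| ≤ C * r * (r + dl)) ∧ ∀ r ∈ Icc (0 : ℝ) h, |U r - Wf r| ≤ η) :
    ∀ r ∈ Ioc (0 : ℝ) (h / 2), |Wf (2 * r) - 2 * Wf r + Wf 0| ≤ 6 * C * r ^ 2 := by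
  intro r hr
  have hr0 := hr.1
  have hh : 0 < h := by linarith [hr.2]
  refine le_of_forall_pos_le_add fun ε' hε' => ?_
  have hden : 0 < 4 * C * r + 4 := by positivity
  obtain ⟨U, a, dl, η, hdl, hη, H1, H0⟩ := H (ε' / (4 * C * r + 4)) (by positivity)
  have a1 := H1 r ⟨hr0, by linarith [hr.2]⟩
  have a2 := H1 (2 * r) ⟨by positivity, by linarith [hr.2]⟩
  have c0 := H0 0 ⟨le_rfl, hh.le⟩
  have c1 := H0 r ⟨hr0.le, by linarith [hr.2]⟩
  have c2 := H0 (2 * r) ⟨by positivity, by linarith [hr.2]⟩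
  have e : Wf (2 * r) - 2 * Wf r + Wf 0
      = (U (2 * r) - U 0 - 2 * r * a) - 2 * (U r - U 0 - r * a) - (U (2 * r) - Wf (2 * r)) + 2 * (U r - Wf r) - (U 0 - Wf 0) := by
    ring
  have b1 := abs_le.1 a1
  have b2 := abs_le.1 a2
  have d0 := abs_le.1 c0
  have d1 := abs_le.1 c1
  have d2 := abs_le.1 c2
  have hCr : 0 ≤ C * r := by positivity
  have k1 : C * r * dl ≤ C * r * (ε' / (4 * C * r + 4)) := mul_le_mul_of_nonneg_left hdl hCr
  have k2 : (4 * C * r + 4) * (ε' / (4 * C * r + 4)) = ε' := by field_simp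
  have k3 : C * (2 * r) * (2 * r + dl) + 2 * (C * r * (r + dl)) = 6 * C * r ^ 2 + 4 * (C * r * dl) := by ring
  have k4 : 4 * (C * r * (ε' / (4 * C * r + 4))) + 4 * (ε' / (4 * C * r + 4)) = ε' := by
    have : 4 * (C * r * (ε' / (4 * C * r + 4))) + 4 * (ε' / (4 * C * r + 4)) = (4 * C * r + 4) * (ε' / (4 * C * r + 4)) := by ring
    rw [this, k2]
  rw [e, abs_le]
  constructor <;> linarith [b1.1, b1.2, b2.1, b2.2, d0.1, d0.2, d1.1, d1.2, d2.1, d2.2]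

/-- **the link**: (H0), (H1) for the chain, (H1) + q-link for finer and finer chains -/
theorem l8k_link {U Wf : ℝ → ℝ} {h η C dl a : ℝ} (hh : 0 < h) (hC : 0 ≤ C) (hdl : 0 ≤ dl)
    (H0 : ∀ r ∈ Icc (0 : ℝ) h, |U r - Wf r| ≤ η)
    (H1 : ∀ r ∈ Ioc (0 : ℝ) h, |U r - U 0 - r * a| ≤ C * r * (r + dl))
    (H : ∀ ε : ℝ, 0 < ε → ∃ (U' : ℝ → ℝ) (a' dl' η' : ℝ), dl' ≤ ε ∧ η' ≤ ε ∧
      (∀ r ∈ Ioc (0 : ℝ) h, |U' r - U' 0 - r * a'| ≤ C * r * (r + dl')) ∧ ∀ r ∈ Icc (0 : ℝ) h, |U' r - Wf r| ≤ η') :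
    ∀ s ∈ Ioc (0 : ℝ) h, |(U s - Wf s) - (U 0 - Wf 0)| ≤ s * (4 * η / h + 18 * C * (h + dl)) := by
  have h2 := l8k_h2 hC H
  have h1 : ∀ r ∈ Ioc (0 : ℝ) h, |U r - U 0 - r * a| ≤ (6 * C) * r * (r + dl) := by
    intro r hr
    refine (H1 r hr).trans ?_
    have : 0 ≤ C * r * (r + dl) := by
      have := hr.1
      positivity
    nlinarith
  have := l8k_lk0 hh (by positivity : 0 ≤ 6 * C) hdl H0 h1 h2
  intro s hs
  refine (this s hs).trans (le_of_eq ?_)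
  ring

/-- a one sided Lipschitz bound at `t` bounds `deriv F t` (which is `0` if `F` is not differentiable at `t`) -/
theorem l8k_deriv_le {F : ℝ → ℝ} {t h M σ : ℝ} (hσ : σ = 1 ∨ σ = -1) (hh : 0 < h)
    (hM : ∀ s ∈ Ioc (0 : ℝ) h, |F (t + σ * s) - F t| ≤ M * s) : |deriv F t| ≤ M := by
  have hM0 : 0 ≤ M := by
    have := (abs_nonneg _).trans (hM h ⟨hh, le_rfl⟩)
    by_contra hn
    have := mul_neg_of_neg_of_pos (not_le.1 hn) hh
    linarith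
  by_cases hd : DifferentiableAt ℝ F t
  · rcases hσ with rfl | rfl
    · have h1 := hd.hasDerivAt.tendsto_slope_zero_right
      refine le_of_tendsto h1.abs ?_
      filter_upwards [Ioo_mem_nhdsGT hh] with s hs
      have := hM s ⟨hs.1, hs.2.le⟩
      rw [one_mul] at this
      rw [smul_eq_mul, abs_mul, abs_inv, abs_of_pos hs.1, inv_mul_le_iff₀ hs.1]
      linarith
    · have h1 := hd.hasDerivAt.tendsto_slope_zero_left
      refine le_of_tendsto h1.abs ?_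
      filter_upwards [Ioo_mem_nhdsLT (show -h < 0 by linarith)] with s hs
      have := hM (-s) ⟨by linarith [hs.2], by linarith [hs.1]⟩
      rw [neg_mul_neg, one_mul] at this
      rw [smul_eq_mul, abs_mul, abs_inv, abs_of_neg hs.2, inv_mul_le_iff₀ (by linarith [hs.2])]
      linarith
  · rw [deriv_zero_of_not_differentiableAt hd, abs_zero]
    exact hM0

/-- increments of `G + B E` -/
theorem l8k_prod {G0 G1 B0 B1 E0 E1 s L Lb Cb η κ : ℝ} (hG : |G1 - G0| ≤ L * s) (hB : |B1| ≤ Cb) (hBl : |B1 - B0| ≤ Lb * s)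
    (hE0 : |E0| ≤ η) (hE : |E1 - E0| ≤ s * κ) :
    |(G1 + B1 * E1) - (G0 + B0 * E0)| ≤ (L + Lb * η + Cb * κ) * s := by
  have e : (G1 + B1 * E1) - (G0 + B0 * E0) = (G1 - G0) + B1 * (E1 - E0) + (B1 - B0) * E0 := by ring
  rw [e]
  have t1 := abs_add_le ((G1 - G0) + B1 * (E1 - E0)) ((B1 - B0) * E0)
  have t2 := abs_add_le (G1 - G0) (B1 * (E1 - E0))
  have m1 : |B1 * (E1 - E0)| ≤ Cb * (s * κ) := by
    rw [abs_mul]
    exact mul_le_mul hB hE (abs_nonneg _) ((abs_nonneg _).trans hB)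
  have m2 : |(B1 - B0) * E0| ≤ Lb * s * η := by
    rw [abs_mul]
    exact mul_le_mul hBl hE0 (abs_nonneg _) ((abs_nonneg _).trans hBl)
  have e2 : (L + Lb * η + Cb * κ) * s = L * s + Cb * (s * κ) + Lb * s * η := by ring
  rw [e2]
  linarith

/-- **the derivative of the defect** from the increments of `E` on one side -/
theorem l8k_deriv {F G B E : ℝ → ℝ} {t h L Lb Cb η κ σ : ℝ} (hσ : σ = 1 ∨ σ = -1) (hh : 0 < h)
    (hF : ∀ s ∈ Icc (0 : ℝ) h, F (t + σ * s) = G (t + σ * s) + B (t + σ * s) * E (t + σ * s))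
    (hG : ∀ s ∈ Ioc (0 : ℝ) h, |G (t + σ * s) - G t| ≤ L * s)
    (hB : ∀ s ∈ Ioc (0 : ℝ) h, |B (t + σ * s)| ≤ Cb) (hBl : ∀ s ∈ Ioc (0 : ℝ) h, |B (t + σ * s) - B t| ≤ Lb * s)
    (hE0 : |E t| ≤ η) (hE : ∀ s ∈ Ioc (0 : ℝ) h, |E (t + σ * s) - E t| ≤ s * κ) :
    |deriv F t| ≤ L + Lb * η + Cb * κ := by
  refine l8k_deriv_le hσ hh fun s hs => ?_
  have h0 := hF 0 ⟨le_rfl, hh.le⟩
  rw [mul_zero, add_zero] at h0
  rw [hF s ⟨hs.1.le, hs.2⟩, h0]
  exact l8k_prod (hG s hs) (hB s hs) (hBl s hs) hE0 (hE s hs)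

/-- **DD-LINK, abstract form, all in one**.   `F = G + B (u - w)` on the side `σ` of `t`; `u` = the chain number, `w` = the path number;
`Uf ε` = the chain numbers of finer chains. -/
theorem l8k_dd {F G B u w : ℝ → ℝ} {t h L Lb Cb η C dl a σ : ℝ} (hσ : σ = 1 ∨ σ = -1) (hh : 0 < h) (hC : 0 ≤ C) (hdl : 0 ≤ dl)
    (hF : ∀ s ∈ Icc (0 : ℝ) h, F (t + σ * s) = G (t + σ * s) + B (t + σ * s) * (u (t + σ * s) - w (t + σ * s)))
    (hG : ∀ s ∈ Ioc (0 : ℝ) h, |G (t + σ * s) - G t| ≤ L * s)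
    (hB : ∀ s ∈ Ioc (0 : ℝ) h, |B (t + σ * s)| ≤ Cb) (hBl : ∀ s ∈ Ioc (0 : ℝ) h, |B (t + σ * s) - B t| ≤ Lb * s)
    (H0 : ∀ r ∈ Icc (0 : ℝ) h, |u (t + σ * r) - w (t + σ * r)| ≤ η)
    (H1 : ∀ r ∈ Ioc (0 : ℝ) h, |u (t + σ * r) - u t - r * a| ≤ C * r * (r + dl))
    (H : ∀ ε : ℝ, 0 < ε → ∃ (u' : ℝ → ℝ) (a' dl' η' : ℝ), dl' ≤ ε ∧ η' ≤ ε ∧
      (∀ r ∈ Ioc (0 : ℝ) h, |u' (t + σ * r) - u' t - r * a'| ≤ C * r * (r + dl')) ∧
        ∀ r ∈ Icc (0 : ℝ) h, |u' (t + σ * r) - w (t + σ * r)| ≤ η') :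
    |deriv F t| ≤ L + Lb * η + Cb * (4 * η / h + 18 * C * (h + dl)) := by
  have key := l8k_link (U := fun r => u (t + σ * r)) (Wf := fun r => w (t + σ * r)) (a := a) hh hC hdl H0
    (by simpa using H1) (fun ε hε => by
      obtain ⟨u', a', dl', η', h1, h2, h3, h4⟩ := H ε hε
      exact ⟨fun r => u' (t + σ * r), a', dl', η', h1, h2, by simpa using h3, h4⟩)
  have hE0 : |u t - w t| ≤ η := by simpa using H0 0 ⟨le_rfl, hh.le⟩
  refine l8k_deriv (E := fun x => u x - w x) hσ hh hF hG hB hBl hE0 fun s hs => ?_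
  simpa using key s hs

/-- **the order of the choices**: `Cb, C` first, then `h`, then `η, dl`: the error of `l8k_dd` is `≤ tiny` -/
theorem l8k_tiny {Cb Lb C tiny : ℝ} (hCb : 0 ≤ Cb) (hLb : 0 ≤ Lb) (hC : 0 ≤ C) (ht : 0 < tiny) :
    ∃ h0 : ℝ, 0 < h0 ∧ ∀ h : ℝ, 0 < h → h ≤ h0 → ∃ e0 : ℝ, 0 < e0 ∧ ∀ η dl : ℝ, 0 ≤ η → η ≤ e0 → 0 ≤ dl → dl ≤ e0 →
      Lb * η + Cb * (4 * η / h + 18 * C * (h + dl)) ≤ tiny := by
  have hd1 : 0 < 72 * Cb * C + 1 := by positivity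
  refine ⟨tiny / (72 * Cb * C + 1), by positivity, fun h hh hh0 => ?_⟩
  have hd2 : 0 < 4 * Lb + 1 := by positivity
  have hd3 : 0 < 16 * Cb + 1 := by positivity
  refine ⟨min (tiny / (4 * Lb + 1)) (min (tiny * h / (16 * Cb + 1)) (tiny / (72 * Cb * C + 1))), by positivity,
    fun η dl hη0 hη hdl0 hdl => ?_⟩
  have a1 : η ≤ tiny / (4 * Lb + 1) := hη.trans (min_le_left _ _)
  have a2 : η ≤ tiny * h / (16 * Cb + 1) := hη.trans ((min_le_right _ _).trans (min_le_left _ _))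
  have a3 : dl ≤ tiny / (72 * Cb * C + 1) := hdl.trans ((min_le_right _ _).trans (min_le_right _ _))
  rw [le_div_iff₀ hd2] at a1
  rw [le_div_iff₀ hd3] at a2
  rw [le_div_iff₀ hd1] at a3 hh0
  have b1 : Lb * η ≤ tiny / 4 := by nlinarith
  have b2 : Cb * (4 * η / h) ≤ tiny / 4 := by
    have : Cb * (4 * η / h) = 4 * Cb * η / h := by ring
    rw [this, div_le_iff₀ hh]
    nlinarith
  have b3 : Cb * (18 * C * h) ≤ tiny / 4 := by nlinarith
  have b4 : Cb * (18 * C * dl) ≤ tiny / 4 := by nlinarith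
  have e : Lb * η + Cb * (4 * η / h + 18 * C * (h + dl)) = Lb * η + Cb * (4 * η / h) + Cb * (18 * C * h) + Cb * (18 * C * dl) := by
    ring
  rw [e]
  linarith

end Claimed.Agent.R286
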