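import Claimed.Agent.R286.L08.Dic

/-!
# Row 286 (S0533), folder L08, file DicCut : PROJECTION AT CUTS = TRUNCATION OF THE TABLE      (owner helper257; prefix `l8w`)

Decision D3 of helper60 (`notes/R286/LL09_DAG_60.md`), item (iv) of the misfit M1 (board of 224).   TEX[LL:exp:prop-low-coefficients] l.459-468
GENERIC on `Defs/Gh` (base `B`, levels `ls`, root field `z`, spin vector `Y`):
* `L8wT q F`      : `F` = bounded measurable test of the PATHS of the labels `< q`;
* `l8w_att2`, `l8w_att_ov` : two new labels attached to `x`, `y` at the depths `j`, `k`: their overlap is integrated to `⟨X_j(w x), X_k(w y)⟩`;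
* `l8wTab`        : `s` further labels `q, q+1, ..`, the label `q + s` attached to `anc s` at the depth `cut s`;   `l8w_tab_eq` : closed form of that table;
* `l8w_tab_int`   : `∫ F ∏_i (m_i ov(σ_(q+2i), σ_(q+2i+1)) - s_i) d law(l8wTab (2k)) = ∫ F ∏_i (m_i ⟨X_(cut 2i)(w (anc 2i)), X_(cut (2i+1))(w (anc (2i+1)))⟩ - s_i) d law τ`;
* **`l8w_slots`** : the same on the table of the slots alone, `l8wSl N τ anc cut s s' = min (τ (anc s) (anc s')) (min (cut s) (cut s'))`.
SK: **`l8w_cut`** : `X.nu n (l9rCut n κ τ) (∏_{i<k} (m_i ov(σ 2i, σ (2i+1)) - s_i)) = ∫ ∏_{i<k} (m_i QX (κ 2i) (κ (2i+1)) (w 2i, w (2i+1)) - s_i) d law_n τ`, `n = 2 k`.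
-/

set_option autoImplicit false
set_option linter.unusedSectionVars false

namespace Claimed.Agent.R286

open MeasureTheory ProbabilityTheory Finset

section gen

variable {S ι : Type} [Fintype S] [Fintype ι] [Inhabited S] [MeasurableSpace S] [DiscreteMeasurableSpace S]

/-- bounded measurable test of the paths of the labels `< q` -/
structure L8wT (q : ℕ) (F : (ℕ → SpiOm S ι) → ℝ) : Prop where
  meas : Measurable F
  dep : DependsOn F (Set.Iio q)
  bdd : ∃ C, ∀ w, |F w| ≤ C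

namespace L8wT

variable {q : ℕ} {F G : (ℕ → SpiOm S ι) → ℝ}

theorem const (q : ℕ) (c : ℝ) : L8wT (S := S) (ι := ι) q fun _ => c :=
  ⟨measurable_const, fun _ _ _ => rfl, |c|, fun _ => le_rfl⟩

theorem mono {q' : ℕ} (h : L8wT q F) (hq : q ≤ q') : L8wT q' F :=
  ⟨h.meas, fun _ _ hxy => h.dep fun i hi => hxy i (lt_of_lt_of_le hi hq), h.bdd⟩

theorem mul (hF : L8wT q F) (hG : L8wT q G) : L8wT q fun w => F w * G w := by
  obtain ⟨C, hC⟩ := hF.bdd
  obtain ⟨D, hD⟩ := hG.bdd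
  refine ⟨hF.meas.mul hG.meas, fun x y hxy => by rw [hF.dep hxy, hG.dep hxy], C * D, fun w => ?_⟩
  rw [abs_mul]
  exact mul_le_mul (hC w) (hD w) (abs_nonneg _) ((abs_nonneg _).trans (hC w))

theorem add (hF : L8wT q F) (hG : L8wT q G) : L8wT q fun w => F w + G w := by
  obtain ⟨C, hC⟩ := hF.bdd
  obtain ⟨D, hD⟩ := hG.bdd
  exact ⟨hF.meas.add hG.meas, fun x y hxy => by rw [hF.dep hxy, hG.dep hxy], C + D, fun w =>
    (abs_add_le _ _).trans (add_le_add (hC w) (hD w))⟩

theorem sub (hF : L8wT q F) (hG : L8wT q G) : L8wT q fun w => F w - G w := by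
  obtain ⟨C, hC⟩ := hF.bdd
  obtain ⟨D, hD⟩ := hG.bdd
  exact ⟨hF.meas.sub hG.meas, fun x y hxy => by rw [hF.dep hxy, hG.dep hxy], C + D, fun w =>
    (abs_sub _ _).trans (add_le_add (hC w) (hD w))⟩

theorem sum {κ : Type*} (s : Finset κ) {f : κ → (ℕ → SpiOm S ι) → ℝ} (h : ∀ i ∈ s, L8wT q (f i)) :
    L8wT q fun w => ∑ i ∈ s, f i w := by
  classical
  induction s using Finset.induction_on with
  | empty => simpa using const q 0
  | insert a s ha ih =>
    have h1 := (h a (Finset.mem_insert_self a s)).add (ih fun i hi => h i (Finset.mem_insert_of_mem hi))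
    simpa [Finset.sum_insert ha] using h1

theorem prod {κ : Type*} (s : Finset κ) {f : κ → (ℕ → SpiOm S ι) → ℝ} (h : ∀ i ∈ s, L8wT q (f i)) :
    L8wT q fun w => ∏ i ∈ s, f i w := by
  classical
  induction s using Finset.induction_on with
  | empty => simpa using const q 1
  | insert a s ha ih =>
    have h1 := (h a (Finset.mem_insert_self a s)).mul (ih fun i hi => h i (Finset.mem_insert_of_mem hi))
    simpa [Finset.prod_insert ha] using h1

/-- a bounded measurable function of the path of one label -/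
theorem label {x : ℕ} (hx : x < q) {g : SpiOm S ι → ℝ} (hg : Measurable g) {C : ℝ} (hC : ∀ ω, |g ω| ≤ C) :
    L8wT q fun w => g (w x) :=
  ⟨hg.comp (measurable_pi_apply x), fun _ _ hxy => by rw [hxy x hx], C, fun _ => hC _⟩

/-- a function of the spin of one label -/
theorem spin {x : ℕ} (hx : x < q) (Φ : S → ℝ) : L8wT (ι := ι) q fun w => Φ (w x).2 :=
  label hx ((Measurable.of_discrete (f := Φ)).comp measurable_snd) (C := ∑ s, |Φ s|) fun ω =>
    Finset.single_le_sum (f := fun s => |Φ s|) (fun _ _ => abs_nonneg _) (Finset.mem_univ ω.2)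

end L8wT

variable {B : GhB S} (hB : B.Ok) {ls : List (GhLv S ι)} (hn : GhNn ls) (z : S → ℝ)

include hB hn in
theorem L8wT.integrable {q : ℕ} {F : (ℕ → SpiOm S ι) → ℝ} (hF : L8wT q F) (r : ℕ) (τ : ℕ → ℕ → ℕ) :
    Integrable F (l8liLaw B ls z r τ) := by
  have := l8li_prob hB hn z r τ
  obtain ⟨C, hC⟩ := hF.bdd
  exact Integrable.of_bound hF.meas.aestronglyMeasurable C (ae_of_all _ fun w => by rw [Real.norm_eq_abs]; exact hC w)

include hB hn in
theorem L8wT.cond {q x : ℕ} (hx : x < q) (j : ℕ) (Φ : S → ℝ) : L8wT q fun w => l8wE B ls z j Φ (w x) :=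
  L8wT.label hx (l8w_E_meas z j Φ) (l8w_E_bdd hB hn z j Φ)

include hB hn in
theorem l8w_E_one (j : ℕ) (ω : SpiOm S ι) : l8wE B ls z j (fun _ => 1) ω = 1 := by
  have := spi_kap_markov hB (spi_reg_of_nn hB hn) z j
  simp [l8wE]

include hB hn in
/-- `l8w_att` for a test of the class `L8wT` -/
theorem l8w_att' {q : ℕ} {τ : ℕ → ℕ → ℕ} (h : IsTr ls.length q τ) {x j : ℕ} (hx : x < q) (hj : j ≤ ls.length + 1)
    {F : (ℕ → SpiOm S ι) → ℝ} (hF : L8wT q F) (Φ : S → ℝ) :
    ∫ w, F w * Φ (w q).2 ∂(l8liLaw B ls z (q + 1) (trAtt ls.length q τ x j))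
      = ∫ w, F w * l8wE B ls z j Φ (w x) ∂(l8liLaw B ls z q τ) := by
  obtain ⟨C, hC⟩ := hF.bdd
  exact l8w_att hB hn z h hx hj F hF.meas hF.dep C hC Φ

include hB hn in
/-- two new labels -/
theorem l8w_att2 {q : ℕ} {τ : ℕ → ℕ → ℕ} (h : IsTr ls.length q τ) {x y j k : ℕ} (hx : x < q) (hy : y < q)
    (hj : j ≤ ls.length + 1) (hk : k ≤ ls.length + 1) {F : (ℕ → SpiOm S ι) → ℝ} (hF : L8wT q F) (Φ Ψ : S → ℝ) :
    ∫ w, F w * (Φ (w q).2 * Ψ (w (q + 1)).2)
        ∂(l8liLaw B ls z (q + 1 + 1) (trAtt ls.length (q + 1) (trAtt ls.length q τ x j) y k))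
      = ∫ w, F w * (l8wE B ls z j Φ (w x) * l8wE B ls z k Ψ (w y)) ∂(l8liLaw B ls z q τ) := by
  have h1 := tr_att_isTr h hx hj
  have hF1 : L8wT (q + 1) fun w : ℕ → SpiOm S ι => F w * Φ (w q).2 :=
    (hF.mono (Nat.le_succ q)).mul (L8wT.spin (Nat.lt_succ_self q) Φ)
  have e1 := l8w_att' hB hn z h1 (x := y) (j := k) (by omega) hk hF1 Ψ
  have hF2 : L8wT q fun w : ℕ → SpiOm S ι => F w * l8wE B ls z k Ψ (w y) := hF.mul (L8wT.cond hB hn z hy k Ψ)
  have e2 := l8w_att' hB hn z h hx hj hF2 Φ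
  calc _ = ∫ w, F w * Φ (w q).2 * Ψ (w (q + 1)).2
        ∂(l8liLaw B ls z (q + 1 + 1) (trAtt ls.length (q + 1) (trAtt ls.length q τ x j) y k)) := by
        refine integral_congr_ae (ae_of_all _ fun w => ?_); ring
    _ = _ := e1
    _ = ∫ w, F w * l8wE B ls z k Ψ (w y) * Φ (w q).2 ∂(l8liLaw B ls z (q + 1) (trAtt ls.length q τ x j)) := by
        refine integral_congr_ae (ae_of_all _ fun w => ?_); ring
    _ = _ := e2
    _ = _ := by refine integral_congr_ae (ae_of_all _ fun w => ?_); ring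

/-- linearity, one affine factor -/
theorem l8w_lin {α : Type*} [MeasurableSpace α] (μ : Measure α) {m : ℕ} (F : α → ℝ) (A : Fin m → α → ℝ) (c s : ℝ)
    (hF : Integrable F μ) (hA : ∀ u, Integrable (fun w => F w * A u w) μ) :
    ∫ w, F w * (c * ∑ u, A u w - s) ∂μ = c * ∑ u, ∫ w, F w * A u w ∂μ - s * ∫ w, F w ∂μ := by
  have e : (fun w => F w * (c * ∑ u, A u w - s)) = fun w => c * ∑ u, F w * A u w - s * F w := by
    funext w
    rw [mul_sub, Finset.mul_sum, Finset.mul_sum, Finset.mul_sum]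
    congr 1
    · exact Finset.sum_congr rfl fun u _ => by ring
    · ring
  rw [e, integral_sub ((integrable_finsetSum _ fun u _ => hA u).const_mul c) (hF.const_mul s), integral_const_mul,
    integral_const_mul, integral_finsetSum _ fun u _ => hA u]

variable {m : ℕ} (Y : Fin m → S → ℝ)

/-- overlap of two spins -/
def l8wOv (s s' : S) : ℝ := ∑ u, Y u s * Y u s'

/-- inner product of the posterior means of two paths at the cuts `j`, `k` -/
noncomputable def l8wQX (B : GhB S) (ls : List (GhLv S ι)) (z : S → ℝ) (Y : Fin m → S → ℝ) (j k : ℕ) (ω ω' : SpiOm S ι) : ℝ :=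
  ∑ u, l8wE B ls z j (Y u) ω * l8wE B ls z k (Y u) ω'

theorem L8wT.ov {q x y : ℕ} (hx : x < q) (hy : y < q) : L8wT (ι := ι) q fun w => l8wOv Y (w x).2 (w y).2 :=
  L8wT.sum _ fun u _ => (L8wT.spin hx (Y u)).mul (L8wT.spin hy (Y u))

include hB hn in
theorem L8wT.qx {q x y : ℕ} (hx : x < q) (hy : y < q) (j k : ℕ) : L8wT q fun w => l8wQX B ls z Y j k (w x) (w y) :=
  L8wT.sum _ fun u _ => (L8wT.cond hB hn z hx j (Y u)).mul (L8wT.cond hB hn z hy k (Y u))

include hB hn in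
/-- **one projected pair**: the overlap of two new labels attached to `x`, `y` at the depths `j`, `k` -/
theorem l8w_att_ov {q : ℕ} {τ : ℕ → ℕ → ℕ} (h : IsTr ls.length q τ) {x y j k : ℕ} (hx : x < q) (hy : y < q)
    (hj : j ≤ ls.length + 1) (hk : k ≤ ls.length + 1) {F : (ℕ → SpiOm S ι) → ℝ} (hF : L8wT q F) (c s : ℝ) :
    ∫ w, F w * (c * l8wOv Y (w q).2 (w (q + 1)).2 - s)
        ∂(l8liLaw B ls z (q + 1 + 1) (trAtt ls.length (q + 1) (trAtt ls.length q τ x j) y k))
      = ∫ w, F w * (c * l8wQX B ls z Y j k (w x) (w y) - s) ∂(l8liLaw B ls z q τ) := by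
  have hF2 : L8wT (q + 1 + 1) F := hF.mono (by omega)
  unfold l8wOv l8wQX
  rw [l8w_lin _ F (fun u w => Y u (w q).2 * Y u (w (q + 1)).2) c s (hF2.integrable hB hn z _ _) fun u =>
      (hF2.mul ((L8wT.spin (by omega) (Y u)).mul (L8wT.spin (by omega) (Y u)))).integrable hB hn z _ _,
    l8w_lin _ F (fun u w => l8wE B ls z j (Y u) (w x) * l8wE B ls z k (Y u) (w y)) c s (hF.integrable hB hn z _ _) fun u =>
      (hF.mul ((L8wT.cond hB hn z hx j (Y u)).mul (L8wT.cond hB hn z hy k (Y u)))).integrable hB hn z _ _]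
  have e0 := l8w_att2 hB hn z h hx hy hj hk hF (fun _ => 1) (fun _ => 1)
  simp only [l8w_E_one hB hn z, mul_one] at e0
  rw [e0]
  congr 2
  exact Finset.sum_congr rfl fun u _ => l8w_att2 hB hn z h hx hy hj hk hF (Y u) (Y u)

/-! ### the table with further labels -/

/-- `s` further labels: the label `q + i` is attached to `anc i` at the depth `cut i` -/
def l8wTab (N q : ℕ) (τ : ℕ → ℕ → ℕ) (anc cut : ℕ → ℕ) : ℕ → ℕ → ℕ → ℕ
  | 0 => τ
  | s + 1 => trAtt N (q + s) (l8wTab N q τ anc cut s) (anc s) (cut s)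

theorem l8w_tab_isTr {N q : ℕ} {τ : ℕ → ℕ → ℕ} (h : IsTr N q τ) (anc cut : ℕ → ℕ) :
    ∀ s, (∀ i, i < s → anc i < q) → (∀ i, i < s → cut i ≤ N + 1) → IsTr N (q + s) (l8wTab N q τ anc cut s)
  | 0, _, _ => h
  | s + 1, ha, hc =>
    tr_att_isTr (l8w_tab_isTr h anc cut s (fun i hi => ha i (by omega)) fun i hi => hc i (by omega))
      (lt_of_lt_of_le (ha s (Nat.lt_succ_self s)) (Nat.le_add_right q s)) (hc s (Nat.lt_succ_self s))

/-- anchor of a label of the enlarged table -/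
def l8wAn (q : ℕ) (anc : ℕ → ℕ) (y : ℕ) : ℕ := if y < q then y else anc (y - q)

/-- cut of a label of the enlarged table -/
def l8wCu (N q : ℕ) (cut : ℕ → ℕ) (y : ℕ) : ℕ := if y < q then N + 1 else cut (y - q)

/-- **closed form of the enlarged table** -/
theorem l8w_tab_eq {N q : ℕ} {τ : ℕ → ℕ → ℕ} (h : IsTr N q τ) (anc cut : ℕ → ℕ) :
    ∀ s, (∀ i, i < s → anc i < q) → (∀ i, i < s → cut i ≤ N + 1) → ∀ y y', y < q + s → y' < q + s →
      l8wTab N q τ anc cut s y y' = if y = y' then N + 1 else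
        min (τ (l8wAn q anc y) (l8wAn q anc y')) (min (l8wCu N q cut y) (l8wCu N q cut y'))
  | 0, _, _, y, y', hy, hy' => by
    have hy : y < q := hy
    have hy' : y' < q := hy'
    simp only [l8wTab, l8wAn, l8wCu, hy, hy', if_true]
    by_cases e : y = y'
    · subst e; simp [h.diag y hy]
    · have := h.le y y' hy hy'
      simp only [e, if_false]
      omega
  | s + 1, ha, hc, y, y', hy, hy' => by
    have ih := l8w_tab_eq h anc cut s (fun i hi => ha i (by omega)) fun i hi => hc i (by omega)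
    have hx : anc s < q := ha s (Nat.lt_succ_self s)
    have hj : cut s ≤ N + 1 := hc s (Nat.lt_succ_self s)
    have hcu : ∀ y, y < q + s → l8wCu N q cut y ≤ N + 1 := by
      intro y hy
      unfold l8wCu
      split_ifs with h0
      · exact le_rfl
      · exact hc _ (by omega)
    have hA : l8wAn q anc (q + s) = anc s := by simp [l8wAn]
    have hC : l8wCu N q cut (q + s) = cut s := by simp [l8wCu]
    have hAx : l8wAn q anc (anc s) = anc s := by simp [l8wAn, hx]
    have hCx : l8wCu N q cut (anc s) = N + 1 := by simp [l8wCu, hx]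
    have hd := h.diag _ hx
    show trAtt N (q + s) (l8wTab N q τ anc cut s) (anc s) (cut s) y y' = _
    unfold trAtt
    by_cases e1 : y = q + s
    · by_cases e2 : y' = q + s
      · simp [e1, e2]
      · have hy2 : y' < q + s := by omega
        have e3 : ¬ q + s = y' := fun h0 => e2 h0.symm
        rw [if_pos e1, if_neg e2, e1, if_neg e3, ih _ _ (by omega) hy2, hA, hC, hAx, hCx]
        have := hcu y' hy2
        by_cases e4 : anc s = y'
        · rw [if_pos e4, ← e4, hAx, hCx, hd]; omega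
        · rw [if_neg e4]; omega
    · have hy1 : y < q + s := by omega
      by_cases e2 : y' = q + s
      · rw [if_neg e1, if_pos e2, e2, if_neg e1, ih _ _ hy1 (by omega), hA, hC, hAx, hCx]
        have := hcu y hy1
        by_cases e4 : y = anc s
        · rw [if_pos e4, e4, hAx, hCx, hd]; omega
        · rw [if_neg e4]; omega
      · rw [if_neg e1, if_neg e2, ih _ _ hy1 (by omega)]

include hB hn in
/-- **projected pairs = further labels**: `k` pairs of new labels -/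
theorem l8w_tab_int {q : ℕ} {τ : ℕ → ℕ → ℕ} (h : IsTr ls.length q τ) (anc cut : ℕ → ℕ) (mm ss : ℕ → ℝ) :
    ∀ k, (∀ i, i < 2 * k → anc i < q) → (∀ i, i < 2 * k → cut i ≤ ls.length + 1) →
      ∀ F : (ℕ → SpiOm S ι) → ℝ, L8wT q F →
      ∫ w, F w * ∏ i ∈ range k, (mm i * l8wOv Y (w (q + 2 * i)).2 (w (q + 2 * i + 1)).2 - ss i)
          ∂(l8liLaw B ls z (q + 2 * k) (l8wTab ls.length q τ anc cut (2 * k)))
        = ∫ w, F w * ∏ i ∈ range k,
            (mm i * l8wQX B ls z Y (cut (2 * i)) (cut (2 * i + 1)) (w (anc (2 * i))) (w (anc (2 * i + 1))) - ss i)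
          ∂(l8liLaw B ls z q τ)
  | 0, _, _, F, _ => by simp [l8wTab]
  | k + 1, ha, hc, F, hF => by
    have ha' : ∀ i, i < 2 * k → anc i < q := fun i hi => ha i (by omega)
    have hc' : ∀ i, i < 2 * k → cut i ≤ ls.length + 1 := fun i hi => hc i (by omega)
    have hT := l8w_tab_isTr h anc cut (2 * k) ha' hc'
    have hA : L8wT (q + 2 * k) fun w : ℕ → SpiOm S ι =>
        ∏ i ∈ range k, (mm i * l8wOv Y (w (q + 2 * i)).2 (w (q + 2 * i + 1)).2 - ss i) :=
      L8wT.prod _ fun i hi => by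
        have hi := Finset.mem_range.1 hi
        exact ((L8wT.const _ (mm i)).mul (L8wT.ov Y (by omega) (by omega))).sub (L8wT.const _ (ss i))
    have hF1 := (hF.mono (Nat.le_add_right q (2 * k))).mul hA
    have e1 := l8w_att_ov hB hn z Y hT (x := anc (2 * k)) (y := anc (2 * k + 1)) (j := cut (2 * k)) (k := cut (2 * k + 1))
      (lt_of_lt_of_le (ha _ (by omega)) (Nat.le_add_right _ _)) (lt_of_lt_of_le (ha _ (by omega)) (Nat.le_add_right _ _))
      (hc _ (by omega)) (hc _ (by omega)) hF1 (mm k) (ss k)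
    have hB1 : L8wT q fun w : ℕ → SpiOm S ι =>
        mm k * l8wQX B ls z Y (cut (2 * k)) (cut (2 * k + 1)) (w (anc (2 * k))) (w (anc (2 * k + 1))) - ss k :=
      ((L8wT.const _ (mm k)).mul (L8wT.qx hB hn z Y (ha _ (by omega)) (ha _ (by omega)) _ _)).sub (L8wT.const _ (ss k))
    have e2 := l8w_tab_int h anc cut mm ss k ha' hc' _ (hF.mul hB1)
    calc _ = ∫ w, F w * (∏ i ∈ range k, (mm i * l8wOv Y (w (q + 2 * i)).2 (w (q + 2 * i + 1)).2 - ss i))
            * (mm k * l8wOv Y (w (q + 2 * k)).2 (w (q + 2 * k + 1)).2 - ss k)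
          ∂(l8liLaw B ls z (q + 2 * k + 1 + 1) (trAtt ls.length (q + 2 * k + 1)
            (trAtt ls.length (q + 2 * k) (l8wTab ls.length q τ anc cut (2 * k)) (anc (2 * k)) (cut (2 * k)))
            (anc (2 * k + 1)) (cut (2 * k + 1)))) := by
          refine integral_congr_ae (ae_of_all _ fun w => ?_)
          show _ * _ = _
          rw [Finset.prod_range_succ]; ring
      _ = _ := e1
      _ = ∫ w, F w * (mm k * l8wQX B ls z Y (cut (2 * k)) (cut (2 * k + 1)) (w (anc (2 * k))) (w (anc (2 * k + 1))) - ss k)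
            * ∏ i ∈ range k, (mm i * l8wOv Y (w (q + 2 * i)).2 (w (q + 2 * i + 1)).2 - ss i)
          ∂(l8liLaw B ls z (q + 2 * k) (l8wTab ls.length q τ anc cut (2 * k))) := by
          refine integral_congr_ae (ae_of_all _ fun w => ?_); ring
      _ = _ := e2
      _ = _ := by
          refine integral_congr_ae (ae_of_all _ fun w => ?_)
          show _ = _ * _
          rw [Finset.prod_range_succ]; ring

/-- the table of the slots: the slot `s` follows the label `anc s` of `τ` up to the depth `cut s` -/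
def l8wSl (N : ℕ) (τ : ℕ → ℕ → ℕ) (anc cut : ℕ → ℕ) : ℕ → ℕ → ℕ := fun s s' =>
  if s = s' then N + 1 else min (τ (anc s) (anc s')) (min (cut s) (cut s'))

/-- the law sees the table on the labels only -/
theorem l8w_law_congr (B : GhB S) (ls : List (GhLv S ι)) (z : S → ℝ) {r : ℕ} {τ τ' : ℕ → ℕ → ℕ}
    (h : ∀ x y, x < r → y < r → τ x y = τ' x y) : l8liLaw B ls z r τ = l8liLaw B ls z r τ' := by
  unfold l8liLaw
  rw [l8li_rep_congr (r := r) (τ := τ) (τ' := τ') fun x y hx hy => (h x y hx hy).symm]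

theorem l8w_isTr_congr {N r : ℕ} {τ τ' : ℕ → ℕ → ℕ} (hτ : IsTr N r τ) (h : ∀ x y, x < r → y < r → τ x y = τ' x y) : IsTr N r τ' where
  le := fun x y hx hy => by rw [← h x y hx hy]; exact hτ.le x y hx hy
  diag := fun x hx => by rw [← h x x hx hx]; exact hτ.diag x hx
  symm := fun x y hx hy => by rw [← h x y hx hy, ← h y x hy hx]; exact hτ.symm x y hx hy
  ultra := fun x y w hx hy hw => by rw [← h x y hx hy, ← h y w hy hw, ← h x w hx hw]; exact hτ.ultra x y w hx hy hw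

theorem l8w_sl_eq {N q : ℕ} {τ : ℕ → ℕ → ℕ} (h : IsTr N q τ) (anc cut : ℕ → ℕ) {p : ℕ} (ha : ∀ i, i < p → anc i < q)
    (hc : ∀ i, i < p → cut i ≤ N + 1) (s s' : ℕ) (hs : s < p) (hs' : s' < p) :
    l8wTab N q τ anc cut p (q + s) (q + s') = l8wSl N τ anc cut s s' := by
  rw [l8w_tab_eq h anc cut p ha hc _ _ (by omega) (by omega)]
  simp [l8wSl, l8wAn, l8wCu]

theorem l8w_sl_isTr {N q : ℕ} {τ : ℕ → ℕ → ℕ} (h : IsTr N q τ) (anc cut : ℕ → ℕ) {p : ℕ} (ha : ∀ i, i < p → anc i < q)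
    (hc : ∀ i, i < p → cut i ≤ N + 1) : IsTr N p (l8wSl N τ anc cut) :=
  l8w_isTr_congr (l8w_isTr_comp (l8w_tab_isTr h anc cut p ha hc) (fun s => q + s) fun s hs => by omega)
    fun s s' hs hs' => l8w_sl_eq h anc cut ha hc s s' hs hs'

include hB hn in
/-- **(iv) PROJECTION AT CUTS = TRUNCATION OF THE TABLE** (D3 of 60), generic form -/
theorem l8w_slots {q : ℕ} {τ : ℕ → ℕ → ℕ} (h : IsTr ls.length q τ) (anc cut : ℕ → ℕ) (mm ss : ℕ → ℝ) (k : ℕ)
    (ha : ∀ i, i < 2 * k → anc i < q) (hc : ∀ i, i < 2 * k → cut i ≤ ls.length + 1) :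
    ∫ w, ∏ i ∈ range k, (mm i * l8wOv Y (w (2 * i)).2 (w (2 * i + 1)).2 - ss i)
        ∂(l8liLaw B ls z (2 * k) (l8wSl ls.length τ anc cut))
      = ∫ w, ∏ i ∈ range k,
          (mm i * l8wQX B ls z Y (cut (2 * i)) (cut (2 * i + 1)) (w (anc (2 * i))) (w (anc (2 * i + 1))) - ss i)
        ∂(l8liLaw B ls z q τ) := by
  have hT := l8w_tab_isTr h anc cut (2 * k) ha hc
  have hG : L8wT (2 * k) fun w : ℕ → SpiOm S ι =>
      ∏ i ∈ range k, (mm i * l8wOv Y (w (2 * i)).2 (w (2 * i + 1)).2 - ss i) :=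
    L8wT.prod _ fun i hi => by
      have hi := Finset.mem_range.1 hi
      exact ((L8wT.const _ (mm i)).mul (L8wT.ov Y (by omega) (by omega))).sub (L8wT.const _ (ss i))
  obtain ⟨C, hC⟩ := hG.bdd
  have e1 := l8w_pull hB hn z hT (fun s => q + s) (p := 2 * k) (fun s hs => by omega) _ hG.meas hG.dep C hC
  have e2 := l8w_tab_int hB hn z Y h anc cut mm ss k ha hc (fun _ => 1) (L8wT.const q 1)
  simp only [one_mul] at e2
  rw [← e2, l8w_law_congr B ls z (r := 2 * k) (τ := l8wSl ls.length τ anc cut)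
    (τ' := fun x y => l8wTab ls.length q τ anc cut (2 * k) (q + x) (q + y))
    fun s s' hs hs' => (l8w_sl_eq h anc cut ha hc s s' hs hs').symm, ← e1]
  rfl

end gen

/-! ### the SK level -/

section sk

variable (n : ℕ) {a : ℝ} (ha : 0 < a) {P : LlStp} (hP : LlStpAdm a P) (tl : Option ℕ)

theorem l8w_ov_sk (s s' : SkCfg n) : l8wOv (fun (i : Fin n) (σ : SkCfg n) => skY σ i) s s' = skOv s s' :=
  l8w_Q n 0 [] ((fun _ _ => 0, s), (fun _ _ => 0, s'))

theorem l8w_qx_sk (a : ℝ) (Q : SkStp) (j k : ℕ) (ω ω' : SkOm n) :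
    l8wQX (skBase n a) (skLvs n Q) 0 (fun (i : Fin n) (σ : SkCfg n) => skY σ i) j k ω ω' = (skSP n a Q).QX j k (ω, ω') := rfl

include ha hP in
/-- **(iv) PROJECTION AT CUTS = TRUNCATION OF THE TABLE**: `2 k` slots, the slot `s` follows the label `anc s` of `τ` up to the depth `cut s` -/
theorem l8w_slots_sk {q : ℕ} {τ : ℕ → ℕ → ℕ} (hτ : IsTr P.length q τ) (anc cut : ℕ → ℕ) (mm ss : ℕ → ℝ) {k : ℕ} (hk : 1 ≤ k)
    (han : ∀ i, i < 2 * k → anc i < q) (hcu : ∀ i, i < 2 * k → cut i ≤ P.length + 1) :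
    (llJs n a P tl).nu (2 * k) (l8wSl P.length τ anc cut)
        (fun σ => ∏ i ∈ range k, (mm i * (llJs n a P tl).ov (σ (2 * i)) (σ (2 * i + 1)) - ss i))
      = ∫ w, ∏ i ∈ range k, (mm i * (skSP n a (llMv tl P)).QX (cut (2 * i)) (cut (2 * i + 1)) (w (anc (2 * i)), w (anc (2 * i + 1))) - ss i)
          ∂(l8liSk n a P tl q).law τ := by
  have hB := obt_base_ok n ha
  have hn : GhNn (skLvs n (llMv tl P)) := (l8i_adm (ll2_mv_adm hP tl)).ghNn le_rfl
  have hl : (skLvs n (llMv tl P)).length = P.length := by simp [skLvs, ll2_mv_len]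
  have h := l8w_slots hB hn 0 (fun (i : Fin n) (σ : SkCfg n) => skY σ i) (q := q) (τ := τ) (by rw [hl]; exact hτ) anc cut mm ss k han
    (by rw [hl]; exact hcu)
  rw [hl] at h
  rw [l8w_nu n ha hP tl (by omega) (l8w_sl_isTr hτ anc cut han hcu) _ fun σ σ' hh =>
    Finset.prod_congr rfl fun i hi => by
      have hi := Finset.mem_range.1 hi
      rw [hh (2 * i) (by omega), hh (2 * i + 1) (by omega)]]
  simp only [l8w_ov_sk] at h
  exact h

include ha hP in
/-- **D3 of 60**: the number on the cut table `l9rCut n κ τ` (282) is the expectation of the product of the PROJECTED pairs under the law of `τ` -/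
theorem l8w_cut {k : ℕ} (hk : 1 ≤ k) {τ : ℕ → ℕ → ℕ} (hτ : IsTr P.length (2 * k) τ) (κ : ℕ → ℕ)
    (hκ : ∀ i, i < 2 * k → κ i ≤ P.length + 1) (mm ss : ℕ → ℝ) :
    (llJs n a P tl).nu (2 * k) (l9rCut (2 * k) κ τ)
        (fun σ => ∏ i ∈ range k, (mm i * (llJs n a P tl).ov (σ (2 * i)) (σ (2 * i + 1)) - ss i))
      = ∫ w, ∏ i ∈ range k, (mm i * (skSP n a (llMv tl P)).QX (κ (2 * i)) (κ (2 * i + 1)) (w (2 * i), w (2 * i + 1)) - ss i)
          ∂(l8liSk n a P tl (2 * k)).law τ := by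
  refine Eq.trans ?_ (l8w_slots_sk n ha hP tl hτ id κ mm ss hk (fun i hi => hi) hκ)
  refine (ll2_law n ha hP tl).nu.congr _ _ _ (fun x y hx hy => ?_) _
  simp only [l9rCut, l8wSl, hx, hy, and_self, if_true, id]
  by_cases e : x = y
  · subst e; simp [hτ.diag x hx]
  · simp [e]

include ha hP in
/-- the same for the numbers `l9rNum` of RED -/
theorem l8w_num {k : ℕ} (hk : 1 ≤ k) {τ : ℕ → ℕ → ℕ} (hτ : IsTr P.length (2 * k) τ) (κ : ℕ → ℕ)
    (hκ : ∀ i, i < 2 * k → κ i ≤ P.length + 1) {R : Finset ℕ} (hR : R ⊆ range k) :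
    l9rNum (llJs n a P tl) R (2 * k) (l9rCut (2 * k) κ τ)
      = ∫ w, ∏ i ∈ R, (llMk tl (l9rCut (2 * k) κ τ (2 * i) (2 * i + 1))
            * (skSP n a (llMv tl P)).QX (κ (2 * i)) (κ (2 * i + 1)) (w (2 * i), w (2 * i + 1))
            - llQs a P (l9rCut (2 * k) κ τ (2 * i) (2 * i + 1))) ∂(l8liSk n a P tl (2 * k)).law τ := by
  classical
  have h := l8w_cut n ha hP tl hk hτ κ hκ (fun i => if i ∈ R then llMk tl (l9rCut (2 * k) κ τ (2 * i) (2 * i + 1)) else 0)
    (fun i => if i ∈ R then llQs a P (l9rCut (2 * k) κ τ (2 * i) (2 * i + 1)) else -1)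
  have e : ∀ f : ℕ → ℝ, ∏ i ∈ range k, ((if i ∈ R then llMk tl (l9rCut (2 * k) κ τ (2 * i) (2 * i + 1)) else 0) * f i
        - (if i ∈ R then llQs a P (l9rCut (2 * k) κ τ (2 * i) (2 * i + 1)) else -1))
      = ∏ i ∈ R, (llMk tl (l9rCut (2 * k) κ τ (2 * i) (2 * i + 1)) * f i - llQs a P (l9rCut (2 * k) κ τ (2 * i) (2 * i + 1))) := by
    intro f
    have e1 : ∀ i ∈ range k, ((if i ∈ R then llMk tl (l9rCut (2 * k) κ τ (2 * i) (2 * i + 1)) else 0) * f i
        - (if i ∈ R then llQs a P (l9rCut (2 * k) κ τ (2 * i) (2 * i + 1)) else -1))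
        = if i ∈ R then (llMk tl (l9rCut (2 * k) κ τ (2 * i) (2 * i + 1)) * f i - llQs a P (l9rCut (2 * k) κ τ (2 * i) (2 * i + 1))) else 1 := by
      intro i _
      by_cases hi : i ∈ R <;> simp [hi]
    rw [Finset.prod_congr rfl e1, Finset.prod_ite_mem, Finset.inter_eq_right.2 hR]
  simp only [e] at h
  exact h

end sk

theorem l8w_cut_eqns_cite : True := by
  have := @l8wOv.eq_1
  have := @l8wQX.eq_1
  have := @l8wTab.eq_1
  have := @l8wTab.eq_2
  have := @l8wTab.eq_def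
  have := @l8wAn.eq_1
  have := @l8wCu.eq_1
  have := @l8wSl.eq_1
  trivial

end Claimed.Agent.R286
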