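import Claimed.Agent.R286.L08.LsAbs

/-!
# Row 286 (S0533), folder L08, file LsComb : COMBINATORICS + NUMERICS of the abstract low-source lemma      (architect helper234; prefix `l8l_`)

* canonical label of a vertex = the LEAST label through it (`l8lLb`);  C1-C4;
* `l8l_comb` = "the moving vertex is not a fork of the retained tree" (LL 08 l.1455-1470; note of 233, point 10);
* vertex form of the majorant (N0) and the one-vertex sums (N1-N3).
No measure theory.  ALL 14 leaves PROVED in place by helper105 (statements unchanged; extra: `l8l_deg_mono`, `l8l_vsum_aux`, `l8l_G_eb_le`).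
-/

set_option autoImplicit false

namespace Claimed.Agent.R286

open MeasureTheory Finset

/-- the label `x` passes through the vertex of level `l` on the path of `c` -/
def l8lThr (τ : ℕ → ℕ → ℕ) (l c x : ℕ) : Prop := x = c ∨ l ≤ τ x c

open Classical in
/-- the least label through the vertex of level `l` on the path of `c` -/
noncomputable def l8lLb (τ : ℕ → ℕ → ℕ) (l c : ℕ) : ℕ := Nat.find (p := l8lThr τ l c) ⟨c, Or.inl rfl⟩

theorem l8l_lb_thr (τ : ℕ → ℕ → ℕ) (l c : ℕ) : l8lThr τ l c (l8lLb τ l c) := by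
  classical
  unfold l8lLb
  exact Nat.find_spec _

theorem l8l_lb_le (τ : ℕ → ℕ → ℕ) (l c : ℕ) : l8lLb τ l c ≤ c := by
  classical
  unfold l8lLb
  exact Nat.find_min' _ (Or.inl rfl)

theorem l8l_lb_min {τ : ℕ → ℕ → ℕ} {l c x : ℕ} (h : l8lThr τ l c x) : l8lLb τ l c ≤ x := by
  classical
  unfold l8lLb
  exact Nat.find_min' _ h

variable {Ω : Type} [MeasurableSpace Ω] {T : L8L Ω} {I : L8LIn Ω}

/-- C1: two labels through the same vertex share its level -/
theorem l8l_thr_thr (hT : T.Ok) {τ : ℕ → ℕ → ℕ} (hτ : T.V τ) {l c x y : ℕ} (hc : c < T.r) (hx : x < T.r) (hy : y < T.r)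
    (h1 : l8lThr τ l c x) (h2 : l8lThr τ l c y) : x = y ∨ l ≤ τ x y := by
  by_cases hxy : x = y
  · exact Or.inl hxy
  right
  by_cases hxc : x = c
  · subst hxc
    rcases h2 with h2 | h2
    · exact absurd h2.symm hxy
    · rw [hT.symm τ hτ x y hx hy]; exact h2
  by_cases hyc : y = c
  · subst hyc
    rcases h1 with h1 | h1
    · exact absurd h1 hxy
    · exact h1
  have h1' : l ≤ τ x c := h1.resolve_left hxc
  have h2' : l ≤ τ y c := h2.resolve_left hyc
  have hu := hT.ultra τ hτ x c y hx hc hy hxc (fun h => hyc h.symm) hxy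
  rw [hT.symm τ hτ c y hc hy] at hu
  exact (le_min h1' h2').trans hu

/-- C2: a label through a vertex passes through the earlier vertices of the same path -/
theorem l8l_thr_trans (hT : T.Ok) {τ : ℕ → ℕ → ℕ} (hτ : T.V τ) {l l' c c' x : ℕ} (hc : c < T.r) (hc' : c' < T.r) (hx : x < T.r)
    (hl : l' ≤ l) (h1 : l8lThr τ l c x) (h2 : l8lThr τ l' c' c) : l8lThr τ l' c' x := by
  by_cases hxc' : x = c'
  · exact Or.inl hxc'
  right
  by_cases hxc : x = c
  · subst hxc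
    exact h2.resolve_left hxc'
  have h1' : l ≤ τ x c := h1.resolve_left hxc
  by_cases hcc' : c = c'
  · subst hcc'
    exact hl.trans h1'
  have h2' : l' ≤ τ c c' := h2.resolve_left hcc'
  have hu := hT.ultra τ hτ x c c' hx hc hc' hxc hcc' hxc'
  exact (le_min (hl.trans h1') h2').trans hu

/-- C3: two pairs with the same low vertex have the same canonical label -/
theorem l8l_lb_same (hT : T.Ok) {nv : ℕ} (Ch : L8LCh nv) {t0 ti : ℕ} {co : Fin nv → ℕ} (hval : Ch.Val T.V T.r t0 ti co)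
    {c d c' d' : ℕ} (hc : c < T.r) (hd : d < T.r) (hcd : c ≠ d) (hc' : c' < T.r) (hd' : d' < T.r) (hcd' : c' ≠ d')
    (hv : Ch.vtx c d = Ch.vtx c' d') (hlow : co (Ch.vtx c d) < ti) :
    l8lLb (Ch.tab co) (co (Ch.vtx c d)) c = l8lLb (Ch.tab co) (co (Ch.vtx c' d')) c' := by
  rw [← hv]
  by_cases hcc : c = c'
  · rw [hcc]
  have hτ := hval.tree
  have h1 : co (Ch.vtx c d) ≤ Ch.tab co c c' := hval.same c d c' d' hc hd hc' hd' hcd hcd' hv hlow hcc
  have h2 : co (Ch.vtx c d) ≤ Ch.tab co c' c := by rw [hT.symm _ hτ c' c hc' hc]; exact h1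
  refine le_antisymm ?_ ?_
  · refine l8l_lb_min ?_
    exact l8l_thr_trans hT hτ hc' hc ((l8l_lb_le _ _ _).trans_lt hc') le_rfl (l8l_lb_thr _ _ _) (Or.inr h2)
  · refine l8l_lb_min ?_
    exact l8l_thr_trans hT hτ hc hc' ((l8l_lb_le _ _ _).trans_lt hc) le_rfl (l8l_lb_thr _ _ _) (Or.inr h1)

/-- **C4: the moving vertex is not a fork of the retained tree.**   `s0` = a factor whose vertex has the largest level among the factors in `S`;
retained labels = `0`, `1` and the canonical labels of the vertices of the factors in `S`.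
PROOF.  Let `l` = level of the vertex `j` of `s0`, `c*` its canonical label.  If `vtx x y = j` then (`same`, `vsymm`) `x` and `y` pass through `j`.
A canonical label `z` of a factor `s` which passes through `j` equals `c*` (`c* ≤ z` by minimality; `c*` passes through the vertex of `s` since its level is `≤ l`: C1, C2; so `z ≤ c*`).
If `0` or `1` passes through `j` then `0` does (`τ 0 1 = t0 ≥ ti > l`), so `c* = 0`.  Hence `{x, y} = {0, 1}` and `l = t0`: contradiction. -/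
theorem l8l_comb (hT : T.Ok) {nv : ℕ} (Ch : L8LCh nv) (hv : ∀ x y, Ch.vtx x y = Ch.vtx y x) {t0 ti : ℕ} (hti : ti ≤ t0)
    {co : Fin nv → ℕ} (hval : Ch.Val T.V T.r t0 ti co) (S : Finset ℕ) (c d : ℕ → ℕ)
    (hcd : ∀ s ∈ S, c s < T.r ∧ d s < T.r ∧ c s ≠ d s) (hlow : ∀ s ∈ S, co (Ch.vtx (c s) (d s)) < ti)
    {s0 : ℕ} (hs0 : s0 ∈ S) (htop : ∀ s ∈ S, co (Ch.vtx (c s) (d s)) ≤ co (Ch.vtx (c s0) (d s0)))
    (R : Finset ℕ) (hR : R = insert 0 (insert 1 (S.image fun s => l8lLb (Ch.tab co) (co (Ch.vtx (c s) (d s))) (c s)))) :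
    ∀ x ∈ R, ∀ y ∈ R, x ≠ y → Ch.vtx x y ≠ Ch.vtx (c s0) (d s0) := by
  have hτ := hval.tree
  set τ := Ch.tab co with hτdef
  set l := co (Ch.vtx (c s0) (d s0)) with hl
  set cs := l8lLb τ l (c s0) with hcs
  obtain ⟨hc0, hd0, hcd0⟩ := hcd s0 hs0
  have hl_lt : l < ti := hlow s0 hs0
  have h0r : 0 < T.r := lt_of_lt_of_le (by norm_num) hT.two
  have h1r : 1 < T.r := lt_of_lt_of_le (by norm_num) hT.two
  have hcsr : cs < T.r := (l8l_lb_le _ _ _).trans_lt hc0
  have hcsthr : l8lThr τ l (c s0) cs := l8l_lb_thr _ _ _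
  have h01 : τ 0 1 = t0 := hval.old
  -- every retained label is a label
  have hRr : ∀ z ∈ R, z < T.r := by
    intro z hz
    rw [hR] at hz
    simp only [Finset.mem_insert, Finset.mem_image] at hz
    rcases hz with rfl | rfl | ⟨s, hs, rfl⟩
    · exact h0r
    · exact h1r
    · exact (l8l_lb_le _ _ _).trans_lt (hcd s hs).1
  -- a retained label through the moving vertex is the canonical label, or it is `1` and the canonical label is `0`
  have key : ∀ z ∈ R, l8lThr τ l (c s0) z → z = cs ∨ (z = 1 ∧ cs = 0) := by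
    intro z hz hthr
    have hzr := hRr z hz
    rw [hR] at hz
    simp only [Finset.mem_insert, Finset.mem_image] at hz
    rcases hz with rfl | rfl | ⟨s, hs, rfl⟩
    · left
      have := l8l_lb_min hthr
      omega
    · right
      refine ⟨rfl, ?_⟩
      have h3 : l8lThr τ l 1 0 := Or.inr (by rw [h01]; omega)
      have h4 : l8lThr τ l (c s0) 0 := l8l_thr_trans hT hτ h1r hc0 h0r le_rfl h3 hthr
      have := l8l_lb_min h4
      omega
    · left
      obtain ⟨hcs', -, -⟩ := hcd s hs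
      refine le_antisymm ?_ (l8l_lb_min hthr)
      refine l8l_lb_min ?_
      have h5 : l8lThr τ l (l8lLb τ (co (Ch.vtx (c s) (d s))) (c s)) cs :=
        l8l_thr_thr hT hτ hc0 hcsr hzr hcsthr hthr
      exact l8l_thr_trans hT hτ hzr hcs' hcsr (htop s hs) h5 (l8l_lb_thr _ _ _)
  intro x hx y hy hxy hvx
  have hxr := hRr x hx
  have hyr := hRr y hy
  have hthx : l8lThr τ l (c s0) x := by
    by_cases hxc : x = c s0
    · exact Or.inl hxc
    · right
      have := hval.same x y (c s0) (d s0) hxr hyr hc0 hd0 hxy hcd0 hvx (by rw [hvx]; exact hl_lt) hxc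
      rw [hvx] at this
      exact this
  have hvy : Ch.vtx y x = Ch.vtx (c s0) (d s0) := by rw [hv y x]; exact hvx
  have hthy : l8lThr τ l (c s0) y := by
    by_cases hyc : y = c s0
    · exact Or.inl hyc
    · right
      have := hval.same y x (c s0) (d s0) hyr hxr hc0 hd0 hxy.symm hcd0 hvy (by rw [hvy]; exact hl_lt) hyc
      rw [hvy] at this
      exact this
  have hold : co (Ch.vtx 0 1) = t0 := hval.old
  rcases key x hx hthx with h1 | ⟨h1, h1'⟩ <;> rcases key y hy hthy with h2 | ⟨h2, h2'⟩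
  · exact hxy (h1.trans h2.symm)
  · -- x = cs = 0, y = 1
    rw [h1, h2', h2] at hvx
    rw [hvx] at hold
    omega
  · rw [h2, h1', h1, hv 1 0] at hvx
    rw [hvx] at hold
    omega
  · exact hxy (h1.trans h2.symm)

/-! ### vertex form of the majorant -/

/-- number of factors of the set `F` at the vertex `j` -/
def l8lDeg {nv : ℕ} (Ch : L8LCh nv) (F : Finset ℕ) (c d : ℕ → ℕ) (j : Fin nv) : ℕ := (F.filter fun s => Ch.vtx (c s) (d s) = j).card

/-- majorant of the weight at one vertex -/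
noncomputable def l8lG (I : L8LIn Ω) {nv : ℕ} (Ch : L8LCh nv) (Sto Det : Finset ℕ) (c d : ℕ → ℕ) (j : Fin nv) (l : ℕ) : ℝ :=
  if l8lDeg Ch (Sto ∪ Det) c d j = 0 then 1
  else if l < I.ti then I.eb l ^ l8lDeg Ch Det c d j * (if (Sto ∪ Det).card = 1 then I.vv l else 1) else 0

theorem l8l_G_nonneg_aux (hI : I.Ok T) {nv : ℕ} (Ch : L8LCh nv) (Sto Det : Finset ℕ) (c d : ℕ → ℕ) (j : Fin nv) (l : ℕ) :
    0 ≤ l8lG I Ch Sto Det c d j l := by
  unfold l8lG
  split_ifs
  · exact zero_le_one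
  · exact mul_nonneg (pow_nonneg (hI.eb_nonneg l) _) (hI.vv_nonneg l)
  · exact mul_nonneg (pow_nonneg (hI.eb_nonneg l) _) zero_le_one
  · exact le_rfl

theorem l8l_prod_vertex_aux {nv : ℕ} (Ch : L8LCh nv) (F : Finset ℕ) (c d : ℕ → ℕ) (f : ℕ → ℝ) (co : Fin nv → ℕ) :
    ∏ s ∈ F, f (co (Ch.vtx (c s) (d s))) = ∏ j, f (co j) ^ l8lDeg Ch F c d j := by
  rw [← Finset.prod_fiberwise F (fun s => Ch.vtx (c s) (d s)) fun s => f (co (Ch.vtx (c s) (d s)))]
  refine Finset.prod_congr rfl fun j _ => ?_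
  unfold l8lDeg
  rw [← Finset.prod_const]
  refine Finset.prod_congr rfl fun s hs => ?_
  rw [(Finset.mem_filter.1 hs).2]

theorem l8l_deg_mono {nv : ℕ} (Ch : L8LCh nv) {F F' : Finset ℕ} (h : F ⊆ F') (c d : ℕ → ℕ) (j : Fin nv) :
    l8lDeg Ch F c d j ≤ l8lDeg Ch F' c d j :=
  Finset.card_le_card (Finset.filter_subset_filter _ h)

/-- N0: vertex form of the majorant -/
theorem l8l_maj_vertex {nv : ℕ} {Ch : L8LCh nv} {n r : ℕ} {A0 : ℝ} {w : (Fin nv → ℕ) → ℝ} {Sto Det : Finset ℕ} {c d : ℕ → ℕ}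
    (H : L8LHyp T I Ch n r A0 w Sto Det c d) (co : Fin nv → ℕ) : |w co| ≤ ∏ j, l8lG I Ch Sto Det c d j (co j) := by
  by_cases hw : w co = 0
  · rw [hw, abs_zero]
    exact Finset.prod_nonneg fun j _ => l8l_G_nonneg_aux H.hI Ch Sto Det c d j (co j)
  refine (H.maj co).trans (le_of_eq ?_)
  unfold l8lMaj
  rw [l8l_prod_vertex_aux Ch Det c d I.eb co, l8l_prod_vertex_aux Ch Sto c d I.vv co]
  have e : (if (Sto ∪ Det).card = 1 then ∏ j, I.vv (co j) ^ l8lDeg Ch Sto c d j else 1)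
      = ∏ j, (if (Sto ∪ Det).card = 1 then I.vv (co j) ^ l8lDeg Ch Sto c d j else 1) := by
    split_ifs
    · rfl
    · simp
  rw [e, ← Finset.prod_mul_distrib]
  refine Finset.prod_congr rfl fun j _ => ?_
  unfold l8lG
  by_cases h0 : l8lDeg Ch (Sto ∪ Det) c d j = 0
  · have hD : l8lDeg Ch Det c d j = 0 :=
      Nat.le_zero.1 (h0 ▸ l8l_deg_mono Ch Finset.subset_union_right c d j)
    have hS : l8lDeg Ch Sto c d j = 0 :=
      Nat.le_zero.1 (h0 ▸ l8l_deg_mono Ch Finset.subset_union_left c d j)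
    rw [if_pos h0, hD, hS]
    simp
  · rw [if_neg h0]
    have hlow : co j < I.ti := by
      unfold l8lDeg at h0
      obtain ⟨s, hs⟩ := Finset.card_pos.1 (Nat.pos_of_ne_zero h0)
      obtain ⟨hs1, hs2⟩ := Finset.mem_filter.1 hs
      rw [← hs2]
      exact H.low co hw s hs1
    rw [if_pos hlow]
    congr 1
    by_cases h1 : (Sto ∪ Det).card = 1
    · rw [if_pos h1, if_pos h1]
      have hSU : Sto = Sto ∪ Det := by
        refine Finset.eq_of_subset_of_card_le Finset.subset_union_left ?_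
        rw [h1]
        exact Finset.card_pos.2 H.ne
      have hle : l8lDeg Ch (Sto ∪ Det) c d j ≤ 1 := by
        unfold l8lDeg
        exact (Finset.card_le_card (Finset.filter_subset _ _)).trans h1.le
      have hS1 : l8lDeg Ch Sto c d j = 1 := by
        rw [← hSU] at hle h0
        omega
      rw [hS1, pow_one]
    · rw [if_neg h1, if_neg h1]

theorem l8l_G_nonneg (hI : I.Ok T) {nv : ℕ} (Ch : L8LCh nv) (Sto Det : Finset ℕ) (c d : ℕ → ℕ) (j : Fin nv) (l : ℕ) :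
    0 ≤ l8lG I Ch Sto Det c d j l :=
  l8l_G_nonneg_aux hI Ch Sto Det c d j l

theorem l8l_G_le_one (hI : I.Ok T) {nv : ℕ} (Ch : L8LCh nv) (Sto Det : Finset ℕ) (c d : ℕ → ℕ) (j : Fin nv) (l : ℕ) :
    l8lG I Ch Sto Det c d j l ≤ 1 := by
  unfold l8lG
  have h1 : I.eb l ^ l8lDeg Ch Det c d j ≤ 1 := pow_le_one₀ (hI.eb_nonneg l) (hI.eb_le l)
  split_ifs
  · exact le_rfl
  · exact mul_le_one₀ h1 (hI.vv_nonneg l) (hI.vv_le l)
  · rw [mul_one]; exact h1
  · exact zero_le_one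

/-- a product over the factors = a product over the vertices -/
theorem l8l_prod_vertex {nv : ℕ} (Ch : L8LCh nv) (F : Finset ℕ) (c d : ℕ → ℕ) (f : ℕ → ℝ) (co : Fin nv → ℕ) :
    ∏ s ∈ F, f (co (Ch.vtx (c s) (d s))) = ∏ j, f (co j) ^ l8lDeg Ch F c d j :=
  l8l_prod_vertex_aux Ch F c d f co

/-- a one-vertex sum of a function which vanishes on the high levels -/
theorem l8l_vsum_aux {nv : ℕ} {Ch : L8LCh nv} {mu : ℕ → ℝ} {ti : ℕ} {A0 : ℝ} (hCh : Ch.Ok mu ti A0) (hmu : ∀ l, 0 ≤ mu l)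
    (j : Fin nv) (g h : ℕ → ℝ) (h0 : ∀ l, ti ≤ l → g l = 0) (hg : ∀ l, l < ti → g l ≤ h l) (hh : ∀ l, 0 ≤ h l) :
    ∑ l ∈ range Ch.L, Ch.mm j l * g l ≤ ∑ l ∈ range ti, mu l * h l := by
  calc ∑ l ∈ range Ch.L, Ch.mm j l * g l
      ≤ ∑ l ∈ range Ch.L, (if l < ti then mu l * h l else 0) := by
        refine Finset.sum_le_sum fun l _ => ?_
        split_ifs with hl
        · exact (mul_le_mul_of_nonneg_left (hg l hl) (hCh.nonneg j l)).trans
            (mul_le_mul_of_nonneg_right (hCh.low j l hl) (hh l))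
        · rw [h0 l (not_lt.1 hl), mul_zero]
    _ = ∑ l ∈ (range Ch.L).filter (fun l => l < ti), mu l * h l := by rw [Finset.sum_filter]
    _ ≤ ∑ l ∈ range ti, mu l * h l := by
        refine Finset.sum_le_sum_of_subset_of_nonneg (fun l hl => ?_) fun l _ _ => mul_nonneg (hmu l) (hh l)
        exact Finset.mem_range.2 (Finset.mem_filter.1 hl).2

/-- the majorant at a vertex with total exponent `≥ 1` is at most the envelope -/
theorem l8l_G_eb_le (hI : I.Ok T) {nv : ℕ} (Ch : L8LCh nv) (Sto Det : Finset ℕ) (c d : ℕ → ℕ) (j : Fin nv) (e : ℕ)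
    (h0 : l8lDeg Ch (Sto ∪ Det) c d j ≠ 0) (he : 1 ≤ l8lDeg Ch Det c d j + e) (l : ℕ) (hl : l < I.ti) :
    l8lG I Ch Sto Det c d j l * I.eb l ^ e ≤ I.eb l := by
  unfold l8lG
  rw [if_neg h0, if_pos hl]
  have h1 : I.eb l ^ (l8lDeg Ch Det c d j + e) ≤ I.eb l := by
    calc I.eb l ^ (l8lDeg Ch Det c d j + e) ≤ I.eb l ^ 1 := pow_le_pow_of_le_one (hI.eb_nonneg l) (hI.eb_le l) he
      _ = I.eb l := pow_one _
  have h2 : (if (Sto ∪ Det).card = 1 then I.vv l else 1) ≤ 1 := by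
    split_ifs
    · exact hI.vv_le l
    · exact le_rfl
  have h3 : 0 ≤ I.eb l ^ (l8lDeg Ch Det c d j + e) := pow_nonneg (hI.eb_nonneg l) _
  calc I.eb l ^ l8lDeg Ch Det c d j * (if (Sto ∪ Det).card = 1 then I.vv l else 1) * I.eb l ^ e
      = I.eb l ^ (l8lDeg Ch Det c d j + e) * (if (Sto ∪ Det).card = 1 then I.vv l else 1) := by rw [pow_add]; ring
    _ ≤ I.eb l ^ (l8lDeg Ch Det c d j + e) * 1 := mul_le_mul_of_nonneg_left h2 h3
    _ ≤ I.eb l := by rw [mul_one]; exact h1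

/-- N1: a vertex without special role costs at most `A0` -/
theorem l8l_vsum_A0 (hI : I.Ok T) {nv : ℕ} {Ch : L8LCh nv} {A0 : ℝ} (hCh : Ch.Ok I.mu I.ti A0) (Sto Det : Finset ℕ) (c d : ℕ → ℕ)
    (j : Fin nv) (e : ℕ) : ∑ l ∈ range Ch.L, Ch.mm j l * (l8lG I Ch Sto Det c d j l * I.eb l ^ e) ≤ A0 := by
  refine le_trans (Finset.sum_le_sum fun l _ => ?_) (hCh.mass j)
  have h1 : l8lG I Ch Sto Det c d j l * I.eb l ^ e ≤ 1 :=
    mul_le_one₀ (l8l_G_le_one hI Ch Sto Det c d j l) (pow_nonneg (hI.eb_nonneg l) _) (pow_le_one₀ (hI.eb_nonneg l) (hI.eb_le l))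
  calc Ch.mm j l * (l8lG I Ch Sto Det c d j l * I.eb l ^ e) ≤ Ch.mm j l * 1 := mul_le_mul_of_nonneg_left h1 (hCh.nonneg j l)
    _ = Ch.mm j l := mul_one _

/-- N2: a vertex which carries a low factor costs at most `E1` (total exponent of the envelope `≥ 1`) -/
theorem l8l_vsum_E1 (hI : I.Ok T) {nv : ℕ} {Ch : L8LCh nv} {A0 : ℝ} (hCh : Ch.Ok I.mu I.ti A0) (Sto Det : Finset ℕ) (c d : ℕ → ℕ)
    (j : Fin nv) (e : ℕ) (h0 : l8lDeg Ch (Sto ∪ Det) c d j ≠ 0) (he : 1 ≤ l8lDeg Ch Det c d j + e) :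
    ∑ l ∈ range Ch.L, Ch.mm j l * (l8lG I Ch Sto Det c d j l * I.eb l ^ e) ≤ I.E1 := by
  refine le_trans (l8l_vsum_aux hCh hI.mu_nonneg j _ I.eb (fun l hl => ?_) (fun l hl => ?_) hI.eb_nonneg) hI.hE1
  · unfold l8lG
    rw [if_neg h0, if_neg (not_lt.2 hl), zero_mul]
  · exact l8l_G_eb_le hI Ch Sto Det c d j e h0 he l hl

/-- N3: the vertex which pays the cost `β` (alias cost), three regimes -/
theorem l8l_vsum_cost (hI : I.Ok T) {nv : ℕ} {Ch : L8LCh nv} {A0 : ℝ} (hCh : Ch.Ok I.mu I.ti A0) (Sto Det : Finset ℕ) (c d : ℕ → ℕ)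
    (j : Fin nv) (e : ℕ) (h0 : l8lDeg Ch (Sto ∪ Det) c d j ≠ 0) (β : ℕ → ℝ) (hβ : ∀ l, 0 ≤ β l) {B0 B1 Bv : ℝ}
    (hB0 : ∑ l ∈ range I.ti, I.mu l * β l ≤ B0) (hB1 : ∑ l ∈ range I.ti, I.mu l * I.eb l * β l ≤ B1)
    (hBv : ∑ l ∈ range I.ti, I.mu l * I.vv l * β l ≤ Bv) :
    ∑ l ∈ range Ch.L, Ch.mm j l * (l8lG I Ch Sto Det c d j l * I.eb l ^ e * β l)
      ≤ if (Sto ∪ Det).card = 1 then Bv else if 1 ≤ l8lDeg Ch Det c d j + e then B1 else B0 := by
  have hz : ∀ l, I.ti ≤ l → l8lG I Ch Sto Det c d j l * I.eb l ^ e * β l = 0 := by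
    intro l hl
    unfold l8lG
    rw [if_neg h0, if_neg (not_lt.2 hl), zero_mul, zero_mul]
  have hpe : ∀ l, I.eb l ^ e ≤ 1 := fun l => pow_le_one₀ (hI.eb_nonneg l) (hI.eb_le l)
  have hpe0 : ∀ l, 0 ≤ I.eb l ^ e := fun l => pow_nonneg (hI.eb_nonneg l) _
  split_ifs with h1 h2
  · refine le_trans (l8l_vsum_aux hCh hI.mu_nonneg j _ (fun l => I.vv l * β l) hz (fun l hl => ?_)
      fun l => mul_nonneg (hI.vv_nonneg l) (hβ l)) (le_trans (le_of_eq ?_) hBv)
    · refine mul_le_mul_of_nonneg_right ?_ (hβ l)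
      unfold l8lG
      rw [if_neg h0, if_pos hl, if_pos h1]
      have h3 : I.eb l ^ l8lDeg Ch Det c d j ≤ 1 := pow_le_one₀ (hI.eb_nonneg l) (hI.eb_le l)
      have h4 : 0 ≤ I.eb l ^ l8lDeg Ch Det c d j := pow_nonneg (hI.eb_nonneg l) _
      calc I.eb l ^ l8lDeg Ch Det c d j * I.vv l * I.eb l ^ e ≤ 1 * I.vv l * 1 :=
            mul_le_mul (mul_le_mul_of_nonneg_right h3 (hI.vv_nonneg l)) (hpe l) (hpe0 l)
              (by rw [one_mul]; exact hI.vv_nonneg l)
        _ = I.vv l := by ring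
    · exact Finset.sum_congr rfl fun l _ => by ring
  · refine le_trans (l8l_vsum_aux hCh hI.mu_nonneg j _ (fun l => I.eb l * β l) hz (fun l hl => ?_)
      fun l => mul_nonneg (hI.eb_nonneg l) (hβ l)) (le_trans (le_of_eq ?_) hB1)
    · exact mul_le_mul_of_nonneg_right (l8l_G_eb_le hI Ch Sto Det c d j e h0 h2 l hl) (hβ l)
    · exact Finset.sum_congr rfl fun l _ => by ring
  · refine le_trans (l8l_vsum_aux hCh hI.mu_nonneg j _ β hz (fun l hl => ?_) hβ) hB0
    calc l8lG I Ch Sto Det c d j l * I.eb l ^ e * β l ≤ 1 * β l :=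
          mul_le_mul_of_nonneg_right (mul_le_one₀ (l8l_G_le_one hI Ch Sto Det c d j l) (hpe0 l) (hpe l)) (hβ l)
      _ = β l := one_mul _

end Claimed.Agent.R286
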