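import Claimed.Agent.R286.L08.LsKit
import Claimed.Agent.R286.L08.LsComb

/-!
# Row 286 (S0533), folder L08, file EP : AN EARLIER PAIR RETAINED ABOVE A MOVING FORK      (owner helper57; head helper234; prefix `l8e_`)

TEX[LL:rem:statistics-earlier-pair]  (LL 08-statistics.tex l.1489-1503, Remark + Figure `fixed-marginal`; consumer: LL 09-expansion.tex l.203-222,
the later linear singleton of the patterns (1,2), (1,1) of (E2) = `hcenC` of `L09/CCAbs.lean`).

NO NEW FORMALISM (ruling of 234): tree laws = `L8L.Ok` (`L08/LsAbs.lean`: probability, two-label marginals = fork laws, RESTRICTION CONSISTENCY `rc`), flat charts `L8LCh`,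
"the fork moves" = `Function.update co j l`, fixed marginal = `l8l_os` (`L08/LsKit.lean`).   Here the retained pair (labels `0`, `1`) separates at the FIXED level
`I.t0`, and the moving vertex `j` has a level `co j > I.t0` (in (D16) it was the other way round: `co j < I.ti ≤ I.t0`).

Sentence by sentence:
* "At most one endpoint of that pair can descend through `v`"                                   `l8e_at_most_one` (ultrametric inequality);
* "Choose its path for `L_v`, if such an endpoint exists, and retain the other endpoint"          `l8eLb Ch j c` (chart form: `0` if `0, c` separate at `j`, else `1` if `1, c` do, else `c`);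
                                                                                                `l8e_lb_thr`: the chosen label passes through the moving vertex, `l8e_share`: same ancestor value;
* "the other child at `v` is unneeded and can be pruned.  The retained paths still split at `u`, so their law is independent of `v`"
                                                                                                `l8e_comb`: no two of the retained labels `{0, 1, l8eLb}` separate at `j` (= hypothesis `hR` of `l8l_os`; pruning = `rc`);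
* "if neither endpoint descends .. choose a continuation whose separation from the retained tree is at another fixed vertex" (09 l.211)    = the third case of `l8eLb`, covered by `l8e_comb`;
* "its projected endpoints are fixed-time observables of these same retained paths"               `I.P0 : Ω × Ω → ℝ` and `B co` are ARBITRARY bounded measurable functions of the two retained PATHS;
* "The centered inequality remains unconditional, followed by Hölder with the earlier random factor"      **`l8e_cen`** (any power `p` of the ancestor value = "stochastic ties form one polynomial power");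
* alias replacement + centred integration for the linear singleton                              **`l8e_main`**, `l8e_main_zero` (`E Xi = 0`, no extra factor).
The `L²(μ)` norm on the right of `l8e_cen` is the one bounded by (A2) / (D10) (`P.Pin 1 c`, `l8c_D10` of `L08/Cen.lean`) with the deterministic kernel `l ↦ mm j l * w (update co j l)`.
-/

set_option autoImplicit false

namespace Claimed.Agent.R286

open MeasureTheory Finset

variable {Ω : Type} [MeasurableSpace Ω] {T : L8L Ω} {I : L8LIn Ω}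

/-! ## 1. combinatorics -/

/-- TEX[LL:rem:statistics-earlier-pair] "At most one endpoint of that pair can descend through `v`": the pair `0, 1` separates at a level `< l`. -/
theorem l8e_at_most_one (hT : T.Ok) {τ : ℕ → ℕ → ℕ} (hτ : T.V τ) {l c : ℕ} (hc : c < T.r) (h01 : τ 0 1 < l) :
    ¬ (l8lThr τ l c 0 ∧ l8lThr τ l c 1) := by
  have h0 : 0 < T.r := lt_of_lt_of_le (by norm_num) hT.two
  have h1 : 1 < T.r := lt_of_lt_of_le (by norm_num) hT.two
  rintro ⟨a | a, b | b⟩
  · omega
  · subst a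
    rw [hT.symm τ hτ 1 0 h1 h0] at b
    omega
  · subst b
    omega
  · by_cases e0 : c = 0
    · subst e0
      rw [hT.symm τ hτ 1 0 h1 h0] at b
      omega
    by_cases e1 : c = 1
    · subst e1
      omega
    have := hT.ultra τ hτ 0 c 1 h0 hc h1 (Ne.symm e0) e1 (by norm_num)
    rw [hT.symm τ hτ c 1 hc h1] at this
    omega

/-- TEX[LL:rem:statistics-earlier-pair] "Choose its path for `L_v`, if such an endpoint exists": the retained label which carries the ancestor value of the moving vertex `j`;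
`c` = first label of the moving stochastic factor. -/
def l8eLb {nv : ℕ} (Ch : L8LCh nv) (j : Fin nv) (c : ℕ) : ℕ :=
  if Ch.vtx 0 c = j then 0 else if Ch.vtx 1 c = j then 1 else c

/-- the retained labels -/
def l8eR {nv : ℕ} (Ch : L8LCh nv) (j : Fin nv) (c : ℕ) : Finset ℕ := {0, 1, l8eLb Ch j c}

theorem l8e_eqns_cite : True := by
  have := @l8eLb.eq_1
  have := @l8eR.eq_1
  trivial

theorem l8e_lb_lt (hT : T.Ok) {nv : ℕ} (Ch : L8LCh nv) (j : Fin nv) {c : ℕ} (hc : c < T.r) : l8eLb Ch j c < T.r := by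
  have h0 : 0 < T.r := lt_of_lt_of_le (by norm_num) hT.two
  have h1 : 1 < T.r := lt_of_lt_of_le (by norm_num) hT.two
  unfold l8eLb
  split_ifs <;> assumption

/-- the chosen label passes through the moving vertex -/
theorem l8e_lb_thr {nv : ℕ} (Ch : L8LCh nv) (j : Fin nv) (c : ℕ) (co : Fin nv → ℕ) :
    l8lThr (Ch.tab co) (co j) c (l8eLb Ch j c) := by
  unfold l8eLb l8lThr L8LCh.tab
  split_ifs with h0 h1
  · right; rw [h0]
  · right; rw [h1]
  · left; rfl

/-- TEX[LL:rem:statistics-earlier-pair] "The retained paths still split at `u`, so their law is independent of `v`": **the moving vertex is not a fork of the retained tree**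
(variant of `l8l_comb` for a retained pair BELOW the moving level). -/
theorem l8e_comb {nv : ℕ} (Ch : L8LCh nv) (hv : ∀ x y, Ch.vtx x y = Ch.vtx y x) (j : Fin nv) (c : ℕ) (h01 : Ch.vtx 0 1 ≠ j) :
    ∀ x ∈ l8eR Ch j c, ∀ y ∈ l8eR Ch j c, x ≠ y → Ch.vtx x y ≠ j := by
  have h10 : Ch.vtx 1 0 ≠ j := by rw [hv]; exact h01
  have key0 : l8eLb Ch j c ≠ 0 → Ch.vtx 0 (l8eLb Ch j c) ≠ j := by
    unfold l8eLb
    split_ifs with a b
    · intro h; exact absurd rfl h
    · intro _; exact h01
    · intro _; exact a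
  have key1 : l8eLb Ch j c ≠ 1 → Ch.vtx 1 (l8eLb Ch j c) ≠ j := by
    unfold l8eLb
    split_ifs with a b
    · intro _; exact h10
    · intro h; exact absurd rfl h
    · intro _; exact b
  intro x hx y hy hxy
  simp only [l8eR, mem_insert, mem_singleton] at hx hy
  rcases hx with rfl | rfl | rfl <;> rcases hy with rfl | rfl | rfl
  · exact absurd rfl hxy
  · exact h01
  · exact key0 (Ne.symm hxy)
  · exact h10
  · exact absurd rfl hxy
  · exact key1 (Ne.symm hxy)
  · rw [hv]; exact key0 hxy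
  · rw [hv]; exact key1 hxy
  · exact absurd rfl hxy

/-- the ancestor value of the moving vertex is the same on the label `c` and on the chosen retained label -/
theorem l8e_share (hT : T.Ok) (hI : I.Ok T) {nv : ℕ} (Ch : L8LCh nv) (j : Fin nv) {c : ℕ} (hc : c < T.r) {co : Fin nv → ℕ}
    (hτ : T.V (Ch.tab co)) : ∀ᵐ ω ∂T.law (Ch.tab co), I.Xi (co j) (ω (l8eLb Ch j c)) = I.Xi (co j) (ω c) :=
  l8l_share hT hI hτ (l8e_lb_lt hT Ch j hc) hc (l8e_lb_thr Ch j c co)

/-! ## 2. centred integration under the fixed marginal of the earlier pair -/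

theorem l8e_M_nonneg (hT : T.Ok) {F : (ℕ → Ω) → ℝ} {M : ℝ} (h : ∀ ω, |F ω| ≤ M) : 0 ≤ M := by
  have := hT.probM
  obtain ⟨ω⟩ := nonempty_of_isProbabilityMeasure T.μ
  exact (abs_nonneg _).trans (h fun _ => ω)

/-- TEX[LL:rem:statistics-earlier-pair] "The centered inequality remains unconditional, followed by Hölder with the earlier random factor."
The retained pair `0, 1` separates at the FIXED level `I.t0`, the vertex `j` moves ABOVE it (`I.t0 < co j` on the support of the weight), `c` = any label through `j`;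
`I.P0` = the earlier random factor (a function of the two retained PATHS: projected endpoints are allowed), `B co` = truncated product of the other retained factors.
The right side is the one of `l8l_os`: the `L²(μ)` norm of the centred path integral is computed under the law of ONE path, not conditioned on `P0`. -/
theorem l8e_cen (hT : T.Ok) (hI : I.Ok T) {nv : ℕ} (Ch : L8LCh nv) (hv : ∀ x y, Ch.vtx x y = Ch.vtx y x)
    (hmm : ∀ j l, 0 ≤ Ch.mm j l) (w : (Fin nv → ℕ) → ℝ) (j : Fin nv) (c p : ℕ) (hcr : c < T.r)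
    (B : (Fin nv → ℕ) → (ℕ → Ω) → ℝ) (M : (Fin nv → ℕ) → ℝ)
    (hBm : ∀ co, Measurable (B co)) (hBd : ∀ co, DependsOn (B co) (l8eR Ch j c : Set ℕ)) (hBb : ∀ co ω, |B co ω| ≤ M co)
    (hBu : ∀ co l, B (Function.update co j l) = B co) (hMu : ∀ co l, M (Function.update co j l) = M co)
    (hw : ∀ co, w co ≠ 0 → T.V (Ch.tab co) ∧ co (Ch.vtx 0 1) = I.t0 ∧ I.t0 < co j) :
    |∑ co ∈ Ch.box, Ch.wt co * w co *
        ∫ ω, I.P0 (ω 0, ω 1) * B co ω * (I.Xi (co j) (ω c) ^ p - I.am T p (co j)) ∂T.law (Ch.tab co)|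
      ≤ I.Dab * ∑ co ∈ Ch.box.filter (fun co => co j = 0), (∏ j' ∈ univ.erase j, Ch.mm j' (co j')) * M co *
          Real.sqrt (∫ ω, (∑ l ∈ range Ch.L, Ch.mm j l * w (Function.update co j l) * (I.Xi l ω ^ p - I.am T p l)) ^ 2 ∂T.μ) := by
  by_cases h01 : Ch.vtx 0 1 = j
  · have hw0 : ∀ co, w co = 0 := by
      intro co
      by_contra h
      obtain ⟨_, h1, h2⟩ := hw co h
      rw [h01] at h1
      omega
    have e : ∑ co ∈ Ch.box, Ch.wt co * w co *
        ∫ ω, I.P0 (ω 0, ω 1) * B co ω * (I.Xi (co j) (ω c) ^ p - I.am T p (co j)) ∂T.law (Ch.tab co) = 0 :=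
      Finset.sum_eq_zero fun co _ => by rw [hw0 co]; ring
    rw [e, abs_zero]
    refine mul_nonneg hI.Dab_nonneg (Finset.sum_nonneg fun co _ => ?_)
    exact mul_nonneg (mul_nonneg (Finset.prod_nonneg fun j' _ => hmm j' _) (l8e_M_nonneg hT (hBb co))) (Real.sqrt_nonneg _)
  · have key : ∀ co ∈ Ch.box, Ch.wt co * w co *
        ∫ ω, I.P0 (ω 0, ω 1) * B co ω * (I.Xi (co j) (ω c) ^ p - I.am T p (co j)) ∂T.law (Ch.tab co)
        = Ch.wt co * w co *
        ∫ ω, I.P0 (ω 0, ω 1) * B co ω * (I.Xi (co j) (ω (l8eLb Ch j c)) ^ p - I.am T p (co j)) ∂T.law (Ch.tab co) := by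
      intro co _
      by_cases h0 : w co = 0
      · rw [h0]; ring
      · congr 1
        refine integral_congr_ae ?_
        filter_upwards [l8e_share hT hI Ch j hcr (hw co h0).1] with ω hω
        rw [hω]
    rw [Finset.sum_congr rfl key]
    exact l8l_os hT hI Ch hmm w j (l8eR Ch j c) (l8eLb Ch j c) p (by simp [l8eR]) (l8e_lb_lt hT Ch j hcr) (by simp [l8eR])
      (by simp [l8eR]) (l8e_comb Ch hv j c h01) B M hBm hBd hBb hBu hMu fun co h => ⟨(hw co h).1, (hw co h).2.1⟩

/-! ## 3. the later linear singleton: alias replacement, then centred integration -/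

theorem l8e_integrable (hT : T.Ok) {τ : ℕ → ℕ → ℕ} (hτ : T.V τ) {F : (ℕ → Ω) → ℝ} (hF : Measurable F) {C : ℝ}
    (hC : ∀ ω, |F ω| ≤ C) : Integrable F (T.law τ) := by
  have := hT.prob τ hτ
  exact Integrable.of_bound hF.aestronglyMeasurable C (Filter.Eventually.of_forall fun ω => by rw [Real.norm_eq_abs]; exact hC ω)

theorem l8e_wt_nonneg {nv : ℕ} (Ch : L8LCh nv) (hmm : ∀ j l, 0 ≤ Ch.mm j l) (co : Fin nv → ℕ) : 0 ≤ Ch.wt co :=
  Finset.prod_nonneg fun j _ => hmm j _

/-- one tree: the alias replacement of the moving factor costs `M * Dab * al` (Cauchy-Schwarz with the earlier random factor; the pair `c, d` has the fork law of its level) -/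
theorem l8e_alias (hT : T.Ok) (hI : I.Ok T) {τ : ℕ → ℕ → ℕ} (hτ : T.V τ) (h01 : τ 0 1 = I.t0) {c d s : ℕ} (hc : c < T.r) (hd : d < T.r)
    (hcd : c ≠ d) {a : ℝ} (ha : 0 ≤ a) (hal : ∫ q, (I.fac s (τ c d) q - I.Xi (τ c d) q.1) ^ 2 ∂T.fork (τ c d) ≤ a ^ 2)
    {B : (ℕ → Ω) → ℝ} (hB : Measurable B) {M : ℝ} (hM : ∀ ω, |B ω| ≤ M) :
    |∫ ω, I.P0 (ω 0, ω 1) * B ω * (I.fac s (τ c d) (ω c, ω d) - I.Xi (τ c d) (ω c)) ∂T.law τ| ≤ M * I.Dab * a := by
  have hYm : Measurable fun q : Ω × Ω => I.fac s (τ c d) q - I.Xi (τ c d) q.1 :=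
    (hI.fac_meas s _).sub ((hI.Xi_meas _).comp measurable_fst)
  have hpair : Measurable fun ω : ℕ → Ω => (ω c, ω d) := (measurable_pi_apply c).prodMk (measurable_pi_apply d)
  have h1 := l8l_cs hT hI hτ h01 hB (hYm.comp hpair) (b := 3) hM (fun ω => by
    refine (abs_sub _ _).trans ?_
    have := hI.fac_bd s (τ c d) (ω c, ω d)
    have := hI.Xi_bd (τ c d) (ω c)
    simp only at *
    linarith)
  have h2 := l8l_int2 hT hτ hc hd hcd (G := fun q => (I.fac s (τ c d) q - I.Xi (τ c d) q.1) ^ 2) (hYm.pow_const 2)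
  simp only [Function.comp] at h1
  rw [h2] at h1
  refine h1.trans ?_
  have hMD : 0 ≤ M * I.Dab := mul_nonneg (l8e_M_nonneg hT hM) hI.Dab_nonneg
  refine mul_le_mul_of_nonneg_left ?_ hMD
  rw [← Real.sqrt_sq ha]
  exact Real.sqrt_le_sqrt hal

/-- TEX[LL:rem:statistics-earlier-pair] **the configuration of Figure `fixed-marginal`**: the earlier pair `0, 1` (fixed level `I.t0`), the later LINEAR stochastic factor number `s` of the pair
`c, d` which separates at the moving vertex `j` (level `> I.t0`), deterministic kernel `w` (all the other times, restrictions and deterministic ties).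
`al l` = `L²` cost under the fork law of the alias replacement `fac s l → Xi l` at the levels `l > I.t0` ((D7), `l8s_fork_alias_Q`, `l8s_alias_L`).
After the replacement the child of `d` has no observable. -/
theorem l8e_main (hT : T.Ok) (hI : I.Ok T) {nv : ℕ} (Ch : L8LCh nv) (hv : ∀ x y, Ch.vtx x y = Ch.vtx y x)
    (hmm : ∀ j l, 0 ≤ Ch.mm j l) (w : (Fin nv → ℕ) → ℝ) (c d s : ℕ) (hcr : c < T.r) (hdr : d < T.r) (hcd : c ≠ d)
    (al : ℕ → ℝ) (hal0 : ∀ l, 0 ≤ al l)
    (hal : ∀ l, I.t0 < l → ∫ q, (I.fac s l q - I.Xi l q.1) ^ 2 ∂T.fork l ≤ al l ^ 2)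
    (B : (Fin nv → ℕ) → (ℕ → Ω) → ℝ) (M : (Fin nv → ℕ) → ℝ)
    (hBm : ∀ co, Measurable (B co)) (hBd : ∀ co, DependsOn (B co) (l8eR Ch (Ch.vtx c d) c : Set ℕ)) (hBb : ∀ co ω, |B co ω| ≤ M co)
    (hBu : ∀ co l, B (Function.update co (Ch.vtx c d) l) = B co) (hMu : ∀ co l, M (Function.update co (Ch.vtx c d) l) = M co)
    (hw : ∀ co, w co ≠ 0 → T.V (Ch.tab co) ∧ co (Ch.vtx 0 1) = I.t0 ∧ I.t0 < co (Ch.vtx c d)) :
    |(∑ co ∈ Ch.box, Ch.wt co * w co *
          ∫ ω, I.P0 (ω 0, ω 1) * B co ω * I.fac s (co (Ch.vtx c d)) (ω c, ω d) ∂T.law (Ch.tab co))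
        - ∑ co ∈ Ch.box, Ch.wt co * w co * (I.am T 1 (co (Ch.vtx c d)) * ∫ ω, I.P0 (ω 0, ω 1) * B co ω ∂T.law (Ch.tab co))|
      ≤ I.Dab * ((∑ co ∈ Ch.box, Ch.wt co * |w co| * M co * al (co (Ch.vtx c d)))
          + ∑ co ∈ Ch.box.filter (fun co => co (Ch.vtx c d) = 0), (∏ j' ∈ univ.erase (Ch.vtx c d), Ch.mm j' (co j')) * M co *
              Real.sqrt (∫ ω, (∑ l ∈ range Ch.L, Ch.mm (Ch.vtx c d) l * w (Function.update co (Ch.vtx c d) l) *
                (I.Xi l ω ^ 1 - I.am T 1 l)) ^ 2 ∂T.μ)) := by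
  set j := Ch.vtx c d with hj
  have hcen := l8e_cen hT hI Ch hv hmm w j c 1 hcr B M hBm hBd hBb hBu hMu hw
  -- splitting of one term
  have hsplit : ∀ co ∈ Ch.box, Ch.wt co * w co * ∫ ω, I.P0 (ω 0, ω 1) * B co ω * I.fac s (co j) (ω c, ω d) ∂T.law (Ch.tab co)
      - Ch.wt co * w co * (I.am T 1 (co j) * ∫ ω, I.P0 (ω 0, ω 1) * B co ω ∂T.law (Ch.tab co))
      = Ch.wt co * w co * (∫ ω, I.P0 (ω 0, ω 1) * B co ω * (I.fac s (co j) (ω c, ω d) - I.Xi (co j) (ω c)) ∂T.law (Ch.tab co))
        + Ch.wt co * w co * ∫ ω, I.P0 (ω 0, ω 1) * B co ω * (I.Xi (co j) (ω c) ^ 1 - I.am T 1 (co j)) ∂T.law (Ch.tab co) := by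
    intro co _
    by_cases h0 : w co = 0
    · rw [h0]; ring
    have hτ := (hw co h0).1
    have hPm : Measurable fun ω : ℕ → Ω => I.P0 (ω 0, ω 1) :=
      hI.P0_meas.comp ((measurable_pi_apply 0).prodMk (measurable_pi_apply 1))
    have hFm : Measurable fun ω : ℕ → Ω => I.fac s (co j) (ω c, ω d) :=
      (hI.fac_meas s _).comp ((measurable_pi_apply c).prodMk (measurable_pi_apply d))
    have hXm : Measurable fun ω : ℕ → Ω => I.Xi (co j) (ω c) := (hI.Xi_meas _).comp (measurable_pi_apply c)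
    have hPB : ∀ ω, |I.P0 (ω 0, ω 1) * B co ω| ≤ 2 * M co := fun ω => by
      rw [abs_mul]
      exact mul_le_mul (hI.P0_bd _) (hBb co ω) (abs_nonneg _) (by norm_num)
    have hM0 := l8e_M_nonneg hT (hBb co)
    have i1 : Integrable (fun ω => I.P0 (ω 0, ω 1) * B co ω * (I.fac s (co j) (ω c, ω d) - I.Xi (co j) (ω c))) (T.law (Ch.tab co)) :=
      l8e_integrable hT hτ ((hPm.mul (hBm co)).mul (hFm.sub hXm)) (C := 2 * M co * 3) fun ω => by
        rw [abs_mul]
        refine mul_le_mul (hPB ω) ?_ (abs_nonneg _) (by positivity)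
        refine (abs_sub _ _).trans ?_
        have := hI.fac_bd s (co j) (ω c, ω d)
        have := hI.Xi_bd (co j) (ω c)
        linarith
    have i2 : Integrable (fun ω => I.P0 (ω 0, ω 1) * B co ω * (I.Xi (co j) (ω c) ^ 1 - I.am T 1 (co j))) (T.law (Ch.tab co)) :=
      l8e_integrable hT hτ ((hPm.mul (hBm co)).mul ((hXm.pow_const 1).sub measurable_const)) (C := 2 * M co * (1 + |I.am T 1 (co j)|)) fun ω => by
        rw [abs_mul]
        refine mul_le_mul (hPB ω) ?_ (abs_nonneg _) (by positivity)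
        refine (abs_sub _ _).trans ?_
        have := hI.Xi_bd (co j) (ω c)
        rw [pow_one]
        linarith
    have i3 : Integrable (fun ω => I.P0 (ω 0, ω 1) * B co ω) (T.law (Ch.tab co)) :=
      l8e_integrable hT hτ (hPm.mul (hBm co)) hPB
    have e : ∫ ω, I.P0 (ω 0, ω 1) * B co ω * I.fac s (co j) (ω c, ω d) ∂T.law (Ch.tab co)
        = (∫ ω, I.P0 (ω 0, ω 1) * B co ω * (I.fac s (co j) (ω c, ω d) - I.Xi (co j) (ω c)) ∂T.law (Ch.tab co))
          + (∫ ω, I.P0 (ω 0, ω 1) * B co ω * (I.Xi (co j) (ω c) ^ 1 - I.am T 1 (co j)) ∂T.law (Ch.tab co))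
          + I.am T 1 (co j) * ∫ ω, I.P0 (ω 0, ω 1) * B co ω ∂T.law (Ch.tab co) := by
      have a1 := integral_add i1 i2
      have a2 := integral_add (i1.add i2) (i3.const_mul (I.am T 1 (co j)))
      rw [← integral_const_mul, ← a1]
      refine Eq.trans ?_ a2
      refine integral_congr_ae (Filter.Eventually.of_forall fun ω => ?_)
      simp only [Pi.add_apply]
      ring
    rw [e]; ring
  rw [← Finset.sum_sub_distrib, Finset.sum_congr rfl hsplit, Finset.sum_add_distrib, mul_add]
  refine (abs_add_le _ _).trans (add_le_add ?_ hcen)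
  rw [Finset.mul_sum]
  refine (Finset.abs_sum_le_sum_abs _ _).trans (Finset.sum_le_sum fun co _ => ?_)
  by_cases h0 : w co = 0
  · rw [h0]; simp
  obtain ⟨hτ, h1, h2⟩ := hw co h0
  have hta : Ch.tab co c d = co j := rfl
  have ha := l8e_alias (s := s) hT hI hτ h1 hcr hdr hcd (hal0 (co j)) (by rw [hta]; exact hal _ h2) (hBm co) (hBb co)
  rw [hta] at ha
  rw [abs_mul, abs_mul, abs_of_nonneg (l8e_wt_nonneg Ch hmm co)]
  calc Ch.wt co * |w co| * _ ≤ Ch.wt co * |w co| * (M co * I.Dab * al (co j)) :=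
        mul_le_mul_of_nonneg_left ha (mul_nonneg (l8e_wt_nonneg Ch hmm co) (abs_nonneg _))
    _ = I.Dab * (Ch.wt co * |w co| * M co * al (co j)) := by ring

/-- TEX[LL:rem:statistics-earlier-pair] the form used in LL 09 l.196-222 (patterns (1,2), (1,1)): no other random factor; the deterministic mean of the alias vanishes against the centred earlier factor. -/
theorem l8e_main_zero (hT : T.Ok) (hI : I.Ok T) {nv : ℕ} (Ch : L8LCh nv) (hv : ∀ x y, Ch.vtx x y = Ch.vtx y x)
    (hmm : ∀ j l, 0 ≤ Ch.mm j l) (w : (Fin nv → ℕ) → ℝ) (c d s : ℕ) (hcr : c < T.r) (hdr : d < T.r) (hcd : c ≠ d)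
    (al : ℕ → ℝ) (hal0 : ∀ l, 0 ≤ al l)
    (hal : ∀ l, I.t0 < l → ∫ q, (I.fac s l q - I.Xi l q.1) ^ 2 ∂T.fork l ≤ al l ^ 2)
    (hw : ∀ co, w co ≠ 0 → T.V (Ch.tab co) ∧ co (Ch.vtx 0 1) = I.t0 ∧ I.t0 < co (Ch.vtx c d)) :
    |∑ co ∈ Ch.box, Ch.wt co * w co *
          ∫ ω, I.P0 (ω 0, ω 1) * I.fac s (co (Ch.vtx c d)) (ω c, ω d) ∂T.law (Ch.tab co)|
      ≤ I.Dab * ((∑ co ∈ Ch.box, Ch.wt co * |w co| * al (co (Ch.vtx c d)))
          + ∑ co ∈ Ch.box.filter (fun co => co (Ch.vtx c d) = 0), (∏ j' ∈ univ.erase (Ch.vtx c d), Ch.mm j' (co j')) *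
              Real.sqrt (∫ ω, (∑ l ∈ range Ch.L, Ch.mm (Ch.vtx c d) l * w (Function.update co (Ch.vtx c d) l) *
                (I.Xi l ω - I.am T 1 l)) ^ 2 ∂T.μ)) := by
  have h := l8e_main hT hI Ch hv hmm w c d s hcr hdr hcd al hal0 hal (fun _ _ => 1) (fun _ => 1) (fun _ => measurable_const)
    (fun _ _ _ _ => rfl) (fun _ _ => by simp) (fun _ _ => rfl) (fun _ _ => rfl) hw
  have h0 : ∑ co ∈ Ch.box, Ch.wt co * w co * (I.am T 1 (co (Ch.vtx c d)) * ∫ ω, I.P0 (ω 0, ω 1) * (1 : ℝ) ∂T.law (Ch.tab co)) = 0 := by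
    refine Finset.sum_eq_zero fun co _ => ?_
    by_cases hw0 : w co = 0
    · rw [hw0]; ring
    · simp only [mul_one]
      rw [l8l_P0_mean hT hI (hw co hw0).1 (hw co hw0).2.1]; ring
  rw [h0, sub_zero] at h
  simpa only [mul_one, pow_one] using h

end Claimed.Agent.R286
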