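import Claimed.Agent.R286.L08.FineA
import Claimed.Agent.R286.Bud.TopKit

/-!
# Row 286 (S0533), folder L08, file FineM : THE CLOCK PART OF `I.Fine`, SEC. M = MODULI AND BOUNDS OF THE LL CLOCKS      (owner helper196; prefix `l8m_`, `L8m`)

Leaves `l8f_mod`, `l8f_bd`, `l8f_ev_clk` of the plan of 262 / 118 for `l8g_fine` (general `𝔹`, `F`; the only input is `h3 : LlSec3 𝔹 F`).      0 sorry

* PURE PART (no LL object): `l8m_mod_b`, `l8m_mod_K`, `l8m_mod_h` : a modulus on `[0,a]` gives `L8fMod (ghClamp a c) J δ η` with the SHARP jump sets `J_b = {0}`, `J_K = ∅` (`c 0 = 0`), `J_h = {x}` (`c = 0` before `x`);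
  `l8m_tel` : telescoping of a modulus.
* ONE POINT: `L8mPt p F 𝔹 C` = the elementary facts (ranges, `GhClk1` of the three clocks, `K 0 = 0`, `q 0 = 0`, `h = 0` before the mask, `h x = h_* x`, `h_* ≤ K`, `b ≤ C`);   `l8m_pt : ∃ C, LlUnif F (L8mPt · F 𝔹 C)`.
* FIXED `N`, UNIFORM IN THE POINT: `l8m_mod` (sharp jump sets), `l8m_mod2` (`J = {0, x}` for the three clocks), `l8m_modAll` (a modulus for every `η` at one point: the input of `l8f_at_cont`, `l8f_at_mem`), `l8m_bd` (`b a, h a, K a ≤ Jm`).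
* CHAINS: `l8m_req` (ONE finite set of required positions for all the points of size `N`; all chains which contain it satisfy `L8fClk`), `l8m_ev_clk` (the same along the net `atTop`),
  `l8m_req0` (chains which do not split the jump at the mass `0`: `L8fClk0`; Contract v5).
-/

set_option autoImplicit false

namespace Claimed.Agent.R286

open Set Filter Function Topology

/-! ## 1. pure part -/

theorem l8m_min_sub {w w' a : ℝ} (h : w ≤ w') : min w' a - min w a ≤ w' - w := by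
  rcases le_total w' a with h1 | h1
  · rw [min_eq_left h1, min_eq_left (h.trans h1)]
  · rw [min_eq_right h1]
    rcases le_total w a with h2 | h2
    · rw [min_eq_left h2]; linarith
    · rw [min_eq_right h2]; linarith

/-- a clock with a jump at the mass `0` only -/
theorem l8m_mod_b {a δ η : ℝ} {c : ℝ → ℝ} (hη : 0 ≤ η) (ha : 0 ≤ a)
    (H : ∀ v v' : ℝ, 0 ≤ v → v ≤ v' → v' ≤ a → v' - v ≤ δ → c v' - c v ≤ η) : L8fMod (ghClamp a c) {0} δ η := by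
  intro w w' hww hd hJ
  unfold ghClamp
  by_cases h1 : w' < 0
  · rw [if_pos h1, if_pos (lt_of_le_of_lt hww h1)]
    simpa using hη
  · by_cases h2 : w < 0
    · exact absurd ⟨h2, not_lt.1 h1⟩ (hJ 0 (Finset.mem_singleton_self _))
    · rw [if_neg h1, if_neg h2]
      exact H _ _ (le_min (not_lt.1 h2) ha) (min_le_min_right _ hww) (min_le_right _ _) ((l8m_min_sub hww).trans hd)

/-- a clock without jump -/
theorem l8m_mod_K {a δ η : ℝ} {c : ℝ → ℝ} (hη : 0 ≤ η) (ha : 0 ≤ a) (c0 : c 0 = 0)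
    (H : ∀ v v' : ℝ, 0 ≤ v → v ≤ v' → v' ≤ a → v' - v ≤ δ → c v' - c v ≤ η) : L8fMod (ghClamp a c) ∅ δ η := by
  intro w w' hww hd _
  unfold ghClamp
  by_cases h1 : w' < 0
  · rw [if_pos h1, if_pos (lt_of_le_of_lt hww h1)]
    simpa using hη
  · by_cases h2 : w < 0
    · rw [if_neg h1, if_pos h2]
      have h3 := H 0 (min w' a) le_rfl (le_min (not_lt.1 h1) ha) (min_le_right _ _) (by linarith [min_le_left w' a])
      rwa [c0] at h3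
    · rw [if_neg h1, if_neg h2]
      exact H _ _ (le_min (not_lt.1 h2) ha) (min_le_min_right _ hww) (min_le_right _ _) ((l8m_min_sub hww).trans hd)

/-- a clock which vanishes before its only jump `x` -/
theorem l8m_mod_h {a x δ η : ℝ} {c : ℝ → ℝ} (hη : 0 ≤ η) (hx0 : 0 ≤ x) (hxa : x ≤ a) (c0 : ∀ v, v < x → c v = 0)
    (H : ∀ v v' : ℝ, 0 ≤ v → v ≤ v' → v' ≤ a → v' - v ≤ δ → (v' < x ∨ x ≤ v) → c v' - c v ≤ η) : L8fMod (ghClamp a c) {x} δ η := by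
  intro w w' hww hd hJ
  have ha : 0 ≤ a := hx0.trans hxa
  have hJ' : w' < x ∨ x ≤ w := by
    by_contra hc
    push Not at hc
    exact hJ x (Finset.mem_singleton_self _) ⟨hc.2, hc.1⟩
  unfold ghClamp
  by_cases h1 : w' < 0
  · rw [if_pos h1, if_pos (lt_of_le_of_lt hww h1)]
    simpa using hη
  · by_cases h2 : w < 0
    · rw [if_neg h1, if_pos h2]
      rcases hJ' with h3 | h3
      · rw [c0 _ (lt_of_le_of_lt (min_le_left _ _) h3)]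
        simpa using hη
      · exact absurd (lt_of_le_of_lt h3 h2) (not_lt.2 hx0)
    · rw [if_neg h1, if_neg h2]
      refine H _ _ (le_min (not_lt.1 h2) ha) (min_le_min_right _ hww) (min_le_right _ _) ((l8m_min_sub hww).trans hd) ?_
      rcases hJ' with h3 | h3
      · exact Or.inl (lt_of_le_of_lt (min_le_left _ _) h3)
      · exact Or.inr (le_min h3 hxa)

/-- telescoping of a modulus -/
theorem l8m_tel {c : ℝ → ℝ} {lo a δ η : ℝ} (hδ : 0 ≤ δ)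
    (H : ∀ v v' : ℝ, lo ≤ v → v ≤ v' → v' ≤ a → v' - v ≤ δ → c v' - c v ≤ η) :
    ∀ (k : ℕ) (v : ℝ), lo ≤ v → v ≤ a → v - lo ≤ k * δ → c v - c lo ≤ k * η := by
  intro k
  induction k with
  | zero =>
    intro v h1 _ h3
    have : v = lo := le_antisymm (by simpa using h3) h1
    simp [this]
  | succ k ih =>
    intro v h1 h2 h3
    push_cast at h3 ⊢
    have h4 := ih (max lo (v - δ)) (le_max_left _ _) (max_le (h1.trans h2) (by linarith)) (by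
      rcases le_total lo (v - δ) with h | h
      · rw [max_eq_right h]; linarith
      · rw [max_eq_left h]; simpa using mul_nonneg (Nat.cast_nonneg k) hδ)
    have h5 := H (max lo (v - δ)) v (le_max_left _ _) (max_le h1 (by linarith)) h2 (by linarith [le_max_right lo (v - δ)])
    linarith

/-! ## 2. one point -/

/-- the elementary facts on the clocks of one physical point -/
structure L8mPt (p : LlPt) (F : LlFix) (𝔹 : LlBase) (C : ℝ) : Prop where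
  a_pos : 0 < p.a
  a_le : p.a ≤ 4
  x_pos : 0 < p.x
  x_le : p.x ≤ p.a
  cb : GhClk1 p.a (p.b F 𝔹)
  ch : GhClk1 p.a (p.h F 𝔹)
  cK : GhClk1 p.a (p.K F 𝔹)
  K0 : p.K F 𝔹 0 = 0
  q0 : p.q F 𝔹 0 = 0
  h0 : ∀ v, v < p.x → p.h F 𝔹 v = 0
  hx : p.h F 𝔹 p.x = p.hS F 𝔹 p.x
  hS_le : ∀ v ∈ Icc 0 p.a, p.hS F 𝔹 v ≤ p.K F 𝔹 v
  q_mem : ∀ v ∈ Icc 0 p.a, p.q F 𝔹 v ∈ Icc (0 : ℝ) 1
  b_le : ∀ v ∈ Icc 0 p.a, p.b F 𝔹 v ≤ C
  b_pos : ∀ v ∈ Icc 0 p.a, 0 < p.b F 𝔹 v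
  b_flat : ∀ v ∈ Icc 0 p.x, p.b F 𝔹 v = p.b F 𝔹 0

variable {𝔹 : LlBase} {F : LlFix}

theorem l8m_pt (h3 : LlSec3 𝔹 F) : ∃ C : ℝ, 0 ≤ C ∧ LlUnif F fun p => L8mPt p F 𝔹 C := by
  obtain ⟨c, C, hc, hadm⟩ := h3.adm
  obtain ⟨c', C', v0, hc', hv0, href⟩ := h3.ref
  obtain ⟨v1, hv1, hseed⟩ := h3.seed
  refine ⟨max C 0, le_max_right _ _, bt_unif_mono (bt_unif_and hadm (bt_unif_and href (bt_unif_and hseed (bt_unif_x hv1)))) ?_⟩
  rintro p hp ⟨⟨mb, mh, -, mK, -, bd, -, bfl⟩, hr, hs, hx1⟩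
  have ha := bt_a_pos hp
  have hx := bt_x_pos hp
  have hxa : p.x ≤ p.a := (bt_x_le_one hp).trans (bt_a_ge_one hp)
  have h0 : (0 : ℝ) ∈ Icc 0 p.a := ⟨le_rfl, ha.le⟩
  have hK0 : p.K F 𝔹 0 = 0 := by
    refine le_antisymm (le_of_forall_pos_le_add fun ε hε => ?_) (bd 0 h0).2.2.2.2
    set v : ℝ := min (min v0 p.a) (ε / (|C'| + 1)) with hv
    have hC1 : 0 < |C'| + 1 := by positivity
    have hvp : 0 < v := lt_min (lt_min hv0 ha) (div_pos hε hC1)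
    have h1 : p.K F 𝔹 0 ≤ p.K F 𝔹 v := mK h0 ⟨hvp.le, (min_le_left _ _).trans (min_le_right _ _)⟩ hvp.le
    have h2 := hr.K_hi0 v hvp ((min_le_left _ _).trans (min_le_left _ _))
    have h4 : v * (|C'| + 1) ≤ ε := by
      have := min_le_right (min v0 p.a) (ε / (|C'| + 1))
      rwa [← hv, le_div_iff₀ hC1] at this
    have h5 : C' * v ≤ v * (|C'| + 1) := by nlinarith [le_abs_self C']
    linarith
  have hG : ∀ t, 0 ≤ t → 0 ≤ p.Gam F 𝔹 t := fun t ht => by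
    have h1 := hr.gam_ftc 0 t le_rfl ht
    rw [hr.gam_zero, sub_zero] at h1
    rw [h1]
    exact intervalIntegral.integral_nonneg ht fun s hs => (hr.g1_pos s hs.1).le
  have hq : ∀ v ∈ Icc 0 p.a, p.q F 𝔹 v ∈ Icc (0 : ℝ) 1 := fun v hv => ⟨hG _ (bd v hv).2.2.2.2, hr.gam_le _ (bd v hv).2.2.2.2⟩
  refine ⟨ha, bt_a_le hp, hx, hxa, ⟨mb, hc.le.trans (bd 0 h0).1⟩, ⟨mh, (bd 0 h0).2.2.1⟩, ⟨mK, (bd 0 h0).2.2.2.2⟩, hK0, ?_, ?_, ?_, ?_, hq, ?_, ?_, bfl⟩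
  · show p.Gam F 𝔹 (p.K F 𝔹 0) = 0
    rw [hK0, hr.gam_zero]
  · intro v hv
    unfold LlPt.h
    rw [if_pos hv]
  · have h1 := hs p.x le_rfl hx1
    have h2 : p.Hlo F p.x = 0 := by
      unfold LlPt.Hlo
      rw [min_eq_left ((bt_x_le_one hp).trans hp.ell1), div_self hx.ne', Real.log_one, mul_zero]
    rw [h2] at h1
    unfold LlPt.d at h1
    linarith
  · intro v hv
    unfold LlPt.hS
    have := mul_nonneg (hc.le.trans (bd v hv).1) (hq v hv).1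
    linarith
  · exact fun v hv => (bd v hv).2.1.trans (le_max_left _ _)
  · exact fun v hv => hc.trans_le (bd v hv).1

/-! ## 3. fixed `N`, uniformly in the point -/

/-- **moduli with the sharp jump sets** -/
theorem l8m_mod (h3 : LlSec3 𝔹 F) : ∃ N0 : ℕ, ∀ N : ℕ, N0 ≤ N → ∀ η : ℝ, 0 < η → ∃ δ : ℝ, 0 < δ ∧ ∀ p : LlPt, p.Ok F → p.N = N →
    L8fMod (ghClamp p.a (p.b F 𝔹)) {0} δ η ∧ L8fMod (ghClamp p.a (p.h F 𝔹)) {p.x} δ η ∧ L8fMod (ghClamp p.a (p.K F 𝔹)) ∅ δ η := by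
  obtain ⟨C, _, N1, hpt⟩ := l8m_pt h3
  obtain ⟨N2, heq⟩ := h3.equi
  refine ⟨max N1 N2, fun N hN η hη => ?_⟩
  obtain ⟨δ, hδ, H⟩ := heq N ((le_max_right _ _).trans hN) η hη
  refine ⟨δ, hδ, fun p hp hpN => ?_⟩
  have P := hpt p hp (by rw [hpN]; exact (le_max_left _ _).trans hN)
  have H' := H p hp hpN
  exact ⟨l8m_mod_b hη.le P.a_pos.le fun v v' h1 h2 h4 h5 => (H' v v' h1 h2 h4 h5).2.2.1,
    l8m_mod_h hη.le P.x_pos.le P.x_le P.h0 fun v v' h1 h2 h4 h5 h6 => (H' v v' h1 h2 h4 h5).2.2.2.2 h6,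
    l8m_mod_K hη.le P.a_pos.le P.K0 fun v v' h1 h2 h4 h5 => (H' v v' h1 h2 h4 h5).1⟩

/-- **moduli off `J = {0, x}`** (form of 262) -/
theorem l8m_mod2 (h3 : LlSec3 𝔹 F) : ∃ N0 : ℕ, ∀ N : ℕ, N0 ≤ N → ∀ η : ℝ, 0 < η → ∃ δ : ℝ, 0 < δ ∧ ∀ p : LlPt, p.Ok F → p.N = N →
    L8fMod (ghClamp p.a (p.b F 𝔹)) {0, p.x} δ η ∧ L8fMod (ghClamp p.a (p.h F 𝔹)) {0, p.x} δ η ∧ L8fMod (ghClamp p.a (p.K F 𝔹)) {0, p.x} δ η := by
  obtain ⟨N0, H⟩ := l8m_mod h3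
  refine ⟨N0, fun N hN η hη => ?_⟩
  obtain ⟨δ, hδ, H'⟩ := H N hN η hη
  refine ⟨δ, hδ, fun p hp hpN => ?_⟩
  obtain ⟨h1, h2, h4⟩ := H' p hp hpN
  exact ⟨h1.mono (by simp) le_rfl le_rfl, h2.mono (by simp) le_rfl le_rfl, h4.mono (by simp) le_rfl le_rfl⟩

/-- a modulus for every `η` at one point: the hypothesis of `l8f_at_cont`, `l8f_at_mem`, `l8f_right_eq`, `l8f_left_eq` -/
theorem l8m_modAll (h3 : LlSec3 𝔹 F) : LlUnif F fun p =>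
    (∀ η > 0, ∃ δ > 0, L8fMod (ghClamp p.a (p.b F 𝔹)) {0} δ η) ∧ (∀ η > 0, ∃ δ > 0, L8fMod (ghClamp p.a (p.h F 𝔹)) {p.x} δ η) ∧
    (∀ η > 0, ∃ δ > 0, L8fMod (ghClamp p.a (p.K F 𝔹)) ∅ δ η) := by
  obtain ⟨N0, H⟩ := l8m_mod h3
  refine ⟨N0, fun p hp hN => ⟨fun η hη => ?_, fun η hη => ?_, fun η hη => ?_⟩⟩
  all_goals obtain ⟨δ, hδ, H'⟩ := H p.N hN η hη
  · exact ⟨δ, hδ, (H' p hp rfl).1⟩
  · exact ⟨δ, hδ, (H' p hp rfl).2.1⟩
  · exact ⟨δ, hδ, (H' p hp rfl).2.2⟩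

/-- **bound of the terminal values at fixed `N`** -/
theorem l8m_bd (h3 : LlSec3 𝔹 F) : ∃ N0 : ℕ, ∀ N : ℕ, N0 ≤ N → ∃ Jm : ℝ, 0 ≤ Jm ∧ ∀ p : LlPt, p.Ok F → p.N = N →
    p.b F 𝔹 p.a ≤ Jm ∧ p.h F 𝔹 p.a ≤ Jm ∧ p.K F 𝔹 p.a ≤ Jm := by
  obtain ⟨C, hC, N1, hpt⟩ := l8m_pt h3
  obtain ⟨N2, heq⟩ := h3.equi
  refine ⟨max N1 N2, fun N hN => ?_⟩
  obtain ⟨δ, hδ, H⟩ := heq N ((le_max_right _ _).trans hN) 1 one_pos
  set n : ℕ := ⌈4 / δ⌉₊ with hn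
  have hnδ : 4 ≤ (n : ℝ) * δ := by
    have := Nat.le_ceil (4 / δ)
    rwa [div_le_iff₀ hδ] at this
  refine ⟨C + 2 * n, by positivity, fun p hp hpN => ?_⟩
  have P := hpt p hp (by rw [hpN]; exact (le_max_left _ _).trans hN)
  have H' := H p hp hpN
  have haa : p.a ∈ Icc 0 p.a := ⟨P.a_pos.le, le_rfl⟩
  have hxx : p.x ∈ Icc 0 p.a := ⟨P.x_pos.le, P.x_le⟩
  have hK : p.K F 𝔹 p.a ≤ n := by
    have := l8m_tel hδ.le (fun v v' h1 h2 h4 h5 => (H' v v' h1 h2 h4 h5).1) n p.a P.a_pos.le le_rfl (by linarith [P.a_le])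
    rw [P.K0] at this
    linarith
  have hh : p.h F 𝔹 p.a ≤ 2 * n := by
    have h1 := l8m_tel (c := p.h F 𝔹) (lo := p.x) hδ.le
      (fun v v' h1 h2 h4 h5 => (H' v v' (P.x_pos.le.trans h1) h2 h4 h5).2.2.2.2 (Or.inr h1)) n p.a P.x_le le_rfl (by linarith [P.a_le, P.x_pos])
    have h2 : p.h F 𝔹 p.x ≤ p.K F 𝔹 p.a := by
      rw [P.hx]
      exact (P.hS_le _ hxx).trans (P.cK.1 hxx haa P.x_le)
    linarith
  have hn0 : (0 : ℝ) ≤ n := Nat.cast_nonneg _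
  exact ⟨by linarith [P.b_le _ haa], by linarith, by linarith⟩
/-- **exact values of the clocks at the positions** (`K`: everywhere; `b`: off the mass `0`; `h`: off the mask; after the jump: always) -/
theorem l8m_val (h3 : LlSec3 𝔹 F) : LlUnif F fun p => ∀ r : GhPos, r.Ok p.a →
    ghAt p.a (p.K F 𝔹) r = p.K F 𝔹 r.u ∧ ((0 < r.u ∨ r.lam = 1) → ghAt p.a (p.b F 𝔹) r = p.b F 𝔹 r.u) ∧
    ((r.u ≠ p.x ∨ r.lam = 1) → ghAt p.a (p.h F 𝔹) r = p.h F 𝔹 r.u) ∧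
    (0 ≤ ghAt p.a (p.b F 𝔹) r ∧ ghAt p.a (p.b F 𝔹) r ≤ p.b F 𝔹 r.u) ∧ (0 ≤ ghAt p.a (p.h F 𝔹) r ∧ ghAt p.a (p.h F 𝔹) r ≤ p.h F 𝔹 r.u) := by
  obtain ⟨C, _, hpt⟩ := l8m_pt h3
  refine bt_unif_mono (bt_unif_and hpt (l8m_modAll h3)) ?_
  rintro p _ ⟨P, mb, mh, mK⟩ r hr
  refine ⟨l8f_at_cont P.a_pos.le P.cK mK hr (Or.inl (by simp)), fun h => l8f_at_cont P.a_pos.le P.cb mb hr ?_,
    fun h => l8f_at_cont P.a_pos.le P.ch mh hr ?_, l8f_at_mem P.a_pos.le P.cb mb hr, l8f_at_mem P.a_pos.le P.ch mh hr⟩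
  · exact h.imp (fun h => by simpa using h.ne') id
  · exact h.imp (fun h => by simpa using h) id

/-! ## 4. chains -/

/-- the mass of the mask at the size `N` -/
noncomputable def l8mX (N : ℕ) : ℝ := (N : ℝ) ^ (-(1 / 6) : ℝ)

theorem l8m_x {p : LlPt} {N : ℕ} (h : p.N = N) : p.x = l8mX N := by
  unfold LlPt.x l8mX
  rw [h]

theorem l8m_eqns_cite : True := by
  have := @l8mX.eq_1
  trivial

/-- the numerical choices: mesh, number of grid masses, number of fractions -/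
theorem l8m_num {δ0 η Jm : ℝ} (hδ0 : 0 < δ0) (hη : 0 < η) : ∃ (δ : ℝ) (n M : ℕ), 0 < δ ∧ δ ≤ η ∧ 2 * δ ≤ δ0 ∧ 4 ≤ (n : ℝ) * δ ∧ 0 < M ∧ Jm ≤ M * η := by
  have hδ : 0 < min (δ0 / 2) η := lt_min (by linarith) hη
  refine ⟨min (δ0 / 2) η, ⌈4 / min (δ0 / 2) η⌉₊, ⌈Jm / η⌉₊ + 1, hδ, min_le_right _ _, by linarith [min_le_left (δ0 / 2) η], ?_, Nat.succ_pos _, ?_⟩
  · have := Nat.le_ceil (4 / min (δ0 / 2) η)
    rwa [div_le_iff₀ hδ] at this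
  · have := Nat.le_ceil (Jm / η)
    rw [div_le_iff₀ hη] at this
    push_cast
    nlinarith

/-- **ONE finite set of required positions for all the points of the size `N`**: every chain which contains it is fine and has the clock fields -/
theorem l8m_req (h3 : LlSec3 𝔹 F) : ∃ N0 : ℕ, ∀ N : ℕ, N0 ≤ N → ∀ η : ℝ, 0 < η → ∃ (δ : ℝ) (n M : ℕ), 0 < δ ∧ δ ≤ η ∧ 0 < M ∧
    ∀ (s : ℝ) (Fs : Finset GhPos), l8fReq δ n M {0, l8mX N} s ⊆ Fs → ∀ p : LlPt, p.Ok F → p.N = N → 0 ≤ s → s < p.x →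
      L8fFine p.a δ M {0, p.x} (ghPs p.a Fs) ∧ L8fClk p.a η (p.b F 𝔹) (p.h F 𝔹) (p.K F 𝔹) s (ghPs p.a Fs) := by
  obtain ⟨N1, Hmod⟩ := l8m_mod2 h3
  obtain ⟨N2, Hbd⟩ := l8m_bd h3
  obtain ⟨C, _, N3, hpt⟩ := l8m_pt h3
  refine ⟨max N1 (max N2 N3), fun N hN η hη => ?_⟩
  obtain ⟨δ0, hδ0, Hm⟩ := Hmod N ((le_max_left _ _).trans hN) η hη
  obtain ⟨Jm, hJm, Hb⟩ := Hbd N (((le_max_left _ _).trans (le_max_right _ _)).trans hN)
  obtain ⟨δ, n, M, hδ, hδη, h2δ, hn, hM, hMη⟩ := l8m_num (Jm := Jm) hδ0 hη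
  refine ⟨δ, n, M, hδ, hδη, hM, fun s Fs hFs p hp hpN hs0 hsx => ?_⟩
  have P := hpt p hp (by rw [hpN]; exact ((le_max_right _ _).trans (le_max_right _ _)).trans hN)
  obtain ⟨mb, mh, mK⟩ := Hm p hp hpN
  obtain ⟨jb, jh, jK⟩ := Hb p hp hpN
  rw [← l8m_x hpN] at hFs
  have hsa : s < p.a := hsx.trans_le P.x_le
  have hf := l8f_fine_of_req hδ hn P.a_le hFs
  exact ⟨hf, l8f_clk P.a_pos hδ hδη hM (by simp) hf hsa (l8f_req_s hs0 hsa.le hFs) P.cb P.ch P.cK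
    (mb.mono subset_rfl h2δ le_rfl) (mh.mono subset_rfl h2δ le_rfl) (mK.mono subset_rfl h2δ le_rfl) jb jh jK hJm hMη⟩

/-- **the clock fields along the net of the finite sets of positions, uniformly in the point** -/
theorem l8m_ev_clk (h3 : LlSec3 𝔹 F) : ∃ N0 : ℕ, ∀ N : ℕ, N0 ≤ N → ∀ η : ℝ, 0 < η → ∀ s : ℝ, ∀ᶠ Fs : Finset GhPos in atTop,
    ∀ p : LlPt, p.Ok F → p.N = N → 0 ≤ s → s < p.x → L8fClk p.a η (p.b F 𝔹) (p.h F 𝔹) (p.K F 𝔹) s (ghPs p.a Fs) := by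
  obtain ⟨N0, H⟩ := l8m_req h3
  refine ⟨N0, fun N hN η hη s => ?_⟩
  obtain ⟨δ, n, M, _, _, _, H'⟩ := H N hN η hη
  filter_upwards [eventually_ge_atTop (l8fReq δ n M {0, l8mX N} s)] with Fs hFs p hp hpN hs0 hsx
  exact (H' s Fs hFs p hp hpN hs0 hsx).2

/-- **chains which do not split the jump at the mass `0`** (Contract v5): the required positions have this property, and every such chain which contains them has the clock fields and (A4) -/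
theorem l8m_req0 (h3 : LlSec3 𝔹 F) : ∃ N0 : ℕ, ∀ N : ℕ, N0 ≤ N → ∀ η : ℝ, 0 < η → ∃ (δ : ℝ) (n M : ℕ), 0 < δ ∧ δ ≤ η ∧ 0 < M ∧
    ∀ s : ℝ, (∀ q ∈ l8fReq δ n M {l8mX N} s, q.u = 0 → q.lam = 1) ∧
    ∀ Fs : Finset GhPos, l8fReq δ n M {l8mX N} s ⊆ Fs → (∀ q ∈ Fs, q.u = 0 → q.lam = 1) → ∀ p : LlPt, p.Ok F → p.N = N → 0 ≤ s → s < p.x →
      L8fFine p.a δ M {p.x} (ghPs p.a Fs) ∧ L8fClk0 p.a η (p.b F 𝔹) (p.h F 𝔹) (p.K F 𝔹) s (ghPs p.a Fs) ∧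
      LlTiltA4 p.a (l9Stp p.a (p.b F 𝔹) (p.h F 𝔹) (p.K F 𝔹) 0 0 0 (ghPs p.a Fs)) (l9Js s (ghPs p.a Fs)) := by
  obtain ⟨N1, Hmod⟩ := l8m_mod h3
  obtain ⟨N2, Hbd⟩ := l8m_bd h3
  obtain ⟨C, _, N3, hpt⟩ := l8m_pt h3
  obtain ⟨N4, hval⟩ := l8m_val h3
  refine ⟨max (max N1 N4) (max N2 (max N3 2)), fun N hN η hη => ?_⟩
  have hN1 : N1 ≤ N := ((le_max_left _ _).trans (le_max_left _ _)).trans hN
  have hN4 : N4 ≤ N := ((le_max_right _ _).trans (le_max_left _ _)).trans hN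
  have hN2 : N2 ≤ N := ((le_max_left _ _).trans (le_max_right _ _)).trans hN
  have hN3 : N3 ≤ N := ((le_max_left _ _).trans ((le_max_right _ _).trans (le_max_right _ _))).trans hN
  have hN5 : 2 ≤ N := ((le_max_right _ _).trans ((le_max_right _ _).trans (le_max_right _ _))).trans hN
  have hx0 : 0 < l8mX N := Real.rpow_pos_of_pos (by positivity) _
  have h0J : (0 : ℝ) ∉ ({l8mX N} : Finset ℝ) := by simpa using hx0.ne
  obtain ⟨δ0, hδ0, Hm⟩ := Hmod N hN1 η hη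
  obtain ⟨Jm, hJm, Hb⟩ := Hbd N hN2
  obtain ⟨δ, n, M, hδ, hδη, h2δ, hn, hM, hMη⟩ := l8m_num (Jm := Jm) hδ0 hη
  refine ⟨δ, n, M, hδ, hδη, hM, fun s => ⟨l8f_req_fl h0J, fun Fs hFs h01 p hp hpN hs0 hsx => ?_⟩⟩
  have P := hpt p hp (by rw [hpN]; exact hN3)
  have V := hval p hp (by rw [hpN]; exact hN4)
  obtain ⟨mb, mh, mK⟩ := Hm p hp hpN
  obtain ⟨jb, jh, jK⟩ := Hb p hp hpN
  rw [← l8m_x hpN] at hFs h0J
  have hsa : s < p.a := hsx.trans_le P.x_le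
  have hf := l8f_fine_of_req hδ hn P.a_le hFs
  have hc := l8f_clk0 P.a_pos hδ hδη hM h0J hf (l8f_req_zero P.a_pos.le hFs) (fun q hq => h01 q (gh_os_ps_mem.1 hq).1) hsa
    (l8f_req_s hs0 hsa.le hFs) P.cb P.ch P.cK (mb.mono (by simp) h2δ le_rfl) (mh.mono subset_rfl h2δ le_rfl) (mK.mono (by simp) h2δ le_rfl)
    jb jh jK hJm hMη
  refine ⟨hf, hc, hc.a4 ?_ ?_⟩
  · rw [(V (ghPosA s) (gh_os_posA_ok hs0 hsa.le)).2.2.1 (Or.inr rfl)]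
    exact P.h0 _ hsx
  · rw [(V (ghPosA s) (gh_os_posA_ok hs0 hsa.le)).2.1 (Or.inr rfl), (V (ghPosA 0) (gh_os_posA_ok le_rfl P.a_pos.le)).2.1 (Or.inr rfl)]
    exact P.b_flat _ ⟨hs0, hsx.le⟩

end Claimed.Agent.R286
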