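-- KEEP
import Claimed.Agent.R286.L08.HiCov
import Claimed.Agent.R286.L08.HiLong
import Claimed.Agent.R286.L08.LsCh
import Claimed.Agent.R286.L02.Inst
import Claimed.Agent.R286.Exit.LL02A7

/-!
# Row 286 (S0533), folder L08, file HiAd : ADAPTERS of (D15): the STRUCTURAL hypotheses of `L8HCov`, `L8HLong` on THE jet context `llJs n a P tl`      (owner helper57; head helper234; prefix `l8ha_`)

TEX[LL:prop:statistics-high] (LL 08 l.1489-1693).   The abstract equations (`L08/HiCov.lean`, `L08/HiLong.lean`) live on a bare `X : JtCtx S`.   This file discharges, on the concrete context, the STRUCTURAL fields: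

* sec. 1  (i)   `l8ha_ok_of_law : X.Law ms → 0 < a → ms X.N ≤ a → X.Ok a`   (`JtCtx.Ok` of `L08/HiCtx.lean` from the laws `JtCtx.Law` of `L02/Law.lean`, helper239);   `l8ha_ok : (llJs n a P tl).Ok a`.
* sec. 2  (iv)  `l8ha_a7_cov`, `l8ha_a7_long` : the fields `a7` from `exit_a7_masked` (helper93), with NONNEGATIVE constants `CA`, `EA = 3 CA / n`, resp. `CA / n`.
* sec. 3  (v)   `l8ha_dens1` : ONE LABEL: the level at which a new label leaves a given old label `y` has the density `mu` (`l8lMu`, mass cells), up to atoms at the forks of `y` and at the coincidence;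
                `l8ha_dens` : the field `dens` (PE Lemma 2.8 for the first inserted pair).
* sec. 4        the small fields: `msk`, `sum_zero`, `q_ref`, `b_bd`, `mu_nonneg`, `mu_sum`.
* sec. 5        the same statements in the shapes typed by helper279 (`mu t = trPm ms (t + 1) - trPm ms t` at all levels, `EA = C / n`, `Cd = 20 a + 70 a²`): `l8ha_x_*`.
`L8H_H1`, `L8H_H2` from `exit_pair_inv`, `exit_pair_long` : helper279 (`L08/HiAdH.lean`, prefix `l8hh_`).
-/

set_option autoImplicit false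

namespace Claimed.Agent.R286

open Finset
open scoped BigOperators

/-! ## 1. `JtCtx.Ok` -/

/-- an absolute allocation sum is a finite nonnegative combination of values at extensions of the old tree -/
theorem l8ha_abs_rep (ms : ℕ → ℝ) (N : ℕ) : ∀ (k q : ℕ) (τ : JtTopo), IsTr N q τ →
    ∃ (ι : Type) (_ : Fintype ι) (A : ι → ℝ) (E : ι → JtTopo), (∀ i, 0 ≤ A i) ∧
      (∀ i, IsTr N (q + k) (E i) ∧ JtAgree q τ (E i)) ∧ ∀ Φ, trAbsK ms N k q τ Φ = ∑ i, A i * Φ (E i)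
  | 0, q, τ, hτ => ⟨Unit, inferInstance, fun _ => 1, fun _ => τ, fun _ => zero_le_one, fun _ => ⟨hτ, fun _ _ _ _ => rfl⟩,
      fun Φ => by simp [trAbsK]⟩
  | k + 1, q, τ, hτ => by
    have ih := fun p : Fin q × Fin (N + 2) =>
      l8ha_abs_rep ms N k (q + 1) (trAtt N q τ p.1.1 p.2.1) (tr_att_isTr hτ p.1.2 (by have := p.2.2; omega))
    choose ι inst A E hA hE hΦ using ih
    let _ : ∀ p, Fintype (ι p) := inst
    refine ⟨Σ p, ι p, inferInstance, fun i => |trWt ms N q τ i.1.1.1 i.1.2.1| * A i.1 i.2, fun i => E i.1 i.2,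
      fun i => mul_nonneg (abs_nonneg _) (hA _ _), fun i => ⟨?_, ?_⟩, fun Φ => ?_⟩
    · rw [show q + (k + 1) = q + 1 + k by omega]
      exact (hE i.1 i.2).1
    · intro x y hx hy
      show E i.1 i.2 x y = τ x y
      rw [(hE i.1 i.2).2 x y (by omega) (by omega)]
      exact tr_att_old hx hy
    · simp only [trAbsK, trAbs]
      rw [Fintype.sum_sigma, Fintype.sum_prod_type, Finset.sum_range]
      refine Finset.sum_congr rfl fun x _ => ?_
      rw [Finset.sum_range]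
      refine Finset.sum_congr rfl fun j _ => ?_
      rw [hΦ (x, j) Φ, Finset.mul_sum]
      exact Finset.sum_congr rfl fun i _ => by ring

/-- the sign of the final tree sees the labels `< q + k` only -/
theorem l8ha_sg_loc (N q k : ℕ) : JtLoc (q + k) (trSg N q k) := by
  intro τ τ' h
  unfold trSg
  refine Finset.prod_congr rfl fun i hi => ?_
  have hi' : i < k := Finset.mem_range.1 hi
  have e : ((Finset.range (q + i)).filter fun y => τ (q + i) y = N + 1) = (Finset.range (q + i)).filter fun y => τ' (q + i) y = N + 1 := by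
    refine Finset.filter_congr fun y hy => ?_
    have hy' : y < q + i := Finset.mem_range.1 hy
    rw [h (q + i) y (by omega) (by omega)]
  rw [e]

theorem l8ha_sg_abs (N q k : ℕ) (τ : JtTopo) : |trSg N q k τ| ≤ 1 := by
  unfold trSg
  rw [Finset.abs_prod]
  refine Finset.prod_le_one (fun _ _ => abs_nonneg _) fun i _ => ?_
  split_ifs <;> simp

/-- **(i)** the context of (D15) from the laws of LL Section 2 -/
theorem l8ha_ok_of_law {S : Type} [Fintype S] [Inhabited S] {X : JtCtx S} {ms : ℕ → ℝ} (h : X.Law ms) {a : ℝ} (ha : 0 < a)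
    (hN : ms X.N ≤ a) : X.Ok a where
  a_pos := ha
  abs_rep := fun k q τ hτ => by
    obtain ⟨ι, i1, A, E, h1, h2, h3⟩ := l8ha_abs_rep ms X.N k q τ hτ
    exact ⟨ι, i1, A, E, h1, h2, fun Φ => by rw [h.absK]; exact h3 Φ⟩
  abs_add := fun k l q τ Φ => h.absK_tower k l q τ Φ
  abs_mass := fun k q τ hτ => by
    have h1 := tr_absK_le (ms := ms) hτ h.isMs k (fun _ => 1) 1 fun _ _ => by simp
    rw [h.absK]
    have h2 : (2 * ms X.N) ^ k ≤ (2 * a) ^ k :=
      pow_le_pow_left₀ (mul_nonneg (by norm_num) (h.isMs.nonneg _)) (by linarith) k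
    have h3 : (0 : ℝ) ≤ ∏ i ∈ range k, ((q : ℝ) + i) := Finset.prod_nonneg fun i _ => by positivity
    have h4 := mul_le_mul_of_nonneg_right h2 h3
    simp only [abs_one, mul_one] at h1
    exact h1.trans h4
  sum_sign := fun k q => ⟨trSg X.N q k, l8ha_sg_loc X.N q k, l8ha_sg_abs X.N q k, fun τ Φ hτ => by
    rw [h.sumK, h.absK]; exact tr_sumK_sign hτ h.isMs k Φ⟩
  nu_rep := fun q τ _ => by
    obtain ⟨p, h0, h1, hp⟩ := h.nu.rep q τ
    exact ⟨Fin q → S, inferInstance, p, fun s => trExt s, h0, h1, hp⟩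
  nu_congr := fun q τ τ' F hag => h.nu.congr q τ τ' (fun x y hx hy => (hag x y hx hy).symm) F
  nuK_congr := fun q τ τ' F hag => h.nuK.congr q τ τ' (fun x y hx hy => (hag x y hx hy).symm) F
  nu_comap := fun q p τ f hτ hf F hF => h.nu.comap q p τ hτ f hf F hF
  ov_bd := h.ov_abs
  ov_symm := h.ov_symm

theorem l8ha_ms_top (a : ℝ) (P : LlStp) : llMs a P P.length = a := by
  unfold llMs
  rw [List.getElem?_eq_none (by simp)]
  rfl

/-- **(i)** on THE jet context -/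
theorem l8ha_ok (n : ℕ) {a : ℝ} (ha : 0 < a) {P : LlStp} (hP : LlStpAdm a P) (tl : Option ℕ) : (llJs n a P tl).Ok a :=
  l8ha_ok_of_law (ll2_law n ha hP tl) ha (l8ha_ms_top a P).le

/-! ## 2. the fields `a7` -/

section a7
variable {S : Type}

/-- the remainder majorant is nonnegative -/
theorem l8ha_rem_nonneg {X : JtCtx S} {a : ℝ} (h : X.Ok a) {q : ℕ} {τ : JtTopo} (hτ : IsTr X.N q τ) (T : (ℕ → S) → ℝ) (k : ℕ) :
    0 ≤ X.rem q τ T k := by
  unfold JtCtx.rem
  obtain ⟨ι, _, A, E, hA, hE, hΦ⟩ := h.abs_rep (2 * k) q τ hτ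
  rw [hΦ]
  refine Finset.sum_nonneg fun i _ => mul_nonneg (hA i) (mul_nonneg ?_ ?_)
  · exact Finset.prod_nonneg fun i _ => by split_ifs <;> norm_num
  · obtain ⟨κ, _, p, σ, hp, -, hF⟩ := h.nu_rep (q + 2 * k) (E i) (hE i).1
    rw [hF]
    exact Finset.sum_nonneg fun j _ => mul_nonneg (hp j) (mul_nonneg (abs_nonneg _) (abs_nonneg _))

/-- (A7) is monotone in its two constants -/
theorem l8ha_a7_mono {X : JtCtx S} {a : ℝ} (h : X.Ok a) {q : ℕ} {τ : JtTopo} (hτ : IsTr X.N q τ) {T : (ℕ → S) → ℝ} {i j k : ℕ}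
    {C E C' E' : ℝ} (hC : C ≤ C') (hE : E ≤ E') (H : X.A7 q τ T i j k C E) : X.A7 q τ T i j k C' E' := by
  unfold JtCtx.A7 at H ⊢
  have := mul_le_mul_of_nonneg_right hC (l8ha_rem_nonneg h hτ T k)
  linarith

end a7

/-- `|S| ≤ 1` -/
theorem l8ha_Sf_abs {S : Type} {X : JtCtx S} {a : ℝ} (h : X.Ok a) {t : ℕ} (ht : t ≤ X.N + 1) : |X.Sf t| ≤ 1 := by
  unfold JtCtx.Sf
  obtain ⟨κ, _, p, σ, hp, h1, hF⟩ := h.nu_rep 2 (jtTab2 X.N t) (l8hk_tab2_isTr X.N t ht)
  rw [hF]
  calc |∑ i, p i * X.ov (σ i 0) (σ i 1)| ≤ ∑ i, |p i * X.ov (σ i 0) (σ i 1)| := Finset.abs_sum_le_sum_abs _ _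
    _ ≤ ∑ i, p i := Finset.sum_le_sum fun i _ => by
        rw [abs_mul, abs_of_nonneg (hp i)]
        exact mul_le_of_le_one_right (hp i) (h.ov_bd _ _)
    _ = 1 := h1

/-- **(iv)** the field `a7` of `L8HCov` : test `P = Q_{01} - S(t0)`, tested pair `(2, 3)`; `CA ≥ 0` depends on `k, M0` only, contact error `3 CA / n` -/
theorem l8ha_a7_cov (k : ℕ) (hk : 0 < k) (M0 : ℝ) : ∃ CA : ℝ, 0 ≤ CA ∧ ∀ (n : ℕ) (a : ℝ) (P : LlStp), 0 < n → 0 < a → a ≤ 4 → LlStpAdm a P →
    LlBd M0 P → ∀ t0, t0 ≤ P.length → ∀ τ, IsTr P.length 4 τ →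
      (llJs n a P none).A7 4 τ ((llJs n a P none).P0 t0) 2 3 k CA (3 * CA / n) := by
  obtain ⟨C, hC⟩ := exit_a7_masked 4 k M0
  refine ⟨max C 0, le_max_right _ _, fun n a P hn ha ha4 hP hbd t0 ht0 τ hτ => ?_⟩
  have hok := l8ha_ok n ha hP none
  set X := llJs n a P none with hX
  have hS : |X.Sf t0| ≤ 1 := l8ha_Sf_abs hok (by show t0 ≤ P.length + 1; omega)
  have hp : LlOvBd 4 (fun A : ℕ → ℕ → ℝ => A 0 1 - X.Sf t0) 2 1 := by
    refine ⟨fun A A' h => by simp only [h 0 1 (by norm_num) (by norm_num)], fun A hA => ?_, fun A A' δ _ _ h => ?_⟩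
    · have h1 := abs_sub (A 0 1) (X.Sf t0)
      have h2 := hA 0 1
      linarith
    · have := h 0 1
      simpa using this
  have H := hC n a P none τ (fun A => A 0 1 - X.Sf t0) 2 1 2 3 hn ha ha4 hP trivial hbd hτ hp (by norm_num) (by norm_num)
    (by norm_num) hk
  have e : (fun σ : ℕ → SkCfg n => (fun A : ℕ → ℕ → ℝ => A 0 1 - X.Sf t0) fun c d => (llJs n a P none).Qs τ σ c d) = X.P0 t0 := by
    funext σ
    show llMk none (τ 0 1) * skOv (σ 0) (σ 1) - X.Sf t0 = skOv (σ 0) (σ 1) - X.Sf t0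
    simp [llMk]
  rw [e] at H
  have hn' : (0 : ℝ) < n := by exact_mod_cast hn
  refine l8ha_a7_mono hok hτ (le_max_left _ _) ?_ H
  have : C * (2 + 1) ≤ 3 * max C 0 := by have := le_max_left C 0; linarith
  exact div_le_div_of_nonneg_right this hn'.le

/-- **(iv)** the field `a7` of `L8HLong` : no random test, tested pair `(0, 1)`; contact error `CA / n` -/
theorem l8ha_a7_long (k : ℕ) (hk : 0 < k) (M0 : ℝ) : ∃ CA : ℝ, 0 ≤ CA ∧ ∀ (n : ℕ) (a : ℝ) (P : LlStp), 0 < n → 0 < a → a ≤ 4 → LlStpAdm a P →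
    LlBd M0 P → ∀ r, r ≤ P.length → (llJs n a P none).A7 2 (jtTab2 P.length r) (fun _ => 1) 0 1 k CA (CA / n) := by
  obtain ⟨C, hC⟩ := exit_a7_masked 2 k M0
  refine ⟨max C 0, le_max_right _ _, fun n a P hn ha ha4 hP hbd r hr => ?_⟩
  have hok := l8ha_ok n ha hP none
  have hτ : IsTr P.length 2 (jtTab2 P.length r) := l8hk_tab2_isTr P.length r (by omega)
  have hp : LlOvBd 2 (fun _ : ℕ → ℕ → ℝ => (1 : ℝ)) 1 0 :=
    ⟨fun _ _ _ => rfl, fun _ _ => by simp, fun _ _ _ _ _ _ => by simp⟩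
  have H := hC n a P none (jtTab2 P.length r) (fun _ => 1) 1 0 0 1 hn ha ha4 hP trivial hbd hτ hp (by norm_num) (by norm_num)
    (by norm_num) hk
  have hn' : (0 : ℝ) < n := by exact_mod_cast hn
  refine l8ha_a7_mono hok hτ (le_max_left _ _) ?_ H
  have : C * (1 + 0) ≤ max C 0 := by have := le_max_left C 0; linarith
  exact div_le_div_of_nonneg_right this hn'.le

/-! ## 3. the density of the level of a new pair (PE Lemma 2.8) -/

section dens
variable {N q : ℕ} {τ : ℕ → ℕ → ℕ} {ms : ℕ → ℝ}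

theorem l8ha_mu_nonneg (hms : IsMs N ms) (l : ℕ) : 0 ≤ l8lMu ms N l := by
  unfold l8lMu
  split_ifs with h
  · exact sub_nonneg.2 (tra2_pm_le hms h)
  · exact le_rfl

/-- the mass cells add up to the terminal mass -/
theorem l8ha_mu_sum (ms : ℕ → ℝ) (N : ℕ) : ∑ t ∈ range (N + 1), l8lMu ms N t = ms N := by
  have h : ∀ M, M ≤ N → ∑ t ∈ range (M + 1), l8lMu ms N t = ms M := by
    intro M
    induction M with
    | zero => intro _; simp [l8lMu, trPm]
    | succ M ih =>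
      intro hM
      rw [Finset.sum_range_succ, ih (by omega)]
      simp [l8lMu, hM, trPm]
  exact h N le_rfl

/-- absolute weight of an attachment below the terminal draw: the mass cell + one terminal-type mass per additional occupied child -/
theorem l8ha_wt_abs (hτ : IsTr N q τ) (hms : IsMs N ms) {x j : ℕ} (hx : x < q) (hj : j ≤ N) (hmin : trIsMin τ j x) :
    |trWt ms N q τ x j| = l8lMu ms N j + ((trDeg q τ j x : ℝ) - 1) * ms j := by
  rw [abs_of_nonpos (tr_wt_nonpos hτ hms hx hj)]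
  unfold trWt l8lMu
  rw [if_pos hmin, if_neg (by omega), if_pos hj]
  ring

/-- a node with two occupied children on the path of `y0` is a fork of `y0` -/
theorem l8ha_fork (hτ : IsTr N q τ) {x y0 j : ℕ} (hx : x < q) (hy0 : y0 < q) (hxy : j ≤ τ y0 x) (hdeg : 2 ≤ trDeg q τ j x) :
    ∃ z, z < q ∧ τ y0 z = j := by
  unfold trDeg at hdeg
  obtain ⟨y1, h1, y2, h2, hne⟩ := Finset.one_lt_card.1 hdeg
  simp only [Finset.mem_filter, Finset.mem_range] at h1 h2
  obtain ⟨hy1, hj1, hm1⟩ := h1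
  obtain ⟨hy2, hj2, hm2⟩ := h2
  -- the two children separate exactly at `j`
  have h12 : τ y1 y2 ≤ j := by
    rcases lt_or_gt_of_ne hne with h | h
    · have := hm2 y1 h
      rw [hτ.symm y2 y1 hy2 hy1] at this
      omega
    · have := hm1 y2 h
      omega
  have a1 : j ≤ τ y0 y1 := le_trans (le_min hxy hj1) (hτ.ultra y0 x y1 hy0 hx hy1)
  have a2 : j ≤ τ y0 y2 := le_trans (le_min hxy hj2) (hτ.ultra y0 x y2 hy0 hx hy2)
  by_cases hc : τ y0 y1 = j
  · exact ⟨y1, hy1, hc⟩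
  · refine ⟨y2, hy2, ?_⟩
    by_contra hc2
    have b1 : j < τ y1 y0 := by rw [hτ.symm y1 y0 hy1 hy0]; omega
    have b2 : j < τ y0 y2 := by omega
    have := le_trans (le_min (Nat.succ_le_of_lt b1) (Nat.succ_le_of_lt b2)) (hτ.ultra y1 y0 y2 hy1 hy0 hy2)
    omega

/-- one attachment `(x, j)`: either the level is a fork of `y0` (or the coincidence), or the weight is the mass cell -/
theorem l8ha_term (hτ : IsTr N q τ) (hms : IsMs N ms) {y0 : ℕ} (hy0 : y0 < q) (G : ℕ → ℝ) (hG : ∀ t, 0 ≤ G t) {x j : ℕ}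
    (hx : x < q) (hj : j < N + 2) :
    |trWt ms N q τ x j| * G (min j (τ y0 x)) ≤ |trWt ms N q τ x j| * (∑ z ∈ range q, G (τ y0 z))
      + if j ≤ N ∧ trIsMin τ j x ∧ j ≤ τ y0 x then l8lMu ms N j * G j else 0 := by
  have hSg : ∀ z, z < q → G (τ y0 z) ≤ ∑ z ∈ range q, G (τ y0 z) := fun z hz =>
    Finset.single_le_sum (f := fun z => G (τ y0 z)) (fun _ _ => hG _) (Finset.mem_range.2 hz)
  have hSg0 : 0 ≤ ∑ z ∈ range q, G (τ y0 z) := Finset.sum_nonneg fun _ _ => hG _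
  have hif : 0 ≤ (if j ≤ N ∧ trIsMin τ j x ∧ j ≤ τ y0 x then l8lMu ms N j * G j else 0) := by
    split_ifs
    · exact mul_nonneg (l8ha_mu_nonneg hms j) (hG j)
    · exact le_rfl
  -- the level is the level of the old pair `(y0, x)`
  have easy : min j (τ y0 x) = τ y0 x → |trWt ms N q τ x j| * G (min j (τ y0 x)) ≤ |trWt ms N q τ x j| * (∑ z ∈ range q, G (τ y0 z))
      + if j ≤ N ∧ trIsMin τ j x ∧ j ≤ τ y0 x then l8lMu ms N j * G j else 0 := by
    intro h
    rw [h]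
    have := mul_le_mul_of_nonneg_left (hSg x hx) (abs_nonneg (trWt ms N q τ x j))
    linarith
  by_cases h1 : τ y0 x ≤ j
  · exact easy (min_eq_right h1)
  have h1' : j < τ y0 x := not_le.1 h1
  have hjN : j ≤ N := by have := hτ.le y0 x hy0 hx; omega
  by_cases hmin : trIsMin τ j x
  · rw [min_eq_left h1'.le, if_pos ⟨hjN, hmin, h1'.le⟩, l8ha_wt_abs hτ hms hx hjN hmin]
    have hd1 : (1 : ℝ) ≤ trDeg q τ j x := by exact_mod_cast tra2_deg_pos hτ hx hjN
    have hmu := l8ha_mu_nonneg hms j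
    have hmj := hms.nonneg j
    by_cases hd : 2 ≤ trDeg q τ j x
    · obtain ⟨z, hz, hzj⟩ := l8ha_fork hτ hx hy0 h1'.le hd
      have hGj : G j ≤ ∑ z ∈ range q, G (τ y0 z) := by rw [← hzj]; exact hSg z hz
      have c1 : 0 ≤ ((trDeg q τ j x : ℝ) - 1) * ms j := mul_nonneg (by linarith) hmj
      have c2 := mul_le_mul_of_nonneg_left hGj c1
      have c3 := mul_nonneg hmu hSg0
      nlinarith
    · have hd' : trDeg q τ j x = 1 := le_antisymm (by omega) (tra2_deg_pos hτ hx hjN)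
      rw [hd']
      have c3 := mul_nonneg hmu hSg0
      simp only [Nat.cast_one, sub_self, zero_mul, add_zero]
      linarith
  · have h0 : trWt ms N q τ x j = 0 := by unfold trWt; rw [if_neg hmin]
    rw [h0]
    simpa using hif

/-- at most one label is the least of the class of `y0` at the depth `j` -/
theorem l8ha_min_unique (hτ : IsTr N q τ) {y0 : ℕ} (hy0 : y0 < q) (j : ℕ) :
    ((range q).filter fun x => trIsMin τ j x ∧ j ≤ τ y0 x).card ≤ 1 := by
  rw [Finset.card_le_one]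
  intro x hx x' hx'
  simp only [Finset.mem_filter, Finset.mem_range] at hx hx'
  obtain ⟨hxq, hm, hj⟩ := hx
  obtain ⟨hxq', hm', hj'⟩ := hx'
  have h1 : j ≤ τ x x' := by
    have := hτ.ultra x y0 x' hxq hy0 hxq'
    rw [hτ.symm x y0 hxq hy0] at this
    exact le_trans (le_min hj hj') this
  by_contra hne
  rcases lt_or_gt_of_ne hne with h | h
  · have := hm' x h
    rw [hτ.symm x' x hxq' hxq] at this
    omega
  · have := hm x' h
    omega

/-- **ONE LABEL** (PE Lemma 2.8): the level at which the new label `q` leaves the old label `y0` has the density `mu` with respect to the mass cells,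
up to atoms at the levels `τ y0 z` (forks of `y0`; `z = y0`: coincidence) -/
theorem l8ha_dens1 (hτ : IsTr N q τ) (hms : IsMs N ms) {y0 : ℕ} (hy0 : y0 < q) (G : ℕ → ℝ) (hG : ∀ t, 0 ≤ G t) :
    trAbs ms N q τ (fun τ' => G (τ' y0 q))
      ≤ ∑ j ∈ range (N + 1), l8lMu ms N j * G j + 2 * ms N * q * ∑ z ∈ range q, G (τ y0 z) := by
  classical
  have hSg0 : 0 ≤ ∑ z ∈ range q, G (τ y0 z) := Finset.sum_nonneg fun _ _ => hG _
  unfold trAbs
  have e : ∀ x j, trAtt N q τ x j y0 q = min j (τ y0 x) := by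
    intro x j
    unfold trAtt
    rw [if_neg (by omega), if_pos rfl]
  simp only [e]
  calc ∑ x ∈ range q, ∑ j ∈ range (N + 2), |trWt ms N q τ x j| * G (min j (τ y0 x))
      ≤ ∑ x ∈ range q, ∑ j ∈ range (N + 2), (|trWt ms N q τ x j| * (∑ z ∈ range q, G (τ y0 z))
          + if j ≤ N ∧ trIsMin τ j x ∧ j ≤ τ y0 x then l8lMu ms N j * G j else 0) :=
        Finset.sum_le_sum fun x hx => Finset.sum_le_sum fun j hj =>
          l8ha_term hτ hms hy0 G hG (Finset.mem_range.1 hx) (Finset.mem_range.1 hj)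
    _ = (∑ x ∈ range q, ∑ j ∈ range (N + 2), |trWt ms N q τ x j|) * (∑ z ∈ range q, G (τ y0 z))
          + ∑ j ∈ range (N + 2), ∑ x ∈ range q, if j ≤ N ∧ trIsMin τ j x ∧ j ≤ τ y0 x then l8lMu ms N j * G j else 0 := by
        simp only [Finset.sum_add_distrib, Finset.sum_mul]
        congr 1
        exact Finset.sum_comm
    _ ≤ 2 * ms N * q * (∑ z ∈ range q, G (τ y0 z)) + ∑ j ∈ range (N + 1), l8lMu ms N j * G j := by
        refine add_le_add (mul_le_mul_of_nonneg_right (tra2_abs_total hτ hms) hSg0) ?_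
        rw [Finset.sum_range_succ _ (N + 1)]
        have z0 : ∑ x ∈ range q, (if N + 1 ≤ N ∧ trIsMin τ (N + 1) x ∧ N + 1 ≤ τ y0 x then l8lMu ms N (N + 1) * G (N + 1) else 0) = 0 :=
          Finset.sum_eq_zero fun x _ => if_neg (by omega)
        rw [z0, add_zero]
        refine Finset.sum_le_sum fun j hj => ?_
        have hjN : j ≤ N := Nat.lt_succ_iff.1 (Finset.mem_range.1 hj)
        have c0 : 0 ≤ l8lMu ms N j * G j := mul_nonneg (l8ha_mu_nonneg hms j) (hG j)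
        have e1 : ∑ x ∈ range q, (if j ≤ N ∧ trIsMin τ j x ∧ j ≤ τ y0 x then l8lMu ms N j * G j else 0)
            = (((range q).filter fun x => trIsMin τ j x ∧ j ≤ τ y0 x).card : ℝ) * (l8lMu ms N j * G j) := by
          rw [← Finset.sum_filter, Finset.sum_const, nsmul_eq_mul]
          congr 3
          refine Finset.filter_congr fun x _ => ?_
          simp [hjN]
        rw [e1]
        have c1 : (((range q).filter fun x => trIsMin τ j x ∧ j ≤ τ y0 x).card : ℝ) ≤ 1 := by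
          exact_mod_cast l8ha_min_unique hτ hy0 j
        nlinarith
    _ = _ := by ring

/-! linear calculus of one absolute attachment -/

theorem l8ha_abs_mono (hτ : IsTr N q τ) {Φ Ψ : (ℕ → ℕ → ℕ) → ℝ} (h : ∀ τ', IsTr N (q + 1) τ' → Φ τ' ≤ Ψ τ') :
    trAbs ms N q τ Φ ≤ trAbs ms N q τ Ψ := by
  unfold trAbs
  refine Finset.sum_le_sum fun x hx => Finset.sum_le_sum fun j hj => ?_
  have hj' := Finset.mem_range.1 hj
  exact mul_le_mul_of_nonneg_left (h _ (tr_att_isTr hτ (Finset.mem_range.1 hx) (by omega))) (abs_nonneg _)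

theorem l8ha_abs_lin (c0 c1 c2 : ℝ) (Φ Ψ : (ℕ → ℕ → ℕ) → ℝ) :
    trAbs ms N q τ (fun τ' => c0 + c1 * Φ τ' + c2 * Ψ τ')
      = c0 * (∑ x ∈ range q, ∑ j ∈ range (N + 2), |trWt ms N q τ x j|) + c1 * trAbs ms N q τ Φ + c2 * trAbs ms N q τ Ψ := by
  unfold trAbs
  simp only [Finset.mul_sum, ← Finset.sum_add_distrib]
  refine Finset.sum_congr rfl fun x _ => Finset.sum_congr rfl fun j _ => ?_
  ring

/-- **TWO LABELS**: the level of the first inserted pair `(2, 3)` over the old pair `(0, 1)` which shares `r` stages is `r` or has a bounded density -/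
theorem l8ha_dens2 (hms : IsMs N ms) {r : ℕ} (hr : r ≤ N) (g : ℕ → ℝ) (hg : ∀ t, 0 ≤ g t) :
    trAbsK ms N 2 2 (jtTab2 N r) (fun τ => if τ 2 3 ≤ N then g (τ 2 3) else 0)
      ≤ (16 * ms N + 48 * ms N ^ 2) * (g r + ∑ t ∈ range (N + 1), l8lMu ms N t * g t) := by
  set G : ℕ → ℝ := fun t => if t ≤ N then g t else 0 with hGd
  have hG : ∀ t, 0 ≤ G t := fun t => by
    simp only [hGd]; split_ifs
    · exact hg t
    · exact le_rfl
  have hGtop : G (N + 1) = 0 := by simp [hGd]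
  have hGr : G r = g r := by simp [hGd, hr]
  set M : ℝ := ∑ t ∈ range (N + 1), l8lMu ms N t * g t with hM
  have hMG : ∑ j ∈ range (N + 1), l8lMu ms N j * G j = M := by
    refine Finset.sum_congr rfl fun j hj => ?_
    have : j ≤ N := Nat.lt_succ_iff.1 (Finset.mem_range.1 hj)
    simp [hGd, this]
  have hM0 : 0 ≤ M := Finset.sum_nonneg fun t _ => mul_nonneg (l8ha_mu_nonneg hms t) (hg t)
  have ha0 : 0 ≤ ms N := hms.nonneg N
  have hτ0 : IsTr N 2 (jtTab2 N r) := l8hk_tab2_isTr N r (by omega)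
  have e0 : trAbsK ms N 2 2 (jtTab2 N r) (fun τ => if τ 2 3 ≤ N then g (τ 2 3) else 0)
      = trAbs ms N 2 (jtTab2 N r) fun τ1 => trAbs ms N 3 τ1 fun τ2 => G (τ2 2 3) := by
    simp only [trAbsK, hGd]
  rw [e0]
  -- the second label
  have s1 : trAbs ms N 2 (jtTab2 N r) (fun τ1 => trAbs ms N 3 τ1 fun τ2 => G (τ2 2 3))
      ≤ trAbs ms N 2 (jtTab2 N r) fun τ1 => M + (6 * ms N) * G (τ1 0 2) + (6 * ms N) * G (τ1 1 2) := by
    refine l8ha_abs_mono hτ0 fun τ1 hτ1 => ?_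
    have h := l8ha_dens1 (ms := ms) hτ1 hms (y0 := 2) (by norm_num) G hG
    rw [hMG] at h
    refine h.trans (le_of_eq ?_)
    rw [Finset.sum_range_succ, Finset.sum_range_succ, Finset.sum_range_one, hτ1.diag 2 (by norm_num), hGtop,
      hτ1.symm 2 0 (by norm_num) (by norm_num), hτ1.symm 2 1 (by norm_num) (by norm_num)]
    push_cast
    ring
  refine s1.trans ?_
  rw [l8ha_abs_lin]
  have t0 := tra2_abs_total (ms := ms) hτ0 hms
  have d0 := l8ha_dens1 (ms := ms) hτ0 hms (y0 := 0) (by norm_num) G hG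
  have d1 := l8ha_dens1 (ms := ms) hτ0 hms (y0 := 1) (by norm_num) G hG
  rw [hMG, Finset.sum_range_succ, Finset.sum_range_one] at d0 d1
  have v00 : jtTab2 N r 0 0 = N + 1 := by simp [jtTab2]
  have v01 : jtTab2 N r 0 1 = r := by simp [jtTab2]
  have v10 : jtTab2 N r 1 0 = r := by simp [jtTab2]
  have v11 : jtTab2 N r 1 1 = N + 1 := by simp [jtTab2]
  rw [v00, v01, hGtop, hGr] at d0
  rw [v10, v11, hGtop, hGr] at d1
  push_cast at t0 d0 d1
  have hgr := hg r
  have u0 := mul_le_mul_of_nonneg_left t0 hM0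
  have u1 := mul_le_mul_of_nonneg_left d0 (by positivity : 0 ≤ 6 * ms N)
  have u2 := mul_le_mul_of_nonneg_left d1 (by positivity : 0 ≤ 6 * ms N)
  have w1 : 0 ≤ ms N * g r := mul_nonneg ha0 hgr
  have w2 : 0 ≤ ms N ^ 2 * M := mul_nonneg (by positivity) hM0
  nlinarith

end dens

/-- **(v)** the field `dens` of `L8HLong` on THE jet context, `mu` = the mass cells, `Cd = 16 a + 48 a²` -/
theorem l8ha_dens (n : ℕ) {a : ℝ} (ha : 0 < a) {P : LlStp} (hP : LlStpAdm a P) (tl : Option ℕ) (r : ℕ) (hr : r ≤ P.length) (g : ℕ → ℝ)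
    (hg : ∀ t, 0 ≤ g t) :
    (llJs n a P tl).absK 2 2 (jtTab2 (llJs n a P tl).N r) (fun τ => if τ 2 3 ≤ (llJs n a P tl).N then g (τ 2 3) else 0)
      ≤ (16 * a + 48 * a ^ 2) * (g r + ∑ t ∈ range ((llJs n a P tl).N + 1), l8lMu (llMs a P) P.length t * g t) := by
  have h := l8ha_dens2 (ll2_isMs ha hP) hr g hg
  rw [l8ha_ms_top] at h
  exact h

/-! ## 4. the small fields -/

theorem l8ha_msk (n : ℕ) (a : ℝ) (P : LlStp) (t : ℕ) : (llJs n a P none).msk t = 1 := rfl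

theorem l8ha_sum_zero (n : ℕ) (a : ℝ) (P : LlStp) (tl : Option ℕ) (q : ℕ) (τ : JtTopo) (Φ : JtTopo → ℝ) :
    (llJs n a P tl).sumK 0 q τ Φ = Φ τ := rfl

theorem l8ha_q_ref (n : ℕ) (a : ℝ) (P : LlStp) (tl : Option ℕ) (t : ℕ) :
    (llJs n a P tl).qC t = (llJs n a P tl).nuK 2 (jtTab2 (llJs n a P tl).N t) fun s => jtSp (s 0) * jtSp (s 1) := rfl

theorem l8ha_b_bd (n : ℕ) {a M0 : ℝ} {P : LlStp} (hP : LlStpAdm a P) (hbd : LlBd M0 P) (tl : Option ℕ) (t : ℕ) :
    |(llJs n a P tl).bC t| ≤ M0 := by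
  show |skCumB (llMat P) t| ≤ M0
  rw [abs_of_nonneg (ll2_cumB_nonneg hP.1 t)]
  exact (hbd t).1

theorem l8ha_cell_nonneg {a : ℝ} (ha : 0 < a) {P : LlStp} (hP : LlStpAdm a P) (t : ℕ) : 0 ≤ l8lMu (llMs a P) P.length t :=
  l8ha_mu_nonneg (ll2_isMs ha hP) t

theorem l8ha_cell_sum (a : ℝ) (P : LlStp) : ∑ t ∈ range (P.length + 1), l8lMu (llMs a P) P.length t = a := by
  rw [l8ha_mu_sum, l8ha_ms_top]

/-! ## 5. the shapes of helper279 -/

theorem l8ha_ms_ge (a : ℝ) (P : LlStp) {t : ℕ} (ht : P.length ≤ t) : llMs a P t = a := by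
  unfold llMs
  rw [List.getElem?_eq_none (by simpa using ht)]
  rfl

/-- the cell weight written with `trPm` only (all levels) -/
theorem l8ha_x_mu_eq (a : ℝ) (P : LlStp) {t : ℕ} (ht : t ≤ P.length) :
    trPm (llMs a P) (t + 1) - trPm (llMs a P) t = l8lMu (llMs a P) P.length t := by
  rw [tra2_pm_succ]
  unfold l8lMu
  rw [if_pos ht]

theorem l8ha_x_mu_nonneg {a : ℝ} (ha : 0 < a) {P : LlStp} (hP : LlStpAdm a P) (t : ℕ) :
    0 ≤ trPm (llMs a P) (t + 1) - trPm (llMs a P) t := by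
  by_cases ht : t ≤ P.length
  · rw [l8ha_x_mu_eq a P ht]; exact l8ha_cell_nonneg ha hP t
  · have h1 : P.length ≤ t := by omega
    have h2 : P.length ≤ t - 1 := by omega
    rw [tra2_pm_succ, l8ha_ms_ge a P h1]
    unfold trPm
    rw [if_neg (by omega), l8ha_ms_ge a P h2, sub_self]

theorem l8ha_x_mu_sum (a : ℝ) (P : LlStp) : ∑ t ∈ range (P.length + 1), (trPm (llMs a P) (t + 1) - trPm (llMs a P) t) = a := by
  refine Eq.trans ?_ (l8ha_cell_sum a P)
  exact Finset.sum_congr rfl fun t ht => l8ha_x_mu_eq a P (Nat.lt_succ_iff.1 (Finset.mem_range.1 ht))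

theorem l8ha_x_dens (n : ℕ) {a : ℝ} (ha : 0 < a) {P : LlStp} (hP : LlStpAdm a P) (tl : Option ℕ) (r : ℕ) (hr : r ≤ P.length) (g : ℕ → ℝ)
    (hg : ∀ t, 0 ≤ g t) :
    (llJs n a P tl).absK 2 2 (jtTab2 P.length r) (fun τ => if τ 2 3 ≤ P.length then g (τ 2 3) else 0)
      ≤ (20 * a + 70 * a ^ 2) * (g r + ∑ t ∈ range (P.length + 1), (trPm (llMs a P) (t + 1) - trPm (llMs a P) t) * g t) := by
  have h := l8ha_dens n ha hP tl r hr g hg
  have e : ∑ t ∈ range (P.length + 1), (trPm (llMs a P) (t + 1) - trPm (llMs a P) t) * g t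
      = ∑ t ∈ range (P.length + 1), l8lMu (llMs a P) P.length t * g t :=
    Finset.sum_congr rfl fun t ht => by rw [l8ha_x_mu_eq a P (Nat.lt_succ_iff.1 (Finset.mem_range.1 ht))]
  rw [e]
  refine le_trans h ?_
  have h0 : 0 ≤ g r + ∑ t ∈ range (P.length + 1), l8lMu (llMs a P) P.length t * g t :=
    add_nonneg (hg r) (Finset.sum_nonneg fun t _ => mul_nonneg (l8ha_cell_nonneg ha hP t) (hg t))
  refine mul_le_mul_of_nonneg_right ?_ h0
  nlinarith [sq_nonneg a]

theorem l8ha_x_a7_cov (k : ℕ) (M0 : ℝ) : ∃ C : ℝ, 0 ≤ C ∧ ∀ (n : ℕ) (a : ℝ) (P : LlStp) (t0 : ℕ) (τ : JtTopo), 0 < n → 0 < a → a ≤ 4 →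
    LlStpAdm a P → LlBd M0 P → IsTr P.length 4 τ → t0 ≤ P.length → 0 < k →
    (llJs n a P none).A7 4 τ ((llJs n a P none).P0 t0) 2 3 k C (C / n) := by
  rcases Nat.eq_zero_or_pos k with rfl | hk
  · exact ⟨0, le_rfl, fun _ _ _ _ _ _ _ _ _ _ _ _ h => absurd h (lt_irrefl 0)⟩
  obtain ⟨CA, h0, H⟩ := l8ha_a7_cov k hk M0
  refine ⟨3 * CA, by positivity, fun n a P t0 τ hn ha ha4 hP hbd hτ ht0 _ => ?_⟩
  exact l8ha_a7_mono (l8ha_ok n ha hP none) hτ (by linarith) le_rfl (H n a P hn ha ha4 hP hbd t0 ht0 τ hτ)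

theorem l8ha_x_a7_long (k : ℕ) (M0 : ℝ) : ∃ C : ℝ, 0 ≤ C ∧ ∀ (n : ℕ) (a : ℝ) (P : LlStp) (r : ℕ), 0 < n → 0 < a → a ≤ 4 →
    LlStpAdm a P → LlBd M0 P → r ≤ P.length → 0 < k →
    (llJs n a P none).A7 2 (jtTab2 P.length r) (fun _ => 1) 0 1 k C (C / n) := by
  rcases Nat.eq_zero_or_pos k with rfl | hk
  · exact ⟨0, le_rfl, fun _ _ _ _ _ _ _ _ _ _ h => absurd h (lt_irrefl 0)⟩
  obtain ⟨CA, h0, H⟩ := l8ha_a7_long k hk M0
  exact ⟨CA, h0, fun n a P r hn ha ha4 hP hbd hr _ => H n a P hn ha ha4 hP hbd r hr⟩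

end Claimed.Agent.R286
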