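import Claimed.Agent.R286.W.Defs
import Claimed.Agent.R286.L08.L11Exp

/-!
# Row 286 (S0533), folder L08, file IvD7 : THE LINK  W (LL Lemma 8.2) -> L11 layers      (owner helper298; head of the unit IV: helper228; prefix `L8D7` / `l8d7_`)

TEX[LL:lem:statistics-integrated]  (LL 08-statistics.tex l.631-745, Lemma "Integrated variance estimates", (D7)).

The proof of (D7) is cut in three layers:
* the DETERMINISTIC layer of 228 (`L11Mass`, `L11Cut`, `L11Exp`: inequalities between the number valued functions `S, EW, TrH, TrC, Mix, VarX, M4, Dsq`,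
  with imports `L11Mass.Ok`, `L11Cut.Ok`, `L11Bridge` [= (A1), (A3) p = 2; P layer of 189] and `L11Tiles.Ok` [= (D3), (D5), variation bound]);
* THIS FILE: `L11Tiles.Ok` is PROVED from the conclusions `SkwConcl` of the width construction (W/Defs of 37) and the slope (D3), on every union of consecutive tiles;
* `L08/IvD7B.lean`: arithmetic and the closed forms (D7a), (D7a'), (D7b), (D7c) on the dyadic bands.

Non asymptotic: explicit constants in, explicit constants out.      The low-region variant is the same statement with `(U, Z) := (Y, 1)`, `G = 1` (so `Z_h = d.Z` always).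
The relaxed regimes of the board (macroscopic bands without smallness of `Y`; slope weakened by `χ_e`) are covered: `κ0` is a free parameter.
-/

set_option autoImplicit false

namespace Claimed.Agent.R286

open MeasureTheory Set

/-! ### `r(z) = min(z,1)` -/

theorem l8d7_R_mono {z z' : ℝ} (h : z ≤ z') : skwR z ≤ skwR z' := min_le_min_right 1 h
theorem l8d7_R_pos {z : ℝ} (h : 0 < z) : 0 < skwR z := lt_min h one_pos
theorem l8d7_R_le (z : ℝ) : skwR z ≤ z := min_le_left _ _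
theorem l8d7_R_le_one (z : ℝ) : skwR z ≤ 1 := min_le_right _ _

theorem l8d7_R_mul_le {Λ z : ℝ} (hΛ : 1 ≤ Λ) (_hz : 0 ≤ z) : skwR (Λ * z) ≤ Λ * skwR z := by
  unfold skwR
  rcases le_total z 1 with h | h
  · rw [min_eq_left h]; exact min_le_left _ _
  · rw [min_eq_right h]; exact (min_le_right _ _).trans (by linarith)

theorem l8d7_R_div_le {Λ z : ℝ} (hΛ : 1 ≤ Λ) (hz : 0 ≤ z) : skwR z / Λ ≤ skwR (z / Λ) := by
  have hΛ0 : 0 < Λ := by linarith
  rw [div_le_iff₀ hΛ0]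
  have := l8d7_R_mul_le hΛ (div_nonneg hz hΛ0.le)
  rwa [mul_div_cancel₀ _ hΛ0.ne', mul_comm] at this

/-! ### tilings -/

/-- the body of `SkwConcl.tiles` (the prescribed boundary at the join is not used here) -/
structure L8D7Tiling (C : ℝ) (d : SkwD) (zhi zbuf : ℝ) (hh : ℝ → ℝ) (n : ℕ) (t : ℕ → ℝ) : Prop where
  t0 : t 0 = d.zlo
  tn : t n = zhi
  lt : ∀ i < n, t i < t (i + 1)
  len : ∀ i < n, ∀ z ∈ Icc (t i) (t (i + 1)), hh z / C ≤ t (i + 1) - t i ∧ t (i + 1) - t i ≤ C * hh z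
  G : ∀ i < n, ∀ z ∈ Ioo (t i) (t (i + 1)),
    d.G z ≤ C / d.b * ((∫ s in (t i)..(t (i + 1)), d.G s) / (t (i + 1) - t i) + d.tiny)
  var : ∀ i < n, ∀ z ∈ Icc (d.zlo / 2) zbuf, ∀ z' ∈ Icc (d.zlo / 2) zbuf, z ≤ z' →
    t i - (t (i + 1) - t i) ≤ z → z' ≤ t (i + 1) + (t (i + 1) - t i) →
    d.S z' - d.S z ≤ C / d.b * min (skwR (t i)) (d.Z ^ 2 * (t (i + 1) - t i))

theorem l8d7_exists_tiling {C : ℝ} {d : SkwD} {zhi zbuf zj : ℝ} {hh : ℝ → ℝ} (h : SkwConcl C d zhi zbuf zj hh) :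
    ∃ (n : ℕ) (t : ℕ → ℝ), L8D7Tiling C d zhi zbuf hh n t := by
  obtain ⟨n, t, h0, hn, hlt, _, hall⟩ := h.tiles
  exact ⟨n, t, h0, hn, hlt, fun i hi => (hall i hi).1, fun i hi => (hall i hi).2.1, fun i hi => (hall i hi).2.2⟩

/-! ### the data of the link -/

/-- one instance: output of the width construction + the two deterministic layers of 228 + the constants of the link -/
structure L8D7 where
  c : SkwC
  d : SkwD
  /-- the constant of `SkwConcl` -/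
  C : ℝ
  zhi : ℝ
  zbuf : ℝ
  zj : ℝ
  /-- the width -/
  hh : ℝ → ℝ
  cut : L11Cut
  ms : L11Mass
  /-- `cv r(z) ≤ v(z) ≤ Cv r(z)` -/
  cv : ℝ
  Cv : ℝ
  /-- (D3): `dh ≥ κ0 r² dz` -/
  κ0 : ℝ
  /-- `S ≤ CS r` -/
  CS : ℝ
  /-- bound of the length of the `z` interval -/
  Cz : ℝ

/-- the hypotheses of the link -/
structure L8D7.Ok (D : L8D7) : Prop where
  hyp : SkwHyp D.c D.d
  Lq1 : 1 ≤ D.c.Lq
  concl : SkwConcl D.C D.d D.zhi D.zbuf D.zj D.hh
  C1 : 1 ≤ D.C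
  cutOk : D.cut.Ok
  msOk : D.ms.Ok
  bridge : L11Bridge D.ms D.cut
  zlohi : D.d.zlo ≤ D.zhi
  zhibuf : D.zhi ≤ D.zbuf
  zbufmax : D.zbuf ≤ D.d.zmax
  Cz1 : 1 ≤ D.Cz
  zbufCz : D.zbuf ≤ D.Cz
  dom_lo : D.cut.zlo ≤ D.d.zlo / 2
  dom_hi : D.zhi ≤ D.cut.zhi
  /-- the two layers speak of the same `S` and `G`; ROBUST to the convention at the jump points of the step function `S`:
  `S(z-) ≤ SZ z ≤ S z`  (both hold if `SZ = d.S`; `ivpCut` carries the cut `k` on `(zc k, zc (k+1)]`, `SkpI.Ok.Slink` on `[zc k, zc (k+1))`) -/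
  SZ_le : ∀ z ∈ Icc (D.d.zlo / 2) D.zbuf, D.cut.SZ z ≤ D.d.S z
  SZ_ge : ∀ w ∈ Icc (D.d.zlo / 2) D.zbuf, ∀ z ∈ Icc (D.d.zlo / 2) D.zbuf, w < z → D.d.S w ≤ D.cut.SZ z
  /-- beyond the buffer (only within one mesh of `zhi`): either `zhi + μ ≤ zbuf`, or `SZ` is constant after the last cut -/
  SZtop : ∀ z, D.zbuf ≤ z → z ≤ D.zhi + D.cut.μ → D.cut.SZ z ≤ D.d.S D.zbuf
  G : ∀ z ∈ Icc (D.d.zlo / 2) D.zbuf, D.cut.G z = D.d.G z
  cv0 : 0 < D.cv
  vz_lo : ∀ z ∈ Icc (D.d.zlo / 2) D.zbuf, D.cv * skwR z ≤ D.cut.vz z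
  vz_hi : ∀ z ∈ Icc (D.d.zlo / 2) D.zbuf, D.cut.vz z ≤ D.Cv * skwR z
  κ0 : 0 < D.κ0
  /-- TEX[LL:eq:D3] in increment form -/
  slope : ∀ u1 u2, D.d.zlo / 2 ≤ u1 → u1 ≤ u2 → u2 ≤ D.zbuf →
    D.κ0 * skwR u1 ^ 2 * (u2 - u1) ≤ D.cut.hZ u2 - D.cut.hZ u1
  /-- the mesh is finer than the tiles -/
  mesh : ∀ z ∈ Icc D.d.zlo D.zhi, D.cut.μ ≤ D.hh z / D.C
  vlow : D.cut.vlow ≤ D.cv * skwR (D.d.zlo / 2)
  Sr : ∀ z ∈ Icc (D.d.zlo / 2) D.zbuf, D.d.S z ≤ D.CS * skwR z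

namespace L8D7

variable (D : L8D7)

/-- comparability constant of the ends of a tile -/
noncomputable def Lam : ℝ := 1 + D.C ^ 2

/-- the constant of the deterministic variation bound `S(z) - S(w) ≤ A0 (z - w + |I|)` for `d.S` -/
noncomputable def A0 : ℝ := D.c.Lq + (D.C ^ 2 + D.C ^ 3) * D.d.Z ^ 2 / D.d.b

/-- the constant of the variation bound for `cut.SZ` (the term `2 CS` pays for the left end `zlo / 2` of the domain) -/
noncomputable def A : ℝ := D.A0 + 2 * D.CS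

/-- the tiles number `i0, .., i1 - 1` as an `L11Tiles`, with the backward buffer `[t i0 / 2, t i0]` -/
noncomputable def T (t : ℕ → ℝ) (i0 i1 : ℕ) : L11Tiles where
  nT := i1 - i0
  t := fun j => t (i0 + j)
  Gs := fun j => D.C / D.d.b *
    ((∫ s in (t (i0 + j))..(t (i0 + j + 1)), D.cut.G s) / (t (i0 + j + 1) - t (i0 + j)) + D.d.tiny)
  L := t i0 / 2
  vmin := D.cv * skwR (t i0 / 2)
  κh := D.κ0 * skwR (t i0 / 2) ^ 2
  A := D.A
  Cb := D.C / D.d.b
  εK := D.d.tiny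

end L8D7

variable {D : L8D7} {n : ℕ} {t : ℕ → ℝ}

theorem l8d7_t_le (ht : L8D7Tiling D.C D.d D.zhi D.zbuf D.hh n t) : ∀ i j, i ≤ j → j ≤ n → t i ≤ t j := by
  intro i j hij
  induction j, hij using Nat.le_induction with
  | base => intro _; exact le_rfl
  | succ j _ ih => intro hj; exact (ih (by omega)).trans (ht.lt j (by omega)).le

theorem l8d7_t_mem (_hD : D.Ok) (ht : L8D7Tiling D.C D.d D.zhi D.zbuf D.hh n t) {i : ℕ} (hi : i ≤ n) :
    D.d.zlo ≤ t i ∧ t i ≤ D.zhi :=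
  ⟨ht.t0 ▸ l8d7_t_le ht 0 i (Nat.zero_le _) hi, ht.tn ▸ l8d7_t_le ht i n hi le_rfl⟩

theorem l8d7_t_mem' (hD : D.Ok) (ht : L8D7Tiling D.C D.d D.zhi D.zbuf D.hh n t) {i : ℕ} (hi : i ≤ n) :
    t i ∈ Icc (D.d.zlo / 2) D.zbuf := by
  have := l8d7_t_mem hD ht hi
  have h0 := hD.hyp.zlo0
  exact ⟨by linarith, this.2.trans hD.zhibuf⟩

theorem l8d7_Lam_one (D : L8D7) : 1 ≤ D.Lam := by
  unfold L8D7.Lam; nlinarith [sq_nonneg D.C]

/-- TEX[LL:lem:statistics-widths] (iii): the ends of a tile are comparable -/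
theorem l8d7_t_succ_le (hD : D.Ok) (ht : L8D7Tiling D.C D.d D.zhi D.zbuf D.hh n t) {i : ℕ} (hi : i < n) :
    t (i + 1) ≤ D.Lam * t i := by
  have h1 := (ht.len i hi (t i) ⟨le_rfl, (ht.lt i hi).le⟩).2
  have h2 := hD.concl.upper (t i) (l8d7_t_mem' hD ht hi.le)
  have h3 := l8d7_R_le (t i)
  have hC := hD.C1
  have h4 : D.C * D.hh (t i) ≤ D.C * (D.C * t i) := by
    apply mul_le_mul_of_nonneg_left _ (by linarith)
    exact h2.trans (mul_le_mul_of_nonneg_left h3 (by linarith))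
  unfold L8D7.Lam
  nlinarith

theorem l8d7_CS_nonneg (hD : D.Ok) : 0 ≤ D.CS := by
  have hzlo := hD.hyp.zlo0
  have hz : D.d.zlo ∈ Icc (D.d.zlo / 2) D.zbuf := ⟨by linarith, hD.zlohi.trans hD.zhibuf⟩
  have h1 := hD.Sr _ hz
  have h0 := hD.hyp.S0 D.d.zlo ⟨hzlo.le, (hD.zlohi.trans hD.zhibuf).trans hD.zbufmax⟩
  have hR := l8d7_R_pos hzlo
  by_contra hcon
  have : D.CS * skwR D.d.zlo < 0 := mul_neg_of_neg_of_pos (not_le.1 hcon) hR
  linarith

theorem l8d7_A0_pos (hD : D.Ok) : 0 < D.A0 := by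
  have hb := hD.hyp.b0
  have hC := hD.C1
  have hZ := hD.hyp.Z1
  have hL := hD.Lq1
  unfold L8D7.A0
  have : 0 ≤ (D.C ^ 2 + D.C ^ 3) * D.d.Z ^ 2 / D.d.b := by positivity
  linarith

theorem l8d7_A0_le (hD : D.Ok) : D.A0 ≤ D.A := by
  have := l8d7_CS_nonneg hD
  unfold L8D7.A; linarith

theorem l8d7_A_pos (hD : D.Ok) : 0 < D.A := lt_of_lt_of_le (l8d7_A0_pos hD) (l8d7_A0_le hD)

/-- TEX[LL:lem:statistics-integrated] TEX[LL:eq:D5] **the deterministic variation estimate**: `S = q + f`, `q` Lipschitz, `|f| ≤ C e / b`, quasi-Lipschitz width -/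
theorem l8d7_var (hD : D.Ok) (ht : L8D7Tiling D.C D.d D.zhi D.zbuf D.hh n t) {i : ℕ} (hi : i < n) {z w : ℝ}
    (hz : z ∈ Icc (t i) (t (i + 1))) (hw : D.d.zlo / 2 ≤ w) (hwz : w ≤ z) :
    D.d.S z - D.d.S w ≤ D.A0 * ((z - w) + (t (i + 1) - t i)) := by
  have hb := hD.hyp.b0
  have hC := hD.C1
  have hZ := hD.hyp.Z1
  have hzlo := hD.hyp.zlo0
  have hti := l8d7_t_mem hD ht hi.le
  have hti1 := l8d7_t_mem hD ht (Nat.succ_le_of_lt hi)
  have hzm : z ∈ Icc (D.d.zlo / 2) D.zbuf := ⟨by linarith [hz.1], by linarith [hz.2, hD.zhibuf]⟩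
  have hwm : w ∈ Icc (D.d.zlo / 2) D.zbuf := ⟨hw, hwz.trans hzm.2⟩
  have hzM : z ∈ Icc 0 D.d.zmax := ⟨by linarith [hzm.1], hzm.2.trans hD.zbufmax⟩
  have hwM : w ∈ Icc 0 D.d.zmax := ⟨by linarith [hwm.1], hwm.2.trans hD.zbufmax⟩
  set len := t (i + 1) - t i with hlen
  have hlen0 : 0 < len := sub_pos.2 (ht.lt i hi)
  have hq := hD.hyp.qlip z hzM w hwM
  rw [abs_of_nonneg (sub_nonneg.2 hwz)] at hq
  have hq' := (le_abs_self _).trans hq
  have hfz := (le_abs_self _).trans (hD.concl.dev z hzm)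
  have hfw := (neg_abs_le _).trans' (neg_le_neg (hD.concl.dev w hwm))
  have hhz : D.hh z ≤ D.C * len := by
    have := (ht.len i hi z hz).1
    rwa [div_le_iff₀ (by linarith), mul_comm] at this
  have hhw : D.hh w ≤ D.C * (D.hh z + (z - w)) := by
    have := hD.concl.qlip z hzm w hwm
    rwa [abs_of_nonneg (sub_nonneg.2 hwz)] at this
  have hZ2 : 0 ≤ D.d.Z ^ 2 := by positivity
  have hez : skwE D.d D.hh z ≤ D.d.Z ^ 2 * (D.C * len) :=
    (min_le_right _ _).trans (mul_le_mul_of_nonneg_left hhz hZ2)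
  have hew : skwE D.d D.hh w ≤ D.d.Z ^ 2 * (D.C * (D.C * len + (z - w))) := by
    refine (min_le_right _ _).trans (mul_le_mul_of_nonneg_left (hhw.trans ?_) hZ2)
    exact mul_le_mul_of_nonneg_left (by linarith) (by linarith)
  have hS : D.d.S z - D.d.S w = (D.d.q z - D.d.q w) + (skwF D.d z - skwF D.d w) := by
    unfold skwF; ring
  have hCb : 0 ≤ D.C / D.d.b := by positivity
  have h1 : skwF D.d z ≤ D.C / D.d.b * (D.d.Z ^ 2 * (D.C * len)) := by
    refine hfz.trans ?_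
    rw [mul_div_right_comm]
    exact mul_le_mul_of_nonneg_left hez hCb
  have h2 : -(D.C / D.d.b * (D.d.Z ^ 2 * (D.C * (D.C * len + (z - w))))) ≤ skwF D.d w := by
    refine le_trans (neg_le_neg ?_) hfw
    rw [mul_div_right_comm]
    exact mul_le_mul_of_nonneg_left hew hCb
  have hzw : 0 ≤ z - w := sub_nonneg.2 hwz
  have key : D.C / D.d.b * (D.d.Z ^ 2 * (D.C * len)) + D.C / D.d.b * (D.d.Z ^ 2 * (D.C * (D.C * len + (z - w))))
      ≤ (D.C ^ 2 + D.C ^ 3) * D.d.Z ^ 2 / D.d.b * ((z - w) + len) := by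
    have e1 : D.C / D.d.b * (D.d.Z ^ 2 * (D.C * len)) + D.C / D.d.b * (D.d.Z ^ 2 * (D.C * (D.C * len + (z - w))))
        = D.d.Z ^ 2 / D.d.b * ((D.C ^ 2 + D.C ^ 3) * len + D.C ^ 2 * (z - w)) := by ring
    have e2 : (D.C ^ 2 + D.C ^ 3) * D.d.Z ^ 2 / D.d.b * ((z - w) + len)
        = D.d.Z ^ 2 / D.d.b * ((D.C ^ 2 + D.C ^ 3) * len + (D.C ^ 2 + D.C ^ 3) * (z - w)) := by ring
    rw [e1, e2]
    apply mul_le_mul_of_nonneg_left _ (by positivity)
    have : 0 ≤ D.C ^ 3 * (z - w) := by positivity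
    nlinarith
  have hLq : D.c.Lq * (z - w) ≤ D.c.Lq * ((z - w) + len) :=
    mul_le_mul_of_nonneg_left (by linarith) (by linarith [hD.Lq1])
  unfold L8D7.A0
  rw [hS, add_mul]
  linarith

/-- the variation estimate for the step function of the cut layer -/
theorem l8d7_varZ (hD : D.Ok) (ht : L8D7Tiling D.C D.d D.zhi D.zbuf D.hh n t) {i : ℕ} (hi : i < n) {z w : ℝ}
    (hz : z ∈ Icc (t i) (t (i + 1))) (hw : D.d.zlo / 2 ≤ w) (hwz : w ≤ z) :
    D.cut.SZ z - D.cut.SZ w ≤ D.A * ((z - w) + (t (i + 1) - t i)) := by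
  have hzlo := hD.hyp.zlo0
  have hti := l8d7_t_mem hD ht hi.le
  have hti1 := l8d7_t_mem hD ht (Nat.succ_le_of_lt hi)
  have hzm : z ∈ Icc (D.d.zlo / 2) D.zbuf := ⟨by linarith [hz.1], by linarith [hz.2, hD.zhibuf]⟩
  have hwm : w ∈ Icc (D.d.zlo / 2) D.zbuf := ⟨hw, hwz.trans hzm.2⟩
  have hlen0 : 0 < t (i + 1) - t i := sub_pos.2 (ht.lt i hi)
  have hCS := l8d7_CS_nonneg hD
  have hA0 := l8d7_A0_pos hD
  have hzw : 0 ≤ z - w := sub_nonneg.2 hwz
  rcases hw.eq_or_lt with hw0 | hw0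
  · -- the left end of the domain: crude bound `S ≤ CS r`
    have h1 : D.cut.SZ z ≤ D.CS * z :=
      ((hD.SZ_le z hzm).trans (hD.Sr z hzm)).trans (mul_le_mul_of_nonneg_left (l8d7_R_le z) hCS)
    have h2 := hD.cutOk.SZ_nonneg w
    have h3 : z ≤ 2 * (z - w) := by rw [← hw0]; linarith [hz.1]
    have h4 : D.CS * z ≤ 2 * D.CS * ((z - w) + (t (i + 1) - t i)) := by nlinarith
    have h5 : 0 ≤ D.A0 * ((z - w) + (t (i + 1) - t i)) := by positivity
    unfold L8D7.A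
    nlinarith
  · -- interior points: approach `w` from the left
    have key : ∀ ε : ℝ, 0 < ε → D.cut.SZ z - D.cut.SZ w ≤ D.A0 * ((z - w) + (t (i + 1) - t i)) + ε := by
      intro ε hε
      set w' := max (D.d.zlo / 2) (w - ε / D.A0) with hw'
      have hεA : 0 < ε / D.A0 := div_pos hε hA0
      have hw'lt : w' < w := max_lt hw0 (by linarith)
      have hw'lo : D.d.zlo / 2 ≤ w' := le_max_left _ _
      have hw'm : w' ∈ Icc (D.d.zlo / 2) D.zbuf := ⟨hw'lo, hw'lt.le.trans hwm.2⟩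
      have h1 := l8d7_var hD ht hi hz hw'lo (hw'lt.le.trans hwz)
      have h2 := hD.SZ_le z hzm
      have h3 := hD.SZ_ge w' hw'm w hwm hw'lt
      have h4 : w - w' ≤ ε / D.A0 := by have := le_max_right (D.d.zlo / 2) (w - ε / D.A0); linarith
      have h5 : D.A0 * (w - w') ≤ ε := by
        calc D.A0 * (w - w') ≤ D.A0 * (ε / D.A0) := mul_le_mul_of_nonneg_left h4 hA0.le
          _ = ε := by field_simp
      nlinarith
    have h6 := le_of_forall_pos_le_add key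
    have h7 : D.A0 * ((z - w) + (t (i + 1) - t i)) ≤ D.A * ((z - w) + (t (i + 1) - t i)) :=
      mul_le_mul_of_nonneg_right (l8d7_A0_le hD) (by positivity)
    linarith

/-- the variation over a tile prolonged by one mesh -/
theorem l8d7_vars (hD : D.Ok) (ht : L8D7Tiling D.C D.d D.zhi D.zbuf D.hh n t) {i : ℕ} (hi : i < n) :
    D.cut.SZ (t (i + 1) + D.cut.μ) - D.cut.SZ (t i) ≤ D.A * (t (i + 1) - t i) := by
  have hb := hD.hyp.b0
  have hC := hD.C1
  have hZ := hD.hyp.Z1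
  have hzlo := hD.hyp.zlo0
  have hμ0 := hD.cutOk.μ_nonneg
  have hti := l8d7_t_mem hD ht hi.le
  have hti1 := l8d7_t_mem hD ht (Nat.succ_le_of_lt hi)
  have hlt := ht.lt i hi
  set len := t (i + 1) - t i with hlen
  have hlen0 : 0 < len := sub_pos.2 hlt
  have hμ : D.cut.μ ≤ len := (hD.mesh (t i) hti).trans (ht.len i hi (t i) ⟨le_rfl, hlt.le⟩).1
  -- the point `z' = min (t (i+1) + μ) zbuf`
  obtain ⟨z', hz'm, hz'lo, hz'hi, hSz'⟩ : ∃ z', z' ∈ Icc (D.d.zlo / 2) D.zbuf ∧ t i ≤ z' ∧ z' ≤ t (i + 1) + len ∧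
      D.cut.SZ (t (i + 1) + D.cut.μ) ≤ D.d.S z' := by
    rcases le_total (t (i + 1) + D.cut.μ) D.zbuf with h | h
    · refine ⟨t (i + 1) + D.cut.μ, ⟨by linarith, h⟩, by linarith, by linarith, ?_⟩
      exact hD.SZ_le _ ⟨by linarith, h⟩
    · refine ⟨D.zbuf, ⟨by linarith [hD.zhibuf], le_rfl⟩, by linarith [hD.zhibuf], by linarith, ?_⟩
      exact hD.SZtop _ h (by linarith)
  -- a point just before `t i`
  set w' := max (D.d.zlo / 2) (t i - len) with hw'
  have hw'lt : w' < t i := max_lt (by linarith) (by linarith)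
  have hw'm : w' ∈ Icc (D.d.zlo / 2) D.zbuf := ⟨le_max_left _ _, hw'lt.le.trans (by linarith [hD.zhibuf])⟩
  have h1 := ht.var i hi w' hw'm z' hz'm (hw'lt.le.trans hz'lo) (le_max_right _ _) hz'hi
  have h2 : D.C / D.d.b * min (skwR (t i)) (D.d.Z ^ 2 * len) ≤ D.C / D.d.b * (D.d.Z ^ 2 * len) :=
    mul_le_mul_of_nonneg_left (min_le_right _ _) (by positivity)
  have h3 : D.C / D.d.b * (D.d.Z ^ 2 * len) ≤ D.A * len := by
    have e : D.C / D.d.b * (D.d.Z ^ 2 * len) = D.C * D.d.Z ^ 2 / D.d.b * len := by ring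
    rw [e]
    apply mul_le_mul_of_nonneg_right _ hlen0.le
    refine le_trans ?_ (l8d7_A0_le hD)
    unfold L8D7.A0
    have h4 : D.C * D.d.Z ^ 2 / D.d.b ≤ (D.C ^ 2 + D.C ^ 3) * D.d.Z ^ 2 / D.d.b := by
      apply div_le_div_of_nonneg_right _ hb.le
      apply mul_le_mul_of_nonneg_right _ (by positivity)
      nlinarith [pow_pos (by linarith : 0 < D.C) 3]
    linarith [hD.Lq1]
  have h5 := hD.SZ_ge w' hw'm (t i) (l8d7_t_mem' hD ht hi.le) hw'lt
  linarith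

/-- TEX[LL:lem:statistics-integrated] **the link**: every union of consecutive tiles of the width construction satisfies the imports
`L11Tiles.Ok` ((D3), (D5), variation bound) of the deterministic layer -/
theorem l8d7_T_ok (hD : D.Ok) (ht : L8D7Tiling D.C D.d D.zhi D.zbuf D.hh n t) {i0 i1 : ℕ} (h01 : i0 ≤ i1) (h1 : i1 ≤ n) :
    (D.T t i0 i1).Ok D.cut := by
  have hb := hD.hyp.b0
  have hb1 := hD.hyp.b1
  have hC := hD.C1
  have hZ := hD.hyp.Z1
  have hzlo := hD.hyp.zlo0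
  have ht0 := l8d7_t_mem hD ht (h01.trans h1)
  have ht1 := l8d7_t_mem hD ht h1
  have hnT : i0 + (i1 - i0) = i1 := Nat.add_sub_cancel' h01
  have hR0 : 0 < skwR (t i0 / 2) := l8d7_R_pos (by linarith)
  have hidx : ∀ j, j < i1 - i0 → i0 + j < n := fun j hj => by omega
  have hA := l8d7_A_pos hD
  refine
    { t_mono := fun j hj => (ht.lt (i0 + j) (hidx j hj)).le
      L_pos := by show 0 < t i0 / 2; linarith
      dom_lo := by show D.cut.zlo ≤ t (i0 + 0) - t i0 / 2; simp only [add_zero]; linarith [hD.dom_lo]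
      dom_hi := by show t (i0 + (i1 - i0)) ≤ D.cut.zhi; rw [hnT]; exact ht1.2.trans hD.dom_hi
      vmin_pos := mul_pos hD.cv0 hR0
      vmin_le := ?_
      κh_pos := mul_pos hD.κ0 (pow_pos hR0 2)
      slope := ?_
      G_le := ?_
      Gs_nonneg := ?_
      Gs_len := ?_
      Cb_one := ?_
      εK_nonneg := hD.hyp.t0.le
      A_nonneg := hA.le
      var := ?_
      vars := ?_
      vlow_le := ?_ }
  · intro z hz1 hz2
    change t (i0 + 0) - t i0 / 2 ≤ z at hz1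
    change z ≤ t (i0 + (i1 - i0)) at hz2
    rw [hnT] at hz2
    simp only [add_zero] at hz1
    have hzm : z ∈ Icc (D.d.zlo / 2) D.zbuf := ⟨by linarith, by linarith [hD.zhibuf]⟩
    refine le_trans ?_ (hD.vz_lo z hzm)
    exact mul_le_mul_of_nonneg_left (l8d7_R_mono (by linarith)) hD.cv0.le
  · intro u1 u2 hu1 hu12 hu2
    change t (i0 + 0) - t i0 / 2 ≤ u1 at hu1
    change u2 ≤ t (i0 + (i1 - i0)) at hu2
    rw [hnT] at hu2
    simp only [add_zero] at hu1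
    refine le_trans ?_ (hD.slope u1 u2 (by linarith) hu12 (by linarith [hD.zhibuf]))
    apply mul_le_mul_of_nonneg_right _ (sub_nonneg.2 hu12)
    apply mul_le_mul_of_nonneg_left _ hD.κ0.le
    exact pow_le_pow_left₀ hR0.le (l8d7_R_mono (by linarith)) 2
  · intro j hj z hz1 hz2
    change t (i0 + j) < z at hz1
    change z < t (i0 + j + 1) at hz2
    have hj' := hidx j hj
    have ha := l8d7_t_mem' hD ht hj'.le
    have hb' := l8d7_t_mem' hD ht (Nat.succ_le_of_lt hj')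
    rw [hD.G z ⟨by linarith [ha.1], by linarith [hb'.2]⟩]
    have hG := ht.G (i0 + j) hj' z ⟨hz1, hz2⟩
    have hcongr : ∫ s in (t (i0 + j))..(t (i0 + j + 1)), D.cut.G s = ∫ s in (t (i0 + j))..(t (i0 + j + 1)), D.d.G s := by
      apply intervalIntegral.integral_congr
      intro s hs
      rw [uIcc_of_le (ht.lt _ hj').le] at hs
      exact hD.G s ⟨by linarith [ha.1, hs.1], by linarith [hb'.2, hs.2]⟩
    show D.d.G z ≤ D.C / D.d.b *
      ((∫ s in (t (i0 + j))..(t (i0 + j + 1)), D.cut.G s) / (t (i0 + j + 1) - t (i0 + j)) + D.d.tiny)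
    rw [hcongr]; exact hG
  · intro j hj
    have hj' := hidx j hj
    have hlt := ht.lt _ hj'
    have hint : 0 ≤ ∫ s in (t (i0 + j))..(t (i0 + j + 1)), D.cut.G s :=
      intervalIntegral.integral_nonneg hlt.le (fun z _ => L11Cut.G0 hD.cutOk z)
    have hl : 0 < t (i0 + j + 1) - t (i0 + j) := sub_pos.2 hlt
    have ht0' := hD.hyp.t0
    show 0 ≤ D.C / D.d.b *
      ((∫ s in (t (i0 + j))..(t (i0 + j + 1)), D.cut.G s) / (t (i0 + j + 1) - t (i0 + j)) + D.d.tiny)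
    positivity
  · intro j hj
    have hj' := hidx j hj
    have hl : 0 < t (i0 + j + 1) - t (i0 + j) := sub_pos.2 (ht.lt _ hj')
    show D.C / D.d.b *
      ((∫ s in (t (i0 + j))..(t (i0 + j + 1)), D.cut.G s) / (t (i0 + j + 1) - t (i0 + j)) + D.d.tiny)
        * (t (i0 + j + 1) - t (i0 + j))
      ≤ D.C / D.d.b * ((∫ s in (t (i0 + j))..(t (i0 + j + 1)), D.cut.G s) + D.d.tiny * (t (i0 + j + 1) - t (i0 + j)))
    apply le_of_eq
    field_simp
  · show 1 ≤ D.C / D.d.b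
    rw [le_div_iff₀ hb]; linarith
  · intro j hj z w hz1 hz2 hw hwz
    change t (i0 + j) ≤ z at hz1
    change z ≤ t (i0 + j + 1) at hz2
    change t (i0 + 0) - t i0 / 2 ≤ w at hw
    simp only [add_zero] at hw
    have hj' := hidx j hj
    have ha := l8d7_t_mem' hD ht hj'.le
    have hb' := l8d7_t_mem' hD ht (Nat.succ_le_of_lt hj')
    have hw' : D.d.zlo / 2 ≤ w := by linarith
    exact l8d7_varZ hD ht hj' ⟨hz1, hz2⟩ hw' hwz
  · intro j hj
    have hj' := hidx j hj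
    have hl : 0 < t (i0 + j + 1) - t (i0 + j) := sub_pos.2 (ht.lt _ hj')
    have := l8d7_vars hD ht hj'
    show D.cut.SZ (t (i0 + j + 1) + D.cut.μ) - D.cut.SZ (t (i0 + j)) ≤ 2 * D.A * (t (i0 + j + 1) - t (i0 + j))
    nlinarith
  · refine hD.vlow.trans ?_
    exact mul_le_mul_of_nonneg_left (l8d7_R_mono (by linarith)) hD.cv0.le

end Claimed.Agent.R286
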