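import Claimed.Agent.R286.L08.IvD7

/-!
# Row 286 (S0533), folder L08, file IvD7B : (D7) ON THE DYADIC BANDS, closed forms      (owner helper298; head of the unit IV: helper228; prefix `l8d7_`)

TEX[LL:lem:statistics-integrated]  (LL 08-statistics.tex l.631-745).      Everything is PROVED from `L8D7.Ok` (file IvD7) through the deterministic layer of 228.

Band of `ρ ∈ [zlo, zhi]` : `z ∈ [ρ, min (2ρ) zhi]`, `r = skwR ρ = min(ρ,1)`.      Dictionary with the paper: `msz κ0 ≍ λ₁ / x⁶`, so `1 / (msz κ0 r⁶) ≍ (z_r^0)²`;  `Z_h = d.Z`;  `Y = U Z`;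
the losses `≲_⋄` are the explicit powers of `1/b`, the logarithm `skwL d` and the number `n'` of backward layers.
* `l8d7_cover`      a band is covered by consecutive tiles inside a comparable enlargement
* `l8d7_a0`         (D7a), `k = 0`:   `∫_band E W G dz ≤ KWb r * Mb * r`
* `l8d7_a_tile`     (D7a'), tile form
* `l8d7_a0_mass`    the same in the mass coordinate
* `l8d7_c`          (D7c):  `∫_band D_v² dv ≤ (6 + 16 c0 + 3 √(2 Cv / cv)) R √(KWb r * Mb * r)`, `R` = raw scale of (D2) line 1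
(weights `e^(2k)`, `k ≥ 1`, and (D7b): file IvD7C)
-/

set_option autoImplicit false

namespace Claimed.Agent.R286

open MeasureTheory Set

namespace L8D7

variable (D : L8D7)

/-- upper end of the band of `ρ` -/
noncomputable def up (ρ : ℝ) : ℝ := min (2 * ρ) D.zhi

/-- bound of `KW` on the band of scale `r`:  `≍ (z_r^0)² r³ Z_h² / b²` -/
noncomputable def KWb (r : ℝ) : ℝ := 16 * D.Lam ^ 3 * D.A * D.C / (D.d.b * D.cut.msz * D.cv * D.κ0 * r ^ 3)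

/-- the mass (with the additive errors) of the tiles which meet a band is `≤ Mb r` -/
noncomputable def Mb : ℝ := 2 * D.Lam * (D.Cv + D.Cz)

end L8D7

variable {D : L8D7} {n : ℕ} {t : ℕ → ℝ}

/-- TEX[LL:lem:statistics-integrated] a band is covered by consecutive tiles which stay in a comparable enlargement -/
theorem l8d7_cover (hD : D.Ok) (ht : L8D7Tiling D.C D.d D.zhi D.zbuf D.hh n t) {ρ : ℝ} (h1 : D.d.zlo ≤ ρ) (h2 : ρ < D.zhi) :
    ∃ i0 i1, i0 < i1 ∧ i1 ≤ n ∧ t i0 ≤ ρ ∧ ρ ≤ D.Lam * t i0 ∧ D.up ρ ≤ t i1 ∧ t i1 ≤ D.Lam * D.up ρ := by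
  classical
  have hzlo := hD.hyp.zlo0
  have hρ0 : 0 < ρ := by linarith
  have hup : ρ < D.up ρ := lt_min (by linarith) h2
  have hΛ := l8d7_Lam_one D
  -- the last breakpoint before `ρ`
  set i0 := Nat.findGreatest (fun i => t i ≤ ρ) n with hi0
  have hP0 : t i0 ≤ ρ := Nat.findGreatest_spec (P := fun i => t i ≤ ρ) (Nat.zero_le n) (by rw [ht.t0]; exact h1)
  have hi0n : i0 ≤ n := Nat.findGreatest_le n
  have hi0lt : i0 < n := by
    rcases Nat.lt_or_ge i0 n with h | h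
    · exact h
    · have : i0 = n := le_antisymm hi0n h
      rw [this, ht.tn] at hP0
      linarith
  have hnext : ρ < t (i0 + 1) := by
    have := Nat.findGreatest_is_greatest (P := fun i => t i ≤ ρ) (n := n) (k := i0 + 1) (Nat.lt_succ_self _) hi0lt
    exact not_le.1 this
  -- the first breakpoint after the upper end
  have hex : ∃ i, D.up ρ ≤ t i := ⟨n, by rw [ht.tn]; exact min_le_right _ _⟩
  set i1 := Nat.find hex with hi1
  have hQ1 : D.up ρ ≤ t i1 := Nat.find_spec hex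
  have hi1n : i1 ≤ n := Nat.find_min' hex (by rw [ht.tn]; exact min_le_right _ _)
  have hi01 : i0 < i1 := by
    by_contra hcon
    have := l8d7_t_le ht i1 i0 (not_lt.1 hcon) hi0n
    linarith
  have hprev : t (i1 - 1) < D.up ρ := not_le.1 (Nat.find_min hex (by omega))
  have hsucc : t i1 ≤ D.Lam * t (i1 - 1) := by
    have := l8d7_t_succ_le hD ht (i := i1 - 1) (by omega)
    rwa [show i1 - 1 + 1 = i1 by omega] at this
  refine ⟨i0, i1, hi01, hi1n, hP0, ?_, hQ1, ?_⟩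
  · exact hnext.le.trans (l8d7_t_succ_le hD ht hi0lt)
  · exact hsucc.trans (mul_le_mul_of_nonneg_left hprev.le (by linarith))

theorem l8d7_up_le (D : L8D7) (ρ : ℝ) : D.up ρ ≤ 2 * ρ := min_le_left _ _
theorem l8d7_up_le' (D : L8D7) (ρ : ℝ) : D.up ρ ≤ D.zhi := min_le_right _ _

theorem l8d7_Cv_pos (hD : D.Ok) : 0 < D.Cv := by
  have hz : D.d.zlo ∈ Icc (D.d.zlo / 2) D.zbuf :=
    ⟨by linarith [hD.hyp.zlo0], hD.zlohi.trans hD.zhibuf⟩
  have h1 := hD.vz_lo _ hz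
  have h2 := hD.vz_hi _ hz
  have hR := l8d7_R_pos hD.hyp.zlo0
  have h3 : 0 < D.cv * skwR D.d.zlo := mul_pos hD.cv0 hR
  by_contra hcon
  have : D.Cv * skwR D.d.zlo ≤ 0 := mul_nonpos_of_nonpos_of_nonneg (not_lt.1 hcon) hR.le
  linarith

theorem l8d7_cv_le_Cv (hD : D.Ok) : D.cv ≤ D.Cv := by
  have hz : D.d.zlo ∈ Icc (D.d.zlo / 2) D.zbuf :=
    ⟨by linarith [hD.hyp.zlo0], hD.zlohi.trans hD.zhibuf⟩
  have h1 := (hD.vz_lo _ hz).trans (hD.vz_hi _ hz)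
  exact le_of_mul_le_mul_right h1 (l8d7_R_pos hD.hyp.zlo0)

theorem l8d7_tiny_le_one (hD : D.Ok) : D.d.tiny ≤ 1 := by
  have hx0 := hD.hyp.x0
  have hx1 : D.d.x ≤ 1 := hD.hyp.xU.trans hD.hyp.U1
  exact hD.hyp.t1.trans (pow_le_one₀ hx0.le hx1)

/-- `z ≤ Cz r(z)` on the interval -/
theorem l8d7_le_Cz_R (hD : D.Ok) {z : ℝ} (h0 : 0 ≤ z) (h1 : z ≤ D.zbuf) : z ≤ D.Cz * skwR z := by
  unfold skwR
  rcases le_total z 1 with h | h
  · rw [min_eq_left h]; nlinarith [hD.Cz1]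
  · rw [min_eq_right h]; linarith [hD.zbufCz]

theorem l8d7_Mb_pos (hD : D.Ok) : 0 < D.Mb := by
  have := l8d7_Lam_one D
  have := l8d7_Cv_pos hD
  have := hD.Cz1
  unfold L8D7.Mb; positivity

theorem l8d7_KWb_pos (hD : D.Ok) {r : ℝ} (hr : 0 < r) : 0 < D.KWb r := by
  have := l8d7_Lam_one D
  have := l8d7_A_pos hD
  have := hD.C1
  have := hD.hyp.b0
  have := hD.cutOk.msz_pos
  have := hD.cv0
  have := hD.κ0
  unfold L8D7.KWb; positivity

/-- scales of a covering family of tiles -/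
structure L8D7Cov (D : L8D7) (t : ℕ → ℝ) (n : ℕ) (ρ : ℝ) (i0 i1 : ℕ) : Prop where
  lt : i0 < i1
  le : i1 ≤ n
  lo : t i0 ≤ ρ
  lo' : ρ ≤ D.Lam * t i0
  hi : D.up ρ ≤ t i1
  hi' : t i1 ≤ D.Lam * D.up ρ

section cov

variable {ρ : ℝ} {i0 i1 : ℕ}

theorem l8d7_cov_R0 (hρ : 0 < ρ) (hc : L8D7Cov D t n ρ i0 i1) : skwR ρ / (2 * D.Lam) ≤ skwR (t i0 / 2) := by
  have hΛ := l8d7_Lam_one D
  refine (l8d7_R_div_le (by linarith : (1 : ℝ) ≤ 2 * D.Lam) hρ.le).trans (l8d7_R_mono ?_)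
  rw [div_le_div_iff₀ (by linarith) (by norm_num)]
  nlinarith [hc.lo']

theorem l8d7_cov_R0' (hρ : 0 < ρ) (hc : L8D7Cov D t n ρ i0 i1) : skwR ρ / D.Lam ≤ skwR (t i0) := by
  have hΛ := l8d7_Lam_one D
  refine (l8d7_R_div_le hΛ hρ.le).trans (l8d7_R_mono ?_)
  rw [div_le_iff₀ (by linarith)]
  nlinarith [hc.lo']

theorem l8d7_cov_R1 (hρ : 0 < ρ) (hc : L8D7Cov D t n ρ i0 i1) : skwR (t i1) ≤ 2 * D.Lam * skwR ρ := by
  have hΛ := l8d7_Lam_one D
  refine (l8d7_R_mono (?_ : t i1 ≤ (2 * D.Lam) * ρ)).trans (l8d7_R_mul_le (by linarith) hρ.le)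
  have := l8d7_up_le D ρ
  nlinarith [hc.hi']

/-- `KW ≤ KWb r` -/
theorem l8d7_cov_KW (hD : D.Ok) (hρ : 0 < ρ) (hc : L8D7Cov D t n ρ i0 i1) :
    (D.T t i0 i1).KW D.cut ≤ D.KWb (skwR ρ) := by
  have hΛ := l8d7_Lam_one D
  have hA := l8d7_A_pos hD
  have hC := hD.C1
  have hb := hD.hyp.b0
  have hm := hD.cutOk.msz_pos
  have hcv := hD.cv0
  have hκ := hD.κ0
  have hr := l8d7_R_pos hρ
  have hR0 := l8d7_cov_R0 hρ hc
  set r := skwR ρ with hrdef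
  set R0 := skwR (t i0 / 2) with hR0def
  have hq : 0 < r / (2 * D.Lam) := by positivity
  have hR0pos : 0 < R0 := lt_of_lt_of_le hq hR0
  have h3 : (r / (2 * D.Lam)) ^ 3 ≤ R0 ^ 3 := pow_le_pow_left₀ hq.le hR0 3
  show 2 * D.A * (D.C / D.d.b) / (D.cut.msz * (D.cv * R0) * (D.κ0 * R0 ^ 2)) ≤ D.KWb r
  unfold L8D7.KWb
  have e1 : D.cut.msz * (D.cv * R0) * (D.κ0 * R0 ^ 2) = D.cut.msz * D.cv * D.κ0 * R0 ^ 3 := by ring
  have e2 : 16 * D.Lam ^ 3 * D.A * D.C / (D.d.b * D.cut.msz * D.cv * D.κ0 * r ^ 3)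
      = 2 * D.A * (D.C / D.d.b) / (D.cut.msz * D.cv * D.κ0 * (r / (2 * D.Lam)) ^ 3) := by
    field_simp
    ring
  rw [e1, e2]
  apply div_le_div_of_nonneg_left (by positivity) (by positivity)
  exact mul_le_mul_of_nonneg_left h3 (by positivity)

/-- total mass of the covering tiles -/
theorem l8d7_cov_mass (hD : D.Ok) (ht : L8D7Tiling D.C D.d D.zhi D.zbuf D.hh n t) (hρ : 0 < ρ)
    (hc : L8D7Cov D t n ρ i0 i1) : (D.T t i0 i1).massTot D.cut ≤ D.Mb * skwR ρ := by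
  have hΛ := l8d7_Lam_one D
  have hT := l8d7_T_ok hD ht hc.lt.le hc.le
  have hzlo := hD.hyp.zlo0
  have hnT : i0 + (i1 - i0) = i1 := Nat.add_sub_cancel' hc.lt.le
  have hm0 := l8d7_t_mem hD ht (hc.lt.le.trans hc.le)
  have hm1 := l8d7_t_mem hD ht hc.le
  have hm0' := l8d7_t_mem' hD ht (hc.lt.le.trans hc.le)
  have hm1' := l8d7_t_mem' hD ht hc.le
  have h01 : t i0 ≤ t i1 := l8d7_t_le ht i0 i1 hc.lt.le hc.le
  -- the sum telescopes
  have hsum : (D.T t i0 i1).massTot D.cut = (∫ z in t i0..t i1, D.cut.G z) + D.d.tiny * (t i1 - t i0) := by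
    unfold L11Tiles.massTot L11Tiles.massE L11Tiles.mass L11Tiles.len
    rw [Finset.sum_add_distrib, ← Finset.mul_sum]
    have a1 : ∑ i ∈ Finset.range (D.T t i0 i1).nT, ∫ z in (D.T t i0 i1).t i..(D.T t i0 i1).t (i + 1), D.cut.G z
        = ∫ z in (D.T t i0 i1).t 0..(D.T t i0 i1).t (D.T t i0 i1).nT, D.cut.G z :=
      intervalIntegral.sum_integral_adjacent_intervals (fun k _ => L11Cut.iG hD.cutOk _ _)
    have a2 : ∑ i ∈ Finset.range (D.T t i0 i1).nT, ((D.T t i0 i1).t (i + 1) - (D.T t i0 i1).t i)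
        = (D.T t i0 i1).t (D.T t i0 i1).nT - (D.T t i0 i1).t 0 := Finset.sum_range_sub _ _
    rw [a1, a2]
    show (∫ z in t (i0 + 0)..t (i0 + (i1 - i0)), D.cut.G z) + D.d.tiny * (t (i0 + (i1 - i0)) - t (i0 + 0)) = _
    rw [hnT, add_zero]
  rw [hsum, ← hD.bridge.vz_int _ _ (by linarith [hD.dom_lo]) h01 (hm1.2.trans hD.dom_hi)]
  have hv1 := hD.vz_hi _ hm1'
  have hv0 : 0 ≤ D.cut.vz (t i0) :=
    (mul_nonneg hD.cv0.le (l8d7_R_pos (by linarith)).le).trans (hD.vz_lo _ hm0')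
  have hR1 := l8d7_cov_R1 hρ hc
  have hCv := l8d7_Cv_pos hD
  have hCz := hD.Cz1
  have hr := l8d7_R_pos hρ
  have htiny : D.d.tiny * (t i1 - t i0) ≤ D.Cz * skwR (t i1) := by
    have b1 : t i1 - t i0 ≤ D.Cz * skwR (t i1) :=
      (by linarith : t i1 - t i0 ≤ t i1).trans (l8d7_le_Cz_R hD (by linarith) hm1'.2)
    have b2 := l8d7_tiny_le_one hD
    have b3 : 0 ≤ t i1 - t i0 := sub_nonneg.2 h01
    calc D.d.tiny * (t i1 - t i0) ≤ 1 * (t i1 - t i0) := mul_le_mul_of_nonneg_right b2 b3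
      _ ≤ _ := by linarith
  unfold L8D7.Mb
  calc D.cut.vz (t i1) - D.cut.vz (t i0) + D.d.tiny * (t i1 - t i0)
      ≤ D.Cv * skwR (t i1) + D.Cz * skwR (t i1) := by linarith
    _ = (D.Cv + D.Cz) * skwR (t i1) := by ring
    _ ≤ (D.Cv + D.Cz) * (2 * D.Lam * skwR ρ) := mul_le_mul_of_nonneg_left hR1 (by linarith)
    _ = _ := by ring

end cov

/-- TEX[LL:lem:statistics-integrated] TEX[LL:eq:D7] **(D7a), `k = 0`**, in the cut coordinate:
`∫_band E W G dz ≤ KWb r · Mb · r  ≍ (z_r^0)² Z_h² r⁴ / b²` -/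
theorem l8d7_a0 (hD : D.Ok) {ρ : ℝ} (h1 : D.d.zlo ≤ ρ) (h2 : ρ ≤ D.zhi) :
    ∫ z in ρ..D.up ρ, D.cut.EWZ z * D.cut.G z ≤ D.KWb (skwR ρ) * (D.Mb * skwR ρ) := by
  have hzlo := hD.hyp.zlo0
  have hρ : 0 < ρ := by linarith
  have hr := l8d7_R_pos hρ
  have hRHS : 0 ≤ D.KWb (skwR ρ) * (D.Mb * skwR ρ) :=
    (mul_pos (l8d7_KWb_pos hD hr) (mul_pos (l8d7_Mb_pos hD) hr)).le
  rcases eq_or_lt_of_le h2 with h2 | h2
  · have : D.up ρ = ρ := by unfold L8D7.up; rw [← h2]; exact min_eq_right (by linarith)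
    rw [this, intervalIntegral.integral_same]; exact hRHS
  obtain ⟨n, t, ht⟩ := l8d7_exists_tiling hD.concl
  obtain ⟨i0, i1, c1, c2, c3, c4, c5, c6⟩ := l8d7_cover hD ht h1 h2
  have hc : L8D7Cov D t n ρ i0 i1 := ⟨c1, c2, c3, c4, c5, c6⟩
  have hT := l8d7_T_ok hD ht c1.le c2
  have hnT : i0 + (i1 - i0) = i1 := Nat.add_sub_cancel' c1.le
  have hup : ρ ≤ D.up ρ := le_min (by linarith) h2.le
  have hmono : ∫ z in ρ..D.up ρ, D.cut.EWZ z * D.cut.G z ≤ ∫ z in t i0..t i1, D.cut.EWZ z * D.cut.G z := by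
    refine intervalIntegral.integral_mono_interval c3 hup c5 ?_ (L11Cut.iEWZG hD.cutOk _ _)
    exact Filter.Eventually.of_forall fun z => mul_nonneg (L11Cut.EWZ0 hD.cutOk z) (L11Cut.G0 hD.cutOk z)
  have hband : ∫ z in t i0..t i1, D.cut.EWZ z * D.cut.G z ≤ (D.T t i0 i1).KW D.cut * (D.T t i0 i1).massTot D.cut := by
    have hsum : ∫ z in t i0..t i1, D.cut.EWZ z * D.cut.G z
        = ∑ i ∈ Finset.range (D.T t i0 i1).nT,
            ∫ z in (D.T t i0 i1).t i..(D.T t i0 i1).t (i + 1), D.cut.EWZ z * D.cut.G z := by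
      rw [intervalIntegral.sum_integral_adjacent_intervals (fun k _ => L11Cut.iEWZG hD.cutOk _ _)]
      show _ = ∫ z in t (i0 + 0)..t (i0 + (i1 - i0)), D.cut.EWZ z * D.cut.G z
      rw [hnT, add_zero]
    rw [hsum]
    unfold L11Tiles.massTot
    rw [Finset.mul_sum]
    exact Finset.sum_le_sum fun i hi => L11Tiles.tile_EWZG hD.cutOk hT (Finset.mem_range.1 hi)
  refine hmono.trans (hband.trans ?_)
  exact mul_le_mul (l8d7_cov_KW hD hρ hc) (l8d7_cov_mass hD ht hρ hc) (L11Tiles.massTot0 hD.cutOk hT)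
    (l8d7_KWb_pos hD hr).le

/-- TEX[LL:lem:statistics-integrated] **(D7a')**, tile form (used by (D8) and by the switch):
`∫_I E W G dz ≤ (16 A C / (b msz cv κ0 r³)) (∫_I G + tiny |I|)`, `r = r(t i)` -/
theorem l8d7_a_tile (hD : D.Ok) (ht : L8D7Tiling D.C D.d D.zhi D.zbuf D.hh n t) {i : ℕ} (hi : i < n) :
    ∫ z in t i..t (i + 1), D.cut.EWZ z * D.cut.G z
      ≤ 16 * D.A * D.C / (D.d.b * D.cut.msz * D.cv * D.κ0 * skwR (t i) ^ 3)
        * ((∫ z in t i..t (i + 1), D.cut.G z) + D.d.tiny * (t (i + 1) - t i)) := by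
  have hT := l8d7_T_ok hD ht (Nat.le_succ i) (Nat.succ_le_of_lt hi)
  have h := L11Tiles.tile_EWZG hD.cutOk hT (i := 0) (by show 0 < i + 1 - i; omega)
  have hm := l8d7_t_mem hD ht hi.le
  have hzlo := hD.hyp.zlo0
  have hti : 0 < t i := by linarith
  have hA := l8d7_A_pos hD
  have hC := hD.C1
  have hb := hD.hyp.b0
  have hms := hD.cutOk.msz_pos
  have hcv := hD.cv0
  have hκ := hD.κ0
  have hr := l8d7_R_pos hti
  have hR0 : skwR (t i) / 2 ≤ skwR (t i / 2) := l8d7_R_div_le (by norm_num) hti.le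
  have hq : 0 < skwR (t i) / 2 := by positivity
  have h3 : (skwR (t i) / 2) ^ 3 ≤ skwR (t i / 2) ^ 3 := pow_le_pow_left₀ hq.le hR0 3
  have hmass : 0 ≤ (∫ z in t i..t (i + 1), D.cut.G z) + D.d.tiny * (t (i + 1) - t i) := by
    have a1 : 0 ≤ ∫ z in t i..t (i + 1), D.cut.G z :=
      intervalIntegral.integral_nonneg (ht.lt i hi).le (fun z _ => L11Cut.G0 hD.cutOk z)
    have a2 : 0 ≤ D.d.tiny * (t (i + 1) - t i) := mul_nonneg hD.hyp.t0.le (sub_nonneg.2 (ht.lt i hi).le)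
    linarith
  have hKW : (D.T t i (i + 1)).KW D.cut ≤ 16 * D.A * D.C / (D.d.b * D.cut.msz * D.cv * D.κ0 * skwR (t i) ^ 3) := by
    show 2 * D.A * (D.C / D.d.b) / (D.cut.msz * (D.cv * skwR (t i / 2)) * (D.κ0 * skwR (t i / 2) ^ 2)) ≤ _
    have e1 : D.cut.msz * (D.cv * skwR (t i / 2)) * (D.κ0 * skwR (t i / 2) ^ 2)
        = D.cut.msz * D.cv * D.κ0 * skwR (t i / 2) ^ 3 := by ring
    have e2 : 16 * D.A * D.C / (D.d.b * D.cut.msz * D.cv * D.κ0 * skwR (t i) ^ 3)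
        = 2 * D.A * (D.C / D.d.b) / (D.cut.msz * D.cv * D.κ0 * (skwR (t i) / 2) ^ 3) := by
      field_simp
      ring
    rw [e1, e2]
    apply div_le_div_of_nonneg_left (by positivity) (by positivity)
    exact mul_le_mul_of_nonneg_left h3 (by positivity)
  refine le_trans h ?_
  exact mul_le_mul_of_nonneg_right hKW hmass

/-- TEX[LL:lem:statistics-integrated] (D7a), `k = 0`, in the mass coordinate -/
theorem l8d7_a0_mass (hD : D.Ok) {ρ : ℝ} (h1 : D.d.zlo ≤ ρ) (h2 : ρ ≤ D.zhi) :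
    ∫ v in D.cut.vz ρ..D.cut.vz (D.up ρ), D.ms.EW v ≤ D.KWb (skwR ρ) * (D.Mb * skwR ρ) := by
  have hzlo := hD.hyp.zlo0
  have hup : ρ ≤ D.up ρ := le_min (by linarith) h2
  exact (hD.bridge.EW_le ρ (D.up ρ) (by linarith [hD.dom_lo]) hup ((l8d7_up_le' D ρ).trans hD.dom_hi)).trans
    (l8d7_a0 hD h1 h2)

/-- TEX[LL:lem:statistics-integrated] TEX[LL:eq:D7] **(D7c)** mass averaging: with the raw scale `R` of (D2) line 1 on the band,
`∫_band D_v² dv ≤ (6 + 16 c0 + 3 √(2 Cv / cv)) R √(KWb r · Mb · r)  ≍ z_r^0 Z_h r³ / b` -/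
theorem l8d7_c (hD : D.Ok) {ρ R : ℝ} (h1 : D.d.zlo ≤ ρ) (h2 : ρ ≤ D.zhi)
    (hRv : ∀ v ∈ Ioo (D.cut.vz ρ) (D.cut.vz (D.up ρ)), D.ms.VarX v ≤ R ^ 2)
    (hS : D.ms.S (D.cut.vz (D.up ρ)) - D.ms.S (D.cut.vz ρ) ≤ R)
    (hR4 : ∀ v ∈ Ioo (D.cut.vz ρ) (D.cut.vz (D.up ρ)), D.ms.M4 v ≤ R ^ 2)
    (hRt : ∀ v ∈ Ioo (D.cut.vz ρ) (D.cut.vz (D.up ρ)), D.ms.TrC v ≤ R ^ 2) :
    ∫ v in D.cut.vz ρ..D.cut.vz (D.up ρ), D.ms.Dsq v
      ≤ (6 + 16 * D.ms.c0 + 3 * Real.sqrt (2 * D.Cv / D.cv)) * (R * Real.sqrt (D.KWb (skwR ρ) * (D.Mb * skwR ρ))) := by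
  have hzlo := hD.hyp.zlo0
  have hρ : 0 < ρ := by linarith
  have hr := l8d7_R_pos hρ
  have hup : ρ ≤ D.up ρ := le_min (by linarith) h2
  have hd := hD.msOk
  set v1 := D.cut.vz ρ with hv1
  set v2 := D.cut.vz (D.up ρ) with hv2
  set W := D.KWb (skwR ρ) * (D.Mb * skwR ρ) with hWdef
  have hW : ∫ v in v1..v2, D.ms.EW v ≤ W := l8d7_a0_mass hD h1 h2
  have h12 : v1 ≤ v2 := hD.bridge.vz_mono hup
  have h2a : v2 ≤ D.ms.a := (hD.bridge.vz_mono ((l8d7_up_le' D ρ).trans hD.dom_hi)).trans hD.bridge.vz_a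
  have hρm : ρ ∈ Icc (D.d.zlo / 2) D.zbuf := ⟨by linarith, h2.trans hD.zhibuf⟩
  have hum : D.up ρ ∈ Icc (D.d.zlo / 2) D.zbuf := ⟨by linarith, (l8d7_up_le' D ρ).trans hD.zhibuf⟩
  set vmin := D.cv * skwR ρ with hvmin
  have hvmin0 : 0 < vmin := mul_pos hD.cv0 hr
  have hvm1 : vmin ≤ v1 := hD.vz_lo ρ hρm
  have hCv := l8d7_Cv_pos hD
  have hlen : v2 - v1 ≤ 2 * D.Cv / D.cv * vmin := by
    have a1 := hD.vz_hi _ hum
    have a2 : skwR (D.up ρ) ≤ 2 * skwR ρ :=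
      (l8d7_R_mono (l8d7_up_le D ρ)).trans (l8d7_R_mul_le (by norm_num) hρ.le)
    have a3 : 2 * D.Cv / D.cv * vmin = D.Cv * (2 * skwR ρ) := by
      rw [hvmin]; field_simp [hD.cv0.ne']
    rw [a3]
    have : D.Cv * skwR (D.up ρ) ≤ D.Cv * (2 * skwR ρ) := mul_le_mul_of_nonneg_left a2 hCv.le
    linarith
  set M := 2 * D.Cv / D.cv with hM
  have hM0 : 0 < M := by rw [hM]; have := hD.cv0; positivity
  have hW0 : 0 ≤ W := le_trans (intervalIntegral.integral_nonneg h12 (fun v _ => L11Mass.EW0 hd v)) hW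
  have hR0 : 0 ≤ R := le_trans (sub_nonneg.2 (hd.S_mono h12)) hS
  have e : D.ms.Dsq = fun v => D.ms.VarX v + 2 * D.ms.Mix v + D.ms.TrC v := funext hd.dsq
  have a1 := L11Mass.int_VarX' hd (by linarith : 0 ≤ v1) h12 h2a hW hRv hS
  have a2 := L11Mass.int_Mix hd hvmin0 hvm1 h12 h2a hW hR4 hR0
  have a3 := L11Mass.int_TrC hd hvmin0 hvm1 h12 h2a hW
  have a3' : ∫ v in v1..v2, D.ms.TrC v ≤ R ^ 2 * (v2 - v1) := by
    have : ∫ v in v1..v2, D.ms.TrC v ≤ ∫ _v in v1..v2, R ^ 2 :=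
      intervalIntegral.integral_mono_on_of_le_Ioo h12 (L11Mass.iTrC hd _ _) intervalIntegrable_const hRt
    simpa [mul_comm] using this
  have hlen0 : 0 ≤ v2 - v1 := sub_nonneg.2 h12
  -- `(v2 - v1) W / vmin ≤ M W`
  have b1 : (v2 - v1) * W / vmin ≤ M * W := by
    rw [div_le_iff₀ hvmin0]
    calc (v2 - v1) * W ≤ (M * vmin) * W := mul_le_mul_of_nonneg_right hlen hW0
      _ = M * W * vmin := by ring
  have b2 : Real.sqrt ((v2 - v1) * W / vmin) ≤ Real.sqrt M * Real.sqrt W := by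
    rw [← Real.sqrt_mul hM0.le]; exact Real.sqrt_le_sqrt b1
  -- trace part: geometric mean of the two bounds
  have b3 : ∫ v in v1..v2, D.ms.TrC v ≤ R * (Real.sqrt M * Real.sqrt W) := by
    set I := ∫ v in v1..v2, D.ms.TrC v with hI
    have hI0 : 0 ≤ I := intervalIntegral.integral_nonneg h12 (fun v _ => L11Mass.TrC0 hd v)
    have hsq : I ^ 2 ≤ (R * (Real.sqrt M * Real.sqrt W)) ^ 2 := by
      have c1 : I ^ 2 ≤ (W / vmin) * (R ^ 2 * (v2 - v1)) := by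
        rw [sq]; exact mul_le_mul a3 a3' hI0 (div_nonneg hW0 hvmin0.le)
      have c2 : (W / vmin) * (R ^ 2 * (v2 - v1)) = R ^ 2 * ((v2 - v1) * W / vmin) := by ring
      have c3 : (R * (Real.sqrt M * Real.sqrt W)) ^ 2 = R ^ 2 * (M * W) := by
        rw [mul_pow, mul_pow, Real.sq_sqrt hM0.le, Real.sq_sqrt hW0]
      rw [c3]
      rw [c2] at c1
      exact c1.trans (mul_le_mul_of_nonneg_left b1 (sq_nonneg R))
    exact abs_le_of_sq_le_sq' hsq (by positivity) |>.2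
  rw [e, intervalIntegral.integral_add ((L11Mass.iVarX hd _ _).add ((L11Mass.iMix hd _ _).const_mul 2)) (L11Mass.iTrC hd _ _),
    intervalIntegral.integral_add (L11Mass.iVarX hd _ _) ((L11Mass.iMix hd _ _).const_mul 2),
    intervalIntegral.integral_const_mul]
  have b4 : R * Real.sqrt ((v2 - v1) * W / vmin) ≤ R * (Real.sqrt M * Real.sqrt W) :=
    mul_le_mul_of_nonneg_left b2 hR0
  nlinarith

end Claimed.Agent.R286
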