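import Claimed.Agent.R286.L08.IvD7B

/-!
# Row 286 (S0533), folder L08, file IvD7C : (D7a) WITH THE WEIGHTS `e^(2k)`, `k ≥ 1`, AND (D7b)      (owner helper298; head of the unit IV: helper228; prefix `l8d7_`)

TEX[LL:lem:statistics-integrated]  (LL 08-statistics.tex l.631-745).      Everything is PROVED from `L8D7.Ok` (file IvD7).
* `l8d7_env_cmp`    the envelope `e = min(r, Z² 𝔥)` is comparable over each tile
* `l8d7_budget_cov` the squared width budget on the tiles which cover a band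
* `l8d7_w`          (D7a), `k + 1 ≥ 1`: for every bounded measurable weight `φ ≤ Mφ e^(2(k+1))`:
                    `∫_band E W G φ dz ≤ KWb r · Mφ · Kw k · skwL · r^(2k) (U Z)⁴ / r`      [paper: `(z_r^0)² Z_h² r³ · m_r² r^(2k) · r`, `m_r = Y²/r`]
* `l8d7_b`          (D7b): `∫_band E[XᵀCX + tr C²] dv ≤ Bb n' ρ`, `n'` = number of backward dyadic layers (free; the last tiny increment costs `ρ / 2^n'`)
-/

set_option autoImplicit false

namespace Claimed.Agent.R286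

open MeasureTheory Set

namespace L8D7

variable (D : L8D7)

/-- number of doublings which cover the tiles of a band -/
noncomputable def J : ℕ := ⌈2 * D.Lam ^ 2⌉₊

/-- the constant of the weighted bound -/
noncomputable def Kw (k : ℕ) : ℝ :=
  D.Lam ^ (4 * (k + 1)) * (2 * D.Lam) ^ (2 * k) * D.Lam * D.J * D.C + (2 * D.Lam ^ 2) ^ (2 * (k + 1)) * (2 * D.Lam * D.Cz)

/-- bound of the projection constant `Kp` on the band of scale `r`:  `≍ (z_r^0)² r²` -/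
noncomputable def Kpb (r : ℝ) : ℝ := 16 * D.Lam ^ 4 * D.cut.Cp / (D.cut.msz * D.cv ^ 2 * D.κ0 * r ^ 4)

/-- the bound of (D7b) -/
noncomputable def Bb (n' : ℕ) (ρ : ℝ) : ℝ :=
  ((n' : ℝ) + 2) * (D.Mb * skwR ρ * (D.Kpb (skwR ρ) * (4 * D.Lam ^ 2 * D.CS)
      + 4 * D.A * (D.C / D.d.b) * ((n' : ℝ) * D.Kpb (skwR ρ) + 4 * (ρ / 2 / 2 ^ n'))))
    + D.KWb (skwR ρ) * (D.Mb * skwR ρ) / (D.cv * (skwR ρ / (2 * D.Lam)))

end L8D7

variable {D : L8D7} {n : ℕ} {t : ℕ → ℝ}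

theorem l8d7_hh_pos (hD : D.Ok) (ht : L8D7Tiling D.C D.d D.zhi D.zbuf D.hh n t) {i : ℕ} (hi : i < n) {z : ℝ}
    (hz : z ∈ Icc (t i) (t (i + 1))) : 0 < D.hh z := by
  have h1 := (ht.len i hi z hz).2
  have h2 : 0 < t (i + 1) - t i := sub_pos.2 (ht.lt i hi)
  have hC := hD.C1
  by_contra hcon
  have : D.C * D.hh z ≤ 0 := mul_nonpos_of_nonneg_of_nonpos (by linarith) (not_lt.1 hcon)
  linarith

theorem l8d7_E_nonneg (hD : D.Ok) (ht : L8D7Tiling D.C D.d D.zhi D.zbuf D.hh n t) {i : ℕ} (hi : i < n) {z : ℝ}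
    (hz : z ∈ Icc (t i) (t (i + 1))) : 0 ≤ skwE D.d D.hh z := by
  have h1 := l8d7_hh_pos hD ht hi hz
  have h2 := (l8d7_t_mem hD ht hi.le).1
  have h3 := hD.hyp.zlo0
  have hZ := hD.hyp.Z1
  exact le_min (l8d7_R_pos (by linarith [hz.1])).le (by positivity)

/-- TEX[LL:lem:statistics-widths] (iii): the envelope is comparable over each tile -/
theorem l8d7_env_cmp (hD : D.Ok) (ht : L8D7Tiling D.C D.d D.zhi D.zbuf D.hh n t) {i : ℕ} (hi : i < n) {z z' : ℝ}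
    (hz : z ∈ Icc (t i) (t (i + 1))) (hz' : z' ∈ Icc (t i) (t (i + 1))) :
    skwE D.d D.hh z ≤ D.Lam * skwE D.d D.hh z' := by
  have hC := hD.C1
  have hΛ := l8d7_Lam_one D
  have hZ := hD.hyp.Z1
  have hzlo := hD.hyp.zlo0
  have hti := (l8d7_t_mem hD ht hi.le).1
  have hti0 : 0 < t i := by linarith
  have h1 : D.hh z ≤ D.C * (t (i + 1) - t i) := by
    have := (ht.len i hi z hz).1
    rwa [div_le_iff₀ (by linarith), mul_comm] at this
  have h2 := (ht.len i hi z' hz').2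
  have hpos := l8d7_hh_pos hD ht hi hz'
  have h3 : D.hh z ≤ D.Lam * D.hh z' := by
    have : D.hh z ≤ D.C * (D.C * D.hh z') := h1.trans (mul_le_mul_of_nonneg_left h2 (by linarith))
    unfold L8D7.Lam
    nlinarith
  have h4 : skwR z ≤ D.Lam * skwR z' := by
    calc skwR z ≤ skwR (D.Lam * t i) := l8d7_R_mono (hz.2.trans (l8d7_t_succ_le hD ht hi))
      _ ≤ D.Lam * skwR (t i) := l8d7_R_mul_le hΛ hti0.le
      _ ≤ D.Lam * skwR z' := mul_le_mul_of_nonneg_left (l8d7_R_mono hz'.1) (by linarith)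
  unfold skwE
  rw [mul_min_of_nonneg _ _ (by linarith : (0:ℝ) ≤ D.Lam)]
  refine min_le_min h4 ?_
  calc D.d.Z ^ 2 * D.hh z ≤ D.d.Z ^ 2 * (D.Lam * D.hh z') := mul_le_mul_of_nonneg_left h3 (by positivity)
    _ = D.Lam * (D.d.Z ^ 2 * D.hh z') := by ring

/-- integrability of `G 𝔥²` -/
theorem l8d7_iGh (hD : D.Ok) {a b : ℝ} (ha : D.d.zlo / 2 ≤ a) (hab : a ≤ b) (hb : b ≤ D.zbuf) :
    IntervalIntegrable (fun z => D.d.G z * D.hh z ^ 2) volume a b := by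
  have hzlo := hD.hyp.zlo0
  have hC := hD.C1
  rw [intervalIntegrable_iff_integrableOn_Ioc_of_le hab]
  have hsub : Ioc a b ⊆ Icc (D.d.zlo / 2) D.zbuf := fun z hz => ⟨by linarith [hz.1], hz.2.trans hb⟩
  have hG : IntegrableOn D.d.G (Ioc a b) volume := by
    have h0 := hD.hyp.Gi
    rw [intervalIntegrable_iff_integrableOn_Ioc_of_le (by linarith [hD.zbufmax] : (0:ℝ) ≤ D.d.zmax)] at h0
    exact h0.mono_set fun z hz => ⟨by linarith [hz.1], (hz.2.trans hb).trans hD.zbufmax⟩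
  have hm : AEStronglyMeasurable (fun z => D.hh z ^ 2) (volume.restrict (Ioc a b)) :=
    (hD.concl.meas.mono_measure (Measure.restrict_mono hsub le_rfl)).pow 2
  refine Integrable.mul_bdd (c := D.C ^ 2) hG hm ?_
  refine ae_restrict_of_forall_mem measurableSet_Ioc fun z hz => ?_
  have hzm := hsub hz
  have h1 := hD.concl.upper z hzm
  have h2 := hD.concl.lower z hzm
  have hz0 : 0 < z := by linarith [hzm.1]
  have hR := l8d7_R_pos hz0
  have h3 : 0 ≤ D.hh z := by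
    refine le_trans ?_ h2
    have hb0 := hD.hyp.b0
    have hU : 0 < D.d.U := lt_of_lt_of_le hD.hyp.x0 hD.hyp.xU
    have : 0 ≤ min (D.d.b * skwR z) (D.d.U ^ 2 / skwR z) := le_min (by positivity) (by positivity)
    positivity
  have h4 : D.hh z ≤ D.C := h1.trans (by nlinarith [l8d7_R_le_one z])
  rw [Real.norm_of_nonneg (by positivity)]
  exact pow_le_pow_left₀ h3 h4 2

theorem l8d7_L_one (hD : D.Ok) : 1 ≤ skwL D.d := by
  unfold skwL
  have h1 := l8d7_tiny_le_one hD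
  have h0 := hD.hyp.t0
  have : 0 ≤ Real.log (1 / D.d.tiny) := Real.log_nonneg (by rw [le_div_iff₀ h0]; linarith)
  linarith

/-- the squared width budget on `J` consecutive dyadic bands -/
theorem l8d7_budget_iter (hD : D.Ok) (J : ℕ) {a : ℝ} (h1 : D.d.zlo ≤ a) (h2 : a ≤ D.zhi) :
    ∫ z in a..min (2 ^ J * a) D.zhi, D.d.G z * D.hh z ^ 2 ≤ J * (D.C * skwL D.d * D.d.U ^ 4 / skwR a) := by
  have hzlo := hD.hyp.zlo0
  have ha0 : 0 < a := by linarith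
  induction J with
  | zero => simp [min_eq_left h2]
  | succ J ih =>
    set aJ := min (2 ^ J * a) D.zhi with haJ
    have h2J : (1:ℝ) ≤ 2 ^ J := one_le_pow₀ (by norm_num)
    have haaJ : a ≤ aJ := le_min (by nlinarith) h2
    have haJhi : aJ ≤ D.zhi := min_le_right _ _
    have hnext : min (2 ^ (J + 1) * a) D.zhi = min (2 * aJ) D.zhi := by
      rcases le_total (2 ^ J * a) D.zhi with h | h
      · rw [haJ, min_eq_left h]; congr 1; ring
      · rw [haJ, min_eq_right h, min_eq_right (by linarith : D.zhi ≤ 2 * D.zhi), min_eq_right]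
        rw [pow_succ]; nlinarith
    have hb := hD.concl.budget aJ ⟨h1.trans haaJ, haJhi⟩
    have hle : aJ ≤ min (2 * aJ) D.zhi := le_min (by linarith) haJhi
    have hsplit : ∫ z in a..min (2 * aJ) D.zhi, D.d.G z * D.hh z ^ 2
        = (∫ z in a..aJ, D.d.G z * D.hh z ^ 2) + ∫ z in aJ..min (2 * aJ) D.zhi, D.d.G z * D.hh z ^ 2 :=
      (intervalIntegral.integral_add_adjacent_intervals
        (l8d7_iGh hD (by linarith) haaJ (haJhi.trans hD.zhibuf))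
        (l8d7_iGh hD (by linarith) hle ((min_le_right _ _).trans hD.zhibuf))).symm
    have hmono : D.C * skwL D.d * D.d.U ^ 4 / skwR aJ ≤ D.C * skwL D.d * D.d.U ^ 4 / skwR a := by
      have hL := l8d7_L_one hD
      have hC := hD.C1
      have hU : 0 < D.d.U := lt_of_lt_of_le hD.hyp.x0 hD.hyp.xU
      exact div_le_div_of_nonneg_left (by positivity) (l8d7_R_pos ha0) (l8d7_R_mono haaJ)
    rw [hnext, hsplit]
    push_cast
    linarith

theorem l8d7_J_spec (D : L8D7) : 2 * D.Lam ^ 2 ≤ 2 ^ D.J := by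
  have h1 : 2 * D.Lam ^ 2 ≤ (D.J : ℝ) := Nat.le_ceil _
  have h2 : (D.J : ℝ) ≤ 2 ^ D.J := by exact_mod_cast (Nat.lt_two_pow_self (n := D.J)).le
  linarith

section cov

variable {ρ : ℝ} {i0 i1 : ℕ}

/-- TEX[LL:lem:statistics-widths] (i): the squared width budget on the tiles which cover a band -/
theorem l8d7_budget_cov (hD : D.Ok) (ht : L8D7Tiling D.C D.d D.zhi D.zbuf D.hh n t)
    (hc : L8D7Cov D t n ρ i0 i1) :
    ∫ z in t i0..t i1, D.d.G z * D.hh z ^ 2 ≤ D.J * (D.C * skwL D.d * D.d.U ^ 4 / skwR (t i0)) := by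
  have hzlo := hD.hyp.zlo0
  have hΛ := l8d7_Lam_one D
  have hm0 := l8d7_t_mem hD ht (hc.lt.le.trans hc.le)
  have hm1 := l8d7_t_mem hD ht hc.le
  have h01 : t i0 ≤ t i1 := l8d7_t_le ht i0 i1 hc.lt.le hc.le
  have hti0 : 0 < t i0 := by linarith
  have hend : t i1 ≤ min (2 ^ D.J * t i0) D.zhi := by
    refine le_min ?_ hm1.2
    have a1 : t i1 ≤ D.Lam * (2 * ρ) := hc.hi'.trans (mul_le_mul_of_nonneg_left (l8d7_up_le D ρ) (by linarith))
    have a2 : D.Lam * (2 * ρ) ≤ D.Lam * (2 * (D.Lam * t i0)) :=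
      mul_le_mul_of_nonneg_left (by linarith [hc.lo']) (by linarith)
    have a3 : D.Lam * (2 * (D.Lam * t i0)) = 2 * D.Lam ^ 2 * t i0 := by ring
    have a4 : 2 * D.Lam ^ 2 * t i0 ≤ 2 ^ D.J * t i0 := mul_le_mul_of_nonneg_right (l8d7_J_spec D) hti0.le
    linarith
  refine le_trans ?_ (l8d7_budget_iter hD D.J hm0.1 hm0.2)
  refine intervalIntegral.integral_mono_interval le_rfl h01 hend ?_
    (l8d7_iGh hD (by linarith) (h01.trans hend) ((min_le_right _ _).trans hD.zhibuf))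
  refine ae_restrict_of_forall_mem measurableSet_Ioc fun z hz => ?_
  have : 0 ≤ D.d.G z := hD.hyp.G0 z ⟨by linarith [hz.1], (hz.2.trans (min_le_right _ _)).trans (hD.zhibuf.trans hD.zbufmax)⟩
  exact mul_nonneg this (sq_nonneg _)

/-- the weighted sum over the covering tiles -/
theorem l8d7_cov_wsum (hD : D.Ok) (ht : L8D7Tiling D.C D.d D.zhi D.zbuf D.hh n t) (hρ : 0 < ρ)
    (hc : L8D7Cov D t n ρ i0 i1) (k : ℕ) :
    ∑ i ∈ Finset.range (D.T t i0 i1).nT, (D.Lam * skwE D.d D.hh (t (i0 + i))) ^ (2 * (k + 1)) * (D.T t i0 i1).massE D.cut i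
      ≤ D.Kw k * skwL D.d * skwR ρ ^ (2 * k) * (D.d.U * D.d.Z) ^ 4 / skwR ρ := by
  have hzlo := hD.hyp.zlo0
  have hΛ := l8d7_Lam_one D
  have hC := hD.C1
  have hZ := hD.hyp.Z1
  have hL := l8d7_L_one hD
  have hU : 0 < D.d.U := lt_of_lt_of_le hD.hyp.x0 hD.hyp.xU
  have hr := l8d7_R_pos hρ
  set r := skwR ρ with hrdef
  have hnT : i0 + (i1 - i0) = i1 := Nat.add_sub_cancel' hc.lt.le
  have hidx : ∀ j, j < i1 - i0 → i0 + j < n := fun j hj => by have := hc.le; omega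
  have hR1 := l8d7_cov_R1 hρ hc
  have h01 : t i0 ≤ t i1 := l8d7_t_le ht i0 i1 hc.lt.le hc.le
  have hm0 := l8d7_t_mem hD ht (hc.lt.le.trans hc.le)
  have hm1' := l8d7_t_mem' hD ht hc.le
  -- per tile
  have htile : ∀ j ∈ Finset.range (i1 - i0),
      (D.Lam * skwE D.d D.hh (t (i0 + j))) ^ (2 * (k + 1)) * (D.T t i0 i1).massE D.cut j
      ≤ D.Lam ^ (4 * (k + 1)) * (2 * D.Lam * r) ^ (2 * k) * D.d.Z ^ 4 *
            (∫ z in t (i0 + j)..t (i0 + j + 1), D.d.G z * D.hh z ^ 2)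
          + (2 * D.Lam ^ 2 * r) ^ (2 * (k + 1)) * D.d.tiny * (t (i0 + j + 1) - t (i0 + j)) := by
    intro j hj
    have hj' := hidx j (Finset.mem_range.1 hj)
    have hlt := ht.lt _ hj'
    have ha := l8d7_t_mem' hD ht hj'.le
    have hb' := l8d7_t_mem' hD ht (Nat.succ_le_of_lt hj')
    have hleft : t (i0 + j) ∈ Icc (t (i0 + j)) (t (i0 + j + 1)) := ⟨le_rfl, hlt.le⟩
    have he0 := l8d7_E_nonneg hD ht hj' hleft
    set e0 := skwE D.d D.hh (t (i0 + j)) with he0def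
    have hRj : ∀ z ∈ Icc (t (i0 + j)) (t (i0 + j + 1)), skwR z ≤ 2 * D.Lam * r := fun z hz =>
      (l8d7_R_mono (hz.2.trans (l8d7_t_le ht _ _ (by have := Finset.mem_range.1 hj; omega) hc.le))).trans hR1
    have he0r : e0 ≤ 2 * D.Lam * r := (min_le_left _ _).trans (hRj _ hleft)
    show (D.Lam * e0) ^ (2 * (k + 1)) *
        ((∫ z in t (i0 + j)..t (i0 + j + 1), D.cut.G z) + D.d.tiny * (t (i0 + j + 1) - t (i0 + j))) ≤ _
    rw [mul_add]
    apply add_le_add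
    · -- mass part
      have hcongr : ∫ s in (t (i0 + j))..(t (i0 + j + 1)), D.cut.G s = ∫ s in (t (i0 + j))..(t (i0 + j + 1)), D.d.G s := by
        apply intervalIntegral.integral_congr
        intro s hs
        rw [uIcc_of_le hlt.le] at hs
        exact hD.G s ⟨by linarith [ha.1, hs.1], by linarith [hb'.2, hs.2]⟩
      rw [hcongr, ← intervalIntegral.integral_const_mul, ← intervalIntegral.integral_const_mul]
      have hGi : IntervalIntegrable D.d.G volume (t (i0 + j)) (t (i0 + j + 1)) := by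
        have h0 := hD.hyp.Gi
        refine h0.mono_set ?_
        rw [uIcc_of_le hlt.le, uIcc_of_le (by linarith [hD.zbufmax, hm1'.2, hm1'.1] : (0:ℝ) ≤ D.d.zmax)]
        exact Icc_subset_Icc (by linarith [ha.1]) (hb'.2.trans hD.zbufmax)
      refine intervalIntegral.integral_mono_on hlt.le (hGi.const_mul _)
        ((l8d7_iGh hD ha.1 hlt.le hb'.2).const_mul _) ?_
      intro z hz
      have hG0 : 0 ≤ D.d.G z := hD.hyp.G0 z ⟨by linarith [ha.1, hz.1], (hz.2.trans hb'.2).trans hD.zbufmax⟩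
      have hez := l8d7_E_nonneg hD ht hj' hz
      have hcmp := l8d7_env_cmp hD ht hj' hleft hz
      have hhz := l8d7_hh_pos hD ht hj' hz
      set ez := skwE D.d D.hh z with hezdef
      have b1 : (D.Lam * e0) ^ (2 * (k + 1)) ≤ (D.Lam * (D.Lam * ez)) ^ (2 * (k + 1)) :=
        pow_le_pow_left₀ (by positivity) (mul_le_mul_of_nonneg_left hcmp (by linarith)) _
      have b2 : (D.Lam * (D.Lam * ez)) ^ (2 * (k + 1)) = D.Lam ^ (4 * (k + 1)) * (ez ^ (2 * k) * ez ^ 2) := by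
        rw [← mul_assoc, mul_pow, ← pow_add, ← pow_two, ← pow_mul]
        congr 2
        ring
      have b3 : ez ^ (2 * k) ≤ (2 * D.Lam * r) ^ (2 * k) :=
        pow_le_pow_left₀ hez ((min_le_left _ _).trans (hRj z hz)) _
      have b4 : ez ^ 2 ≤ D.d.Z ^ 4 * D.hh z ^ 2 := by
        have : ez ≤ D.d.Z ^ 2 * D.hh z := min_le_right _ _
        calc ez ^ 2 ≤ (D.d.Z ^ 2 * D.hh z) ^ 2 := pow_le_pow_left₀ hez this 2
          _ = _ := by ring
      have b5 : ez ^ (2 * k) * ez ^ 2 ≤ (2 * D.Lam * r) ^ (2 * k) * (D.d.Z ^ 4 * D.hh z ^ 2) :=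
        mul_le_mul b3 b4 (by positivity) (by positivity)
      calc (D.Lam * e0) ^ (2 * (k + 1)) * D.d.G z
          ≤ (D.Lam ^ (4 * (k + 1)) * ((2 * D.Lam * r) ^ (2 * k) * (D.d.Z ^ 4 * D.hh z ^ 2))) * D.d.G z := by
            apply mul_le_mul_of_nonneg_right _ hG0
            rw [b2] at b1
            exact b1.trans (mul_le_mul_of_nonneg_left b5 (by positivity))
        _ = _ := by ring
    · -- additive error
      have b1 : (D.Lam * e0) ^ (2 * (k + 1)) ≤ (2 * D.Lam ^ 2 * r) ^ (2 * (k + 1)) := by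
        apply pow_le_pow_left₀ (by positivity)
        calc D.Lam * e0 ≤ D.Lam * (2 * D.Lam * r) := mul_le_mul_of_nonneg_left he0r (by linarith)
          _ = _ := by ring
      have b2 : 0 ≤ D.d.tiny * (t (i0 + j + 1) - t (i0 + j)) :=
        mul_nonneg hD.hyp.t0.le (sub_nonneg.2 hlt.le)
      calc (D.Lam * e0) ^ (2 * (k + 1)) * (D.d.tiny * (t (i0 + j + 1) - t (i0 + j)))
          ≤ (2 * D.Lam ^ 2 * r) ^ (2 * (k + 1)) * (D.d.tiny * (t (i0 + j + 1) - t (i0 + j))) :=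
            mul_le_mul_of_nonneg_right b1 b2
        _ = _ := by ring
  have hsum := Finset.sum_le_sum htile
  rw [Finset.sum_add_distrib, ← Finset.mul_sum, ← Finset.mul_sum] at hsum
  have s1 : ∑ j ∈ Finset.range (i1 - i0), ∫ z in t (i0 + j)..t (i0 + j + 1), D.d.G z * D.hh z ^ 2
      = ∫ z in t i0..t i1, D.d.G z * D.hh z ^ 2 := by
    have := intervalIntegral.sum_integral_adjacent_intervals (μ := volume) (f := fun z => D.d.G z * D.hh z ^ 2)
      (a := fun j => t (i0 + j)) (n := i1 - i0) (fun j hj => by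
        have hj' := hidx j hj
        exact l8d7_iGh hD (l8d7_t_mem' hD ht hj'.le).1 (ht.lt _ hj').le (l8d7_t_mem' hD ht (Nat.succ_le_of_lt hj')).2)
    rw [hnT, add_zero] at this
    exact this
  have s2 : ∑ j ∈ Finset.range (i1 - i0), (t (i0 + j + 1) - t (i0 + j)) = t i1 - t i0 := by
    have := Finset.sum_range_sub (fun j => t (i0 + j)) (i1 - i0)
    rw [hnT, add_zero] at this
    exact this
  rw [s1, s2] at hsum
  refine le_trans hsum ?_
  -- the two totals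
  have hbud := l8d7_budget_cov hD ht hc
  have hR0' := l8d7_cov_R0' hρ hc
  have hti0 : 0 < t i0 := by linarith
  have hRt0 := l8d7_R_pos hti0
  have c1 : D.C * skwL D.d * D.d.U ^ 4 / skwR (t i0) ≤ D.C * skwL D.d * D.d.U ^ 4 * D.Lam / r := by
    rw [div_le_div_iff₀ hRt0 hr]
    have : r ≤ D.Lam * skwR (t i0) := by rwa [div_le_iff₀ (by linarith), mul_comm] at hR0'
    calc D.C * skwL D.d * D.d.U ^ 4 * r ≤ D.C * skwL D.d * D.d.U ^ 4 * (D.Lam * skwR (t i0)) :=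
          mul_le_mul_of_nonneg_left this (by positivity)
      _ = _ := by ring
  have c2 : ∫ z in t i0..t i1, D.d.G z * D.hh z ^ 2 ≤ D.J * (D.C * skwL D.d * D.d.U ^ 4 * D.Lam / r) :=
    hbud.trans (mul_le_mul_of_nonneg_left c1 (Nat.cast_nonneg _))
  have c3 : t i1 - t i0 ≤ D.Cz * (2 * D.Lam * r) := by
    have b1 : t i1 ≤ D.Cz * skwR (t i1) := l8d7_le_Cz_R hD (by linarith) hm1'.2
    have b2 : D.Cz * skwR (t i1) ≤ D.Cz * (2 * D.Lam * r) := mul_le_mul_of_nonneg_left hR1 (by linarith [hD.Cz1])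
    linarith
  have c4 : D.d.tiny * r ^ 4 ≤ (D.d.U * D.d.Z) ^ 4 := by
    have hx0 := hD.hyp.x0
    have hx1 : D.d.x ≤ 1 := hD.hyp.xU.trans hD.hyp.U1
    have b1 : D.d.tiny ≤ D.d.x ^ 4 := hD.hyp.t1.trans (pow_le_pow_of_le_one hx0.le hx1 (by norm_num))
    have b2 : D.d.x ^ 4 ≤ (D.d.U * D.d.Z) ^ 4 :=
      pow_le_pow_left₀ hx0.le (hD.hyp.xU.trans (by nlinarith)) 4
    have b3 : r ^ 4 ≤ 1 := pow_le_one₀ hr.le (l8d7_R_le_one ρ)
    calc D.d.tiny * r ^ 4 ≤ D.d.tiny * 1 := mul_le_mul_of_nonneg_left b3 hD.hyp.t0.le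
      _ ≤ _ := by linarith
  have hCz := hD.Cz1
  have d1 : D.Lam ^ (4 * (k + 1)) * (2 * D.Lam * r) ^ (2 * k) * D.d.Z ^ 4 * (∫ z in t i0..t i1, D.d.G z * D.hh z ^ 2)
      ≤ (D.Lam ^ (4 * (k + 1)) * (2 * D.Lam) ^ (2 * k) * D.Lam * D.J * D.C) * skwL D.d * r ^ (2 * k)
          * (D.d.U * D.d.Z) ^ 4 / r := by
    calc _ ≤ D.Lam ^ (4 * (k + 1)) * (2 * D.Lam * r) ^ (2 * k) * D.d.Z ^ 4
            * (D.J * (D.C * skwL D.d * D.d.U ^ 4 * D.Lam / r)) := mul_le_mul_of_nonneg_left c2 (by positivity)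
      _ = _ := by rw [mul_pow (2 * D.Lam) r, mul_pow D.d.U D.d.Z]; ring
  have d2 : (2 * D.Lam ^ 2 * r) ^ (2 * (k + 1)) * D.d.tiny * (t i1 - t i0)
      ≤ ((2 * D.Lam ^ 2) ^ (2 * (k + 1)) * (2 * D.Lam * D.Cz)) * skwL D.d * r ^ (2 * k) * (D.d.U * D.d.Z) ^ 4 / r := by
    have e1 : (2 * D.Lam ^ 2 * r) ^ (2 * (k + 1)) * D.d.tiny * (D.Cz * (2 * D.Lam * r))
        = ((2 * D.Lam ^ 2) ^ (2 * (k + 1)) * (2 * D.Lam * D.Cz)) * r ^ (2 * k) * (D.d.tiny * r ^ 4) / r := by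
      rw [mul_pow (2 * D.Lam ^ 2) r, show 2 * (k + 1) = 2 * k + 2 by ring, pow_add r]
      field_simp
    calc _ ≤ (2 * D.Lam ^ 2 * r) ^ (2 * (k + 1)) * D.d.tiny * (D.Cz * (2 * D.Lam * r)) :=
          mul_le_mul_of_nonneg_left c3 (mul_nonneg (by positivity) hD.hyp.t0.le)
      _ = _ := e1
      _ ≤ ((2 * D.Lam ^ 2) ^ (2 * (k + 1)) * (2 * D.Lam * D.Cz)) * r ^ (2 * k) * (D.d.U * D.d.Z) ^ 4 / r := by
          apply div_le_div_of_nonneg_right _ hr.le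
          exact mul_le_mul_of_nonneg_left c4 (by positivity)
      _ ≤ _ := by
          apply div_le_div_of_nonneg_right _ hr.le
          have hpos : 0 ≤ ((2 * D.Lam ^ 2) ^ (2 * (k + 1)) * (2 * D.Lam * D.Cz)) * r ^ (2 * k) * (D.d.U * D.d.Z) ^ 4 := by
            positivity
          calc _ = ((2 * D.Lam ^ 2) ^ (2 * (k + 1)) * (2 * D.Lam * D.Cz)) * r ^ (2 * k) * (D.d.U * D.d.Z) ^ 4 * 1 := by ring
            _ ≤ ((2 * D.Lam ^ 2) ^ (2 * (k + 1)) * (2 * D.Lam * D.Cz)) * r ^ (2 * k) * (D.d.U * D.d.Z) ^ 4 * skwL D.d :=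
                mul_le_mul_of_nonneg_left hL hpos
            _ = _ := by ring
  have e : D.Kw k * skwL D.d * r ^ (2 * k) * (D.d.U * D.d.Z) ^ 4 / r
      = (D.Lam ^ (4 * (k + 1)) * (2 * D.Lam) ^ (2 * k) * D.Lam * D.J * D.C) * skwL D.d * r ^ (2 * k)
          * (D.d.U * D.d.Z) ^ 4 / r
        + ((2 * D.Lam ^ 2) ^ (2 * (k + 1)) * (2 * D.Lam * D.Cz)) * skwL D.d * r ^ (2 * k) * (D.d.U * D.d.Z) ^ 4 / r := by
    unfold L8D7.Kw; ring
  rw [e]
  exact add_le_add d1 d2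

end cov

theorem l8d7_Kw_nonneg (hD : D.Ok) (k : ℕ) : 0 ≤ D.Kw k := by
  have := l8d7_Lam_one D
  have := hD.C1
  have := hD.Cz1
  unfold L8D7.Kw; positivity

/-- TEX[LL:lem:statistics-integrated] TEX[LL:eq:D7] **(D7a), `k + 1 ≥ 1`**, in the cut coordinate, for every bounded measurable weight `φ ≤ Mφ e^(2(k+1))`:
`∫_band E W G φ dz ≤ KWb r · Mφ · Kw k · skwL · r^(2k) Y⁴ / r  ≍ (z_r^0)² Z_h² r⁴ · m_r² r^(2k) · (log) / b²` -/
theorem l8d7_w (hD : D.Ok) (k : ℕ) {φ : ℝ → ℝ} {Cφ Mφ : ℝ} (hφ : L11Bdd φ Cφ) (hM : 0 ≤ Mφ)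
    (hφe : ∀ z ∈ Icc D.d.zlo D.zhi, φ z ≤ Mφ * skwE D.d D.hh z ^ (2 * (k + 1))) {ρ : ℝ} (h1 : D.d.zlo ≤ ρ)
    (h2 : ρ ≤ D.zhi) :
    ∫ z in ρ..D.up ρ, D.cut.EWZ z * D.cut.G z * φ z
      ≤ D.KWb (skwR ρ) * (Mφ * (D.Kw k * skwL D.d * skwR ρ ^ (2 * k) * (D.d.U * D.d.Z) ^ 4 / skwR ρ)) := by
  have hzlo := hD.hyp.zlo0
  have hρ : 0 < ρ := by linarith
  have hr := l8d7_R_pos hρ
  have hΛ := l8d7_Lam_one D
  have hL := l8d7_L_one hD
  have hU : 0 < D.d.U := lt_of_lt_of_le hD.hyp.x0 hD.hyp.xU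
  have hZ := hD.hyp.Z1
  have hKw := l8d7_Kw_nonneg hD k
  have hin : 0 ≤ Mφ * (D.Kw k * skwL D.d * skwR ρ ^ (2 * k) * (D.d.U * D.d.Z) ^ 4 / skwR ρ) := by positivity
  have hRHS : 0 ≤ D.KWb (skwR ρ) * (Mφ * (D.Kw k * skwL D.d * skwR ρ ^ (2 * k) * (D.d.U * D.d.Z) ^ 4 / skwR ρ)) :=
    mul_nonneg (l8d7_KWb_pos hD hr).le hin
  rcases eq_or_lt_of_le h2 with h2 | h2
  · have : D.up ρ = ρ := by unfold L8D7.up; rw [← h2]; exact min_eq_right (by linarith)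
    rw [this, intervalIntegral.integral_same]; exact hRHS
  obtain ⟨n, t, ht⟩ := l8d7_exists_tiling hD.concl
  obtain ⟨i0, i1, c1, c2, c3, c4, c5, c6⟩ := l8d7_cover hD ht h1 h2
  have hc : L8D7Cov D t n ρ i0 i1 := ⟨c1, c2, c3, c4, c5, c6⟩
  have hT := l8d7_T_ok hD ht c1.le c2
  have hnT : i0 + (i1 - i0) = i1 := Nat.add_sub_cancel' c1.le
  have hup : ρ ≤ D.up ρ := le_min (by linarith) h2.le
  obtain ⟨_, hE⟩ := hD.cutOk.EWZ_b
  obtain ⟨_, hG⟩ := hD.cutOk.G_b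
  have hint : ∀ a b, IntervalIntegrable (fun z => D.cut.EWZ z * D.cut.G z * φ z) volume a b :=
    fun a b => l11_ii ((hE.mul hG).mul hφ) a b
  have hmono : ∫ z in ρ..D.up ρ, D.cut.EWZ z * D.cut.G z * φ z ≤ ∫ z in t i0..t i1, D.cut.EWZ z * D.cut.G z * φ z := by
    refine intervalIntegral.integral_mono_interval c3 hup c5 ?_ (hint _ _)
    exact Filter.Eventually.of_forall fun z =>
      mul_nonneg (mul_nonneg (L11Cut.EWZ0 hD.cutOk z) (L11Cut.G0 hD.cutOk z)) (hφ.nonneg z)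
  have hband := L11Tiles.band_EWZG hD.cutOk hT hφ
    (fun i => Mφ * (D.Lam * skwE D.d D.hh (t (i0 + i))) ^ (2 * (k + 1))) (by
      intro j hj z hz1 hz2
      change t (i0 + j) ≤ z at hz1
      change z ≤ t (i0 + j + 1) at hz2
      have hj' : i0 + j < n := by
        have : j < i1 - i0 := hj
        omega
      have hlt := ht.lt _ hj'
      have ha := l8d7_t_mem hD ht hj'.le
      have hb' := l8d7_t_mem hD ht (Nat.succ_le_of_lt hj')
      refine (hφe z ⟨ha.1.trans hz1, hz2.trans hb'.2⟩).trans (mul_le_mul_of_nonneg_left ?_ hM)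
      exact pow_le_pow_left₀ (l8d7_E_nonneg hD ht hj' ⟨hz1, hz2⟩)
        (l8d7_env_cmp hD ht hj' ⟨hz1, hz2⟩ ⟨le_rfl, hlt.le⟩) _)
  have hband' : ∫ z in t i0..t i1, D.cut.EWZ z * D.cut.G z * φ z
      ≤ (D.T t i0 i1).KW D.cut * ∑ i ∈ Finset.range (D.T t i0 i1).nT,
          Mφ * (D.Lam * skwE D.d D.hh (t (i0 + i))) ^ (2 * (k + 1)) * (D.T t i0 i1).massE D.cut i := by
    have e : ∫ z in t i0..t i1, D.cut.EWZ z * D.cut.G z * φ z
        = ∫ z in (D.T t i0 i1).t 0..(D.T t i0 i1).t (D.T t i0 i1).nT, D.cut.EWZ z * D.cut.G z * φ z := by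
      show _ = ∫ z in t (i0 + 0)..t (i0 + (i1 - i0)), D.cut.EWZ z * D.cut.G z * φ z
      rw [hnT, add_zero]
    rw [e]; exact hband
  have hsum : ∑ i ∈ Finset.range (D.T t i0 i1).nT,
      Mφ * (D.Lam * skwE D.d D.hh (t (i0 + i))) ^ (2 * (k + 1)) * (D.T t i0 i1).massE D.cut i
      ≤ Mφ * (D.Kw k * skwL D.d * skwR ρ ^ (2 * k) * (D.d.U * D.d.Z) ^ 4 / skwR ρ) := by
    have := l8d7_cov_wsum hD ht hρ hc k
    calc _ = Mφ * ∑ i ∈ Finset.range (D.T t i0 i1).nT,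
          (D.Lam * skwE D.d D.hh (t (i0 + i))) ^ (2 * (k + 1)) * (D.T t i0 i1).massE D.cut i := by
          rw [Finset.mul_sum]; exact Finset.sum_congr rfl fun i _ => by ring
      _ ≤ _ := mul_le_mul_of_nonneg_left this hM
  refine hmono.trans (hband'.trans ?_)
  have hs0 : 0 ≤ ∑ i ∈ Finset.range (D.T t i0 i1).nT,
      Mφ * (D.Lam * skwE D.d D.hh (t (i0 + i))) ^ (2 * (k + 1)) * (D.T t i0 i1).massE D.cut i := by
    refine Finset.sum_nonneg fun i hi => ?_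
    have hi' := Finset.mem_range.1 hi
    refine mul_nonneg (mul_nonneg hM ?_) (L11Tiles.massE0 hD.cutOk hT hi')
    rw [pow_mul]; positivity
  exact mul_le_mul (l8d7_cov_KW hD hρ hc) hsum hs0 (l8d7_KWb_pos hD hr).le

theorem l8d7_Kpb_nonneg (hD : D.Ok) {r : ℝ} (hr : 0 < r) : 0 ≤ D.Kpb r := by
  have := l8d7_Lam_one D
  have := hD.cutOk.Cp_nonneg
  have := hD.cutOk.msz_pos
  have := hD.cv0
  have := hD.κ0
  unfold L8D7.Kpb; positivity

theorem l8d7_Bb_nonneg (hD : D.Ok) (n' : ℕ) {ρ : ℝ} (hρ : 0 < ρ) : 0 ≤ D.Bb n' ρ := by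
  have hr := l8d7_R_pos hρ
  have := l8d7_Lam_one D
  have := l8d7_Mb_pos hD
  have := l8d7_Kpb_nonneg hD hr
  have := l8d7_KWb_pos hD hr
  have := l8d7_CS_nonneg hD
  have := l8d7_A_pos hD
  have := hD.C1
  have := hD.hyp.b0
  have := hD.cv0
  unfold L8D7.Bb; positivity

/-- TEX[LL:lem:statistics-integrated] TEX[LL:eq:D7] **(D7b)**: trace part and mixed covariance term (backward dyadic telescoping with `n'` layers; the mesh must resolve
the last layer).      `Bb n' ρ ≍ (n')² (Z_h²/b²) r ((z_r^0)² r² + ρ / 2^n')` -/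
theorem l8d7_b (hD : D.Ok) (n' : ℕ) {ρ : ℝ} (h1 : D.d.zlo ≤ ρ) (h2 : ρ ≤ D.zhi)
    (hη : D.cut.η < D.κ0 * (skwR ρ / (2 * D.Lam)) ^ 2 * (ρ / (2 * D.Lam) / 2 ^ n')) :
    ∫ v in D.cut.vz ρ..D.cut.vz (D.up ρ), (D.ms.Mix v + D.ms.TrC v) ≤ D.Bb n' ρ := by
  have hzlo := hD.hyp.zlo0
  have hρ : 0 < ρ := by linarith
  have hr := l8d7_R_pos hρ
  have hΛ := l8d7_Lam_one D
  rcases eq_or_lt_of_le h2 with h2 | h2
  · have : D.up ρ = ρ := by unfold L8D7.up; rw [← h2]; exact min_eq_right (by linarith)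
    rw [this, intervalIntegral.integral_same]; exact l8d7_Bb_nonneg hD n' hρ
  obtain ⟨n, t, ht⟩ := l8d7_exists_tiling hD.concl
  obtain ⟨i0, i1, c1, c2, c3, c4, c5, c6⟩ := l8d7_cover hD ht h1 h2
  have hc : L8D7Cov D t n ρ i0 i1 := ⟨c1, c2, c3, c4, c5, c6⟩
  have hT := l8d7_T_ok hD ht c1.le c2
  have hnT : i0 + (i1 - i0) = i1 := Nat.add_sub_cancel' c1.le
  have hup : ρ ≤ D.up ρ := le_min (by linarith) h2.le
  have hCS := l8d7_CS_nonneg hD
  have hR0 := l8d7_cov_R0 hρ hc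
  have hR1 := l8d7_cov_R1 hρ hc
  have hm1' := l8d7_t_mem' hD ht c2
  set r := skwR ρ with hrdef
  set R0 := skwR (t i0 / 2) with hR0def
  have hq : 0 < r / (2 * D.Lam) := by positivity
  have hR0pos : 0 < R0 := lt_of_lt_of_le hq hR0
  have hLlo : ρ / (2 * D.Lam) ≤ t i0 / 2 := by
    rw [div_le_div_iff₀ (by linarith) (by norm_num)]
    nlinarith
  have hLlo' : r / (2 * D.Lam) ≤ t i0 / 2 :=
    (div_le_div_of_nonneg_right (l8d7_R_le ρ) (by linarith)).trans hLlo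
  have hLhi : t i0 / 2 ≤ ρ / 2 := by linarith
  have h2n : (0:ℝ) < 2 ^ n' := by positivity
  -- the hypotheses of `exp_MixTrC`
  have hη' : D.cut.η < (D.T t i0 i1).κh * ((D.T t i0 i1).L / 2 ^ n') := by
    refine lt_of_lt_of_le hη ?_
    show _ ≤ D.κ0 * R0 ^ 2 * (t i0 / 2 / 2 ^ n')
    apply mul_le_mul _ (div_le_div_of_nonneg_right hLlo h2n.le) (by positivity) (by have := hD.κ0; positivity)
    exact mul_le_mul_of_nonneg_left (pow_le_pow_left₀ hq.le hR0 2) hD.κ0.le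
  have hSmax : ∀ z, z ≤ (D.T t i0 i1).t (D.T t i0 i1).nT → D.cut.SZ z ≤ D.CS * (2 * D.Lam * r) := by
    intro z hz
    change z ≤ t (i0 + (i1 - i0)) at hz
    rw [hnT] at hz
    calc D.cut.SZ z ≤ D.cut.SZ (t i1) := hD.cutOk.SZ_mono hz
      _ ≤ D.d.S (t i1) := hD.SZ_le _ hm1'
      _ ≤ D.CS * skwR (t i1) := hD.Sr _ hm1'
      _ ≤ _ := mul_le_mul_of_nonneg_left hR1 hCS
  have hmain := L11Tiles.exp_MixTrC hD.msOk hD.cutOk hD.bridge hT n' hη' hSmax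
  -- the band is inside
  have hV0 : (D.T t i0 i1).V D.cut 0 = D.cut.vz (t i0) := by
    show D.cut.vz (t (i0 + 0)) = _; rw [add_zero]
  have hV1 : (D.T t i0 i1).V D.cut (D.T t i0 i1).nT = D.cut.vz (t i1) := by
    show D.cut.vz (t (i0 + (i1 - i0))) = _; rw [hnT]
  rw [hV0, hV1] at hmain
  have hmono : ∫ v in D.cut.vz ρ..D.cut.vz (D.up ρ), (D.ms.Mix v + D.ms.TrC v)
      ≤ ∫ v in D.cut.vz (t i0)..D.cut.vz (t i1), (D.ms.Mix v + D.ms.TrC v) := by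
    refine intervalIntegral.integral_mono_interval (hD.bridge.vz_mono c3) (hD.bridge.vz_mono hup)
      (hD.bridge.vz_mono c5) ?_ ((L11Mass.iMix hD.msOk _ _).add (L11Mass.iTrC hD.msOk _ _))
    exact Filter.Eventually.of_forall fun v => add_nonneg (L11Mass.Mix0 hD.msOk v) (L11Mass.TrC0 hD.msOk v)
  refine hmono.trans (hmain.trans ?_)
  -- monotonicity of the bound in its constants
  have hKW := l8d7_cov_KW hD hρ hc
  have hmass := l8d7_cov_mass hD ht hρ hc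
  have hmass0 := L11Tiles.massTot0 hD.cutOk hT
  have hKW0 := L11Tiles.KW0 hD.cutOk hT
  have hKp0 := L11Tiles.Kp0 hD.cutOk hT
  have hKp : (D.T t i0 i1).Kp D.cut ≤ D.Kpb r := by
    have hm := hD.cutOk.msz_pos
    have hcv := hD.cv0
    have hκ := hD.κ0
    have hCp := hD.cutOk.Cp_nonneg
    have h4 : (r / (2 * D.Lam)) ^ 4 ≤ R0 ^ 4 := pow_le_pow_left₀ hq.le hR0 4
    show D.cut.Cp / (D.cut.msz * (D.cv * R0) ^ 2 * (D.κ0 * R0 ^ 2)) ≤ D.Kpb r
    unfold L8D7.Kpb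
    have e1 : D.cut.msz * (D.cv * R0) ^ 2 * (D.κ0 * R0 ^ 2) = D.cut.msz * D.cv ^ 2 * D.κ0 * R0 ^ 4 := by ring
    have e2 : 16 * D.Lam ^ 4 * D.cut.Cp / (D.cut.msz * D.cv ^ 2 * D.κ0 * r ^ 4)
        = D.cut.Cp / (D.cut.msz * D.cv ^ 2 * D.κ0 * (r / (2 * D.Lam)) ^ 4) := by
      field_simp
      ring
    rw [e1, e2]
    apply div_le_div_of_nonneg_left hCp (by positivity)
    exact mul_le_mul_of_nonneg_left h4 (by positivity)
  have hKpb0 := l8d7_Kpb_nonneg hD hr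
  have hA := l8d7_A_pos hD
  have hCb : 0 < D.C / D.d.b := by have := hD.C1; have := hD.hyp.b0; positivity
  have hMb := l8d7_Mb_pos hD
  have hKWb := l8d7_KWb_pos hD hr
  have t1 : (D.T t i0 i1).Kp D.cut * (D.CS * (2 * D.Lam * r)) / (D.T t i0 i1).L ≤ D.Kpb r * (4 * D.Lam ^ 2 * D.CS) := by
    show (D.T t i0 i1).Kp D.cut * (D.CS * (2 * D.Lam * r)) / (t i0 / 2) ≤ _
    have e : D.Kpb r * (4 * D.Lam ^ 2 * D.CS) = D.Kpb r * (D.CS * (2 * D.Lam * r)) / (r / (2 * D.Lam)) := by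
      field_simp
      ring
    rw [e]
    apply div_le_div₀ (by positivity) _ hq hLlo'
    exact mul_le_mul_of_nonneg_right hKp (by positivity)
  have t2 : (n' : ℝ) * (D.T t i0 i1).Kp D.cut + 4 * ((D.T t i0 i1).L / 2 ^ n')
      ≤ (n' : ℝ) * D.Kpb r + 4 * (ρ / 2 / 2 ^ n') := by
    have a1 : (n' : ℝ) * (D.T t i0 i1).Kp D.cut ≤ (n' : ℝ) * D.Kpb r :=
      mul_le_mul_of_nonneg_left hKp (Nat.cast_nonneg _)
    have a2 : (D.T t i0 i1).L / 2 ^ n' ≤ ρ / 2 / 2 ^ n' := div_le_div_of_nonneg_right hLhi h2n.le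
    linarith
  have t3 : (D.T t i0 i1).KW D.cut * (D.T t i0 i1).massTot D.cut / (D.T t i0 i1).vmin
      ≤ D.KWb r * (D.Mb * r) / (D.cv * (r / (2 * D.Lam))) := by
    show _ / (D.cv * R0) ≤ _
    apply div_le_div₀ (by positivity) (mul_le_mul hKW hmass hmass0 hKWb.le) (mul_pos hD.cv0 hq)
    exact mul_le_mul_of_nonneg_left hR0 hD.cv0.le
  have t4 : (D.T t i0 i1).Kp D.cut * (D.CS * (2 * D.Lam * r)) / (D.T t i0 i1).L
      + 4 * (D.T t i0 i1).A * (D.T t i0 i1).Cb * ((n' : ℝ) * (D.T t i0 i1).Kp D.cut + 4 * ((D.T t i0 i1).L / 2 ^ n'))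
      ≤ D.Kpb r * (4 * D.Lam ^ 2 * D.CS) + 4 * D.A * (D.C / D.d.b) * ((n' : ℝ) * D.Kpb r + 4 * (ρ / 2 / 2 ^ n')) := by
    apply add_le_add t1
    show 4 * D.A * (D.C / D.d.b) * _ ≤ _
    exact mul_le_mul_of_nonneg_left t2 (by positivity)
  have t40 : 0 ≤ D.Kpb r * (4 * D.Lam ^ 2 * D.CS) + 4 * D.A * (D.C / D.d.b) * ((n' : ℝ) * D.Kpb r + 4 * (ρ / 2 / 2 ^ n')) := by
    positivity
  have t5 : (D.T t i0 i1).massTot D.cut * ((D.T t i0 i1).Kp D.cut * (D.CS * (2 * D.Lam * r)) / (D.T t i0 i1).L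
      + 4 * (D.T t i0 i1).A * (D.T t i0 i1).Cb * ((n' : ℝ) * (D.T t i0 i1).Kp D.cut + 4 * ((D.T t i0 i1).L / 2 ^ n')))
      ≤ D.Mb * r * (D.Kpb r * (4 * D.Lam ^ 2 * D.CS) + 4 * D.A * (D.C / D.d.b) * ((n' : ℝ) * D.Kpb r + 4 * (ρ / 2 / 2 ^ n'))) := by
    calc _ ≤ (D.T t i0 i1).massTot D.cut * (D.Kpb r * (4 * D.Lam ^ 2 * D.CS)
          + 4 * D.A * (D.C / D.d.b) * ((n' : ℝ) * D.Kpb r + 4 * (ρ / 2 / 2 ^ n'))) :=
          mul_le_mul_of_nonneg_left t4 hmass0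
      _ ≤ _ := mul_le_mul_of_nonneg_right hmass t40
  unfold L8D7.Bb
  apply add_le_add _ t3
  exact mul_le_mul_of_nonneg_left t5 (by positivity)

end Claimed.Agent.R286
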