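import Claimed.Agent.R286.L08.IvD7T

/-!
# Row 286 (S0533), folder L08, file IvD7L : (D7) ON THE LOW RANGE `Y ≤ r < 4 Cv zlo`      (owner helper298; head of the unit IV: helper228; prefix `l8d7l` / `L8D7L`)

TEX[LL:lem:statistics-integrated]  (LL 08-statistics.tex l.631-745, (D7)).

The tiles of the width construction start at `zlo = c1 Y`; the exits of LL 08 ask (D7) on all mass bands `r ≥ Y`.      On `Y ≤ r < 4 Cv zlo` all widths are trivial (`e ≍ r ≍ Y`).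
* PART 1  THE SHADOW INSTANCE: the same path, grid, density, `S`, `q`, with `(zlo, U, Z) := (zd, zd, 1)`, the trivial width `z / 8`, ONE tile `[zd, zt - δ]`, buffer end `zt` = a cut `≍ zd`.
          `SkpI.Ok`, `L8D7X` are PROVED for it (`l8d7l_J_ok`, `l8d7l_X`) from those of the true instance + (D3) down to `zd / 4`.      So ALL of IvD7I / IvD7S / IvD7T applies to it.
* PART 2  choice of `zd = r / (4 Cv')`, of the cut `zt`;   the second line of (D7) on the low range (`l8d7l_C`), valid as soon as (D3) holds from the coordinate `r / (16 Cv')`;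
          below (`r ≲ x`): first order, `xCx + trC² ≤ D2` (`l8d7l_C_le_D2`).
-/

set_option autoImplicit false

namespace Claimed.Agent.R286

open MeasureTheory Set

variable {Ω : Type} [mΩ : MeasurableSpace Ω] {m : ℕ}

/-! ## PART 1 : the shadow instance -/

/-- `|f| ≤ Cf' r` down to `zd / 4` -/
noncomputable def l8d7lCf (S : SkpS) (Θ : ℝ) : ℝ := (S.Cq + S.c.Cf) * Θ
/-- the constant of (D1) -/
noncomputable def l8d7lC1 (S : SkpS) (Θ : ℝ) : ℝ := S.c.C1 * Θ ^ 4 + l8d7lCf S Θ ^ 2 * S.c.M0 * Θ ^ 4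
/-- the constant of the trivial `SkwConcl` -/
noncomputable def l8d7lCW (S : SkpS) (Θ : ℝ) : ℝ :=
  S.CW + l8d7lCf S Θ + S.c.M0 * Θ ^ 4 + 8 * Θ + S.c.M0 / S.cG + (S.Cq + l8d7lCf S Θ) * Θ
/-- `v ≍ r` -/
noncomputable def l8d7lCv (S : SkpS) : ℝ := S.Cv + 1 / S.cG + 2 * S.cG

/-- structural constants of the shadow instance (`zreg := zt` enters no constant of IV) -/
noncomputable def l8d7lS (S : SkpS) (Θ zt : ℝ) : SkpS :=
  { S with
    c := { S.c with Cf := l8d7lCf S Θ, C1 := l8d7lC1 S Θ }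
    CW := l8d7lCW S Θ
    Cv := l8d7lCv S
    cg := S.cg / 2
    zreg := zt
    Cz := 1 }

/-- the width data of the shadow instance -/
noncomputable def l8d7lD (d : SkwD) (zd : ℝ) : SkwD := { d with zlo := zd, U := zd, Z := 1 }

/-- **the shadow instance** -/
noncomputable def l8d7lJ (J : SkpI Ω m) (zd : ℝ) (nb' : ℕ) : SkpI Ω m :=
  { J with
    d := l8d7lD J.d zd
    hh := fun z => z / 8
    zhi := J.zc nb' - J.δ
    zbuf := J.zc nb'
    zj := zd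
    nb := nb'
    g0 := J.d.x ^ 3 / (Real.sqrt J.lam1 * zd ^ 3) }

/-- the hypotheses on the parameters of the shadow instance -/
structure L8D7L (S : SkpS) (J : SkpI Ω m) (Θ zd : ℝ) (nb' : ℕ) : Prop where
  Θ1 : 1 ≤ Θ
  xzd : J.d.x ≤ zd
  zdlo : zd ≤ J.d.zlo
  zloΘ : J.d.zlo ≤ Θ * zd
  nb : nb' < J.nb
  zt_lo : 32 * zd ≤ J.zc nb'
  zt_hi : J.zc nb' ≤ Θ * zd
  zt_reg : J.zc nb' ≤ S.zreg
  /-- (D3) down to `zd / 4` -/
  D3 : ∀ k₁ k₂, k₁ < k₂ → k₂ ≤ nb' → zd / 4 ≤ J.z k₁ →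
    S.cD3 * J.lam1 * skwR (J.z k₁) ^ 2 * (J.z k₂ - J.z k₁) ≤ J.P.hlen k₁ k₂
  small : J.d.x ≤ 1 / (4 * l8d7lCv S * l8d7lCW S Θ)
  smallg : Θ ^ 3 * J.d.x ^ (S.cg / 2) ≤ 1

section shadow

variable {S : SkpS} {J : SkpI Ω m} {Θ zd cs Czb : ℝ} {nb' : ℕ}

theorem l8d7l_Cf (hS : S.Ok) (hΘ : 1 ≤ Θ) : 1 ≤ l8d7lCf S Θ ∧ S.c.Cf ≤ l8d7lCf S Θ ∧ S.Cq ≤ l8d7lCf S Θ := by
  have := hS.Cq; have := hS.c.Cf
  unfold l8d7lCf
  refine ⟨by nlinarith, by nlinarith, by nlinarith⟩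

theorem l8d7l_C1 (hS : S.Ok) (hΘ : 1 ≤ Θ) :
    1 ≤ l8d7lC1 S Θ ∧ S.c.C1 * Θ ^ 4 ≤ l8d7lC1 S Θ ∧ l8d7lCf S Θ ^ 2 * S.c.M0 * Θ ^ 4 ≤ l8d7lC1 S Θ := by
  have h1 := hS.c.C1; have h2 := hS.c.M0
  have h3 : 1 ≤ Θ ^ 4 := one_le_pow₀ hΘ
  have h4 : 0 ≤ l8d7lCf S Θ ^ 2 * S.c.M0 * Θ ^ 4 := by positivity
  have h5 : 0 ≤ S.c.C1 * Θ ^ 4 := by positivity
  unfold l8d7lC1
  refine ⟨by nlinarith, by linarith, by linarith⟩

theorem l8d7l_CW (hS : S.Ok) (hΘ : 1 ≤ Θ) :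
    S.CW ≤ l8d7lCW S Θ ∧ l8d7lCf S Θ ≤ l8d7lCW S Θ ∧ S.c.M0 * Θ ^ 4 ≤ l8d7lCW S Θ ∧ 8 * Θ ≤ l8d7lCW S Θ
      ∧ S.c.M0 / S.cG ≤ l8d7lCW S Θ ∧ (S.Cq + l8d7lCf S Θ) * Θ ≤ l8d7lCW S Θ := by
  have h1 := hS.CW; have h2 := hS.c.M0; have h3 := hS.cG; have h4 := hS.Cq
  obtain ⟨h5, _, _⟩ := l8d7l_Cf hS hΘ
  have a1 : 0 ≤ S.c.M0 * Θ ^ 4 := by positivity
  have a2 : 0 ≤ S.c.M0 / S.cG := by positivity
  have a3 : 0 ≤ (S.Cq + l8d7lCf S Θ) * Θ := by positivity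
  unfold l8d7lCW
  refine ⟨by linarith, by linarith, by linarith, by linarith, by linarith, by linarith⟩

theorem l8d7l_Cv (hS : S.Ok) : S.Cv ≤ l8d7lCv S ∧ 1 / S.cG ≤ l8d7lCv S ∧ 2 * S.cG ≤ l8d7lCv S := by
  have h1 := hS.Cv; have h3 := hS.cG
  have a2 : 0 < 1 / S.cG := by positivity
  unfold l8d7lCv
  refine ⟨by linarith, by linarith, by linarith⟩

theorem l8d7l_S_ok (hS : S.Ok) (hΘ : 1 ≤ Θ) {zt : ℝ} (h0 : 0 < zt) (h1 : zt ≤ 1) : (l8d7lS S Θ zt).Ok where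
  c := ⟨hS.c.zs, hS.c.M0, hS.c.Lq, (l8d7l_Cf hS hΘ).1, (l8d7l_C1 hS hΘ).1, hS.c.Cp, hS.c.Cadj⟩
  CW := hS.CW.trans (l8d7l_CW hS hΘ).1
  Cv := hS.Cv.trans (l8d7l_Cv hS).1
  cD3 := hS.cD3
  Cm := hS.Cm
  cg := half_pos hS.cg
  zreg := h0
  zreg1 := h1
  cG := hS.cG
  Cq := hS.Cq
  Cz := le_rfl
  cA1 := hS.cA1
  cA3 := hS.cA3

/-- elementary facts on the parameters -/
theorem l8d7l_num (hS : S.Ok) (hJ : J.Ok S) (hL : L8D7L S J Θ zd nb') :
    0 < zd ∧ J.d.zlo ≤ 1 / 16 ∧ J.zc nb' ≤ 1 ∧ J.zc nb' ≤ J.zbuf ∧ J.zc nb' ≤ S.c.zs ∧ J.δ ≤ zd / 16 := by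
  have hx := hJ.wh.x0
  have h1 := hJ.zloreg
  have h2 := hS.zreg1
  have hx1 : J.d.x ≤ 1 := by linarith [hL.xzd, hL.zdlo]
  have hx16 : J.d.x ≤ 1 / 16 := by linarith [hL.xzd, hL.zdlo]
  have hδ : J.δ ≤ J.d.x / 16 := by
    have a1 : J.δ ≤ J.d.x ^ 2 := hJ.mesh.trans (pow_le_pow_of_le_one hx.le hx1 (by norm_num))
    nlinarith
  refine ⟨lt_of_lt_of_le hx hL.xzd, by linarith, hL.zt_reg.trans h2, ?_, hL.zt_reg.trans hJ.zregs, by linarith [hL.xzd]⟩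
  rw [← hJ.nb]; exact hJ.zmono hL.nb.le

/-- `|f| ≤ Cf' r` down to `zd / 4` -/
theorem l8d7l_fr (hS : S.Ok) (hJ : J.Ok S) (hL : L8D7L S J Θ zd nb') {z : ℝ} (hz : z ∈ Icc (zd / 4) J.d.zmax) :
    |skwF J.d z| ≤ l8d7lCf S Θ * skwR z := by
  obtain ⟨hzd, hzlo16, _, _, _, _⟩ := l8d7l_num hS hJ hL
  obtain ⟨c1, c2, c3⟩ := l8d7l_Cf hS hL.Θ1
  have hz0 : 0 < z := by linarith [hz.1]
  have hR0 := l8d7_R_pos hz0
  rcases le_or_gt (J.d.zlo / 4) z with h | h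
  · exact (hJ.wh.fr z ⟨h, hz.2⟩).trans (mul_le_mul_of_nonneg_right c2 hR0.le)
  · have hzlo := hJ.wh.zlo0
    have hzM : z ∈ Icc 0 J.d.zmax := ⟨hz0.le, hz.2⟩
    have hbuf : J.d.zlo / 4 ≤ J.zbuf := by linarith [hJ.zloreg, hJ.zreg]
    have hwM : J.d.zlo / 4 ∈ Icc 0 J.d.zmax := ⟨by linarith, hbuf.trans hJ.zbuf⟩
    have hRz : skwR z = z := min_eq_left (by linarith)
    have hRw : skwR (J.d.zlo / 4) ≤ Θ * z := by
      refine (l8d7_R_le _).trans ?_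
      have := hL.zloΘ
      have hΘ := hL.Θ1
      nlinarith [hz.1]
    have hRw0 := (l8d7_R_pos (by linarith : 0 < J.d.zlo / 4)).le
    have s1 : J.d.S z ≤ J.d.S (J.d.zlo / 4) := hJ.wh.Smono hzM hwM h.le
    have s2 : J.d.S (J.d.zlo / 4) ≤ (S.Cq + S.c.Cf) * skwR (J.d.zlo / 4) := by
      have a1 := (le_abs_self _).trans (hJ.wh.fr (J.d.zlo / 4) ⟨le_rfl, hwM.2⟩)
      have a2 := hJ.qr (J.d.zlo / 4) ⟨hwM.1, hbuf⟩
      unfold skwF at a1
      linarith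
    have s3 : J.d.S z ≤ l8d7lCf S Θ * z := by
      have : (S.Cq + S.c.Cf) * skwR (J.d.zlo / 4) ≤ (S.Cq + S.c.Cf) * (Θ * z) :=
        mul_le_mul_of_nonneg_left hRw (by linarith [hS.Cq, hS.c.Cf])
      unfold l8d7lCf
      linarith
    have s4 : J.d.q z ≤ l8d7lCf S Θ * z := by
      have a2 := hJ.qr z ⟨hz0.le, by linarith⟩
      rw [hRz] at a2
      exact a2.trans (mul_le_mul_of_nonneg_right c3 hz0.le)
    have s5 := hJ.wh.S0 z hzM
    have s6 := hJ.wh.q0 z hzM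
    rw [hRz]
    unfold skwF
    exact abs_le.2 ⟨by linarith, by linarith⟩

/-- (D1) down to `zd / 4` -/
theorem l8d7l_D1 (hS : S.Ok) (hJ : J.Ok S) (hL : L8D7L S J Θ zd nb') {ρ : ℝ} (hρ : ρ ∈ Icc (zd / 4) J.d.zmax) :
    ∫ z in ρ..(min (2 * ρ) J.d.zmax), skwF J.d z ^ 2 * J.d.G z ≤ l8d7lC1 S Θ * (zd * 1) ^ 4 / skwR ρ := by
  obtain ⟨hzd, hzlo16, _, _, _, _⟩ := l8d7l_num hS hJ hL
  obtain ⟨c1, c2, c3⟩ := l8d7l_C1 hS hL.Θ1
  obtain ⟨f1, _, _⟩ := l8d7l_Cf hS hL.Θ1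
  have hΘ := hL.Θ1
  have hρ0 : 0 < ρ := by linarith [hρ.1]
  have hR0 := l8d7_R_pos hρ0
  have hzlo := hJ.wh.zlo0
  rw [mul_one]
  rcases le_or_gt (J.d.zlo / 4) ρ with h | h
  · refine (hJ.wh.D1 ρ ⟨h, hρ.2⟩).trans ?_
    apply div_le_div_of_nonneg_right _ hR0.le
    have hU : 0 < J.d.U := lt_of_lt_of_le hJ.wh.x0 hJ.wh.xU
    have hZ := hJ.wh.Z1
    have a1 : (J.d.U * J.d.Z) ^ 4 ≤ (Θ * zd) ^ 4 := pow_le_pow_left₀ (by positivity) (hJ.Yz.trans hL.zloΘ) 4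
    calc S.c.C1 * (J.d.U * J.d.Z) ^ 4 ≤ S.c.C1 * (Θ * zd) ^ 4 := mul_le_mul_of_nonneg_left a1 (by linarith [hS.c.C1])
      _ = S.c.C1 * Θ ^ 4 * zd ^ 4 := by ring
      _ ≤ _ := mul_le_mul_of_nonneg_right c2 (by positivity)
  · have hRρ : skwR ρ = ρ := min_eq_left (by linarith)
    have hM0 := hS.c.M0
    set β := min (2 * ρ) J.d.zmax with hβ
    have hβ1 : ρ ≤ β := le_min (by linarith) hρ.2
    have hβ2 : β ≤ 2 * ρ := min_le_left _ _
    have hb : ∀ z ∈ Set.uIoc ρ β, ‖skwF J.d z ^ 2 * J.d.G z‖ ≤ (l8d7lCf S Θ * (2 * ρ)) ^ 2 * S.c.M0 := by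
      intro z hz
      rw [uIoc_of_le hβ1] at hz
      have hz0 : 0 < z := hρ0.trans hz.1
      have hzM : z ≤ J.d.zmax := hz.2.trans (min_le_right _ _)
      have a1 := l8d7l_fr hS hJ hL (z := z) ⟨by linarith [hρ.1, hz.1], hzM⟩
      have a2 : skwR z ≤ 2 * ρ := (l8d7_R_le z).trans (hz.2.trans hβ2)
      have a3 : |skwF J.d z| ≤ l8d7lCf S Θ * (2 * ρ) := a1.trans (mul_le_mul_of_nonneg_left a2 (by linarith))
      have a4 := hJ.wh.G0 z ⟨hz0.le, hzM⟩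
      have a5 := hJ.wh.GM z ⟨hz0.le, by linarith [hz.2, hJ.wh.zlo1]⟩
      rw [Real.norm_of_nonneg (by positivity)]
      have a6 : skwF J.d z ^ 2 ≤ (l8d7lCf S Θ * (2 * ρ)) ^ 2 := by
        rw [← sq_abs]; exact pow_le_pow_left₀ (abs_nonneg _) a3 2
      exact mul_le_mul a6 a5 a4 (by positivity)
    have h1 := intervalIntegral.norm_integral_le_of_norm_le_const hb
    have h2 := (le_abs_self _).trans (by rwa [Real.norm_eq_abs] at h1)
    rw [abs_of_nonneg (sub_nonneg.2 hβ1)] at h2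
    refine h2.trans ?_
    rw [hRρ, le_div_iff₀ hρ0]
    have a7 : ρ ≤ Θ * zd / 4 := by linarith [hL.zloΘ]
    have a8 : ρ ^ 4 ≤ (Θ * zd / 4) ^ 4 := pow_le_pow_left₀ hρ0.le a7 4
    have hK : 0 ≤ l8d7lCf S Θ ^ 2 * S.c.M0 := by positivity
    calc (l8d7lCf S Θ * (2 * ρ)) ^ 2 * S.c.M0 * (β - ρ) * ρ
        ≤ (l8d7lCf S Θ * (2 * ρ)) ^ 2 * S.c.M0 * ρ * ρ := by
          have : β - ρ ≤ ρ := by linarith
          gcongr
      _ = 4 * (l8d7lCf S Θ ^ 2 * S.c.M0) * ρ ^ 4 := by ring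
      _ ≤ 4 * (l8d7lCf S Θ ^ 2 * S.c.M0) * (Θ * zd / 4) ^ 4 := by gcongr
      _ = l8d7lCf S Θ ^ 2 * S.c.M0 * Θ ^ 4 * zd ^ 4 / 64 := by ring
      _ ≤ l8d7lCf S Θ ^ 2 * S.c.M0 * Θ ^ 4 * zd ^ 4 := by
          have : 0 ≤ l8d7lCf S Θ ^ 2 * S.c.M0 * Θ ^ 4 * zd ^ 4 := by positivity
          linarith
      _ ≤ _ := mul_le_mul_of_nonneg_right c3 (by positivity)

/-- `SkwHyp` of the shadow instance -/
theorem l8d7l_hyp (hS : S.Ok) (hJ : J.Ok S) (hL : L8D7L S J Θ zd nb') (zt : ℝ) :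
    SkwHyp (l8d7lS S Θ zt).c (l8d7lD J.d zd) := by
  obtain ⟨hzd, hzlo16, _, _, _, _⟩ := l8d7l_num hS hJ hL
  have h := hJ.wh
  exact
    { x0 := h.x0
      xU := hL.xzd
      U1 := by show zd ≤ 1; linarith [hL.zdlo]
      Z1 := le_rfl
      b0 := h.b0
      b1 := h.b1
      t0 := h.t0
      t1 := h.t1
      A1 := h.A1
      zlo0 := hzd
      zlo1 := hL.zdlo.trans h.zlo1
      zmax := h.zmax
      G0 := h.G0
      GM := h.GM
      Gc := h.Gc
      Gi := h.Gi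
      adj := h.adj
      Smono := h.Smono
      S0 := h.S0
      S1 := h.S1
      qlip := h.qlip
      q0 := h.q0
      q1 := h.q1
      fr := fun z hz => l8d7l_fr hS hJ hL hz
      D1 := fun ρ hρ => l8d7l_D1 hS hJ hL hρ
      Hx0 := h.Hx0
      Hxlip := h.Hxlip
      Hxr := h.Hxr }

/-- `S ≤ (Cq + Cf') r` down to `zd / 4` -/
theorem l8d7l_S_le (hS : S.Ok) (hJ : J.Ok S) (hL : L8D7L S J Θ zd nb') {z : ℝ} (hz : z ∈ Icc (zd / 4) J.zbuf) :
    J.d.S z ≤ (S.Cq + l8d7lCf S Θ) * skwR z := by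
  obtain ⟨hzd, _, _, _, _, _⟩ := l8d7l_num hS hJ hL
  have a1 := (le_abs_self _).trans (l8d7l_fr hS hJ hL (z := z) ⟨hz.1, hz.2.trans hJ.zbuf⟩)
  have a2 := hJ.qr z ⟨by linarith [hz.1], hz.2⟩
  unfold skwF at a1
  linarith

/-- **the trivial width construction**: width `z / 8`, one tile -/
theorem l8d7l_concl (hS : S.Ok) (hJ : J.Ok S) (hL : L8D7L S J Θ zd nb') :
    SkwConcl (l8d7lCW S Θ) (l8d7lD J.d zd) (J.zc nb' - J.δ) (J.zc nb') zd (fun z => z / 8) := by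
  obtain ⟨hzd, hzlo16, hzt1, hztb, hzts, hδ⟩ := l8d7l_num hS hJ hL
  obtain ⟨w1, w2, w3, w4, w5, w6⟩ := l8d7l_CW hS hL.Θ1
  obtain ⟨f1, _, _⟩ := l8d7l_Cf hS hL.Θ1
  have hΘ := hL.Θ1
  have hCW : 1 ≤ l8d7lCW S Θ := hS.CW.trans w1
  have hb := hJ.wh.b0
  have hb1 := hJ.wh.b1
  have hδ0 := hJ.δ0
  have hM0 := hS.c.M0
  have hcG := hS.cG
  have hlo := hL.zt_lo
  have hhi := hL.zt_hi
  set zt := J.zc nb' with hzt
  have hinvb : 8 ≤ 1 / J.d.b := by rw [le_div_iff₀ hb]; linarith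
  have hCb : l8d7lCW S Θ ≤ l8d7lCW S Θ / J.d.b := by
    rw [le_div_iff₀ hb]; nlinarith
  have hR : ∀ z, 0 ≤ z → z ≤ zt → skwR z = z := fun z _ h => min_eq_left (h.trans hzt1)
  have hE : ∀ z, 0 ≤ z → z ≤ zt → skwE (l8d7lD J.d zd) (fun z => z / 8) z = z / 8 := by
    intro z h0 h1
    show min (skwR z) ((1 : ℝ) ^ 2 * (z / 8)) = z / 8
    rw [hR z h0 h1, one_pow, one_mul]
    exact min_eq_right (by linarith)
  refine
    { qlip := ?_
      meas := ?_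
      lower := ?_
      upper := ?_
      dev := ?_
      budget := ?_
      win := ?_
      tiles := ?_ }
  · intro z hz z' hz'
    have hz0 : 0 ≤ z := by have : zd / 2 ≤ z := hz.1; linarith
    have a1 : z' ≤ z + |z - z'| := by have := neg_abs_le (z - z'); linarith
    have a2 := abs_nonneg (z - z')
    show z' / 8 ≤ l8d7lCW S Θ * (z / 8 + |z - z'|)
    have a3 : z' / 8 ≤ 1 * (z / 8 + |z - z'|) := by linarith
    exact a3.trans (mul_le_mul_of_nonneg_right hCW (by positivity))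
  · exact (measurable_id.div_const 8).aestronglyMeasurable
  · intro z hz
    have hz0 : 0 < z := by have : zd / 2 ≤ z := hz.1; linarith
    have hRz := hR z hz0.le hz.2
    show min (J.d.b * skwR z) (zd ^ 2 / skwR z) / l8d7lCW S Θ ≤ z / 8
    rw [hRz, div_le_iff₀ (by linarith)]
    refine (min_le_left _ _).trans ?_
    nlinarith
  · intro z hz
    have hz0 : 0 < z := by have : zd / 2 ≤ z := hz.1; linarith
    show z / 8 ≤ l8d7lCW S Θ * skwR z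
    rw [hR z hz0.le hz.2]
    nlinarith
  · intro z hz
    have hz1 : zd / 2 ≤ z := hz.1
    have hz0 : 0 < z := by linarith
    have a1 := l8d7l_fr hS hJ hL (z := z) ⟨by linarith, (hz.2.trans hztb).trans hJ.zbuf⟩
    rw [hR z hz0.le hz.2] at a1
    rw [hE z hz0.le hz.2]
    show |skwF J.d z| ≤ l8d7lCW S Θ * (z / 8) / J.d.b
    refine a1.trans ?_
    have e : l8d7lCW S Θ * (z / 8) / J.d.b = l8d7lCW S Θ * z * (1 / J.d.b) / 8 := by ring
    rw [e]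
    have a2 : l8d7lCf S Θ * z ≤ l8d7lCW S Θ * z := mul_le_mul_of_nonneg_right w2 hz0.le
    have a3 : l8d7lCW S Θ * z * 8 ≤ l8d7lCW S Θ * z * (1 / J.d.b) := mul_le_mul_of_nonneg_left hinvb (by positivity)
    linarith
  · intro ρ hρ
    have hρ1 : zd ≤ ρ := hρ.1
    have hρ0 : 0 < ρ := by linarith
    have hρ2 : ρ ≤ zt - J.δ := hρ.2
    have hL1 : 1 ≤ skwL J.d := by
      unfold skwL
      have h0 := hJ.wh.t0
      have h1 : J.d.tiny ≤ 1 := hJ.wh.t1.trans (pow_le_one₀ hJ.wh.x0.le (by linarith [hL.xzd, hL.zdlo]))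
      have : 0 ≤ Real.log (1 / J.d.tiny) := Real.log_nonneg (by rw [le_div_iff₀ h0]; linarith)
      linarith
    set β := min (2 * ρ) (zt - J.δ) with hβ
    have hβ1 : ρ ≤ β := le_min (by linarith) hρ2
    have hβ2 : β ≤ 2 * ρ := min_le_left _ _
    have hβ3 : β ≤ zt - J.δ := min_le_right _ _
    have hbd : ∀ z ∈ Set.uIoc ρ β, ‖J.d.G z * (z / 8) ^ 2‖ ≤ S.c.M0 * (ρ / 4) ^ 2 := by
      intro z hz
      rw [uIoc_of_le hβ1] at hz
      have hz0 : 0 < z := hρ0.trans hz.1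
      have a4 := hJ.wh.G0 z ⟨hz0.le, by linarith [hz.2, hJ.zbuf]⟩
      have a5 := hJ.wh.GM z ⟨hz0.le, by linarith [hz.2]⟩
      rw [Real.norm_of_nonneg (by positivity)]
      have a6 : (z / 8) ^ 2 ≤ (ρ / 4) ^ 2 := pow_le_pow_left₀ (by positivity) (by linarith [hz.2]) 2
      exact mul_le_mul a5 a6 (by positivity) (by linarith)
    have h1 := intervalIntegral.norm_integral_le_of_norm_le_const hbd
    have h2 := (le_abs_self _).trans (by rwa [Real.norm_eq_abs] at h1)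
    rw [abs_of_nonneg (sub_nonneg.2 hβ1)] at h2
    show ∫ z in ρ..β, J.d.G z * (z / 8) ^ 2 ≤ l8d7lCW S Θ * skwL J.d * zd ^ 4 / skwR ρ
    refine h2.trans ?_
    rw [hR ρ hρ0.le (by linarith), le_div_iff₀ hρ0]
    have a7 : ρ ≤ Θ * zd := by linarith
    have a8 : ρ ^ 4 ≤ (Θ * zd) ^ 4 := pow_le_pow_left₀ hρ0.le a7 4
    calc S.c.M0 * (ρ / 4) ^ 2 * (β - ρ) * ρ ≤ S.c.M0 * (ρ / 4) ^ 2 * ρ * ρ := by
          have : β - ρ ≤ ρ := by linarith
          gcongr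
      _ = S.c.M0 * ρ ^ 4 / 16 := by ring
      _ ≤ S.c.M0 * ρ ^ 4 := by have : 0 ≤ S.c.M0 * ρ ^ 4 := by positivity
                               linarith
      _ ≤ S.c.M0 * (Θ * zd) ^ 4 := by gcongr
      _ = S.c.M0 * Θ ^ 4 * 1 * zd ^ 4 := by ring
      _ ≤ l8d7lCW S Θ * skwL J.d * zd ^ 4 := by gcongr
  · intro z hz hlt
    exfalso
    have hz1 : zd ≤ z := hz.1
    have hz0 : 0 < z := by linarith
    change (1 : ℝ) ^ 2 * (z / 8) < J.d.b * skwR z / l8d7lCW S Θ at hlt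
    rw [hR z hz0.le hz.2, lt_div_iff₀ (by linarith)] at hlt
    nlinarith
  · refine ⟨1, fun i => if i = 0 then zd else zt - J.δ, by simp; rfl, by simp, ?_, fun _ => ⟨0, by omega, by simp⟩, ?_⟩
    · intro i hi
      obtain rfl : i = 0 := by omega
      simp only [if_true, zero_add, one_ne_zero, if_false]
      linarith
    · intro i hi
      obtain rfl : i = 0 := by omega
      simp only [if_true, zero_add, one_ne_zero, if_false]
      have hlen : zd ≤ zt - J.δ - zd := by linarith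
      refine ⟨?_, ?_, ?_⟩
      · intro z hz
        have hz0 : 0 < z := by linarith [hz.1]
        constructor
        · rw [div_le_iff₀ (by linarith)]
          have : z / 8 ≤ (zt - J.δ - zd) * 1 := by linarith [hz.2]
          exact this.trans (mul_le_mul_of_nonneg_left hCW (by linarith))
        · have a1 : 8 * Θ * (z / 8) ≤ l8d7lCW S Θ * (z / 8) := mul_le_mul_of_nonneg_right w4 (by positivity)
          have a2 : Θ * zd ≤ Θ * z := mul_le_mul_of_nonneg_left hz.1 (by linarith)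
          linarith
      · intro z hz
        have hz0 : 0 < z := by linarith [hz.1]
        have a5 := hJ.wh.GM z ⟨hz0.le, by linarith [hz.2]⟩
        have hii : IntervalIntegrable J.d.G volume zd (zt - J.δ) := by
          refine hJ.wh.Gi.mono_set ?_
          rw [uIcc_of_le (by linarith), uIcc_of_le (by linarith [hJ.zbuf])]
          exact Icc_subset_Icc hzd.le (by linarith [hJ.zbuf])
        have a6 : S.cG * (zt - J.δ - zd) ≤ ∫ s in zd..(zt - J.δ), J.d.G s := by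
          have := intervalIntegral.integral_mono_on (μ := volume) (by linarith : zd ≤ zt - J.δ)
            (intervalIntegrable_const (c := S.cG)) hii
            (fun s hs => hJ.Greg s ⟨by linarith [hs.1], by linarith [hs.2, hL.zt_reg]⟩)
          simpa [mul_comm] using this
        have a7 : S.cG ≤ (∫ s in zd..(zt - J.δ), J.d.G s) / (zt - J.δ - zd) := by
          rw [le_div_iff₀ (by linarith)]; exact a6
        show J.d.G z ≤ l8d7lCW S Θ / J.d.b * ((∫ s in zd..(zt - J.δ), J.d.G s) / (zt - J.δ - zd) + J.d.tiny)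
        have a8 : S.c.M0 ≤ l8d7lCW S Θ * S.cG := by
          rw [div_le_iff₀ hcG] at w5; exact w5
        calc J.d.G z ≤ S.c.M0 := a5
          _ ≤ l8d7lCW S Θ * S.cG := a8
          _ ≤ l8d7lCW S Θ / J.d.b * ((∫ s in zd..(zt - J.δ), J.d.G s) / (zt - J.δ - zd) + J.d.tiny) :=
            mul_le_mul hCb (by linarith [hJ.wh.t0]) hcG.le (by positivity)
      · intro z hz z' hz' hzz' _ _
        have hz1 : zd / 2 ≤ z := hz.1
        have hz'1 : zd / 2 ≤ z' := hz'.1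
        have hz'0 : 0 < z' := by linarith
        have a1 := l8d7l_S_le hS hJ hL (z := z') ⟨by linarith, hz'.2.trans hztb⟩
        rw [hR z' hz'0.le hz'.2] at a1
        have a2 := hJ.wh.S0 z ⟨by linarith, (hz.2.trans hztb).trans hJ.zbuf⟩
        show J.d.S z' - J.d.S z ≤ l8d7lCW S Θ / J.d.b * min (skwR zd) ((1 : ℝ) ^ 2 * (zt - J.δ - zd))
        rw [hR zd hzd.le (by linarith), one_pow, one_mul, min_eq_left hlen]
        have a3 : (S.Cq + l8d7lCf S Θ) * z' ≤ (S.Cq + l8d7lCf S Θ) * (Θ * zd) :=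
          mul_le_mul_of_nonneg_left (hz'.2.trans hhi) (by linarith [hS.Cq])
        have a4 : (S.Cq + l8d7lCf S Θ) * Θ * zd ≤ l8d7lCW S Θ / J.d.b * zd :=
          mul_le_mul_of_nonneg_right (w6.trans hCb) hzd.le
        linarith

/-- the mass function in the regular region -/
theorem l8d7l_vz_ge (hJ : J.Ok S) (hX : L8D7X S J cs Czb) {z : ℝ} (h0 : 0 ≤ z) (h1 : z ≤ S.zreg) :
    S.cG * z ≤ (l8d7iGrid S J).vz z := by
  show S.cG * z ≤ ∫ s in (0 : ℝ)..z, l8d7iG J s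
  have := intervalIntegral.integral_mono_on_of_le_Ioo (μ := volume) h0 (intervalIntegrable_const (c := S.cG))
    (l8d7i_G_ii hJ hX 0 z) (fun s hs => by
      rw [l8d7i_G_eq J hs.1 (by linarith [hs.2, hJ.zreg])]
      exact hJ.Greg s ⟨hs.1.le, by linarith [hs.2]⟩)
  simpa [mul_comm] using this

/-- masses of the cuts in the regular region -/
theorem l8d7l_v_ge (hS : S.Ok) (hJ : J.Ok S) (hX : L8D7X S J cs Czb) {k : ℕ} (hk : k < J.nb) (h1 : J.zc (k + 1) ≤ S.zreg) :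
    S.cG * J.zc (k + 1) ≤ J.P.v k := by
  rw [l8d7i_v_eq hS hJ hX k (by have := hJ.nbn; omega), l8d7i_zc_le hk]
  exact l8d7l_vz_ge hJ hX (by rw [← hJ.z0]; exact hJ.zmono (Nat.zero_le _)) h1

/-- **`SkpI.Ok` of the shadow instance** -/
theorem l8d7l_J_ok (hS : S.Ok) (hJ : J.Ok S) (hX : L8D7X S J cs Czb) (hL : L8D7L S J Θ zd nb') :
    (l8d7lJ J zd nb').Ok (l8d7lS S Θ (J.zc nb')) := by
  obtain ⟨hzd, hzlo16, hzt1, hztb, hzts, hδ⟩ := l8d7l_num hS hJ hL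
  obtain ⟨v1, v2, v3⟩ := l8d7l_Cv hS
  have hcG := hS.cG
  have hx := hJ.wh.x0
  have hl := l8d7s_lam1_pos hJ
  have hsl : 0 < Real.sqrt J.lam1 := Real.sqrt_pos.2 hl
  have hCv' : 0 < l8d7lCv S := lt_of_lt_of_le (by linarith [hS.Cv]) v1
  have z0 : ∀ k, 0 ≤ J.zc k := fun k => by rw [← hJ.z0]; exact hJ.zmono (Nat.zero_le _)
  exact
    { sp := hJ.sp
      m0 := hJ.m0
      a1 := hJ.a1
      a4 := hJ.a4
      pin := hJ.pin
      proj := hJ.proj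
      wh := l8d7l_hyp hS hJ hL _
      wc := l8d7l_concl hS hJ hL
      zbuf := hztb.trans hJ.zbuf
      zreg := le_rfl
      δ0 := hJ.δ0
      z0 := hJ.z0
      zmono := hJ.zmono
      zmesh := fun k hk => hJ.zmesh k (lt_trans hk hL.nb)
      nb := rfl
      nbn := hL.nb.le.trans hJ.nbn
      Slink := fun k hk z hz h1 h2 => hJ.Slink k (le_trans hk hL.nb.le) z ⟨hz.1, le_trans hz.2 hztb⟩ h1 h2
      gaplink := fun k hk => hJ.gaplink k (lt_trans hk hL.nb)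
      vlo := by
        intro k hk _
        change k ≤ nb' at hk
        show skwR (J.zc k) / l8d7lCv S ≤ J.P.v k
        have hk' : k < J.nb := lt_of_le_of_lt hk hL.nb
        have a1 : J.zc k ≤ J.zc nb' := hJ.zmono hk
        have a2 : (l8d7iGrid S J).vz (J.zc k) ≤ J.P.v k := by
          rw [l8d7i_v_eq hS hJ hX k (by have := hJ.nbn; omega), l8d7i_zc_le hk']
          exact l8d7i_vz_mono hJ hX (hJ.zmono (Nat.le_succ k))
        have a3 := l8d7l_vz_ge hJ hX (z0 k) (a1.trans hL.zt_reg)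
        rw [div_le_iff₀ hCv']
        have a4 : 1 ≤ S.cG * l8d7lCv S := by
          rw [div_le_iff₀ hcG] at v2; linarith
        have a5 := l8d7_R_le (J.zc k)
        have a6 : J.zc k * 1 ≤ J.zc k * (S.cG * l8d7lCv S) := mul_le_mul_of_nonneg_left a4 (z0 k)
        have a7 : S.cG * J.zc k * l8d7lCv S ≤ J.P.v k * l8d7lCv S := mul_le_mul_of_nonneg_right (a3.trans a2) hCv'.le
        nlinarith
      vhi := by
        intro k hk
        change k < nb' at hk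
        refine (hJ.vhi k (lt_trans hk hL.nb)).trans ?_
        exact mul_le_mul_of_nonneg_right v1 (l8d7i_R_nonneg (z0 _))
      D3 := hL.D3
      msz := hJ.msz
      g0a := by
        show J.d.x ^ 3 / Real.sqrt J.lam1 ≤ J.d.x ^ 3 / (Real.sqrt J.lam1 * zd ^ 3) * zd ^ 3
        apply le_of_eq
        field_simp
      g0b := by
        show J.d.x ^ 3 / (Real.sqrt J.lam1 * zd ^ 3) ≤ J.d.x ^ (S.cg / 2)
        have hU : 0 < J.d.U := lt_of_lt_of_le hx hJ.wh.xU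
        have hZ := hJ.wh.Z1
        have b1 : J.d.U ≤ Θ * zd := by
          have : J.d.U * 1 ≤ J.d.U * J.d.Z := mul_le_mul_of_nonneg_left hZ hU.le
          linarith [hJ.Yz, hL.zloΘ]
        have b2 : J.d.U ^ 3 ≤ (Θ * zd) ^ 3 := pow_le_pow_left₀ hU.le b1 3
        have hh : 0 < J.d.x ^ (S.cg / 2) := Real.rpow_pos_of_pos hx _
        have b3 : J.d.x ^ S.cg = J.d.x ^ (S.cg / 2) * J.d.x ^ (S.cg / 2) := by
          rw [← Real.rpow_add hx]; congr 1; ring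
        have b4 : J.d.x ^ 3 / Real.sqrt J.lam1 ≤ J.d.x ^ S.cg * (Θ * zd) ^ 3 :=
          hJ.g0a.trans (mul_le_mul hJ.g0b b2 (by positivity) (Real.rpow_pos_of_pos hx _).le)
        have e : J.d.x ^ 3 / (Real.sqrt J.lam1 * zd ^ 3) = J.d.x ^ 3 / Real.sqrt J.lam1 / zd ^ 3 := by
          field_simp
        rw [e, div_le_iff₀ (by positivity)]
        refine b4.trans ?_
        rw [b3]
        calc J.d.x ^ (S.cg / 2) * J.d.x ^ (S.cg / 2) * (Θ * zd) ^ 3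
            = J.d.x ^ (S.cg / 2) * (Θ ^ 3 * J.d.x ^ (S.cg / 2)) * zd ^ 3 := by ring
          _ ≤ J.d.x ^ (S.cg / 2) * 1 * zd ^ 3 := by
              have := hL.smallg
              gcongr
          _ = _ := by ring
      g0c := by
        show 0 < J.d.x ^ 3 / (Real.sqrt J.lam1 * zd ^ 3)
        positivity
      lam1a := hJ.lam1a
      lam1b := hJ.lam1b
      Lg0 := hJ.Lg0
      Lg := hJ.Lg
      mesh := hJ.mesh
      lowb0 := hJ.lowb0
      lowb := hJ.lowb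
      Yz := by show zd * 1 ≤ zd; linarith
      zloY := by show zd ≤ 1 * (zd * 1); linarith
      zlox := hL.xzd
      zloreg := by show 16 * zd ≤ J.zc nb'; linarith [hL.zt_lo]
      qr := fun z hz => hJ.qr z ⟨hz.1, le_trans hz.2 hztb⟩
      Greg := fun z hz => hJ.Greg z ⟨hz.1, le_trans hz.2 hL.zt_reg⟩
      zregs := hzts }

/-- **`L8D7X` of the shadow instance** -/
theorem l8d7l_X (hS : S.Ok) (hJ : J.Ok S) (hX : L8D7X S J cs Czb) (hL : L8D7L S J Θ zd nb') :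
    L8D7X (l8d7lS S Θ (J.zc nb')) (l8d7lJ J zd nb') cs 1 := by
  obtain ⟨hzd, hzlo16, hzt1, hztb, hzts, hδ⟩ := l8d7l_num hS hJ hL
  obtain ⟨MG, hMG⟩ := hX.Gb
  exact
    { cs0 := hX.cs0
      sus := hX.sus
      dhn := hX.dhn
      Gm := hX.Gm
      Gb := ⟨MG, fun z hz => hMG z ⟨hz.1, le_trans hz.2 hztb⟩⟩
      zhibuf := by show J.zc nb' - J.δ ≤ J.zc nb'; linarith [hJ.δ0]
      Czb1 := le_rfl
      zbufC := hzt1
      top := Or.inl (by show J.zc nb' - J.δ + J.δ ≤ J.zc nb'; linarith)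
      blo := hX.blo
      small := hL.small }

end shadow

/-! ## PART 2 : the low range -/

/-- comparability constant of the shadow instance at `zd = r / (4 Cv')` -/
noncomputable def l8d7lTh (S : SkpS) : ℝ := 4 * l8d7lCv S * S.Cz + 20 * l8d7lCv S / S.cG

/-- the hypotheses at a mass scale `r` of the low range -/
structure L8D7R (S : SkpS) (J : SkpI Ω m) (r : ℝ) : Prop where
  rY : J.d.U * J.d.Z ≤ r
  rx : 4 * l8d7lCv S * J.d.x ≤ r
  rlo : r ≤ 4 * S.Cv * J.d.zlo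
  r4 : r ≤ 4
  reg : 5 * r < S.cG * S.zreg
  /-- (D3) from the coordinate `r / (16 Cv')` -/
  D3 : ∀ k₁ k₂, k₁ < k₂ → k₂ ≤ J.nb → r / (16 * l8d7lCv S) ≤ J.z k₁ →
    S.cD3 * J.lam1 * skwR (J.z k₁) ^ 2 * (J.z k₂ - J.z k₁) ≤ J.P.hlen k₁ k₂
  small : J.d.x ≤ 1 / (4 * l8d7lCv S * l8d7lCW S (l8d7lTh S))
  smallg : l8d7lTh S ^ 3 * J.d.x ^ (S.cg / 2) ≤ 1

section low

variable {S : SkpS} {J : SkpI Ω m} {cs Czb r : ℝ}

/-- the choice of the buffer end -/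
theorem l8d7l_choice (hS : S.Ok) (hJ : J.Ok S) (hX : L8D7X S J cs Czb) (hR : L8D7R S J r) :
    ∃ nb' : ℕ, L8D7L S J (l8d7lTh S) (r / (4 * l8d7lCv S)) nb' ∧
      ∀ k < J.P.n, r ≤ J.P.v k → J.P.v k ≤ 2 * r → k < nb' ∧ J.zc (k + 1) ≤ J.zc nb' - J.δ := by
  obtain ⟨v1, v2, v3⟩ := l8d7l_Cv hS
  have hcG := hS.cG
  have hx := hJ.wh.x0
  have hCv := hS.Cv
  have hCz := hS.Cz
  have hCv' : 1 ≤ l8d7lCv S := hCv.trans v1
  have hr0 : 0 < r := lt_of_lt_of_le (by positivity) hR.rx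
  have hzlo16 : J.d.zlo ≤ 1 / 16 := by linarith [hJ.zloreg, hS.zreg1]
  have hx16 : J.d.x ≤ 1 / 16 := hJ.zlox.trans hzlo16
  have hδx : J.δ ≤ J.d.x / 16 := by
    have a1 : J.δ ≤ J.d.x ^ 2 := hJ.mesh.trans (pow_le_pow_of_le_one hx.le (by linarith) (by norm_num))
    nlinarith
  have hxr : J.d.x ≤ r / S.cG := by
    rw [le_div_iff₀ hcG]
    have : J.d.x * S.cG ≤ J.d.x * l8d7lCv S := mul_le_mul_of_nonneg_left (by linarith) hx.le
    nlinarith [hR.rx]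
  have hδr : J.δ ≤ r / S.cG := by linarith
  have hrc : 0 < r / S.cG := by positivity
  have hex : ∃ k, 4 * (r / S.cG) ≤ J.zc k := by
    refine ⟨J.nb, ?_⟩
    rw [hJ.nb]
    refine le_trans ?_ hJ.zreg
    have : r / S.cG * 5 < S.zreg := by rw [div_mul_eq_mul_div, div_lt_iff₀ hcG]; linarith [hR.reg]
    linarith
  classical
  set nb' := Nat.find hex with hnb'
  have h1 : 4 * (r / S.cG) ≤ J.zc nb' := Nat.find_spec hex
  have hpos : nb' ≠ 0 := by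
    intro h0
    rw [h0, hJ.z0] at h1
    linarith
  have hprev : J.zc (nb' - 1) < 4 * (r / S.cG) := not_le.1 (Nat.find_min hex (by omega))
  have hle : nb' ≤ J.nb := Nat.find_min' hex (by
    rw [hJ.nb]
    refine le_trans ?_ hJ.zreg
    have : r / S.cG * 5 < S.zreg := by rw [div_mul_eq_mul_div, div_lt_iff₀ hcG]; linarith [hR.reg]
    linarith)
  have hsucc : nb' - 1 + 1 = nb' := Nat.sub_add_cancel (Nat.one_le_iff_ne_zero.2 hpos)
  have hmesh : J.zc nb' - J.zc (nb' - 1) ≤ J.δ := by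
    have := hJ.zmesh (nb' - 1) (by omega)
    rwa [hsucc] at this
  have h2 : J.zc nb' ≤ 5 * (r / S.cG) := by linarith
  have h3 : J.zc nb' < S.zreg := by
    have : r / S.cG * 5 < S.zreg := by rw [div_mul_eq_mul_div, div_lt_iff₀ hcG]; linarith [hR.reg]
    linarith
  have hlt : nb' < J.nb := by
    by_contra hc
    have := hJ.zmono (not_lt.1 hc)
    rw [hJ.nb] at this
    linarith [hJ.zreg]
  have hzd : r / (4 * l8d7lCv S) = r / l8d7lCv S / 4 := by field_simp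
  have hrC : 0 < r / l8d7lCv S := by positivity
  have hΘ1 : 1 ≤ l8d7lTh S := by
    unfold l8d7lTh
    have : 0 ≤ 20 * l8d7lCv S / S.cG := by positivity
    nlinarith
  refine ⟨nb', ?_, ?_⟩
  · refine
      { Θ1 := hΘ1
        xzd := by rw [le_div_iff₀ (by positivity)]; linarith [hR.rx]
        zdlo := by
          rw [div_le_iff₀ (by positivity)]
          have : S.Cv * J.d.zlo ≤ l8d7lCv S * J.d.zlo := mul_le_mul_of_nonneg_right v1 hJ.wh.zlo0.le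
          linarith [hR.rlo]
        zloΘ := ?_
        nb := hlt
        zt_lo := ?_
        zt_hi := ?_
        zt_reg := h3.le
        D3 := ?_
        small := hR.small
        smallg := hR.smallg }
    · have a1 : J.d.zlo ≤ S.Cz * r := hJ.zloY.trans (mul_le_mul_of_nonneg_left hR.rY (by linarith))
      have e : l8d7lTh S * (r / (4 * l8d7lCv S)) = S.Cz * r + 5 * (r / S.cG) := by
        unfold l8d7lTh; field_simp; ring
      rw [e]; linarith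
    · have a1 : r / l8d7lCv S * 2 ≤ r / S.cG := by
        rw [div_mul_eq_mul_div, div_le_div_iff₀ (by linarith) hcG]
        nlinarith
      rw [hzd]; linarith
    · have e : l8d7lTh S * (r / (4 * l8d7lCv S)) = S.Cz * r + 5 * (r / S.cG) := by
        unfold l8d7lTh; field_simp; ring
      rw [e]
      have : 0 ≤ S.Cz * r := by positivity
      linarith
    · intro k₁ k₂ h12 hk2 hz
      refine hR.D3 k₁ k₂ h12 (hk2.trans hle) ?_
      have e : r / (16 * l8d7lCv S) = r / (4 * l8d7lCv S) / 4 := by field_simp; ring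
      rw [e]; exact hz
  · intro k _ _ hk2
    have hknb : k < nb' := by
      by_contra hc
      have a1 : J.P.v (nb' - 1) ≤ J.P.v k := hJ.sp.v_mono (by omega)
      have a2 := l8d7l_v_ge hS hJ hX (k := nb' - 1) (by omega) (by rw [hsucc]; exact h3.le)
      rw [hsucc] at a2
      have a3 : S.cG * (4 * (r / S.cG)) ≤ S.cG * J.zc nb' := mul_le_mul_of_nonneg_left h1 hcG.le
      have e : S.cG * (4 * (r / S.cG)) = 4 * r := by field_simp
      linarith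
    refine ⟨hknb, ?_⟩
    have b1 : J.zc (k + 1) ≤ J.zc nb' := hJ.zmono hknb
    have a2 := l8d7l_v_ge hS hJ hX (k := k) (by omega) (b1.trans h3.le)
    have a3 : J.zc (k + 1) ≤ 2 * (r / S.cG) := by
      have e : 2 * (r / S.cG) = 2 * r / S.cG := by ring
      rw [e, le_div_iff₀ hcG]; linarith
    linarith

/-- the constant of `l8d7l_C` -/
noncomputable def l8d7lCC (S : SkpS) (cs : ℝ) : ℝ := l8d7sCC (l8d7lS S (l8d7lTh S) 0) cs 1
/-- the threshold of smallness of `x` in `l8d7l_C` -/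
noncomputable def l8d7lCs (S : SkpS) : ℝ := l8d7sCs (l8d7lS S (l8d7lTh S) 0)

/-- TEX[LL:lem:statistics-integrated] TEX[LL:eq:D7] **(D7), second line, on the low range** `max(Y, 4 Cv' x) ≤ r ≤ 4 Cv zlo` -/
theorem l8d7l_C (hS : S.Ok) (hJ : J.Ok S) (hX : L8D7X S J cs Czb) (hR : L8D7R S J r) {n' : ℕ} (hn1 : 1 ≤ J.d.x ^ 6 * 2 ^ n')
    (hn2 : J.d.x ^ 6 * 2 ^ n' ≤ 2) (hsm : J.d.x * l8d7lCs S ≤ 1) :
    J.P.int r (2 * r) (fun k => (∫ ω, J.P.xCx k ω ∂J.P.μ) + ∫ ω, J.P.trC2 k ω ∂J.P.μ)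
      ≤ l8d7lCC S cs * (((n' : ℝ) + 2) ^ 2 * (1 + J.Lg ^ 4) * (J.d.x ^ 6 / (J.d.b ^ 2 * J.lam1 * r ^ 3)))
        + J.P.dv J.P.n * ((∫ ω, J.P.xCx J.P.n ω ∂J.P.μ) + ∫ ω, J.P.trC2 J.P.n ω ∂J.P.μ) := by
  obtain ⟨nb', hL, hout⟩ := l8d7l_choice hS hJ hX hR
  obtain ⟨hzd, _, hzt1, _, _, _⟩ := l8d7l_num hS hJ hL
  have hzt0 : 0 < J.zc nb' := by linarith [hL.zt_lo]
  have hS' := l8d7l_S_ok hS hL.Θ1 hzt0 hzt1
  have hJ' := l8d7l_J_ok hS hJ hX hL
  have hX' := l8d7l_X hS hJ hX hL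
  have hCv' : 0 < l8d7lCv S := lt_of_lt_of_le (by linarith [hS.Cv]) (l8d7l_Cv hS).1
  have key := l8d7s_C_cl hS' hJ' hX' (n' := n') hn1 hn2 hsm (r := r)
    (by show 4 * l8d7lCv S * (r / (4 * l8d7lCv S)) ≤ r
        apply le_of_eq; field_simp) hR.r4 hout
  refine key.trans (le_of_eq ?_)
  show l8d7sCC (l8d7lS S (l8d7lTh S) (J.zc nb')) cs 1 * (((n' : ℝ) + 2) ^ 2 * (1 + J.Lg ^ 4)
      * ((1 : ℝ) ^ 2 * J.d.x ^ 6 / (J.d.b ^ 2 * J.lam1 * r ^ 3))) + _ = _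
  rw [one_pow, one_mul]
  rfl

/-- first order: `E X C X + E tr C² ≤ D²` (enough for `r ≲ x`) -/
theorem l8d7l_C_le_D2 {P : L8P Ω m} (hP : P.Ok) (k : ℕ) :
    (∫ ω, P.xCx k ω ∂P.μ) + ∫ ω, P.trC2 k ω ∂P.μ ≤ P.D2 k := by
  rw [ivk_D2_eq hP k]
  have h1 : 0 ≤ ∫ ω, P.xCx k ω ∂P.μ := integral_nonneg (ivk_xCx_nonneg hP k)
  have h2 : 0 ≤ ivkVar P k := integral_nonneg fun _ => sq_nonneg _
  linarith

end low

end Claimed.Agent.R286
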