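import Claimed.Agent.R286.L08.IvD7I
import Claimed.Agent.R286.L08.IvSk

/-!
# Row 286 (S0533), folder L08, file IvD7S : (D7) AS SUMS OVER THE CUTS OF A MASS BAND      (owner helper298; head of the unit IV: helper228; prefix `l8d7s`)

TEX[LL:lem:statistics-integrated]  (LL 08-statistics.tex l.631-745, (D7)).

Input: ONE instance record `J : SkpI Ω m`, `J.Ok S` (PM/Defs, helper37) + `L8D7X S J cs Czb` (L08/IvD7I).      Output: the three lines of (D7) in the form of the exits of LL 08 (`L08/Defs.lean`, helper75):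
sums `P.int r (2 r) g = ∑_{r ≤ v_k ≤ 2r} dv_k g_k` (`L8P.int` of 228, `= I.band r g`), for the mass scales `r ≥ 4 Cv zlo`.
* PART 1  a mass band is covered by a BOUNDED number `N` of dyadic bands of the coordinate `z`;   the cuts `k < n` of the band must lie in the tiled region (`hout`), the last cut `n` is kept as an explicit term
          (direct path: `nb = n`, `zhi = zbuf = zc n`, the cell of the cut `n` has mass `dv n ≤` mesh).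
* PART 2  `l8d7s_W0`, `l8d7s_W`, `l8d7s_C`, `l8d7s_D` : explicit constants of `L8D7`.
-/

set_option autoImplicit false

namespace Claimed.Agent.R286

open MeasureTheory Set

/-! ## PART 1 -/

section chain

variable {D : L8D7}

/-- the ends of the consecutive dyadic bands which start at `ρ0` -/
noncomputable def L8D7.rho (D : L8D7) (ρ0 : ℝ) (i : ℕ) : ℝ := min (2 ^ i * ρ0) D.zhi

theorem l8d7s_zhi_pos (hD : D.Ok) : 0 < D.zhi := lt_of_lt_of_le hD.hyp.zlo0 hD.zlohi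

theorem l8d7s_rho_zero {ρ0 : ℝ} (h : ρ0 ≤ D.zhi) : D.rho ρ0 0 = ρ0 := by
  unfold L8D7.rho; rw [pow_zero, one_mul]; exact min_eq_left h

theorem l8d7s_rho_succ (hD : D.Ok) (ρ0 : ℝ) (i : ℕ) : D.up (D.rho ρ0 i) = D.rho ρ0 (i + 1) := by
  have hz := l8d7s_zhi_pos hD
  unfold L8D7.up L8D7.rho
  rw [pow_succ]
  rcases le_total (2 ^ i * ρ0) D.zhi with h | h
  · rw [min_eq_left h]; congr 1; ring
  · rw [min_eq_right h, min_eq_right (by linarith), min_eq_right (by nlinarith)]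

theorem l8d7s_rho_ge {ρ0 : ℝ} (h0 : 0 ≤ ρ0) (h : ρ0 ≤ D.zhi) (i : ℕ) : ρ0 ≤ D.rho ρ0 i := by
  refine le_min ?_ h
  have : (1 : ℝ) ≤ 2 ^ i := one_le_pow₀ (by norm_num)
  nlinarith

theorem l8d7s_rho_le (ρ0 : ℝ) (i : ℕ) : D.rho ρ0 i ≤ D.zhi := min_le_right _ _

theorem l8d7s_rho_le' {ρ0 : ℝ} (h0 : 0 ≤ ρ0) {i N : ℕ} (h : i ≤ N) : D.rho ρ0 i ≤ 2 ^ N * ρ0 :=
  (min_le_left _ _).trans (mul_le_mul_of_nonneg_right (pow_le_pow_right₀ (by norm_num) h) h0)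

/-- **a chain of `N` dyadic bands** -/
theorem l8d7s_chain (hD : D.Ok) {F : ℝ → ℝ} (hF : ∀ a b, IntervalIntegrable F volume a b) {B0 ρ0 : ℝ}
    (h0 : 0 ≤ ρ0) (h2 : ρ0 ≤ D.zhi) (N : ℕ)
    (hB : ∀ ρ, ρ0 ≤ ρ → ρ ≤ D.zhi → ρ ≤ 2 ^ N * ρ0 → ∫ v in D.cut.vz ρ..D.cut.vz (D.up ρ), F v ≤ B0) :
    ∀ i ≤ N, ∫ v in D.cut.vz ρ0..D.cut.vz (D.rho ρ0 i), F v ≤ i * B0 := by
  intro i
  induction i with
  | zero => intro _; rw [l8d7s_rho_zero h2]; simp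
  | succ i ih =>
    intro hi
    have h1 := ih (by omega)
    have h3 := hB (D.rho ρ0 i) (l8d7s_rho_ge h0 h2 i) (l8d7s_rho_le ρ0 i) (l8d7s_rho_le' h0 (by omega))
    rw [l8d7s_rho_succ hD] at h3
    rw [← intervalIntegral.integral_add_adjacent_intervals (hF _ (D.cut.vz (D.rho ρ0 i))) (hF _ _)]
    push_cast
    linarith

end chain

variable {Ω : Type} [mΩ : MeasurableSpace Ω] {m : ℕ}

/-- a sum over cuts whose mass cells lie in `[α, β]` -/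
theorem l8d7s_sum_le {P : L8P Ω m} (hP : P.Ok) {f : ℕ → ℝ} (hf : ∀ k, 0 ≤ f k) {α β : ℝ} (h0 : 0 ≤ α) (hαβ : α ≤ β)
    (hβ : β ≤ P.a) (K : Finset ℕ) (hK : ∀ k ∈ K, k ≤ P.n ∧ α ≤ P.v k - P.dv k ∧ P.v k ≤ β) :
    ∑ k ∈ K, P.dv k * f k ≤ ∫ v in α..β, f ((ivpM P).idx v) := by
  have hc := ivp_M_ok hP
  rw [IvCells.step_integral_one hc f (show (ivpM P).b0 ≤ α from h0) hαβ (by rw [ivp_M_top hP]; exact hβ)]
  show _ ≤ ∑ k ∈ Finset.range (P.n + 1), (ivpM P).len α β k * f k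
  have hsub : K ⊆ Finset.range (P.n + 1) := fun k hk => Finset.mem_range.2 (Nat.lt_succ_iff.2 (hK k hk).1)
  refine (Finset.sum_le_sum fun k hk => ?_).trans
    (Finset.sum_le_sum_of_subset_of_nonneg hsub fun k _ _ => mul_nonneg (IvCells.len_nonneg hc _ _ k) (hf k))
  obtain ⟨_, h2, h3⟩ := hK k hk
  refine mul_le_mul_of_nonneg_right (le_of_eq ?_) (hf k)
  have hd0 := ivk_dv_nonneg hP k
  have e1 : (ivpM P).b k = P.v k := rfl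
  unfold IvCells.len ivCl
  rw [ivp_M_lft, e1, min_eq_left h3, min_eq_left (by linarith), max_eq_right (by linarith), max_eq_right h2]
  ring

section band

variable {S : SkpS} {J : SkpI Ω m} {cs Czb : ℝ}

/-- left end of the mass cell of the cut `k` -/
theorem l8d7s_v_left (hS : S.Ok) (hJ : J.Ok S) (hX : L8D7X S J cs Czb) {k : ℕ} (hk : k ≤ J.P.n) :
    (l8d7iGrid S J).vz (l8d7iZc J k) = J.P.v k - J.P.dv k := by
  have h1 := l8d7i_vz_sub (S := S) hJ hX (l8d7iZc J k) (l8d7iZc J (k + 1))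
  rw [l8d7i_cell hS hJ hX hk, ← l8d7i_v_eq hS hJ hX k hk] at h1
  linarith

/-- the cuts of a mass band start after `r / (4 Cv)` -/
theorem l8d7s_cell_lo (hS : S.Ok) (hJ : J.Ok S) (hX : L8D7X S J cs Czb) {r : ℝ} (hr : 4 * S.Cv * J.d.zlo ≤ r) {k : ℕ}
    (hk : k < J.nb) (h1 : r ≤ J.P.v k) : r / (4 * S.Cv) ≤ J.zc k := by
  have hCv := hS.Cv
  have hzlo := hJ.wh.zlo0
  obtain ⟨_, _, hδ, _⟩ := l8d7i_delta hS hJ hX
  have a1 := hJ.vhi k hk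
  have a2 : skwR (J.z (k + 1)) ≤ J.zc (k + 1) := l8d7_R_le _
  have a3 := hJ.zmesh k hk
  have a4 : r ≤ S.Cv * J.zc (k + 1) := (h1.trans a1).trans (mul_le_mul_of_nonneg_left a2 (by linarith))
  have a5 : r / S.Cv ≤ J.zc (k + 1) := by rw [div_le_iff₀ (by linarith)]; linarith
  have a6 : 4 * J.d.zlo ≤ r / S.Cv := by rw [le_div_iff₀ (by linarith)]; linarith
  have a7 : r / (4 * S.Cv) = r / S.Cv / 4 := by field_simp
  rw [a7]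
  linarith

/-- the cuts of a mass band end before `2^N r / (4 Cv)` -/
theorem l8d7s_cell_hi (hS : S.Ok) (hJ : J.Ok S) (hX : L8D7X S J cs Czb) {r : ℝ} (hr : 4 * S.Cv * J.d.zlo ≤ r) {k N : ℕ}
    (hN : 16 * Czb * S.Cv ^ 2 ≤ 2 ^ N) (hk : k < J.nb) (h1 : r ≤ J.P.v k) (h2 : J.P.v k ≤ 2 * r) :
    J.zc (k + 1) ≤ 2 ^ N * (r / (4 * S.Cv)) := by
  have hCv := hS.Cv
  have hCz := hX.Czb1
  have hzlo := hJ.wh.zlo0
  obtain ⟨_, _, hδ, _⟩ := l8d7i_delta hS hJ hX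
  have hr0 : 0 < r := lt_of_lt_of_le (by positivity) hr
  have a0 := l8d7s_cell_lo hS hJ hX hr hk h1
  have a1 : J.d.zlo ≤ r / (4 * S.Cv) := by rw [le_div_iff₀ (by positivity)]; linarith
  have a2 := hJ.vlo k hk.le (by show J.d.zlo / 4 ≤ J.zc k; linarith)
  have a3 : skwR (J.z k) ≤ 2 * S.Cv * r := by
    rw [div_le_iff₀ (by linarith)] at a2
    nlinarith
  have a4 := hJ.zmesh k hk
  have e : 2 ^ N * (r / (4 * S.Cv)) = 2 ^ N * r / (4 * S.Cv) := by ring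
  rw [e, le_div_iff₀ (by positivity)]
  have hCv2 : 1 ≤ S.Cv ^ 2 := one_le_pow₀ hCv
  have key : 16 * Czb * S.Cv ^ 2 * r ≤ 2 ^ N * r := mul_le_mul_of_nonneg_right hN hr0.le
  have hδr : J.δ ≤ r := by nlinarith
  rcases le_total (J.zc k) 1 with h | h
  · have a5 : skwR (J.z k) = J.zc k := min_eq_left h
    rw [a5] at a3
    have a6 : J.zc (k + 1) ≤ 3 * S.Cv * r := by nlinarith
    have a7 : J.zc (k + 1) * (4 * S.Cv) ≤ 12 * S.Cv ^ 2 * r := by nlinarith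
    have a8 : 12 * S.Cv ^ 2 * r ≤ 16 * Czb * S.Cv ^ 2 * r := by
      have : 0 ≤ S.Cv ^ 2 * r := by positivity
      nlinarith
    linarith
  · have a5 : skwR (J.z k) = 1 := min_eq_right h
    rw [a5] at a3
    have a6 : J.zc (k + 1) ≤ Czb := (l8d7i_zc_mem hJ hk).2.trans hX.zbufC
    have a7 : J.zc (k + 1) * (4 * S.Cv) ≤ Czb * (4 * S.Cv) * (2 * S.Cv * r) := by
      have b1 : J.zc (k + 1) * (4 * S.Cv) ≤ Czb * (4 * S.Cv) := mul_le_mul_of_nonneg_right a6 (by positivity)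
      have b2 : 0 ≤ Czb * (4 * S.Cv) := by positivity
      nlinarith
    have a8 : Czb * (4 * S.Cv) * (2 * S.Cv * r) = 8 * (Czb * S.Cv ^ 2 * r) := by ring
    have a9 : 0 ≤ Czb * S.Cv ^ 2 * r := by positivity
    have a10 : 16 * Czb * S.Cv ^ 2 * r = 16 * (Czb * S.Cv ^ 2 * r) := by ring
    linarith

/-- **a mass band is covered by `N` dyadic bands of the cut coordinate**; the last cut is kept -/
theorem l8d7s_int_le (hS : S.Ok) (hJ : J.Ok S) (hX : L8D7X S J cs Czb) {f : ℕ → ℝ} (hf : ∀ k, 0 ≤ f k) {r B0 : ℝ}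
    (hr : 4 * S.Cv * J.d.zlo ≤ r) {N : ℕ} (hN : 16 * Czb * S.Cv ^ 2 ≤ 2 ^ N) (hB0 : 0 ≤ B0)
    (hout : ∀ k < J.P.n, r ≤ J.P.v k → J.P.v k ≤ 2 * r → k < J.nb ∧ J.zc (k + 1) ≤ J.zhi)
    (hB : ∀ ρ, r / (4 * S.Cv) ≤ ρ → ρ ≤ J.zhi → ρ ≤ 2 ^ N * (r / (4 * S.Cv)) →
      ∫ v in (l8d7iGrid S J).vz ρ..(l8d7iGrid S J).vz ((l8d7iD S J cs Czb).up ρ), f ((ivpM J.P).idx v) ≤ B0) :
    J.P.int r (2 * r) f ≤ N * B0 + J.P.dv J.P.n * f J.P.n := by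
  classical
  have hD := l8d7i_ok hS hJ hX
  have hP := hJ.sp
  have hCv := hS.Cv
  have hzlo := hJ.wh.zlo0
  have hr0 : 0 < r := lt_of_lt_of_le (by positivity) hr
  set ρ0 := r / (4 * S.Cv) with hρ0
  have hρ00 : 0 < ρ0 := by positivity
  set F := (Finset.range (J.P.n + 1)).filter (fun k => r ≤ J.P.v k ∧ J.P.v k ≤ 2 * r) with hFdef
  set K := F.filter (fun k => k < J.P.n) with hKdef
  have hlast : 0 ≤ J.P.dv J.P.n * f J.P.n := mul_nonneg (ivk_dv_nonneg hP _) (hf _)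
  have hsplit : J.P.int r (2 * r) f ≤ ∑ k ∈ K, J.P.dv k * f k + J.P.dv J.P.n * f J.P.n := by
    show ∑ k ∈ F, J.P.dv k * f k ≤ _
    rw [← Finset.sum_filter_add_sum_filter_not F (fun k => k < J.P.n)]
    refine add_le_add le_rfl ?_
    have hsub : F.filter (fun k => ¬ k < J.P.n) ⊆ {J.P.n} := by
      intro k hk
      obtain ⟨h1, h2⟩ := Finset.mem_filter.1 hk
      have h3 := Finset.mem_range.1 (Finset.mem_filter.1 h1).1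
      exact Finset.mem_singleton.2 (by omega)
    refine (Finset.sum_le_sum_of_subset_of_nonneg hsub fun k _ _ =>
      mul_nonneg (ivk_dv_nonneg hP k) (hf k)).trans ?_
    rw [Finset.sum_singleton]
  refine hsplit.trans (add_le_add ?_ le_rfl)
  have hNB : 0 ≤ (N : ℝ) * B0 := by positivity
  rcases K.eq_empty_or_nonempty with hK0 | ⟨k0, hk0⟩
  · rw [hK0, Finset.sum_empty]; exact hNB
  -- facts on the cuts of `K`
  have hKf : ∀ k ∈ K, k < J.P.n ∧ k < J.nb ∧ ρ0 ≤ J.zc k ∧ J.zc (k + 1) ≤ (l8d7iD S J cs Czb).rho ρ0 N := by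
    intro k hk
    obtain ⟨h1, h2⟩ := Finset.mem_filter.1 hk
    obtain ⟨_, h3, h4⟩ := Finset.mem_filter.1 h1
    obtain ⟨h5, h6⟩ := hout k h2 h3 h4
    exact ⟨h2, h5, l8d7s_cell_lo hS hJ hX hr h5 h3, le_min (l8d7s_cell_hi hS hJ hX hr hN h5 h3 h4) h6⟩
  have hρhi : ρ0 ≤ J.zhi := by
    obtain ⟨_, h2, h3, h4⟩ := hKf k0 hk0
    exact (h3.trans (hJ.zmono (Nat.le_succ k0))).trans (h4.trans (l8d7s_rho_le ρ0 N))
  have hmono := l8d7i_vz_mono (S := S) hJ hX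
  have hchain := l8d7s_chain hD (F := fun v => f ((ivpM J.P).idx v)) (IvCells.step_ii (ivp_M_ok hP) f) hρ00.le hρhi N hB
    N le_rfl
  refine le_trans ?_ hchain
  have hα0 : 0 ≤ (l8d7iGrid S J).vz ρ0 := by
    rw [← l8d7i_vz_zero (S := S) (J := J)]; exact hmono hρ00.le
  have hβa : (l8d7iGrid S J).vz ((l8d7iD S J cs Czb).rho ρ0 N) ≤ J.P.a :=
    (hmono ((l8d7s_rho_le ρ0 N).trans hD.dom_hi)).trans hD.bridge.vz_a
  refine l8d7s_sum_le hP hf hα0 (hmono (l8d7s_rho_ge hρ00.le hρhi N)) hβa K fun k hk => ?_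
  obtain ⟨h1, h2, h3, h4⟩ := hKf k hk
  refine ⟨h1.le, ?_, ?_⟩
  · rw [← l8d7s_v_left hS hJ hX h1.le, l8d7i_zc_le h2.le]; exact hmono h3
  · rw [l8d7i_v_eq hS hJ hX k h1.le, l8d7i_zc_le h2]; exact hmono h4

end band

/-! ## PART 2 : the three lines of (D7), explicit constants -/

section mono

variable {D : L8D7}

theorem l8d7s_KWb_anti (hD : D.Ok) {r0 r1 : ℝ} (h0 : 0 < r0) (h : r0 ≤ r1) : D.KWb r1 ≤ D.KWb r0 := by
  have := l8d7_Lam_one D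
  have := l8d7_A_pos hD
  have := hD.C1
  have := hD.hyp.b0
  have := hD.cutOk.msz_pos
  have := hD.cv0
  have := hD.κ0
  unfold L8D7.KWb
  apply div_le_div_of_nonneg_left (by positivity) (by positivity)
  apply mul_le_mul_of_nonneg_left (pow_le_pow_left₀ h0.le h 3) (by positivity)

theorem l8d7s_Kpb_anti (hD : D.Ok) {r0 r1 : ℝ} (h0 : 0 < r0) (h : r0 ≤ r1) : D.Kpb r1 ≤ D.Kpb r0 := by
  have := l8d7_Lam_one D
  have := hD.cutOk.Cp_nonneg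
  have := hD.cutOk.msz_pos
  have := hD.cv0
  have := hD.κ0
  unfold L8D7.Kpb
  apply div_le_div_of_nonneg_left (by positivity) (by positivity)
  apply mul_le_mul_of_nonneg_left (pow_le_pow_left₀ h0.le h 4) (by positivity)

/-- the bound of (D7b) on a chain of bands which starts at `ρ0 ≤ 1` and ends before `R1` -/
noncomputable def L8D7.BbS (D : L8D7) (n' : ℕ) (ρ0 R1 : ℝ) : ℝ :=
  ((n' : ℝ) + 2) * (D.Mb * R1 * (D.Kpb ρ0 * (4 * D.Lam ^ 2 * D.CS)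
      + 4 * D.A * (D.C / D.d.b) * ((n' : ℝ) * D.Kpb ρ0 + 4 * (R1 / 2 / 2 ^ n'))))
    + D.KWb ρ0 * (D.Mb * R1) / (D.cv * (ρ0 / (2 * D.Lam)))

theorem l8d7s_Bb_le (hD : D.Ok) (n' : ℕ) {ρ0 R1 ρ : ℝ} (h0 : 0 < ρ0) (h1 : ρ0 ≤ skwR ρ) (h2 : ρ ≤ R1) :
    D.Bb n' ρ ≤ D.BbS n' ρ0 R1 := by
  have hΛ := l8d7_Lam_one D
  have hA := l8d7_A_pos hD
  have hC := hD.C1
  have hb := hD.hyp.b0
  have hcv := hD.cv0
  have hCS := l8d7_CS_nonneg hD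
  have hMb := l8d7_Mb_pos hD
  have hr : 0 < skwR ρ := lt_of_lt_of_le h0 h1
  have hrR : skwR ρ ≤ R1 := (l8d7_R_le ρ).trans h2
  have hR1 : 0 < R1 := lt_of_lt_of_le hr hrR
  have hρ : 0 < ρ := lt_of_lt_of_le hr (l8d7_R_le ρ)
  have k1 := l8d7s_Kpb_anti hD h0 h1
  have k2 := l8d7s_KWb_anti hD h0 h1
  have k10 := l8d7_Kpb_nonneg hD hr
  have k20 := (l8d7_KWb_pos hD hr).le
  have k30 := (l8d7_KWb_pos hD h0).le
  have h2n : (0 : ℝ) < 2 ^ n' := by positivity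
  unfold L8D7.Bb L8D7.BbS
  have t1 : D.Kpb (skwR ρ) * (4 * D.Lam ^ 2 * D.CS)
      + 4 * D.A * (D.C / D.d.b) * ((n' : ℝ) * D.Kpb (skwR ρ) + 4 * (ρ / 2 / 2 ^ n'))
      ≤ D.Kpb ρ0 * (4 * D.Lam ^ 2 * D.CS) + 4 * D.A * (D.C / D.d.b) * ((n' : ℝ) * D.Kpb ρ0 + 4 * (R1 / 2 / 2 ^ n')) := by
    gcongr
  have t10 : 0 ≤ D.Kpb (skwR ρ) * (4 * D.Lam ^ 2 * D.CS)
      + 4 * D.A * (D.C / D.d.b) * ((n' : ℝ) * D.Kpb (skwR ρ) + 4 * (ρ / 2 / 2 ^ n')) := by positivity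
  have t2 : D.Mb * skwR ρ * (D.Kpb (skwR ρ) * (4 * D.Lam ^ 2 * D.CS)
      + 4 * D.A * (D.C / D.d.b) * ((n' : ℝ) * D.Kpb (skwR ρ) + 4 * (ρ / 2 / 2 ^ n')))
      ≤ D.Mb * R1 * (D.Kpb ρ0 * (4 * D.Lam ^ 2 * D.CS)
        + 4 * D.A * (D.C / D.d.b) * ((n' : ℝ) * D.Kpb ρ0 + 4 * (R1 / 2 / 2 ^ n'))) :=
    mul_le_mul (mul_le_mul_of_nonneg_left hrR hMb.le) t1 t10 (by positivity)
  have t3 : D.KWb (skwR ρ) * (D.Mb * skwR ρ) / (D.cv * (skwR ρ / (2 * D.Lam)))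
      ≤ D.KWb ρ0 * (D.Mb * R1) / (D.cv * (ρ0 / (2 * D.Lam))) := by
    apply div_le_div₀ (by positivity) _ (by positivity) (by gcongr)
    exact mul_le_mul k2 (mul_le_mul_of_nonneg_left hrR hMb.le) (by positivity) k30
  exact add_le_add (mul_le_mul_of_nonneg_left t2 (by positivity)) t3

end mono

section lines

variable {S : SkpS} {J : SkpI Ω m} {cs Czb : ℝ}

/-- facts on a band of the chain -/
theorem l8d7s_band (hS : S.Ok) (hJ : J.Ok S) {r ρ : ℝ} (hr : 4 * S.Cv * J.d.zlo ≤ r) (hr4 : r ≤ 4)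
    (h1 : r / (4 * S.Cv) ≤ ρ) :
    0 < r / (4 * S.Cv) ∧ J.d.zlo ≤ r / (4 * S.Cv) ∧ J.d.zlo ≤ ρ ∧ r / (4 * S.Cv) ≤ skwR ρ := by
  have hCv := hS.Cv
  have hzlo := hJ.wh.zlo0
  have hr0 : 0 < r := lt_of_lt_of_le (by positivity) hr
  have a1 : J.d.zlo ≤ r / (4 * S.Cv) := by rw [le_div_iff₀ (by positivity)]; linarith
  have a2 : r / (4 * S.Cv) ≤ 1 := by rw [div_le_one (by positivity)]; linarith
  exact ⟨by positivity, a1, a1.trans h1, le_min h1 a2⟩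

/-- TEX[LL:lem:statistics-integrated] TEX[LL:eq:D7] **(D7), first line, `k = 0`, on the cuts of a mass band** -/
theorem l8d7s_W0 (hS : S.Ok) (hJ : J.Ok S) (hX : L8D7X S J cs Czb) {r : ℝ} (hr : 4 * S.Cv * J.d.zlo ≤ r) (hr4 : r ≤ 4)
    {N : ℕ} (hN : 16 * Czb * S.Cv ^ 2 ≤ 2 ^ N)
    (hout : ∀ k < J.P.n, r ≤ J.P.v k → J.P.v k ≤ 2 * r → k < J.nb ∧ J.zc (k + 1) ≤ J.zhi) :
    J.P.int r (2 * r) (fun k => ∫ ω, J.P.W k ω ∂J.P.μ)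
      ≤ N * ((l8d7iD S J cs Czb).KWb (r / (4 * S.Cv)) * ((l8d7iD S J cs Czb).Mb * (2 ^ N * (r / (4 * S.Cv)))))
        + J.P.dv J.P.n * ∫ ω, J.P.W J.P.n ω ∂J.P.μ := by
  have hD := l8d7i_ok hS hJ hX
  obtain ⟨hρ0, _, _, _⟩ := l8d7s_band hS hJ hr hr4 le_rfl
  have hMb := l8d7_Mb_pos hD
  have hK0 := (l8d7_KWb_pos hD hρ0).le
  refine l8d7s_int_le hS hJ hX (fun k => ivk_int_W_nonneg hJ.sp k) hr hN (by positivity) hout fun ρ h1 h2 h3 => ?_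
  obtain ⟨_, _, hzρ, hRρ⟩ := l8d7s_band hS hJ hr hr4 h1
  refine (l8d7_a0_mass hD hzρ h2).trans ?_
  have hr' : 0 < skwR ρ := lt_of_lt_of_le hρ0 hRρ
  exact mul_le_mul (l8d7s_KWb_anti hD hρ0 hRρ)
    (mul_le_mul_of_nonneg_left ((l8d7_R_le ρ).trans h3) hMb.le) (by positivity) hK0

/-- the envelope at two points within one mesh -/
theorem l8d7s_env_near (hS : S.Ok) (hJ : J.Ok S) (hX : L8D7X S J cs Czb) {z z' : ℝ} (hz : z ∈ Icc J.d.zlo J.zhi)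
    (hz' : z' ∈ Icc (J.d.zlo / 2) J.zbuf) (h : |z - z'| ≤ J.δ) :
    0 ≤ skwE J.d J.hh z' ∧ skwE J.d J.hh z' ≤ 2 * S.CW * skwE J.d J.hh z := by
  have hD := l8d7i_ok hS hJ hX
  have hCW := hS.CW
  have hzlo := hJ.wh.zlo0
  have hδ := hJ.δ0
  have hZ := hJ.wh.Z1
  have hzm : z ∈ Icc (J.d.zlo / 2) J.zbuf := ⟨by linarith [hz.1], hz.2.trans hX.zhibuf⟩
  have hmesh : J.δ ≤ J.hh z / S.CW := hD.mesh z hz
  have hh0 : 0 < J.hh z := by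
    have : 0 < J.hh z / S.CW := lt_of_lt_of_le hδ hmesh
    by_contra hc
    have := div_nonpos_of_nonpos_of_nonneg (not_lt.1 hc) (by linarith : (0 : ℝ) ≤ S.CW)
    linarith
  have hmesh' : J.δ ≤ J.hh z := hmesh.trans (div_le_self hh0.le hCW)
  have a1 := hJ.wc.qlip z hzm z' hz'
  have a2 : J.hh z' ≤ 2 * S.CW * J.hh z := by
    calc J.hh z' ≤ S.CW * (J.hh z + |z - z'|) := a1
      _ ≤ S.CW * (J.hh z + J.hh z) := by gcongr; exact h.trans hmesh'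
      _ = _ := by ring
  have hz'0 : 0 < z' := by linarith [hz'.1]
  have hR' := l8d7_R_pos hz'0
  have a3 : 0 ≤ J.hh z' := by
    have b1 := hJ.wc.lower z' hz'
    have hb := hJ.wh.b0
    have hU : 0 < J.d.U := lt_of_lt_of_le hJ.wh.x0 hJ.wh.xU
    have : 0 ≤ min (J.d.b * skwR z') (J.d.U ^ 2 / skwR z') / S.CW := by positivity
    linarith
  have a4 : skwR z' ≤ 2 * skwR z := by
    have b1 : z' ≤ z + J.δ := by have := (abs_le.1 h).1; linarith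
    have b2 := (l8d7i_R_lo hS hJ hX hzm.1).1
    exact (l8d7_R_mono b1).trans ((l8d7i_R_add_le hδ.le).trans (by linarith))
  have hR := l8d7_R_pos (lt_of_lt_of_le hzlo hz.1)
  refine ⟨le_min hR'.le (by positivity), ?_⟩
  unfold skwE
  rw [mul_min_of_nonneg _ _ (by positivity : (0 : ℝ) ≤ 2 * S.CW)]
  refine le_min ((min_le_left _ _).trans (a4.trans ?_)) ((min_le_right _ _).trans ?_)
  · nlinarith
  · calc J.d.Z ^ 2 * J.hh z' ≤ J.d.Z ^ 2 * (2 * S.CW * J.hh z) := by gcongr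
      _ = _ := by ring

/-- TEX[LL:lem:statistics-integrated] TEX[LL:eq:D7] **(D7), first line, `k + 1 ≥ 1`, on the cuts of a mass band**: weights `w i ≤ Mw e(ζ i)^(2(k+1))`, `ζ i` = any point of the cell of the cut `i` -/
theorem l8d7s_W (hS : S.Ok) (hJ : J.Ok S) (hX : L8D7X S J cs Czb) (k : ℕ) {w ζ : ℕ → ℝ} {Mw : ℝ} (hw0 : ∀ i, 0 ≤ w i)
    (hMw : 0 ≤ Mw) (hζ : ∀ i < J.nb, J.zc i ≤ ζ i ∧ ζ i ≤ J.zc (i + 1))
    (hw : ∀ i < J.nb, J.d.zlo / 2 ≤ ζ i → w i ≤ Mw * skwE J.d J.hh (ζ i) ^ (2 * (k + 1)))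
    {r : ℝ} (hr : 4 * S.Cv * J.d.zlo ≤ r) (hr4 : r ≤ 4) {N : ℕ} (hN : 16 * Czb * S.Cv ^ 2 ≤ 2 ^ N)
    (hout : ∀ k < J.P.n, r ≤ J.P.v k → J.P.v k ≤ 2 * r → k < J.nb ∧ J.zc (k + 1) ≤ J.zhi) :
    J.P.int r (2 * r) (fun i => (∫ ω, J.P.W i ω ∂J.P.μ) * w i)
      ≤ N * ((l8d7iD S J cs Czb).KWb (r / (4 * S.Cv)) * (Mw * (2 * S.CW) ^ (2 * (k + 1)) *
          ((l8d7iD S J cs Czb).Kw k * skwL J.d * (2 ^ N * (r / (4 * S.Cv))) ^ (2 * k) * (J.d.U * J.d.Z) ^ 4 / (r / (4 * S.Cv)))))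
        + J.P.dv J.P.n * ((∫ ω, J.P.W J.P.n ω ∂J.P.μ) * w J.P.n) := by
  have hD := l8d7i_ok hS hJ hX
  have hg := l8d7i_grid_ok hS hJ hX
  have hCW := hS.CW
  have hzlo := hJ.wh.zlo0
  obtain ⟨_, _, hδ, _⟩ := l8d7i_delta hS hJ hX
  obtain ⟨hρ0, _, _, _⟩ := l8d7s_band hS hJ hr hr4 le_rfl
  have hK0 := (l8d7_KWb_pos hD hρ0).le
  have hKw := l8d7_Kw_nonneg hD k
  have hL : 0 ≤ skwL J.d := by have := l8d7_L_one hD; exact le_trans zero_le_one this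
  have hU : 0 < J.d.U := lt_of_lt_of_le hJ.wh.x0 hJ.wh.xU
  have hZ := hJ.wh.Z1
  set Mφ := Mw * (2 * S.CW) ^ (2 * (k + 1)) with hMφ
  have hMφ0 : 0 ≤ Mφ := by positivity
  -- the weight as a function of the cut coordinate
  obtain ⟨Cφ, hφ⟩ := ivp_step_bdd (ivp_Z_ok hg) (f := w) hw0
  have hφe : ∀ z ∈ Icc J.d.zlo J.zhi, w ((l8d7iCells J).idx z) ≤ Mφ * skwE J.d J.hh z ^ (2 * (k + 1)) := by
    intro z hz
    obtain ⟨a1, a2, a3⟩ := l8d7i_idx hS hJ (lt_of_lt_of_le hzlo hz.1) (hz.2.trans hX.zhibuf)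
    set i := (l8d7iCells J).idx z with hi
    obtain ⟨b1, b2⟩ := hζ i a1
    have hm := hJ.zmesh i a1
    have c1 : |z - ζ i| ≤ J.δ := abs_le.2 ⟨by linarith, by linarith⟩
    have c2 : ζ i ∈ Icc (J.d.zlo / 2) J.zbuf := ⟨by linarith [hz.1], b2.trans (l8d7i_zc_mem hJ a1).2⟩
    obtain ⟨d1, d2⟩ := l8d7s_env_near hS hJ hX hz c2 c1
    calc w i ≤ Mw * skwE J.d J.hh (ζ i) ^ (2 * (k + 1)) := hw i a1 c2.1
      _ ≤ Mw * (2 * S.CW * skwE J.d J.hh z) ^ (2 * (k + 1)) := by gcongr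
      _ = _ := by rw [hMφ, mul_pow]; ring
  refine l8d7s_int_le hS hJ hX (fun i => mul_nonneg (ivk_int_W_nonneg hJ.sp i) (hw0 i)) hr hN (by positivity) hout
    fun ρ h1 h2 h3 => ?_
  obtain ⟨_, _, hzρ, hRρ⟩ := l8d7s_band hS hJ hr hr4 h1
  have hr' : 0 < skwR ρ := lt_of_lt_of_le hρ0 hRρ
  have hup : ρ ≤ (l8d7iD S J cs Czb).up ρ := le_min (by linarith) h2
  have hch := ivp_change hJ.sp hg (fun i => (∫ ω, J.P.W i ω ∂J.P.μ) * w i) (z1 := ρ) (z2 := (l8d7iD S J cs Czb).up ρ)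
    (by show l8d7iZc J 0 ≤ ρ; rw [l8d7i_zc_zero hJ]; linarith) hup ((l8d7_up_le' _ ρ).trans hD.dom_hi)
  rw [hch]
  have hmain := l8d7_w hD k hφ hMφ0 hφe hzρ h2
  have e : ∫ z in ρ..(l8d7iD S J cs Czb).up ρ,
        (fun i => (∫ ω, J.P.W i ω ∂J.P.μ) * w i) ((ivpZ J.P (l8d7iGrid S J)).idx z) * (l8d7iGrid S J).G z
      = ∫ z in ρ..(l8d7iD S J cs Czb).up ρ, (l8d7iD S J cs Czb).cut.EWZ z * (l8d7iD S J cs Czb).cut.G z
          * w ((ivpZ J.P (l8d7iGrid S J)).idx z) := by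
    refine intervalIntegral.integral_congr fun z _ => ?_
    show (∫ ω, J.P.W ((ivpZ J.P (l8d7iGrid S J)).idx z) ω ∂J.P.μ) * w ((ivpZ J.P (l8d7iGrid S J)).idx z) * (l8d7iGrid S J).G z
      = (∫ ω, J.P.W ((ivpZ J.P (l8d7iGrid S J)).idx z) ω ∂J.P.μ) * (l8d7iGrid S J).G z * w ((ivpZ J.P (l8d7iGrid S J)).idx z)
    ring
  rw [e]
  refine hmain.trans ?_
  have hRR : skwR ρ ≤ 2 ^ N * (r / (4 * S.Cv)) := (l8d7_R_le ρ).trans h3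
  have t1 : (l8d7iD S J cs Czb).Kw k * skwL J.d * skwR ρ ^ (2 * k) * (J.d.U * J.d.Z) ^ 4 / skwR ρ
      ≤ (l8d7iD S J cs Czb).Kw k * skwL J.d * (2 ^ N * (r / (4 * S.Cv))) ^ (2 * k) * (J.d.U * J.d.Z) ^ 4 / (r / (4 * S.Cv)) := by
    apply div_le_div₀ (by positivity) _ hρ0 hRρ
    gcongr
  exact mul_le_mul (l8d7s_KWb_anti hD hρ0 hRρ) (mul_le_mul_of_nonneg_left t1 hMφ0) (by positivity) hK0

/-- TEX[LL:lem:statistics-integrated] TEX[LL:eq:D7] **(D7), second line, on the cuts of a mass band** -/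
theorem l8d7s_C (hS : S.Ok) (hJ : J.Ok S) (hX : L8D7X S J cs Czb) (n' : ℕ) {r : ℝ} (hr : 4 * S.Cv * J.d.zlo ≤ r) (hr4 : r ≤ 4)
    {N : ℕ} (hN : 16 * Czb * S.Cv ^ 2 ≤ 2 ^ N)
    (hout : ∀ k < J.P.n, r ≤ J.P.v k → J.P.v k ≤ 2 * r → k < J.nb ∧ J.zc (k + 1) ≤ J.zhi)
    (hη : 2 * J.lowb + 2 * l8d7iK0 S J * J.δ < l8d7iK0 S J * (r / (4 * S.Cv) / (2 * (l8d7iD S J cs Czb).Lam)) ^ 2
      * (r / (4 * S.Cv) / (2 * (l8d7iD S J cs Czb).Lam) / 2 ^ n')) :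
    J.P.int r (2 * r) (fun k => (∫ ω, J.P.xCx k ω ∂J.P.μ) + ∫ ω, J.P.trC2 k ω ∂J.P.μ)
      ≤ N * (l8d7iD S J cs Czb).BbS n' (r / (4 * S.Cv)) (2 ^ N * (r / (4 * S.Cv)))
        + J.P.dv J.P.n * ((∫ ω, J.P.xCx J.P.n ω ∂J.P.μ) + ∫ ω, J.P.trC2 J.P.n ω ∂J.P.μ) := by
  have hD := l8d7i_ok hS hJ hX
  have hΛ := l8d7_Lam_one (l8d7iD S J cs Czb)
  obtain ⟨hρ0, hzρ0, _, hR0⟩ := l8d7s_band hS hJ hr hr4 le_rfl
  have h2N : (1 : ℝ) ≤ 2 ^ N := one_le_pow₀ (by norm_num)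
  have hB0 : 0 ≤ (l8d7iD S J cs Czb).BbS n' (r / (4 * S.Cv)) (2 ^ N * (r / (4 * S.Cv))) :=
    (l8d7_Bb_nonneg hD n' hρ0).trans (l8d7s_Bb_le hD n' hρ0 hR0 (by nlinarith))
  refine l8d7s_int_le hS hJ hX (fun k => add_nonneg (integral_nonneg (ivk_xCx_nonneg hJ.sp k))
    (integral_nonneg (ivk_trC2_nonneg k))) hr hN hB0 hout fun ρ h1 h2 h3 => ?_
  obtain ⟨_, _, hzρ, hRρ⟩ := l8d7s_band hS hJ hr hr4 h1
  have hK := l8d7i_K0_pos hS hJ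
  have hη' : (l8d7iD S J cs Czb).cut.η < (l8d7iD S J cs Czb).κ0 * (skwR ρ / (2 * (l8d7iD S J cs Czb).Lam)) ^ 2
      * (ρ / (2 * (l8d7iD S J cs Czb).Lam) / 2 ^ n') := by
    refine lt_of_lt_of_le hη ?_
    show l8d7iK0 S J * _ * _ ≤ l8d7iK0 S J * _ * _
    gcongr
  exact (l8d7_b hD n' hzρ h2 hη').trans (l8d7s_Bb_le hD n' hρ0 hRρ h3)

/-- the cut of a mass inside a band of the chain -/
theorem l8d7s_raw_idx (hS : S.Ok) (hJ : J.Ok S) (hX : L8D7X S J cs Czb) {ρ v : ℝ} (hzρ : J.d.zlo ≤ skwR ρ) (_h2 : ρ ≤ J.zhi)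
    (hv : v ∈ Ioo ((l8d7iGrid S J).vz ρ) ((l8d7iGrid S J).vz ((l8d7iD S J cs Czb).up ρ))) :
    (ivpM J.P).idx v ≤ J.nb ∧ skwR (J.z ((ivpM J.P).idx v)) + J.d.zlo ≤ 3 * skwR ρ := by
  have hD := l8d7i_ok hS hJ hX
  have hP := hJ.sp
  have hzlo := hJ.wh.zlo0
  have hρ : 0 < ρ := lt_of_lt_of_le (lt_of_lt_of_le hzlo hzρ) (l8d7_R_le ρ)
  have hmono := l8d7i_vz_mono (S := S) hJ hX
  have h0 : 0 ≤ (l8d7iGrid S J).vz ρ := by
    rw [← l8d7i_vz_zero (S := S) (J := J)]; exact hmono hρ.le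
  have hup : (l8d7iD S J cs Czb).up ρ ≤ J.zhi := l8d7_up_le' _ ρ
  have ha : (l8d7iGrid S J).vz ((l8d7iD S J cs Czb).up ρ) ≤ J.P.a := (hmono (hup.trans hD.dom_hi)).trans hD.bridge.vz_a
  obtain ⟨a1, _, a3⟩ := ivs_cell hP (lt_of_le_of_lt h0 hv.1) (hv.2.le.trans ha)
  set k := (ivpM J.P).idx v with hk
  rw [← l8d7s_v_left hS hJ hX a1] at a3
  have a4 : l8d7iZc J k < (l8d7iD S J cs Czb).up ρ := by
    by_contra hc
    have := hmono (not_lt.1 hc)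
    linarith [hv.2]
  have a5 : k ≤ J.nb := by
    by_contra hc
    have b1 : J.zbuf ≤ l8d7iZc J k := by rw [← l8d7i_zc_nb hJ]; exact l8d7i_zc_mono hJ (not_le.1 hc).le
    linarith [hX.zhibuf]
  refine ⟨a5, ?_⟩
  rw [l8d7i_zc_le a5] at a4
  have a6 : skwR (J.z k) ≤ 2 * skwR ρ :=
    (l8d7_R_mono (a4.le.trans (l8d7_up_le _ ρ))).trans (l8d7_R_mul_le (by norm_num) hρ.le)
  linarith

/-- TEX[LL:lem:statistics-integrated] TEX[LL:eq:D7] **(D7), last line, on the cuts of a mass band**; `B` = the constant of (D2), first line, orders `|X|⁴`, `Q²` -/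
theorem l8d7s_D (hS : S.Ok) (hJ : J.Ok S) (hX : L8D7X S J cs Czb) {B : ℝ} (hB : 0 ≤ B)
    (hraw : ∀ k ≤ J.nb, ∫ ω, J.P.nX k ω ^ 2 ∂J.P.μ ≤ (B * (skwR (J.z k) + J.d.zlo)) ^ 2 ∧
      ∫ η, J.P.Q η ^ 2 ∂(J.P.fork k) ≤ (B * (skwR (J.z k) + J.d.zlo)) ^ 2)
    {r : ℝ} (hr : 4 * S.Cv * J.d.zlo ≤ r) (hr4 : r ≤ 4) {N : ℕ} (hN : 16 * Czb * S.Cv ^ 2 ≤ 2 ^ N)
    (hout : ∀ k < J.P.n, r ≤ J.P.v k → J.P.v k ≤ 2 * r → k < J.nb ∧ J.zc (k + 1) ≤ J.zhi) :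
    J.P.int r (2 * r) J.P.D2
      ≤ N * ((6 + 16 * S.K.cA1 1 + 3 * Real.sqrt (2 * (2 * S.Cv) / (1 / (2 * S.Cv)))) *
          ((3 * B + 2 * (S.c.Cf + S.Cq)) * (2 ^ N * (r / (4 * S.Cv))) *
            Real.sqrt ((l8d7iD S J cs Czb).KWb (r / (4 * S.Cv)) * ((l8d7iD S J cs Czb).Mb * (2 ^ N * (r / (4 * S.Cv)))))))
        + J.P.dv J.P.n * J.P.D2 J.P.n := by
  have hD := l8d7i_ok hS hJ hX
  have hg := l8d7i_grid_ok hS hJ hX
  have hP := hJ.sp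
  have hzlo := hJ.wh.zlo0
  have hCS : 0 ≤ S.c.Cf + S.Cq := l8d7_CS_nonneg hD
  have hc0 : (0 : ℝ) ≤ S.K.cA1 1 := by linarith [hS.cA1 1]
  obtain ⟨hρ0, hzρ0, _, _⟩ := l8d7s_band hS hJ hr hr4 le_rfl
  have hMb := l8d7_Mb_pos hD
  have hK0 := (l8d7_KWb_pos hD hρ0).le
  refine l8d7s_int_le hS hJ hX (fun k => ivs_D2_nonneg hP k) hr hN (by positivity) hout fun ρ h1 h2 h3 => ?_
  obtain ⟨_, _, hzρ, hRρ⟩ := l8d7s_band hS hJ hr hr4 h1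
  have hr' : 0 < skwR ρ := lt_of_lt_of_le hρ0 hRρ
  have hρ : 0 < ρ := lt_of_lt_of_le hr' (l8d7_R_le ρ)
  set R := (3 * B + 2 * (S.c.Cf + S.Cq)) * skwR ρ with hR
  have hR0 : 0 ≤ R := by positivity
  have hsq : ∀ v ∈ Ioo ((l8d7iGrid S J).vz ρ) ((l8d7iGrid S J).vz ((l8d7iD S J cs Czb).up ρ)),
      (ivpM J.P).idx v ≤ J.nb ∧ (B * (skwR (J.z ((ivpM J.P).idx v)) + J.d.zlo)) ^ 2 ≤ R ^ 2 := by
    intro v hv
    obtain ⟨a1, a2⟩ := l8d7s_raw_idx hS hJ hX (hzρ0.trans hRρ) h2 hv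
    refine ⟨a1, pow_le_pow_left₀ ?_ ?_ 2⟩
    · have : 0 ≤ skwR (J.z ((ivpM J.P).idx v)) := l8d7i_R_nonneg (l8d7i_zc_mem hJ a1).1
      positivity
    · calc B * (skwR (J.z ((ivpM J.P).idx v)) + J.d.zlo) ≤ B * (3 * skwR ρ) := mul_le_mul_of_nonneg_left a2 hB
        _ ≤ R := by rw [hR]; nlinarith
  have hM4 : ∀ v ∈ Ioo ((l8d7iGrid S J).vz ρ) ((l8d7iGrid S J).vz ((l8d7iD S J cs Czb).up ρ)),
      ∫ ω, J.P.nX ((ivpM J.P).idx v) ω ^ 2 ∂J.P.μ ≤ R ^ 2 := fun v hv =>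
    ((hraw _ (hsq v hv).1).1).trans (hsq v hv).2
  have hmain := l8d7_c hD (R := R) hzρ h2
    (fun v hv => by
      show ivkVar J.P ((ivpM J.P).idx v) ≤ R ^ 2
      rw [ivk_Var_eq hP]
      have := hM4 v hv
      nlinarith [sq_nonneg (J.P.S ((ivpM J.P).idx v))])
    (by
      show J.P.S ((ivpM J.P).idx ((l8d7iGrid S J).vz ((l8d7iD S J cs Czb).up ρ)))
        - J.P.S ((ivpM J.P).idx ((l8d7iGrid S J).vz ρ)) ≤ R
      have hupm : (l8d7iD S J cs Czb).up ρ ∈ Icc (J.d.zlo / 2) J.zbuf :=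
        ⟨by have : ρ ≤ (l8d7iD S J cs Czb).up ρ := le_min (by linarith) h2
            linarith, (l8d7_up_le' _ ρ).trans hX.zhibuf⟩
      have b1 : (ivpM J.P).idx ((l8d7iGrid S J).vz ((l8d7iD S J cs Czb).up ρ))
          ≤ (ivpZ J.P (l8d7iGrid S J)).idx ((l8d7iD S J cs Czb).up ρ) :=
        IvCells.idx_le (c := ivpM J.P) (ivp_vz_le hg ((l8d7_up_le' _ ρ).trans hD.dom_hi))
      have b2 := ivk_S_mono hP b1
      have b3 : J.P.S ((ivpZ J.P (l8d7iGrid S J)).idx ((l8d7iD S J cs Czb).up ρ)) ≤ J.d.S ((l8d7iD S J cs Czb).up ρ) :=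
        hD.SZ_le _ hupm
      have b4 : J.d.S ((l8d7iD S J cs Czb).up ρ) ≤ (S.c.Cf + S.Cq) * skwR ((l8d7iD S J cs Czb).up ρ) := hD.Sr _ hupm
      have b5 : skwR ((l8d7iD S J cs Czb).up ρ) ≤ 2 * skwR ρ :=
        (l8d7_R_mono (l8d7_up_le _ ρ)).trans (l8d7_R_mul_le (by norm_num) hρ.le)
      have b6 := ivk_S_nonneg (P := J.P) ((ivpM J.P).idx ((l8d7iGrid S J).vz ρ))
      have b7 : (S.c.Cf + S.Cq) * skwR ((l8d7iD S J cs Czb).up ρ) ≤ (S.c.Cf + S.Cq) * (2 * skwR ρ) :=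
        mul_le_mul_of_nonneg_left b5 hCS
      have b8 : (S.c.Cf + S.Cq) * (2 * skwR ρ) ≤ R := by rw [hR]; nlinarith
      linarith)
    hM4
    (fun v hv => by
      show ∫ ω, J.P.trC2 ((ivpM J.P).idx v) ω ∂J.P.μ ≤ R ^ 2
      set k := (ivpM J.P).idx v with hk
      have c1 := ivk_D2_eq hP k
      have c2 : 0 ≤ ivkVar J.P k := integral_nonneg fun _ => sq_nonneg _
      have c3 : 0 ≤ ∫ ω, J.P.xCx k ω ∂J.P.μ := integral_nonneg (ivk_xCx_nonneg hP k)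
      have c4 : J.P.D2 k ≤ J.P.B k := by unfold L8P.D2; nlinarith [sq_nonneg (J.P.S k)]
      have c5 := ((hraw _ (hsq v hv).1).2).trans (hsq v hv).2
      rw [J.P.l8s_fork_Q_sq hP] at c5
      linarith)
  refine le_trans hmain ?_
  show (6 + 16 * S.K.cA1 1 + 3 * Real.sqrt (2 * (2 * S.Cv) / (1 / (2 * S.Cv)))) *
      (R * Real.sqrt ((l8d7iD S J cs Czb).KWb (skwR ρ) * ((l8d7iD S J cs Czb).Mb * skwR ρ))) ≤ _
  have hRR : skwR ρ ≤ 2 ^ N * (r / (4 * S.Cv)) := (l8d7_R_le ρ).trans h3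
  have t1 : (l8d7iD S J cs Czb).KWb (skwR ρ) * ((l8d7iD S J cs Czb).Mb * skwR ρ)
      ≤ (l8d7iD S J cs Czb).KWb (r / (4 * S.Cv)) * ((l8d7iD S J cs Czb).Mb * (2 ^ N * (r / (4 * S.Cv)))) :=
    mul_le_mul (l8d7s_KWb_anti hD hρ0 hRρ) (mul_le_mul_of_nonneg_left hRR hMb.le) (by positivity) hK0
  have t2 : R ≤ (3 * B + 2 * (S.c.Cf + S.Cq)) * (2 ^ N * (r / (4 * S.Cv))) :=
    mul_le_mul_of_nonneg_left hRR (by positivity)
  apply mul_le_mul_of_nonneg_left _ (by positivity)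
  exact mul_le_mul t2 (Real.sqrt_le_sqrt t1) (Real.sqrt_nonneg _) (by positivity)

end lines

end Claimed.Agent.R286
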