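import Mathlib

/-!
Row 286, LL 08-statistics l.631-1000 (units IV + PC, architect helper228).   CONTRACTS (Mathlib only).
Each `def L11_<name> : Prop` is to be proved as `theorem l11_<name> : L11_<name>` in `L08/L11CtrP.lean`.
* TRUNC, POLYDER, LEVEL, MARKOV : the truncation step of (D10) and the Hoelder-free transfer to the tilted law.
* AR1 .. AR7 : the scale arithmetic of (D9), Lemma coarse/switch (real powers; `x, lam ∈ (0,1]`).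
-/

set_option autoImplicit false
open MeasureTheory
open scoped BigOperators

namespace Claimed.Agent.R286

/-- TRUNC: `E[F(ξ) W] ≤ q1 E W + q2 Wmax P(|ξ| > θ)`. -/
def L11_trunc : Prop :=
  ∀ (Ω : Type) [MeasurableSpace Ω] (μ : Measure Ω) [IsProbabilityMeasure μ] (ξ W : Ω → ℝ) (F : ℝ → ℝ)
    (Wmax θ q1 q2 δ : ℝ),
    Measurable ξ → Measurable W → Measurable F → (∀ ω, 0 ≤ W ω) → (∀ ω, W ω ≤ Wmax) →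
    (∀ t, 0 ≤ F t) → 0 ≤ q1 → (∀ t, |t| ≤ θ → F t ≤ q1) → (∀ ω, F (ξ ω) ≤ q2) →
    μ.real {ω | θ < |ξ ω|} ≤ δ →
    ∫ ω, F (ξ ω) * W ω ∂μ ≤ q1 * ∫ ω, W ω ∂μ + q2 * Wmax * δ

/-- MARKOV with an even moment: `P(|ξ| > T e) ≤ (M/T)^(2r)` if `E ξ^(2r) ≤ (M e)^(2r)`. -/
def L11_markov : Prop :=
  ∀ (Ω : Type) [MeasurableSpace Ω] (μ : Measure Ω) [IsProbabilityMeasure μ] (ξ : Ω → ℝ) (r : ℕ)
    (M T e : ℝ), Measurable ξ → Integrable (fun ω => ξ ω ^ (2 * r)) μ → 0 < e → 0 < T → 0 ≤ M →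
    ∫ ω, ξ ω ^ (2 * r) ∂μ ≤ (M * e) ^ (2 * r) →
    μ.real {ω | T * e < |ξ ω|} ≤ (M / T) ^ (2 * r)

/-- POLYDER: derivative of a polynomial of degree `≤ j` whose coefficient of degree `i` is `≤ C e^(j-i)`. -/
def L11_polyder : Prop :=
  ∀ (p : Polynomial ℝ) (j : ℕ) (C e T t : ℝ), 1 ≤ j → p.natDegree ≤ j → 0 ≤ C → 0 ≤ e → 1 ≤ T →
    (∀ i ≤ j, |p.coeff i| ≤ C * e ^ (j - i)) → |t| ≤ T * e →
    |p.derivative.eval t| ≤ C * (j : ℝ) ^ 2 * T ^ (j - 1) * e ^ (j - 1)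

/-- LEVEL: pointwise inequality behind the transfer `E[R F] ≤ Λ E F + M E R^k / Λ^(k-1)`. -/
def L11_level : Prop :=
  ∀ (R Λ : ℝ) (k : ℕ), 1 ≤ k → 0 ≤ R → 0 < Λ → R ≤ Λ + R ^ k / Λ ^ (k - 1)

/-- TRANSFER: `E[R F] ≤ Λ E F + M E R^k / Λ^(k-1)` for `0 ≤ F ≤ M`, `R ≥ 0`. -/
def L11_transfer : Prop :=
  ∀ (Ω : Type) [MeasurableSpace Ω] (μ : Measure Ω) [IsProbabilityMeasure μ] (R F : Ω → ℝ) (k : ℕ)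
    (Λ M : ℝ), 1 ≤ k → 0 < Λ → Measurable R → Measurable F → (∀ ω, 0 ≤ R ω) → (∀ ω, 0 ≤ F ω) →
    (∀ ω, F ω ≤ M) → Integrable (fun ω => R ω ^ k) μ →
    ∫ ω, R ω * F ω ∂μ ≤ Λ * ∫ ω, F ω ∂μ + M * (∫ ω, R ω ^ k ∂μ) / Λ ^ (k - 1)

/-! ### scale arithmetic.  `U = min 1 (x lam^(-s/2))`, `lam1 = lam^(1+η)`. -/

/-- low scale `U` of (P1) -/
noncomputable def l11U (x lam s : ℝ) : ℝ := min 1 (x * lam ^ (-(s / 2)))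

/-- `λ₁ = λ^(1+η)` -/
noncomputable def l11lam1 (lam η : ℝ) : ℝ := lam ^ (1 + η)

/-- `z_r^0 = x³ / (√λ₁ r³)` -/
noncomputable def l11z0 (x lam η r : ℝ) : ℝ := x ^ 3 / (Real.sqrt (l11lam1 lam η) * r ^ 3)

/-- `e₁ = x³ / (√λ₁ U^(3/2))` -/
noncomputable def l11e1 (x lam s η : ℝ) : ℝ :=
  x ^ 3 / (Real.sqrt (l11lam1 lam η) * l11U x lam s ^ (3 / 2 : ℝ))

/-- `ε_w = x³ √Y / (√λ₁ max(w,U)^(3/2))`, `Y = U Z` -/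
noncomputable def l11epsw (x lam s η Z w : ℝ) : ℝ :=
  x ^ 3 * Real.sqrt (l11U x lam s * Z) / (Real.sqrt (l11lam1 lam η) * max w (l11U x lam s) ^ (3 / 2 : ℝ))

/-- AR1: `z_r^0 = g₀ (U/r)³` when `U < 1` (i.e. `U = x lam^(-s/2)`). -/
def L11_ar1 : Prop :=
  ∀ x lam s η r : ℝ, 0 < x → 0 < lam → 0 < r → x * lam ^ (-(s / 2)) ≤ 1 →
    l11z0 x lam η r = lam ^ ((3 * s - 1 - η) / 2) * (l11U x lam s / r) ^ 3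

/-- AR2: `r ≥ Y = U Z`, `Z ≥ 1`, `lam ≤ 1`, `3s ≥ 1 + η`  ⟹  `z_r^0 Z ≤ 1`. -/
def L11_ar2 : Prop :=
  ∀ x lam s η r Z : ℝ, 0 < x → 0 < lam → lam ≤ 1 → 1 ≤ Z → 1 + η ≤ 3 * s →
    x * lam ^ (-(s / 2)) ≤ 1 → l11U x lam s * Z ≤ r → l11z0 x lam η r * Z ≤ 1

/-- AR3: `lam x U⁴ ≤ x⁵ lam^(1-2s)`. -/
def L11_ar3 : Prop :=
  ∀ x lam s : ℝ, 0 < x → 0 < lam → lam * x * l11U x lam s ^ 4 ≤ x ^ 5 * lam ^ (1 - 2 * s)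

/-- AR4: `lam e₁ U⁴ ≤ x^(3 + (1-η)/s)` for `x^(12) ≤ lam ≤ 1`, `2/5 (1-η) ≤ s`, `0 < s`, `η < 1`, `x ≤ 1`. -/
def L11_ar4 : Prop :=
  ∀ x lam s η : ℝ, 0 < x → x ≤ 1 → 0 < lam → lam ≤ 1 → 0 < s → η < 1 → 2 * (1 - η) ≤ 5 * s →
    lam * l11e1 x lam s η * l11U x lam s ^ 4 ≤ x ^ (3 + (1 - η) / s)

/-- AR5: first-moment consequence of (D9): `Y (w Y ε_w)^(1/2) ≤ x³ lam^(-(3s+1+η)/4) Z^(7/4)`. -/
def L11_ar5 : Prop :=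
  ∀ x lam s η Z w : ℝ, 0 < x → 0 < lam → lam ≤ 1 → 0 ≤ s → 1 ≤ Z → 0 < w →
    l11U x lam s * Z * Real.sqrt (w * (l11U x lam s * Z) * l11epsw x lam s η Z w)
      ≤ x ^ 3 * lam ^ (-((3 * s + 1 + η) / 4)) * Z ^ (7 / 4 : ℝ)

/-- AR6: `x³ √λ₁ U² ≤ x⁵ lam^((1+η)/2 - s)`. -/
def L11_ar6 : Prop :=
  ∀ x lam s η : ℝ, 0 < x → 0 < lam →
    x ^ 3 * Real.sqrt (l11lam1 lam η) * l11U x lam s ^ 2 ≤ x ^ 5 * lam ^ ((1 + η) / 2 - s)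

/-- AR7: `ε_w ≤ E₀ = x³ √Y / (√λ₁ U^(3/2))` and `E₀ = g₀ U² √Z` when `U < 1`. -/
def L11_ar7 : Prop :=
  ∀ x lam s η Z w : ℝ, 0 < x → 0 < lam → 1 ≤ Z → 0 < w →
    l11epsw x lam s η Z w ≤ l11epsw x lam s η Z (l11U x lam s) ∧
    (x * lam ^ (-(s / 2)) ≤ 1 →
      l11epsw x lam s η Z (l11U x lam s)
        = lam ^ ((3 * s - 1 - η) / 2) * l11U x lam s ^ 2 * Real.sqrt Z)

end Claimed.Agent.R286
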