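import Claimed.Agent.R286.L08.L11Mass

/-!
# Row 286 (S0533), LL 08-statistics l.631-720, unit IV: THE CUT LAYER      (owner helper228; ADV helper189)
Deterministic form of the tile sums of (D7a) and of the backward dyadic telescoping of the mixed covariance term (D7b).
DATA `L11Cut` (statistics in the cut coordinate `z`, `G = dv/dz`), `L11Tiles` (one band, its tiles, a backward buffer).
IMPORTS `L11Cut.Ok` ((A1) line 2, (A3) with `p = 2`), `L11Tiles.Ok` ((D3), (D5), variation bound of Lemma widths).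
EXPORTS: `tile_EWZ`, `tile_EWZG`, `band_EWZG` (K1), `tile_slide`, `band_slide` (K2a), `MixZ_le`, `band_MixZG` (K2).
TEX[LL:lem:statistics-integrated]
-/

set_option autoImplicit false
open MeasureTheory Set
open scoped BigOperators

namespace Claimed.Agent.R286

theorem L11Bdd.mul {f g : ℝ → ℝ} {C D : ℝ} (hf : L11Bdd f C) (hg : L11Bdd g D) :
    L11Bdd (fun v => f v * g v) (C * D) where
  meas := hf.meas.mul hg.meas
  nonneg := fun v => mul_nonneg (hf.nonneg v) (hg.nonneg v)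
  le := fun v => mul_le_mul (hf.le v) (hg.le v) (hg.nonneg v) ((hf.nonneg v).trans (hf.le v))

/-- product of a monotone-difference with a bounded measurable weight is interval integrable -/
theorem l11_ii_mul {f g : ℝ → ℝ} {C : ℝ} {a b : ℝ} (hf : IntervalIntegrable f volume a b)
    (hg : L11Bdd g C) : IntervalIntegrable (fun z => f z * g z) volume a b := by
  rw [intervalIntegrable_iff] at hf ⊢
  have := hf.bdd_mul (c := C) hg.meas.aestronglyMeasurable
    (Filter.Eventually.of_forall fun x => by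
      rw [Real.norm_of_nonneg (hg.nonneg x)]; exact hg.le x)
  have h2 : Integrable (fun x => f x * g x) (volume.restrict (uIoc a b)) := by
    simpa [mul_comm] using this
  exact h2

/-- deterministic statistics in a cut coordinate `z` (direct paths: `z = ξ` on the active part,
the explicit plateau coordinate above; low-region variant: `z = v`).  `vz` = mass of the cut,
`G = dv/dz`, `hZ` = field clock, `Cp` = square of the constant of (A3) for `p = 2`.
Continuous clocks: `μ = η = 0`.  Finite hierarchies: `SZ`, `EWZ`, .. = step functions of the levels,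
`hZ` = the continuous clock that is sampled, `μ` = mesh in the coordinate `z` (the source inequality reaches
the next level), `η` = twice the largest field increment of a level, or twice the least admissible field
length of (A3) (then the true field length of a gap is at least half of `hZ z - hZ w`; the factor 2 goes
into `Cp`); `vlow` = least admissible mass in (A3). -/
structure L11Cut where
  msz : ℝ
  Cp : ℝ
  zlo : ℝ
  zhi : ℝ
  η : ℝ
  μ : ℝ
  vlow : ℝ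
  SZ : ℝ → ℝ
  hZ : ℝ → ℝ
  vz : ℝ → ℝ
  G : ℝ → ℝ
  TrHZ : ℝ → ℝ
  EWZ : ℝ → ℝ
  MixZ : ℝ → ℝ

/-- squared projection coefficient of the gap `[w,z]` -/
noncomputable def L11Cut.kap (c : L11Cut) (w z : ℝ) : ℝ :=
  c.Cp / (c.msz * (c.vz w) ^ 2 * (c.hZ z - c.hZ w))

/-- imports of the cut layer -/
structure L11Cut.Ok (c : L11Cut) : Prop where
  msz_pos : 0 < c.msz
  Cp_nonneg : 0 ≤ c.Cp
  η_nonneg : 0 ≤ c.η
  μ_nonneg : 0 ≤ c.μ
  vlow_pos : 0 < c.vlow
  SZ_mono : Monotone c.SZ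
  SZ_nonneg : ∀ z, 0 ≤ c.SZ z
  G_b : ∃ C, L11Bdd c.G C
  TrHZ_b : ∃ C, L11Bdd c.TrHZ C
  EWZ_b : ∃ C, L11Bdd c.EWZ C
  MixZ_b : ∃ C, L11Bdd c.MixZ C
  src1 : ∀ z, c.zlo ≤ z → z ≤ c.zhi → c.vz z * c.EWZ z ≤ c.TrHZ z
  src2 : ∀ z1 z2 κ, c.zlo ≤ z1 → z1 ≤ z2 → z2 ≤ c.zhi → 0 ≤ κ →
    (∀ u1 u2, z1 ≤ u1 → u1 ≤ u2 → u2 ≤ z2 → κ * (u2 - u1) ≤ c.hZ u2 - c.hZ u1) →
    c.msz * κ * ∫ z in z1..z2, c.TrHZ z ≤ c.SZ (z2 + c.μ) - c.SZ z1
  chain : ∀ (n : ℕ) (w : ℕ → ℝ) (z : ℝ), c.zlo ≤ w 0 → (∀ i ≤ n, w i < w (i + 1)) →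
    w (n + 1) = z → z ≤ c.zhi → (∀ i ≤ n, c.vlow ≤ c.vz (w i)) → (∀ i ≤ n, c.η < c.hZ z - c.hZ (w i)) →
    c.MixZ z ≤ ((n : ℝ) + 2) * (c.kap (w 0) z * c.SZ (w 0)
      + ∑ i ∈ Finset.range n, c.kap (w (i + 1)) z * (c.SZ (w (i + 1)) - c.SZ (w i))
      + 4 * (c.SZ z - c.SZ (w n)))

/-- tiles of one band `[t 0, t nT]` with a backward buffer of length `L` -/
structure L11Tiles where
  nT : ℕ
  t : ℕ → ℝ
  Gs : ℕ → ℝ
  L : ℝ
  vmin : ℝ
  κh : ℝ
  A : ℝ
  Cb : ℝ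
  εK : ℝ

namespace L11Tiles

/-- length of tile `i` -/
def len (T : L11Tiles) (i : ℕ) : ℝ := T.t (i + 1) - T.t i

/-- mass of tile `i` -/
noncomputable def mass (T : L11Tiles) (c : L11Cut) (i : ℕ) : ℝ := ∫ z in T.t i..T.t (i + 1), c.G z

/-- mass with the additive error -/
noncomputable def massE (T : L11Tiles) (c : L11Cut) (i : ℕ) : ℝ := T.mass c i + T.εK * T.len i

/-- imports on the tiles ((D3), (D5), variation bound) -/
structure Ok (T : L11Tiles) (c : L11Cut) : Prop where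
  t_mono : ∀ i < T.nT, T.t i ≤ T.t (i + 1)
  L_pos : 0 < T.L
  dom_lo : c.zlo ≤ T.t 0 - T.L
  dom_hi : T.t T.nT ≤ c.zhi
  vmin_pos : 0 < T.vmin
  vmin_le : ∀ z, T.t 0 - T.L ≤ z → z ≤ T.t T.nT → T.vmin ≤ c.vz z
  κh_pos : 0 < T.κh
  slope : ∀ u1 u2, T.t 0 - T.L ≤ u1 → u1 ≤ u2 → u2 ≤ T.t T.nT →
    T.κh * (u2 - u1) ≤ c.hZ u2 - c.hZ u1
  G_le : ∀ i < T.nT, ∀ z, T.t i < z → z < T.t (i + 1) → c.G z ≤ T.Gs i
  Gs_nonneg : ∀ i < T.nT, 0 ≤ T.Gs i
  Gs_len : ∀ i < T.nT, T.Gs i * T.len i ≤ T.Cb * T.massE c i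
  Cb_one : 1 ≤ T.Cb
  εK_nonneg : 0 ≤ T.εK
  A_nonneg : 0 ≤ T.A
  var : ∀ i < T.nT, ∀ z w, T.t i ≤ z → z ≤ T.t (i + 1) → T.t 0 - T.L ≤ w → w ≤ z →
    c.SZ z - c.SZ w ≤ T.A * ((z - w) + T.len i)
  vars : ∀ i < T.nT, c.SZ (T.t (i + 1) + c.μ) - c.SZ (T.t i) ≤ 2 * T.A * T.len i
  vlow_le : c.vlow ≤ T.vmin

end L11Tiles

namespace L11Cut
variable {c : L11Cut}

theorem iG (hc : c.Ok) (a b : ℝ) : IntervalIntegrable c.G volume a b :=
  let ⟨_, h⟩ := hc.G_b; l11_ii h a b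
theorem iTrHZ (hc : c.Ok) (a b : ℝ) : IntervalIntegrable c.TrHZ volume a b :=
  let ⟨_, h⟩ := hc.TrHZ_b; l11_ii h a b
theorem iEWZ (hc : c.Ok) (a b : ℝ) : IntervalIntegrable c.EWZ volume a b :=
  let ⟨_, h⟩ := hc.EWZ_b; l11_ii h a b
theorem iMixZ (hc : c.Ok) (a b : ℝ) : IntervalIntegrable c.MixZ volume a b :=
  let ⟨_, h⟩ := hc.MixZ_b; l11_ii h a b
theorem G0 (hc : c.Ok) (v : ℝ) : 0 ≤ c.G v := let ⟨_, h⟩ := hc.G_b; h.nonneg v
theorem EWZ0 (hc : c.Ok) (v : ℝ) : 0 ≤ c.EWZ v := let ⟨_, h⟩ := hc.EWZ_b; h.nonneg v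
theorem MixZ0 (hc : c.Ok) (v : ℝ) : 0 ≤ c.MixZ v := let ⟨_, h⟩ := hc.MixZ_b; h.nonneg v
theorem iEWZG (hc : c.Ok) (a b : ℝ) : IntervalIntegrable (fun z => c.EWZ z * c.G z) volume a b :=
  let ⟨_, h⟩ := hc.EWZ_b; let ⟨_, g⟩ := hc.G_b; l11_ii (h.mul g) a b
theorem iMixZG (hc : c.Ok) (a b : ℝ) : IntervalIntegrable (fun z => c.MixZ z * c.G z) volume a b :=
  let ⟨_, h⟩ := hc.MixZ_b; let ⟨_, g⟩ := hc.G_b; l11_ii (h.mul g) a b

end L11Cut

namespace L11Tiles
variable {c : L11Cut} {T : L11Tiles}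

theorem t_le (hT : T.Ok c) : ∀ i j, i ≤ j → j ≤ T.nT → T.t i ≤ T.t j := by
  intro i j hij
  induction j, hij using Nat.le_induction with
  | base => intro _; exact le_rfl
  | succ j _ ih => intro hj; exact (ih (by omega)).trans (hT.t_mono j (by omega))

theorem len0 (hT : T.Ok c) {i : ℕ} (hi : i < T.nT) : 0 ≤ T.len i :=
  sub_nonneg.2 (hT.t_mono i hi)

theorem mass0 (hc : c.Ok) (hT : T.Ok c) {i : ℕ} (hi : i < T.nT) : 0 ≤ T.mass c i :=
  intervalIntegral.integral_nonneg (hT.t_mono i hi) (fun z _ => L11Cut.G0 hc z)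

theorem massE0 (hc : c.Ok) (hT : T.Ok c) {i : ℕ} (hi : i < T.nT) : 0 ≤ T.massE c i :=
  add_nonneg (mass0 hc hT hi) (mul_nonneg hT.εK_nonneg (len0 hT hi))

theorem mass_le_massE (hT : T.Ok c) {i : ℕ} (hi : i < T.nT) : T.mass c i ≤ T.massE c i :=
  le_add_of_nonneg_right (mul_nonneg hT.εK_nonneg (len0 hT hi))

/-- **K1 (tile)**: `∫_I E W_z dz ≤ 2 A |I| / (m vmin κh)`. -/
theorem tile_EWZ (hc : c.Ok) (hT : T.Ok c) {i : ℕ} (hi : i < T.nT) :
    ∫ z in T.t i..T.t (i + 1), c.EWZ z ≤ 2 * T.A * T.len i / (c.msz * T.vmin * T.κh) := by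
  have hm := hc.msz_pos
  have hv := hT.vmin_pos
  have hκ := hT.κh_pos
  have h01 := hT.t_mono i hi
  have h0i : T.t 0 ≤ T.t i := t_le hT 0 i (Nat.zero_le _) hi.le
  have hiN : T.t (i + 1) ≤ T.t T.nT := t_le hT (i + 1) T.nT hi le_rfl
  have hL := hT.L_pos
  have h := hc.src2 (T.t i) (T.t (i + 1)) T.κh (by linarith [hT.dom_lo]) h01
    (by linarith [hT.dom_hi]) hκ.le
    (fun u1 u2 a1 a2 a3 => hT.slope u1 u2 (by linarith) a2 (by linarith))
  have h3 : ∫ z in T.t i..T.t (i + 1), c.EWZ z ≤ ∫ z in T.t i..T.t (i + 1), c.TrHZ z * T.vmin⁻¹ := by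
    refine intervalIntegral.integral_mono_on h01 (L11Cut.iEWZ hc _ _)
      ((L11Cut.iTrHZ hc _ _).mul_const _) ?_
    intro z hz
    have a1 := hc.src1 z (by linarith [hz.1, hT.dom_lo]) (by linarith [hz.2, hT.dom_hi])
    have a2 := hT.vmin_le z (by linarith [hz.1]) (by linarith [hz.2])
    have h0 := L11Cut.EWZ0 hc z
    rw [← div_eq_mul_inv, le_div_iff₀ hv]
    nlinarith
  rw [intervalIntegral.integral_mul_const] at h3
  have hvar := hT.vars i hi
  rw [le_div_iff₀ (by positivity)]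
  calc (∫ z in T.t i..T.t (i + 1), c.EWZ z) * (c.msz * T.vmin * T.κh)
      ≤ ((∫ z in T.t i..T.t (i + 1), c.TrHZ z) * T.vmin⁻¹) * (c.msz * T.vmin * T.κh) := by gcongr
    _ = c.msz * T.κh * ∫ z in T.t i..T.t (i + 1), c.TrHZ z := by field_simp
    _ ≤ _ := h
    _ ≤ _ := hvar

/-- the constant of (D7a) -/
noncomputable def KW (T : L11Tiles) (c : L11Cut) : ℝ := 2 * T.A * T.Cb / (c.msz * T.vmin * T.κh)

theorem KW0 (hc : c.Ok) (hT : T.Ok c) : 0 ≤ T.KW c := by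
  have hm := hc.msz_pos
  have hv := hT.vmin_pos
  have hκ := hT.κh_pos
  have hA := hT.A_nonneg
  have hC : 0 ≤ T.Cb := by linarith [hT.Cb_one]
  unfold KW; positivity

theorem Gs0 (_hc : c.Ok) (hT : T.Ok c) {i : ℕ} (hi : i < T.nT) : 0 ≤ T.Gs i :=
  hT.Gs_nonneg i hi

/-- **K1 (tile, mass weight)**: `∫_I E W_z G_z dz ≤ KW (mass_I + εK |I|)`. -/
theorem tile_EWZG (hc : c.Ok) (hT : T.Ok c) {i : ℕ} (hi : i < T.nT) :
    ∫ z in T.t i..T.t (i + 1), c.EWZ z * c.G z ≤ T.KW c * T.massE c i := by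
  have hm := hc.msz_pos
  have hv := hT.vmin_pos
  have hκ := hT.κh_pos
  have h01 := hT.t_mono i hi
  have h1 : ∫ z in T.t i..T.t (i + 1), c.EWZ z * c.G z
      ≤ ∫ z in T.t i..T.t (i + 1), c.EWZ z * T.Gs i := by
    refine intervalIntegral.integral_mono_on_of_le_Ioo h01 (L11Cut.iEWZG hc _ _)
      ((L11Cut.iEWZ hc _ _).mul_const _) ?_
    intro z hz
    exact mul_le_mul_of_nonneg_left (hT.G_le i hi z hz.1 hz.2) (L11Cut.EWZ0 hc z)
  rw [intervalIntegral.integral_mul_const] at h1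
  have h2 := tile_EWZ hc hT hi
  have h3 := hT.Gs_len i hi
  have hG := Gs0 hc hT hi
  have hA := hT.A_nonneg
  calc _ ≤ _ := h1
    _ ≤ (2 * T.A * T.len i / (c.msz * T.vmin * T.κh)) * T.Gs i := by gcongr
    _ = (2 * T.A / (c.msz * T.vmin * T.κh)) * (T.Gs i * T.len i) := by ring
    _ ≤ (2 * T.A / (c.msz * T.vmin * T.κh)) * (T.Cb * T.massE c i) := by gcongr
    _ = _ := by unfold KW; ring

/-- total mass (with errors) of the band -/
noncomputable def massTot (T : L11Tiles) (c : L11Cut) : ℝ := ∑ i ∈ Finset.range T.nT, T.massE c i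

theorem massTot0 (hc : c.Ok) (hT : T.Ok c) : 0 ≤ T.massTot c :=
  Finset.sum_nonneg (fun _ hi => massE0 hc hT (Finset.mem_range.1 hi))

theorem iSshift (hc : c.Ok) (τ a b : ℝ) : IntervalIntegrable (fun z => c.SZ (z - τ)) volume a b :=
  (hc.SZ_mono.comp (fun x y hxy => by linarith : Monotone fun z : ℝ => z - τ)).intervalIntegrable

theorem iD (hc : c.Ok) (τ σ a b : ℝ) :
    IntervalIntegrable (fun z => c.SZ (z - τ) - c.SZ (z - τ - σ)) volume a b := by
  have h2 : (fun z => c.SZ (z - τ) - c.SZ (z - τ - σ))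
      = fun z => c.SZ (z - τ) - c.SZ (z - (τ + σ)) := by
    funext z; congr 2; ring
  rw [h2]
  exact (iSshift hc τ a b).sub (iSshift hc (τ + σ) a b)

theorem iDG (hc : c.Ok) (τ σ a b : ℝ) :
    IntervalIntegrable (fun z => (c.SZ (z - τ) - c.SZ (z - τ - σ)) * c.G z) volume a b :=
  let ⟨_, g⟩ := hc.G_b; l11_ii_mul (iD hc τ σ a b) g

/-- **K2a (tile)**: sliding increments of `S` against the mass weight. -/
theorem tile_slide (hc : c.Ok) (hT : T.Ok c) {i : ℕ} (hi : i < T.nT) {τ σ : ℝ}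
    (hτ0 : 0 ≤ τ) (hτσ : τ ≤ σ) (hσL : τ + σ ≤ T.L) :
    ∫ z in T.t i..T.t (i + 1), (c.SZ (z - τ) - c.SZ (z - τ - σ)) * c.G z
      ≤ 4 * T.A * T.Cb * σ * T.massE c i := by
  have h01 := hT.t_mono i hi
  have h0i : T.t 0 ≤ T.t i := t_le hT 0 i (Nat.zero_le _) hi.le
  have hA := hT.A_nonneg
  have hCb := hT.Cb_one
  have hσ0 : 0 ≤ σ := hτ0.trans hτσ
  have hmE := massE0 hc hT hi
  have hm0 := mass0 hc hT hi
  have hmm := mass_le_massE (c := c) hT hi
  have hlen := len0 hT hi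
  by_cases hcase : T.len i ≤ σ
  · have h1 : ∫ z in T.t i..T.t (i + 1), (c.SZ (z - τ) - c.SZ (z - τ - σ)) * c.G z
        ≤ ∫ z in T.t i..T.t (i + 1), (3 * T.A * σ) * c.G z := by
      refine intervalIntegral.integral_mono_on h01 (iDG hc _ _ _ _)
        ((L11Cut.iG hc _ _).const_mul _) ?_
      intro z hz
      refine mul_le_mul_of_nonneg_right ?_ (L11Cut.G0 hc z)
      have a1 := hc.SZ_mono (show z - τ ≤ z by linarith)
      have a2 := hT.var i hi z (z - τ - σ) hz.1 hz.2 (by linarith [hz.1]) (by linarith)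
      have a3 : T.A * ((z - (z - τ - σ)) + T.len i) ≤ 3 * T.A * σ := by
        have : (z - (z - τ - σ)) + T.len i ≤ 3 * σ := by linarith
        nlinarith
      linarith
    rw [intervalIntegral.integral_const_mul] at h1
    refine le_trans h1 ?_
    have e : ∫ z in T.t i..T.t (i + 1), c.G z = T.mass c i := rfl
    rw [e]
    have hAσ : 0 ≤ T.A * σ := mul_nonneg hA hσ0
    calc 3 * T.A * σ * T.mass c i ≤ 4 * (T.A * σ) * T.massE c i := by nlinarith
      _ ≤ 4 * (T.A * σ) * T.massE c i * T.Cb := by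
          have : 0 ≤ 4 * (T.A * σ) * T.massE c i := by positivity
          nlinarith
      _ = _ := by ring
  · push Not at hcase
    have hG := Gs0 hc hT hi
    have h1 : ∫ z in T.t i..T.t (i + 1), (c.SZ (z - τ) - c.SZ (z - τ - σ)) * c.G z
        ≤ ∫ z in T.t i..T.t (i + 1), (c.SZ (z - τ) - c.SZ (z - τ - σ)) * T.Gs i := by
      refine intervalIntegral.integral_mono_on_of_le_Ioo h01 (iDG hc _ _ _ _)
        ((iD hc _ _ _ _).mul_const _) ?_
      intro z hz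
      refine mul_le_mul_of_nonneg_left (hT.G_le i hi z hz.1 hz.2) ?_
      exact sub_nonneg.2 (hc.SZ_mono (by linarith))
    rw [intervalIntegral.integral_mul_const] at h1
    have h2 := l11_slide_back hc.SZ_mono (σ := σ) (T.t i) (T.t (i + 1)) τ hσ0
    have a1 := hc.SZ_mono (show T.t (i + 1) - τ ≤ T.t (i + 1) by linarith)
    have a2 := hT.var i hi (T.t (i + 1)) (T.t i - τ - σ) h01 le_rfl (by linarith) (by linarith)
    have a3 : T.A * ((T.t (i + 1) - (T.t i - τ - σ)) + T.len i) ≤ 4 * T.A * T.len i := by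
      have : (T.t (i + 1) - (T.t i - τ - σ)) + T.len i ≤ 4 * T.len i := by
        unfold len at hcase ⊢; linarith
      nlinarith
    have h3 : ∫ z in T.t i..T.t (i + 1), (c.SZ (z - τ) - c.SZ (z - τ - σ))
        ≤ σ * (4 * T.A * T.len i) := by
      refine le_trans h2 ?_
      gcongr
      linarith
    have h4 := hT.Gs_len i hi
    calc _ ≤ _ := h1
      _ ≤ (σ * (4 * T.A * T.len i)) * T.Gs i := by gcongr
      _ = (4 * T.A * σ) * (T.Gs i * T.len i) := by ring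
      _ ≤ (4 * T.A * σ) * (T.Cb * T.massE c i) := by gcongr
      _ = _ := by ring

/-- **K2a (band)**. -/
theorem band_slide (hc : c.Ok) (hT : T.Ok c) {τ σ : ℝ}
    (hτ0 : 0 ≤ τ) (hτσ : τ ≤ σ) (hσL : τ + σ ≤ T.L) :
    ∫ z in T.t 0..T.t T.nT, (c.SZ (z - τ) - c.SZ (z - τ - σ)) * c.G z
      ≤ 4 * T.A * T.Cb * σ * T.massTot c := by
  rw [← intervalIntegral.sum_integral_adjacent_intervals (fun k _ => iDG hc τ σ _ _)]
  unfold massTot
  rw [Finset.mul_sum]
  exact Finset.sum_le_sum (fun i hi => tile_slide hc hT (Finset.mem_range.1 hi) hτ0 hτσ hσL)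

/-- **K1 (band)**: weighted integral of `E W` against the mass measure. -/
theorem band_EWZG (hc : c.Ok) (hT : T.Ok c) {φ : ℝ → ℝ} {Cφ : ℝ} (hφ : L11Bdd φ Cφ) (φs : ℕ → ℝ)
    (hφs : ∀ i < T.nT, ∀ z, T.t i ≤ z → z ≤ T.t (i + 1) → φ z ≤ φs i) :
    ∫ z in T.t 0..T.t T.nT, c.EWZ z * c.G z * φ z
      ≤ T.KW c * ∑ i ∈ Finset.range T.nT, φs i * T.massE c i := by
  obtain ⟨_, hE⟩ := hc.EWZ_b
  obtain ⟨_, hG⟩ := hc.G_b
  have hint : ∀ a b, IntervalIntegrable (fun z => c.EWZ z * c.G z * φ z) volume a b :=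
    fun a b => l11_ii ((hE.mul hG).mul hφ) a b
  rw [← intervalIntegral.sum_integral_adjacent_intervals (fun k _ => hint _ _), Finset.mul_sum]
  refine Finset.sum_le_sum (fun i hi => ?_)
  have hi' := Finset.mem_range.1 hi
  have h01 := hT.t_mono i hi'
  have h1 : ∫ z in T.t i..T.t (i + 1), c.EWZ z * c.G z * φ z
      ≤ ∫ z in T.t i..T.t (i + 1), c.EWZ z * c.G z * φs i := by
    refine intervalIntegral.integral_mono_on h01 (hint _ _) ((L11Cut.iEWZG hc _ _).mul_const _) ?_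
    intro z hz
    exact mul_le_mul_of_nonneg_left (hφs i hi' z hz.1 hz.2)
      (mul_nonneg (L11Cut.EWZ0 hc z) (L11Cut.G0 hc z))
  rw [intervalIntegral.integral_mul_const] at h1
  have h2 := tile_EWZG hc hT hi'
  have hφ0 : 0 ≤ φs i := (hφ.nonneg (T.t i)).trans (hφs i hi' (T.t i) le_rfl h01)
  calc _ ≤ _ := h1
    _ ≤ (T.KW c * T.massE c i) * φs i := by gcongr
    _ = _ := by ring

/-- the projection constant `Kp = Cp / (m vmin² κh)`: `kap (z - l) z ≤ Kp / l`. -/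
noncomputable def Kp (T : L11Tiles) (c : L11Cut) : ℝ := c.Cp / (c.msz * T.vmin ^ 2 * T.κh)

theorem Kp0 (hc : c.Ok) (hT : T.Ok c) : 0 ≤ T.Kp c := by
  have hm := hc.msz_pos
  have hv := hT.vmin_pos
  have hκ := hT.κh_pos
  have hC := hc.Cp_nonneg
  unfold Kp; positivity

theorem kap_le (hc : c.Ok) (hT : T.Ok c) {z l : ℝ} (hz0 : T.t 0 ≤ z) (hz1 : z ≤ T.t T.nT)
    (hl : 0 < l) (hlL : l ≤ T.L) : c.kap (z - l) z ≤ T.Kp c / l := by
  have hm := hc.msz_pos
  have hv := hT.vmin_pos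
  have hκ := hT.κh_pos
  have hC := hc.Cp_nonneg
  have a1 := hT.vmin_le (z - l) (by linarith) (by linarith)
  have a2 := hT.slope (z - l) z (by linarith) (by linarith) hz1
  have e : z - (z - l) = l := by ring
  rw [e] at a2
  unfold L11Cut.kap Kp
  rw [div_div]
  apply div_le_div_of_nonneg_left hC (by positivity)
  calc c.msz * T.vmin ^ 2 * T.κh * l = c.msz * T.vmin ^ 2 * (T.κh * l) := by ring
    _ ≤ c.msz * (c.vz (z - l)) ^ 2 * (c.hZ z - c.hZ (z - l)) := by gcongr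

/-- pointwise form of the backward dyadic telescoping -/
theorem MixZ_le (hc : c.Ok) (hT : T.Ok c) (n : ℕ) {Smax z : ℝ} (hη : c.η < T.κh * (T.L / 2 ^ n))
    (hSmax : ∀ z, z ≤ T.t T.nT → c.SZ z ≤ Smax) (hz0 : T.t 0 ≤ z) (hz1 : z ≤ T.t T.nT) :
    c.MixZ z ≤ ((n : ℝ) + 2) * (T.Kp c / T.L * Smax
      + ∑ i ∈ Finset.range n, T.Kp c / (T.L / 2 ^ (i + 1)) *
          (c.SZ (z - T.L / 2 ^ (i + 1)) - c.SZ (z - T.L / 2 ^ (i + 1) - T.L / 2 ^ (i + 1)))
      + 4 * (c.SZ (z - 0) - c.SZ (z - 0 - T.L / 2 ^ n))) := by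
  have hL := hT.L_pos
  have hKp := Kp0 hc hT
  set w : ℕ → ℝ := fun i => if i ≤ n then z - T.L / 2 ^ i else z with hw
  have hwi : ∀ i ≤ n, w i = z - T.L / 2 ^ i := fun i hi => by simp [hw, hi]
  have hwn : w (n + 1) = z := by simp [hw]
  have hpow : ∀ i : ℕ, 0 < T.L / 2 ^ i := fun i => by positivity
  have hpowL : ∀ i : ℕ, T.L / 2 ^ i ≤ T.L := fun i => by
    apply div_le_self hL.le
    exact one_le_pow₀ (by norm_num)
  have hhalf : ∀ i : ℕ, T.L / 2 ^ i = T.L / 2 ^ (i + 1) + T.L / 2 ^ (i + 1) := fun i => by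
    rw [pow_succ]; field_simp; ring
  have hch := hc.chain n w z
    (by rw [hwi 0 (Nat.zero_le _)]; simp; linarith [hT.dom_lo])
    (by
      intro i hi
      rcases Nat.lt_or_ge i n with h | h
      · rw [hwi i hi, hwi (i + 1) h, hhalf i]; linarith [hpow (i + 1)]
      · have : i = n := le_antisymm hi h
        subst this
        rw [hwn, hwi _ le_rfl]; linarith [hpow i])
    hwn (hz1.trans hT.dom_hi)
    (by
      intro i hi
      rw [hwi i hi]
      exact hT.vlow_le.trans (hT.vmin_le _ (by linarith [hpowL i]) (by linarith [hpow i])))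
    (by
      intro i hi
      rw [hwi i hi]
      have := hT.slope (z - T.L / 2 ^ i) z (by linarith [hpowL i]) (by linarith [hpow i]) hz1
      have e : z - (z - T.L / 2 ^ i) = T.L / 2 ^ i := by ring
      rw [e] at this
      have h2 : T.κh * (T.L / 2 ^ n) ≤ T.κh * (T.L / 2 ^ i) := by
        have := hT.κh_pos
        gcongr
        · norm_num
      linarith)
  refine le_trans hch ?_
  have hn2 : (0 : ℝ) ≤ (n : ℝ) + 2 := by positivity
  refine mul_le_mul_of_nonneg_left ?_ hn2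
  have t1 : c.kap (w 0) z * c.SZ (w 0) ≤ T.Kp c / T.L * Smax := by
    have e0 : w 0 = z - T.L := by rw [hwi 0 (Nat.zero_le _)]; simp
    rw [e0]
    have a1 := kap_le hc hT hz0 hz1 hL le_rfl
    have a2 := hSmax (z - T.L) (by linarith)
    have a3 := hc.SZ_nonneg (z - T.L)
    have a4 : 0 ≤ T.Kp c / T.L := by positivity
    calc _ ≤ T.Kp c / T.L * c.SZ (z - T.L) := by gcongr
      _ ≤ _ := by gcongr
  have t2 : ∑ i ∈ Finset.range n, c.kap (w (i + 1)) z * (c.SZ (w (i + 1)) - c.SZ (w i))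
      ≤ ∑ i ∈ Finset.range n, T.Kp c / (T.L / 2 ^ (i + 1)) *
          (c.SZ (z - T.L / 2 ^ (i + 1)) - c.SZ (z - T.L / 2 ^ (i + 1) - T.L / 2 ^ (i + 1))) := by
    refine Finset.sum_le_sum (fun i hi => ?_)
    have hi' := Finset.mem_range.1 hi
    have e1 : w (i + 1) = z - T.L / 2 ^ (i + 1) := hwi (i + 1) hi'
    have e2 : w i = z - T.L / 2 ^ (i + 1) - T.L / 2 ^ (i + 1) := by
      rw [hwi i hi'.le, hhalf i]; ring
    rw [e1, e2]
    have a1 := kap_le hc hT hz0 hz1 (hpow (i + 1)) (hpowL (i + 1))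
    have a2 : 0 ≤ c.SZ (z - T.L / 2 ^ (i + 1)) - c.SZ (z - T.L / 2 ^ (i + 1) - T.L / 2 ^ (i + 1)) :=
      sub_nonneg.2 (hc.SZ_mono (by linarith [hpow (i + 1)]))
    exact mul_le_mul_of_nonneg_right a1 a2
  have t3 : 4 * (c.SZ z - c.SZ (w n)) = 4 * (c.SZ (z - 0) - c.SZ (z - 0 - T.L / 2 ^ n)) := by
    rw [hwi n le_rfl]; simp
  linarith

/-- **K2 (band)**: the mixed covariance term `E Xᵀ C X` integrated against the mass measure. -/
theorem band_MixZG (hc : c.Ok) (hT : T.Ok c) (n : ℕ) {Smax : ℝ} (hη : c.η < T.κh * (T.L / 2 ^ n))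
    (hSmax : ∀ z, z ≤ T.t T.nT → c.SZ z ≤ Smax) :
    ∫ z in T.t 0..T.t T.nT, c.MixZ z * c.G z
      ≤ ((n : ℝ) + 2) * (T.massTot c * (T.Kp c * Smax / T.L
          + 4 * T.A * T.Cb * ((n : ℝ) * T.Kp c + 4 * (T.L / 2 ^ n)))) := by
  have hL := hT.L_pos
  have hKp := Kp0 hc hT
  have h0N : T.t 0 ≤ T.t T.nT := t_le hT 0 T.nT (Nat.zero_le _) le_rfl
  have hpow : ∀ i : ℕ, 0 < T.L / 2 ^ i := fun i => by positivity
  have hpowL : ∀ i : ℕ, T.L / 2 ^ i ≤ T.L := fun i => by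
    apply div_le_self hL.le
    exact one_le_pow₀ (by norm_num)
  have hhalf : ∀ i : ℕ, T.L / 2 ^ i = T.L / 2 ^ (i + 1) + T.L / 2 ^ (i + 1) := fun i => by
    rw [pow_succ]; field_simp; ring
  have hSm0 : 0 ≤ Smax := (hc.SZ_nonneg _).trans (hSmax (T.t T.nT) le_rfl)
  -- integrability of the pieces
  have i1 : IntervalIntegrable (fun z => T.Kp c / T.L * Smax * c.G z) volume (T.t 0) (T.t T.nT) :=
    (L11Cut.iG hc _ _).const_mul _
  have i2 : ∀ i ∈ Finset.range n, IntervalIntegrable (fun z => T.Kp c / (T.L / 2 ^ (i + 1)) *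
      ((c.SZ (z - T.L / 2 ^ (i + 1)) - c.SZ (z - T.L / 2 ^ (i + 1) - T.L / 2 ^ (i + 1))) * c.G z))
      volume (T.t 0) (T.t T.nT) := fun i _ => (iDG hc _ _ _ _).const_mul _
  have i3 : IntervalIntegrable (fun z => 4 * ((c.SZ (z - 0) - c.SZ (z - 0 - T.L / 2 ^ n)) * c.G z))
      volume (T.t 0) (T.t T.nT) := (iDG hc _ _ _ _).const_mul _
  have i2s : IntervalIntegrable (fun z => ∑ i ∈ Finset.range n, T.Kp c / (T.L / 2 ^ (i + 1)) *
      ((c.SZ (z - T.L / 2 ^ (i + 1)) - c.SZ (z - T.L / 2 ^ (i + 1) - T.L / 2 ^ (i + 1))) * c.G z))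
      volume (T.t 0) (T.t T.nT) := by
    have := IntervalIntegrable.sum (Finset.range n) i2
    have e : (fun z => ∑ i ∈ Finset.range n, T.Kp c / (T.L / 2 ^ (i + 1)) *
      ((c.SZ (z - T.L / 2 ^ (i + 1)) - c.SZ (z - T.L / 2 ^ (i + 1) - T.L / 2 ^ (i + 1))) * c.G z))
      = ∑ i ∈ Finset.range n, fun z => T.Kp c / (T.L / 2 ^ (i + 1)) *
      ((c.SZ (z - T.L / 2 ^ (i + 1)) - c.SZ (z - T.L / 2 ^ (i + 1) - T.L / 2 ^ (i + 1))) * c.G z) := by
      funext z
      simp [Finset.sum_apply]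
    rw [e]
    exact this
  have hmono : ∫ z in T.t 0..T.t T.nT, c.MixZ z * c.G z ≤
      ∫ z in T.t 0..T.t T.nT, ((n : ℝ) + 2) * (T.Kp c / T.L * Smax * c.G z
        + (∑ i ∈ Finset.range n, T.Kp c / (T.L / 2 ^ (i + 1)) *
          ((c.SZ (z - T.L / 2 ^ (i + 1)) - c.SZ (z - T.L / 2 ^ (i + 1) - T.L / 2 ^ (i + 1))) * c.G z))
        + 4 * ((c.SZ (z - 0) - c.SZ (z - 0 - T.L / 2 ^ n)) * c.G z)) := by
    refine intervalIntegral.integral_mono_on h0N (L11Cut.iMixZG hc _ _)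
      (((i1.add i2s).add i3).const_mul _) ?_
    intro z hz
    have h := MixZ_le hc hT n hη hSmax hz.1 hz.2
    have hG := L11Cut.G0 hc z
    calc c.MixZ z * c.G z ≤ _ := mul_le_mul_of_nonneg_right h hG
      _ = _ := by
        rw [mul_assoc]
        congr 1
        rw [add_mul, add_mul, Finset.sum_mul, mul_assoc 4]
        congr 2
        refine Finset.sum_congr rfl (fun i _ => ?_)
        ring
  refine le_trans hmono ?_
  rw [intervalIntegral.integral_const_mul, intervalIntegral.integral_add (i1.add i2s) i3,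
    intervalIntegral.integral_add i1 i2s, intervalIntegral.integral_finsetSum i2,
    intervalIntegral.integral_const_mul, intervalIntegral.integral_const_mul]
  have hn2 : (0 : ℝ) ≤ (n : ℝ) + 2 := by positivity
  refine mul_le_mul_of_nonneg_left ?_ hn2
  have hMt := massTot0 hc hT
  -- first term
  have b1 : ∫ z in T.t 0..T.t T.nT, c.G z ≤ T.massTot c := by
    rw [← intervalIntegral.sum_integral_adjacent_intervals (fun k _ => L11Cut.iG hc _ _)]
    exact Finset.sum_le_sum (fun i hi => mass_le_massE hT (Finset.mem_range.1 hi))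
  have c1 : T.Kp c / T.L * Smax * ∫ z in T.t 0..T.t T.nT, c.G z
      ≤ T.massTot c * (T.Kp c * Smax / T.L) := by
    have : 0 ≤ T.Kp c / T.L * Smax := by positivity
    calc _ ≤ T.Kp c / T.L * Smax * T.massTot c := by gcongr
      _ = _ := by ring
  -- layers
  have c2 : ∑ i ∈ Finset.range n, ∫ z in T.t 0..T.t T.nT, T.Kp c / (T.L / 2 ^ (i + 1)) *
      ((c.SZ (z - T.L / 2 ^ (i + 1)) - c.SZ (z - T.L / 2 ^ (i + 1) - T.L / 2 ^ (i + 1))) * c.G z)
      ≤ ∑ _i ∈ Finset.range n, 4 * T.A * T.Cb * T.Kp c * T.massTot c := by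
    refine Finset.sum_le_sum (fun i _ => ?_)
    rw [intervalIntegral.integral_const_mul]
    have hs := band_slide hc hT (τ := T.L / 2 ^ (i + 1)) (σ := T.L / 2 ^ (i + 1)) (hpow _).le le_rfl
      (by rw [← hhalf i]; exact hpowL i)
    have hp := hpow (i + 1)
    calc _ ≤ T.Kp c / (T.L / 2 ^ (i + 1)) * (4 * T.A * T.Cb * (T.L / 2 ^ (i + 1)) * T.massTot c) := by
          gcongr
      _ = _ := by field_simp
  rw [Finset.sum_const, Finset.card_range, nsmul_eq_mul] at c2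
  -- tiny increment
  have c3 := band_slide hc hT (τ := 0) (σ := T.L / 2 ^ n) le_rfl (hpow n).le
    (by rw [zero_add]; exact hpowL n)
  nlinarith

end L11Tiles

end Claimed.Agent.R286
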