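import Mathlib

/-!
# Row 286 (S0533), LL 08-statistics l.631-1000, unit IV: THE MASS LAYER      (owner helper228; ADV helper189)
Deterministic form of the mass-averaging arguments of (D7c), (D8), (D9), Lemma coarse: explicit constants, no asymptotics.
DATA `L11Mass`: number-valued statistics of one path as functions of the mass `v`.   IMPORTS `L11Mass.Ok` (model facts: (A1), brackets).
EXPORTS: `int_TrC`, `int_Mix`, `int_VarX`, `int_Dsq`, `int_Dsq'` (K3'), `int_Dsq_dyad`, `int_Dsq_split`, `int_EW_slope`, `int_EW_log`.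
Instantiation from the abstract single path `L8P` (step functions of the levels): `L08/IvP.lean` (helper189).
TEX[LL:lem:statistics-integrated] TEX[LL:lem:statistics-localized] TEX[LL:lem:statistics-lower-band] TEX[LL:lem:statistics-coarse-switch]
-/

set_option autoImplicit false
open MeasureTheory Set
open scoped BigOperators

namespace Claimed.Agent.R286

/-- bounded measurable nonnegative function on the line -/
structure L11Bdd (f : ℝ → ℝ) (C : ℝ) : Prop where
  meas : Measurable f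
  nonneg : ∀ v, 0 ≤ f v
  le : ∀ v, f v ≤ C

theorem l11_ii {f : ℝ → ℝ} {C : ℝ} (hf : L11Bdd f C) (a b : ℝ) :
    IntervalIntegrable f volume a b := by
  refine (intervalIntegrable_const (c := C)).mono_fun' hf.meas.aestronglyMeasurable ?_
  filter_upwards with v
  rw [Real.norm_of_nonneg (hf.nonneg v)]; exact hf.le v

/-- sliding increments of a monotone function -/
theorem l11_slide_mono {S : ℝ → ℝ} (hS : Monotone S) {σ : ℝ} (a b : ℝ) (hσ : 0 ≤ σ) :
    ∫ z in a..b, (S (z + σ) - S z) ≤ σ * (S (b + σ) - S a) := by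
  have hi : ∀ c d : ℝ, IntervalIntegrable S volume c d := fun c d => hS.intervalIntegrable
  have hi' : IntervalIntegrable (fun z => S (z + σ)) volume a b :=
    (hS.comp (fun x y h => by linarith : Monotone fun z : ℝ => z + σ)).intervalIntegrable
  rw [intervalIntegral.integral_sub hi' (hi a b), intervalIntegral.integral_comp_add_right,
    intervalIntegral.integral_interval_sub_interval_comm (hi _ _) (hi _ _) (hi _ _)]
  have h1 : ∫ z in (b + σ)..b, S z = - ∫ z in b..(b + σ), S z := intervalIntegral.integral_symm _ _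
  have h2 : ∫ z in (a + σ)..a, S z = - ∫ z in a..(a + σ), S z := intervalIntegral.integral_symm _ _
  have h3 : ∫ z in b..(b + σ), S z ≤ ∫ _z in b..(b + σ), S (b + σ) :=
    intervalIntegral.integral_mono_on (by linarith) (hi _ _) intervalIntegrable_const
      (fun z hz => hS hz.2)
  have h4 : ∫ _z in a..(a + σ), S a ≤ ∫ z in a..(a + σ), S z :=
    intervalIntegral.integral_mono_on (by linarith) intervalIntegrable_const (hi _ _)
      (fun z hz => hS hz.1)
  simp only [intervalIntegral.integral_const, smul_eq_mul] at h3 h4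
  rw [h1, h2]
  nlinarith

/-- symmetric sliding increments -/
theorem l11_slide_sym {S : ℝ → ℝ} (hS : Monotone S) {h : ℝ} (a b : ℝ) (hh : 0 ≤ h) :
    ∫ v in a..b, (S (v + h) - S (v - h)) ≤ 2 * h * (S (b + h) - S (a - h)) := by
  have h1 := l11_slide_mono hS (σ := 2 * h) (a - h) (b - h) (by linarith)
  have h2 := intervalIntegral.integral_comp_sub_right (a := a) (b := b)
    (fun u => S (u + 2 * h) - S u) h
  have h3 : (fun v => S (v + h) - S (v - h)) = fun v => S (v - h + 2 * h) - S (v - h) := by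
    funext v; congr 2; ring
  rw [h3, h2]
  have h4 : b - h + 2 * h = b + h := by ring
  rw [h4] at h1
  exact h1

/-- backward sliding increments -/
theorem l11_slide_back {S : ℝ → ℝ} (hS : Monotone S) {σ : ℝ} (a b τ : ℝ) (hσ : 0 ≤ σ) :
    ∫ z in a..b, (S (z - τ) - S (z - τ - σ)) ≤ σ * (S (b - τ) - S (a - τ - σ)) := by
  have h1 := l11_slide_mono hS (σ := σ) (a - (τ + σ)) (b - (τ + σ)) hσ
  have h2 := intervalIntegral.integral_comp_sub_right (a := a) (b := b)
    (fun u => S (u + σ) - S u) (τ + σ)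
  have h3 : (fun z => S (z - τ) - S (z - τ - σ))
      = fun z => S (z - (τ + σ) + σ) - S (z - (τ + σ)) := by
    funext z; congr 2 <;> ring
  rw [h3, h2]
  have h4 : b - (τ + σ) + σ = b - τ := by ring
  have h5 : a - (τ + σ) = a - τ - σ := by ring
  rw [h4, h5] at h1
  rw [h5]
  exact h1

/-- Cauchy-Schwarz for interval integrals in the form `k² ≤ f g`. -/
theorem l11_cs {k f g : ℝ → ℝ} {a b : ℝ} (hab : a ≤ b)
    (hk : IntervalIntegrable k volume a b) (hf : IntervalIntegrable f volume a b)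
    (hg : IntervalIntegrable g volume a b)
    (h0f : ∀ v ∈ Ioo a b, 0 ≤ f v) (h0g : ∀ v ∈ Ioo a b, 0 ≤ g v)
    (hkfg : ∀ v ∈ Ioo a b, k v ^ 2 ≤ f v * g v) :
    (∫ v in a..b, k v) ^ 2 ≤ (∫ v in a..b, f v) * ∫ v in a..b, g v := by
  have key : ∀ t : ℝ, 0 ≤ (∫ v in a..b, f v) * (t * t) + (-2 * ∫ v in a..b, k v) * t
      + ∫ v in a..b, g v := by
    intro t
    have hpt : ∀ v ∈ Ioo a b, (fun _ => (0 : ℝ)) v ≤ f v * (t * t) + (-2 * k v) * t + g v := by
      intro v hv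
      have hf0 := h0f v hv
      have hg0 := h0g v hv
      have hk2 := hkfg v hv
      rcases hf0.eq_or_lt with h | h
      · have : k v = 0 := by
          have : k v ^ 2 ≤ 0 := by rw [← h] at hk2; simpa using hk2
          exact pow_eq_zero_iff (two_ne_zero) |>.1 (le_antisymm this (sq_nonneg _))
        rw [← h, this]; simpa using hg0
      · have : 0 ≤ f v * (f v * (t * t) + (-2 * k v) * t + g v) := by
          nlinarith [sq_nonneg (f v * t - k v)]
        exact nonneg_of_mul_nonneg_right this h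
    have hint : IntervalIntegrable (fun v => f v * (t * t) + (-2 * k v) * t + g v) volume a b :=
      ((hf.mul_const _).add ((hk.const_mul (-2)).mul_const t)).add hg
    have h0 : ∫ _v in a..b, (0 : ℝ) ≤ ∫ v in a..b, (f v * (t * t) + (-2 * k v) * t + g v) :=
      intervalIntegral.integral_mono_on_of_le_Ioo hab intervalIntegrable_const hint hpt
    rw [intervalIntegral.integral_add ((hf.mul_const _).add ((hk.const_mul (-2)).mul_const t)) hg,
      intervalIntegral.integral_add (hf.mul_const _) ((hk.const_mul (-2)).mul_const t),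
      intervalIntegral.integral_mul_const, intervalIntegral.integral_mul_const,
      intervalIntegral.integral_const_mul] at h0
    simpa using h0
  have hd := discrim_le_zero key
  unfold discrim at hd
  nlinarith

/-- deterministic single-path statistics in the mass coordinate `v ∈ (0,a)`.
`S = E|X_v|²`, `EW = E W_v`, `TrC = E tr C_v²`, `Mix = E X_vᵀ C_v X_v`, `VarX = Var |X_v|²`,
`M4 = E|X_v|⁴`, `Dsq = D_v²`, `TrH = E tr H_v²`, `hclk` = field clock, `msz` = number of sites;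
`c0` = constant of the pinned inequality (A1) for `p = 2`.
`μ` = mesh of the hierarchy in the mass coordinate (continuous clocks: `μ = 0`; finite hierarchies:
all statistics are step functions of the levels, `hclk` = the continuous clock that is sampled, and the
source inequality reaches the next level; a constant `c_sp` of the discrete source inequality is
absorbed in `msz`). -/
structure L11Mass where
  a : ℝ
  c0 : ℝ
  msz : ℝ
  μ : ℝ
  S : ℝ → ℝ
  hclk : ℝ → ℝ
  TrH : ℝ → ℝ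
  EW : ℝ → ℝ
  TrC : ℝ → ℝ
  Mix : ℝ → ℝ
  VarX : ℝ → ℝ
  M4 : ℝ → ℝ
  Dsq : ℝ → ℝ

/-- the imports of the mass layer -/
structure L11Mass.Ok (d : L11Mass) : Prop where
  a_pos : 0 < d.a
  c0_nonneg : 0 ≤ d.c0
  msz_pos : 0 < d.msz
  μ_nonneg : 0 ≤ d.μ
  S_mono : Monotone d.S
  TrH_b : ∃ C, L11Bdd d.TrH C
  EW_b : ∃ C, L11Bdd d.EW C
  TrC_b : ∃ C, L11Bdd d.TrC C
  Mix_b : ∃ C, L11Bdd d.Mix C
  VarX_b : ∃ C, L11Bdd d.VarX C
  M4_b : ∃ C, L11Bdd d.M4 C
  dsq : ∀ v, d.Dsq v = d.VarX v + 2 * d.Mix v + d.TrC v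
  trc : ∀ v, 0 < v → v < d.a → v * d.TrC v ≤ d.EW v
  src1 : ∀ v, 0 < v → v < d.a → v * d.EW v ≤ d.TrH v
  src2 : ∀ v1 v2 κ, 0 < v1 → v1 ≤ v2 → v2 ≤ d.a → 0 ≤ κ →
    (∀ u1 u2, v1 ≤ u1 → u1 ≤ u2 → u2 ≤ v2 → κ * (u2 - u1) ≤ d.hclk u2 - d.hclk u1) →
    d.msz * κ * ∫ v in v1..v2, d.TrH v ≤ d.S (v2 + d.μ) - d.S v1
  mix : ∀ v, 0 < v → v < d.a → d.Mix v ^ 2 ≤ d.M4 v * d.TrC v
  slide : ∀ v h, 0 < h → 0 ≤ v - h → v + h ≤ d.a →
    d.VarX v ≤ 2 * (d.S (v + h) - d.S (v - h)) ^ 2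
      + 8 * d.c0 / h ^ 2 * ∫ u in (v - h)..(v + h), d.EW u

namespace L11Mass
variable {d : L11Mass}

theorem iEW (hd : d.Ok) (a b : ℝ) : IntervalIntegrable d.EW volume a b :=
  let ⟨_, h⟩ := hd.EW_b; l11_ii h a b
theorem iTrH (hd : d.Ok) (a b : ℝ) : IntervalIntegrable d.TrH volume a b :=
  let ⟨_, h⟩ := hd.TrH_b; l11_ii h a b
theorem iTrC (hd : d.Ok) (a b : ℝ) : IntervalIntegrable d.TrC volume a b :=
  let ⟨_, h⟩ := hd.TrC_b; l11_ii h a b
theorem iMix (hd : d.Ok) (a b : ℝ) : IntervalIntegrable d.Mix volume a b :=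
  let ⟨_, h⟩ := hd.Mix_b; l11_ii h a b
theorem iVarX (hd : d.Ok) (a b : ℝ) : IntervalIntegrable d.VarX volume a b :=
  let ⟨_, h⟩ := hd.VarX_b; l11_ii h a b
theorem iM4 (hd : d.Ok) (a b : ℝ) : IntervalIntegrable d.M4 volume a b :=
  let ⟨_, h⟩ := hd.M4_b; l11_ii h a b
theorem EW0 (hd : d.Ok) (v : ℝ) : 0 ≤ d.EW v := let ⟨_, h⟩ := hd.EW_b; h.nonneg v
theorem TrC0 (hd : d.Ok) (v : ℝ) : 0 ≤ d.TrC v := let ⟨_, h⟩ := hd.TrC_b; h.nonneg v
theorem Mix0 (hd : d.Ok) (v : ℝ) : 0 ≤ d.Mix v := let ⟨_, h⟩ := hd.Mix_b; h.nonneg v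
theorem VarX0 (hd : d.Ok) (v : ℝ) : 0 ≤ d.VarX v := let ⟨_, h⟩ := hd.VarX_b; h.nonneg v
theorem M40 (hd : d.Ok) (v : ℝ) : 0 ≤ d.M4 v := let ⟨_, h⟩ := hd.M4_b; h.nonneg v

/-- trace part -/
theorem int_TrC (hd : d.Ok) {v1 v2 vmin W : ℝ} (hvmin : 0 < vmin) (h1 : vmin ≤ v1) (h12 : v1 ≤ v2)
    (h2 : v2 ≤ d.a) (hW : ∫ v in v1..v2, d.EW v ≤ W) :
    ∫ v in v1..v2, d.TrC v ≤ W / vmin := by
  have h : ∫ v in v1..v2, d.TrC v ≤ ∫ v in v1..v2, d.EW v * vmin⁻¹ := by
    refine intervalIntegral.integral_mono_on_of_le_Ioo h12 (iTrC hd _ _) ((iEW hd _ _).mul_const _) ?_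
    intro v hv
    have := hd.trc v (by linarith [hv.1]) (by linarith [hv.2])
    have h0 := TrC0 hd v
    rw [← div_eq_mul_inv, le_div_iff₀ hvmin]
    nlinarith [hv.1]
  rw [intervalIntegral.integral_mul_const] at h
  calc _ ≤ _ := h
    _ ≤ W * vmin⁻¹ := by gcongr
    _ = W / vmin := (div_eq_mul_inv _ _).symm

/-- mixed part by Cauchy-Schwarz -/
theorem int_Mix (hd : d.Ok) {v1 v2 vmin W R4 : ℝ} (hvmin : 0 < vmin) (h1 : vmin ≤ v1)
    (h12 : v1 ≤ v2) (h2 : v2 ≤ d.a) (hW : ∫ v in v1..v2, d.EW v ≤ W)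
    (hR4 : ∀ v ∈ Ioo v1 v2, d.M4 v ≤ R4 ^ 2) (hR40 : 0 ≤ R4) :
    ∫ v in v1..v2, d.Mix v ≤ R4 * Real.sqrt ((v2 - v1) * W / vmin) := by
  have hcs := l11_cs h12 (iMix hd v1 v2) (iM4 hd v1 v2) (iTrC hd v1 v2)
    (fun v _ => M40 hd v) (fun v _ => TrC0 hd v)
    (fun v hv => hd.mix v (by linarith [hv.1]) (by linarith [hv.2]))
  have hT := int_TrC hd hvmin h1 h12 h2 hW
  have hT0 : 0 ≤ ∫ v in v1..v2, d.TrC v :=
    intervalIntegral.integral_nonneg h12 (fun v _ => TrC0 hd v)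
  have hM : ∫ v in v1..v2, d.M4 v ≤ R4 ^ 2 * (v2 - v1) := by
    have : ∫ v in v1..v2, d.M4 v ≤ ∫ _v in v1..v2, R4 ^ 2 :=
      intervalIntegral.integral_mono_on_of_le_Ioo h12 (iM4 hd _ _) intervalIntegrable_const hR4
    simpa [mul_comm] using this
  have hM0 : 0 ≤ ∫ v in v1..v2, d.M4 v :=
    intervalIntegral.integral_nonneg h12 (fun v _ => M40 hd v)
  have h3 : (∫ v in v1..v2, d.Mix v) ^ 2 ≤ R4 ^ 2 * ((v2 - v1) * W / vmin) := by
    calc _ ≤ _ := hcs
      _ ≤ (R4 ^ 2 * (v2 - v1)) * (W / vmin) := by gcongr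
      _ = _ := by ring
  have h4 : ∫ v in v1..v2, d.Mix v ≤ Real.sqrt (R4 ^ 2 * ((v2 - v1) * W / vmin)) :=
    Real.le_sqrt_of_sq_le h3
  rwa [Real.sqrt_mul (sq_nonneg _), Real.sqrt_sq hR40] at h4

/-- variance part: mass averaging with windows of width `h` (any `h > 0`). -/
theorem int_VarX (hd : d.Ok) {v1 v2 W Rv h : ℝ} (h1 : 0 ≤ v1) (h12 : v1 ≤ v2)
    (h2 : v2 ≤ d.a) (hW : ∫ v in v1..v2, d.EW v ≤ W)
    (hRv : ∀ v ∈ Ioo v1 v2, d.VarX v ≤ Rv ^ 2) (hS : d.S v2 - d.S v1 ≤ Rv) (hh : 0 < h) :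
    ∫ v in v1..v2, d.VarX v ≤ 6 * h * Rv ^ 2 + 16 * d.c0 * W / h := by
  have hW0 : 0 ≤ W := le_trans (intervalIntegral.integral_nonneg h12 (fun v _ => EW0 hd v)) hW
  have hc0 := hd.c0_nonneg
  have hpos : 0 ≤ 16 * d.c0 * W / h := by positivity
  have hedge : ∀ s t, v1 ≤ s → s ≤ t → t ≤ v2 → ∫ v in s..t, d.VarX v ≤ (t - s) * Rv ^ 2 := by
    intro s t hs hst ht
    have : ∫ v in s..t, d.VarX v ≤ ∫ _v in s..t, Rv ^ 2 :=
      intervalIntegral.integral_mono_on_of_le_Ioo hst (iVarX hd _ _) intervalIntegrable_const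
        (fun v hv => hRv v ⟨by linarith [hv.1], by linarith [hv.2]⟩)
    simpa using this
  by_cases hcase : v2 - v1 ≤ 2 * h
  · have := hedge v1 v2 le_rfl h12 le_rfl
    nlinarith [sq_nonneg Rv]
  · push Not at hcase
    have hRv0 : 0 ≤ Rv := le_trans (sub_nonneg.2 (hd.S_mono h12)) hS
    set F : ℝ → ℝ := fun t => ∫ u in v1..t, d.EW u with hF
    have hFm : Monotone F := by
      intro s t hst
      have : F t - F s = ∫ u in s..t, d.EW u :=
        intervalIntegral.integral_interval_sub_left (iEW hd _ _) (iEW hd _ _)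
      have h0 : 0 ≤ ∫ u in s..t, d.EW u :=
        intervalIntegral.integral_nonneg hst (fun v _ => EW0 hd v)
      linarith
    have hsplit : ∫ v in v1..v2, d.VarX v = (∫ v in v1..(v1 + h), d.VarX v)
        + (∫ v in (v1 + h)..(v2 - h), d.VarX v) + ∫ v in (v2 - h)..v2, d.VarX v := by
      rw [intervalIntegral.integral_add_adjacent_intervals (iVarX hd _ _) (iVarX hd _ _),
        intervalIntegral.integral_add_adjacent_intervals (iVarX hd _ _) (iVarX hd _ _)]
    have he1 := hedge v1 (v1 + h) le_rfl (by linarith) (by linarith)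
    have he2 := hedge (v2 - h) v2 (by linarith) (by linarith) le_rfl
    have iS : IntervalIntegrable (fun v => d.S (v + h) - d.S (v - h)) volume (v1 + h) (v2 - h) :=
      ((hd.S_mono.comp (fun x y hxy => by linarith : Monotone fun z : ℝ => z + h)).intervalIntegrable).sub
        ((hd.S_mono.comp (fun x y hxy => by linarith : Monotone fun z : ℝ => z - h)).intervalIntegrable)
    have iF : IntervalIntegrable (fun v => F (v + h) - F (v - h)) volume (v1 + h) (v2 - h) :=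
      ((hFm.comp (fun x y hxy => by linarith : Monotone fun z : ℝ => z + h)).intervalIntegrable).sub
        ((hFm.comp (fun x y hxy => by linarith : Monotone fun z : ℝ => z - h)).intervalIntegrable)
    have hmid : ∫ v in (v1 + h)..(v2 - h), d.VarX v ≤
        ∫ v in (v1 + h)..(v2 - h), (2 * Rv * (d.S (v + h) - d.S (v - h))
          + 8 * d.c0 / h ^ 2 * (F (v + h) - F (v - h))) := by
      refine intervalIntegral.integral_mono_on (by linarith) (iVarX hd _ _)
        ((iS.const_mul _).add (iF.const_mul _)) ?_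
      intro v hv
      have hsl := hd.slide v h hh (by linarith [hv.1]) (by linarith [hv.2])
      have hFF : F (v + h) - F (v - h) = ∫ u in (v - h)..(v + h), d.EW u :=
        intervalIntegral.integral_interval_sub_left (iEW hd _ _) (iEW hd _ _)
      rw [hFF]
      have hA0 : 0 ≤ d.S (v + h) - d.S (v - h) := sub_nonneg.2 (hd.S_mono (by linarith))
      have hA1 : d.S (v + h) - d.S (v - h) ≤ Rv := by
        have a1 := hd.S_mono (show v + h ≤ v2 by linarith [hv.2])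
        have a2 := hd.S_mono (show v1 ≤ v - h by linarith [hv.1])
        linarith
      nlinarith
    rw [intervalIntegral.integral_add (iS.const_mul _) (iF.const_mul _),
      intervalIntegral.integral_const_mul, intervalIntegral.integral_const_mul] at hmid
    have hs1 := l11_slide_sym hd.S_mono (h := h) (v1 + h) (v2 - h) hh.le
    have hs2 := l11_slide_sym hFm (h := h) (v1 + h) (v2 - h) hh.le
    have e1 : v2 - h + h = v2 := by ring
    have e2 : v1 + h - h = v1 := by ring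
    rw [e1, e2] at hs1 hs2
    have hF1 : F v1 = 0 := by simp [hF]
    have hF2 : F v2 ≤ W := hW
    have hb1 : 2 * Rv * ∫ v in (v1 + h)..(v2 - h), (d.S (v + h) - d.S (v - h)) ≤ 4 * h * Rv ^ 2 := by
      have : ∫ v in (v1 + h)..(v2 - h), (d.S (v + h) - d.S (v - h)) ≤ 2 * h * Rv :=
        le_trans hs1 (by gcongr)
      nlinarith
    have hb2 : 8 * d.c0 / h ^ 2 * ∫ v in (v1 + h)..(v2 - h), (F (v + h) - F (v - h))
        ≤ 16 * d.c0 * W / h := by
      have h3 : ∫ v in (v1 + h)..(v2 - h), (F (v + h) - F (v - h)) ≤ 2 * h * W := by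
        refine le_trans hs2 ?_
        rw [hF1, sub_zero]; gcongr
      calc _ ≤ 8 * d.c0 / h ^ 2 * (2 * h * W) := by gcongr
        _ = _ := by field_simp; ring
    rw [hsplit]
    have e3 : v1 + h - v1 = h := by ring
    have e4 : v2 - (v2 - h) = h := by ring
    rw [e3] at he1; rw [e4] at he2
    linarith

/-- **K3**: the general integrated bound for `D_v²` on a mass interval. -/
theorem int_Dsq (hd : d.Ok) {v1 v2 vmin W Rv R4 h : ℝ} (hvmin : 0 < vmin) (h1 : vmin ≤ v1)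
    (h12 : v1 ≤ v2) (h2 : v2 ≤ d.a) (hW : ∫ v in v1..v2, d.EW v ≤ W)
    (hRv : ∀ v ∈ Ioo v1 v2, d.VarX v ≤ Rv ^ 2) (hS : d.S v2 - d.S v1 ≤ Rv)
    (hR4 : ∀ v ∈ Ioo v1 v2, d.M4 v ≤ R4 ^ 2) (hR40 : 0 ≤ R4) (hh : 0 < h) :
    ∫ v in v1..v2, d.Dsq v ≤ 6 * h * Rv ^ 2 + 16 * d.c0 * W / h
      + 2 * (R4 * Real.sqrt ((v2 - v1) * W / vmin)) + W / vmin := by
  have e : d.Dsq = fun v => d.VarX v + 2 * d.Mix v + d.TrC v := funext hd.dsq
  rw [e, intervalIntegral.integral_add ((iVarX hd _ _).add ((iMix hd _ _).const_mul 2)) (iTrC hd _ _),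
    intervalIntegral.integral_add (iVarX hd _ _) ((iMix hd _ _).const_mul 2),
    intervalIntegral.integral_const_mul]
  have a1 := int_VarX hd (by linarith) h12 h2 hW hRv hS hh
  have a2 := int_Mix hd hvmin h1 h12 h2 hW hR4 hR40
  have a3 := int_TrC hd hvmin h1 h12 h2 hW
  linarith

/-- **K3'**: optimised window. -/
theorem int_Dsq' (hd : d.Ok) {v1 v2 vmin W Rv R4 : ℝ} (hvmin : 0 < vmin) (h1 : vmin ≤ v1)
    (h12 : v1 ≤ v2) (h2 : v2 ≤ d.a) (hW : ∫ v in v1..v2, d.EW v ≤ W)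
    (hRv : ∀ v ∈ Ioo v1 v2, d.VarX v ≤ Rv ^ 2) (hS : d.S v2 - d.S v1 ≤ Rv)
    (hR4 : ∀ v ∈ Ioo v1 v2, d.M4 v ≤ R4 ^ 2) (hR40 : 0 ≤ R4) :
    ∫ v in v1..v2, d.Dsq v ≤ (6 + 16 * d.c0) * (Rv * Real.sqrt W)
      + 2 * (R4 * Real.sqrt ((v2 - v1) * W / vmin)) + W / vmin := by
  have hW0 : 0 ≤ W := le_trans (intervalIntegral.integral_nonneg h12 (fun v _ => EW0 hd v)) hW
  have hRv0 : 0 ≤ Rv := le_trans (sub_nonneg.2 (hd.S_mono h12)) hS
  have hc0 := hd.c0_nonneg
  rcases hRv0.eq_or_lt with hR | hR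
  · -- Rv = 0 : let h → ∞
    have key : ∀ h : ℝ, 0 < h → ∫ v in v1..v2, d.Dsq v ≤ 16 * d.c0 * W / h
        + 2 * (R4 * Real.sqrt ((v2 - v1) * W / vmin)) + W / vmin := by
      intro h hh
      have := int_Dsq hd hvmin h1 h12 h2 hW hRv hS hR4 hR40 hh
      rw [← hR] at this
      simpa using this
    rw [← hR]
    simp only [zero_mul, mul_zero, zero_add]
    refine le_of_forall_pos_le_add ?_
    intro ε hε
    have := key ((16 * d.c0 * W + 1) / ε) (by positivity)
    have h3 : 16 * d.c0 * W / ((16 * d.c0 * W + 1) / ε) ≤ ε := by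
      rw [div_div_eq_mul_div, div_le_iff₀ (by positivity)]
      nlinarith [mul_nonneg (mul_nonneg (by norm_num : (0:ℝ) ≤ 16) hc0) hW0]
    linarith
  · rcases hW0.eq_or_lt with hw | hw
    · -- W = 0 : let h → 0
      have key : ∀ h : ℝ, 0 < h → ∫ v in v1..v2, d.Dsq v ≤ 6 * h * Rv ^ 2 := by
        intro h hh
        have := int_Dsq hd hvmin h1 h12 h2 hW hRv hS hR4 hR40 hh
        rw [← hw] at this
        simpa using this
      rw [← hw]
      simp only [Real.sqrt_zero, mul_zero, zero_div, add_zero]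
      refine le_of_forall_pos_le_add ?_
      intro ε hε
      have := key (ε / (6 * Rv ^ 2)) (by positivity)
      have h3 : 6 * (ε / (6 * Rv ^ 2)) * Rv ^ 2 = ε := by field_simp
      linarith
    · have hs : 0 < Real.sqrt W := Real.sqrt_pos.2 hw
      have := int_Dsq hd hvmin h1 h12 h2 hW hRv hS hR4 hR40 (h := Real.sqrt W / Rv) (by positivity)
      have e1 : 6 * (Real.sqrt W / Rv) * Rv ^ 2 = 6 * (Rv * Real.sqrt W) := by field_simp
      have e2 : 16 * d.c0 * W / (Real.sqrt W / Rv) = 16 * d.c0 * (Rv * Real.sqrt W) := by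
        have hWs : Real.sqrt W * Real.sqrt W = W := Real.mul_self_sqrt hW0
        rw [div_div_eq_mul_div, div_eq_iff hs.ne']
        calc 16 * d.c0 * W * Rv = 16 * d.c0 * (Real.sqrt W * Real.sqrt W) * Rv := by rw [hWs]
          _ = _ := by ring
      rw [e1, e2] at this
      linarith

/-- source inequality on an interval with constant lower slope of the field clock. -/
theorem int_EW_slope (hd : d.Ok) {v1 v2 vmin κ : ℝ} (hvmin : 0 < vmin) (h1 : vmin ≤ v1)
    (h12 : v1 ≤ v2) (h2 : v2 ≤ d.a) (hκ : 0 < κ)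
    (hsl : ∀ u1 u2, v1 ≤ u1 → u1 ≤ u2 → u2 ≤ v2 → κ * (u2 - u1) ≤ d.hclk u2 - d.hclk u1) :
    ∫ v in v1..v2, d.EW v ≤ (d.S (v2 + d.μ) - d.S v1) / (d.msz * vmin * κ) := by
  have hm := hd.msz_pos
  have h := hd.src2 v1 v2 κ (by linarith) h12 h2 hκ.le hsl
  have h3 : ∫ v in v1..v2, d.EW v ≤ ∫ v in v1..v2, d.TrH v * vmin⁻¹ := by
    refine intervalIntegral.integral_mono_on_of_le_Ioo h12 (iEW hd _ _) ((iTrH hd _ _).mul_const _) ?_
    intro v hv
    have := hd.src1 v (by linarith [hv.1]) (by linarith [hv.2])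
    have h0 := EW0 hd v
    rw [← div_eq_mul_inv, le_div_iff₀ hvmin]
    nlinarith [hv.1]
  rw [intervalIntegral.integral_mul_const] at h3
  rw [le_div_iff₀ (by positivity)]
  calc (∫ v in v1..v2, d.EW v) * (d.msz * vmin * κ)
      ≤ ((∫ v in v1..v2, d.TrH v) * vmin⁻¹) * (d.msz * vmin * κ) := by gcongr
    _ = d.msz * κ * ∫ v in v1..v2, d.TrH v := by field_simp
    _ ≤ _ := h

/-- auxiliary form of `int_EW_log` that is stable under concatenation of dyads. -/
theorem int_EW_log_aux (hd : d.Ok) {κ0 : ℝ} (hκ : 0 < κ0) (n : ℕ) :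
    ∀ v1 v2 : ℝ, 0 < v1 → d.μ ≤ v1 → v1 ≤ v2 → v2 ≤ d.a → v2 ≤ 2 ^ n * v1 →
    (∀ u1 u2, v1 ≤ u1 → u1 ≤ u2 → u2 ≤ v2 → κ0 * (u2 - u1) ≤ u2 * (d.hclk u2 - d.hclk u1)) →
    ∫ v in v1..v2, d.EW v
      ≤ 2 * (2 * d.S (v2 + d.μ) - d.S v1 - d.S (v1 + d.μ)) / (d.msz * κ0) := by
  have hm := hd.msz_pos
  have hμ := hd.μ_nonneg
  have base0 : ∀ v1 v2 : ℝ, 0 < v1 → v1 ≤ v2 → v2 ≤ d.a → v2 ≤ 2 * v1 →
      (∀ u1 u2, v1 ≤ u1 → u1 ≤ u2 → u2 ≤ v2 → κ0 * (u2 - u1) ≤ u2 * (d.hclk u2 - d.hclk u1)) →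
      ∫ v in v1..v2, d.EW v ≤ 2 * (d.S (v2 + d.μ) - d.S v1) / (d.msz * κ0) := by
    intro v1 v2 h1 h12 h2 h22 hsl
    have hv2 : 0 < v2 := by linarith
    have h := int_EW_slope hd (vmin := v1) (κ := κ0 / v2) h1 le_rfl h12 h2 (by positivity) ?_
    · refine le_trans h ?_
      have hS : 0 ≤ d.S (v2 + d.μ) - d.S v1 := sub_nonneg.2 (hd.S_mono (by linarith))
      rw [div_le_div_iff₀ (by positivity) (by positivity)]
      have e : d.msz * v1 * (κ0 / v2) = d.msz * κ0 * (v1 / v2) := by ring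
      rw [e]
      have hr : 1 ≤ 2 * (v1 / v2) := by
        rw [← mul_div_assoc, le_div_iff₀ hv2]; linarith
      have hmk : 0 ≤ d.msz * κ0 := by positivity
      nlinarith [mul_nonneg hS hmk]
    · intro u1 u2 a1 a2 a3
      have hu2 : 0 < u2 := by linarith
      have := hsl u1 u2 a1 a2 a3
      have hd0 : 0 ≤ u2 - u1 := by linarith
      rw [div_mul_eq_mul_div, div_le_iff₀ hv2]
      have hh0 : 0 ≤ d.hclk u2 - d.hclk u1 := by
        by_contra hneg
        push Not at hneg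
        nlinarith [mul_nonneg hκ.le hd0]
      nlinarith
  have base : ∀ v1 v2 : ℝ, 0 < v1 → v1 ≤ v2 → v2 ≤ d.a → v2 ≤ 2 * v1 →
      (∀ u1 u2, v1 ≤ u1 → u1 ≤ u2 → u2 ≤ v2 → κ0 * (u2 - u1) ≤ u2 * (d.hclk u2 - d.hclk u1)) →
      ∫ v in v1..v2, d.EW v
        ≤ 2 * (2 * d.S (v2 + d.μ) - d.S v1 - d.S (v1 + d.μ)) / (d.msz * κ0) := by
    intro v1 v2 h1 h12 h2 h22 hsl
    refine le_trans (base0 v1 v2 h1 h12 h2 h22 hsl) ?_
    have := hd.S_mono (show v1 + d.μ ≤ v2 + d.μ by linarith)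
    exact div_le_div_of_nonneg_right (by linarith) (by positivity)
  induction n with
  | zero =>
    intro v1 v2 h1 _ h12 h2 h22 hsl
    exact base v1 v2 h1 h12 h2 (by simp at h22; linarith) hsl
  | succ n ih =>
    intro v1 v2 h1 hμ1 h12 h2 h22 hsl
    by_cases hc : v2 ≤ 2 * v1
    · exact base v1 v2 h1 h12 h2 hc hsl
    · push Not at hc
      have b1 := base0 v1 (2 * v1) h1 (by linarith) (by linarith) le_rfl
        (fun u1 u2 a1 a2 a3 => hsl u1 u2 a1 a2 (by linarith))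
      have b2 := ih (2 * v1) v2 (by linarith) (by linarith) hc.le h2
        (by rw [pow_succ] at h22; linarith)
        (fun u1 u2 a1 a2 a3 => hsl u1 u2 (by linarith) a2 a3)
      rw [← intervalIntegral.integral_add_adjacent_intervals (iEW hd v1 (2 * v1)) (iEW hd (2 * v1) v2)]
      have hS := hd.S_mono (show v1 + d.μ ≤ 2 * v1 by linarith)
      have hmk : 0 < d.msz * κ0 := by positivity
      have e : 2 * (d.S (2 * v1 + d.μ) - d.S v1) / (d.msz * κ0)
          + 2 * (2 * d.S (v2 + d.μ) - d.S (2 * v1) - d.S (2 * v1 + d.μ)) / (d.msz * κ0)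
          = 2 * (2 * d.S (v2 + d.μ) - d.S v1 - d.S (2 * v1)) / (d.msz * κ0) := by ring
      have e2 : 2 * (2 * d.S (v2 + d.μ) - d.S v1 - d.S (2 * v1)) / (d.msz * κ0)
          ≤ 2 * (2 * d.S (v2 + d.μ) - d.S v1 - d.S (v1 + d.μ)) / (d.msz * κ0) :=
        div_le_div_of_nonneg_right (by linarith) hmk.le
      linarith

/-- source inequality when `v dh/dv ≥ κ0` (logarithmic slope): dyadic decomposition. -/
theorem int_EW_log (hd : d.Ok) {κ0 : ℝ} (hκ : 0 < κ0) {v1 v2 : ℝ} (h1 : 0 < v1) (hμ1 : d.μ ≤ v1)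
    (h12 : v1 ≤ v2) (h2 : v2 ≤ d.a)
    (hsl : ∀ u1 u2, v1 ≤ u1 → u1 ≤ u2 → u2 ≤ v2 → κ0 * (u2 - u1) ≤ u2 * (d.hclk u2 - d.hclk u1)) :
    ∫ v in v1..v2, d.EW v ≤ 4 * (d.S (v2 + d.μ) - d.S v1) / (d.msz * κ0) := by
  have hm := hd.msz_pos
  obtain ⟨n, hn⟩ := pow_unbounded_of_one_lt (v2 / v1) (by norm_num : (1 : ℝ) < 2)
  have h22 : v2 ≤ 2 ^ n * v1 := by
    rw [div_lt_iff₀ h1] at hn; exact hn.le
  refine le_trans (int_EW_log_aux hd hκ n v1 v2 h1 hμ1 h12 h2 h22 hsl) ?_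
  have := hd.S_mono (show v1 ≤ v1 + d.μ by linarith [hd.μ_nonneg])
  exact div_le_div_of_nonneg_right (by linarith) (by positivity)

/-- **dyad form** (gives (D7c), (D9)): on an interval with `v2 - v1 ≤ vmin ≤ v1` and one raw scale `R`. -/
theorem int_Dsq_dyad (hd : d.Ok) {v1 v2 vmin W R : ℝ} (hvmin : 0 < vmin) (h1 : vmin ≤ v1)
    (h12 : v1 ≤ v2) (h2 : v2 ≤ d.a) (hlen : v2 - v1 ≤ vmin) (hW : ∫ v in v1..v2, d.EW v ≤ W)
    (hRv : ∀ v ∈ Ioo v1 v2, d.VarX v ≤ R ^ 2) (hS : d.S v2 - d.S v1 ≤ R)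
    (hR4 : ∀ v ∈ Ioo v1 v2, d.M4 v ≤ R ^ 2) (hRt : ∀ v ∈ Ioo v1 v2, d.TrC v ≤ R ^ 2) :
    ∫ v in v1..v2, d.Dsq v ≤ (9 + 16 * d.c0) * (R * Real.sqrt W) := by
  have hW0 : 0 ≤ W := le_trans (intervalIntegral.integral_nonneg h12 (fun v _ => EW0 hd v)) hW
  have hR0 : 0 ≤ R := le_trans (sub_nonneg.2 (hd.S_mono h12)) hS
  have e : d.Dsq = fun v => d.VarX v + 2 * d.Mix v + d.TrC v := funext hd.dsq
  -- variance part through K3' with vanishing other parts is not available; redo the three parts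
  have hc0 := hd.c0_nonneg
  have a2 := int_Mix hd hvmin h1 h12 h2 hW hR4 hR0
  have a3 := int_TrC hd hvmin h1 h12 h2 hW
  have a3' : ∫ v in v1..v2, d.TrC v ≤ R ^ 2 * (v2 - v1) := by
    have : ∫ v in v1..v2, d.TrC v ≤ ∫ _v in v1..v2, R ^ 2 :=
      intervalIntegral.integral_mono_on_of_le_Ioo h12 (iTrC hd _ _) intervalIntegrable_const hRt
    simpa [mul_comm] using this
  have hT0 : 0 ≤ ∫ v in v1..v2, d.TrC v :=
    intervalIntegral.integral_nonneg h12 (fun v _ => TrC0 hd v)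
  have hsq : Real.sqrt ((v2 - v1) * W / vmin) ≤ Real.sqrt W := by
    apply Real.sqrt_le_sqrt
    rw [div_le_iff₀ hvmin]
    nlinarith
  have hT : ∫ v in v1..v2, d.TrC v ≤ R * Real.sqrt W := by
    have h5 : (∫ v in v1..v2, d.TrC v) ^ 2 ≤ (R * Real.sqrt W) ^ 2 := by
      rw [mul_pow, Real.sq_sqrt hW0, sq]
      calc (∫ v in v1..v2, d.TrC v) * (∫ v in v1..v2, d.TrC v)
          ≤ (R ^ 2 * (v2 - v1)) * (W / vmin) := by gcongr
        _ = R ^ 2 * ((v2 - v1) * W / vmin) := by ring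
        _ ≤ R ^ 2 * W := by
            gcongr
            rw [div_le_iff₀ hvmin]; nlinarith
    exact abs_le_of_sq_le_sq' h5 (by positivity) |>.2
  have hV : ∫ v in v1..v2, d.VarX v ≤ (6 + 16 * d.c0) * (R * Real.sqrt W) := by
    rcases hR0.eq_or_lt with hR | hR
    · have : ∫ v in v1..v2, d.VarX v ≤ ∫ _v in v1..v2, R ^ 2 :=
        intervalIntegral.integral_mono_on_of_le_Ioo h12 (iVarX hd _ _) intervalIntegrable_const hRv
      rw [← hR] at this ⊢
      simpa using this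
    · rcases hW0.eq_or_lt with hw | hw
      · rw [← hw]
        simp only [Real.sqrt_zero, mul_zero]
        refine le_of_forall_pos_le_add ?_
        intro ε hε
        have := int_VarX hd (by linarith) h12 h2 hW hRv hS (h := ε / (6 * R ^ 2)) (by positivity)
        rw [← hw] at this
        have h3 : 6 * (ε / (6 * R ^ 2)) * R ^ 2 = ε := by field_simp
        rw [h3] at this
        simpa using this
      · have hs : 0 < Real.sqrt W := Real.sqrt_pos.2 hw
        have := int_VarX hd (by linarith) h12 h2 hW hRv hS (h := Real.sqrt W / R) (by positivity)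
        have e1 : 6 * (Real.sqrt W / R) * R ^ 2 = 6 * (R * Real.sqrt W) := by field_simp
        have e2 : 16 * d.c0 * W / (Real.sqrt W / R) = 16 * d.c0 * (R * Real.sqrt W) := by
          have hWs : Real.sqrt W * Real.sqrt W = W := Real.mul_self_sqrt hW0
          rw [div_div_eq_mul_div, div_eq_iff hs.ne']
          calc 16 * d.c0 * W * R = 16 * d.c0 * (Real.sqrt W * Real.sqrt W) * R := by rw [hWs]
            _ = _ := by ring
        rw [e1, e2] at this
        linarith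
  rw [e, intervalIntegral.integral_add ((iVarX hd _ _).add ((iMix hd _ _).const_mul 2)) (iTrC hd _ _),
    intervalIntegral.integral_add (iVarX hd _ _) ((iMix hd _ _).const_mul 2),
    intervalIntegral.integral_const_mul]
  have a2' : ∫ v in v1..v2, d.Mix v ≤ R * Real.sqrt W := le_trans a2 (by gcongr)
  linarith

/-- variance part with the optimal window. -/
theorem int_VarX' (hd : d.Ok) {v1 v2 W R : ℝ} (h1 : 0 ≤ v1) (h12 : v1 ≤ v2) (h2 : v2 ≤ d.a)
    (hW : ∫ v in v1..v2, d.EW v ≤ W)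
    (hRv : ∀ v ∈ Ioo v1 v2, d.VarX v ≤ R ^ 2) (hS : d.S v2 - d.S v1 ≤ R) :
    ∫ v in v1..v2, d.VarX v ≤ (6 + 16 * d.c0) * (R * Real.sqrt W) := by
  have hW0 : 0 ≤ W := le_trans (intervalIntegral.integral_nonneg h12 (fun v _ => EW0 hd v)) hW
  have hR0 : 0 ≤ R := le_trans (sub_nonneg.2 (hd.S_mono h12)) hS
  rcases hR0.eq_or_lt with hR | hR
  · have : ∫ v in v1..v2, d.VarX v ≤ ∫ _v in v1..v2, R ^ 2 :=
      intervalIntegral.integral_mono_on_of_le_Ioo h12 (iVarX hd _ _) intervalIntegrable_const hRv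
    rw [← hR] at this ⊢
    simpa using this
  · rcases hW0.eq_or_lt with hw | hw
    · rw [← hw]
      simp only [Real.sqrt_zero, mul_zero]
      refine le_of_forall_pos_le_add ?_
      intro ε hε
      have := int_VarX hd h1 h12 h2 hW hRv hS (h := ε / (6 * R ^ 2)) (by positivity)
      rw [← hw] at this
      have h3 : 6 * (ε / (6 * R ^ 2)) * R ^ 2 = ε := by field_simp
      rw [h3] at this
      simpa using this
    · have hs : 0 < Real.sqrt W := Real.sqrt_pos.2 hw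
      have := int_VarX hd h1 h12 h2 hW hRv hS (h := Real.sqrt W / R) (by positivity)
      have e1 : 6 * (Real.sqrt W / R) * R ^ 2 = 6 * (R * Real.sqrt W) := by field_simp
      have e2 : 16 * d.c0 * W / (Real.sqrt W / R) = 16 * d.c0 * (R * Real.sqrt W) := by
        have hWs : Real.sqrt W * Real.sqrt W = W := Real.mul_self_sqrt hW0
        rw [div_div_eq_mul_div, div_eq_iff hs.ne']
        calc 16 * d.c0 * W * R = 16 * d.c0 * (Real.sqrt W * Real.sqrt W) * R := by rw [hWs]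
          _ = _ := by ring
      rw [e1, e2] at this
      linarith

/-- **split form** (coarse paths): raw bounds below `θ`, division by `v` above. -/
theorem int_Dsq_split (hd : d.Ok) {v1 θ v2 W R : ℝ} (h1 : 0 < v1) (h1θ : v1 ≤ θ) (hθ2 : θ ≤ v2)
    (h2 : v2 ≤ d.a) (hW : ∫ v in v1..v2, d.EW v ≤ W)
    (hRv : ∀ v ∈ Ioo v1 v2, d.VarX v ≤ R ^ 2) (hS : d.S v2 - d.S v1 ≤ R)
    (hR4 : ∀ v ∈ Ioo v1 v2, d.M4 v ≤ R ^ 2) (hRt : ∀ v ∈ Ioo v1 v2, d.TrC v ≤ R ^ 2) :
    ∫ v in v1..v2, d.Dsq v ≤ (6 + 16 * d.c0) * (R * Real.sqrt W) + 3 * (R ^ 2 * (θ - v1))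
      + 2 * (R * Real.sqrt (W * Real.log (v2 / θ))) + W / θ := by
  have h12 : v1 ≤ v2 := h1θ.trans hθ2
  have hθ : 0 < θ := by linarith
  have hW0 : 0 ≤ W := le_trans (intervalIntegral.integral_nonneg h12 (fun v _ => EW0 hd v)) hW
  have hR0 : 0 ≤ R := le_trans (sub_nonneg.2 (hd.S_mono h12)) hS
  have hWθ : ∫ v in θ..v2, d.EW v ≤ W := by
    have := intervalIntegral.integral_add_adjacent_intervals (iEW hd v1 θ) (iEW hd θ v2)
    have h0 : 0 ≤ ∫ v in v1..θ, d.EW v := intervalIntegral.integral_nonneg h1θ (fun v _ => EW0 hd v)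
    linarith
  have hV := int_VarX' hd h1.le h12 h2 hW hRv hS
  -- trace
  have t1 : ∫ v in v1..θ, d.TrC v ≤ R ^ 2 * (θ - v1) := by
    have : ∫ v in v1..θ, d.TrC v ≤ ∫ _v in v1..θ, R ^ 2 :=
      intervalIntegral.integral_mono_on_of_le_Ioo h1θ (iTrC hd _ _) intervalIntegrable_const
        (fun v hv => hRt v ⟨hv.1, by linarith [hv.2]⟩)
    simpa [mul_comm] using this
  have t2 := int_TrC hd hθ le_rfl hθ2 h2 hWθ
  -- mixed
  have hMraw : ∀ v ∈ Ioo v1 v2, d.Mix v ≤ R ^ 2 := by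
    intro v hv
    have a1 := hd.mix v (by linarith [hv.1]) (by linarith [hv.2])
    have a2 := hR4 v hv
    have a3 := hRt v hv
    have a4 : d.Mix v ^ 2 ≤ (R ^ 2) ^ 2 := by
      calc _ ≤ _ := a1
        _ ≤ R ^ 2 * R ^ 2 := by
            have := TrC0 hd v
            have := M40 hd v
            gcongr
        _ = _ := by ring
    exact abs_le_of_sq_le_sq' a4 (by positivity) |>.2
  have m1 : ∫ v in v1..θ, d.Mix v ≤ R ^ 2 * (θ - v1) := by
    have : ∫ v in v1..θ, d.Mix v ≤ ∫ _v in v1..θ, R ^ 2 :=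
      intervalIntegral.integral_mono_on_of_le_Ioo h1θ (iMix hd _ _) intervalIntegrable_const
        (fun v hv => hMraw v ⟨hv.1, by linarith [hv.2]⟩)
    simpa [mul_comm] using this
  have iinv : IntervalIntegrable (fun v : ℝ => R ^ 2 * v⁻¹) volume θ v2 := by
    apply IntervalIntegrable.const_mul
    apply intervalIntegral.intervalIntegrable_inv
    · intro x hx
      rw [uIcc_of_le hθ2] at hx
      exact (by linarith [hx.1] : (0:ℝ) < x).ne'
    · exact continuousOn_id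
  have m2 : ∫ v in θ..v2, d.Mix v ≤ R * Real.sqrt (W * Real.log (v2 / θ)) := by
    have hcs := l11_cs hθ2 (iMix hd θ v2) (iEW hd θ v2) iinv
      (fun v _ => EW0 hd v) (fun v hv => by
        have : 0 < v := by linarith [hv.1]
        positivity)
      (fun v hv => by
        have hv0 : 0 < v := by linarith [hv.1]
        have a1 := hd.mix v hv0 (by linarith [hv.2])
        have a2 := hR4 v ⟨by linarith [hv.1], hv.2⟩
        have a3 := hd.trc v hv0 (by linarith [hv.2])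
        have a4 : d.TrC v ≤ d.EW v * v⁻¹ := by
          rw [← div_eq_mul_inv, le_div_iff₀ hv0]; linarith
        calc _ ≤ _ := a1
          _ ≤ R ^ 2 * (d.EW v * v⁻¹) := by
              have := TrC0 hd v
              gcongr
          _ = _ := by ring)
    rw [intervalIntegral.integral_const_mul, integral_inv_of_pos hθ (by linarith)] at hcs
    have hlog : 0 ≤ Real.log (v2 / θ) := Real.log_nonneg (by rw [le_div_iff₀ hθ]; linarith)
    have h3 : (∫ v in θ..v2, d.Mix v) ^ 2 ≤ R ^ 2 * (W * Real.log (v2 / θ)) := by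
      calc _ ≤ _ := hcs
        _ ≤ W * (R ^ 2 * Real.log (v2 / θ)) := by gcongr
        _ = _ := by ring
    have h4 := Real.le_sqrt_of_sq_le h3
    rwa [Real.sqrt_mul (sq_nonneg _), Real.sqrt_sq hR0] at h4
  have e : d.Dsq = fun v => d.VarX v + 2 * d.Mix v + d.TrC v := funext hd.dsq
  rw [e, intervalIntegral.integral_add ((iVarX hd _ _).add ((iMix hd _ _).const_mul 2)) (iTrC hd _ _),
    intervalIntegral.integral_add (iVarX hd _ _) ((iMix hd _ _).const_mul 2),
    intervalIntegral.integral_const_mul,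
    ← intervalIntegral.integral_add_adjacent_intervals (iMix hd v1 θ) (iMix hd θ v2),
    ← intervalIntegral.integral_add_adjacent_intervals (iTrC hd v1 θ) (iTrC hd θ v2)]
  linarith

end L11Mass

end Claimed.Agent.R286
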