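/-
Row 286 (S0533), LL sec. 8, package L12, architect helper163.

DEFS-FREE CONTRACTS, part B:  **D11.d = L¹-stability of the scalar response `Γ` in the time profile** (08-statistics.tex l.1195-1207;
the paper only points into the proof of Lemma 5.2: "post/post Hessian kernel ... O(1+M) for mixtures as well").

Scalar Parisi recursion on a finite time grid.  A stage is a pair `(α, s)` = (mass, variance increment), head of the list = first revealed.
  `l12T α s F`        one stage  `α⁻¹ log E exp (α F (z + √s ξ))`   (`α = 0`: expectation)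
  `l12V F l`          continuation with the remaining stages `l`      (= `V(t, ·)`)
  `l12Ex F g pre post`  `E_z [ g (Z_end of pre) ]` under the Parisi (positive) law, `post` = the stages after `pre`
  `l12Gam a l j`      `Γ(t_j) = E [ V_z(t_j, Z_{t_j})² ]`, terminal function `a⁻¹ log cosh (a z)`

ROUTE (checked on paper by 163, notes/R286/L12_helper163.md G1).  `α_u = (1-u) α + u α'` is monotone, `β = α' - α`, `m_k = V_k'`, `Π_k` the Markov operator of stage `k`.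
  (S1) `Π_k 1 = 1`, positivity.  (S2) `V_{k-1}' = Π_k V_k'`; invariant class `|F'| ≤ 1`, `0 ≤ F'' ≤ a (1 - F'²)` for `0 ≤ α ≤ a`.
  (S3) `(Π_k φ)' = Π_k φ' + α_k (Π_k[φ m_k] - m_{k-1} Π_k φ)`.
  (SCORE) for `Φ_l = Π_{l+1} ⋯ Π_i φ` the function `Ψ_l = Φ_l' + α_{l+1} m_l Φ_l` satisfies `Ψ_{l-1} = Π_l Ψ_l - (α_{l+1} - α_l) Π_l [m_l Φ_l]`,
      hence `sup |Φ_l'| ≤ sup |φ'| + 3 a sup |φ|`:  NO factor `exp (∫ α V_zz)` (the naive Grönwall bound `e^{4M}` would be fatal).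
  (S4) `|Π[φψ] - Πφ Πψ| ≤ C s Lip φ Lip ψ` for `s ≤ s0` (density of the tilted law `≤ e^{a √s |ξ|}`).
  (S5) `e_k = (Π_k V_k - V_{k-1})/α_k`:  `0 ≤ e_k ≤ C s_k`, `|e_k'| ≤ C s_k`.
  (S6) `∂_u V_{k-1} = Π_k ∂_u V_k + β_k e_k`, so `∂_u V_k = Σ_{i>k} β_i Π_{k+1} ⋯ Π_{i-1} e_i`, `|∂_u V_k| + |∂_u m_k| ≤ C ‖β‖₁` by (SCORE).
  (S7) `G_k = Π_{k+1} ⋯ Π_j m_j²`:  `∂_u G_{k-1} = Π_k ∂_u G_k + β_k (Cov_k(G_k, V_k) + α_k e_k G_{k-1}) + α_k (Cov_k(G_k, ∂_u V_k) - β_k e_k G_{k-1})`,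
      each new term `≤ C s_k (|β_k| + ‖β‖₁)`  ⟹  `|∂_u Γ_j| ≤ C (1 + T) ‖β‖₁`.
-/
import Mathlib

set_option autoImplicit false
open MeasureTheory ProbabilityTheory

namespace Claimed.Agent.R286

/-- one stage of the scalar recursion: mass `α`, variance `s`. -/
noncomputable def l12T (α s : ℝ) (F : ℝ → ℝ) (z : ℝ) : ℝ :=
  if α = 0 then ∫ ξ, F (z + Real.sqrt s * ξ) ∂(gaussianReal 0 1)
  else α⁻¹ * Real.log (∫ ξ, Real.exp (α * F (z + Real.sqrt s * ξ)) ∂(gaussianReal 0 1))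

/-- continuation with the remaining stages (head = first revealed), terminal function `F`. -/
noncomputable def l12V (F : ℝ → ℝ) : List (ℝ × ℝ) → ℝ → ℝ
  | [] => F
  | st :: l => l12T st.1 st.2 (l12V F l)

/-- `E_z [ g (Z) ]` after the stages `pre`, the later stages being `post`. -/
noncomputable def l12Ex (F g : ℝ → ℝ) : List (ℝ × ℝ) → List (ℝ × ℝ) → ℝ → ℝ
  | [], _, z => g z
  | st :: pre, post, z =>
      ∫ ξ, Real.exp (st.1 * (l12V F (pre ++ post) (z + Real.sqrt st.2 * ξ) - l12V F (st :: (pre ++ post)) z))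
        * l12Ex F g pre post (z + Real.sqrt st.2 * ξ) ∂(gaussianReal 0 1)

/-- terminal function at terminal mass `a`. -/
noncomputable def l12term (a z : ℝ) : ℝ := a⁻¹ * Real.log (Real.cosh (a * z))

/-- `Γ` at the `j`-th grid time. -/
noncomputable def l12Gam (a : ℝ) (l : List (ℝ × ℝ)) (j : ℕ) : ℝ :=
  l12Ex (l12term a) (fun z => deriv (l12V (l12term a) (l.drop j)) z ^ 2) (l.take j) (l.drop j) 0

/-- the list of stages of a profile `α` on the grid with increments `s`. -/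
def l12stages {n : ℕ} (α s : Fin n → ℝ) : List (ℝ × ℝ) := List.ofFn (fun k => (α k, s k))

/-- **D11.d** on step profiles: two monotone profiles with values in `[0,a]` on a common fine time grid. -/
def l12_gamma_stab : Prop :=
  ∀ a : ℝ, 0 < a → ∃ C s0 : ℝ, 0 < s0 ∧
    ∀ (n : ℕ) (s α α' : Fin n → ℝ) (j : ℕ), j ≤ n →
      (∀ k, 0 ≤ s k ∧ s k ≤ s0) → Monotone α → Monotone α' →
      (∀ k, 0 ≤ α k ∧ α k ≤ a) → (∀ k, 0 ≤ α' k ∧ α' k ≤ a) →
      |l12Gam a (l12stages α s) j - l12Gam a (l12stages α' s) j|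
        ≤ C * (1 + ∑ k, s k) * ∑ k, |α k - α' k| * s k

/-- Regularity in time (used with D11.d to leave the grid): `Γ` is nondecreasing along the grid, with increments `≤ a² s`. -/
def l12_gamma_lip : Prop :=
  ∀ a : ℝ, 0 < a →
    ∀ (n : ℕ) (s α : Fin n → ℝ) (j : ℕ) (hj : j < n),
      (∀ k, 0 ≤ s k) → (∀ k, 0 ≤ α k ∧ α k ≤ a) →
      0 ≤ l12Gam a (l12stages α s) (j + 1) - l12Gam a (l12stages α s) j ∧
      l12Gam a (l12stages α s) (j + 1) - l12Gam a (l12stages α s) j ≤ a ^ 2 * s ⟨j, hj⟩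

end Claimed.Agent.R286
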