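import Claimed.Agent.R286.Gk.Heat
import Claimed.Agent.R286.Gk.Der
import Claimed.Agent.R286.Fd.RegH
import Claimed.Agent.R286.Fd.RegA
import Claimed.Agent.R286.Defs.Sk
import Claimed.Agent.R286.Defs.GhBasic
import Claimed.Agent.R286.Defs.SkLem
import Claimed.Agent.R286.Fd.ObsTw
import Claimed.Agent.Lib.PLConvex

/-!
# Row 286 (S0533), LL sec. 8, unit SA, step D11.a : FREEZING BY A HELLINGER CONTRACTION      (owner helper233; prefix `l12f_`, `l12f`)      0 sorry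

TEX[LL:prop:statistics-size-accuracy]  (08-statistics.tex l.1019-1036, "Freezing beyond the wall").
The paper: localized Ito calculus for `F(u) = √(1-u²)` along the posterior mean `u = m_i` of a spin.  HERE: NO Ito, no Taylor expansion, no regularisation.
For a `± 1` observable `τ` with posterior probabilities `p, 1-p`:  `√(1-u²) = 2 √(p(1-p))`, and after one more revelation with driver `ξ`
    `E[ √(p'(1-p')) | prefix ] = √(p(1-p)) ∫ √(f₊ f₋)`      (`f_±` = law of `ξ` given the prefix and `τ = ± 1`): a Hellinger affinity.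
It is `≤ 1 - (E₊T - E₋T)²/(4 (E₊T² + E₋T²))` for every statistic `T`; for `T = ξ i₀` (a driver with feature `κ τ`)
    `Cov (ξ i₀, τ | prefix) = κ H(τ,τ) ≥ κ u (1 - u²)`      EXACTLY (Gaussian IBP + recursion of `ghH` + `u C ≼ H`),
and `E_± T² ≤ 2` on a fine level by a Harnack inequality for `ghE` (masses nondecreasing: the scores telescope).

* `l12f_cs`, `l12f_hell`        Cauchy-Schwarz; the abstract contraction lemma (any probability space)
* `l12f_harnack`                `ghE B ls Φ (z + w) ≤ exp (2 a ‖w‖) ghE B ls Φ z` for `Φ ≥ 0`, admissible `ls` (NO dependence on the number of levels)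
* `l12f_ibp`, `l12f_cov`        IBP under the planted transition; the covariance identity
* `l12f_second`, `l12f_small`   conditional second moments of a driver; `≤ 2` on a fine level
* `l12f_step`                   **one level**: `∫ ghD * √(1 - u'²) ≤ (1 - κ² u²/(2 C0)) √(1 - u²)`
* `l12fEx B g pre post z`       planted expectation of `g (field after pre)`; `_bc, _mono, _const, _append, _lin`; `l12f_path_eq` = bridge to `ghPath`
* `l12f_iter`, `l12f_frz`       **iteration**: factor `exp (-(u²/(2 C0)) ∑ κ_l²)`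
SK instance (`1 - obS ≤ exp (-(u²/4) Δh)`): `L08/L12FrzSk.lean`.      The scalar model is the case `n = 1`, `db = 0`.
-/

set_option autoImplicit false

namespace Claimed.Agent.R286

open MeasureTheory ProbabilityTheory Filter Topology Set

/-! ## 0. abstract part -/

/-- Cauchy-Schwarz -/
theorem l12f_cs {Ω : Type} [MeasurableSpace Ω] {ν : Measure Ω} {f g : Ω → ℝ}
    (hf : Integrable (fun ω => f ω ^ 2) ν) (hg : Integrable (fun ω => g ω ^ 2) ν) :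
    (∫ ω, f ω * g ω ∂ν) ^ 2 ≤ (∫ ω, f ω ^ 2 ∂ν) * ∫ ω, g ω ^ 2 ∂ν := by
  obtain ⟨-, hH⟩ := Claimed.Agent.PL.pl_holder_mul hf hg (fun _ => sq_nonneg _) (fun _ => sq_nonneg _)
    (a := 1 / 2) (b := 1 / 2) (by norm_num) (by norm_num) (by norm_num)
  have e : ∀ ω, (f ω ^ 2) ^ (1 / 2 : ℝ) * (g ω ^ 2) ^ (1 / 2 : ℝ) = |f ω * g ω| := by
    intro ω
    rw [← Real.sqrt_eq_rpow, ← Real.sqrt_eq_rpow, Real.sqrt_sq_eq_abs, Real.sqrt_sq_eq_abs, abs_mul]
  simp only [e] at hH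
  have h1 : |∫ ω, f ω * g ω ∂ν| ≤ ∫ ω, |f ω * g ω| ∂ν := abs_integral_le_integral_abs
  have h2 := h1.trans hH
  have h0f : 0 ≤ ∫ ω, f ω ^ 2 ∂ν := integral_nonneg fun _ => sq_nonneg _
  have h0g : 0 ≤ ∫ ω, g ω ^ 2 ∂ν := integral_nonneg fun _ => sq_nonneg _
  calc (∫ ω, f ω * g ω ∂ν) ^ 2 = |∫ ω, f ω * g ω ∂ν| ^ 2 := (sq_abs _).symm
    _ ≤ ((∫ ω, f ω ^ 2 ∂ν) ^ (1 / 2 : ℝ) * (∫ ω, g ω ^ 2 ∂ν) ^ (1 / 2 : ℝ)) ^ 2 := pow_le_pow_left₀ (abs_nonneg _) h2 2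
    _ = _ := by rw [mul_pow, ← Real.sqrt_eq_rpow, ← Real.sqrt_eq_rpow, Real.sq_sqrt h0f, Real.sq_sqrt h0g]

/-- **Hellinger contraction.**  `P` = posterior probability after one more observation (a martingale step: its mean `p` is the prior
probability); `T` = a statistic with conditional second moments `≤ C0` under both hypotheses, whose covariance with `P` is `≥ 2 c p (1-p)`.
Then the Bhattacharyya coefficient contracts by the factor `1 - c²/(2 C0)`. -/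
theorem l12f_hell {Ω : Type} [MeasurableSpace Ω] {ν : Measure Ω} [IsProbabilityMeasure ν]
    {P T : Ω → ℝ} (hPm : AEStronglyMeasurable P ν) (hP0 : ∀ ω, 0 ≤ P ω) (hP1 : ∀ ω, P ω ≤ 1)
    (hTm : AEStronglyMeasurable T ν) (hT2 : Integrable (fun ω => T ω ^ 2) ν)
    {C0 c : ℝ} (hC0 : 0 < C0) (hc : 0 ≤ c)
    (h1 : ∫ ω, T ω ^ 2 * P ω ∂ν ≤ C0 * ∫ ω, P ω ∂ν)
    (h2 : ∫ ω, T ω ^ 2 * (1 - P ω) ∂ν ≤ C0 * (1 - ∫ ω, P ω ∂ν))
    (hN : 2 * c * ((∫ ω, P ω ∂ν) * (1 - ∫ ω, P ω ∂ν)) ≤ |∫ ω, T ω * (P ω - ∫ ω', P ω' ∂ν) ∂ν|) :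
    ∫ ω, Real.sqrt (P ω * (1 - P ω)) ∂ν
      ≤ (1 - c ^ 2 / (2 * C0)) * Real.sqrt ((∫ ω, P ω ∂ν) * (1 - ∫ ω, P ω ∂ν)) := by
  set p : ℝ := ∫ ω, P ω ∂ν with hp
  have hPi : Integrable P ν := Integrable.of_bound hPm 1 (Eventually.of_forall fun ω => by
    rw [Real.norm_eq_abs, abs_of_nonneg (hP0 ω)]; exact hP1 ω)
  have hp0 : 0 ≤ p := integral_nonneg hP0
  have hp1 : p ≤ 1 := by
    have := integral_mono hPi (integrable_const (1 : ℝ)) hP1
    simpa using this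
  have hq0 : 0 ≤ 1 - p := by linarith
  set s : ℝ := Real.sqrt (p * (1 - p)) with hs
  have hs0 : 0 ≤ s := Real.sqrt_nonneg _
  have hs2 : s ^ 2 = p * (1 - p) := Real.sq_sqrt (mul_nonneg hp0 hq0)
  set R : ℝ := ∫ ω, Real.sqrt (P ω * (1 - P ω)) ∂ν with hR
  have hQ0 : ∀ ω, 0 ≤ 1 - P ω := fun ω => by linarith [hP1 ω]
  have hR0 : 0 ≤ R := integral_nonneg fun _ => Real.sqrt_nonneg _
  have hRm : AEStronglyMeasurable (fun ω => Real.sqrt (P ω * (1 - P ω))) ν :=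
    (Real.continuous_sqrt.comp_aestronglyMeasurable (hPm.mul (aestronglyMeasurable_const.sub hPm)))
  have hRi : Integrable (fun ω => Real.sqrt (P ω * (1 - P ω))) ν :=
    Integrable.of_bound hRm 1 (Eventually.of_forall fun ω => by
      rw [Real.norm_eq_abs, abs_of_nonneg (Real.sqrt_nonneg _)]
      exact Real.sqrt_le_one.2 (by nlinarith [hP0 ω, hP1 ω]))
  have hQi : Integrable (fun ω => 1 - P ω) ν := (integrable_const (1 : ℝ)).sub hPi
  have hQI : ∫ ω, (1 - P ω) ∂ν = 1 - p := by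
    rw [integral_sub (integrable_const _) hPi]
    simp [hp]
  have hTP : Integrable (fun ω => T ω ^ 2 * P ω) ν := hT2.mul_bdd (c := 1) hPm (Eventually.of_forall fun ω => by
      rw [Real.norm_eq_abs, abs_of_nonneg (hP0 ω)]; exact hP1 ω)
  have hTQ : Integrable (fun ω => T ω ^ 2 * (1 - P ω)) ν := by
    have : (fun ω => T ω ^ 2 * (1 - P ω)) = fun ω => T ω ^ 2 - T ω ^ 2 * P ω := by funext ω; ring
    rw [this]; exact hT2.sub hTP
  rcases hs0.eq_or_lt with hs' | hs'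
  · -- degenerate prior
    have hcs := l12f_cs (ν := ν) (f := fun ω => Real.sqrt (P ω)) (g := fun ω => Real.sqrt (1 - P ω))
      (by simpa only [Real.sq_sqrt (hP0 _)] using hPi)
      (by simpa only [Real.sq_sqrt (hQ0 _)] using hQi)
    simp only [Real.sq_sqrt (hP0 _), Real.sq_sqrt (hQ0 _), ← Real.sqrt_mul (hP0 _)] at hcs
    rw [hQI, ← hp, ← hs2, ← hs'] at hcs
    have : R = 0 := by nlinarith
    rw [this, ← hs']; simp
  · set α : Ω → ℝ := fun ω => Real.sqrt ((1 - p) * P ω) with hα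
    set β : Ω → ℝ := fun ω => Real.sqrt (p * (1 - P ω)) with hβ
    have hα2 : ∀ ω, α ω ^ 2 = (1 - p) * P ω := fun ω => Real.sq_sqrt (mul_nonneg hq0 (hP0 ω))
    have hβ2 : ∀ ω, β ω ^ 2 = p * (1 - P ω) := fun ω => Real.sq_sqrt (mul_nonneg hp0 (hQ0 ω))
    have hαβ : ∀ ω, α ω * β ω = s * Real.sqrt (P ω * (1 - P ω)) := by
      intro ω
      rw [hα, hβ, hs]
      simp only
      rw [← Real.sqrt_mul (mul_nonneg hq0 (hP0 ω)), ← Real.sqrt_mul (mul_nonneg hp0 hq0)]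
      congr 1; ring
    have ef : ∀ ω, (α ω - β ω) ^ 2 = (1 - p) * P ω + p * (1 - P ω) - 2 * (s * Real.sqrt (P ω * (1 - P ω))) := by
      intro ω
      have : (α ω - β ω) ^ 2 = α ω ^ 2 + β ω ^ 2 - 2 * (α ω * β ω) := by ring
      rw [this, hα2, hβ2, hαβ]
    have hfi : Integrable (fun ω => (α ω - β ω) ^ 2) ν := by
      simp only [ef]
      exact ((hPi.const_mul _).add (hQi.const_mul _)).sub ((hRi.const_mul s).const_mul 2)
    have hfI : ∫ ω, (α ω - β ω) ^ 2 ∂ν = 2 * s * (s - R) := by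
      simp only [ef]
      have i1 : Integrable (fun ω => (1 - p) * P ω) ν := hPi.const_mul _
      have i2 : Integrable (fun ω => p * (1 - P ω)) ν := hQi.const_mul _
      have i3 : Integrable (fun ω => (1 - p) * P ω + p * (1 - P ω)) ν := i1.add i2
      have i4 : Integrable (fun ω => 2 * (s * Real.sqrt (P ω * (1 - P ω)))) ν := (hRi.const_mul s).const_mul 2
      rw [integral_sub i3 i4, integral_add i1 i2,
        integral_const_mul, integral_const_mul, integral_const_mul, integral_const_mul, hQI, ← hp, ← hR]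
      nlinarith
    have hαm : AEStronglyMeasurable α ν := Real.continuous_sqrt.comp_aestronglyMeasurable (hPm.const_mul _)
    have hβm : AEStronglyMeasurable β ν :=
      Real.continuous_sqrt.comp_aestronglyMeasurable ((aestronglyMeasurable_const.sub hPm).const_mul _)
    have hgle : ∀ ω, (T ω * (α ω + β ω)) ^ 2 ≤ 2 * ((1 - p) * (T ω ^ 2 * P ω) + p * (T ω ^ 2 * (1 - P ω))) := by
      intro ω
      have h3 : (α ω + β ω) ^ 2 ≤ 2 * (α ω ^ 2 + β ω ^ 2) := by nlinarith [sq_nonneg (α ω - β ω)]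
      rw [hα2, hβ2] at h3
      calc (T ω * (α ω + β ω)) ^ 2 = T ω ^ 2 * (α ω + β ω) ^ 2 := by ring
        _ ≤ T ω ^ 2 * (2 * ((1 - p) * P ω + p * (1 - P ω))) := mul_le_mul_of_nonneg_left h3 (sq_nonneg _)
        _ = _ := by ring
    have hbi : Integrable (fun ω => 2 * ((1 - p) * (T ω ^ 2 * P ω) + p * (T ω ^ 2 * (1 - P ω)))) ν :=
      ((hTP.const_mul _).add (hTQ.const_mul _)).const_mul 2
    have hgi : Integrable (fun ω => (T ω * (α ω + β ω)) ^ 2) ν :=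
      hbi.mono' ((hTm.mul (hαm.add hβm)).pow 2) (Eventually.of_forall fun ω => by
        rw [Real.norm_eq_abs, abs_of_nonneg (sq_nonneg _)]; exact hgle ω)
    have hgI : ∫ ω, (T ω * (α ω + β ω)) ^ 2 ∂ν ≤ 4 * C0 * s ^ 2 := by
      refine (integral_mono hgi hbi hgle).trans ?_
      rw [integral_const_mul, integral_add (hTP.const_mul _) (hTQ.const_mul _), integral_const_mul, integral_const_mul, hs2]
      nlinarith [mul_le_mul_of_nonneg_left h1 hq0, mul_le_mul_of_nonneg_left h2 hp0]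
    have hcs := l12f_cs hfi hgi
    have efg : ∀ ω, (α ω - β ω) * (T ω * (α ω + β ω)) = T ω * (P ω - p) := by
      intro ω
      have : (α ω - β ω) * (T ω * (α ω + β ω)) = T ω * (α ω ^ 2 - β ω ^ 2) := by ring
      rw [this, hα2, hβ2]; ring
    simp only [efg] at hcs
    rw [hfI] at hcs
    have hsR : 0 ≤ 2 * s * (s - R) := by rw [← hfI]; exact integral_nonneg fun _ => sq_nonneg _
    have h4 : (∫ ω, T ω * (P ω - p) ∂ν) ^ 2 ≤ 2 * s * (s - R) * (4 * C0 * s ^ 2) := hcs.trans (mul_le_mul_of_nonneg_left hgI hsR)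
    have h5 : (2 * c * s ^ 2) ^ 2 ≤ (∫ ω, T ω * (P ω - p) ∂ν) ^ 2 := by
      rw [← sq_abs (∫ ω, T ω * (P ω - p) ∂ν), hs2]
      exact pow_le_pow_left₀ (by positivity) hN 2
    have h6 : c ^ 2 * s ≤ 2 * C0 * (s - R) := by
      have h7 : (4 * s ^ 3) * (c ^ 2 * s) ≤ (4 * s ^ 3) * (2 * C0 * (s - R)) := by nlinarith
      exact le_of_mul_le_mul_left h7 (by positivity)
    have h8 : c ^ 2 / (2 * C0) * s ≤ s - R := by
      rw [div_mul_eq_mul_div, div_le_iff₀ (by positivity)]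
      linarith
    linarith

/-! ## 1. Harnack inequality for planted conditional means of nonnegative observables -/

variable {S ι : Type} [Fintype S] [Fintype ι]

theorem l12f_adm_tail {B : GhB S} {u : ℝ} {l : GhLv S ι} {ls : List (GhLv S ι)} (h : GhAdm B u (l :: ls)) : GhAdm B l.m ls :=
  ⟨(List.pairwise_cons.1 h.1).2, fun l' hl' => ⟨(List.pairwise_cons.1 h.1).1 l' hl', (h.2 l' (List.mem_cons_of_mem _ hl')).2⟩⟩

/-- the unnormalised weight `exp (m F) * E Φ` -/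
noncomputable def l12fG (B : GhB S) (ls : List (GhLv S ι)) (Φ : S → ℝ) (m : ℝ) (y : S → ℝ) : ℝ :=
  Real.exp (m * ghF B ls y) * ghE B ls Φ y

theorem l12f_G_eg {B : GhB S} (hB : B.Ok) (ls : List (GhLv S ι)) (Φ : S → ℝ) (m : ℝ) (k : ℕ) : GkEG k (l12fG B ls Φ m) :=
  (((ghr_F hB ls).const_mul m).exp.eg k).mul ((ghd_E_reg hB ls Φ).eg k)

theorem l12f_G_nonneg {B : GhB S} (hB : B.Ok) (ls : List (GhLv S ι)) {Φ : S → ℝ} (hΦ : ∀ s, 0 ≤ Φ s) (m : ℝ) (y : S → ℝ) :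
    0 ≤ l12fG B ls Φ m y := mul_nonneg (Real.exp_pos _).le (ghr_E_nonneg hB ls hΦ y)

theorem l12f_G_int {B : GhB S} (hB : B.Ok) (ls : List (GhLv S ι)) (Φ : S → ℝ) (m : ℝ) (l : GhLv S ι) (y : S → ℝ) :
    Integrable (fun ξ => l12fG B ls Φ m (y + l.inc ξ)) (ghStd ι) :=
  ((l12f_G_eg hB ls Φ m 0).comp_affine y (ghrInc l)).integrable

/-- one level: `exp (m' F) E Φ` before the level in terms of the weight after it -/
theorem l12f_G_cons {B : GhB S} (l : GhLv S ι) (ls : List (GhLv S ι)) (Φ : S → ℝ) (m' : ℝ) (y : S → ℝ) :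
    l12fG B (l :: ls) Φ m' y = Real.exp ((m' - l.m) * ghF B (l :: ls) y) * ∫ ξ, l12fG B ls Φ l.m (y + l.inc ξ) ∂ghStd ι := by
  unfold l12fG
  rw [ghE, ← integral_const_mul, ← integral_const_mul]
  refine integral_congr_ae (Eventually.of_forall fun ξ => ?_)
  simp only [ghD]
  rw [← mul_assoc, ← mul_assoc, ← Real.exp_add, ← Real.exp_add]
  congr 2
  ring

theorem l12f_harnack_aux {B : GhB S} (hB : B.Ok) {Φ : S → ℝ} (hΦ : ∀ s, 0 ≤ Φ s) :
    ∀ (ls : List (GhLv S ι)) (m' : ℝ), GhAdm B m' ls → m' ≤ B.a → ∀ z w : S → ℝ,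
      l12fG B ls Φ m' (z + w) ≤ Real.exp ((2 * B.a - m') * ‖w‖) * l12fG B ls Φ m' z
  | [], m', _, hm, z, w => by
    have e : ∀ y : S → ℝ, l12fG (ι := ι) B [] Φ m' y = ∑ s, B.w s * Φ s * Real.exp (B.a * y s + (m' - B.a) * ghF0 B y) := by
      intro y
      unfold l12fG
      simp only [ghF, ghE]
      rw [Finset.mul_sum]
      refine Finset.sum_congr rfl fun s _ => ?_
      rw [ghr_Gw_eq hB]
      have : Real.exp (B.a * y s + (m' - B.a) * ghF0 B y) = Real.exp (m' * ghF0 B y) * Real.exp (B.a * (y s - ghF0 B y)) := by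
        rw [← Real.exp_add]; congr 1; ring
      rw [this]; ring
    rw [e, e, Finset.mul_sum]
    refine Finset.sum_le_sum fun s _ => ?_
    rw [mul_left_comm, ← Real.exp_add]
    refine mul_le_mul_of_nonneg_left (Real.exp_le_exp.2 ?_) (mul_nonneg (hB.nonneg s) (hΦ s))
    have h1 : w s ≤ ‖w‖ := (le_abs_self _).trans (norm_le_pi_norm w s)
    have h2 : |ghF (ι := ι) B [] (z + w) - ghF (ι := ι) B [] z| ≤ ‖(z + w) - z‖ := gh_ra_F_lip hB [] _ _
    simp only [ghF, add_sub_cancel_left] at h2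
    have h3 := (abs_le.1 h2).1
    have ha := hB.pos
    simp only [Pi.add_apply]
    nlinarith [mul_le_mul_of_nonneg_left h1 ha.le, mul_le_mul_of_nonneg_left h3 (sub_nonneg.2 hm)]
  | l :: ls, m', h, hm, z, w => by
    have hml : m' ≤ l.m := (h.2 l (List.mem_cons_self ..)).1
    have hla : l.m ≤ B.a := (h.2 l (List.mem_cons_self ..)).2
    have ih := l12f_harnack_aux hB hΦ ls l.m (l12f_adm_tail h) hla
    rw [l12f_G_cons, l12f_G_cons]
    have h1 : ∫ ξ, l12fG B ls Φ l.m (z + w + l.inc ξ) ∂ghStd ι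
        ≤ Real.exp ((2 * B.a - l.m) * ‖w‖) * ∫ ξ, l12fG B ls Φ l.m (z + l.inc ξ) ∂ghStd ι := by
      rw [← integral_const_mul]
      refine integral_mono (l12f_G_int hB ls Φ l.m l _) ((l12f_G_int hB ls Φ l.m l _).const_mul _) fun ξ => ?_
      have := ih (z + l.inc ξ) w
      rwa [add_right_comm] at this
    have h2 : |ghF B (l :: ls) (z + w) - ghF B (l :: ls) z| ≤ ‖(z + w) - z‖ := gh_ra_F_lip hB _ _ _
    rw [add_sub_cancel_left] at h2
    have h3 := (abs_le.1 h2).1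
    have h4 : Real.exp ((m' - l.m) * ghF B (l :: ls) (z + w))
        ≤ Real.exp ((l.m - m') * ‖w‖) * Real.exp ((m' - l.m) * ghF B (l :: ls) z) := by
      rw [← Real.exp_add]
      refine Real.exp_le_exp.2 ?_
      nlinarith [mul_le_mul_of_nonneg_left h3 (sub_nonneg.2 hml)]
    have h5 : 0 ≤ ∫ ξ, l12fG B ls Φ l.m (z + l.inc ξ) ∂ghStd ι := integral_nonneg fun ξ => l12f_G_nonneg hB ls hΦ _ _
    have h6 : 0 ≤ ∫ ξ, l12fG B ls Φ l.m (z + w + l.inc ξ) ∂ghStd ι := integral_nonneg fun ξ => l12f_G_nonneg hB ls hΦ _ _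
    calc Real.exp ((m' - l.m) * ghF B (l :: ls) (z + w)) * ∫ ξ, l12fG B ls Φ l.m (z + w + l.inc ξ) ∂ghStd ι
        ≤ (Real.exp ((l.m - m') * ‖w‖) * Real.exp ((m' - l.m) * ghF B (l :: ls) z))
          * (Real.exp ((2 * B.a - l.m) * ‖w‖) * ∫ ξ, l12fG B ls Φ l.m (z + l.inc ξ) ∂ghStd ι) :=
          mul_le_mul h4 h1 h6 (by positivity)
      _ = (Real.exp ((l.m - m') * ‖w‖) * Real.exp ((2 * B.a - l.m) * ‖w‖))
          * (Real.exp ((m' - l.m) * ghF B (l :: ls) z) * ∫ ξ, l12fG B ls Φ l.m (z + l.inc ξ) ∂ghStd ι) := by ring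
      _ = _ := by
          rw [← Real.exp_add]
          congr 2
          ring

/-- **Harnack**: the planted conditional mean of a nonnegative observable changes at most by the factor `exp (2 a ‖w‖)`. -/
theorem l12f_harnack {B : GhB S} (hB : B.Ok) {Φ : S → ℝ} (hΦ : ∀ s, 0 ≤ Φ s) {ls : List (GhLv S ι)} (h : GhAdm B 0 ls) (z w : S → ℝ) :
    ghE B ls Φ (z + w) ≤ Real.exp (2 * B.a * ‖w‖) * ghE B ls Φ z := by
  have := l12f_harnack_aux hB hΦ ls 0 h hB.pos.le z w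
  simpa [l12fG] using this

/-! ## 2. Gaussian integration by parts under the planted transition; the covariance of a driver with a spin observable -/

theorem l12f_inc_single [DecidableEq ι] (l : GhLv S ι) (i₀ : ι) : l.inc (Pi.single i₀ 1) = fun s => l.A s i₀ := by
  funext s
  simp [GhLv.inc, Pi.single_apply]

theorem l12f_D_eq (B : GhB S) (l : GhLv S ι) (ls : List (GhLv S ι)) (z : S → ℝ) (ξ : ι → ℝ) :
    ghD B l ls z ξ = Real.exp (-(l.m * ghF B (l :: ls) z)) * Real.exp (l.m * ghF B ls (z + l.inc ξ)) := by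
  simp only [ghD]
  rw [← Real.exp_add]
  congr 1
  ring

/-- integrability under the planted transition -/
theorem l12f_D_int {B : GhB S} (hB : B.Ok) (l : GhLv S ι) (ls : List (GhLv S ι)) (z : S → ℝ) {A : (S → ℝ) → ℝ} (hA : GkEG 0 A) :
    Integrable (fun ξ => ghD B l ls z ξ * A (z + l.inc ξ)) (ghStd ι) :=
  ghd_D_mul_integrable (ghr_F hB ls) (ghr_noise l) l.m hA.continuous hA.gr z

/-- **IBP under the planted transition** -/
theorem l12f_ibp [DecidableEq ι] {B : GhB S} (hB : B.Ok) (l : GhLv S ι) (ls : List (GhLv S ι)) (z : S → ℝ)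
    {A : (S → ℝ) → ℝ} (hA : GkEG 1 A) (i₀ : ι) :
    ∫ ξ, ξ i₀ * (ghD B l ls z ξ * A (z + l.inc ξ)) ∂ghStd ι
      = ∫ ξ, ghD B l ls z ξ * (l.m * ghE B ls (fun s => l.A s i₀) (z + l.inc ξ) * A (z + l.inc ξ)
          + fderiv ℝ A (z + l.inc ξ) (fun s => l.A s i₀)) ∂ghStd ι := by
  set V : (S → ℝ) → ℝ := fun y => Real.exp (l.m * ghF B ls y) * A y with hVdef
  have hV : GkEG 1 V := (((ghr_F hB ls).const_mul l.m).exp.eg 1).mul hA
  have hw : GkEG 1 (fun ξ => V (z + ghrInc l ξ)) := hV.comp_affine z (ghrInc l)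
  have key := ghh_ibp hw (Pi.single i₀ 1)
  have e1 : ∀ ξ : ι → ℝ, ∑ i, ξ i * (Pi.single i₀ (1 : ℝ) : ι → ℝ) i = ξ i₀ := by
    intro ξ; simp [Pi.single_apply]
  have e2 : ∀ ξ, fderiv ℝ (fun ξ => V (z + ghrInc l ξ)) ξ (Pi.single i₀ 1) = fderiv ℝ V (z + l.inc ξ) (fun s => l.A s i₀) := by
    intro ξ
    have h1 : HasFDerivAt (fun ξ : ι → ℝ => z + ghrInc l ξ) (ghrInc l) ξ := ((ghrInc l).hasFDerivAt).const_add z
    have h2 := ((hV.differentiable (z + ghrInc l ξ)).hasFDerivAt.comp ξ h1).fderiv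
    have h3 : (V ∘ fun ξ : ι → ℝ => z + ghrInc l ξ) = fun ξ => V (z + ghrInc l ξ) := rfl
    rw [h3] at h2
    rw [h2, ContinuousLinearMap.comp_apply, ghrInc_apply, ghrInc_apply, l12f_inc_single]
  have e3 : ∀ y d : S → ℝ, fderiv ℝ V y d
      = Real.exp (l.m * ghF B ls y) * (l.m * ghE B ls d y * A y + fderiv ℝ A y d) := by
    intro y d
    have h1 := (((ghd_F_hasFDerivAt (ι := ι) hB ls y).const_mul l.m).exp).mul (hA.differentiable y).hasFDerivAt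
    have h2 := h1.fderiv
    have h3 : ((fun y => Real.exp (l.m * ghF B ls y)) * A) = V := rfl
    rw [h3] at h2
    rw [h2]
    simp only [ContinuousLinearMap.add_apply, ContinuousLinearMap.smul_apply, smul_eq_mul, ghd_fderiv_F hB]
    ring
  simp only [e1, e2, e3] at key
  have hL : ∀ ξ, ξ i₀ * (ghD B l ls z ξ * A (z + l.inc ξ))
      = Real.exp (-(l.m * ghF B (l :: ls) z)) * (ξ i₀ * V (z + ghrInc l ξ)) := by
    intro ξ
    rw [l12f_D_eq, ghrInc_apply]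
    simp only [hVdef]
    ring
  have hR : ∀ ξ, ghD B l ls z ξ * (l.m * ghE B ls (fun s => l.A s i₀) (z + l.inc ξ) * A (z + l.inc ξ)
          + fderiv ℝ A (z + l.inc ξ) (fun s => l.A s i₀))
      = Real.exp (-(l.m * ghF B (l :: ls) z)) * (Real.exp (l.m * ghF B ls (z + l.inc ξ))
          * (l.m * ghE B ls (fun s => l.A s i₀) (z + l.inc ξ) * A (z + l.inc ξ) + fderiv ℝ A (z + l.inc ξ) (fun s => l.A s i₀))) := by
    intro ξ
    rw [l12f_D_eq]
    ring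
  simp only [hL, hR]
  rw [integral_const_mul, integral_const_mul, key]

theorem l12f_H_eg {B : GhB S} (hB : B.Ok) (ls : List (GhLv S ι)) (v w : S → ℝ) (k : ℕ) : GkEG k (ghH B ls v w) := by
  have : ghH B ls v w = fun y => fderiv ℝ (ghE B ls v) y w := funext fun y => (ghd_fderiv_E hB ls v w y).symm
  rw [this]
  exact ((ghd_E_reg hB ls v).ghd_dir w).eg k

/-- **the covariance of the driver `ξ i₀` with the posterior mean of `τ`** (feature of the driver `= κ τ`) is `κ H(τ,τ)`: EXACT. -/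
theorem l12f_cov [DecidableEq ι] {B : GhB S} (hB : B.Ok) (l : GhLv S ι) (ls : List (GhLv S ι)) (z : S → ℝ) (τ : S → ℝ) (i₀ : ι) (κ : ℝ)
    (hA : ∀ s, l.A s i₀ = κ * τ s) :
    ∫ ξ, ξ i₀ * (ghD B l ls z ξ * (ghE B ls τ (z + l.inc ξ) - ghE B (l :: ls) τ z)) ∂ghStd ι = κ * ghH B (l :: ls) τ τ z := by
  set U : ℝ := ghE B (l :: ls) τ z with hUdef
  have hU : ∫ ξ, ghD B l ls z ξ * ghE B ls τ (z + l.inc ξ) ∂ghStd ι = U := rfl
  have gE : ∀ k, GkEG k (ghE B ls τ) := fun k => (ghd_E_reg hB ls τ).eg k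
  have gH := l12f_H_eg hB ls τ τ 0
  have i1 := l12f_D_int hB l ls z gH
  have i2 := l12f_D_int hB l ls z ((gE 0).mul (gE 0))
  have i3 := l12f_D_int hB l ls z (gE 0)
  have hc := ghd_center (ghr_F hB ls) (ghr_noise l) l.m l.m (P := ghE B ls τ) (Q := ghE B ls τ) (R := ghH B ls τ τ)
    (gE 0).continuous (gE 0).continuous gH.continuous (gE 0).gr (gE 0).gr gH.gr z
  have hH : ghH B (l :: ls) τ τ z = (∫ ξ, ghD B l ls z ξ * ghH B ls τ τ (z + l.inc ξ) ∂ghStd ι)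
      + l.m * (∫ ξ, ghD B l ls z ξ * (ghE B ls τ (z + l.inc ξ) * ghE B ls τ (z + l.inc ξ)) ∂ghStd ι) - l.m * U * U := hc
  have key := l12f_ibp hB l ls z (A := fun y => ghE B ls τ y - U) ((gE 1).sub (ghh_eg_const 1 U)) i₀
  rw [key, hH]
  have hd : (fun s => l.A s i₀) = fun s => κ * τ s := funext hA
  have e : ∀ ξ, ghD B l ls z ξ * (l.m * ghE B ls (fun s => l.A s i₀) (z + l.inc ξ) * (ghE B ls τ (z + l.inc ξ) - U)
          + fderiv ℝ (fun y => ghE B ls τ y - U) (z + l.inc ξ) (fun s => l.A s i₀))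
      = κ * (ghD B l ls z ξ * ghH B ls τ τ (z + l.inc ξ)
          + l.m * (ghD B l ls z ξ * (ghE B ls τ (z + l.inc ξ) * ghE B ls τ (z + l.inc ξ)))
          - l.m * U * (ghD B l ls z ξ * ghE B ls τ (z + l.inc ξ))) := by
    intro ξ
    rw [hd, ghr_E_smul, fderiv_sub_const, ghd_fderiv_E hB, ghr_H_symm]
    have : (fun s => κ * τ s) = κ • τ := rfl
    rw [this, ghr_H_smul]
    ring
  simp only [e]
  have j2 : Integrable (fun ξ => l.m * (ghD B l ls z ξ * (ghE B ls τ (z + l.inc ξ) * ghE B ls τ (z + l.inc ξ)))) (ghStd ι) :=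
    i2.const_mul _
  have j3 : Integrable (fun ξ => l.m * U * (ghD B l ls z ξ * ghE B ls τ (z + l.inc ξ))) (ghStd ι) := i3.const_mul _
  have j12 : Integrable (fun ξ => ghD B l ls z ξ * ghH B ls τ τ (z + l.inc ξ)
      + l.m * (ghD B l ls z ξ * (ghE B ls τ (z + l.inc ξ) * ghE B ls τ (z + l.inc ξ)))) (ghStd ι) := i1.add j2
  rw [integral_const_mul, integral_sub j12 j3, integral_add i1 j2, integral_const_mul, integral_const_mul, hU]

/-! ## 3. the planted transition as a measure; conditional second moments of a driver -/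

/-- the planted transition through the level `l`, as a law of the driver -/
noncomputable def l12fNu (B : GhB S) (l : GhLv S ι) (ls : List (GhLv S ι)) (z : S → ℝ) : Measure (ι → ℝ) :=
  (ghStd ι).tilted fun ξ => l.m * ghF B ls (z + l.inc ξ)

theorem l12f_nu_prob {B : GhB S} (hB : B.Ok) (l : GhLv S ι) (ls : List (GhLv S ι)) (z : S → ℝ) :
    IsProbabilityMeasure (l12fNu B l ls z) :=
  isProbabilityMeasure_tilted (ghd_exp_integrable (ghr_F hB ls) (ghr_noise l) l.m z)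

theorem l12f_D_eq' {B : GhB S} (hB : B.Ok) (l : GhLv S ι) (ls : List (GhLv S ι)) (z : S → ℝ) (ξ : ι → ℝ) :
    Real.exp (l.m * ghF B ls (z + l.inc ξ)) / ∫ ξ, Real.exp (l.m * ghF B ls (z + l.inc ξ)) ∂ghStd ι = ghD B l ls z ξ := by
  have h := ghd_exp_mul_T (ghr_F hB ls) (ghr_noise l) l.m z
  have h' : Real.exp (l.m * ghF B (l :: ls) z) = ∫ ξ, Real.exp (l.m * ghF B ls (z + l.inc ξ)) ∂ghStd ι := h
  rw [← h', l12f_D_eq, Real.exp_neg, div_eq_inv_mul]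

theorem l12f_nu_integral {B : GhB S} (hB : B.Ok) (l : GhLv S ι) (ls : List (GhLv S ι)) (z : S → ℝ) (g : (ι → ℝ) → ℝ) :
    ∫ ξ, g ξ ∂l12fNu B l ls z = ∫ ξ, ghD B l ls z ξ * g ξ ∂ghStd ι := by
  unfold l12fNu
  rw [integral_tilted]
  simp only [l12f_D_eq' hB, smul_eq_mul]

theorem l12f_nu_integrable {B : GhB S} (hB : B.Ok) (l : GhLv S ι) (ls : List (GhLv S ι)) (z : S → ℝ) {g : (ι → ℝ) → ℝ}
    (hg : GkEG 0 g) : Integrable g (l12fNu B l ls z) := by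
  unfold l12fNu
  rw [integrable_tilted_iff (ghd_exp_integrable (ghr_F hB ls) (ghr_noise l) l.m z)]
  exact (((((ghr_F hB ls).const_mul l.m).exp.eg 0).comp_affine z (ghrInc l)).mul hg).integrable

theorem l12f_eg_coord (k : ℕ) (i₀ : ι) : GkEG k (fun ξ : ι → ℝ => ξ i₀) :=
  ghh_eg_clm k (ContinuousLinearMap.proj (R := ℝ) (φ := fun _ : ι => ℝ) i₀)

theorem l12f_eg_exp_norm (ε : ℝ) : GkEG 0 (fun ξ : ι → ℝ => Real.exp (ε * ‖ξ‖)) :=
  ghh_eg_zero (by fun_prop) (A := 1) (B := ε) fun x => by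
    rw [Real.norm_eq_abs, abs_of_pos (Real.exp_pos _), one_mul]

/-- conditional second moment of the driver `ξ i₀` under the hypothesis weighted by `Φ ≥ 0` -/
theorem l12f_second {B : GhB S} (hB : B.Ok) {u : ℝ} {l : GhLv S ι} {ls : List (GhLv S ι)} (h : GhAdm B u (l :: ls)) (hu : 0 ≤ u)
    {Φ : S → ℝ} (hΦ : ∀ s, 0 ≤ Φ s) (z : S → ℝ) (i₀ : ι) {ε C0 : ℝ} (hε : ∀ ξ, 2 * B.a * ‖l.inc ξ‖ ≤ ε * ‖ξ‖)
    (hC0 : ∫ ξ, ξ i₀ ^ 2 * Real.exp (ε * ‖ξ‖) ∂ghStd ι ≤ C0 * ∫ ξ, Real.exp (-ε * ‖ξ‖) ∂ghStd ι) :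
    ∫ ξ, ghD B l ls z ξ * (ξ i₀ ^ 2 * ghE B ls Φ (z + l.inc ξ)) ∂ghStd ι
      ≤ C0 * ∫ ξ, ghD B l ls z ξ * ghE B ls Φ (z + l.inc ξ) ∂ghStd ι := by
  have hm0 : 0 ≤ l.m := hu.trans (h.2 l (List.mem_cons_self ..)).1
  have hla : l.m ≤ B.a := (h.2 l (List.mem_cons_self ..)).2
  have hk := l12f_harnack_aux hB hΦ ls l.m (l12f_adm_tail h) hla
  set g0 : ℝ := l12fG B ls Φ l.m z with hg0
  have hg0n : 0 ≤ g0 := l12f_G_nonneg hB ls hΦ _ _
  have hexp : ∀ ξ : ι → ℝ, (2 * B.a - l.m) * ‖l.inc ξ‖ ≤ ε * ‖ξ‖ := fun ξ =>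
    (mul_le_mul_of_nonneg_right (by linarith) (norm_nonneg _)).trans (hε ξ)
  have hup : ∀ ξ, l12fG B ls Φ l.m (z + l.inc ξ) ≤ Real.exp (ε * ‖ξ‖) * g0 := fun ξ =>
    (hk z (l.inc ξ)).trans (mul_le_mul_of_nonneg_right (Real.exp_le_exp.2 (hexp ξ)) hg0n)
  have hlo : ∀ ξ, Real.exp (-ε * ‖ξ‖) * g0 ≤ l12fG B ls Φ l.m (z + l.inc ξ) := by
    intro ξ
    have h1 := hk (z + l.inc ξ) (-(l.inc ξ))
    rw [add_neg_cancel_right, norm_neg] at h1
    have h2 : g0 ≤ Real.exp (ε * ‖ξ‖) * l12fG B ls Φ l.m (z + l.inc ξ) :=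
      h1.trans (mul_le_mul_of_nonneg_right (Real.exp_le_exp.2 (hexp ξ)) (l12f_G_nonneg hB ls hΦ _ _))
    have h3 := mul_le_mul_of_nonneg_left h2 (Real.exp_pos (-ε * ‖ξ‖)).le
    rw [← mul_assoc, ← Real.exp_add] at h3
    simpa using h3
  have iG := l12f_G_int hB ls Φ l.m l z
  have iT : Integrable (fun ξ : ι → ℝ => ξ i₀ ^ 2 * l12fG B ls Φ l.m (z + l.inc ξ)) (ghStd ι) :=
    ((((l12f_eg_coord 0 i₀).mul (l12f_eg_coord 0 i₀))).mul ((l12f_G_eg hB ls Φ l.m 0).comp_affine z (ghrInc l))).integrable.congr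
      (Eventually.of_forall fun ξ => by simp only [ghrInc_apply]; ring)
  have iE2 : Integrable (fun ξ : ι → ℝ => ξ i₀ ^ 2 * Real.exp (ε * ‖ξ‖)) (ghStd ι) :=
    (((l12f_eg_coord 0 i₀).mul (l12f_eg_coord 0 i₀)).mul (l12f_eg_exp_norm ε)).integrable.congr
      (Eventually.of_forall fun ξ => by ring)
  have iE0 : Integrable (fun ξ : ι → ℝ => Real.exp (-ε * ‖ξ‖)) (ghStd ι) := (l12f_eg_exp_norm (-ε)).integrable
  have h1 : ∫ ξ, ξ i₀ ^ 2 * l12fG B ls Φ l.m (z + l.inc ξ) ∂ghStd ι ≤ (∫ ξ, ξ i₀ ^ 2 * Real.exp (ε * ‖ξ‖) ∂ghStd ι) * g0 := by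
    rw [← integral_mul_const]
    refine integral_mono iT (iE2.mul_const _) fun ξ => ?_
    simp only
    rw [mul_assoc]
    exact mul_le_mul_of_nonneg_left (hup ξ) (sq_nonneg _)
  have h2 : (∫ ξ, Real.exp (-ε * ‖ξ‖) ∂ghStd ι) * g0 ≤ ∫ ξ, l12fG B ls Φ l.m (z + l.inc ξ) ∂ghStd ι := by
    rw [← integral_mul_const]
    exact integral_mono (iE0.mul_const _) iG hlo
  have hC0n : 0 ≤ C0 := by
    by_contra hneg
    push Not at hneg
    have p1 : 0 ≤ ∫ ξ, ξ i₀ ^ 2 * Real.exp (ε * ‖ξ‖) ∂ghStd ι := integral_nonneg fun ξ => by positivity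
    have p2 : 0 < ∫ ξ, Real.exp (-ε * ‖ξ‖) ∂ghStd ι := integral_exp_pos iE0
    nlinarith
  have h3 : ∫ ξ, ξ i₀ ^ 2 * l12fG B ls Φ l.m (z + l.inc ξ) ∂ghStd ι ≤ C0 * ∫ ξ, l12fG B ls Φ l.m (z + l.inc ξ) ∂ghStd ι :=
    calc _ ≤ (∫ ξ, ξ i₀ ^ 2 * Real.exp (ε * ‖ξ‖) ∂ghStd ι) * g0 := h1
      _ ≤ (C0 * ∫ ξ, Real.exp (-ε * ‖ξ‖) ∂ghStd ι) * g0 := mul_le_mul_of_nonneg_right hC0 hg0n
      _ = C0 * ((∫ ξ, Real.exp (-ε * ‖ξ‖) ∂ghStd ι) * g0) := by ring
      _ ≤ _ := mul_le_mul_of_nonneg_left h2 hC0n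
  have e1 : ∀ ξ, ghD B l ls z ξ * (ξ i₀ ^ 2 * ghE B ls Φ (z + l.inc ξ))
      = Real.exp (-(l.m * ghF B (l :: ls) z)) * (ξ i₀ ^ 2 * l12fG B ls Φ l.m (z + l.inc ξ)) := by
    intro ξ; rw [l12f_D_eq]; unfold l12fG; ring
  have e2 : ∀ ξ, ghD B l ls z ξ * ghE B ls Φ (z + l.inc ξ)
      = Real.exp (-(l.m * ghF B (l :: ls) z)) * l12fG B ls Φ l.m (z + l.inc ξ) := by
    intro ξ; rw [l12f_D_eq]; unfold l12fG; ring
  simp only [e1, e2]
  rw [integral_const_mul, integral_const_mul, mul_left_comm]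
  exact mul_le_mul_of_nonneg_left h3 (Real.exp_pos _).le

/-! ## 4. one level: the Hellinger contraction -/

theorem l12f_E_aff {B : GhB S} (hB : B.Ok) (ls : List (GhLv S ι)) (τ : S → ℝ) (c : ℝ) (y : S → ℝ) :
    ghE B ls (fun s => 1 / 2 + c * τ s) y = 1 / 2 + c * ghE B ls τ y := by
  rw [ghr_E_add hB ls (fun _ => 1 / 2) (fun s => c * τ s), ghr_E_const hB, ghr_E_smul]

theorem l12f_abs_le_one {τ : S → ℝ} (hτ : ∀ s, τ s ^ 2 = 1) (s : S) : |τ s| ≤ 1 := by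
  have := hτ s
  exact abs_le.2 ⟨by nlinarith, by nlinarith⟩

theorem l12f_sqrt_quarter {x : ℝ} : Real.sqrt ((1 / 2 + 1 / 2 * x) * (1 - (1 / 2 + 1 / 2 * x))) = 1 / 2 * Real.sqrt (1 - x ^ 2) := by
  have : (1 / 2 + 1 / 2 * x) * (1 - (1 / 2 + 1 / 2 * x)) = (1 / 2) ^ 2 * (1 - x ^ 2) := by ring
  rw [this, Real.sqrt_mul (by positivity), Real.sqrt_sq (by norm_num)]

/-- **One level.**  `τ = ± 1` a spin observable, `ξ i₀` a driver of the level `l` with feature `κ τ`; all remaining masses `≥ u`.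
Then `E [ √(1 - u'²) | prefix ] ≤ (1 - κ² u² / (2 C0)) √(1 - u²)` for the posterior means `u`, `u'` of `τ` before / after the level.
`C0` bounds the conditional second moments of the driver (`C0 = 2` on a fine level: `l12f_small`). -/
theorem l12f_step [DecidableEq ι] {B : GhB S} (hB : B.Ok) {u : ℝ} {l : GhLv S ι} {ls : List (GhLv S ι)} (h : GhAdm B u (l :: ls)) (hu : 0 ≤ u)
    {τ : S → ℝ} (hτ : ∀ s, τ s ^ 2 = 1) (i₀ : ι) (κ : ℝ) (hA : ∀ s, l.A s i₀ = κ * τ s)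
    {ε C0 : ℝ} (hC : 0 < C0) (hε : ∀ ξ, 2 * B.a * ‖l.inc ξ‖ ≤ ε * ‖ξ‖)
    (hC0 : ∫ ξ, ξ i₀ ^ 2 * Real.exp (ε * ‖ξ‖) ∂ghStd ι ≤ C0 * ∫ ξ, Real.exp (-ε * ‖ξ‖) ∂ghStd ι) (z : S → ℝ) :
    ∫ ξ, ghD B l ls z ξ * Real.sqrt (1 - ghE B ls τ (z + l.inc ξ) ^ 2) ∂ghStd ι
      ≤ (1 - κ ^ 2 * u ^ 2 / (2 * C0)) * Real.sqrt (1 - ghE B (l :: ls) τ z ^ 2) := by
  have := l12f_nu_prob hB l ls z
  set U : ℝ := ghE B (l :: ls) τ z with hUdef
  set P : (ι → ℝ) → ℝ := fun ξ => 1 / 2 + 1 / 2 * ghE B ls τ (z + l.inc ξ) with hPdef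
  have hb : ∀ y, |ghE B ls τ y| ≤ 1 := fun y => ghr_E_bound hB ls (l12f_abs_le_one hτ) y
  have gE : GkEG 0 (fun ξ : ι → ℝ => ghE B ls τ (z + l.inc ξ)) := ((ghd_E_reg hB ls τ).eg 0).comp_affine z (ghrInc l)
  have hPc : Continuous P := by
    have := gE.continuous
    fun_prop
  have hΦp : ∀ s, 0 ≤ 1 / 2 + 1 / 2 * τ s := fun s => by have := abs_le.1 (l12f_abs_le_one hτ s); linarith
  have hΦm : ∀ s, 0 ≤ 1 / 2 + -(1 / 2) * τ s := fun s => by have := abs_le.1 (l12f_abs_le_one hτ s); linarith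
  have hp : ∫ ξ, P ξ ∂l12fNu B l ls z = 1 / 2 + 1 / 2 * U := by
    rw [l12f_nu_integral hB, ← l12f_E_aff hB (l :: ls) τ (1 / 2) z]
    simp only [hPdef, ← l12f_E_aff hB ls τ (1 / 2)]
    rfl
  have hua : u ≤ B.a := (h.2 l (List.mem_cons_self ..)).1.trans (h.2 l (List.mem_cons_self ..)).2
  have key := l12f_hell (ν := l12fNu B l ls z) (P := P) (T := fun ξ => ξ i₀) (C0 := C0) (c := |κ| * u)
    hPc.aestronglyMeasurable (fun ξ => by have := abs_le.1 (hb (z + l.inc ξ)); simp only [hPdef]; linarith)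
    (fun ξ => by have := abs_le.1 (hb (z + l.inc ξ)); simp only [hPdef]; linarith)
    (l12f_eg_coord 0 i₀).continuous.aestronglyMeasurable
    ((l12f_nu_integrable hB l ls z ((l12f_eg_coord 0 i₀).mul (l12f_eg_coord 0 i₀))).congr (Eventually.of_forall fun ξ => by ring))
    hC (by positivity)
    (by
      rw [l12f_nu_integral hB, l12f_nu_integral hB]
      simp only [hPdef, ← l12f_E_aff hB ls τ (1 / 2)]
      exact l12f_second hB h hu hΦp z i₀ hε hC0)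
    (by
      have e : ∀ ξ, 1 - P ξ = ghE B ls (fun s => 1 / 2 + -(1 / 2) * τ s) (z + l.inc ξ) := by
        intro ξ; rw [l12f_E_aff hB]; simp only [hPdef]; ring
      have e' : 1 - ∫ ξ, P ξ ∂l12fNu B l ls z = ∫ ξ, ghD B l ls z ξ * ghE B ls (fun s => 1 / 2 + -(1 / 2) * τ s) (z + l.inc ξ) ∂ghStd ι := by
        have : ∫ ξ, ghD B l ls z ξ * ghE B ls (fun s => 1 / 2 + -(1 / 2) * τ s) (z + l.inc ξ) ∂ghStd ι
            = ghE B (l :: ls) (fun s => 1 / 2 + -(1 / 2) * τ s) z := rfl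
        rw [this, l12f_E_aff hB, hp]; ring
      rw [e', l12f_nu_integral hB]
      simp only [e]
      exact l12f_second hB h hu hΦm z i₀ hε hC0)
    (by
      rw [hp, l12f_nu_integral hB]
      have e : ∀ ξ, ghD B l ls z ξ * (ξ i₀ * (P ξ - (1 / 2 + 1 / 2 * U)))
          = 1 / 2 * (ξ i₀ * (ghD B l ls z ξ * (ghE B ls τ (z + l.inc ξ) - U))) := by
        intro ξ; simp only [hPdef]; ring
      simp only [e]
      rw [integral_const_mul, l12f_cov hB l ls z τ i₀ κ hA]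
      have hH := ghr_H_lower hB (l :: ls) h hua τ z
      have hCv : ghC B (l :: ls) τ τ z = 1 - U ^ 2 := by
        unfold ghC
        have : (fun s => τ s * τ s) = fun _ => (1 : ℝ) := funext fun s => by rw [← sq]; exact hτ s
        rw [this, ghr_E_const hB]
        ring
      rw [hCv] at hH
      have hU1 : 0 ≤ 1 - U ^ 2 := by
        have := abs_le.1 (ghr_E_bound hB (l :: ls) (l12f_abs_le_one hτ) z)
        nlinarith
      have hH0 : 0 ≤ ghH B (l :: ls) τ τ z := (mul_nonneg hu hU1).trans hH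
      rw [abs_mul, abs_mul, abs_of_nonneg hH0, abs_of_pos (by norm_num : (0 : ℝ) < 1 / 2)]
      have := mul_le_mul_of_nonneg_left hH (abs_nonneg κ)
      nlinarith)
  rw [hp, l12f_nu_integral hB] at key
  simp only [hPdef, l12f_sqrt_quarter] at key
  have e : ∀ ξ, ghD B l ls z ξ * (1 / 2 * Real.sqrt (1 - ghE B ls τ (z + l.inc ξ) ^ 2))
      = 1 / 2 * (ghD B l ls z ξ * Real.sqrt (1 - ghE B ls τ (z + l.inc ξ) ^ 2)) := fun ξ => by ring
  simp only [e] at key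
  rw [integral_const_mul, mul_pow, sq_abs] at key
  linarith

/-! ## 5. fine levels: `C0 = 2` -/

theorem l12f_eg_norm : GkEG 0 (fun ξ : ι → ℝ => ‖ξ‖) :=
  ghh_eg_zero continuous_norm (A := 1) (B := 1) fun x => by
    rw [norm_norm, one_mul, one_mul]
    linarith [Real.add_one_le_exp ‖x‖]

theorem l12f_second_std [DecidableEq ι] (i₀ : ι) : ∫ ξ, ξ i₀ ^ 2 ∂ghStd ι = 1 := by
  have key := ghh_ibp (l12f_eg_coord 1 i₀) (Pi.single i₀ 1)
  have e1 : ∀ ξ : ι → ℝ, ∑ i, ξ i * (Pi.single i₀ (1 : ℝ) : ι → ℝ) i = ξ i₀ := by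
    intro ξ; simp [Pi.single_apply]
  have e2 : ∀ ξ : ι → ℝ, fderiv ℝ (fun ξ : ι → ℝ => ξ i₀) ξ (Pi.single i₀ 1) = 1 := by
    intro ξ
    have := ((ContinuousLinearMap.proj (R := ℝ) (φ := fun _ : ι => ℝ) i₀).hasFDerivAt (x := ξ)).fderiv
    have h2 : (fun ξ : ι → ℝ => ξ i₀) = ⇑(ContinuousLinearMap.proj (R := ℝ) (φ := fun _ : ι => ℝ) i₀) := rfl
    rw [h2, this]
    simp
  simp only [e1, e2] at key
  simpa [sq] using key

/-- on a fine level the conditional second moments of the drivers are `≤ 2` -/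
theorem l12f_small (ι : Type) [Fintype ι] [DecidableEq ι] : ∃ ε₀ : ℝ, 0 < ε₀ ∧ ∀ ε, 0 ≤ ε → ε ≤ ε₀ → ∀ i₀ : ι,
    ∫ ξ, ξ i₀ ^ 2 * Real.exp (ε * ‖ξ‖) ∂ghStd ι ≤ 2 * ∫ ξ, Real.exp (-ε * ‖ξ‖) ∂ghStd ι := by
  set M1 : ι → ℝ := fun i => ∫ ξ, ξ i ^ 2 * (‖ξ‖ * Real.exp ‖ξ‖) ∂ghStd ι with hM1d
  set M2 : ℝ := ∫ ξ : ι → ℝ, ‖ξ‖ ∂ghStd ι with hM2d
  have hM1 : ∀ i, 0 ≤ M1 i := fun i => integral_nonneg fun ξ => by positivity
  have hM2 : 0 ≤ M2 := integral_nonneg fun ξ => norm_nonneg _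
  set M : ℝ := ∑ i, M1 i + 2 * M2 with hMd
  have hM : 0 ≤ M := add_nonneg (Finset.sum_nonneg fun i _ => hM1 i) (by positivity)
  refine ⟨min 1 (1 / (M + 1)), by positivity, fun ε h0 h1 i₀ => ?_⟩
  have hε1 : ε ≤ 1 := h1.trans (min_le_left _ _)
  have hεM : ε * (M + 1) ≤ 1 := by
    have := h1.trans (min_le_right _ _)
    rwa [le_div_iff₀ (by positivity)] at this
  have c2 : GkEG 0 (fun ξ : ι → ℝ => ξ i₀ * ξ i₀) := (l12f_eg_coord 0 i₀).mul (l12f_eg_coord 0 i₀)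
  have i0 : Integrable (fun ξ : ι → ℝ => ξ i₀ ^ 2) (ghStd ι) := c2.integrable.congr (Eventually.of_forall fun ξ => by ring)
  have i1 : Integrable (fun ξ : ι → ℝ => ξ i₀ ^ 2 * (‖ξ‖ * Real.exp ‖ξ‖)) (ghStd ι) :=
    (c2.mul (l12f_eg_norm.mul (l12f_eg_exp_norm 1))).integrable.congr (Eventually.of_forall fun ξ => by simp only [one_mul]; ring)
  have i2 : Integrable (fun ξ : ι → ℝ => ξ i₀ ^ 2 * Real.exp (ε * ‖ξ‖)) (ghStd ι) :=
    (c2.mul (l12f_eg_exp_norm ε)).integrable.congr (Eventually.of_forall fun ξ => by ring)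
  have i3 : Integrable (fun ξ : ι → ℝ => Real.exp (-ε * ‖ξ‖)) (ghStd ι) := (l12f_eg_exp_norm (-ε)).integrable
  have i4 : Integrable (fun ξ : ι → ℝ => ‖ξ‖) (ghStd ι) := l12f_eg_norm.integrable
  have a1 : ∫ ξ, ξ i₀ ^ 2 * Real.exp (ε * ‖ξ‖) ∂ghStd ι ≤ 1 + ε * M1 i₀ := by
    have : ∫ ξ, ξ i₀ ^ 2 * Real.exp (ε * ‖ξ‖) ∂ghStd ι ≤ ∫ ξ, (ξ i₀ ^ 2 + ε * (ξ i₀ ^ 2 * (‖ξ‖ * Real.exp ‖ξ‖))) ∂ghStd ι := by
      refine integral_mono i2 (i0.add (i1.const_mul ε)) fun ξ => ?_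
      have hx : 0 ≤ ε * ‖ξ‖ := by positivity
      have h3 : Real.exp (ε * ‖ξ‖) ≤ 1 + ε * ‖ξ‖ * Real.exp (ε * ‖ξ‖) := by
        have h4 := Real.add_one_le_exp (-(ε * ‖ξ‖))
        have h5 := mul_le_mul_of_nonneg_right h4 (Real.exp_pos (ε * ‖ξ‖)).le
        rw [← Real.exp_add] at h5
        simp only [neg_add_cancel, Real.exp_zero] at h5
        nlinarith
      have h6 : Real.exp (ε * ‖ξ‖) ≤ Real.exp ‖ξ‖ :=
        Real.exp_le_exp.2 (by nlinarith [norm_nonneg ξ])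
      have h7 : Real.exp (ε * ‖ξ‖) ≤ 1 + ε * (‖ξ‖ * Real.exp ‖ξ‖) := by
        have := mul_le_mul_of_nonneg_left h6 hx
        nlinarith
      have := mul_le_mul_of_nonneg_left h7 (sq_nonneg (ξ i₀))
      simp only
      nlinarith
    rw [integral_add i0 (i1.const_mul ε), integral_const_mul, l12f_second_std] at this
    exact this
  have a2 : 1 - ε * M2 ≤ ∫ ξ : ι → ℝ, Real.exp (-ε * ‖ξ‖) ∂ghStd ι := by
    have : ∫ ξ : ι → ℝ, (1 - ε * ‖ξ‖) ∂ghStd ι ≤ ∫ ξ : ι → ℝ, Real.exp (-ε * ‖ξ‖) ∂ghStd ι := by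
      refine integral_mono ((integrable_const _).sub (i4.const_mul ε)) i3 fun ξ => ?_
      have := Real.add_one_le_exp (-ε * ‖ξ‖)
      simp only
      linarith
    rw [integral_sub (integrable_const _) (i4.const_mul ε), integral_const_mul] at this
    simpa using this
  have a3 : M1 i₀ ≤ ∑ i, M1 i := Finset.single_le_sum (fun i _ => hM1 i) (Finset.mem_univ i₀)
  nlinarith [mul_le_mul_of_nonneg_left a3 h0]

/-! ## 6. iteration along a path -/

/-- planted expectation of a function `g` of the field revealed after the levels `pre`; `post` = the later levels -/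
noncomputable def l12fEx (B : GhB S) (g : (S → ℝ) → ℝ) : List (GhLv S ι) → List (GhLv S ι) → (S → ℝ) → ℝ
  | [], _ => g
  | l :: pre, post => ghA B l (pre ++ post) (l12fEx B g pre post)

theorem l12f_Ex_bc {B : GhB S} (hB : B.Ok) {g : (S → ℝ) → ℝ} {M : ℝ} (hg : GhBC g M) (post : List (GhLv S ι)) :
    ∀ pre : List (GhLv S ι), GhNn (pre ++ post) → GhBC (l12fEx B g pre post) M
  | [], _ => hg
  | _ :: pre, h => gh_b_A_bc hB h (l12f_Ex_bc hB hg post pre h.tail)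

theorem l12f_Ex_mono {B : GhB S} (hB : B.Ok) {g g' : (S → ℝ) → ℝ} {M M' : ℝ} (hg : GhBC g M) (hg' : GhBC g' M') (hle : ∀ y, g y ≤ g' y)
    (post : List (GhLv S ι)) : ∀ pre : List (GhLv S ι), GhNn (pre ++ post) → ∀ z, l12fEx B g pre post z ≤ l12fEx B g' pre post z
  | [], _, z => hle z
  | _ :: pre, h, z => gh_b_A_mono hB h (l12f_Ex_bc hB hg post pre h.tail) (l12f_Ex_bc hB hg' post pre h.tail)
      (l12f_Ex_mono hB hg hg' hle post pre h.tail) z

theorem l12f_Ex_const {B : GhB S} (hB : B.Ok) (c : ℝ) (post : List (GhLv S ι)) :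
    ∀ pre : List (GhLv S ι), GhNn (pre ++ post) → ∀ z, l12fEx B (fun _ => c) pre post z = c
  | [], _, _ => rfl
  | l :: pre, h, z => by
    have : l12fEx B (fun _ => c) pre post = fun _ => c := funext (l12f_Ex_const hB c post pre h.tail)
    show ghA B l (pre ++ post) (l12fEx B (fun _ => c) pre post) z = c
    rw [this]
    have h' : GhNn (l :: (pre ++ post)) := h
    exact gh_b_A_const hB h' c z

theorem l12f_Ex_append (B : GhB S) (g : (S → ℝ) → ℝ) (p₁ post : List (GhLv S ι)) :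
    ∀ p₀ : List (GhLv S ι), l12fEx B g (p₀ ++ p₁) post = l12fEx B (l12fEx B g p₁ post) p₀ (p₁ ++ post)
  | [] => rfl
  | l :: p₀ => by
    show ghA B l (p₀ ++ p₁ ++ post) (l12fEx B g (p₀ ++ p₁) post) = ghA B l (p₀ ++ (p₁ ++ post)) (l12fEx B (l12fEx B g p₁ post) p₀ (p₁ ++ post))
    rw [l12f_Ex_append B g p₁ post p₀, List.append_assoc]

/-- the freezing functional `√(1 - (E τ)²)` -/
noncomputable def l12fR (B : GhB S) (ls : List (GhLv S ι)) (τ : S → ℝ) (y : S → ℝ) : ℝ := Real.sqrt (1 - ghE B ls τ y ^ 2)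

theorem l12f_R_bc {B : GhB S} (hB : B.Ok) {τ : S → ℝ} (hτ : ∀ s, τ s ^ 2 = 1) {ls : List (GhLv S ι)} (h : GhNn ls) : GhBC (l12fR B ls τ) 1 := by
  refine ⟨Real.continuous_sqrt.comp (continuous_const.sub ((gh_b_E_bc hB (l12f_abs_le_one hτ) h).cont.pow 2)), fun y => ?_⟩
  unfold l12fR
  rw [abs_of_nonneg (Real.sqrt_nonneg _)]
  exact Real.sqrt_le_one.2 (by nlinarith [sq_nonneg (ghE B ls τ y)])

/-- **Freezing along a stretch of fine levels** with masses `≥ u`: the levels of `pre` have a driver `i₀` with feature `κ τ`, `κ² = w l`. -/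
theorem l12f_iter [DecidableEq ι] {B : GhB S} (hB : B.Ok) {u : ℝ} (hu : 0 ≤ u) {τ : S → ℝ} (hτ : ∀ s, τ s ^ 2 = 1) (i₀ : ι)
    (w : GhLv S ι → ℝ) {ε C0 : ℝ} (hC : 0 < C0)
    (hC0 : ∫ ξ, ξ i₀ ^ 2 * Real.exp (ε * ‖ξ‖) ∂ghStd ι ≤ C0 * ∫ ξ, Real.exp (-ε * ‖ξ‖) ∂ghStd ι) (post : List (GhLv S ι)) :
    ∀ pre : List (GhLv S ι), GhAdm B u (pre ++ post) →
      (∀ l ∈ pre, (∃ κ : ℝ, κ ^ 2 = w l ∧ ∀ s, l.A s i₀ = κ * τ s) ∧ ∀ ξ, 2 * B.a * ‖l.inc ξ‖ ≤ ε * ‖ξ‖) → ∀ z,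
      l12fEx B (l12fR B post τ) pre post z
        ≤ Real.exp (-(u ^ 2 / (2 * C0)) * (pre.map w).sum) * l12fR B (pre ++ post) τ z
  | [], _, _, z => by simp [l12fEx]
  | l :: pre, h, hl, z => by
    have h' : GhAdm B u (pre ++ post) := ghr_adm_tail h
    have ih := l12f_iter hB hu hτ i₀ w hC hC0 post pre h' (fun l' hl' => hl l' (List.mem_cons_of_mem _ hl'))
    obtain ⟨⟨κ, hκ, hA⟩, hε⟩ := hl l (List.mem_cons_self ..)
    have hn : GhNn (l :: (pre ++ post)) := GhAdm.ghNn h hu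
    set Ep : ℝ := Real.exp (-(u ^ 2 / (2 * C0)) * (pre.map w).sum) with hEp
    have s1 : l12fEx B (l12fR B post τ) (l :: pre) post z ≤ ghA B l (pre ++ post) (fun y => Ep * l12fR B (pre ++ post) τ y) z :=
      gh_b_A_mono hB hn (l12f_Ex_bc hB (l12f_R_bc hB hτ (fun l' hl' => hn.tail l' (List.mem_append_right _ hl'))) post pre hn.tail)
        ((l12f_R_bc hB hτ hn.tail).const_mul Ep) ih z
    have s2 := l12f_step hB h hu hτ i₀ κ hA hC hε hC0 z
    have s3 : ghA B l (pre ++ post) (l12fR B (pre ++ post) τ) z ≤ (1 - κ ^ 2 * u ^ 2 / (2 * C0)) * l12fR B (l :: (pre ++ post)) τ z := s2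
    have s4 : 1 - κ ^ 2 * u ^ 2 / (2 * C0) ≤ Real.exp (-(u ^ 2 / (2 * C0)) * w l) := by
      have := Real.add_one_le_exp (-(u ^ 2 / (2 * C0)) * w l)
      rw [← hκ] at this ⊢
      have e : -(u ^ 2 / (2 * C0)) * κ ^ 2 + 1 = 1 - κ ^ 2 * u ^ 2 / (2 * C0) := by ring
      linarith
    have hR0 : 0 ≤ l12fR B (l :: (pre ++ post)) τ z := Real.sqrt_nonneg _
    rw [gh_b_A_const_mul] at s1
    calc l12fEx B (l12fR B post τ) (l :: pre) post z
        ≤ Ep * ghA B l (pre ++ post) (l12fR B (pre ++ post) τ) z := s1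
      _ ≤ Ep * (Real.exp (-(u ^ 2 / (2 * C0)) * w l) * l12fR B (l :: (pre ++ post)) τ z) :=
          mul_le_mul_of_nonneg_left (s3.trans (mul_le_mul_of_nonneg_right s4 hR0)) (Real.exp_pos _).le
      _ = _ := by
          rw [← mul_assoc, hEp, ← Real.exp_add, List.map_cons, List.sum_cons]
          congr 2
          ring

/-- the same after arbitrary earlier levels `p₀` -/
theorem l12f_frz [DecidableEq ι] {B : GhB S} (hB : B.Ok) {u : ℝ} (hu : 0 ≤ u) {τ : S → ℝ} (hτ : ∀ s, τ s ^ 2 = 1) (i₀ : ι)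
    (w : GhLv S ι → ℝ) {ε C0 : ℝ} (hC : 0 < C0)
    (hC0 : ∫ ξ, ξ i₀ ^ 2 * Real.exp (ε * ‖ξ‖) ∂ghStd ι ≤ C0 * ∫ ξ, Real.exp (-ε * ‖ξ‖) ∂ghStd ι) (p₀ p₁ post : List (GhLv S ι))
    (h0 : GhNn (p₀ ++ (p₁ ++ post))) (h : GhAdm B u (p₁ ++ post))
    (hl : ∀ l ∈ p₁, (∃ κ : ℝ, κ ^ 2 = w l ∧ ∀ s, l.A s i₀ = κ * τ s) ∧ ∀ ξ, 2 * B.a * ‖l.inc ξ‖ ≤ ε * ‖ξ‖) (z : S → ℝ) :
    l12fEx B (l12fR B post τ) (p₀ ++ p₁) post z ≤ Real.exp (-(u ^ 2 / (2 * C0)) * (p₁.map w).sum) := by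
  have hn1 : GhNn (p₁ ++ post) := GhAdm.ghNn h hu
  have hn2 : GhNn post := fun l' hl' => hn1 l' (List.mem_append_right _ hl')
  rw [l12f_Ex_append]
  have h1 : ∀ y, l12fEx B (l12fR B post τ) p₁ post y ≤ Real.exp (-(u ^ 2 / (2 * C0)) * (p₁.map w).sum) := by
    intro y
    refine (l12f_iter hB hu hτ i₀ w hC hC0 post p₁ h hl y).trans ?_
    have := (abs_le.1 ((l12f_R_bc hB hτ hn1).le y)).2
    nlinarith [Real.exp_pos (-(u ^ 2 / (2 * C0)) * (p₁.map w).sum)]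
  have h2 := l12f_Ex_mono hB (l12f_Ex_bc hB (l12f_R_bc hB hτ hn2) post p₁ hn1) (gh_b_bc_const _) h1 (p₁ ++ post) p₀ h0 z
  rwa [l12f_Ex_const hB _ _ _ h0] at h2

/-- linearity of the planted average -/
theorem l12f_A_lin {B : GhB S} (hB : B.Ok) {l : GhLv S ι} {ls : List (GhLv S ι)} (h : GhNn (l :: ls)) {κ : Type} (K : Finset κ) (c₀ : ℝ)
    (c : κ → ℝ) (G : κ → (S → ℝ) → ℝ) {M : ℝ} (hG : ∀ k, GhBC (G k) M) (z : S → ℝ) :
    ghA B l ls (fun y => c₀ + ∑ k ∈ K, c k * G k y) z = c₀ + ∑ k ∈ K, c k * ghA B l ls (G k) z := by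
  unfold ghA
  have e : ∀ ξ, ghD B l ls z ξ * (c₀ + ∑ k ∈ K, c k * G k (z + l.inc ξ))
      = c₀ * ghD B l ls z ξ + ∑ k ∈ K, c k * (ghD B l ls z ξ * G k (z + l.inc ξ)) := by
    intro ξ
    rw [mul_add, Finset.mul_sum, mul_comm]
    congr 1
    exact Finset.sum_congr rfl fun k _ => by ring
  simp only [e]
  rw [integral_add ((gh_b_D_integrable hB h.tail l z).const_mul c₀)
      (integrable_finset_sum _ fun k _ => (gh_b_A_integrable hB h (hG k) z).const_mul (c k)),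
    integral_const_mul, gh_b_D_integral hB h.tail, mul_one,
    integral_finset_sum _ fun k _ => (gh_b_A_integrable hB h (hG k) z).const_mul (c k)]
  simp only [integral_const_mul]

theorem l12f_Ex_lin {B : GhB S} (hB : B.Ok) {κ : Type} (K : Finset κ) (c₀ : ℝ) (c : κ → ℝ) (G : κ → (S → ℝ) → ℝ) {M : ℝ}
    (hG : ∀ k, GhBC (G k) M) (post : List (GhLv S ι)) : ∀ pre : List (GhLv S ι), GhNn (pre ++ post) → ∀ z,
      l12fEx B (fun y => c₀ + ∑ k ∈ K, c k * G k y) pre post z = c₀ + ∑ k ∈ K, c k * l12fEx B (G k) pre post z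
  | [], _, _ => rfl
  | l :: pre, h, z => by
    have h' : GhNn (l :: (pre ++ post)) := h
    have ih : l12fEx B (fun y => c₀ + ∑ k ∈ K, c k * G k y) pre post = fun y => c₀ + ∑ k ∈ K, c k * l12fEx B (G k) pre post y :=
      funext (l12f_Ex_lin hB K c₀ c G hG post pre h'.tail)
    show ghA B l (pre ++ post) (l12fEx B (fun y => c₀ + ∑ k ∈ K, c k * G k y) pre post) z = _
    rw [ih]
    exact l12f_A_lin hB h' K c₀ c _ (fun k => l12f_Ex_bc hB (hG k) post pre h'.tail) z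

/-- bridge to `ghPath`: a test which is a function of the field revealed at the cut `j` -/
theorem l12f_path_eq {B : GhB S} (hB : B.Ok) (g : (S → ℝ) → ℝ) : ∀ (ls : List (GhLv S ι)) (j : ℕ) (z : S → ℝ),
    ghPath B ls z (fun ξ _ => g (z + ghPre ls ξ j)) = l12fEx B g (ls.take j) (ls.drop j) z
  | ls, 0, z => by
    simp only [obt_pre_zero, add_zero, List.take_zero, List.drop_zero]
    exact obt_path_const hB ls z (g z)
  | [], j + 1, z => by
    simp only [obt_pre_nil, add_zero, List.take_nil, List.drop_nil]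
    exact obt_path_const hB [] z (g z)
  | l :: ls, j + 1, z => by
    simp only [ghPath, obt_pre_cons, List.take_succ_cons, List.drop_succ_cons]
    show _ = ghA B l (ls.take j ++ ls.drop j) (l12fEx B g (ls.take j) (ls.drop j)) z
    rw [List.take_append_drop]
    unfold ghA
    refine integral_congr_ae (Eventually.of_forall fun ξ => ?_)
    simp only
    rw [← l12f_path_eq hB g ls j (z + l.inc ξ)]
    simp only [add_assoc]

end Claimed.Agent.R286
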