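import Claimed.Agent.R286.L08.IvD7

/-!
# Row 286 (S0533), folder L08, file Loc : LARGE-ENVELOPE LOCALIZATION (D8), closed form      (owner helper114; head of the unit IV: helper228; prefix `L8Loc` / `l8loc_`)

TEX[LL:lem:statistics-localized]  (LL 08-statistics.tex l.745-799, Lemma "Large-envelope localization", (D8) = S2 of the note of 228).      0 open leaves.

Built on the link `L8D7` of 298 (`IvD7.lean`: W-tiles => `L11Tiles.Ok`) and on `L11Tiles.exp_Dsq_tile` of 228 (bracketing inside ONE tile, balance in `h`,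
tiles of negligible mass, trace and mixed terms).  Every tile is used as its own band (`D.T t i (i+1)`), so no splitting in dyadic bands is needed for the
probabilistic part; the dyadic bands enter only in the deterministic budget `l8loc_budget_all`.

IMPORTS: `L8D7.Ok` (298) and `L8Loc D CD CM` = (D2) for `p = 2` (`Var |X_v|² ≤ (CD e)²`, `E|X_v|⁴ ≤ (CM r)²`) + `S` in the two coordinates, in a form that tolerates one
mesh (finite hierarchies); `l8loc_of_exact` = the exact case.   `L8LocEnv D ev` : the envelope in the mass coordinate.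
v2 (05:10Z): the `S` link is asked at masses STRICTLY inside a tile only (`l8loc_int_Dsq_open`, `L11Tiles.l8loc_exp_tile` = open forms of `int_Dsq'`, `exp_Dsq_tile`): `G` may vanish on stretches of `z`
(cuts of zero mass inside a jump of the clocks), where the step function `S` of the MASS jumps and the closed form of the link is FALSE.
EXPORTS (non asymptotic, explicit constants):
* `l8loc_E_le`, `l8loc_eT_le_hh` (width comparability on the doubled tile), `l8loc_budget_all`, `l8loc_mass_ret` (`∑_ret r μ_I ≤ C³ K L Y⁴ θ⁻³ + tiny |zhi - zlo|`);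
* `l8loc_tile`, `l8loc_tile_ret`, `l8loc_sum` ((D8) explicit, no smallness used);
* `l8loc_D8` (tiles), `l8loc_D8_set` (set `{e(v) ≥ θ}`), **`l8loc_D8_final`** : `∫_{e ≥ θ} D_v² dv ≤ Ks (3C²)⁷ (1+CD+CM)(2+log₂(3C²Cz/θ)) L b⁻² · z_1^0 Y² Z² θ⁻⁷`  (`C_0 = 7`);
  hypotheses `θ ≤ 1`, `Y = U Z ≤ 1`, `z_1^0 Y² ≤ 1` (GAP1 of 228: `z_r^0 Z ≤ 1` for `r ≥ Y`), `z_1^0 := (msz κ0)^(-1/2)`.
-/

set_option autoImplicit false

namespace Claimed.Agent.R286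

open MeasureTheory Set
open scoped BigOperators Topology

/-! ### the envelope of a tile -/

/-- the envelope of the tile `i` : `min(r(t_i), Z² |I_i|)` -/
noncomputable def l8loc_eT (D : L8D7) (t : ℕ → ℝ) (i : ℕ) : ℝ :=
  min (skwR (t i)) (D.d.Z ^ 2 * (t (i + 1) - t i))

/-- mass of the tile `i` with the additive error -/
noncomputable def l8loc_mE (D : L8D7) (t : ℕ → ℝ) (i : ℕ) : ℝ :=
  (∫ z in t i..t (i + 1), D.cut.G z) + D.d.tiny * (t (i + 1) - t i)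

variable {D : L8D7} {n : ℕ} {t : ℕ → ℝ}

theorem l8loc_len_pos (ht : L8D7Tiling D.C D.d D.zhi D.zbuf D.hh n t) {i : ℕ} (hi : i < n) :
    0 < t (i + 1) - t i := sub_pos.2 (ht.lt i hi)

theorem l8loc_t_pos (hD : D.Ok) (ht : L8D7Tiling D.C D.d D.zhi D.zbuf D.hh n t) {i : ℕ} (hi : i ≤ n) :
    0 < t i := lt_of_lt_of_le hD.hyp.zlo0 (l8d7_t_mem hD ht hi).1

theorem l8loc_eT_pos (hD : D.Ok) (ht : L8D7Tiling D.C D.d D.zhi D.zbuf D.hh n t) {i : ℕ} (hi : i < n) :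
    0 < l8loc_eT D t i := by
  have hZ := hD.hyp.Z1
  exact lt_min (l8d7_R_pos (l8loc_t_pos hD ht hi.le)) (mul_pos (by positivity) (l8loc_len_pos ht hi))

theorem l8loc_eT_le_R (D : L8D7) (t : ℕ → ℝ) (i : ℕ) : l8loc_eT D t i ≤ skwR (t i) := min_le_left _ _

theorem l8loc_eT_le_len (D : L8D7) (t : ℕ → ℝ) (i : ℕ) :
    l8loc_eT D t i ≤ D.d.Z ^ 2 * (t (i + 1) - t i) := min_le_right _ _

/-- `|I_i| ≤ C² r(t_i)` -/
theorem l8loc_len_le (hD : D.Ok) (ht : L8D7Tiling D.C D.d D.zhi D.zbuf D.hh n t) {i : ℕ} (hi : i < n) :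
    t (i + 1) - t i ≤ D.C ^ 2 * skwR (t i) := by
  have h1 := (ht.len i hi (t i) ⟨le_rfl, (ht.lt i hi).le⟩).2
  have h2 := hD.concl.upper (t i) (l8d7_t_mem' hD ht hi.le)
  have hC := hD.C1
  nlinarith

/-- the mesh is shorter than every tile -/
theorem l8loc_mesh_le (hD : D.Ok) (ht : L8D7Tiling D.C D.d D.zhi D.zbuf D.hh n t) {i : ℕ} (hi : i < n) :
    D.cut.μ ≤ t (i + 1) - t i :=
  (hD.mesh (t i) (l8d7_t_mem hD ht hi.le)).trans (ht.len i hi (t i) ⟨le_rfl, (ht.lt i hi).le⟩).1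

/-- `r` is comparable on the doubled tile -/
theorem l8loc_R_le (hD : D.Ok) (ht : L8D7Tiling D.C D.d D.zhi D.zbuf D.hh n t) {i : ℕ} (hi : i < n) {z : ℝ}
    (hz : z ≤ t (i + 1) + (t (i + 1) - t i)) : skwR z ≤ 3 * D.C ^ 2 * skwR (t i) := by
  have hC := hD.C1
  have h0 := l8loc_t_pos hD ht hi.le
  have h1 := l8loc_len_le hD ht hi
  have h2 := l8d7_R_le (t i)
  have hC2 : 1 ≤ D.C ^ 2 := one_le_pow₀ hC
  have h3 : z ≤ (3 * D.C ^ 2) * t i := by nlinarith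
  exact (l8d7_R_mono h3).trans (l8d7_R_mul_le (by linarith) h0.le)

/-- the width is comparable to the length on the doubled tile -/
theorem l8loc_hh_le (hD : D.Ok) (ht : L8D7Tiling D.C D.d D.zhi D.zbuf D.hh n t) {i : ℕ} (hi : i < n) {z : ℝ}
    (hzm : z ∈ Icc (D.d.zlo / 2) D.zbuf) (hz1 : t i - (t (i + 1) - t i) ≤ z)
    (hz2 : z ≤ t (i + 1) + (t (i + 1) - t i)) : D.hh z ≤ 3 * D.C ^ 2 * (t (i + 1) - t i) := by
  have hC := hD.C1
  have hl := l8loc_len_pos ht hi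
  have h1 := hD.concl.qlip (t i) (l8d7_t_mem' hD ht hi.le) z hzm
  have h2 := (ht.len i hi (t i) ⟨le_rfl, (ht.lt i hi).le⟩).1
  rw [div_le_iff₀ (by linarith)] at h2
  have h3 : |t i - z| ≤ 2 * (t (i + 1) - t i) := by
    rw [abs_le]; constructor <;> linarith
  have h4 : D.C * (D.hh (t i) + |t i - z|) ≤ D.C * ((t (i + 1) - t i) * D.C + 2 * (t (i + 1) - t i)) :=
    mul_le_mul_of_nonneg_left (by linarith) (by linarith)
  have h5 : D.C * (t (i + 1) - t i) ≤ D.C ^ 2 * (t (i + 1) - t i) :=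
    mul_le_mul_of_nonneg_right (by nlinarith) hl.le
  nlinarith

/-- TEX[LL:lem:statistics-localized] "width comparability": the envelope on the doubled tile is at most `3 C²` times the envelope of the tile -/
theorem l8loc_E_le (hD : D.Ok) (ht : L8D7Tiling D.C D.d D.zhi D.zbuf D.hh n t) {i : ℕ} (hi : i < n) {z : ℝ}
    (hzm : z ∈ Icc (D.d.zlo / 2) D.zbuf) (hz1 : t i - (t (i + 1) - t i) ≤ z)
    (hz2 : z ≤ t (i + 1) + (t (i + 1) - t i)) : skwE D.d D.hh z ≤ 3 * D.C ^ 2 * l8loc_eT D t i := by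
  have hC := hD.C1
  have hZ := hD.hyp.Z1
  unfold skwE l8loc_eT
  rw [mul_min_of_nonneg _ _ (by positivity : (0:ℝ) ≤ 3 * D.C ^ 2)]
  refine min_le_min (l8loc_R_le hD ht hi hz2) ?_
  have := l8loc_hh_le hD ht hi hzm hz1 hz2
  calc D.d.Z ^ 2 * D.hh z ≤ D.d.Z ^ 2 * (3 * D.C ^ 2 * (t (i + 1) - t i)) :=
        mul_le_mul_of_nonneg_left this (by positivity)
    _ = _ := by ring

/-- on the tile, `e_I ≤ C Z² 𝔥(z)` -/
theorem l8loc_eT_le_hh (hD : D.Ok) (ht : L8D7Tiling D.C D.d D.zhi D.zbuf D.hh n t) {i : ℕ} (hi : i < n) {z : ℝ}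
    (hz : z ∈ Icc (t i) (t (i + 1))) : l8loc_eT D t i ≤ D.C * D.d.Z ^ 2 * D.hh z := by
  have hZ := hD.hyp.Z1
  have h1 := (ht.len i hi z hz).2
  calc l8loc_eT D t i ≤ D.d.Z ^ 2 * (t (i + 1) - t i) := min_le_right _ _
    _ ≤ D.d.Z ^ 2 * (D.C * D.hh z) := mul_le_mul_of_nonneg_left h1 (by positivity)
    _ = _ := by ring

/-- `e_I² ≤ r Z² |I|` -/
theorem l8loc_eT_sq_le (hD : D.Ok) (ht : L8D7Tiling D.C D.d D.zhi D.zbuf D.hh n t) {i : ℕ} (hi : i < n) :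
    l8loc_eT D t i ^ 2 ≤ skwR (t i) * (D.d.Z ^ 2 * (t (i + 1) - t i)) := by
  have h0 := (l8loc_eT_pos hD ht hi).le
  rw [sq]
  exact mul_le_mul (min_le_left _ _) (min_le_right _ _) h0 (h0.trans (min_le_left _ _))

/-! ### the squared envelope budget on all the bands above a level -/

theorem l8loc_tiny_le_one (hD : D.Ok) : D.d.tiny ≤ 1 := by
  have hx := hD.hyp.x0
  have hx1 : D.d.x ≤ 1 := hD.hyp.xU.trans hD.hyp.U1
  exact hD.hyp.t1.trans (pow_le_one₀ hx.le hx1)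

theorem l8loc_L_one (hD : D.Ok) : 1 ≤ skwL D.d := by
  have h0 := hD.hyp.t0
  have : 0 ≤ Real.log (1 / D.d.tiny) :=
    Real.log_nonneg (by rw [le_div_iff₀ h0]; linarith [l8loc_tiny_le_one hD])
  unfold skwL; linarith

theorem l8loc_U_pos (hD : D.Ok) : 0 < D.d.U := lt_of_lt_of_le hD.hyp.x0 hD.hyp.xU

theorem l8loc_hh_nonneg (hD : D.Ok) {z : ℝ} (hz : z ∈ Icc (D.d.zlo / 2) D.zbuf) : 0 ≤ D.hh z := by
  have hC := hD.C1
  have hz0 : 0 < z := lt_of_lt_of_le (by linarith [hD.hyp.zlo0]) hz.1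
  have hr := l8d7_R_pos hz0
  have hU := l8loc_U_pos hD
  have hb := hD.hyp.b0
  refine le_trans ?_ (hD.concl.lower z hz)
  have : 0 ≤ min (D.d.b * skwR z) (D.d.U ^ 2 / skwR z) := le_min (by positivity) (by positivity)
  positivity

theorem l8loc_hh_le_C (hD : D.Ok) {z : ℝ} (hz : z ∈ Icc (D.d.zlo / 2) D.zbuf) : D.hh z ≤ D.C := by
  have hC := hD.C1
  have := hD.concl.upper z hz
  have h1 := l8d7_R_le_one z
  nlinarith

theorem l8loc_iGh (hD : D.Ok) {a b : ℝ} (ha : D.d.zlo / 2 ≤ a) (hab : a ≤ b) (hb : b ≤ D.zbuf) :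
    IntervalIntegrable (fun z => D.d.G z * D.hh z ^ 2) volume a b := by
  have hzlo := hD.hyp.zlo0
  rw [intervalIntegrable_iff_integrableOn_Ioc_of_le hab]
  have hsub : Ioc a b ⊆ Icc (D.d.zlo / 2) D.zbuf := fun z hz => ⟨by linarith [hz.1], hz.2.trans hb⟩
  have hG : IntegrableOn D.d.G (Ioc a b) volume := by
    have h0 := hD.hyp.Gi
    rw [intervalIntegrable_iff_integrableOn_Ioc_of_le
      (by linarith [hD.zbufmax, hD.zhibuf, hD.zlohi] : (0:ℝ) ≤ D.d.zmax)] at h0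
    exact h0.mono_set (fun z hz => ⟨by linarith [hz.1], hz.2.trans (hb.trans hD.zbufmax)⟩)
  have hm : AEStronglyMeasurable (fun z => D.hh z ^ 2) (volume.restrict (Ioc a b)) :=
    (hD.concl.meas.mono_measure (Measure.restrict_mono hsub le_rfl)).pow 2
  have hbd : ∀ᵐ z ∂(volume.restrict (Ioc a b)), ‖D.hh z ^ 2‖ ≤ D.C ^ 2 := by
    refine ae_restrict_of_forall_mem measurableSet_Ioc (fun z hz => ?_)
    rw [Real.norm_of_nonneg (sq_nonneg _)]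
    exact pow_le_pow_left₀ (l8loc_hh_nonneg hD (hsub hz)) (l8loc_hh_le_C hD (hsub hz)) 2
  have := hG.bdd_mul (c := D.C ^ 2) hm hbd
  have h2 : Integrable (fun z => D.d.G z * D.hh z ^ 2) (volume.restrict (Ioc a b)) := by
    simpa [mul_comm] using this
  exact h2

theorem l8loc_B_nonneg (hD : D.Ok) {ρ : ℝ} (hρ : 0 < ρ) : 0 ≤ D.C * skwL D.d * D.d.U ^ 4 / skwR ρ := by
  have hC := hD.C1
  have hL := l8loc_L_one hD
  have hU := l8loc_U_pos hD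
  have hr := l8d7_R_pos hρ
  positivity

/-- TEX[LL:lem:statistics-localized] TEX[LL:eq:D5] the squared envelope budget, summed over the `K` dyadic bands above `ρ` -/
theorem l8loc_budget_all (hD : D.Ok) (K : ℕ) : ∀ ρ ∈ Icc D.d.zlo D.zhi, D.zhi ≤ 2 ^ K * ρ →
    ∫ z in ρ..D.zhi, D.d.G z * D.hh z ^ 2 ≤ K * (D.C * skwL D.d * D.d.U ^ 4 / skwR ρ) := by
  have hzlo := hD.hyp.zlo0
  induction K with
  | zero =>
    intro ρ hρ hK
    have : ρ = D.zhi := le_antisymm hρ.2 (by simpa using hK)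
    rw [this]; simp
  | succ K ih =>
    intro ρ hρ hK
    have hρ0 : 0 < ρ := lt_of_lt_of_le hzlo hρ.1
    have hB := l8loc_B_nonneg hD hρ0
    have h1 := hD.concl.budget ρ hρ
    push_cast
    rcases le_total D.zhi (2 * ρ) with h | h
    · rw [min_eq_right h] at h1
      have : 0 ≤ (K : ℝ) * (D.C * skwL D.d * D.d.U ^ 4 / skwR ρ) := by positivity
      linarith
    · rw [min_eq_left h] at h1
      have h2 := ih (2 * ρ) ⟨by linarith [hρ.1], h⟩ (by rw [pow_succ] at hK; linarith)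
      have h3 : D.C * skwL D.d * D.d.U ^ 4 / skwR (2 * ρ) ≤ D.C * skwL D.d * D.d.U ^ 4 / skwR ρ := by
        have hC := hD.C1
        have hL := l8loc_L_one hD
        have hU := l8loc_U_pos hD
        exact div_le_div_of_nonneg_left (by positivity) (l8d7_R_pos hρ0) (l8d7_R_mono (by linarith))
      have h4 : (K : ℝ) * (D.C * skwL D.d * D.d.U ^ 4 / skwR (2 * ρ))
          ≤ (K : ℝ) * (D.C * skwL D.d * D.d.U ^ 4 / skwR ρ) :=
        mul_le_mul_of_nonneg_left h3 (Nat.cast_nonneg K)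
      rw [← intervalIntegral.integral_add_adjacent_intervals
        (l8loc_iGh hD (by linarith [hρ.1]) (by linarith) (h.trans hD.zhibuf))
        (l8loc_iGh hD (by linarith [hρ.1]) h hD.zhibuf)]
      linarith

/-- the mass of a tile with `e_I ≥ θ` -/
theorem l8loc_mass_tile (hD : D.Ok) (ht : L8D7Tiling D.C D.d D.zhi D.zbuf D.hh n t) {i : ℕ} (hi : i < n) {θ : ℝ}
    (hθ : 0 < θ) (hθi : θ ≤ l8loc_eT D t i) :
    ∫ z in t i..t (i + 1), D.cut.G z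
      ≤ (D.C * D.d.Z ^ 2 / θ) ^ 2 * ∫ z in t i..t (i + 1), D.d.G z * D.hh z ^ 2 := by
  have hzlo := hD.hyp.zlo0
  have ha := l8d7_t_mem' hD ht hi.le
  have hb := l8d7_t_mem' hD ht (Nat.succ_le_of_lt hi)
  have hlt := (ht.lt i hi).le
  rw [← intervalIntegral.integral_const_mul]
  refine intervalIntegral.integral_mono_on hlt (L11Cut.iG hD.cutOk _ _)
    ((l8loc_iGh hD ha.1 hlt hb.2).const_mul _) (fun z hz => ?_)
  have hzm : z ∈ Icc (D.d.zlo / 2) D.zbuf := ⟨ha.1.trans hz.1, hz.2.trans hb.2⟩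
  rw [hD.G z hzm]
  have hG0 : 0 ≤ D.d.G z := by rw [← hD.G z hzm]; exact L11Cut.G0 hD.cutOk z
  have h1 := hθi.trans (l8loc_eT_le_hh hD ht hi hz)
  have h2 : 1 ≤ D.C * D.d.Z ^ 2 * D.hh z / θ := by rwa [le_div_iff₀ hθ, one_mul]
  have h3 : 1 ≤ (D.C * D.d.Z ^ 2 * D.hh z / θ) ^ 2 := one_le_pow₀ h2
  calc D.d.G z = D.d.G z * 1 := (mul_one _).symm
    _ ≤ D.d.G z * (D.C * D.d.Z ^ 2 * D.hh z / θ) ^ 2 := mul_le_mul_of_nonneg_left h3 hG0
    _ = _ := by ring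

/-- sum of integrals of a nonnegative function over a family of tiles above the tile `k` -/
theorem l8loc_sum_tiles_le {f : ℝ → ℝ} {k : ℕ} (hkn : k ≤ n)
    (hf : ∀ i, k ≤ i → i < n → IntervalIntegrable f volume (t i) (t (i + 1)))
    (hf0 : ∀ i, k ≤ i → i < n → 0 ≤ ∫ z in t i..t (i + 1), f z)
    (Ret : Finset ℕ) (hRet : ∀ i ∈ Ret, k ≤ i ∧ i < n) :
    ∑ i ∈ Ret, ∫ z in t i..t (i + 1), f z ≤ ∫ z in t k..t n, f z := by
  rw [← intervalIntegral.sum_integral_adjacent_intervals_Ico hkn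
    (fun i hi => hf i hi.1 hi.2)]
  refine Finset.sum_le_sum_of_subset_of_nonneg (fun i hi => Finset.mem_Ico.2 (hRet i hi)) ?_
  intro i hi _
  exact hf0 i (Finset.mem_Ico.1 hi).1 (Finset.mem_Ico.1 hi).2

/-- TEX[LL:lem:statistics-localized] `∑_I r μ_I ≲ θ⁻² Y⁴ / r ≤ θ⁻³ Y⁴` on the retained tiles of all the bands -/
theorem l8loc_mass_ret (hD : D.Ok) (ht : L8D7Tiling D.C D.d D.zhi D.zbuf D.hh n t) {θ : ℝ} (hθ : 0 < θ)
    (K : ℕ) (hK : D.zhi ≤ 2 ^ K * θ) (Ret : Finset ℕ) (hRet : ∀ i ∈ Ret, i < n ∧ θ ≤ l8loc_eT D t i) :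
    ∑ i ∈ Ret, l8loc_mE D t i
      ≤ D.C ^ 3 * K * skwL D.d * (D.d.U * D.d.Z) ^ 4 / θ ^ 3 + D.d.tiny * (D.zhi - D.d.zlo) := by
  have hC := hD.C1
  have hL := l8loc_L_one hD
  have hU := l8loc_U_pos hD
  have hZ := hD.hyp.Z1
  have ht0 := hD.hyp.t0
  unfold l8loc_mE
  rw [Finset.sum_add_distrib, ← Finset.mul_sum]
  have hlen : ∑ i ∈ Ret, (t (i + 1) - t i) ≤ D.zhi - D.d.zlo := by
    rw [← ht.tn, ← ht.t0, ← Finset.sum_range_sub t n]
    refine Finset.sum_le_sum_of_subset_of_nonneg (fun i hi => Finset.mem_range.2 (hRet i hi).1) ?_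
    intro i hi _
    exact (l8loc_len_pos ht (Finset.mem_range.1 hi)).le
  refine add_le_add ?_ (mul_le_mul_of_nonneg_left hlen ht0.le)
  rcases Ret.eq_empty_or_nonempty with he | hne
  · rw [he]; simp only [Finset.sum_empty]; positivity
  set k := Ret.min' hne with hk
  have hkR : k ∈ Ret := Finset.min'_mem Ret hne
  have hkn := (hRet k hkR).1
  have hkθ := (hRet k hkR).2
  have hrk : θ ≤ skwR (t k) := hkθ.trans (l8loc_eT_le_R D t k)
  have htk : θ ≤ t k := hrk.trans (l8d7_R_le _)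
  have h1 : ∑ i ∈ Ret, ∫ z in t i..t (i + 1), D.cut.G z
      ≤ ∑ i ∈ Ret, (D.C * D.d.Z ^ 2 / θ) ^ 2 * ∫ z in t i..t (i + 1), D.d.G z * D.hh z ^ 2 :=
    Finset.sum_le_sum (fun i hi => l8loc_mass_tile hD ht (hRet i hi).1 hθ (hRet i hi).2)
  rw [← Finset.mul_sum] at h1
  have hii : ∀ i, k ≤ i → i < n → IntervalIntegrable (fun z => D.d.G z * D.hh z ^ 2) volume (t i) (t (i + 1)) :=
    fun i _ hi => l8loc_iGh hD (l8d7_t_mem' hD ht hi.le).1 (ht.lt i hi).le (l8d7_t_mem' hD ht (Nat.succ_le_of_lt hi)).2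
  have h2 : ∑ i ∈ Ret, ∫ z in t i..t (i + 1), D.d.G z * D.hh z ^ 2 ≤ ∫ z in t k..t n, D.d.G z * D.hh z ^ 2 := by
    refine l8loc_sum_tiles_le hkn.le hii ?_ Ret (fun i hi => ⟨Finset.min'_le Ret i hi, (hRet i hi).1⟩)
    intro i _ hi
    refine intervalIntegral.integral_nonneg (ht.lt i hi).le (fun z hz => ?_)
    have hzm : z ∈ Icc (D.d.zlo / 2) D.zbuf :=
      ⟨(l8d7_t_mem' hD ht hi.le).1.trans hz.1, hz.2.trans (l8d7_t_mem' hD ht (Nat.succ_le_of_lt hi)).2⟩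
    have hG0 : 0 ≤ D.d.G z := by rw [← hD.G z hzm]; exact L11Cut.G0 hD.cutOk z
    positivity
  rw [ht.tn] at h2
  have h3 := l8loc_budget_all hD K (t k) (l8d7_t_mem hD ht hkn.le)
    (hK.trans (mul_le_mul_of_nonneg_left htk (by positivity)))
  have h4 : D.C * skwL D.d * D.d.U ^ 4 / skwR (t k) ≤ D.C * skwL D.d * D.d.U ^ 4 / θ :=
    div_le_div_of_nonneg_left (by positivity) hθ hrk
  have h5 : (K : ℝ) * (D.C * skwL D.d * D.d.U ^ 4 / skwR (t k)) ≤ (K : ℝ) * (D.C * skwL D.d * D.d.U ^ 4 / θ) :=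
    mul_le_mul_of_nonneg_left h4 (Nat.cast_nonneg K)
  calc ∑ i ∈ Ret, ∫ z in t i..t (i + 1), D.cut.G z
      ≤ (D.C * D.d.Z ^ 2 / θ) ^ 2 * ∑ i ∈ Ret, ∫ z in t i..t (i + 1), D.d.G z * D.hh z ^ 2 := h1
    _ ≤ (D.C * D.d.Z ^ 2 / θ) ^ 2 * ((K : ℝ) * (D.C * skwL D.d * D.d.U ^ 4 / θ)) :=
        mul_le_mul_of_nonneg_left (by linarith) (sq_nonneg _)
    _ = _ := by field_simp

/-! ### the pointwise imports and the bound on one tile -/

theorem l8loc_Dsq_nonneg {d : L11Mass} (hd : d.Ok) (v : ℝ) : 0 ≤ d.Dsq v := by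
  rw [hd.dsq]
  have h1 := L11Mass.VarX0 hd v
  have h2 := L11Mass.Mix0 hd v
  have h3 := L11Mass.TrC0 hd v
  linarith

theorem l8loc_iDsq {d : L11Mass} (hd : d.Ok) (a b : ℝ) : IntervalIntegrable d.Dsq volume a b := by
  have e : d.Dsq = fun v => d.VarX v + 2 * d.Mix v + d.TrC v := funext hd.dsq
  rw [e]
  exact ((L11Mass.iVarX hd a b).add ((L11Mass.iMix hd a b).const_mul 2)).add (L11Mass.iTrC hd a b)

/-- `L11Mass.int_Dsq'` of 228 with the variation of `S` asked on the OPEN interval only: at a mass which carries a stretch of cuts of zero mass (`G = 0` on an interval of `z`: a jump of the clocks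
at one mass) the step function `S` of the mass jumps, and its value AT the left end is the one before the stretch.      Limit `u ↓ v1` of `int_Dsq'` on `[u, v2]`. -/
theorem l8loc_int_Dsq_open {d : L11Mass} (hd : d.Ok) {v1 v2 vmin W Rv R4 : ℝ} (hvmin : 0 < vmin) (h1 : vmin ≤ v1)
    (h12 : v1 ≤ v2) (h2 : v2 ≤ d.a) (hW : ∫ v in v1..v2, d.EW v ≤ W)
    (hRv : ∀ v ∈ Ioo v1 v2, d.VarX v ≤ Rv ^ 2) (hRv0 : 0 ≤ Rv) (hS : ∀ v ∈ Ioo v1 v2, d.S v2 - d.S v ≤ Rv)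
    (hR4 : ∀ v ∈ Ioo v1 v2, d.M4 v ≤ R4 ^ 2) (hR40 : 0 ≤ R4) :
    ∫ v in v1..v2, d.Dsq v ≤ (6 + 16 * d.c0) * (Rv * Real.sqrt W)
      + 2 * (R4 * Real.sqrt ((v2 - v1) * W / vmin)) + W / vmin := by
  have hW0 : 0 ≤ W := le_trans (intervalIntegral.integral_nonneg h12 (fun v _ => L11Mass.EW0 hd v)) hW
  have hc0 := hd.c0_nonneg
  rcases h12.eq_or_lt with he | hlt
  · rw [he, intervalIntegral.integral_same]
    positivity
  have key : ∀ u ∈ Ioo v1 v2, ∫ v in u..v2, d.Dsq v ≤ (6 + 16 * d.c0) * (Rv * Real.sqrt W)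
      + 2 * (R4 * Real.sqrt ((v2 - v1) * W / vmin)) + W / vmin := by
    intro u hu
    have hWu : ∫ v in u..v2, d.EW v ≤ W := by
      refine le_trans ?_ hW
      have hadd := intervalIntegral.integral_add_adjacent_intervals (L11Mass.iEW hd v1 u) (L11Mass.iEW hd u v2)
      have h0 : 0 ≤ ∫ v in v1..u, d.EW v := intervalIntegral.integral_nonneg hu.1.le (fun v _ => L11Mass.EW0 hd v)
      linarith
    have h := L11Mass.int_Dsq' hd hvmin (h1.trans hu.1.le) hu.2.le h2 hWu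
      (fun v hv => hRv v ⟨hu.1.trans hv.1, hv.2⟩) (hS u hu) (fun v hv => hR4 v ⟨hu.1.trans hv.1, hv.2⟩) hR40
    refine h.trans ?_
    have hs : Real.sqrt ((v2 - u) * W / vmin) ≤ Real.sqrt ((v2 - v1) * W / vmin) := by
      apply Real.sqrt_le_sqrt
      have : v2 - u ≤ v2 - v1 := by linarith [hu.1]
      gcongr
    have := mul_le_mul_of_nonneg_left hs hR40
    linarith
  have hcont : Continuous fun u => ∫ v in u..v2, d.Dsq v := by
    have h0 := intervalIntegral.continuous_primitive (l8loc_iDsq hd) v2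
    have e : (fun u => ∫ v in u..v2, d.Dsq v) = fun u => -∫ v in v2..u, d.Dsq v := by
      funext u; exact intervalIntegral.integral_symm _ _
    rw [e]; exact h0.neg
  have ht : Filter.Tendsto (fun u => ∫ v in u..v2, d.Dsq v) (𝓝[>] v1) (𝓝 (∫ v in v1..v2, d.Dsq v)) :=
    (hcont.tendsto v1).mono_left nhdsWithin_le_nhds
  refine le_of_tendsto ht ?_
  filter_upwards [Ioo_mem_nhdsGT hlt] with u hu
  exact key u hu

namespace L11Tiles
variable {d : L11Mass} {c : L11Cut} {T : L11Tiles}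

/-- `exp_Dsq_tile` of 228 in the same open form -/
theorem l8loc_exp_tile (hd : d.Ok) (hc : c.Ok) (hb : L11Bridge d c) (hT : T.Ok c) {i : ℕ}
    (hi : i < T.nT) {Rv R4 : ℝ}
    (hRv : ∀ v ∈ Ioo (T.V c i) (T.V c (i + 1)), d.VarX v ≤ Rv ^ 2) (hRv0 : 0 ≤ Rv)
    (hS : ∀ v ∈ Ioo (T.V c i) (T.V c (i + 1)), d.S (T.V c (i + 1)) - d.S v ≤ Rv)
    (hR4 : ∀ v ∈ Ioo (T.V c i) (T.V c (i + 1)), d.M4 v ≤ R4 ^ 2) (hR40 : 0 ≤ R4) :
    ∫ v in T.V c i..T.V c (i + 1), d.Dsq v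
      ≤ (6 + 16 * d.c0) * Real.sqrt (T.KW c) * (Rv * Real.sqrt (T.massE c i))
        + (2 * R4 * Real.sqrt (T.KW c / T.vmin) + T.KW c / T.vmin) * T.massE c i := by
  have hK := KW0 hc hT
  have hmE := massE0 hc hT hi
  have hv := hT.vmin_pos
  have h := l8loc_int_Dsq_open hd hv (vmin_le_V hT hi.le) (V_mono hb hT hi) (V_le_a hb hT hi)
    (exp_EW_tile hc hb hT hi) hRv hRv0 hS hR4 hR40
  rw [V_sub hb hT hi] at h
  have e1 : Real.sqrt (T.KW c * T.massE c i) = Real.sqrt (T.KW c) * Real.sqrt (T.massE c i) :=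
    Real.sqrt_mul hK _
  have e2 : Real.sqrt (T.mass c i * (T.KW c * T.massE c i) / T.vmin)
      ≤ Real.sqrt (T.KW c / T.vmin) * T.massE c i := by
    have : T.mass c i * (T.KW c * T.massE c i) / T.vmin ≤ (T.KW c / T.vmin) * (T.massE c i) ^ 2 := by
      have hm := mass_le_massE (c := c) hT hi
      have hq : 0 ≤ T.KW c / T.vmin := by positivity
      calc T.mass c i * (T.KW c * T.massE c i) / T.vmin
          = (T.KW c / T.vmin) * (T.mass c i * T.massE c i) := by ring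
        _ ≤ (T.KW c / T.vmin) * (T.massE c i * T.massE c i) := by gcongr
        _ = _ := by ring
    calc _ ≤ Real.sqrt ((T.KW c / T.vmin) * (T.massE c i) ^ 2) := Real.sqrt_le_sqrt this
      _ = _ := by rw [Real.sqrt_mul (by positivity), Real.sqrt_sq hmE]
  rw [e1] at h
  have h3 : 2 * (R4 * Real.sqrt (T.mass c i * (T.KW c * T.massE c i) / T.vmin))
      ≤ 2 * (R4 * (Real.sqrt (T.KW c / T.vmin) * T.massE c i)) := by gcongr
  calc _ ≤ _ := h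
    _ ≤ (6 + 16 * d.c0) * (Rv * (Real.sqrt (T.KW c) * Real.sqrt (T.massE c i)))
        + 2 * (R4 * (Real.sqrt (T.KW c / T.vmin) * T.massE c i)) + T.KW c * T.massE c i / T.vmin := by
        linarith
    _ = _ := by ring

end L11Tiles


/-- **the pointwise imports of (D8)**: TEX[LL:eq:D2] (both lines, `p = 2`) and the identification of `S` in the two coordinates.
Robust form (continuous clocks AND finite hierarchies, where the statistics are step functions of the levels): every mass strictly between the masses of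
the cuts `z1 ≤ z2` is served by a cut `z` within one mesh `μ` of `[z1, z2]`.      Exact case (`μ = 0`, `v = vz z`): `l8loc_of_exact`. -/
structure L8Loc (D : L8D7) (CD CM : ℝ) : Prop where
  CD0 : 0 ≤ CD
  CM0 : 0 ≤ CM
  D2 : ∀ z1 z2, D.d.zlo ≤ z1 → z1 ≤ z2 → z2 ≤ D.zhi → ∀ v ∈ Ioo (D.cut.vz z1) (D.cut.vz z2),
    ∃ z ∈ Icc (D.d.zlo / 2) D.zbuf, z1 - D.cut.μ ≤ z ∧ z ≤ z2 + D.cut.μ ∧
      D.ms.VarX v ≤ (CD * skwE D.d D.hh z) ^ 2 ∧ D.ms.M4 v ≤ (CM * skwR z) ^ 2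
  /-- OPEN form (v2, 05:10Z): the left value is taken at a mass STRICTLY above `vz z1`, so stretches of cuts of zero mass before `z1` do not matter -/
  S : ∀ z1 z2, D.d.zlo ≤ z1 → z1 ≤ z2 → z2 ≤ D.zhi → ∀ v ∈ Ioo (D.cut.vz z1) (D.cut.vz z2),
    ∃ w1 ∈ Icc (D.d.zlo / 2) D.zbuf, ∃ w2 ∈ Icc (D.d.zlo / 2) D.zbuf,
      z1 - D.cut.μ ≤ w1 ∧ w1 ≤ w2 ∧ w2 ≤ z2 + D.cut.μ ∧
      D.ms.S (D.cut.vz z2) - D.ms.S v ≤ D.d.S w2 - D.d.S w1

/-- `KW ≤ K0 / r³` on every tile -/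
noncomputable def l8loc_K0 (D : L8D7) : ℝ := 16 * D.A * D.C / (D.d.b * D.cut.msz * D.cv * D.κ0)

/-- the constant of the accuracy `R_v = Kv e_I` of a tile -/
noncomputable def l8loc_Kv (D : L8D7) (CD : ℝ) : ℝ := 3 * D.C ^ 2 * CD + D.C / D.d.b

theorem l8loc_K0_pos (hD : D.Ok) : 0 < l8loc_K0 D := by
  have hA := l8d7_A_pos hD
  have hC := hD.C1
  have hb := hD.hyp.b0
  have hm := hD.cutOk.msz_pos
  have hcv := hD.cv0
  have hκ := hD.κ0
  unfold l8loc_K0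
  positivity

theorem l8loc_KW_le (hD : D.Ok) (ht : L8D7Tiling D.C D.d D.zhi D.zbuf D.hh n t) {i : ℕ} (hi : i < n) :
    (D.T t i (i + 1)).KW D.cut ≤ l8loc_K0 D / skwR (t i) ^ 3 := by
  have hA := l8d7_A_pos hD
  have hC := hD.C1
  have hb := hD.hyp.b0
  have hm := hD.cutOk.msz_pos
  have hcv := hD.cv0
  have hκ := hD.κ0
  have h0 := l8loc_t_pos hD ht hi.le
  have hr := l8d7_R_pos h0
  have hρ : skwR (t i) / 2 ≤ skwR (t i / 2) := l8d7_R_div_le (by norm_num) h0.le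
  have hρ0 : 0 < skwR (t i / 2) := l8d7_R_pos (by linarith)
  have e1 : (D.T t i (i + 1)).KW D.cut
      = (2 * D.A * D.C / (D.d.b * D.cut.msz * D.cv * D.κ0)) / skwR (t i / 2) ^ 3 := by
    show 2 * D.A * (D.C / D.d.b) / (D.cut.msz * (D.cv * skwR (t i / 2)) * (D.κ0 * skwR (t i / 2) ^ 2)) = _
    field_simp
  have e2 : l8loc_K0 D / skwR (t i) ^ 3
      = (2 * D.A * D.C / (D.d.b * D.cut.msz * D.cv * D.κ0)) / (skwR (t i) / 2) ^ 3 := by
    unfold l8loc_K0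
    field_simp
    ring
  rw [e1, e2]
  exact div_le_div_of_nonneg_left (by positivity) (by positivity) (pow_le_pow_left₀ (by positivity) hρ 3)

theorem l8loc_KWv_le (hD : D.Ok) (ht : L8D7Tiling D.C D.d D.zhi D.zbuf D.hh n t) {i : ℕ} (hi : i < n) :
    (D.T t i (i + 1)).KW D.cut / (D.T t i (i + 1)).vmin ≤ 2 * l8loc_K0 D / (D.cv * skwR (t i) ^ 4) := by
  have hK := l8loc_K0_pos hD
  have hcv := hD.cv0
  have h0 := l8loc_t_pos hD ht hi.le
  have hr := l8d7_R_pos h0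
  have hρ : skwR (t i) / 2 ≤ skwR (t i / 2) := l8d7_R_div_le (by norm_num) h0.le
  have h1 : (D.T t i (i + 1)).KW D.cut / (D.T t i (i + 1)).vmin
      ≤ (l8loc_K0 D / skwR (t i) ^ 3) / (D.cv * (skwR (t i) / 2)) := by
    refine div_le_div₀ (by positivity) (l8loc_KW_le hD ht hi) (by positivity) ?_
    show D.cv * (skwR (t i) / 2) ≤ D.cv * skwR (t i / 2)
    exact mul_le_mul_of_nonneg_left hρ hcv.le
  refine h1.trans (le_of_eq ?_)
  field_simp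

/-- TEX[LL:lem:statistics-localized] **one tile**: bracketing inside the tile (`exp_Dsq_tile` of 228) with the accuracy `R_v = Kv e_I` from (D2) and the
variation bound, and the raw fourth moment `R_4 = 3 C² CM r` -/
theorem l8loc_tile {CD CM : ℝ} (hD : D.Ok) (ht : L8D7Tiling D.C D.d D.zhi D.zbuf D.hh n t) (hP : L8Loc D CD CM)
    {i : ℕ} (hi : i < n) :
    ∫ v in D.cut.vz (t i)..D.cut.vz (t (i + 1)), D.ms.Dsq v
      ≤ (6 + 16 * D.ms.c0) * Real.sqrt (l8loc_K0 D / skwR (t i) ^ 3)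
          * (l8loc_Kv D CD * l8loc_eT D t i * Real.sqrt (l8loc_mE D t i))
        + (2 * (3 * D.C ^ 2 * CM * skwR (t i)) * Real.sqrt (2 * l8loc_K0 D / (D.cv * skwR (t i) ^ 4))
            + 2 * l8loc_K0 D / (D.cv * skwR (t i) ^ 4)) * l8loc_mE D t i := by
  have hC := hD.C1
  have hb := hD.hyp.b0
  have hc0 := hD.msOk.c0_nonneg
  have h0 := l8loc_t_pos hD ht hi.le
  have hr := l8d7_R_pos h0
  have heT := l8loc_eT_pos hD ht hi
  have hμ := l8loc_mesh_le hD ht hi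
  have hlt := (ht.lt i hi).le
  have hti := l8d7_t_mem hD ht hi.le
  have hti1 := l8d7_t_mem hD ht (Nat.succ_le_of_lt hi)
  have hT : (D.T t i (i + 1)).Ok D.cut := l8d7_T_ok hD ht (Nat.le_succ i) hi
  have hnT : 0 < (D.T t i (i + 1)).nT := by show 0 < i + 1 - i; omega
  have hCD := hP.CD0
  have hCM := hP.CM0
  have hKv : 0 ≤ l8loc_Kv D CD := by unfold l8loc_Kv; positivity
  have hRv : ∀ v ∈ Ioo (D.cut.vz (t i)) (D.cut.vz (t (i + 1))), D.ms.VarX v ≤ (l8loc_Kv D CD * l8loc_eT D t i) ^ 2 := by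
    intro v hv
    obtain ⟨z, hzm, hz1, hz2, hvar, _⟩ := hP.D2 (t i) (t (i + 1)) hti.1 hlt hti1.2 v hv
    refine hvar.trans (pow_le_pow_left₀ ?_ ?_ 2)
    · have : 0 ≤ skwE D.d D.hh z := by
        have hz0 : 0 < z := lt_of_lt_of_le (by linarith [hD.hyp.zlo0]) hzm.1
        have hZ := hD.hyp.Z1
        exact le_min (l8d7_R_pos hz0).le (mul_nonneg (by positivity) (l8loc_hh_nonneg hD hzm))
      positivity
    · have h1 := l8loc_E_le hD ht hi hzm (by linarith) (by linarith)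
      have h2 : CD * skwE D.d D.hh z ≤ CD * (3 * D.C ^ 2 * l8loc_eT D t i) := mul_le_mul_of_nonneg_left h1 hCD
      have h3 : 0 ≤ D.C / D.d.b * l8loc_eT D t i := by positivity
      unfold l8loc_Kv
      nlinarith
  have hS : ∀ v ∈ Ioo (D.cut.vz (t i)) (D.cut.vz (t (i + 1))),
      D.ms.S (D.cut.vz (t (i + 1))) - D.ms.S v ≤ l8loc_Kv D CD * l8loc_eT D t i := by
    intro v hv
    obtain ⟨w1, hw1, w2, hw2, h1, h12, h2, hle⟩ := hP.S (t i) (t (i + 1)) hti.1 hlt hti1.2 v hv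
    have h3 := ht.var i hi w1 hw1 w2 hw2 h12 (by linarith) (by linarith)
    have h4 : 0 ≤ 3 * D.C ^ 2 * CD * l8loc_eT D t i := by positivity
    have h5 : D.C / D.d.b * min (skwR (t i)) (D.d.Z ^ 2 * (t (i + 1) - t i)) = D.C / D.d.b * l8loc_eT D t i := rfl
    unfold l8loc_Kv
    nlinarith
  have hR4 : ∀ v ∈ Ioo (D.cut.vz (t i)) (D.cut.vz (t (i + 1))), D.ms.M4 v ≤ (3 * D.C ^ 2 * CM * skwR (t i)) ^ 2 := by
    intro v hv
    obtain ⟨z, hzm, hz1, hz2, _, hm4⟩ := hP.D2 (t i) (t (i + 1)) hti.1 hlt hti1.2 v hv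
    refine hm4.trans (pow_le_pow_left₀ ?_ ?_ 2)
    · have hz0 : 0 < z := lt_of_lt_of_le (by linarith [hD.hyp.zlo0]) hzm.1
      have := (l8d7_R_pos hz0).le
      positivity
    · have h1 := l8loc_R_le hD ht hi (z := z) (by linarith)
      calc CM * skwR z ≤ CM * (3 * D.C ^ 2 * skwR (t i)) := mul_le_mul_of_nonneg_left h1 hCM
        _ = _ := by ring
  have h := L11Tiles.l8loc_exp_tile hD.msOk hD.cutOk hD.bridge hT (i := 0) hnT
    (Rv := l8loc_Kv D CD * l8loc_eT D t i) (R4 := 3 * D.C ^ 2 * CM * skwR (t i)) hRv (by positivity) hS hR4 (by positivity)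
  have hmE : (D.T t i (i + 1)).massE D.cut 0 = l8loc_mE D t i := rfl
  have hmE0 : 0 ≤ l8loc_mE D t i := hmE ▸ L11Tiles.massE0 hD.cutOk hT hnT
  rw [hmE] at h
  have hV0 : (D.T t i (i + 1)).V D.cut 0 = D.cut.vz (t i) := rfl
  have hV1 : (D.T t i (i + 1)).V D.cut (0 + 1) = D.cut.vz (t (i + 1)) := rfl
  rw [hV0, hV1] at h
  refine h.trans ?_
  have k1 := Real.sqrt_le_sqrt (l8loc_KW_le hD ht hi)
  have k2 := l8loc_KWv_le hD ht hi
  have k3 := Real.sqrt_le_sqrt k2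
  gcongr

/-- one retained tile (`e_I ≥ θ`, hence `r ≥ θ`) -/
theorem l8loc_tile_ret {CD CM : ℝ} (hD : D.Ok) (ht : L8D7Tiling D.C D.d D.zhi D.zbuf D.hh n t) (hP : L8Loc D CD CM)
    {i : ℕ} (hi : i < n) {θ : ℝ} (hθ : 0 < θ) (hθi : θ ≤ l8loc_eT D t i) :
    ∫ v in D.cut.vz (t i)..D.cut.vz (t (i + 1)), D.ms.Dsq v
      ≤ (6 + 16 * D.ms.c0) * l8loc_Kv D CD * (Real.sqrt (l8loc_K0 D) * D.d.Z / θ)
          * (Real.sqrt (t (i + 1) - t i) * Real.sqrt (l8loc_mE D t i))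
        + (6 * D.C ^ 2 * CM * Real.sqrt (2 * l8loc_K0 D / D.cv) / θ + 2 * l8loc_K0 D / (D.cv * θ ^ 4))
          * l8loc_mE D t i := by
  have hC := hD.C1
  have hb := hD.hyp.b0
  have hZ := hD.hyp.Z1
  have hc0 := hD.msOk.c0_nonneg
  have hcv := hD.cv0
  have hK := l8loc_K0_pos hD
  have h0 := l8loc_t_pos hD ht hi.le
  have hr := l8d7_R_pos h0
  have heT := l8loc_eT_pos hD ht hi
  have hl := l8loc_len_pos ht hi
  have hCD := hP.CD0
  have hCM := hP.CM0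
  have hKv : 0 ≤ l8loc_Kv D CD := by unfold l8loc_Kv; positivity
  have hrθ : θ ≤ skwR (t i) := hθi.trans (l8loc_eT_le_R D t i)
  have hT : (D.T t i (i + 1)).Ok D.cut := l8d7_T_ok hD ht (Nat.le_succ i) hi
  have hnT : 0 < (D.T t i (i + 1)).nT := by show 0 < i + 1 - i; omega
  have hmE0 : 0 ≤ l8loc_mE D t i := L11Tiles.massE0 hD.cutOk hT hnT
  refine (l8loc_tile hD ht hP hi).trans ?_
  -- (a)
  have ha : Real.sqrt (l8loc_K0 D / skwR (t i) ^ 3) * l8loc_eT D t i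
      ≤ Real.sqrt (l8loc_K0 D) * D.d.Z / θ * Real.sqrt (t (i + 1) - t i) := by
    have e1 : Real.sqrt (l8loc_K0 D / skwR (t i) ^ 3) * l8loc_eT D t i
        = Real.sqrt (l8loc_K0 D / skwR (t i) ^ 3 * l8loc_eT D t i ^ 2) := by
      rw [Real.sqrt_mul (by positivity), Real.sqrt_sq heT.le]
    have e2 : Real.sqrt (l8loc_K0 D) * D.d.Z / θ * Real.sqrt (t (i + 1) - t i)
        = Real.sqrt (l8loc_K0 D * D.d.Z ^ 2 / θ ^ 2 * (t (i + 1) - t i)) := by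
      rw [Real.sqrt_mul (by positivity), Real.sqrt_div (by positivity), Real.sqrt_mul hK.le,
        Real.sqrt_sq (by linarith), Real.sqrt_sq hθ.le]
    rw [e1, e2]
    apply Real.sqrt_le_sqrt
    have h1 := l8loc_eT_sq_le hD ht hi
    calc l8loc_K0 D / skwR (t i) ^ 3 * l8loc_eT D t i ^ 2
        ≤ l8loc_K0 D / skwR (t i) ^ 3 * (skwR (t i) * (D.d.Z ^ 2 * (t (i + 1) - t i))) :=
          mul_le_mul_of_nonneg_left h1 (by positivity)
      _ = l8loc_K0 D * D.d.Z ^ 2 / skwR (t i) ^ 2 * (t (i + 1) - t i) := by field_simp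
      _ ≤ l8loc_K0 D * D.d.Z ^ 2 / θ ^ 2 * (t (i + 1) - t i) := by
          apply mul_le_mul_of_nonneg_right _ hl.le
          exact div_le_div_of_nonneg_left (by positivity) (by positivity) (pow_le_pow_left₀ hθ.le hrθ 2)
  -- (b)
  have hb' : 2 * (3 * D.C ^ 2 * CM * skwR (t i)) * Real.sqrt (2 * l8loc_K0 D / (D.cv * skwR (t i) ^ 4))
      ≤ 6 * D.C ^ 2 * CM * Real.sqrt (2 * l8loc_K0 D / D.cv) / θ := by
    have e1 : Real.sqrt (2 * l8loc_K0 D / (D.cv * skwR (t i) ^ 4))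
        = Real.sqrt (2 * l8loc_K0 D / D.cv) / skwR (t i) ^ 2 := by
      have : 2 * l8loc_K0 D / (D.cv * skwR (t i) ^ 4) = 2 * l8loc_K0 D / D.cv / (skwR (t i) ^ 2) ^ 2 := by
        field_simp
      rw [this, Real.sqrt_div (by positivity), Real.sqrt_sq (by positivity)]
    rw [e1]
    have e2 : 2 * (3 * D.C ^ 2 * CM * skwR (t i)) * (Real.sqrt (2 * l8loc_K0 D / D.cv) / skwR (t i) ^ 2)
        = 6 * D.C ^ 2 * CM * Real.sqrt (2 * l8loc_K0 D / D.cv) / skwR (t i) := by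
      field_simp
      ring
    rw [e2]
    exact div_le_div_of_nonneg_left (by positivity) hθ hrθ
  -- (c)
  have hc : 2 * l8loc_K0 D / (D.cv * skwR (t i) ^ 4) ≤ 2 * l8loc_K0 D / (D.cv * θ ^ 4) :=
    div_le_div_of_nonneg_left (by positivity) (by positivity)
      (mul_le_mul_of_nonneg_left (pow_le_pow_left₀ hθ.le hrθ 4) hcv.le)
  have s0 := Real.sqrt_nonneg (l8loc_mE D t i)
  have t1 : (6 + 16 * D.ms.c0) * Real.sqrt (l8loc_K0 D / skwR (t i) ^ 3)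
        * (l8loc_Kv D CD * l8loc_eT D t i * Real.sqrt (l8loc_mE D t i))
      ≤ (6 + 16 * D.ms.c0) * l8loc_Kv D CD * (Real.sqrt (l8loc_K0 D) * D.d.Z / θ)
          * (Real.sqrt (t (i + 1) - t i) * Real.sqrt (l8loc_mE D t i)) := by
    calc _ = (6 + 16 * D.ms.c0) * l8loc_Kv D CD * Real.sqrt (l8loc_mE D t i)
          * (Real.sqrt (l8loc_K0 D / skwR (t i) ^ 3) * l8loc_eT D t i) := by ring
      _ ≤ (6 + 16 * D.ms.c0) * l8loc_Kv D CD * Real.sqrt (l8loc_mE D t i)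
          * (Real.sqrt (l8loc_K0 D) * D.d.Z / θ * Real.sqrt (t (i + 1) - t i)) :=
          mul_le_mul_of_nonneg_left ha (by positivity)
      _ = _ := by ring
  have t2 := mul_le_mul_of_nonneg_right (add_le_add hb' hc) hmE0
  exact add_le_add t1 t2

/-- the bound of the total mass (with the additive errors) of the retained tiles -/
noncomputable def l8loc_M (D : L8D7) (K : ℕ) (θ : ℝ) : ℝ :=
  D.C ^ 3 * K * skwL D.d * (D.d.U * D.d.Z) ^ 4 / θ ^ 3 + D.d.tiny * (D.zhi - D.d.zlo)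

theorem l8loc_M_nonneg (hD : D.Ok) (K : ℕ) {θ : ℝ} (hθ : 0 < θ) : 0 ≤ l8loc_M D K θ := by
  have hC := hD.C1
  have hL := l8loc_L_one hD
  have hU := l8loc_U_pos hD
  have hZ := hD.hyp.Z1
  have ht0 := hD.hyp.t0
  have := hD.zlohi
  unfold l8loc_M
  have h1 : 0 ≤ D.d.tiny * (D.zhi - D.d.zlo) := mul_nonneg ht0.le (by linarith)
  have h2 : 0 ≤ D.C ^ 3 * K * skwL D.d * (D.d.U * D.d.Z) ^ 4 / θ ^ 3 := by positivity
  linarith

/-- TEX[LL:lem:statistics-localized] **(D8), explicit form**: sum over the retained tiles of ALL the bands (Cauchy-Schwarz over the tiles, `∑ |I| ≤ zhi - zlo`,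
squared envelope budget).  No smallness is used. -/
theorem l8loc_sum {CD CM : ℝ} (hD : D.Ok) (ht : L8D7Tiling D.C D.d D.zhi D.zbuf D.hh n t) (hP : L8Loc D CD CM)
    {θ : ℝ} (hθ : 0 < θ) (K : ℕ) (hK : D.zhi ≤ 2 ^ K * θ) (Ret : Finset ℕ)
    (hRet : ∀ i ∈ Ret, i < n ∧ θ ≤ l8loc_eT D t i) :
    ∑ i ∈ Ret, ∫ v in D.cut.vz (t i)..D.cut.vz (t (i + 1)), D.ms.Dsq v
      ≤ (6 + 16 * D.ms.c0) * l8loc_Kv D CD * (Real.sqrt (l8loc_K0 D) * D.d.Z / θ)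
          * (Real.sqrt (D.zhi - D.d.zlo) * Real.sqrt (l8loc_M D K θ))
        + (6 * D.C ^ 2 * CM * Real.sqrt (2 * l8loc_K0 D / D.cv) / θ + 2 * l8loc_K0 D / (D.cv * θ ^ 4))
          * l8loc_M D K θ := by
  have hC := hD.C1
  have hb := hD.hyp.b0
  have hZ := hD.hyp.Z1
  have hc0 := hD.msOk.c0_nonneg
  have hcv := hD.cv0
  have hK0 := l8loc_K0_pos hD
  have hCD := hP.CD0
  have hCM := hP.CM0
  have hKv : 0 ≤ l8loc_Kv D CD := by unfold l8loc_Kv; positivity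
  have hmE0 : ∀ i ∈ Ret, 0 ≤ l8loc_mE D t i := fun i hi =>
    L11Tiles.massE0 hD.cutOk (l8d7_T_ok hD ht (Nat.le_succ i) (hRet i hi).1)
      (i := 0) (by show 0 < i + 1 - i; omega)
  have h1 := Finset.sum_le_sum (fun i hi => l8loc_tile_ret hD ht hP (hRet i hi).1 hθ (hRet i hi).2)
  refine h1.trans ?_
  rw [Finset.sum_add_distrib, ← Finset.mul_sum, ← Finset.mul_sum]
  have hM := l8loc_mass_ret hD ht hθ K hK Ret hRet
  have hM' : ∑ i ∈ Ret, l8loc_mE D t i ≤ l8loc_M D K θ := hM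
  have hlen : ∑ i ∈ Ret, (t (i + 1) - t i) ≤ D.zhi - D.d.zlo := by
    rw [← ht.tn, ← ht.t0, ← Finset.sum_range_sub t n]
    refine Finset.sum_le_sum_of_subset_of_nonneg (fun i hi => Finset.mem_range.2 (hRet i hi).1) ?_
    intro i hi _
    exact (l8loc_len_pos ht (Finset.mem_range.1 hi)).le
  have hcs := Real.sum_mul_le_sqrt_mul_sqrt Ret (fun i => Real.sqrt (t (i + 1) - t i))
    (fun i => Real.sqrt (l8loc_mE D t i))
  have e1 : ∑ i ∈ Ret, Real.sqrt (t (i + 1) - t i) ^ 2 = ∑ i ∈ Ret, (t (i + 1) - t i) :=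
    Finset.sum_congr rfl (fun i hi => Real.sq_sqrt (l8loc_len_pos ht (hRet i hi).1).le)
  have e2 : ∑ i ∈ Ret, Real.sqrt (l8loc_mE D t i) ^ 2 = ∑ i ∈ Ret, l8loc_mE D t i :=
    Finset.sum_congr rfl (fun i hi => Real.sq_sqrt (hmE0 i hi))
  rw [e1, e2] at hcs
  have hcs' : ∑ i ∈ Ret, Real.sqrt (t (i + 1) - t i) * Real.sqrt (l8loc_mE D t i)
      ≤ Real.sqrt (D.zhi - D.d.zlo) * Real.sqrt (l8loc_M D K θ) :=
    hcs.trans (mul_le_mul (Real.sqrt_le_sqrt hlen) (Real.sqrt_le_sqrt hM') (Real.sqrt_nonneg _)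
      (Real.sqrt_nonneg _))
  exact add_le_add (mul_le_mul_of_nonneg_left hcs' (by positivity))
    (mul_le_mul_of_nonneg_left hM' (by positivity))

/-! ### the closed form -/

/-- `z_1^0 = x³ / √λ_1` (`msz ≍ x⁻⁶`, `κ0 ≍ λ_1`) -/
noncomputable def l8loc_z1 (D : L8D7) : ℝ := Real.sqrt (1 / (D.cut.msz * D.κ0))

noncomputable def l8loc_Ka (D : L8D7) : ℝ := 16 * D.C * (D.c.Lq + 2 * D.C ^ 3 + 2 * D.CS) / D.cv

noncomputable def l8loc_Km (D : L8D7) (K : ℕ) : ℝ := D.C ^ 3 * K * skwL D.d + D.Cz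

/-- the constant of (D8): a polynomial in `C, Lq, Cz, CD, CM, c0, 1/cv, 1/b`, the logarithm `L = 1 + log (1/tiny)` and the number `K` of dyadic bands -/
noncomputable def l8loc_Kfin (D : L8D7) (CD CM : ℝ) (K : ℕ) : ℝ :=
  (6 + 16 * D.ms.c0) * l8loc_Kv D CD * Real.sqrt (l8loc_Ka D) * Real.sqrt D.Cz * Real.sqrt (l8loc_Km D K) / D.d.b
    + 6 * D.C ^ 2 * CM * Real.sqrt (2 * l8loc_Ka D / D.cv) * l8loc_Km D K / D.d.b
    + 2 * l8loc_Ka D * l8loc_Km D K / (D.d.b ^ 2 * D.cv)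

theorem l8loc_z1_pos (hD : D.Ok) : 0 < l8loc_z1 D := by
  have hm := hD.cutOk.msz_pos
  have hκ := hD.κ0
  unfold l8loc_z1
  exact Real.sqrt_pos.2 (by positivity)

theorem l8loc_z1_sq (hD : D.Ok) : l8loc_z1 D ^ 2 = 1 / (D.cut.msz * D.κ0) := by
  have hm := hD.cutOk.msz_pos
  have hκ := hD.κ0
  unfold l8loc_z1
  exact Real.sq_sqrt (by positivity)

theorem l8loc_Ka_pos (hD : D.Ok) : 0 < l8loc_Ka D := by
  have hC := hD.C1
  have hL := hD.Lq1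
  have hcv := hD.cv0
  have hCS := l8d7_CS_nonneg hD
  unfold l8loc_Ka
  positivity

theorem l8loc_Km_pos (hD : D.Ok) (K : ℕ) : 0 < l8loc_Km D K := by
  have hC := hD.C1
  have hL := l8loc_L_one hD
  have hCz := hD.Cz1
  unfold l8loc_Km
  have : 0 ≤ D.C ^ 3 * K * skwL D.d := by positivity
  linarith

theorem l8loc_A_le (hD : D.Ok) : D.A ≤ (D.c.Lq + 2 * D.C ^ 3 + 2 * D.CS) * D.d.Z ^ 2 / D.d.b := by
  have hC := hD.C1
  have hL := hD.Lq1
  have hb := hD.hyp.b0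
  have hb1 := hD.hyp.b1
  have hZ := hD.hyp.Z1
  have hZ2 : 1 ≤ D.d.Z ^ 2 := one_le_pow₀ hZ
  have h1 : 1 ≤ D.d.Z ^ 2 / D.d.b := by rw [le_div_iff₀ hb]; linarith
  have h2 : D.C ^ 2 ≤ D.C ^ 3 := pow_le_pow_right₀ hC (by norm_num)
  have hCS := l8d7_CS_nonneg hD
  unfold L8D7.A L8D7.A0
  have e1 : (D.C ^ 2 + D.C ^ 3) * D.d.Z ^ 2 / D.d.b = (D.C ^ 2 + D.C ^ 3) * (D.d.Z ^ 2 / D.d.b) := by ring
  have e2 : (D.c.Lq + 2 * D.C ^ 3 + 2 * D.CS) * D.d.Z ^ 2 / D.d.b = (D.c.Lq + 2 * D.C ^ 3 + 2 * D.CS) * (D.d.Z ^ 2 / D.d.b) := by ring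
  rw [e1, e2]
  nlinarith

/-- `K0 ≤ Ka (Z z_1 / b)²` -/
theorem l8loc_K0_le (hD : D.Ok) : l8loc_K0 D ≤ l8loc_Ka D * (D.d.Z * l8loc_z1 D / D.d.b) ^ 2 := by
  have hC := hD.C1
  have hb := hD.hyp.b0
  have hm := hD.cutOk.msz_pos
  have hcv := hD.cv0
  have hκ := hD.κ0
  have hA := l8loc_A_le hD
  have e : l8loc_Ka D * (D.d.Z * l8loc_z1 D / D.d.b) ^ 2
      = 16 * ((D.c.Lq + 2 * D.C ^ 3 + 2 * D.CS) * D.d.Z ^ 2 / D.d.b) * D.C / (D.d.b * D.cut.msz * D.cv * D.κ0) := by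
    rw [div_pow, mul_pow, l8loc_z1_sq hD]
    unfold l8loc_Ka
    field_simp
  rw [e]
  unfold l8loc_K0
  apply div_le_div_of_nonneg_right _ (by positivity)
  apply mul_le_mul_of_nonneg_right _ (by linarith)
  linarith

theorem l8loc_tiny_le (hD : D.Ok) : D.d.tiny ≤ (D.d.U * D.d.Z) ^ 4 := by
  have hx := hD.hyp.x0
  have hxU := hD.hyp.xU
  have hx1 : D.d.x ≤ 1 := hxU.trans hD.hyp.U1
  have hZ := hD.hyp.Z1
  have hU := l8loc_U_pos hD
  calc D.d.tiny ≤ D.d.x ^ 12 := hD.hyp.t1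
    _ ≤ D.d.x ^ 4 := pow_le_pow_of_le_one hx.le hx1 (by norm_num)
    _ ≤ (D.d.U * D.d.Z) ^ 4 := pow_le_pow_left₀ hx.le (by nlinarith) 4

/-- `M ≤ Km Y⁴ / θ³` -/
theorem l8loc_M_le (hD : D.Ok) (K : ℕ) {θ : ℝ} (hθ : 0 < θ) (hθ1 : θ ≤ 1) :
    l8loc_M D K θ ≤ l8loc_Km D K * (D.d.U * D.d.Z) ^ 4 / θ ^ 3 := by
  have hzlo := hD.hyp.zlo0
  have ht := l8loc_tiny_le hD
  have ht0 := hD.hyp.t0
  have hlen : D.zhi - D.d.zlo ≤ D.Cz := by linarith [hD.zhibuf, hD.zbufCz]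
  have hlen0 : 0 ≤ D.zhi - D.d.zlo := by linarith [hD.zlohi]
  have hCz := hD.Cz1
  have hθ3 : θ ^ 3 ≤ 1 := pow_le_one₀ hθ.le hθ1
  have hY : 0 ≤ (D.d.U * D.d.Z) ^ 4 := by positivity
  have h1 : D.d.tiny * (D.zhi - D.d.zlo) ≤ D.Cz * (D.d.U * D.d.Z) ^ 4 / θ ^ 3 := by
    rw [le_div_iff₀ (by positivity)]
    calc D.d.tiny * (D.zhi - D.d.zlo) * θ ^ 3 ≤ D.d.tiny * (D.zhi - D.d.zlo) * 1 :=
          mul_le_mul_of_nonneg_left hθ3 (by positivity)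
      _ = D.d.tiny * (D.zhi - D.d.zlo) := mul_one _
      _ ≤ (D.d.U * D.d.Z) ^ 4 * D.Cz := mul_le_mul ht hlen hlen0 hY
      _ = _ := by ring
  unfold l8loc_M l8loc_Km
  rw [add_mul, add_div]
  exact add_le_add le_rfl h1

/-- TEX[LL:lem:statistics-localized] TEX[LL:eq:D8] **(D8), closed form**: for `θ ≤ 1`, `Y = U Z ≤ 1`, `z_1^0 Y² ≤ 1` (true since `z_r^0 Z ≤ 1` for `r ≥ Y`),
the retained tiles `{e_I ≥ θ}` of all the bands satisfy `∑_I ∫_I D_v² dv ≤ Kfin z_1^0 Y² Z² θ⁻⁷`. -/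
theorem l8loc_D8 {CD CM : ℝ} (hD : D.Ok) (ht : L8D7Tiling D.C D.d D.zhi D.zbuf D.hh n t) (hP : L8Loc D CD CM)
    {θ : ℝ} (hθ : 0 < θ) (hθ1 : θ ≤ 1) (K : ℕ) (hK : D.zhi ≤ 2 ^ K * θ)
    (hY : D.d.U * D.d.Z ≤ 1) (hz1 : l8loc_z1 D * (D.d.U * D.d.Z) ^ 2 ≤ 1) (Ret : Finset ℕ)
    (hRet : ∀ i ∈ Ret, i < n ∧ θ ≤ l8loc_eT D t i) :
    ∑ i ∈ Ret, ∫ v in D.cut.vz (t i)..D.cut.vz (t (i + 1)), D.ms.Dsq v
      ≤ l8loc_Kfin D CD CM K * (l8loc_z1 D * (D.d.U * D.d.Z) ^ 2 * D.d.Z ^ 2) / θ ^ 7 := by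
  have hC := hD.C1
  have hb := hD.hyp.b0
  have hZ := hD.hyp.Z1
  have hU := l8loc_U_pos hD
  have hc0 := hD.msOk.c0_nonneg
  have hcv := hD.cv0
  have hK0 := l8loc_K0_pos hD
  have hKa := l8loc_Ka_pos hD
  have hKm := l8loc_Km_pos hD K
  have hz := l8loc_z1_pos hD
  have hCD := hP.CD0
  have hCM := hP.CM0
  have hCz := hD.Cz1
  have hKv : 0 ≤ l8loc_Kv D CD := by unfold l8loc_Kv; positivity
  refine (l8loc_sum hD ht hP hθ K hK Ret hRet).trans ?_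
  set Y := D.d.U * D.d.Z with hYdef
  set Z := D.d.Z with hZdef
  set z1 := l8loc_z1 D with hz1def
  set b := D.d.b with hbdef
  set w := Z * z1 / b with hw
  have hY0 : 0 < Y := by positivity
  have hw0 : 0 < w := by positivity
  have hM0 := l8loc_M_nonneg hD K hθ
  have hKle : l8loc_K0 D ≤ l8loc_Ka D * w ^ 2 := l8loc_K0_le hD
  have hMle : l8loc_M D K θ ≤ l8loc_Km D K * Y ^ 4 / θ ^ 3 := l8loc_M_le hD K hθ hθ1
  -- square roots
  have s1 : Real.sqrt (l8loc_K0 D) ≤ Real.sqrt (l8loc_Ka D) * w := by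
    calc Real.sqrt (l8loc_K0 D) ≤ Real.sqrt (l8loc_Ka D * w ^ 2) := Real.sqrt_le_sqrt hKle
      _ = _ := by rw [Real.sqrt_mul hKa.le, Real.sqrt_sq hw0.le]
  have s2 : Real.sqrt (2 * l8loc_K0 D / D.cv) ≤ Real.sqrt (2 * l8loc_Ka D / D.cv) * w := by
    calc Real.sqrt (2 * l8loc_K0 D / D.cv) ≤ Real.sqrt (2 * l8loc_Ka D / D.cv * w ^ 2) := by
          apply Real.sqrt_le_sqrt
          have : 2 * l8loc_Ka D / D.cv * w ^ 2 = 2 * (l8loc_Ka D * w ^ 2) / D.cv := by ring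
          rw [this]
          exact div_le_div_of_nonneg_right (by linarith) hcv.le
      _ = _ := by rw [Real.sqrt_mul (by positivity), Real.sqrt_sq hw0.le]
  have s3 : Real.sqrt (l8loc_M D K θ) ≤ Real.sqrt (l8loc_Km D K) * (Y ^ 2 / θ ^ 2) := by
    calc Real.sqrt (l8loc_M D K θ) ≤ Real.sqrt (l8loc_Km D K * (Y ^ 2 / θ ^ 2) ^ 2) := by
          apply Real.sqrt_le_sqrt
          refine hMle.trans ?_
          have e : l8loc_Km D K * (Y ^ 2 / θ ^ 2) ^ 2 = l8loc_Km D K * Y ^ 4 / θ ^ 4 := by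
            field_simp
          rw [e]
          exact div_le_div_of_nonneg_left (by positivity) (by positivity)
            (pow_le_pow_of_le_one hθ.le hθ1 (by norm_num))
      _ = _ := by rw [Real.sqrt_mul hKm.le, Real.sqrt_sq (by positivity)]
  have s4 : Real.sqrt (D.zhi - D.d.zlo) ≤ Real.sqrt D.Cz :=
    Real.sqrt_le_sqrt (by linarith [hD.zhibuf, hD.zbufCz, hD.hyp.zlo0])
  set sKa := Real.sqrt (l8loc_Ka D) with hsKa
  set sKc := Real.sqrt (2 * l8loc_Ka D / D.cv) with hsKc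
  set sKm := Real.sqrt (l8loc_Km D K) with hsKm
  set sCz := Real.sqrt D.Cz with hsCz
  have p1 : 0 ≤ sKa := Real.sqrt_nonneg _
  have p2 : 0 ≤ sKc := Real.sqrt_nonneg _
  have p3 : 0 ≤ sKm := Real.sqrt_nonneg _
  have p4 : 0 ≤ sCz := Real.sqrt_nonneg _
  set P := z1 * Y ^ 2 * Z ^ 2 with hP'
  have hP0 : 0 < P := by positivity
  have hθ37 : P / θ ^ 3 ≤ P / θ ^ 7 :=
    div_le_div_of_nonneg_left hP0.le (by positivity) (pow_le_pow_of_le_one hθ.le hθ1 (by norm_num))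
  have hθ47 : P / θ ^ 4 ≤ P / θ ^ 7 :=
    div_le_div_of_nonneg_left hP0.le (by positivity) (pow_le_pow_of_le_one hθ.le hθ1 (by norm_num))
  -- first term
  have T1 : (6 + 16 * D.ms.c0) * l8loc_Kv D CD * (Real.sqrt (l8loc_K0 D) * Z / θ)
        * (Real.sqrt (D.zhi - D.d.zlo) * Real.sqrt (l8loc_M D K θ))
      ≤ ((6 + 16 * D.ms.c0) * l8loc_Kv D CD * sKa * sCz * sKm / b) * (P / θ ^ 7) := by
    calc _ ≤ (6 + 16 * D.ms.c0) * l8loc_Kv D CD * ((sKa * w) * Z / θ) * (sCz * (sKm * (Y ^ 2 / θ ^ 2))) := by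
          gcongr
      _ = ((6 + 16 * D.ms.c0) * l8loc_Kv D CD * sKa * sCz * sKm / b) * (P / θ ^ 3) := by
          rw [hw, hP']; field_simp
      _ ≤ _ := mul_le_mul_of_nonneg_left hθ37 (by positivity)
  -- second term
  have hZZ : Z ≤ Z ^ 2 := by nlinarith
  have hY42 : Y ^ 4 ≤ Y ^ 2 := pow_le_pow_of_le_one hY0.le hY (by norm_num)
  have T2 : 6 * D.C ^ 2 * CM * Real.sqrt (2 * l8loc_K0 D / D.cv) / θ * l8loc_M D K θ
      ≤ (6 * D.C ^ 2 * CM * sKc * l8loc_Km D K / b) * (P / θ ^ 7) := by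
    calc _ ≤ 6 * D.C ^ 2 * CM * (sKc * w) / θ * (l8loc_Km D K * Y ^ 4 / θ ^ 3) := by
          gcongr
      _ = (6 * D.C ^ 2 * CM * sKc * l8loc_Km D K / b) * ((z1 * Y ^ 4 * Z) / θ ^ 4) := by
          rw [hw]; field_simp
      _ ≤ (6 * D.C ^ 2 * CM * sKc * l8loc_Km D K / b) * (P / θ ^ 4) := by
          apply mul_le_mul_of_nonneg_left _ (by positivity)
          apply div_le_div_of_nonneg_right _ (by positivity)
          rw [hP']
          exact mul_le_mul (mul_le_mul_of_nonneg_left hY42 hz.le) hZZ (by positivity) (by positivity)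
      _ ≤ _ := mul_le_mul_of_nonneg_left hθ47 (by positivity)
  -- third term
  have T3 : 2 * l8loc_K0 D / (D.cv * θ ^ 4) * l8loc_M D K θ
      ≤ (2 * l8loc_Ka D * l8loc_Km D K / (b ^ 2 * D.cv)) * (P / θ ^ 7) := by
    calc _ ≤ 2 * (l8loc_Ka D * w ^ 2) / (D.cv * θ ^ 4) * (l8loc_Km D K * Y ^ 4 / θ ^ 3) := by
          gcongr
      _ = (2 * l8loc_Ka D * l8loc_Km D K / (b ^ 2 * D.cv)) * (P * (z1 * Y ^ 2) / θ ^ 7) := by
          rw [hw, hP']; field_simp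
      _ ≤ _ := by
          apply mul_le_mul_of_nonneg_left _ (by positivity)
          apply div_le_div_of_nonneg_right _ (by positivity)
          calc P * (z1 * Y ^ 2) ≤ P * 1 := mul_le_mul_of_nonneg_left hz1 hP0.le
            _ = P := mul_one _
  have e : l8loc_Kfin D CD CM K * P / θ ^ 7
      = ((6 + 16 * D.ms.c0) * l8loc_Kv D CD * sKa * sCz * sKm / b) * (P / θ ^ 7)
        + (6 * D.C ^ 2 * CM * sKc * l8loc_Km D K / b) * (P / θ ^ 7)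
        + (2 * l8loc_Ka D * l8loc_Km D K / (b ^ 2 * D.cv)) * (P / θ ^ 7) := by
    unfold l8loc_Kfin
    ring
  rw [e]
  have h3 := add_le_add T1 (add_le_add T2 T3)
  refine le_trans (le_of_eq ?_) (h3.trans (le_of_eq ?_)) <;> ring

/-! ### from the tiles to the set `{e ≥ θ}` -/

/-- integral of a nonnegative function over a finite union -/
theorem l8loc_setIntegral_biUnion_le (s : Finset ℕ) (S : ℕ → Set ℝ) {f : ℝ → ℝ}
    (hS : ∀ i ∈ s, MeasurableSet (S i)) (hf0 : ∀ v, 0 ≤ f v) (hfi : ∀ i ∈ s, IntegrableOn f (S i) volume) :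
    ∫ v in ⋃ i ∈ s, S i, f v ≤ ∑ i ∈ s, ∫ v in S i, f v := by
  classical
  induction s using Finset.induction_on with
  | empty => simp
  | insert a s ha ih =>
    rw [Finset.set_biUnion_insert, Finset.sum_insert ha]
    have hSa := hS a (Finset.mem_insert_self a s)
    have hU : MeasurableSet (⋃ i ∈ s, S i) :=
      Finset.measurableSet_biUnion s (fun i hi => hS i (Finset.mem_insert_of_mem hi))
    have hfU : IntegrableOn f (⋃ i ∈ s, S i) volume :=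
      (integrableOn_finset_iUnion).2 (fun i hi => hfi i (Finset.mem_insert_of_mem hi))
    have e : S a ∪ ⋃ i ∈ s, S i = S a ∪ ((⋃ i ∈ s, S i) \ S a) := (Set.union_sdiff_self).symm
    rw [e, setIntegral_union disjoint_sdiff_right (hU.diff hSa) (hfi a (Finset.mem_insert_self a s))
      (hfU.mono_set sdiff_subset)]
    have h1 : ∫ v in (⋃ i ∈ s, S i) \ S a, f v ≤ ∫ v in ⋃ i ∈ s, S i, f v :=
      setIntegral_mono_set hfU (ae_of_all _ hf0) (LE.le.eventuallyLE sdiff_subset)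
    have h2 := ih (fun i hi => hS i (Finset.mem_insert_of_mem hi)) (fun i hi => hfi i (Finset.mem_insert_of_mem hi))
    linarith

/-- a point of `[V 0, V n]` is a breakpoint or lies inside a tile -/
theorem l8loc_mem_tiles {V : ℕ → ℝ} : ∀ (n : ℕ) (v : ℝ), v ∈ Icc (V 0) (V n) →
    (∃ i ≤ n, v = V i) ∨ ∃ i < n, v ∈ Ioo (V i) (V (i + 1)) := by
  intro n
  induction n with
  | zero => intro v hv; exact Or.inl ⟨0, le_rfl, le_antisymm hv.2 hv.1⟩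
  | succ n ih =>
    intro v hv
    rcases le_or_gt v (V n) with h | h
    · rcases ih v ⟨hv.1, h⟩ with ⟨i, hi, e⟩ | ⟨i, hi, e⟩
      · exact Or.inl ⟨i, by omega, e⟩
      · exact Or.inr ⟨i, by omega, e⟩
    · rcases hv.2.eq_or_lt with e | e
      · exact Or.inl ⟨n + 1, le_rfl, e⟩
      · exact Or.inr ⟨n, by omega, h, e⟩

/-- a set covered (up to the breakpoints) by the retained tiles -/
theorem l8loc_cover (hD : D.Ok) (ht : L8D7Tiling D.C D.d D.zhi D.zbuf D.hh n t) (Ret : Finset ℕ)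
    (hRet : ∀ i ∈ Ret, i < n) {A : Set ℝ}
    (hA : ∀ v ∈ A, (∃ i ≤ n, v = D.cut.vz (t i)) ∨ ∃ i ∈ Ret, v ∈ Ioo (D.cut.vz (t i)) (D.cut.vz (t (i + 1)))) :
    ∫ v in A, D.ms.Dsq v ≤ ∑ i ∈ Ret, ∫ v in D.cut.vz (t i)..D.cut.vz (t (i + 1)), D.ms.Dsq v := by
  have hmono : ∀ i ∈ Ret, D.cut.vz (t i) ≤ D.cut.vz (t (i + 1)) :=
    fun i hi => hD.bridge.vz_mono (ht.lt i (hRet i hi)).le
  have hfi : ∀ i ∈ Ret, IntegrableOn D.ms.Dsq (Ioc (D.cut.vz (t i)) (D.cut.vz (t (i + 1)))) volume :=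
    fun i hi => (intervalIntegrable_iff_integrableOn_Ioc_of_le (hmono i hi)).1 (l8loc_iDsq hD.msOk _ _)
  have hfU : IntegrableOn D.ms.Dsq (⋃ i ∈ Ret, Ioc (D.cut.vz (t i)) (D.cut.vz (t (i + 1)))) volume :=
    (integrableOn_finset_iUnion).2 hfi
  have hsub : A ≤ᵐ[volume] (⋃ i ∈ Ret, Ioc (D.cut.vz (t i)) (D.cut.vz (t (i + 1))) : Set ℝ) := by
    rw [ae_le_set]
    have hfin : ((fun i => D.cut.vz (t i)) '' (Set.Iic n)).Finite := (Set.finite_Iic n).image _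
    refine measure_mono_null ?_ (hfin.measure_zero volume)
    intro v hv
    rcases hA v hv.1 with ⟨i, hi, e⟩ | ⟨i, hi, e⟩
    · exact ⟨i, hi, e.symm⟩
    · refine absurd ?_ hv.2
      simp only [Set.mem_iUnion]
      exact ⟨i, hi, e.1, e.2.le⟩
  calc ∫ v in A, D.ms.Dsq v
      ≤ ∫ v in ⋃ i ∈ Ret, Ioc (D.cut.vz (t i)) (D.cut.vz (t (i + 1))), D.ms.Dsq v :=
        setIntegral_mono_set hfU (ae_of_all _ (l8loc_Dsq_nonneg hD.msOk)) hsub
    _ ≤ ∑ i ∈ Ret, ∫ v in Ioc (D.cut.vz (t i)) (D.cut.vz (t (i + 1))), D.ms.Dsq v :=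
        l8loc_setIntegral_biUnion_le Ret _ (fun _ _ => measurableSet_Ioc) (l8loc_Dsq_nonneg hD.msOk) hfi
    _ = _ := Finset.sum_congr rfl (fun i hi => (intervalIntegral.integral_of_le (hmono i hi)).symm)

/-- an envelope `ev` in the mass coordinate that is dominated by the envelope `e` of a cut within one mesh -/
def L8LocEnv (D : L8D7) (ev : ℝ → ℝ) : Prop :=
  ∀ z1 z2, D.d.zlo ≤ z1 → z1 ≤ z2 → z2 ≤ D.zhi → ∀ v ∈ Ioo (D.cut.vz z1) (D.cut.vz z2),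
    ∃ z ∈ Icc (D.d.zlo / 2) D.zbuf, z1 - D.cut.μ ≤ z ∧ z ≤ z2 + D.cut.μ ∧ ev v ≤ skwE D.d D.hh z

/-- TEX[LL:lem:statistics-localized] TEX[LL:eq:D8] **(D8) on the set `{e(v) ≥ θ}`**, all the bands `[v(zlo), v(zhi)]` together; `K` = number of dyadic bands above `θ / 3C²` -/
theorem l8loc_D8_set {CD CM : ℝ} (hD : D.Ok) (hP : L8Loc D CD CM) {ev : ℝ → ℝ} (hev : L8LocEnv D ev)
    {θ : ℝ} (hθ : 0 < θ) (hθ1 : θ ≤ 1) (K : ℕ) (hK : D.zhi ≤ 2 ^ K * (θ / (3 * D.C ^ 2)))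
    (hY : D.d.U * D.d.Z ≤ 1) (hz1 : l8loc_z1 D * (D.d.U * D.d.Z) ^ 2 ≤ 1) :
    ∫ v in {v | v ∈ Icc (D.cut.vz D.d.zlo) (D.cut.vz D.zhi) ∧ θ ≤ ev v}, D.ms.Dsq v
      ≤ l8loc_Kfin D CD CM K * (l8loc_z1 D * (D.d.U * D.d.Z) ^ 2 * D.d.Z ^ 2) / (θ / (3 * D.C ^ 2)) ^ 7 := by
  classical
  have hC := hD.C1
  have hC2 : 1 ≤ D.C ^ 2 := one_le_pow₀ hC
  obtain ⟨n, t, ht⟩ := l8d7_exists_tiling hD.concl
  have hθ' : 0 < θ / (3 * D.C ^ 2) := by positivity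
  have hθ1' : θ / (3 * D.C ^ 2) ≤ 1 := by rw [div_le_one (by positivity)]; linarith
  set Ret := (Finset.range n).filter (fun i => θ / (3 * D.C ^ 2) ≤ l8loc_eT D t i) with hRetdef
  have hRet : ∀ i ∈ Ret, i < n ∧ θ / (3 * D.C ^ 2) ≤ l8loc_eT D t i := fun i hi =>
    ⟨Finset.mem_range.1 (Finset.mem_filter.1 hi).1, (Finset.mem_filter.1 hi).2⟩
  refine le_trans (l8loc_cover hD ht Ret (fun i hi => (hRet i hi).1) ?_)
    (l8loc_D8 hD ht hP hθ' hθ1' K hK hY hz1 Ret hRet)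
  intro v hv
  have hv1 : v ∈ Icc (D.cut.vz (t 0)) (D.cut.vz (t n)) := by rw [ht.t0, ht.tn]; exact hv.1
  rcases l8loc_mem_tiles (V := fun i => D.cut.vz (t i)) n v hv1 with h | ⟨i, hi, hvi⟩
  · exact Or.inl h
  · refine Or.inr ⟨i, ?_, hvi⟩
    obtain ⟨z, hzm, hz1', hz2', hle⟩ := hev (t i) (t (i + 1)) (l8d7_t_mem hD ht hi.le).1 (ht.lt i hi).le
      (l8d7_t_mem hD ht (Nat.succ_le_of_lt hi)).2 v hvi
    have hμ := l8loc_mesh_le hD ht hi
    have h1 := l8loc_E_le hD ht hi hzm (by linarith) (by linarith)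
    refine Finset.mem_filter.2 ⟨Finset.mem_range.2 hi, ?_⟩
    rw [div_le_iff₀ (by positivity)]
    have : θ ≤ ev v := hv.2
    linarith

/-! ### the constant: structural part, losses -/

/-- the structural part of the constant of (D8): depends only on `C, Lq, Cz, c0, cv` -/
noncomputable def l8loc_Ks (D : L8D7) : ℝ :=
  ((6 + 16 * D.ms.c0) * (3 * D.C ^ 2 + D.C) * (1 + l8loc_Ka D) * D.Cz + 6 * D.C ^ 2 * (1 + 2 * l8loc_Ka D / D.cv)
    + 2 * l8loc_Ka D / D.cv) * (D.C ^ 3 + D.Cz)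

theorem l8loc_sqrt_le_one_add {x : ℝ} (hx : 0 ≤ x) : Real.sqrt x ≤ 1 + x :=
  Real.sqrt_le_iff.2 ⟨by linarith, by nlinarith⟩

theorem l8loc_sqrt_le_self {x : ℝ} (hx : 1 ≤ x) : Real.sqrt x ≤ x :=
  Real.sqrt_le_iff.2 ⟨by linarith, by nlinarith⟩

/-- the losses of (D8): `Kfin ≤ Ks (1 + CD + CM) (K + 1) L / b²` -/
theorem l8loc_Kfin_le {CD CM : ℝ} (hD : D.Ok) (hCD : 0 ≤ CD) (hCM : 0 ≤ CM) (K : ℕ) :
    l8loc_Kfin D CD CM K ≤ l8loc_Ks D * (1 + CD + CM) * ((K : ℝ) + 1) * skwL D.d / D.d.b ^ 2 := by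
  have hC := hD.C1
  have hb := hD.hyp.b0
  have hb1 : D.d.b ≤ 1 := by linarith [hD.hyp.b1]
  have hc0 := hD.msOk.c0_nonneg
  have hcv := hD.cv0
  have hKa := l8loc_Ka_pos hD
  have hKm := l8loc_Km_pos hD K
  have hCz := hD.Cz1
  have hL := l8loc_L_one hD
  set Q := 1 + CD + CM with hQ
  have hQ1 : 1 ≤ Q := by linarith
  set Km' := (D.C ^ 3 + D.Cz) * (((K : ℝ) + 1) * skwL D.d) with hKm'
  have hK0 : (0 : ℝ) ≤ K := Nat.cast_nonneg K
  have hKL : 1 ≤ ((K : ℝ) + 1) * skwL D.d := by nlinarith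
  have hKmle : l8loc_Km D K ≤ Km' := by
    unfold l8loc_Km
    rw [hKm', add_mul]
    have h1 : D.C ^ 3 * K * skwL D.d ≤ D.C ^ 3 * (((K : ℝ) + 1) * skwL D.d) := by
      have : D.C ^ 3 * K * skwL D.d = D.C ^ 3 * ((K : ℝ) * skwL D.d) := by ring
      rw [this]
      apply mul_le_mul_of_nonneg_left _ (by positivity)
      nlinarith
    have h2 : D.Cz ≤ D.Cz * (((K : ℝ) + 1) * skwL D.d) := by nlinarith
    linarith
  have hKm1 : 1 ≤ l8loc_Km D K := by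
    unfold l8loc_Km
    have : 0 ≤ D.C ^ 3 * K * skwL D.d := by positivity
    linarith
  have hKm'0 : 0 < Km' := lt_of_lt_of_le hKm hKmle
  have hKv : l8loc_Kv D CD ≤ (3 * D.C ^ 2 + D.C) * Q / D.d.b := by
    unfold l8loc_Kv
    rw [le_div_iff₀ hb, add_mul, div_mul_cancel₀ _ hb.ne']
    have h1 : 3 * D.C ^ 2 * CD * D.d.b ≤ 3 * D.C ^ 2 * CD * 1 :=
      mul_le_mul_of_nonneg_left hb1 (by positivity)
    have h2 : 0 ≤ 3 * D.C ^ 2 * (1 + CM) := by positivity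
    have h3 : 0 ≤ D.C * (CD + CM) := by positivity
    rw [hQ]
    nlinarith
  have hKv0 : 0 ≤ l8loc_Kv D CD := by unfold l8loc_Kv; positivity
  have r1 := l8loc_sqrt_le_one_add hKa.le
  have r2 := l8loc_sqrt_le_self hCz
  have r3 := (l8loc_sqrt_le_self hKm1).trans hKmle
  have r4 : Real.sqrt (2 * l8loc_Ka D / D.cv) ≤ 1 + 2 * l8loc_Ka D / D.cv :=
    l8loc_sqrt_le_one_add (by positivity)
  have hbb : 1 / D.d.b ≤ 1 / D.d.b ^ 2 :=
    div_le_div_of_nonneg_left (by norm_num) (by positivity) (by nlinarith)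
  have T1 : (6 + 16 * D.ms.c0) * l8loc_Kv D CD * Real.sqrt (l8loc_Ka D) * Real.sqrt D.Cz
        * Real.sqrt (l8loc_Km D K) / D.d.b
      ≤ (6 + 16 * D.ms.c0) * ((3 * D.C ^ 2 + D.C) * Q / D.d.b) * (1 + l8loc_Ka D) * D.Cz * Km' / D.d.b := by
    gcongr
  have T2 : 6 * D.C ^ 2 * CM * Real.sqrt (2 * l8loc_Ka D / D.cv) * l8loc_Km D K / D.d.b
      ≤ 6 * D.C ^ 2 * Q * (1 + 2 * l8loc_Ka D / D.cv) * Km' * (1 / D.d.b ^ 2) := by
    calc _ = 6 * D.C ^ 2 * CM * Real.sqrt (2 * l8loc_Ka D / D.cv) * l8loc_Km D K * (1 / D.d.b) := by ring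
      _ ≤ _ := by
        have : CM ≤ Q := by linarith
        gcongr
  have T3 : 2 * l8loc_Ka D * l8loc_Km D K / (D.d.b ^ 2 * D.cv)
      ≤ 2 * l8loc_Ka D / D.cv * Q * Km' * (1 / D.d.b ^ 2) := by
    calc _ = 2 * l8loc_Ka D / D.cv * 1 * l8loc_Km D K * (1 / D.d.b ^ 2) := by field_simp
      _ ≤ _ := by gcongr
  unfold l8loc_Kfin l8loc_Ks
  have h3 := add_le_add (add_le_add T1 T2) T3
  refine h3.trans (le_of_eq ?_)
  rw [hKm']
  field_simp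

/-- the number of dyadic bands -/
theorem l8loc_exists_K {a θ : ℝ} (hθ : 0 < θ) (ha : θ ≤ a) :
    ∃ K : ℕ, a ≤ 2 ^ K * θ ∧ (K : ℝ) ≤ 1 + Real.logb 2 (a / θ) := by
  have h1 : 1 ≤ a / θ := by rwa [le_div_iff₀ hθ, one_mul]
  have h0 : 0 ≤ Real.logb 2 (a / θ) := Real.logb_nonneg (by norm_num) h1
  refine ⟨⌈Real.logb 2 (a / θ)⌉₊, ?_, ?_⟩
  · rw [← div_le_iff₀ hθ]
    calc a / θ = (2 : ℝ) ^ Real.logb 2 (a / θ) :=
          (Real.rpow_logb (by norm_num) (by norm_num) (by linarith)).symm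
      _ ≤ (2 : ℝ) ^ ((⌈Real.logb 2 (a / θ)⌉₊ : ℕ) : ℝ) :=
          Real.rpow_le_rpow_of_exponent_le (by norm_num) (Nat.le_ceil _)
      _ = _ := Real.rpow_natCast _ _
  · linarith [(Nat.ceil_lt_add_one h0).le]

/-- TEX[LL:lem:statistics-localized] TEX[LL:eq:D8] **(D8), final non-asymptotic form** (S2 of the note of 228, `C_0 = 7`):
`∫_{e(v) ≥ θ} D_v² dv ≤ Ks (3C²)⁷ · (1 + CD + CM) (2 + log₂(3 C² Cz / θ)) L b⁻² · z_1^0 Y² Z² θ⁻⁷`.
`Ks` structural; the losses: `CD, CM` = constants of (D2), `L = 1 + log(1/tiny)`, `b = b_ε`. -/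
theorem l8loc_D8_final {CD CM : ℝ} (hD : D.Ok) (hP : L8Loc D CD CM) {ev : ℝ → ℝ} (hev : L8LocEnv D ev)
    {θ : ℝ} (hθ : 0 < θ) (hθ1 : θ ≤ 1)
    (hY : D.d.U * D.d.Z ≤ 1) (hz1 : l8loc_z1 D * (D.d.U * D.d.Z) ^ 2 ≤ 1) :
    ∫ v in {v | v ∈ Icc (D.cut.vz D.d.zlo) (D.cut.vz D.zhi) ∧ θ ≤ ev v}, D.ms.Dsq v
      ≤ l8loc_Ks D * (3 * D.C ^ 2) ^ 7 * ((1 + CD + CM) * (2 + Real.logb 2 (3 * D.C ^ 2 * D.Cz / θ)) * skwL D.d / D.d.b ^ 2)
          * (l8loc_z1 D * (D.d.U * D.d.Z) ^ 2 * D.d.Z ^ 2) / θ ^ 7 := by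
  have hC := hD.C1
  have hC2 : 1 ≤ D.C ^ 2 := one_le_pow₀ hC
  have hb := hD.hyp.b0
  have hZ := hD.hyp.Z1
  have hU := l8loc_U_pos hD
  have hz := l8loc_z1_pos hD
  have hL := l8loc_L_one hD
  have hCz := hD.Cz1
  have hθ' : 0 < θ / (3 * D.C ^ 2) := by positivity
  have hθ1' : θ / (3 * D.C ^ 2) ≤ 1 := by rw [div_le_one (by positivity)]; linarith
  obtain ⟨K, hK1, hK2⟩ := l8loc_exists_K (a := D.Cz) hθ' (by linarith)
  have hK : D.zhi ≤ 2 ^ K * (θ / (3 * D.C ^ 2)) := (hD.zhibuf.trans hD.zbufCz).trans hK1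
  refine (l8loc_D8_set hD hP hev hθ hθ1 K hK hY hz1).trans ?_
  have e1 : D.Cz / (θ / (3 * D.C ^ 2)) = 3 * D.C ^ 2 * D.Cz / θ := by field_simp
  rw [e1] at hK2
  have hKs0 : 0 ≤ l8loc_Ks D := by
    have hc0 := hD.msOk.c0_nonneg
    have hcv := hD.cv0
    have hKa := l8loc_Ka_pos hD
    unfold l8loc_Ks
    positivity
  have hCD := hP.CD0
  have hCM := hP.CM0
  have h1 := l8loc_Kfin_le hD hCD hCM K
  have h2 : l8loc_Ks D * (1 + CD + CM) * ((K : ℝ) + 1) * skwL D.d / D.d.b ^ 2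
      ≤ l8loc_Ks D * (1 + CD + CM) * (2 + Real.logb 2 (3 * D.C ^ 2 * D.Cz / θ)) * skwL D.d / D.d.b ^ 2 := by
    have : (K : ℝ) + 1 ≤ 2 + Real.logb 2 (3 * D.C ^ 2 * D.Cz / θ) := by linarith
    gcongr
  have hP0 : 0 ≤ l8loc_z1 D * (D.d.U * D.d.Z) ^ 2 * D.d.Z ^ 2 := by positivity
  calc l8loc_Kfin D CD CM K * (l8loc_z1 D * (D.d.U * D.d.Z) ^ 2 * D.d.Z ^ 2) / (θ / (3 * D.C ^ 2)) ^ 7
      ≤ (l8loc_Ks D * (1 + CD + CM) * (2 + Real.logb 2 (3 * D.C ^ 2 * D.Cz / θ)) * skwL D.d / D.d.b ^ 2)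
          * (l8loc_z1 D * (D.d.U * D.d.Z) ^ 2 * D.d.Z ^ 2) / (θ / (3 * D.C ^ 2)) ^ 7 := by
        have := h1.trans h2
        gcongr
    _ = _ := by field_simp

/-! ### the exact case (continuous clocks: `v = vz z`) -/

/-- the mass map is onto between two cuts -/
theorem l8loc_vz_surj (hD : D.Ok) {z1 z2 : ℝ} (h1 : D.d.zlo ≤ z1) (h12 : z1 ≤ z2) (h2 : z2 ≤ D.zhi) {v : ℝ}
    (hv : v ∈ Icc (D.cut.vz z1) (D.cut.vz z2)) : ∃ z ∈ Icc z1 z2, D.cut.vz z = v := by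
  have hzlo := hD.hyp.zlo0
  have hc : ContinuousOn D.cut.vz (Icc z1 z2) := by
    have h0 : ContinuousOn (fun z => D.cut.vz z1 + ∫ s in z1..z, D.cut.G s) (Icc z1 z2) :=
      (continuous_const.add (intervalIntegral.continuous_primitive (L11Cut.iG hD.cutOk) z1)).continuousOn
    refine h0.congr (fun z hz => ?_)
    have := hD.bridge.vz_int z1 z (by linarith [hD.dom_lo]) hz.1 (hz.2.trans (h2.trans hD.dom_hi))
    linarith
  exact intermediate_value_Icc h12 hc hv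

/-- the imports `L8Loc` from the pointwise bounds at the cuts -/
theorem l8loc_of_exact {CD CM : ℝ} (hD : D.Ok) (hCD : 0 ≤ CD) (hCM : 0 ≤ CM)
    (hvar : ∀ z ∈ Icc D.d.zlo D.zhi, D.ms.VarX (D.cut.vz z) ≤ (CD * skwE D.d D.hh z) ^ 2)
    (hm4 : ∀ z ∈ Icc D.d.zlo D.zhi, D.ms.M4 (D.cut.vz z) ≤ (CM * skwR z) ^ 2)
    (hS : ∀ z ∈ Icc D.d.zlo D.zhi, D.ms.S (D.cut.vz z) = D.d.S z) : L8Loc D CD CM := by
  have hzlo := hD.hyp.zlo0
  have hμ := hD.cutOk.μ_nonneg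
  refine ⟨hCD, hCM, ?_, ?_⟩
  · intro z1 z2 h1 h12 h2 v hv
    obtain ⟨z, hz, rfl⟩ := l8loc_vz_surj hD h1 h12 h2 ⟨hv.1.le, hv.2.le⟩
    have hzm : z ∈ Icc D.d.zlo D.zhi := ⟨h1.trans hz.1, hz.2.trans h2⟩
    exact ⟨z, ⟨by linarith [hzm.1], hzm.2.trans hD.zhibuf⟩, by linarith [hz.1], by linarith [hz.2],
      hvar z hzm, hm4 z hzm⟩
  · intro z1 z2 h1 h12 h2 v hv
    obtain ⟨z, hz, rfl⟩ := l8loc_vz_surj hD h1 h12 h2 ⟨hv.1.le, hv.2.le⟩
    refine ⟨z, ⟨by linarith [hz.1], (hz.2.trans h2).trans hD.zhibuf⟩, z2, ⟨by linarith, h2.trans hD.zhibuf⟩,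
      by linarith [hz.1], hz.2, by linarith, ?_⟩
    rw [hS z ⟨h1.trans hz.1, hz.2.trans h2⟩, hS z2 ⟨h1.trans h12, h2⟩]

theorem l8loc_env_of_exact (hD : D.Ok) {ev : ℝ → ℝ}
    (hev : ∀ z ∈ Icc D.d.zlo D.zhi, ev (D.cut.vz z) ≤ skwE D.d D.hh z) : L8LocEnv D ev := by
  have hzlo := hD.hyp.zlo0
  have hμ := hD.cutOk.μ_nonneg
  intro z1 z2 h1 h12 h2 v hv
  obtain ⟨z, hz, rfl⟩ := l8loc_vz_surj hD h1 h12 h2 ⟨hv.1.le, hv.2.le⟩
  have hzm : z ∈ Icc D.d.zlo D.zhi := ⟨h1.trans hz.1, hz.2.trans h2⟩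
  exact ⟨z, ⟨by linarith [hzm.1], hzm.2.trans hD.zhibuf⟩, by linarith [hz.1], by linarith [hz.2], hev z hzm⟩

end Claimed.Agent.R286
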