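import Claimed.Agent.R286.L08.Loc
import Claimed.Agent.R286.L08.IvP

/-!
# Row 286 (S0533), folder L08, file LocS : (D8) ON THE STEP EMBEDDING OF A SINGLE PATH, SUM FORM      (owner helper114; head of the unit IV: helper228; prefix `L8LocS` / `l8locs_`)

TEX[LL:lem:statistics-localized]  (LL 08-statistics.tex l.745-799).      0 open leaves.

`L08/Loc.lean` proves (D8) for a link `D : L8D7` (298) with the imports `L8Loc D CD CM`, as an integral over `{e(v) ≥ θ}` in the mass coordinate.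
Here `D.ms`, `D.cut` are the step embeddings `ivpMass`, `ivpCut` (189, `L08/IvP.lean`) of an abstract single path `P : L8P Ω m` in a grid `g : IvGrid` (`P.v k = g.vz (g.zc (k+1))`).
v3 (05:40Z): a coordinate `σ k` ANYWHERE in the cell `[zc k, zc (k+1)]` is attached to the cut `k` (`L8LocSig`; PM of 37: the left end);   nothing is asked at the cuts of zero mass;   top `vhi ≤ vz zhi` free.
* `L8LocS D P g`   the dictionary (`l8locs_mk`: from `D.ms = ivpMass ..`, `D.cut = ivpCut ..`);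
* `l8locs_loc`     `L8Loc D CD CM` from (D2) AT THE CUTS: `Var |X_k|² ≤ (CD e(σ_k))²`, `E |X_k|⁴ ≤ (CM r(σ_k))²`      (`l8locs_var_le`: `Var |X_k|² ≤ E (|X_k|² - q)²`);
* `l8locs_sum_le`  the finite sum of `I.D8` (75, `L08/Defs.lean`) is at most the integral over `{e ≥ θ / Ce}`;
* **`l8locs_D8`**  `∑_{k ≤ n, vlo ≤ v_k ≤ vhi} dv_k (if θ ≤ e_k then D²_k else 0) ≤ Ks (3C²)⁷ (1+CD+CM)(2+log₂(3C²Cz Ce/θ)) L b⁻² · z_1^0 Y² Z² (Ce/θ)⁷`
  for every envelope on the chain with `e_k ≤ Ce e(σ_k)` at the cuts of positive mass in `[vlo, vhi]`;   `l8locs_D8'` : the same without `log θ`, `C_0 = 8`;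
* `l8locs_low`, `l8locs_split`, `l8locs_tail`, **`l8locs_D8_full`** : all the cuts of mass in `[ylo, a]` (remark (b) of the board of 228: the zone `[Y, vlo)` is paid by its (D9) bound `B9` times `(El / θ)²`, `e ≤ El ≍ M Y` there;
  alarm of 22: the cells above `vz zhi` are paid by their mass).      INSTANCE from `SkpI.Ok` of PM: `L08/IvSkD8.lean`.
-/

set_option autoImplicit false

namespace Claimed.Agent.R286

open MeasureTheory Set
open scoped BigOperators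

variable {Ω : Type} [mΩ : MeasurableSpace Ω] {m : ℕ} {P : L8P Ω m} {g : IvGrid} {vmin hmin : ℝ} {D : L8D7}

/-- the dictionary: the two deterministic layers of `D` are the step embeddings of `P` in the grid `g` -/
structure L8LocS (D : L8D7) (P : L8P Ω m) (g : IvGrid) : Prop where
  VarX : ∀ v, D.ms.VarX v = ivkVar P ((ivpM P).idx v)
  M4 : ∀ v, D.ms.M4 v = ∫ ω, P.nX ((ivpM P).idx v) ω ^ 2 ∂P.μ
  Dsq : ∀ v, D.ms.Dsq v = P.D2 ((ivpM P).idx v)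
  vz : D.cut.vz = g.vz
  μ : D.cut.μ = g.μ
  zlo : D.cut.zlo = g.zc 0
  zhi : D.cut.zhi = g.zc (P.n + 1)
  /-- either `zhi + μ ≤ zbuf`, or `zhi = zbuf` is the last cut -/
  buf : ∀ k ≤ P.n, g.zc k < D.zhi → g.zc (k + 1) ≤ D.zbuf
  μlo : D.cut.μ ≤ D.d.zlo / 2
  msS : ∀ v, D.ms.S v = P.S ((ivpM P).idx v)
  /-- `S` at a cut OF POSITIVE MASS lies between the values of `d.S` at the two ends of its cell (so the convention at the grid points, `[zc k, zc (k+1))` in `SkpI.Ok.Slink` of 37 or `(zc k, zc (k+1)]` in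
  `ivpCut` of 189, does not matter).      v2 (05:10Z): nothing is asked at the cuts of zero mass (stretches of `z` with `G = 0`) -/
  S_ge : ∀ k ≤ P.n, D.d.zlo < g.zc (k + 1) → g.zc k < D.zhi → 0 < P.dv k → D.d.S (g.zc k) ≤ P.S k
  S_le : ∀ k ≤ P.n, D.d.zlo < g.zc (k + 1) → g.zc k < D.zhi → 0 < P.dv k → P.S k ≤ D.d.S (g.zc (k + 1))

theorem l8locs_mk {c0 cs cs' cp μ : ℝ} {hclk : ℝ → ℝ} (hms : D.ms = ivpMass P c0 cs μ hclk)
    (hcut : D.cut = ivpCut P g cs' cp) (hbuf : ∀ k ≤ P.n, g.zc k < D.zhi → g.zc (k + 1) ≤ D.zbuf)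
    (hμ : g.μ ≤ D.d.zlo / 2)
    (hS1 : ∀ k ≤ P.n, D.d.zlo < g.zc (k + 1) → g.zc k < D.zhi → 0 < P.dv k → D.d.S (g.zc k) ≤ P.S k)
    (hS2 : ∀ k ≤ P.n, D.d.zlo < g.zc (k + 1) → g.zc k < D.zhi → 0 < P.dv k → P.S k ≤ D.d.S (g.zc (k + 1))) :
    L8LocS D P g where
  VarX := fun v => by rw [hms]; rfl
  M4 := fun v => by rw [hms]; rfl
  Dsq := fun v => by rw [hms]; rfl
  vz := by rw [hcut]; rfl
  μ := by rw [hcut]; rfl
  zlo := by rw [hcut]; rfl
  zhi := by rw [hcut]; rfl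
  buf := hbuf
  μlo := by rw [hcut]; exact hμ
  msS := fun v => by rw [hms]; rfl
  S_ge := hS1
  S_le := hS2

/-- left end of the mass cell of the cut `k` -/
theorem l8locs_lft (hg : g.Ok P vmin hmin) {k : ℕ} (hk : k ≤ P.n) : (ivpM P).lft k = g.vz (g.zc k) := by
  cases k with
  | zero => rw [IvCells.lft_zero]; exact hg.v_zero.symm
  | succ j => rw [IvCells.lft_succ]; exact hg.v_eq j (by omega)

/-- **the cut which serves a mass**: for `v` in `(vz z1, vz z2]`, the cell `(zc k, zc (k+1)]` of `k = idx v` has positive mass and meets `(z1, z2)` -/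
theorem l8locs_cut' (hD : D.Ok) (hg : g.Ok P vmin hmin) (hs : L8LocS D P g) {z1 z2 v : ℝ}
    (h1 : D.d.zlo ≤ z1) (h2 : z2 ≤ D.zhi) (hv : v ∈ Ioc (D.cut.vz z1) (D.cut.vz z2)) :
    (ivpM P).idx v ≤ P.n ∧ z1 < g.zc ((ivpM P).idx v + 1) ∧ g.zc ((ivpM P).idx v) < z2 ∧ 0 < P.dv ((ivpM P).idx v) := by
  rw [hs.vz] at hv
  have hzlo := hD.hyp.zlo0
  have hz2 : z2 ≤ g.zc (P.n + 1) := h2.trans (hD.dom_hi.trans hs.zhi.le)
  have hz1 : g.zc 0 ≤ z1 := by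
    have := hD.dom_lo
    rw [hs.zlo] at this
    linarith
  have hva : v ≤ P.v P.n := by rw [hg.v_eq P.n le_rfl]; exact hv.2.trans (hg.vz_mono hz2)
  have hk : (ivpM P).idx v ≤ P.n := IvCells.idx_le (c := ivpM P) hva
  have hvk : v ≤ P.v ((ivpM P).idx v) := IvCells.le_b_idx (c := ivpM P) (k := P.n) hva
  have hv0 : 0 < v := by
    have := hg.vz_mono hz1
    rw [hg.v_zero] at this
    linarith [hv.1]
  have hl : (ivpM P).lft ((ivpM P).idx v) < v := IvCells.lft_idx_lt (c := ivpM P) hv0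
  have hdv : 0 < P.dv ((ivpM P).idx v) := by
    have := hl
    rw [ivp_M_lft] at this
    linarith
  rw [l8locs_lft hg hk] at hl
  refine ⟨hk, ?_, ?_, hdv⟩
  · by_contra h
    have := hg.vz_mono (not_lt.1 h)
    rw [← hg.v_eq _ hk] at this
    linarith [hv.1]
  · by_contra h
    have := hg.vz_mono (not_lt.1 h)
    linarith [hv.2]

theorem l8locs_cut (hD : D.Ok) (hg : g.Ok P vmin hmin) (hs : L8LocS D P g) {z1 z2 v : ℝ}
    (h1 : D.d.zlo ≤ z1) (h2 : z2 ≤ D.zhi) (hv : v ∈ Ioo (D.cut.vz z1) (D.cut.vz z2)) :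
    (ivpM P).idx v ≤ P.n ∧ z1 < g.zc ((ivpM P).idx v + 1) ∧ g.zc ((ivpM P).idx v) < z2 :=
  let ⟨a, b, c, _⟩ := l8locs_cut' hD hg hs h1 h2 ⟨hv.1, hv.2.le⟩
  ⟨a, b, c⟩

/-- a coordinate attached to each cut, ANYWHERE in its cell `[zc k, zc (k+1)]` (PM of 37: the LEFT end `J.z k`; `ivpCut` of 189: the RIGHT end) -/
def L8LocSig (P : L8P Ω m) (g : IvGrid) (σ : ℕ → ℝ) : Prop := ∀ k ≤ P.n, g.zc k ≤ σ k ∧ σ k ≤ g.zc (k + 1)

/-- the coordinate of that cut is admissible in `L8Loc`, `L8LocEnv` -/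
theorem l8locs_cut_mem (hD : D.Ok) (hg : g.Ok P vmin hmin) (hs : L8LocS D P g) {σ : ℕ → ℝ} (hσ : L8LocSig P g σ) {z1 z2 v : ℝ}
    (h1 : D.d.zlo ≤ z1) (h2 : z2 ≤ D.zhi) (hv : v ∈ Ioo (D.cut.vz z1) (D.cut.vz z2)) :
    σ ((ivpM P).idx v) ∈ Icc (D.d.zlo / 2) D.zbuf ∧ z1 - D.cut.μ ≤ σ ((ivpM P).idx v) ∧
      σ ((ivpM P).idx v) ≤ z2 + D.cut.μ := by
  obtain ⟨hk, ha, hb⟩ := l8locs_cut hD hg hs h1 h2 hv
  have hzlo := hD.hyp.zlo0
  have hμ := hD.cutOk.μ_nonneg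
  have hμlo := hs.μlo
  have hm := hg.mesh _ hk
  rw [← hs.μ] at hm
  obtain ⟨s1, s2⟩ := hσ _ hk
  exact ⟨⟨by linarith, s2.trans (hs.buf _ hk (lt_of_lt_of_le hb h2))⟩, by linarith, by linarith⟩

/-- the variance is the least second moment -/
theorem l8locs_var_le (hP : P.Ok) (k : ℕ) (q : ℝ) : ivkVar P k ≤ ∫ ω, (P.nX k ω - q) ^ 2 ∂P.μ := by
  have := hP.prob
  have hn := ivk_nX_bd hP k
  have e : (fun ω => (P.nX k ω - q) ^ 2) = fun ω => (P.nX k ω ^ 2 - (2 * q) * P.nX k ω) + q ^ 2 := by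
    funext ω; ring
  rw [ivk_Var_eq hP k, e, integral_add (ivk_intμ hP ((hn.pow 2).sub (hn.const_mul _))) (ivk_intμ hP (IvBd.const _)),
    integral_sub (ivk_intμ hP (hn.pow 2)) (ivk_intμ hP (hn.const_mul _)), integral_const_mul]
  have e2 : ∫ ω, P.nX k ω ∂P.μ = P.S k := rfl
  rw [e2]
  simp
  nlinarith [sq_nonneg (P.S k - q)]

theorem l8locs_D2_nonneg (hP : P.Ok) (k : ℕ) : 0 ≤ P.D2 k := by
  rw [ivk_D2_eq hP k]
  have h1 : 0 ≤ ivkVar P k := integral_nonneg fun _ => sq_nonneg _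
  have h2 : 0 ≤ ∫ ω, P.xCx k ω ∂P.μ := integral_nonneg (ivk_xCx_nonneg hP k)
  have h3 : 0 ≤ ∫ ω, P.trC2 k ω ∂P.μ := integral_nonneg (ivk_trC2_nonneg k)
  linarith

/-- TEX[LL:eq:D2] **the imports `L8Loc` of (D8) from (D2) at the cuts of the chain** -/
theorem l8locs_loc {CD CM : ℝ} (hD : D.Ok) (hg : g.Ok P vmin hmin) (hs : L8LocS D P g) {σ : ℕ → ℝ} (hσ : L8LocSig P g σ)
    (hCD : 0 ≤ CD) (hCM : 0 ≤ CM)
    (hvar : ∀ k ≤ P.n, D.d.zlo < g.zc (k + 1) → g.zc k < D.zhi → ivkVar P k ≤ (CD * skwE D.d D.hh (σ k)) ^ 2)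
    (hm4 : ∀ k ≤ P.n, D.d.zlo < g.zc (k + 1) → g.zc k < D.zhi → ∫ ω, P.nX k ω ^ 2 ∂P.μ ≤ (CM * skwR (σ k)) ^ 2) :
    L8Loc D CD CM := by
  have hzlo := hD.hyp.zlo0
  have hμ := hD.cutOk.μ_nonneg
  refine ⟨hCD, hCM, ?_, ?_⟩
  · intro z1 z2 h1 _ h2 v hv
    obtain ⟨hk, ha, hb⟩ := l8locs_cut hD hg hs h1 h2 hv
    obtain ⟨hm, hlo, hhi⟩ := l8locs_cut_mem hD hg hs hσ h1 h2 hv
    refine ⟨_, hm, hlo, hhi, ?_, ?_⟩
    · rw [hs.VarX]; exact hvar _ hk (lt_of_le_of_lt h1 ha) (lt_of_lt_of_le hb h2)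
    · rw [hs.M4]; exact hm4 _ hk (lt_of_le_of_lt h1 ha) (lt_of_lt_of_le hb h2)
  · intro z1 z2 h1 _ h2 v hv
    obtain ⟨hk, ha, hb, hdv⟩ := l8locs_cut' hD hg hs h1 h2 ⟨hv.1, hv.2.le⟩
    obtain ⟨hk2, ha2, hb2, hdv2⟩ := l8locs_cut' hD hg hs h1 h2 (v := D.cut.vz z2) ⟨hv.1.trans hv.2, le_rfl⟩
    set k := (ivpM P).idx v with hkdef
    set k2 := (ivpM P).idx (D.cut.vz z2) with hk2def
    have hm := hg.mesh k hk
    have hm2 := hg.mesh k2 hk2
    rw [← hs.μ] at hm hm2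
    have hμlo := hs.μlo
    have hkk : k ≤ k2 := by
      have h3 : D.cut.vz z2 ≤ (ivpM P).b P.n := by
        show D.cut.vz z2 ≤ P.v P.n
        rw [hg.v_eq P.n le_rfl, hs.vz]
        exact hg.vz_mono (h2.trans (hD.dom_hi.trans hs.zhi.le))
      exact IvCells.idx_le (c := ivpM P) (hv.2.le.trans (IvCells.le_b_idx (c := ivpM P) (k := P.n) h3))
    have hzz : g.zc k ≤ g.zc (k2 + 1) := hg.zc_mono (by omega)
    refine ⟨g.zc k, ⟨by linarith, (hb.le.trans h2).trans hD.zhibuf⟩, g.zc (k2 + 1),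
      ⟨by linarith, hs.buf k2 hk2 (lt_of_lt_of_le hb2 h2)⟩, by linarith, hzz, by linarith, ?_⟩
    rw [hs.msS, hs.msS]
    have e1 := hs.S_ge k hk (lt_of_le_of_lt h1 ha) (lt_of_lt_of_le hb h2) hdv
    have e2 := hs.S_le k2 hk2 (lt_of_le_of_lt h1 ha2) (lt_of_lt_of_le hb2 h2) hdv2
    linarith

/-- the envelope of the W construction, carried by the mass cells -/
noncomputable def l8locsEv (D : L8D7) (P : L8P Ω m) (σ : ℕ → ℝ) (v : ℝ) : ℝ :=
  skwE D.d D.hh (σ ((ivpM P).idx v))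

theorem l8locs_env (hD : D.Ok) (hg : g.Ok P vmin hmin) (hs : L8LocS D P g) {σ : ℕ → ℝ} (hσ : L8LocSig P g σ) :
    L8LocEnv D (l8locsEv D P σ) := by
  intro z1 z2 h1 _ h2 v hv
  obtain ⟨hm, hlo, hhi⟩ := l8locs_cut_mem hD hg hs hσ h1 h2 hv
  exact ⟨_, hm, hlo, hhi, le_rfl⟩

theorem l8locs_cl_self {α β x : ℝ} (h1 : α ≤ x) (h2 : x ≤ β) : ivCl α β x = x := by
  unfold ivCl; rw [min_eq_left h2, max_eq_right h1]

/-- **from the sum on the chain to the integral over `{e ≥ θ / Ce}`** -/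
theorem l8locs_sum_le (hD : D.Ok) (hP : P.Ok) (hg : g.Ok P vmin hmin) (hs : L8LocS D P g) {σ : ℕ → ℝ} {e : ℕ → ℝ}
    {Ce θ vlo vhi : ℝ} (hCe : 0 < Ce)
    (hlo : ∀ k ≤ P.n, vlo ≤ P.v k → D.cut.vz D.d.zlo ≤ P.v k - P.dv k)
    (htop : vhi ≤ D.cut.vz D.zhi)
    (he : ∀ k ≤ P.n, vlo ≤ P.v k → P.v k ≤ vhi → 0 < P.dv k → e k ≤ Ce * skwE D.d D.hh (σ k)) :
    ∑ k ∈ (Finset.range (P.n + 1)).filter (fun k => vlo ≤ P.v k ∧ P.v k ≤ vhi),
        P.dv k * (if θ ≤ e k then P.D2 k else 0)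
      ≤ ∫ v in {v | v ∈ Icc (D.cut.vz D.d.zlo) (D.cut.vz D.zhi) ∧ θ / Ce ≤ l8locsEv D P σ v}, D.ms.Dsq v := by
  classical
  have hzlo := hD.hyp.zlo0
  set c := ivpM P with hc'
  have hc : c.Ok := ivp_M_ok hP
  set α := D.cut.vz D.d.zlo with hα
  set β := D.cut.vz D.zhi with hβ
  have hαβ : α ≤ β := hD.bridge.vz_mono hD.zlohi
  have hα0 : c.b0 ≤ α := by
    show (0 : ℝ) ≤ α
    rw [hα, hs.vz, ← hg.v_zero]
    apply hg.vz_mono
    have := hD.dom_lo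
    rw [hs.zlo] at this
    linarith
  have hβa : β ≤ c.b c.n := by
    rw [ivp_M_top hP, hβ, hs.vz, ← hP.v_term P.n le_rfl, hg.v_eq P.n le_rfl]
    exact hg.vz_mono (hD.dom_hi.trans hs.zhi.le)
  set f : ℕ → ℝ := fun k => if (vlo ≤ P.v k ∧ P.v k ≤ vhi) ∧ θ ≤ e k then P.D2 k else 0 with hf
  have hf0 : ∀ k, 0 ≤ f k := fun k => by
    simp only [hf]; split_ifs
    · exact l8locs_D2_nonneg hP k
    · exact le_rfl
  -- step 1
  have s1 : ∑ k ∈ (Finset.range (P.n + 1)).filter (fun k => vlo ≤ P.v k ∧ P.v k ≤ vhi),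
        P.dv k * (if θ ≤ e k then P.D2 k else 0)
      ≤ ∑ k ∈ Finset.range (c.n + 1), c.len α β k * f k := by
    have e1 : ∀ k ∈ (Finset.range (P.n + 1)).filter (fun k => vlo ≤ P.v k ∧ P.v k ≤ vhi),
        P.dv k * (if θ ≤ e k then P.D2 k else 0) = c.len α β k * f k := by
      intro k hk
      obtain ⟨hk1, hk2, hk3⟩ := Finset.mem_filter.1 hk
      have hkn : k ≤ P.n := Nat.lt_succ_iff.1 (Finset.mem_range.1 hk1)
      have hl := hlo k hkn hk2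
      have hd := ivk_dv_nonneg hP k
      have e2 : c.len α β k = P.dv k := by
        unfold IvCells.len
        rw [ivp_M_lft]
        show ivCl α β (P.v k) - ivCl α β (P.v k - P.dv k) = P.dv k
        rw [l8locs_cl_self (by linarith) (hk3.trans htop), l8locs_cl_self hl (by linarith [hk3.trans htop])]
        ring
      rw [e2]
      simp only [hf, hk2, hk3, true_and]
    rw [Finset.sum_congr rfl e1]
    exact Finset.sum_le_sum_of_subset_of_nonneg (Finset.filter_subset _ _)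
      (fun k _ _ => mul_nonneg (IvCells.len_nonneg hc α β k) (hf0 k))
  refine s1.trans ?_
  rw [← IvCells.step_integral_one hc f hα0 hαβ hβa, intervalIntegral.integral_of_le hαβ]
  -- step 2
  set Sg : Set ℝ := {v | (vlo ≤ P.v (c.idx v) ∧ P.v (c.idx v) ≤ vhi) ∧ θ ≤ e (c.idx v)} with hSg
  have hSm : MeasurableSet Sg := by
    have : Sg = c.idx ⁻¹' {k | (vlo ≤ P.v k ∧ P.v k ≤ vhi) ∧ θ ≤ e k} := rfl
    rw [this]
    exact (IvCells.idx_meas hc) (MeasurableSet.of_discrete)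
  have e3 : (fun v => f (c.idx v)) = Sg.indicator D.ms.Dsq := by
    funext v
    by_cases h : v ∈ Sg
    · rw [Set.indicator_of_mem h, hs.Dsq]
      have h' : (vlo ≤ P.v (c.idx v) ∧ P.v (c.idx v) ≤ vhi) ∧ θ ≤ e (c.idx v) := h
      simp only [hf, h', and_self, if_true]
      rfl
    · rw [Set.indicator_of_notMem h]
      have h' : ¬ ((vlo ≤ P.v (c.idx v) ∧ P.v (c.idx v) ≤ vhi) ∧ θ ≤ e (c.idx v)) := h
      simp only [hf, h', if_false]
  rw [e3, setIntegral_indicator hSm]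
  have hint : IntegrableOn D.ms.Dsq (Icc α β) volume :=
    (intervalIntegrable_iff_integrableOn_Icc_of_le hαβ).1 (l8loc_iDsq hD.msOk α β)
  refine setIntegral_mono_set (hint.mono_set (fun v hv => hv.1)) (ae_of_all _ (l8loc_Dsq_nonneg hD.msOk))
    (LE.le.eventuallyLE ?_)
  intro v hv
  obtain ⟨hv1, ⟨hv2, hv2'⟩, hv3⟩ := hv
  refine ⟨⟨hv1.1.le, hv1.2⟩, ?_⟩
  have hk : c.idx v ≤ P.n := IvCells.idx_le (c := c) (hv1.2.trans hβa)
  have hdv : 0 < P.dv (c.idx v) := by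
    have h1 : c.lft (c.idx v) < v := IvCells.lft_idx_lt (c := c) (lt_of_le_of_lt hα0 hv1.1)
    have h2 : v ≤ c.b (c.idx v) := IvCells.le_b_idx (c := c) (k := c.n) (hv1.2.trans hβa)
    rw [← ivp_M_dv]
    linarith
  rw [div_le_iff₀ hCe]
  have := he _ hk hv2 hv2' hdv
  unfold l8locsEv
  linarith

/-- TEX[LL:lem:statistics-localized] TEX[LL:eq:D8] **(D8) on the chain** (the shape of `L8In.D8` of 75): for every envelope `e` on the chain with `e_k ≤ Ce e(σ_k)` -/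
theorem l8locs_D8 {CD CM : ℝ} (hD : D.Ok) (hP : P.Ok) (hg : g.Ok P vmin hmin) (hs : L8LocS D P g) (hL : L8Loc D CD CM)
    {σ : ℕ → ℝ} (hσ : L8LocSig P g σ) {e : ℕ → ℝ} {Ce θ vlo vhi : ℝ} (hCe : 1 ≤ Ce) (hθ : 0 < θ) (hθ1 : θ ≤ 1)
    (hlo : ∀ k ≤ P.n, vlo ≤ P.v k → D.cut.vz D.d.zlo ≤ P.v k - P.dv k)
    (htop : vhi ≤ D.cut.vz D.zhi)
    (he : ∀ k ≤ P.n, vlo ≤ P.v k → P.v k ≤ vhi → 0 < P.dv k → e k ≤ Ce * skwE D.d D.hh (σ k))
    (hY : D.d.U * D.d.Z ≤ 1) (hz1 : l8loc_z1 D * (D.d.U * D.d.Z) ^ 2 ≤ 1) :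
    ∑ k ∈ (Finset.range (P.n + 1)).filter (fun k => vlo ≤ P.v k ∧ P.v k ≤ vhi),
        P.dv k * (if θ ≤ e k then P.D2 k else 0)
      ≤ l8loc_Ks D * (3 * D.C ^ 2) ^ 7
          * ((1 + CD + CM) * (2 + Real.logb 2 (3 * D.C ^ 2 * D.Cz / (θ / Ce))) * skwL D.d / D.d.b ^ 2)
          * (l8loc_z1 D * (D.d.U * D.d.Z) ^ 2 * D.d.Z ^ 2) / (θ / Ce) ^ 7 := by
  have hCe0 : 0 < Ce := by linarith
  refine (l8locs_sum_le hD hP hg hs hCe0 hlo htop he).trans ?_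
  exact l8loc_D8_final hD hL (l8locs_env hD hg hs hσ) (by positivity)
    (by rw [div_le_one hCe0]; linarith) hY hz1

theorem l8locs_logb_le {y : ℝ} (hy : 1 ≤ y) : 2 + Real.logb 2 y ≤ 2 * y := by
  have h1 : Real.log y ≤ y - 1 := Real.log_le_sub_one_of_pos (by linarith)
  have h2 : (1 / 2 : ℝ) < Real.log 2 := by have := Real.log_two_gt_d9; linarith
  have h3 : Real.logb 2 y ≤ 2 * (y - 1) := by
    unfold Real.logb
    rw [div_le_iff₀ (by linarith)]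
    nlinarith
  linarith

/-- TEX[LL:lem:statistics-localized] TEX[LL:eq:D8] **(D8) on the chain, without logarithm of `θ`** (`C_0 = 8`):
`∑ .. ≤ 2 Ks (3C²)⁸ Cz · (1 + CD + CM) L b⁻² Ce⁸ · z_1^0 Y² Z² θ⁻⁸`.      Structural: `Ks, C, Cz`;   losses `≲_⋄`: `CD, CM` ((D2)), `Ce`, `L = 1 + log(1/tiny)`, `b = b_ε`. -/
theorem l8locs_D8' {CD CM : ℝ} (hD : D.Ok) (hP : P.Ok) (hg : g.Ok P vmin hmin) (hs : L8LocS D P g) (hL : L8Loc D CD CM)
    {σ : ℕ → ℝ} (hσ : L8LocSig P g σ) {e : ℕ → ℝ} {Ce θ vlo vhi : ℝ} (hCe : 1 ≤ Ce) (hθ : 0 < θ) (hθ1 : θ ≤ 1)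
    (hlo : ∀ k ≤ P.n, vlo ≤ P.v k → D.cut.vz D.d.zlo ≤ P.v k - P.dv k)
    (htop : vhi ≤ D.cut.vz D.zhi)
    (he : ∀ k ≤ P.n, vlo ≤ P.v k → P.v k ≤ vhi → 0 < P.dv k → e k ≤ Ce * skwE D.d D.hh (σ k))
    (hY : D.d.U * D.d.Z ≤ 1) (hz1 : l8loc_z1 D * (D.d.U * D.d.Z) ^ 2 ≤ 1) :
    ∑ k ∈ (Finset.range (P.n + 1)).filter (fun k => vlo ≤ P.v k ∧ P.v k ≤ vhi),
        P.dv k * (if θ ≤ e k then P.D2 k else 0)
      ≤ 2 * l8loc_Ks D * (3 * D.C ^ 2) ^ 8 * D.Cz * ((1 + CD + CM) * skwL D.d / D.d.b ^ 2 * Ce ^ 8)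
          * (l8loc_z1 D * (D.d.U * D.d.Z) ^ 2 * D.d.Z ^ 2) / θ ^ 8 := by
  have hC := hD.C1
  have hC2 : 1 ≤ D.C ^ 2 := one_le_pow₀ hC
  have hb := hD.hyp.b0
  have hZ := hD.hyp.Z1
  have hU := l8loc_U_pos hD
  have hz := l8loc_z1_pos hD
  have hLg := l8loc_L_one hD
  have hCz := hD.Cz1
  have hCD := hL.CD0
  have hCM := hL.CM0
  have hCe0 : 0 < Ce := by linarith
  have hKs0 : 0 ≤ l8loc_Ks D := by
    have hc0 := hD.msOk.c0_nonneg
    have hcv := hD.cv0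
    have hKa := l8loc_Ka_pos hD
    unfold l8loc_Ks
    positivity
  refine (l8locs_D8 hD hP hg hs hL hσ hCe hθ hθ1 hlo htop he hY hz1).trans ?_
  have hy : 1 ≤ 3 * D.C ^ 2 * D.Cz / (θ / Ce) := by
    rw [le_div_iff₀ (by positivity), one_mul, div_le_iff₀ hCe0]
    have h1 : 1 ≤ 3 * D.C ^ 2 * D.Cz := by nlinarith
    nlinarith
  have hlog := l8locs_logb_le hy
  calc l8loc_Ks D * (3 * D.C ^ 2) ^ 7
          * ((1 + CD + CM) * (2 + Real.logb 2 (3 * D.C ^ 2 * D.Cz / (θ / Ce))) * skwL D.d / D.d.b ^ 2)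
          * (l8loc_z1 D * (D.d.U * D.d.Z) ^ 2 * D.d.Z ^ 2) / (θ / Ce) ^ 7
      ≤ l8loc_Ks D * (3 * D.C ^ 2) ^ 7
          * ((1 + CD + CM) * (2 * (3 * D.C ^ 2 * D.Cz / (θ / Ce))) * skwL D.d / D.d.b ^ 2)
          * (l8loc_z1 D * (D.d.U * D.d.Z) ^ 2 * D.d.Z ^ 2) / (θ / Ce) ^ 7 := by
        gcongr
    _ = _ := by field_simp

/-! ### the zone between `Y` and the first band (remark (b) of the board of 228), and the last cells -/

/-- **the low zone**: where `e ≤ El` (`El ≍ M Y`), a cut with `e_k ≥ θ` forces `θ ≤ El`; the whole zone is then paid by its (D9) bound `B9` -/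
theorem l8locs_low {n : ℕ} {v dv D2 e : ℕ → ℝ} {ylo vlo El B9 θ : ℝ} (hθ : 0 < θ) (hB : 0 ≤ B9)
    (hdv : ∀ k, 0 ≤ dv k) (hD2 : ∀ k, 0 ≤ D2 k)
    (he : ∀ k ≤ n, ylo ≤ v k → v k < vlo → e k ≤ El)
    (hsum : ∑ k ∈ (Finset.range (n + 1)).filter (fun k => ylo ≤ v k ∧ v k < vlo), dv k * D2 k ≤ B9) :
    ∑ k ∈ (Finset.range (n + 1)).filter (fun k => ylo ≤ v k ∧ v k < vlo), dv k * (if θ ≤ e k then D2 k else 0)
      ≤ B9 * (El / θ) ^ 2 := by
  classical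
  by_cases hex : ∃ k ∈ (Finset.range (n + 1)).filter (fun k => ylo ≤ v k ∧ v k < vlo), θ ≤ e k
  · obtain ⟨k, hk, hke⟩ := hex
    obtain ⟨hk1, hk2, hk3⟩ := Finset.mem_filter.1 hk
    have hEl : θ ≤ El := hke.trans (he k (Nat.lt_succ_iff.1 (Finset.mem_range.1 hk1)) hk2 hk3)
    have h1 : 1 ≤ (El / θ) ^ 2 := one_le_pow₀ (by rwa [le_div_iff₀ hθ, one_mul])
    calc ∑ k ∈ (Finset.range (n + 1)).filter (fun k => ylo ≤ v k ∧ v k < vlo), dv k * (if θ ≤ e k then D2 k else 0)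
        ≤ ∑ k ∈ (Finset.range (n + 1)).filter (fun k => ylo ≤ v k ∧ v k < vlo), dv k * D2 k := by
          refine Finset.sum_le_sum (fun k _ => mul_le_mul_of_nonneg_left ?_ (hdv k))
          split_ifs
          · exact le_rfl
          · exact hD2 k
      _ ≤ B9 := hsum
      _ = B9 * 1 := (mul_one _).symm
      _ ≤ _ := mul_le_mul_of_nonneg_left h1 hB
  · have h0 : ∑ k ∈ (Finset.range (n + 1)).filter (fun k => ylo ≤ v k ∧ v k < vlo),
        dv k * (if θ ≤ e k then D2 k else 0) = 0 := by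
      refine Finset.sum_eq_zero (fun k hk => ?_)
      have : ¬ θ ≤ e k := fun h => hex ⟨k, hk, h⟩
      rw [if_neg this, mul_zero]
    rw [h0]
    positivity

/-- splitting of the sum of `L8In.D8` at the masses `vlo`, `vhi` -/
theorem l8locs_split {n : ℕ} {v w : ℕ → ℝ} {ylo vlo vhi a : ℝ} (hw : ∀ k, 0 ≤ w k) :
    ∑ k ∈ (Finset.range (n + 1)).filter (fun k => ylo ≤ v k ∧ v k ≤ a), w k
      ≤ ∑ k ∈ (Finset.range (n + 1)).filter (fun k => ylo ≤ v k ∧ v k < vlo), w k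
        + ∑ k ∈ (Finset.range (n + 1)).filter (fun k => vlo ≤ v k ∧ v k ≤ vhi), w k
        + ∑ k ∈ (Finset.range (n + 1)).filter (fun k => vhi < v k), w k := by
  classical
  have key : ∀ k ∈ (Finset.range (n + 1)).filter (fun k => ylo ≤ v k ∧ v k ≤ a),
      w k ≤ (if ylo ≤ v k ∧ v k < vlo then w k else 0) + (if vlo ≤ v k ∧ v k ≤ vhi then w k else 0)
        + (if vhi < v k then w k else 0) := by
    intro k hk
    obtain ⟨_, hk2, _⟩ := Finset.mem_filter.1 hk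
    have h0 := hw k
    rcases lt_or_ge (v k) vlo with h | h
    · rw [if_pos ⟨hk2, h⟩]
      have a1 : 0 ≤ (if vlo ≤ v k ∧ v k ≤ vhi then w k else 0) := by split_ifs <;> simp [h0]
      have a2 : 0 ≤ (if vhi < v k then w k else 0) := by split_ifs <;> simp [h0]
      linarith
    · rcases le_or_gt (v k) vhi with h' | h'
      · rw [if_pos (⟨h, h'⟩ : vlo ≤ v k ∧ v k ≤ vhi)]
        have a1 : 0 ≤ (if ylo ≤ v k ∧ v k < vlo then w k else 0) := by split_ifs <;> simp [h0]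
        have a2 : 0 ≤ (if vhi < v k then w k else 0) := by split_ifs <;> simp [h0]
        linarith
      · rw [if_pos h']
        have a1 : 0 ≤ (if ylo ≤ v k ∧ v k < vlo then w k else 0) := by split_ifs <;> simp [h0]
        have a2 : 0 ≤ (if vlo ≤ v k ∧ v k ≤ vhi then w k else 0) := by split_ifs <;> simp [h0]
        linarith
  refine (Finset.sum_le_sum key).trans ?_
  have hnn : ∀ k, 0 ≤ (if ylo ≤ v k ∧ v k < vlo then w k else 0) + (if vlo ≤ v k ∧ v k ≤ vhi then w k else 0)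
        + (if vhi < v k then w k else 0) := by
    intro k
    have h0 := hw k
    have a0 : 0 ≤ (if ylo ≤ v k ∧ v k < vlo then w k else 0) := by split_ifs <;> simp [h0]
    have a1 : 0 ≤ (if vlo ≤ v k ∧ v k ≤ vhi then w k else 0) := by split_ifs <;> simp [h0]
    have a2 : 0 ≤ (if vhi < v k then w k else 0) := by split_ifs <;> simp [h0]
    linarith
  refine (Finset.sum_le_sum_of_subset_of_nonneg (Finset.filter_subset _ _) (fun k _ _ => hnn k)).trans ?_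
  rw [Finset.sum_add_distrib, Finset.sum_add_distrib, Finset.sum_filter, Finset.sum_filter, Finset.sum_filter]

/-- the cells above `vhi` have total mass `a - vhi` at most, up to the cell which contains `vhi` -/
theorem l8locs_tail (hP : P.Ok) {vhi μ : ℝ} (hmesh : ∀ k ≤ P.n, P.dv k ≤ μ) {w : ℕ → ℝ} (hw1 : ∀ k, w k ≤ 1) :
    ∑ k ∈ (Finset.range (P.n + 1)).filter (fun k => vhi < P.v k), P.dv k * w k ≤ max 0 (P.a - vhi) + μ := by
  classical
  have hμ : 0 ≤ μ := (ivk_dv_nonneg hP 0).trans (hmesh 0 (Nat.zero_le _))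
  -- telescoping from the first index above `vhi`
  have tele : ∀ n k0 : ℕ, k0 ≤ n → ∑ k ∈ Finset.Ico (k0 + 1) (n + 1), P.dv k = P.v n - P.v k0 := by
    intro n k0 h
    induction n, h using Nat.le_induction with
    | base => simp
    | succ n hn ih =>
      rw [Finset.sum_Ico_succ_top (by omega), ih]
      have : P.dv (n + 1) = P.v (n + 1) - P.v n := by simp [L8P.dv]
      rw [this]; ring
  by_cases hex : ∃ k ≤ P.n, vhi < P.v k
  · set k0 := Nat.find hex with hk0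
    obtain ⟨hk0n, hk0v⟩ := Nat.find_spec hex
    have hsub : (Finset.range (P.n + 1)).filter (fun k => vhi < P.v k) ⊆ insert k0 (Finset.Ico (k0 + 1) (P.n + 1)) := by
      intro k hk
      obtain ⟨hk1, hk2⟩ := Finset.mem_filter.1 hk
      have hkn : k ≤ P.n := Nat.lt_succ_iff.1 (Finset.mem_range.1 hk1)
      have : k0 ≤ k := Nat.find_min' hex ⟨hkn, hk2⟩
      rcases this.eq_or_lt with h | h
      · rw [← h]; exact Finset.mem_insert_self _ _
      · exact Finset.mem_insert_of_mem (Finset.mem_Ico.2 ⟨h, by omega⟩)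
    have hle : ∀ k, P.dv k * w k ≤ P.dv k := fun k => by
      have := mul_le_mul_of_nonneg_left (hw1 k) (ivk_dv_nonneg hP k); linarith
    calc ∑ k ∈ (Finset.range (P.n + 1)).filter (fun k => vhi < P.v k), P.dv k * w k
        ≤ ∑ k ∈ (Finset.range (P.n + 1)).filter (fun k => vhi < P.v k), P.dv k := Finset.sum_le_sum fun k _ => hle k
      _ ≤ ∑ k ∈ insert k0 (Finset.Ico (k0 + 1) (P.n + 1)), P.dv k :=
          Finset.sum_le_sum_of_subset_of_nonneg hsub fun k _ _ => ivk_dv_nonneg hP k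
      _ = P.dv k0 + (P.v P.n - P.v k0) := by
          rw [Finset.sum_insert (by simp), tele P.n k0 hk0n]
      _ ≤ μ + (P.a - vhi) := by
          have := hmesh k0 hk0n
          rw [hP.v_term P.n le_rfl]
          linarith
      _ ≤ _ := by linarith [le_max_right 0 (P.a - vhi)]
  · have h0 : (Finset.range (P.n + 1)).filter (fun k => vhi < P.v k) = ∅ := by
      rw [Finset.filter_eq_empty_iff]
      intro k hk h
      exact hex ⟨k, Nat.lt_succ_iff.1 (Finset.mem_range.1 hk), h⟩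
    rw [h0, Finset.sum_empty]
    linarith [le_max_left 0 (P.a - vhi)]

/-- TEX[LL:lem:statistics-localized] TEX[LL:eq:D8] **(D8) on the chain, all the cuts of mass in `[ylo, a]`** = the sum of `L8In.D8` (75):
the zone `[ylo, vlo)` by its (D9) bound `B9` and `e ≤ El`, the bands of `[vlo, vhi]` by `l8locs_D8'`, the last cells (alarm of 22: `vz zhi < a` at a generic chain) by their mass `Bt` -/
theorem l8locs_D8_full {CD CM : ℝ} (hD : D.Ok) (hP : P.Ok) (hg : g.Ok P vmin hmin) (hs : L8LocS D P g) (hL : L8Loc D CD CM)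
    {σ : ℕ → ℝ} (hσ : L8LocSig P g σ) {e : ℕ → ℝ} {Ce θ ylo vlo vhi El B9 Bt : ℝ} (hCe : 1 ≤ Ce) (hθ : 0 < θ) (hθ1 : θ ≤ 1)
    (hlo : ∀ k ≤ P.n, vlo ≤ P.v k → D.cut.vz D.d.zlo ≤ P.v k - P.dv k)
    (htop : vhi ≤ D.cut.vz D.zhi)
    (he : ∀ k ≤ P.n, vlo ≤ P.v k → P.v k ≤ vhi → 0 < P.dv k → e k ≤ Ce * skwE D.d D.hh (σ k))
    (hY : D.d.U * D.d.Z ≤ 1) (hz1 : l8loc_z1 D * (D.d.U * D.d.Z) ^ 2 ≤ 1) (hB : 0 ≤ B9)
    (hel : ∀ k ≤ P.n, ylo ≤ P.v k → P.v k < vlo → e k ≤ El)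
    (hsum : ∑ k ∈ (Finset.range (P.n + 1)).filter (fun k => ylo ≤ P.v k ∧ P.v k < vlo), P.dv k * P.D2 k ≤ B9)
    (htail : ∑ k ∈ (Finset.range (P.n + 1)).filter (fun k => vhi < P.v k), P.dv k * P.D2 k ≤ Bt) :
    ∑ k ∈ (Finset.range (P.n + 1)).filter (fun k => ylo ≤ P.v k ∧ P.v k ≤ P.a),
        P.dv k * (if θ ≤ e k then P.D2 k else 0)
      ≤ B9 * (El / θ) ^ 2
        + 2 * l8loc_Ks D * (3 * D.C ^ 2) ^ 8 * D.Cz * ((1 + CD + CM) * skwL D.d / D.d.b ^ 2 * Ce ^ 8)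
          * (l8loc_z1 D * (D.d.U * D.d.Z) ^ 2 * D.d.Z ^ 2) / θ ^ 8
        + Bt := by
  have hw : ∀ k, 0 ≤ P.dv k * (if θ ≤ e k then P.D2 k else 0) := fun k => by
    refine mul_nonneg (ivk_dv_nonneg hP k) ?_
    split_ifs
    · exact l8locs_D2_nonneg hP k
    · exact le_rfl
  refine (l8locs_split (vlo := vlo) (vhi := vhi) hw).trans (add_le_add (add_le_add ?_ ?_) ?_)
  · exact l8locs_low hθ hB (ivk_dv_nonneg hP) (l8locs_D2_nonneg hP) hel hsum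
  · exact l8locs_D8' hD hP hg hs hL hσ hCe hθ hθ1 hlo htop he hY hz1
  · refine le_trans (Finset.sum_le_sum fun k _ => mul_le_mul_of_nonneg_left ?_ (ivk_dv_nonneg hP k)) htail
    split_ifs
    · exact le_rfl
    · exact l8locs_D2_nonneg hP k

theorem l8locs_eqns_cite : True := by
  have := @l8locsEv.eq_1; have := @L8LocSig.eq_1
  trivial

end Claimed.Agent.R286
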