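import Mathlib

/-!
# Row 286 (S0533), folder L08, file LsAbs : LOW SOURCES WITH A RETAINED HIGH PAIR, ABSTRACT FORM      (owner helper234; prefix `L8L` / `l8l_`)

LL Lemma 8.12 (`lem:statistics-low-sources`, (D16), first conclusion), on the FINE level, NON-asymptotic, Mathlib only.

* Labels are natural numbers `< r`; a table `τ : ℕ → ℕ → ℕ` gives the number of revelations shared by two labels.
* TREE LAWS enter ONLY through `L8L.Ok`: probability measures `law τ` on `ℕ → Ω` (`Ω` = space of one path),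
  two-label marginals = fork laws (`marg2`), and RESTRICTION CONSISTENCY (`rc`): the law of the labels in `R` depends only on `τ` on `R`.
  No Markov property for more than two labels is needed.
* ALLOCATIONS are in FLAT CHART form: a chart has `nv` vertices, `vtx x y` = the vertex at which `x, y` separate, `co j` = level of the vertex `j`,
  the table is `co ∘ vtx`, the reference measure is the product of the `mm j` (`≤ mu` on the low levels: NO LOW ATOM), the weight `w co` is an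
  ARBITRARY function with a product majorant.  "Move one fork, all the other coordinates fixed" = `Function.update co j l`.
* ANALYTIC INPUTS (`L8LIn.Ok`; single path and one fork only; providers: unit IV = (D2), (D7), (D9), (D10)):
  `Xi l` = ancestor value (`|X_l|² - S_l`, or `0` on the levels treated by raw bounds), shared by all the labels through the vertex;
  `al l` = `L²` cost of the replacement of a stochastic factor by `Xi l`;  tails beyond the envelope `eb l`;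
  centred sums `∑ κ_l (Xi_l^p - E Xi_l^p)` for ARBITRARY deterministic `κ` (three regimes: sole factor with coefficient `vv`, degree `≥ 2` at the vertex, degree `1`).
* CONCLUSION: `|sum| ≤ K A0^nv (Dab * max (a1 + c1) (max (av + cv) ((a0 + c0) * E1)) + eta)`.
-/

set_option autoImplicit false

namespace Claimed.Agent.R286

open MeasureTheory Finset

/-- a consistent family of tree laws on the labels `< r` -/
structure L8L (Ω : Type) [MeasurableSpace Ω] where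
  /-- number of labels -/
  r : ℕ
  /-- valid tables -/
  V : (ℕ → ℕ → ℕ) → Prop
  /-- the law of the paths of all the labels -/
  law : (ℕ → ℕ → ℕ) → Measure (ℕ → Ω)
  /-- the law of two paths which share `l` revelations -/
  fork : ℕ → Measure (Ω × Ω)
  /-- the law of one path -/
  μ : Measure Ω

/-- validity of a family of tree laws -/
structure L8L.Ok {Ω : Type} [MeasurableSpace Ω] (T : L8L Ω) : Prop where
  two : 2 ≤ T.r
  prob : ∀ τ, T.V τ → IsProbabilityMeasure (T.law τ)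
  probF : ∀ l, IsProbabilityMeasure (T.fork l)
  probM : IsProbabilityMeasure T.μ
  symm : ∀ τ, T.V τ → ∀ x y, x < T.r → y < T.r → τ x y = τ y x
  ultra : ∀ τ, T.V τ → ∀ x y z, x < T.r → y < T.r → z < T.r → x ≠ y → y ≠ z → x ≠ z → min (τ x y) (τ y z) ≤ τ x z
  marg2 : ∀ τ, T.V τ → ∀ x y, x < T.r → y < T.r → x ≠ y → (T.law τ).map (fun w => (w x, w y)) = T.fork (τ x y)
  fst : ∀ l, (T.fork l).map Prod.fst = T.μ
  /-- restriction consistency (BOUNDED tests only: 04:00Z, ask of 62) -/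
  rc : ∀ τ τ', T.V τ → T.V τ' → ∀ (R : Finset ℕ) (F : (ℕ → Ω) → ℝ), Measurable F → DependsOn F (R : Set ℕ) → (∃ M : ℝ, ∀ w, |F w| ≤ M) →
    (∀ x ∈ R, ∀ y ∈ R, x ≠ y → τ x y = τ' x y) → ∫ w, F w ∂T.law τ = ∫ w, F w ∂T.law τ'

/-- observables and numbers -/
structure L8LIn (Ω : Type) [MeasurableSpace Ω] where
  /-- level of the retained pair (labels `0`, `1`) -/
  t0 : ℕ
  /-- the levels `< ti` are LOW -/
  ti : ℕ
  /-- the retained centred test -/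
  P0 : Ω × Ω → ℝ
  /-- ancestor value at the level `l` -/
  Xi : ℕ → Ω → ℝ
  /-- the stochastic factor number `s` of a pair which separates at the level `l` -/
  fac : ℕ → ℕ → Ω × Ω → ℝ
  /-- weight of a level in mass integrals -/
  mu : ℕ → ℝ
  /-- coefficient of a sole low factor -/
  vv : ℕ → ℝ
  /-- truncation envelope -/
  eb : ℕ → ℝ
  /-- alias cost -/
  al : ℕ → ℝ
  /-- second norm of the retained test -/
  Dab : ℝ
  /-- tail probability -/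
  eta : ℝ
  /-- maximal degree -/
  dmax : ℕ
  a0 : ℝ
  a1 : ℝ
  av : ℝ
  c0 : ℝ
  c1 : ℝ
  cv : ℝ
  E1 : ℝ

/-- the mean of a power of the ancestor value -/
noncomputable def L8LIn.am {Ω : Type} [MeasurableSpace Ω] (I : L8LIn Ω) (T : L8L Ω) (p l : ℕ) : ℝ := ∫ ω, I.Xi l ω ^ p ∂T.μ

/-- the centred sum with the weights `κ` -/
noncomputable def L8LIn.cs {Ω : Type} [MeasurableSpace Ω] (I : L8LIn Ω) (T : L8L Ω) (p : ℕ) (κ : ℕ → ℝ) (ω : Ω) : ℝ :=
  ∑ l ∈ range I.ti, κ l * (I.Xi l ω ^ p - I.am T p l)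

/-- the analytic inputs -/
structure L8LIn.Ok {Ω : Type} [MeasurableSpace Ω] (I : L8LIn Ω) (T : L8L Ω) : Prop where
  le : I.ti ≤ I.t0
  P0_meas : Measurable I.P0
  P0_bd : ∀ p, |I.P0 p| ≤ 2
  P0_mean : ∫ p, I.P0 p ∂T.fork I.t0 = 0
  P0_sq : ∫ p, I.P0 p ^ 2 ∂T.fork I.t0 ≤ I.Dab ^ 2
  Dab_nonneg : 0 ≤ I.Dab
  Xi_meas : ∀ l, Measurable (I.Xi l)
  Xi_bd : ∀ l ω, |I.Xi l ω| ≤ 1
  /-- the ancestor value is a function of the common prefix -/
  share : ∀ l t, l ≤ t → ∀ᵐ p ∂T.fork t, I.Xi l p.1 = I.Xi l p.2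
  fac_meas : ∀ s l, Measurable (I.fac s l)
  fac_bd : ∀ s l p, |I.fac s l p| ≤ 2
  al_nonneg : ∀ l, 0 ≤ I.al l
  ali : ∀ s l, l < I.ti → ∫ p, (I.fac s l p - I.Xi l p.1) ^ 2 ∂T.fork l ≤ I.al l ^ 2
  eta_nonneg : 0 ≤ I.eta
  tailX : ∀ l, l < I.ti → T.μ.real {ω | I.eb l < |I.Xi l ω|} ≤ I.eta
  tailF : ∀ s l, l < I.ti → (T.fork l).real {p | I.eb l < |I.fac s l p|} ≤ I.eta
  eb_nonneg : ∀ l, 0 ≤ I.eb l
  eb_le : ∀ l, I.eb l ≤ 1
  mean : ∀ p l, 1 ≤ p → p ≤ I.dmax → l < I.ti → |I.am T p l| ≤ I.eb l ^ p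
  mu_nonneg : ∀ l, 0 ≤ I.mu l
  vv_nonneg : ∀ l, 0 ≤ I.vv l
  vv_le : ∀ l, I.vv l ≤ 1
  ha0 : ∑ l ∈ range I.ti, I.mu l * I.al l ≤ I.a0
  ha1 : ∑ l ∈ range I.ti, I.mu l * I.eb l * I.al l ≤ I.a1
  hav : ∑ l ∈ range I.ti, I.mu l * I.vv l * I.al l ≤ I.av
  hE1 : ∑ l ∈ range I.ti, I.mu l * I.eb l ≤ I.E1
  c0_nonneg : 0 ≤ I.c0
  c1_nonneg : 0 ≤ I.c1
  cv_nonneg : 0 ≤ I.cv
  /-- one linear factor, bounded coefficient -/
  cen0 : ∀ κ : ℕ → ℝ, (∀ l, |κ l| ≤ I.mu l) → ∫ ω, I.cs T 1 κ ω ^ 2 ∂T.μ ≤ I.c0 ^ 2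
  /-- a sole linear factor, coefficient `O(v)` -/
  cenv : ∀ κ : ℕ → ℝ, (∀ l, |κ l| ≤ I.mu l * I.vv l) → ∫ ω, I.cs T 1 κ ω ^ 2 ∂T.μ ≤ I.cv ^ 2
  /-- total degree `p + q ≥ 2` at the vertex -/
  cen1 : ∀ (p q : ℕ) (κ : ℕ → ℝ), 1 ≤ p → 2 ≤ p + q → p + q ≤ I.dmax → (∀ l, |κ l| ≤ I.mu l * I.eb l ^ q) →
    ∫ ω, I.cs T p κ ω ^ 2 ∂T.μ ≤ I.c1 ^ 2

/-- the gain of the lemma -/
def L8LIn.gain {Ω : Type} [MeasurableSpace Ω] (I : L8LIn Ω) : ℝ :=
  max (I.a1 + I.c1) (max (I.av + I.cv) ((I.a0 + I.c0) * I.E1))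

/-- a flat chart with `nv` vertices; levels `< L` -/
structure L8LCh (nv : ℕ) where
  /-- the vertex at which two labels separate -/
  vtx : ℕ → ℕ → Fin nv
  /-- reference measure of the level of a vertex -/
  mm : Fin nv → ℕ → ℝ
  /-- the levels are `< L` -/
  L : ℕ

/-- the table of a chart at the coordinates `co` -/
def L8LCh.tab {nv : ℕ} (Ch : L8LCh nv) (co : Fin nv → ℕ) : ℕ → ℕ → ℕ := fun x y => co (Ch.vtx x y)

/-- all the coordinate vectors -/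
def L8LCh.box {nv : ℕ} (Ch : L8LCh nv) : Finset (Fin nv → ℕ) := Fintype.piFinset fun _ => range Ch.L

/-- the reference weight of a coordinate vector -/
def L8LCh.wt {nv : ℕ} (Ch : L8LCh nv) (co : Fin nv → ℕ) : ℝ := ∏ j, Ch.mm j (co j)

/-- validity of a chart (grid level) -/
structure L8LCh.Ok {nv : ℕ} (Ch : L8LCh nv) (mu : ℕ → ℝ) (ti : ℕ) (A0 : ℝ) : Prop where
  vsymm : ∀ x y, Ch.vtx x y = Ch.vtx y x
  nonneg : ∀ j l, 0 ≤ Ch.mm j l
  mass : ∀ j, ∑ l ∈ range Ch.L, Ch.mm j l ≤ A0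
  /-- no low atom -/
  low : ∀ j l, l < ti → Ch.mm j l ≤ mu l

/-- validity of a coordinate vector -/
structure L8LCh.Val {nv : ℕ} (Ch : L8LCh nv) (V : (ℕ → ℕ → ℕ) → Prop) (r t0 ti : ℕ) (co : Fin nv → ℕ) : Prop where
  tree : V (Ch.tab co)
  old : co (Ch.vtx 0 1) = t0
  /-- two pairs with the same LOW vertex pass through the same vertex of the tree -/
  same : ∀ x y x' y', x < r → y < r → x' < r → y' < r → x ≠ y → x' ≠ y' → Ch.vtx x y = Ch.vtx x' y' →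
    co (Ch.vtx x y) < ti → x ≠ x' → co (Ch.vtx x y) ≤ co (Ch.vtx x x')

section sums
variable {Ω : Type} [MeasurableSpace Ω] (T : L8L Ω) (I : L8LIn Ω) {nv : ℕ} (Ch : L8LCh nv)

/-- mixed chart sum: the factors in `A` are ancestor values on the labels `lab s` at the vertices `jv s`,
the factors in `B` are the original stochastic factors of the pairs `(c s, d s)` -/
noncomputable def l8lMix (w : (Fin nv → ℕ) → ℝ) (A B : Finset ℕ) (jv : ℕ → Fin nv) (lab c d : ℕ → ℕ) : ℝ :=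
  ∑ co ∈ Ch.box, Ch.wt co * w co *
    ∫ ω, I.P0 (ω 0, ω 1) * (∏ s ∈ A, I.Xi (co (jv s)) (ω (lab s))) *
      ∏ s ∈ B, I.fac s (co (Ch.vtx (c s) (d s))) (ω (c s), ω (d s)) ∂T.law (Ch.tab co)

/-- **the chart sum of (D16)** -/
noncomputable def l8lSum (w : (Fin nv → ℕ) → ℝ) (Sto : Finset ℕ) (c d : ℕ → ℕ) : ℝ :=
  ∑ co ∈ Ch.box, Ch.wt co * w co *
    ∫ ω, I.P0 (ω 0, ω 1) * ∏ s ∈ Sto, I.fac s (co (Ch.vtx (c s) (d s))) (ω (c s), ω (d s)) ∂T.law (Ch.tab co)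

end sums

/-- the majorant of the weight: envelopes of the deterministic low factors; `vv` if there is exactly one low factor -/
def l8lMaj {Ω : Type} [MeasurableSpace Ω] (I : L8LIn Ω) {nv : ℕ} (Ch : L8LCh nv) (Sto Det : Finset ℕ) (c d : ℕ → ℕ)
    (co : Fin nv → ℕ) : ℝ :=
  (∏ s ∈ Det, I.eb (co (Ch.vtx (c s) (d s)))) *
    if (Sto ∪ Det).card = 1 then ∏ s ∈ Sto, I.vv (co (Ch.vtx (c s) (d s))) else 1

/-- the common hypotheses of the chart form; the low factors are numbered by `s < n` -/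
structure L8LHyp {Ω : Type} [MeasurableSpace Ω] (T : L8L Ω) (I : L8LIn Ω) {nv : ℕ} (Ch : L8LCh nv) (n r : ℕ) (A0 : ℝ)
    (w : (Fin nv → ℕ) → ℝ) (Sto Det : Finset ℕ) (c d : ℕ → ℕ) : Prop where
  hT : T.Ok
  hI : I.Ok T
  hr : T.r = r
  hA0 : 1 ≤ A0
  hCh : Ch.Ok I.mu I.ti A0
  ne : Sto.Nonempty
  disj : Disjoint Sto Det
  sub : Sto ∪ Det ⊆ range n
  deg : n ≤ I.dmax
  lab : ∀ s ∈ Sto ∪ Det, c s < r ∧ d s < r ∧ c s ≠ d s
  val : ∀ co, w co ≠ 0 → Ch.Val T.V r I.t0 I.ti co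
  low : ∀ co, w co ≠ 0 → ∀ s ∈ Sto ∪ Det, co (Ch.vtx (c s) (d s)) < I.ti
  maj : ∀ co, |w co| ≤ l8lMaj I Ch Sto Det c d co

/-- CONTRACT: (D16), first conclusion, chart form.  `n` = number of low factors, `nv` = number of vertices, `r` = number of labels. -/
def L8_LS_ABS : Prop :=
  ∀ n nv r : ℕ, ∃ K : ℝ, 0 ≤ K ∧ ∀ (Ω : Type) [MeasurableSpace Ω] (T : L8L Ω) (I : L8LIn Ω) (Ch : L8LCh nv) (A0 : ℝ)
    (w : (Fin nv → ℕ) → ℝ) (Sto Det : Finset ℕ) (c d : ℕ → ℕ), L8LHyp T I Ch n r A0 w Sto Det c d →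
    |l8lSum T I Ch w Sto c d| ≤ K * A0 ^ nv * (I.Dab * I.gain + I.eta)

/-- CONTRACT, step 1 (ALIAS): every stochastic factor is replaced by the ancestor value on its first label -/
def L8_LS_ALI : Prop :=
  ∀ n nv r : ℕ, ∃ K : ℝ, 0 ≤ K ∧ ∀ (Ω : Type) [MeasurableSpace Ω] (T : L8L Ω) (I : L8LIn Ω) (Ch : L8LCh nv) (A0 : ℝ)
    (w : (Fin nv → ℕ) → ℝ) (Sto Det : Finset ℕ) (c d : ℕ → ℕ), L8LHyp T I Ch n r A0 w Sto Det c d →
    |l8lSum T I Ch w Sto c d - l8lMix T I Ch w Sto ∅ (fun s => Ch.vtx (c s) (d s)) c c d|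
      ≤ K * A0 ^ nv * (I.Dab * max I.a1 (max I.av (I.a0 * I.E1)) + I.eta)

/-- CONTRACT, step 2 (CENTRED INTEGRATION IN A FIXED MARGINAL): the sum with ancestor values only -/
def L8_LS_CEN : Prop :=
  ∀ n nv r : ℕ, ∃ K : ℝ, 0 ≤ K ∧ ∀ (Ω : Type) [MeasurableSpace Ω] (T : L8L Ω) (I : L8LIn Ω) (Ch : L8LCh nv) (A0 : ℝ)
    (w : (Fin nv → ℕ) → ℝ) (Sto Det : Finset ℕ) (c d : ℕ → ℕ), L8LHyp T I Ch n r A0 w Sto Det c d →
    |l8lMix T I Ch w Sto ∅ (fun s => Ch.vtx (c s) (d s)) c c d|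
      ≤ K * A0 ^ nv * (I.Dab * max I.c1 (max I.cv (I.c0 * I.E1)) + I.eta)

theorem l8l_defs_eqns_cite : True := by
  have := @L8LIn.am.eq_1
  have := @L8LIn.cs.eq_1
  have := @L8LIn.gain.eq_1
  have := @L8LCh.tab.eq_1
  have := @L8LCh.box.eq_1
  have := @L8LCh.wt.eq_1
  have := @l8lMix.eq_1
  have := @l8lSum.eq_1
  have := @l8lMaj.eq_1
  have := @L8_LS_ABS.eq_1
  have := @L8_LS_ALI.eq_1
  have := @L8_LS_CEN.eq_1
  trivial

end Claimed.Agent.R286
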