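import Claimed.Agent.R286.L08.LsNum

/-!
# Row 286 (S0533), folder L08, file LsAli : STEP 1 of the abstract low-source lemma, ALIAS      (architect helper234, head prover helper80; prefix `l8l_`)

PLAN (LL 08 l.1414-1436 and "the region below Y" l.1392-1412: there `Xi = 0` and `al l = D_l`).      `jv s := Ch.vtx (c s) (d s)`.
1. `l8lSum w Sto = l8lMix w ∅ Sto` (definitions).
2. ONE FACTOR (`l8l_ali_one`): for `Sto = A ∪ {s} ∪ B` (disjoint),
   `|l8lMix w A (insert s B) - l8lMix w (insert s A) B| ≤ A0^nv * (Dab * max a1 (max av (a0 * E1)) + 6 * 4^n * n * eta)`.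
   `l8l_ali_pt`: for one `co` with `w co ≠ 0` the difference of the two integrals is `∫ P0 * (∏ Z) * Y` with `Y = fac s (..) - Xi (..) (ω (c s))` (`|Y| ≤ 3`, `∫ Y² ≤ al²`: K1, `ali`),
   `Z` = the other factors, thresholds `eb (co (jv s'))`, tails `≤ eta` (K3, K4, `tailF`, `tailX`).   K8 then K7 (with `B = ∏ l8lTr ..`, `M = ∏ eb`).
   `l8l_ali_sum`: sum over `co`: `|w co| ≤ ∏ j, l8lG ..` (N0), `∏_{s' ≠ s} eb (co (jv s')) = ∏ j, eb (co j)^(..)` (`l8l_prod_vertex`), N6a `l8l_box_cost`, N3 with `β = al`, N5 `l8l_regimes`.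
3. Induction on `A` (at most `n` steps): `K = n * (1 + 6 * 4^n * n)`.
-/

set_option autoImplicit false

namespace Claimed.Agent.R286

open MeasureTheory Finset

variable {Ω : Type} [MeasurableSpace Ω] {T : L8L Ω} {I : L8LIn Ω}
variable {nv : ℕ} {Ch : L8LCh nv} {n r : ℕ} {A0 : ℝ} {w : (Fin nv → ℕ) → ℝ} {Sto Det : Finset ℕ} {c d : ℕ → ℕ}

/-- A1 (proved by helper214): the alias step at one coordinate vector of the support -/
theorem l8l_ali_pt (H : L8LHyp T I Ch n r A0 w Sto Det c d) {co : Fin nv → ℕ} (hw : w co ≠ 0) {A B : Finset ℕ} {s : ℕ}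
    (hsA : s ∉ A) (hsB : s ∉ B) (hAB : Disjoint A B) (hU : insert s (A ∪ B) = Sto) :
    |(∫ ω, I.P0 (ω 0, ω 1) * (∏ s' ∈ A, I.Xi (co (Ch.vtx (c s') (d s'))) (ω (c s'))) *
          ∏ s' ∈ insert s B, I.fac s' (co (Ch.vtx (c s') (d s'))) (ω (c s'), ω (d s')) ∂T.law (Ch.tab co))
        - ∫ ω, I.P0 (ω 0, ω 1) * (∏ s' ∈ insert s A, I.Xi (co (Ch.vtx (c s') (d s'))) (ω (c s'))) *
          ∏ s' ∈ B, I.fac s' (co (Ch.vtx (c s') (d s'))) (ω (c s'), ω (d s')) ∂T.law (Ch.tab co)|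
      ≤ (∏ s' ∈ A ∪ B, I.eb (co (Ch.vtx (c s') (d s')))) * I.Dab * I.al (co (Ch.vtx (c s) (d s))) + 6 * 4 ^ n * n * I.eta := by
  have hT := H.hT
  have hI := H.hI
  have hval := H.val co hw
  have hV : T.V (Ch.tab co) := hval.tree
  have h01 : Ch.tab co 0 1 = I.t0 := hval.old
  have hprob := hT.prob _ hV
  have hsub : ∀ s' ∈ insert s (A ∪ B), s' ∈ Sto ∪ Det := fun s' hs' => mem_union_left _ (hU ▸ hs')
  have hlab : ∀ s' ∈ insert s (A ∪ B), c s' < T.r ∧ d s' < T.r ∧ c s' ≠ d s' := fun s' hs' => by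
    rw [H.hr]; exact H.lab s' (hsub s' hs')
  have hlow : ∀ s' ∈ insert s (A ∪ B), co (Ch.vtx (c s') (d s')) < I.ti := fun s' hs' => H.low co hw s' (hsub s' hs')
  -- measurability
  have mX : ∀ s', Measurable fun ω : ℕ → Ω => I.Xi (co (Ch.vtx (c s') (d s'))) (ω (c s')) := fun s' =>
    (hI.Xi_meas _).comp (measurable_pi_apply _)
  have mF : ∀ s', Measurable fun ω : ℕ → Ω => I.fac s' (co (Ch.vtx (c s') (d s'))) (ω (c s'), ω (d s')) := fun s' =>
    (hI.fac_meas _ _).comp ((measurable_pi_apply _).prodMk (measurable_pi_apply _))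
  have mP : Measurable fun ω : ℕ → Ω => I.P0 (ω 0, ω 1) :=
    hI.P0_meas.comp ((measurable_pi_apply 0).prodMk (measurable_pi_apply 1))
  -- the factors
  set Z : ℕ → (ℕ → Ω) → ℝ := fun s' ω =>
    if s' ∈ A then I.Xi (co (Ch.vtx (c s') (d s'))) (ω (c s')) else I.fac s' (co (Ch.vtx (c s') (d s'))) (ω (c s'), ω (d s')) with hZdef
  set Y : (ℕ → Ω) → ℝ := fun ω =>
    I.fac s (co (Ch.vtx (c s) (d s))) (ω (c s), ω (d s)) - I.Xi (co (Ch.vtx (c s) (d s))) (ω (c s)) with hYdef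
  have mZ : ∀ s', Measurable (Z s') := by
    intro s'
    by_cases h : s' ∈ A
    · simp only [hZdef, if_pos h]; exact mX s'
    · simp only [hZdef, if_neg h]; exact mF s'
  have mY : Measurable Y := (mF s).sub (mX s)
  have bZ : ∀ s' ω, |Z s' ω| ≤ 4 := by
    intro s' ω
    by_cases h : s' ∈ A
    · simp only [hZdef, if_pos h]; linarith [hI.Xi_bd (co (Ch.vtx (c s') (d s'))) (ω (c s'))]
    · simp only [hZdef, if_neg h]; linarith [hI.fac_bd s' (co (Ch.vtx (c s') (d s'))) (ω (c s'), ω (d s'))]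
  have bY : ∀ ω, |Y ω| ≤ 3 := by
    intro ω
    have a1 := hI.fac_bd s (co (Ch.vtx (c s) (d s))) (ω (c s), ω (d s))
    have a2 := hI.Xi_bd (co (Ch.vtx (c s) (d s))) (ω (c s))
    calc |Y ω| ≤ |I.fac s (co (Ch.vtx (c s) (d s))) (ω (c s), ω (d s))| + |I.Xi (co (Ch.vtx (c s) (d s))) (ω (c s))| := abs_sub _ _
      _ ≤ 3 := by linarith
  have hZprod : ∀ ω, ∏ s' ∈ A ∪ B, Z s' ω = (∏ s' ∈ A, I.Xi (co (Ch.vtx (c s') (d s'))) (ω (c s'))) *
      ∏ s' ∈ B, I.fac s' (co (Ch.vtx (c s') (d s'))) (ω (c s'), ω (d s')) := by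
    intro ω
    rw [Finset.prod_union hAB]
    congr 1
    · exact Finset.prod_congr rfl fun s' hs' => by simp only [hZdef, if_pos hs']
    · exact Finset.prod_congr rfl fun s' hs' => by
        simp only [hZdef, if_neg (Finset.disjoint_right.1 hAB hs')]
  -- integrability of bounded measurable functions
  have hint : ∀ (f : (ℕ → Ω) → ℝ) (Cb : ℝ), Measurable f → (∀ ω, |f ω| ≤ Cb) → Integrable f (T.law (Ch.tab co)) :=
    fun f Cb hf hb => Integrable.of_bound hf.aestronglyMeasurable Cb (Filter.Eventually.of_forall fun ω => by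
      rw [Real.norm_eq_abs]; exact hb ω)
  have bprodX : ∀ (S : Finset ℕ) (ω : ℕ → Ω), |∏ s' ∈ S, I.Xi (co (Ch.vtx (c s') (d s'))) (ω (c s'))| ≤ 1 := by
    intro S ω
    rw [Finset.abs_prod]
    exact Finset.prod_le_one (fun _ _ => abs_nonneg _) fun s' _ => hI.Xi_bd _ _
  have bprodF : ∀ (S : Finset ℕ) (ω : ℕ → Ω), |∏ s' ∈ S, I.fac s' (co (Ch.vtx (c s') (d s'))) (ω (c s'), ω (d s'))| ≤ 2 ^ S.card := by
    intro S ω
    rw [Finset.abs_prod]
    calc ∏ s' ∈ S, |I.fac s' (co (Ch.vtx (c s') (d s'))) (ω (c s'), ω (d s'))| ≤ ∏ _s' ∈ S, (2 : ℝ) :=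
          Finset.prod_le_prod (fun _ _ => abs_nonneg _) fun s' _ => hI.fac_bd _ _ _
      _ = 2 ^ S.card := Finset.prod_const _
  have hintXF : ∀ S S' : Finset ℕ, Integrable (fun ω : ℕ → Ω => I.P0 (ω 0, ω 1) *
      (∏ s' ∈ S, I.Xi (co (Ch.vtx (c s') (d s'))) (ω (c s'))) *
      ∏ s' ∈ S', I.fac s' (co (Ch.vtx (c s') (d s'))) (ω (c s'), ω (d s'))) (T.law (Ch.tab co)) := by
    intro S S'
    refine hint _ (2 * 1 * 2 ^ S'.card) ((mP.mul (Finset.measurable_prod _ fun s' _ => mX s')).mul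
      (Finset.measurable_prod _ fun s' _ => mF s')) fun ω => ?_
    rw [abs_mul, abs_mul]
    have a1 := hI.P0_bd (ω 0, ω 1)
    have a2 := bprodX S ω
    have a3 := bprodF S' ω
    gcongr
  -- the difference is one integral
  have hdiff : (∫ ω, I.P0 (ω 0, ω 1) * (∏ s' ∈ A, I.Xi (co (Ch.vtx (c s') (d s'))) (ω (c s'))) *
          ∏ s' ∈ insert s B, I.fac s' (co (Ch.vtx (c s') (d s'))) (ω (c s'), ω (d s')) ∂T.law (Ch.tab co))
        - ∫ ω, I.P0 (ω 0, ω 1) * (∏ s' ∈ insert s A, I.Xi (co (Ch.vtx (c s') (d s'))) (ω (c s'))) *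
          ∏ s' ∈ B, I.fac s' (co (Ch.vtx (c s') (d s'))) (ω (c s'), ω (d s')) ∂T.law (Ch.tab co)
      = ∫ ω, I.P0 (ω 0, ω 1) * (∏ s' ∈ A ∪ B, Z s' ω) * Y ω ∂T.law (Ch.tab co) := by
    rw [← integral_sub (hintXF A (insert s B)) (hintXF (insert s A) B)]
    refine integral_congr_ae (Filter.Eventually.of_forall fun ω => ?_)
    simp only [hZprod ω, hYdef]
    rw [Finset.prod_insert hsB, Finset.prod_insert hsA]
    ring
  rw [hdiff]
  -- truncation
  have htail : ∀ s' ∈ A ∪ B, (T.law (Ch.tab co)).real {ω | I.eb (co (Ch.vtx (c s') (d s'))) < |Z s' ω|} ≤ I.eta := by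
    intro s' hs'
    have hs'' : s' ∈ insert s (A ∪ B) := mem_insert_of_mem hs'
    obtain ⟨l1, l2, l3⟩ := hlab s' hs''
    by_cases h : s' ∈ A
    · simp only [hZdef, if_pos h]
      have hm : MeasurableSet {ω' : Ω | I.eb (co (Ch.vtx (c s') (d s'))) < |I.Xi (co (Ch.vtx (c s') (d s'))) ω'|} :=
        measurableSet_lt measurable_const (hI.Xi_meas _).abs
      have := l8l_prob1 hT hV l1 hm
      simp only [Set.mem_ofPred_eq] at this
      rw [this]
      exact hI.tailX _ (hlow s' hs'')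
    · simp only [hZdef, if_neg h]
      have hm : MeasurableSet {p : Ω × Ω | I.eb (co (Ch.vtx (c s') (d s'))) < |I.fac s' (co (Ch.vtx (c s') (d s'))) p|} :=
        measurableSet_lt measurable_const (hI.fac_meas _ _).abs
      have := l8l_prob2 hT hV l1 l2 l3 hm
      simp only [Set.mem_ofPred_eq] at this
      rw [this]
      exact hI.tailF _ _ (hlow s' hs'')
  have htr := l8l_trunc hT hI hV (A ∪ B) Z (fun s' => I.eb (co (Ch.vtx (c s') (d s')))) (fun s' _ => mZ s') (fun s' _ => bZ s')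
    mY bY htail
  -- Cauchy-Schwarz
  have mB : Measurable fun ω : ℕ → Ω => ∏ s' ∈ A ∪ B, l8lTr (I.eb (co (Ch.vtx (c s') (d s')))) (Z s' ω) :=
    Finset.measurable_prod _ fun s' _ => (l8l_tr_meas _).comp (mZ s')
  have bB : ∀ ω : ℕ → Ω, |∏ s' ∈ A ∪ B, l8lTr (I.eb (co (Ch.vtx (c s') (d s')))) (Z s' ω)|
      ≤ ∏ s' ∈ A ∪ B, I.eb (co (Ch.vtx (c s') (d s'))) := by
    intro ω
    rw [Finset.abs_prod]
    exact Finset.prod_le_prod (fun _ _ => abs_nonneg _) fun s' _ => l8l_tr_abs_le (hI.eb_nonneg _) _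
  have hcs := l8l_cs hT hI hV h01 mB mY bB bY
  obtain ⟨l1, l2, l3⟩ := hlab s (mem_insert_self _ _)
  have hY2 : ∫ ω, Y ω ^ 2 ∂T.law (Ch.tab co) ≤ I.al (co (Ch.vtx (c s) (d s))) ^ 2 := by
    have hG : Measurable fun p : Ω × Ω =>
        (I.fac s (co (Ch.vtx (c s) (d s))) p - I.Xi (co (Ch.vtx (c s) (d s))) p.1) ^ 2 :=
      ((hI.fac_meas _ _).sub ((hI.Xi_meas _).comp measurable_fst)).pow_const 2
    have := l8l_int2 hT hV l1 l2 l3 hG
    simp only [hYdef]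
    rw [this]
    exact hI.ali s _ (hlow s (mem_insert_self _ _))
  have hsq : Real.sqrt (∫ ω, Y ω ^ 2 ∂T.law (Ch.tab co)) ≤ I.al (co (Ch.vtx (c s) (d s))) := by
    calc Real.sqrt (∫ ω, Y ω ^ 2 ∂T.law (Ch.tab co)) ≤ Real.sqrt (I.al (co (Ch.vtx (c s) (d s))) ^ 2) := Real.sqrt_le_sqrt hY2
      _ = _ := Real.sqrt_sq (hI.al_nonneg _)
  have hM0 : 0 ≤ ∏ s' ∈ A ∪ B, I.eb (co (Ch.vtx (c s') (d s'))) := Finset.prod_nonneg fun _ _ => hI.eb_nonneg _
  have hcs2 : |∫ ω, I.P0 (ω 0, ω 1) * (∏ s' ∈ A ∪ B, l8lTr (I.eb (co (Ch.vtx (c s') (d s')))) (Z s' ω)) * Y ω ∂T.law (Ch.tab co)|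
      ≤ (∏ s' ∈ A ∪ B, I.eb (co (Ch.vtx (c s') (d s')))) * I.Dab * I.al (co (Ch.vtx (c s) (d s))) :=
    hcs.trans (mul_le_mul_of_nonneg_left hsq (mul_nonneg hM0 hI.Dab_nonneg))
  -- the number of factors
  have hcard : (A ∪ B).card ≤ n := by
    have h1 : A ∪ B ⊆ range n := fun x hx => H.sub (hsub x (mem_insert_of_mem hx))
    simpa using Finset.card_le_card h1
  have hnum : 2 * 3 * 4 ^ (A ∪ B).card * ((A ∪ B).card : ℝ) * I.eta ≤ 6 * 4 ^ n * n * I.eta := by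
    have a1 : (4 : ℝ) ^ (A ∪ B).card ≤ 4 ^ n := pow_le_pow_right₀ (by norm_num) hcard
    have a2 : ((A ∪ B).card : ℝ) ≤ n := by exact_mod_cast hcard
    have a3 : (4 : ℝ) ^ (A ∪ B).card * ((A ∪ B).card : ℝ) ≤ 4 ^ n * n := mul_le_mul a1 a2 (by positivity) (by positivity)
    have := mul_le_mul_of_nonneg_right a3 hI.eta_nonneg
    nlinarith
  have htri := abs_sub_abs_le_abs_sub (∫ ω, I.P0 (ω 0, ω 1) * (∏ s' ∈ A ∪ B, Z s' ω) * Y ω ∂T.law (Ch.tab co))
    (∫ ω, I.P0 (ω 0, ω 1) * (∏ s' ∈ A ∪ B, l8lTr (I.eb (co (Ch.vtx (c s') (d s')))) (Z s' ω)) * Y ω ∂T.law (Ch.tab co))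
  linarith

/-- A2 (proved by helper214): the sum of the alias costs over the box -/
theorem l8l_ali_sum (H : L8LHyp T I Ch n r A0 w Sto Det c d) {F : Finset ℕ} {s : ℕ} (hs : s ∉ F) (hU : insert s F = Sto) :
    ∑ co ∈ Ch.box, Ch.wt co * |w co| * ((∏ s' ∈ F, I.eb (co (Ch.vtx (c s') (d s')))) * I.al (co (Ch.vtx (c s) (d s))))
      ≤ A0 ^ nv * max I.a1 (max I.av (I.a0 * I.E1)) := by
  have hI := H.hI
  set j0 := Ch.vtx (c s) (d s) with hj0
  set e : Fin nv → ℕ := fun j => l8lDeg Ch F c d j with he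
  have hsS : s ∈ Sto := by rw [← hU]; exact mem_insert_self _ _
  have h1 : ∑ co ∈ Ch.box, Ch.wt co * |w co| * ((∏ s' ∈ F, I.eb (co (Ch.vtx (c s') (d s')))) * I.al (co j0))
      ≤ ∑ co ∈ Ch.box, Ch.wt co * ((∏ j, l8lG I Ch Sto Det c d j (co j)) * (∏ j, I.eb (co j) ^ e j) * I.al (co j0)) := by
    refine Finset.sum_le_sum fun co _ => ?_
    rw [l8l_prod_vertex Ch F c d I.eb co, mul_assoc]
    refine mul_le_mul_of_nonneg_left ?_ (l8l_wt_nonneg H co)
    rw [mul_assoc]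
    refine mul_le_mul_of_nonneg_right (l8l_maj_vertex H co) ?_
    exact mul_nonneg (Finset.prod_nonneg fun j _ => pow_nonneg (hI.eb_nonneg _) _) (hI.al_nonneg _)
  refine h1.trans ?_
  rw [l8l_box_cost I Ch Sto Det c d e j0 I.al]
  have hdS : ∀ j, l8lDeg Ch (Sto ∪ Det) c d j = e j + (if j0 = j then 1 else 0) + l8lDeg Ch Det c d j := by
    intro j
    rw [l8l_deg_union Ch H.disj, ← hU, l8l_deg_insert Ch hs]
  have hX0 : 0 ≤ ∑ l ∈ range Ch.L, Ch.mm j0 l * (l8lG I Ch Sto Det c d j0 l * I.eb l ^ e j0 * I.al l) :=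
    Finset.sum_nonneg fun l _ => mul_nonneg (H.hCh.nonneg j0 l)
      (mul_nonneg (mul_nonneg (l8l_G_nonneg hI Ch Sto Det c d j0 l) (pow_nonneg (hI.eb_nonneg l) _)) (hI.al_nonneg l))
  refine l8l_regimes H e j0 (e j0) hX0 ?_ ?_ ?_
  · rw [hdS j0, if_pos rfl]; omega
  · intro j hj hne
    rw [hdS j, if_neg (Ne.symm hj)] at hne
    omega
  · refine l8l_vsum_cost hI H.hCh Sto Det c d j0 (e j0) ?_ I.al hI.al_nonneg hI.ha0 hI.ha1 hI.hav
    rw [hdS j0, if_pos rfl]; omega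

/-- A3: one factor is replaced -/
theorem l8l_ali_one (H : L8LHyp T I Ch n r A0 w Sto Det c d) {A B : Finset ℕ} {s : ℕ}
    (hsA : s ∉ A) (hsB : s ∉ B) (hAB : Disjoint A B) (hU : insert s (A ∪ B) = Sto) :
    |l8lMix T I Ch w A (insert s B) (fun s => Ch.vtx (c s) (d s)) c c d - l8lMix T I Ch w (insert s A) B (fun s => Ch.vtx (c s) (d s)) c c d|
      ≤ A0 ^ nv * (I.Dab * max I.a1 (max I.av (I.a0 * I.E1)) + 6 * 4 ^ n * n * I.eta) := by
  have hsF : s ∉ A ∪ B := by simp [hsA, hsB]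
  have h1 := l8l_ali_sum H hsF hU
  have h2 := l8l_wsum H
  have hD := H.hI.Dab_nonneg
  have he := H.hI.eta_nonneg
  unfold l8lMix
  rw [← Finset.sum_sub_distrib]
  refine (Finset.abs_sum_le_sum_abs _ _).trans ?_
  have key : ∀ co ∈ Ch.box, |Ch.wt co * w co *
        (∫ ω, I.P0 (ω 0, ω 1) * (∏ s' ∈ A, I.Xi (co (Ch.vtx (c s') (d s'))) (ω (c s'))) *
          ∏ s' ∈ insert s B, I.fac s' (co (Ch.vtx (c s') (d s'))) (ω (c s'), ω (d s')) ∂T.law (Ch.tab co))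
        - Ch.wt co * w co * ∫ ω, I.P0 (ω 0, ω 1) * (∏ s' ∈ insert s A, I.Xi (co (Ch.vtx (c s') (d s'))) (ω (c s'))) *
          ∏ s' ∈ B, I.fac s' (co (Ch.vtx (c s') (d s'))) (ω (c s'), ω (d s')) ∂T.law (Ch.tab co)|
      ≤ I.Dab * (Ch.wt co * |w co| * ((∏ s' ∈ A ∪ B, I.eb (co (Ch.vtx (c s') (d s')))) * I.al (co (Ch.vtx (c s) (d s)))))
        + 6 * 4 ^ n * n * I.eta * (Ch.wt co * |w co|) := by
    intro co _
    rw [← mul_sub, abs_mul, abs_mul, abs_of_nonneg (l8l_wt_nonneg H co)]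
    by_cases hw : w co = 0
    · simp [hw]
    · have := l8l_ali_pt H hw hsA hsB hAB hU
      have h0 : 0 ≤ Ch.wt co * |w co| := mul_nonneg (l8l_wt_nonneg H co) (abs_nonneg _)
      calc _ ≤ Ch.wt co * |w co| * _ := mul_le_mul_of_nonneg_left this h0
        _ = _ := by ring
  refine (Finset.sum_le_sum key).trans ?_
  rw [Finset.sum_add_distrib, ← Finset.mul_sum, ← Finset.mul_sum]
  have h3 := mul_le_mul_of_nonneg_left h1 hD
  have h4 : 6 * 4 ^ n * (n : ℝ) * I.eta * ∑ co ∈ Ch.box, Ch.wt co * |w co| ≤ 6 * 4 ^ n * (n : ℝ) * I.eta * A0 ^ nv :=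
    mul_le_mul_of_nonneg_left h2 (by positivity)
  calc _ ≤ I.Dab * (A0 ^ nv * max I.a1 (max I.av (I.a0 * I.E1))) + 6 * 4 ^ n * (n : ℝ) * I.eta * A0 ^ nv := add_le_add h3 h4
    _ = _ := by ring

/-- A4: the factors of `A ⊆ Sto` are replaced -/
theorem l8l_ali_ind (H : L8LHyp T I Ch n r A0 w Sto Det c d) (A : Finset ℕ) (hA : A ⊆ Sto) :
    |l8lMix T I Ch w ∅ Sto (fun s => Ch.vtx (c s) (d s)) c c d - l8lMix T I Ch w A (Sto \ A) (fun s => Ch.vtx (c s) (d s)) c c d|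
      ≤ A.card * (A0 ^ nv * (I.Dab * max I.a1 (max I.av (I.a0 * I.E1)) + 6 * 4 ^ n * n * I.eta)) := by
  induction A using Finset.induction_on with
  | empty => simp
  | insert s A hs ih =>
    have hA' : A ⊆ Sto := fun x hx => hA (Finset.mem_insert_of_mem hx)
    have hsS : s ∈ Sto := hA (Finset.mem_insert_self _ _)
    have e1 : Sto \ A = insert s (Sto \ insert s A) := by
      ext x
      simp only [Finset.mem_sdiff, Finset.mem_insert]
      constructor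
      · rintro ⟨h1, h2⟩
        by_cases hx : x = s
        · exact Or.inl hx
        · exact Or.inr ⟨h1, by tauto⟩
      · rintro (rfl | ⟨h1, h2⟩)
        · exact ⟨hsS, hs⟩
        · exact ⟨h1, by tauto⟩
    have h1 := ih hA'
    have h2 := l8l_ali_one H (A := A) (B := Sto \ insert s A) (s := s) hs (by simp)
      (by
        rw [Finset.disjoint_left]
        intro x hx hx'
        simp only [Finset.mem_sdiff, Finset.mem_insert] at hx'
        tauto)
      (by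
        ext x
        simp only [Finset.mem_sdiff, Finset.mem_insert, Finset.mem_union]
        constructor
        · rintro (rfl | h | h)
          · exact hsS
          · exact hA' h
          · exact h.1
        · intro hx
          by_cases h1 : x = s
          · exact Or.inl h1
          · by_cases h2 : x ∈ A
            · exact Or.inr (Or.inl h2)
            · exact Or.inr (Or.inr ⟨hx, by tauto⟩))
    rw [← e1] at h2
    rw [Finset.card_insert_of_notMem hs]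
    push_cast
    have := abs_sub_le (l8lMix T I Ch w ∅ Sto (fun s => Ch.vtx (c s) (d s)) c c d)
      (l8lMix T I Ch w A (Sto \ A) (fun s => Ch.vtx (c s) (d s)) c c d)
      (l8lMix T I Ch w (insert s A) (Sto \ insert s A) (fun s => Ch.vtx (c s) (d s)) c c d)
    linarith

theorem l8l_sum_eq_mix (T : L8L Ω) (I : L8LIn Ω) (Ch : L8LCh nv) (w : (Fin nv → ℕ) → ℝ) (Sto : Finset ℕ) (jv : ℕ → Fin nv) (lab c d : ℕ → ℕ) :
    l8lSum T I Ch w Sto c d = l8lMix T I Ch w ∅ Sto jv lab c d := by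
  unfold l8lSum l8lMix
  simp

theorem l8l_ali : L8_LS_ALI := by
  intro n nv r
  refine ⟨n * (1 + 6 * 4 ^ n * n), by positivity, ?_⟩
  intro Ω _ T I Ch A0 w Sto Det c d H
  have h := l8l_ali_ind H Sto (Finset.Subset.refl _)
  rw [Finset.sdiff_self, ← l8l_sum_eq_mix] at h
  refine h.trans ?_
  have hI := H.hI
  have hc : (Sto.card : ℝ) ≤ n := by
    have h1 : Sto.card ≤ (range n).card := Finset.card_le_card (fun x hx => H.sub (Finset.mem_union_left _ hx))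
    rw [Finset.card_range] at h1
    exact_mod_cast h1
  have hA : 0 ≤ A0 ^ nv := pow_nonneg (le_trans zero_le_one H.hA0) _
  have ha1 : 0 ≤ I.a1 := le_trans (Finset.sum_nonneg fun l _ =>
    mul_nonneg (mul_nonneg (hI.mu_nonneg l) (hI.eb_nonneg l)) (hI.al_nonneg l)) hI.ha1
  have hm : 0 ≤ max I.a1 (max I.av (I.a0 * I.E1)) := le_trans ha1 (le_max_left _ _)
  have hD := hI.Dab_nonneg
  have he := hI.eta_nonneg
  have hDm : 0 ≤ I.Dab * max I.a1 (max I.av (I.a0 * I.E1)) := mul_nonneg hD hm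
  have hq : (0:ℝ) ≤ 6 * 4 ^ n * n := by positivity
  calc (Sto.card : ℝ) * (A0 ^ nv * (I.Dab * max I.a1 (max I.av (I.a0 * I.E1)) + 6 * 4 ^ n * n * I.eta))
      ≤ n * (A0 ^ nv * (I.Dab * max I.a1 (max I.av (I.a0 * I.E1)) + 6 * 4 ^ n * n * I.eta)) :=
        mul_le_mul_of_nonneg_right hc (mul_nonneg hA (add_nonneg hDm (mul_nonneg hq he)))
    _ ≤ n * (A0 ^ nv * ((1 + 6 * 4 ^ n * n) * (I.Dab * max I.a1 (max I.av (I.a0 * I.E1)) + I.eta))) := by
        apply mul_le_mul_of_nonneg_left _ (Nat.cast_nonneg n)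
        apply mul_le_mul_of_nonneg_left _ hA
        nlinarith [mul_nonneg hq hDm]
    _ = _ := by ring

end Claimed.Agent.R286
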