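import Claimed.Agent.R286.L09.Table
import Claimed.Agent.R286.L08.LsAbs
import Claimed.Agent.R286.L08.Cen

/-!
# Row 286 (S0533), folder L08, file LsCost : INSTANCE of the inputs `L8LIn` of the low sources lemma (D16) + THE COST TABLE      (owner helper62; head of the unit helper234; prefix `l8lc_` / `L8lc`)

TEX[LL:lem:statistics-low-sources], LL 08 l.1385-1445: "The region below Y", "Alias errors above Y", the "three forms" of "Centered integration in a fixed marginal".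
PRODUCER of the abstract record `L8LIn.Ok` (`L08/LsAbs.lean`, helper234) from the abstract single path `P : L8P` (helper75) and the exports of the unit IV (`L08/Cen.lean`, helper187).
FINE level, NON-asymptotic: `Lo ≥ 1` bounds every constant and every permitted loss (`x^(-ε)`, subpower factors); the number `N` of dyads is explicit.

* sec. 1  SCALES (proved): target `l8lcT S C = x³ λ^(-C) Z²`, `l8lcG S = x³/√λ₁`; the three forms SOLE `r·r·(z_r r) = G`, TIED `r (z_r r) m_r ≤ G`, DISTINCT `r (z_r r) Y² ≤ G Y`.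
* sec. 2  THE TABLE, numbers only: `L8lcN` = level data (`mu vv eb al ew`), `L8lcN.Ok` = band inputs = (D2) raw, (D9) first moment, (D7a), (D7b), envelope budget;
          outputs B1-B9: `av, a1, Y a0, E1, wv, w1, Y² w0`, then `l8lc_num_gain`.
* sec. 3  THE INSTANCE: `P.l8lcIn D : L8LIn Ω`: `Xi l = 0` for `l < tY` (raw region, `al l = D_l`), `Xi l = |X_l|² - S_l` above (`al l² = 4 E XᵀCX + E tr C²`), `fac s l` = projected or terminal pair `- S_l`,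
          `vv = v/a`, `mu = dv`, `c0 = 2 √(cP w0) + a0`, `cv = 2 √(cP wv) + av`, `c1 = 2 d² √(cP (w1 + ..)) + d a1 + ..` (the `2L` alias is paid here).      `l8lc_in_ok` = INSTANCE THEOREM.
* sec. 4  (D16), first conclusion, on `L8P`: `l8lc_D16`.
PROTOCOL: every `sorry` is ONE LEAF (free unless a PROVER is named): claim it in claim286 by its Lean name, replace ONLY your sorry, helpers just above it, land directly.   A false or awkward statement: one line to helper62.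
-/

set_option autoImplicit false

namespace Claimed.Agent.R286

open MeasureTheory Finset

/-! ## 1. Scales -/

/-- the standing assumptions on the scales in the low sources lemma -/
structure L8lcOk (S : L13Scales) : Prop where
  lam_le : S.lam ≤ 1
  s_nonneg : 0 ≤ S.s
  eta_nonneg : 0 ≤ S.eta
  Y_le : S.Y ≤ 1

/-- the target `x³ λ^(-C) Z²` of (D16) -/
noncomputable def l8lcT (S : L13Scales) (C : ℝ) : ℝ := S.x ^ 3 * S.lam ^ (-C) * S.Z ^ 2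

/-- `x³/√λ₁` -/
noncomputable def l8lcG (S : L13Scales) : ℝ := S.x ^ 3 / Real.sqrt S.lam1

theorem l8lc_eqns_cite : True := by
  have := @l8lcT.eq_1
  have := @l8lcG.eq_1
  trivial

variable {S : L13Scales}

theorem l8lc_T_pos (C : ℝ) : 0 < l8lcT S C :=
  mul_pos (mul_pos (pow_pos S.hx 3) (Real.rpow_pos_of_pos S.hlam _)) (pow_pos S.Z_pos 2)

theorem l8lc_G_pos : 0 < l8lcG S := div_pos (pow_pos S.hx 3) (Real.sqrt_pos.mpr S.lam1_pos)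

theorem l8lc_T_mono (h : L8lcOk S) {C C' : ℝ} (hC : C ≤ C') : l8lcT S C ≤ l8lcT S C' := by
  unfold l8lcT
  apply mul_le_mul_of_nonneg_right _ (pow_pos S.Z_pos 2).le
  apply mul_le_mul_of_nonneg_left _ (pow_pos S.hx 3).le
  exact Real.rpow_le_rpow_of_exponent_ge S.hlam h.lam_le (by linarith)

/-- `x³/√λ₁ = x³ λ^(-(1+η)/2)` -/
theorem l8lc_G_eq : l8lcG S = S.x ^ 3 * S.lam ^ (-((1 + S.eta) / 2)) := by
  obtain ⟨X, L, ζ, hX, hL, hζ⟩ := S.exp_coords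
  unfold l8lcG L13Scales.lam1
  rw [hX, hL, Real.sqrt_eq_rpow]
  simp only [← Real.exp_mul, ← Real.exp_nat_mul, ← Real.exp_add, ← Real.exp_sub]
  congr 1
  push_cast
  ring

theorem l8lc_G_le : l8lcG S ≤ l8lcT S ((1 + S.eta) / 2) := by
  rw [l8lc_G_eq]
  unfold l8lcT
  have h1 : (1 : ℝ) ≤ S.Z ^ 2 := one_le_pow₀ S.hZ
  have h0 : 0 < S.x ^ 3 * S.lam ^ (-((1 + S.eta) / 2)) :=
    mul_pos (pow_pos S.hx 3) (Real.rpow_pos_of_pos S.hlam _)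
  nlinarith

theorem l8lc_x_le_U (h : L8lcOk S) : S.x ≤ S.U := by
  unfold L13Scales.U
  have : (1 : ℝ) ≤ S.lam ^ (-S.s / 2) :=
    Real.one_le_rpow_of_pos_of_le_one_of_nonpos S.hlam h.lam_le (by linarith [h.s_nonneg])
  nlinarith [S.hx]

theorem l8lc_x_le_Y (h : L8lcOk S) : S.x ≤ S.Y := (l8lc_x_le_U h).trans S.U_le_Y

/-- below `x`, sole factor: `x² Y ≤ x³ λ^(-s/2) Z²` -/
theorem l8lc_low_sole : S.x ^ 2 * S.Y ≤ l8lcT S (S.s / 2) := by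
  have e : S.x ^ 2 * S.Y = S.x ^ 3 * S.lam ^ (-(S.s / 2)) * S.Z := by
    unfold L13Scales.Y L13Scales.U
    rw [neg_div]; ring
  rw [e]
  unfold l8lcT
  apply mul_le_mul_of_nonneg_left _ (mul_pos (pow_pos S.hx 3) (Real.rpow_pos_of_pos S.hlam _)).le
  nlinarith [S.hZ]

/-- below `x`, tied factors: `x Y² = x³ λ^(-s) Z²` -/
theorem l8lc_low_tied : S.x * S.Y ^ 2 = l8lcT S S.s := by
  rw [S.Y_sq]; unfold l8lcT; ring

/-- `z_r^0 r² = (x³/√λ₁)/r` -/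
theorem l8lc_z0_sq {r : ℝ} (hr : 0 < r) : S.z0 r * r ^ 2 = l8lcG S / r := by
  unfold L13Scales.z0 l8lcG
  have := Real.sqrt_pos.mpr S.lam1_pos
  field_simp

/-- SOLE: `r · r · (z_r^0 r) = x³/√λ₁` -/
theorem l8lc_sole {r : ℝ} (hr : 0 < r) : r * r * (S.z0 r * r) = l8lcG S := by
  have h := l8lc_z0_sq (S := S) hr
  have : r * r * (S.z0 r * r) = r * (S.z0 r * r ^ 2) := by ring
  rw [this, h]; field_simp

/-- TIED: `r · (z_r^0 r) · m_r r^n ≤ x³/√λ₁`  (`Y ≤ r ≤ 1`) -/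
theorem l8lc_tied {r : ℝ} (hY : S.Y ≤ r) (hr1 : r ≤ 1) (n : ℕ) :
    r * (S.z0 r * r) * (S.Y ^ 2 / r * r ^ n) ≤ l8lcG S := by
  have hr : 0 < r := lt_of_lt_of_le S.Y_pos hY
  have h := l8lc_z0_sq (S := S) hr
  have e : r * (S.z0 r * r) * (S.Y ^ 2 / r * r ^ n) = l8lcG S * ((S.Y / r) ^ 2 * r ^ n) := by
    have : r * (S.z0 r * r) * (S.Y ^ 2 / r * r ^ n) = (S.z0 r * r ^ 2) * (S.Y ^ 2 / r * r ^ n) := by ring
    rw [this, h]; field_simp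
  rw [e]
  have h1 : S.Y / r ≤ 1 := (div_le_one hr).2 hY
  have h2 : (S.Y / r) ^ 2 ≤ 1 := pow_le_one₀ (div_pos S.Y_pos hr).le h1
  have h3 : r ^ n ≤ 1 := pow_le_one₀ hr.le hr1
  have h4 : (S.Y / r) ^ 2 * r ^ n ≤ 1 := mul_le_one₀ h2 (pow_pos hr n).le h3
  nlinarith [l8lc_G_pos (S := S)]

/-- DISTINCT: `r · (z_r^0 r) · Y² ≤ (x³/√λ₁) Y`  (`Y ≤ r`) -/
theorem l8lc_dist {r : ℝ} (hY : S.Y ≤ r) : r * (S.z0 r * r) * S.Y ^ 2 ≤ l8lcG S * S.Y := by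
  have hr : 0 < r := lt_of_lt_of_le S.Y_pos hY
  have h := l8lc_z0_sq (S := S) hr
  have e : r * (S.z0 r * r) * S.Y ^ 2 = l8lcG S * S.Y * (S.Y / r) := by
    have : r * (S.z0 r * r) * S.Y ^ 2 = (S.z0 r * r ^ 2) * S.Y ^ 2 := by ring
    rw [this, h]; field_simp
  rw [e]
  have h1 : S.Y / r ≤ 1 := (div_le_one hr).2 hY
  have := mul_pos (l8lc_G_pos (S := S)) S.Y_pos
  nlinarith

/-! ## 2. The table: numbers only -/

/-- level data: `mu` weight of a level in mass integrals, `vv` coefficient of a sole factor, `eb` envelope, `al` second norm of the replacement error, `ew = E W`;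
the levels `< tY` are treated by raw bounds, the levels `< ti` are low -/
structure L8lcN where
  tY : ℕ
  ti : ℕ
  mu : ℕ → ℝ
  vv : ℕ → ℝ
  eb : ℕ → ℝ
  al : ℕ → ℝ
  ew : ℕ → ℝ

namespace L8lcN
variable (N : L8lcN)

def a0 : ℝ := ∑ l ∈ range N.ti, N.mu l * N.al l
def a1 : ℝ := ∑ l ∈ range N.ti, N.mu l * N.eb l * N.al l
def av : ℝ := ∑ l ∈ range N.ti, N.mu l * N.vv l * N.al l
def E1 : ℝ := ∑ l ∈ range N.ti, N.mu l * N.eb l
def w0 : ℝ := ∑ l ∈ Ico N.tY N.ti, N.mu l * N.ew l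
def wv : ℝ := ∑ l ∈ Ico N.tY N.ti, N.mu l * N.vv l ^ 2 * N.ew l
def w1 : ℝ := ∑ l ∈ Ico N.tY N.ti, N.mu l * N.eb l ^ 2 * N.ew l
def ms : ℝ := ∑ l ∈ Ico N.tY N.ti, N.mu l

/-- the centred costs (`cP` = constant of (A2), `d` = maximal degree, `a` = terminal mass, `eta` = tail) -/
noncomputable def c0 (cP : ℝ) : ℝ := 2 * √(cP * N.w0) + N.a0
noncomputable def cv (cP : ℝ) : ℝ := 2 * √(cP * N.wv) + N.av
noncomputable def c1 (cP : ℝ) (d : ℕ) (a eta : ℝ) : ℝ :=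
  2 * (d : ℝ) ^ 2 * √(cP * (N.w1 + 4 ^ (2 * d) * a * eta * N.ms)) + d * N.a1 + 3 * 4 ^ d * √eta * N.ms

/-- **the band inputs**.   `R0` = levels of mass `< x`, `R1` = levels of mass in `[x, C Y]`, `Bd b` = dyad of size `rr b ∈ [Y, 1]`.
`m0 v0 e0 r0` raw bounds ((D2) line 1);  `d9` = first moment consequence of (D9) (LL 08 l.823-832);  `e2` envelope budget `∫ e² dv/r ≲ m_r²` (Prop. 8.1);
`a2` = (D7) line 2 (`∫ E[XᵀCX + tr C²] dv/r ≲ (z_r r)²`);  `w0`, `w1` = (D7) line 1 with `k = 0, 1` (`Z_h = 1`). -/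
structure Ok (S : L13Scales) {β : Type} [Fintype β] (Lo C1 : ℝ) (R0 R1 : Finset ℕ) (Bd : β → Finset ℕ) (rr : β → ℝ) : Prop where
  hLo : 1 ≤ Lo
  le : N.tY ≤ N.ti
  mu_nonneg : ∀ l, 0 ≤ N.mu l
  vv_nonneg : ∀ l, 0 ≤ N.vv l
  eb_nonneg : ∀ l, 0 ≤ N.eb l
  al_nonneg : ∀ l, 0 ≤ N.al l
  ew_nonneg : ∀ l, 0 ≤ N.ew l
  low : range N.tY ⊆ R0 ∪ R1
  high : Ico N.tY N.ti ⊆ univ.biUnion Bd
  m0 : ∑ l ∈ R0, N.mu l ≤ S.x
  v0 : ∀ l ∈ R0, N.vv l ≤ Lo * S.x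
  e0 : ∀ l ∈ R0, N.eb l ≤ Lo * S.Y
  r0 : ∀ l ∈ R0, N.al l ≤ Lo * S.Y
  m1 : ∑ l ∈ R1, N.mu l ≤ Lo * S.Y
  v1 : ∀ l ∈ R1, N.vv l ≤ Lo * S.Y
  e1 : ∀ l ∈ R1, N.eb l ≤ Lo * S.Y
  d9 : S.Y * ∑ l ∈ R1, N.mu l * N.al l ≤ Lo * l8lcT S C1
  rY : ∀ b, S.Y ≤ rr b
  r1 : ∀ b, rr b ≤ 1
  mb : ∀ b, ∑ l ∈ Bd b, N.mu l ≤ Lo * rr b
  vb : ∀ b, ∀ l ∈ Bd b, N.vv l ≤ Lo * rr b
  e2 : ∀ b, ∑ l ∈ Bd b, N.mu l * N.eb l ^ 2 ≤ Lo * (rr b * (S.Y ^ 2 / rr b) ^ 2)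
  a2 : ∀ b, ∑ l ∈ Bd b, N.mu l * N.al l ^ 2 ≤ Lo * (rr b * (S.z0 (rr b) * rr b) ^ 2)
  w0 : ∀ b, ∑ l ∈ Bd b, N.mu l * N.ew l ≤ Lo * (rr b * (S.z0 (rr b) * rr b)) ^ 2
  w1 : ∀ b, ∑ l ∈ Bd b, N.mu l * N.eb l ^ 2 * N.ew l ≤ Lo * (rr b * (S.z0 (rr b) * rr b) * (S.Y ^ 2 / rr b)) ^ 2

end L8lcN

theorem l8lc_num_eqns_cite : True := by
  have := @L8lcN.a0.eq_1
  have := @L8lcN.a1.eq_1
  have := @L8lcN.av.eq_1
  have := @L8lcN.E1.eq_1
  have := @L8lcN.w0.eq_1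
  have := @L8lcN.wv.eq_1
  have := @L8lcN.w1.eq_1
  have := @L8lcN.ms.eq_1
  have := @L8lcN.c0.eq_1
  have := @L8lcN.cv.eq_1
  have := @L8lcN.c1.eq_1
  trivial

/-- weighted Cauchy-Schwarz on a finite set, root-free form -/
theorem l8lc_cs {ι : Type} (B : Finset ι) (w f g : ι → ℝ) (hw : ∀ i ∈ B, 0 ≤ w i) {A A' c : ℝ}
    (hA : ∑ i ∈ B, w i * f i ^ 2 ≤ A) (hA' : ∑ i ∈ B, w i * g i ^ 2 ≤ A') (hc : 0 ≤ c) (h : A * A' ≤ c ^ 2) :
    ∑ i ∈ B, w i * (f i * g i) ≤ c := by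
  have h1 := Finset.sum_mul_sq_le_sq_mul_sq B (fun i => √(w i) * f i) (fun i => √(w i) * g i)
  have e1 : ∀ i ∈ B, √(w i) * f i * (√(w i) * g i) = w i * (f i * g i) := by
    intro i hi
    have := Real.mul_self_sqrt (hw i hi)
    calc √(w i) * f i * (√(w i) * g i) = (√(w i) * √(w i)) * (f i * g i) := by ring
      _ = w i * (f i * g i) := by rw [this]
  have e2 : ∀ (u : ι → ℝ), ∀ i ∈ B, (√(w i) * u i) ^ 2 = w i * u i ^ 2 := by
    intro u i hi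
    rw [mul_pow, Real.sq_sqrt (hw i hi)]
  rw [Finset.sum_congr rfl e1, Finset.sum_congr rfl (e2 f), Finset.sum_congr rfl (e2 g)] at h1
  have hA0 : 0 ≤ ∑ i ∈ B, w i * f i ^ 2 := Finset.sum_nonneg fun i hi => mul_nonneg (hw i hi) (sq_nonneg _)
  have hA0' : 0 ≤ ∑ i ∈ B, w i * g i ^ 2 := Finset.sum_nonneg fun i hi => mul_nonneg (hw i hi) (sq_nonneg _)
  have h2 : (∑ i ∈ B, w i * (f i * g i)) ^ 2 ≤ c ^ 2 :=
    h1.trans ((mul_le_mul hA hA' hA0' (hA0.trans hA)).trans h)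
  exact le_trans (le_abs_self _) (abs_le_of_sq_le_sq h2 hc)

theorem l8lc_biUnion_le {β : Type} [Fintype β] (Bd : β → Finset ℕ) (f : ℕ → ℝ) (hf : ∀ l, 0 ≤ f l) :
    ∑ l ∈ univ.biUnion Bd, f l ≤ ∑ b, ∑ l ∈ Bd b, f l := by
  classical
  have h1 : ∀ l ∈ univ.biUnion Bd, f l ≤ ∑ b, if l ∈ Bd b then f l else 0 := by
    intro l hl
    obtain ⟨b, -, hb⟩ := Finset.mem_biUnion.1 hl
    have := Finset.single_le_sum (f := fun b => if l ∈ Bd b then f l else 0)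
      (fun b _ => by split_ifs <;> simp [hf l]) (Finset.mem_univ b)
    simpa [hb] using this
  calc ∑ l ∈ univ.biUnion Bd, f l ≤ ∑ l ∈ univ.biUnion Bd, ∑ b, if l ∈ Bd b then f l else 0 := Finset.sum_le_sum h1
    _ = ∑ b, ∑ l ∈ univ.biUnion Bd, if l ∈ Bd b then f l else 0 := Finset.sum_comm
    _ = ∑ b, ∑ l ∈ Bd b, f l := by
        refine Finset.sum_congr rfl fun b _ => ?_
        rw [← Finset.sum_filter]
        congr 1
        ext l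
        simp only [Finset.mem_filter, Finset.mem_biUnion, Finset.mem_univ, true_and]
        exact ⟨fun h => h.2, fun h => ⟨⟨b, h⟩, h⟩⟩

theorem l8lc_split_high {N : L8lcN} {β : Type} [Fintype β] {Bd : β → Finset ℕ}
    (hhigh : Ico N.tY N.ti ⊆ univ.biUnion Bd) (f : ℕ → ℝ) (hf : ∀ l, 0 ≤ f l) :
    ∑ l ∈ Ico N.tY N.ti, f l ≤ ∑ b, ∑ l ∈ Bd b, f l :=
  (Finset.sum_le_sum_of_subset_of_nonneg hhigh fun l _ _ => hf l).trans (l8lc_biUnion_le Bd f hf)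

/-- a nonnegative sum over the low levels is at most the sum over the regions -/
theorem l8lc_split {N : L8lcN} {β : Type} [Fintype β] {R0 R1 : Finset ℕ} {Bd : β → Finset ℕ} (hle : N.tY ≤ N.ti)
    (hlow : range N.tY ⊆ R0 ∪ R1) (hhigh : Ico N.tY N.ti ⊆ univ.biUnion Bd) (f : ℕ → ℝ) (hf : ∀ l, 0 ≤ f l) :
    ∑ l ∈ range N.ti, f l ≤ ∑ l ∈ R0, f l + ∑ l ∈ R1, f l + ∑ b, ∑ l ∈ Bd b, f l := by
  classical
  have e : ∑ l ∈ range N.ti, f l = ∑ l ∈ range N.tY, f l + ∑ l ∈ Ico N.tY N.ti, f l :=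
    (Finset.sum_range_add_sum_Ico f hle).symm
  have h1 : ∑ l ∈ range N.tY, f l ≤ ∑ l ∈ R0, f l + ∑ l ∈ R1, f l := by
    refine (Finset.sum_le_sum_of_subset_of_nonneg hlow fun l _ _ => hf l).trans ?_
    have := Finset.sum_union_inter (s₁ := R0) (s₂ := R1) (f := f)
    have h0 : 0 ≤ ∑ l ∈ R0 ∩ R1, f l := Finset.sum_nonneg fun l _ => hf l
    linarith
  rw [e]
  exact add_le_add h1 (l8lc_split_high hhigh f hf)

theorem l8lc_sum_mul_le (B : Finset ℕ) (w g : ℕ → ℝ) (hw : ∀ l ∈ B, 0 ≤ w l) {c M : ℝ} (hg : ∀ l ∈ B, g l ≤ c) (hc : 0 ≤ c)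
    (hM : ∑ l ∈ B, w l ≤ M) : ∑ l ∈ B, w l * g l ≤ M * c := by
  calc ∑ l ∈ B, w l * g l ≤ ∑ l ∈ B, w l * c := Finset.sum_le_sum fun l hl => mul_le_mul_of_nonneg_left (hg l hl) (hw l hl)
    _ = (∑ l ∈ B, w l) * c := by rw [Finset.sum_mul]
    _ ≤ M * c := mul_le_mul_of_nonneg_right hM hc

theorem l8lc_sqrt_add_le {a b : ℝ} (ha : 0 ≤ a) (hb : 0 ≤ b) : √(a + b) ≤ √a + √b := by
  refine Real.sqrt_le_iff.2 ⟨by positivity, ?_⟩
  have h1 := Real.sq_sqrt ha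
  have h2 := Real.sq_sqrt hb
  nlinarith [mul_nonneg (Real.sqrt_nonneg a) (Real.sqrt_nonneg b)]

section table
variable {N : L8lcN} {β : Type} [Fintype β] {Lo C1 : ℝ} {R0 R1 : Finset ℕ} {Bd : β → Finset ℕ} {rr : β → ℝ}

/-- B0: the alias integral of one dyad, `A_r ≲ z_r r²` (LL 08 l.1417-1421) -/
theorem l8lc_band_al (H : N.Ok S Lo C1 R0 R1 Bd rr) (b : β) :
    ∑ l ∈ Bd b, N.mu l * N.al l ≤ Lo * (rr b * (S.z0 (rr b) * rr b)) := by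
  have hr : 0 < rr b := lt_of_lt_of_le S.Y_pos (H.rY b)
  have hz := S.z0_pos hr
  have hLo : 0 ≤ Lo := by linarith [H.hLo]
  have h := l8lc_cs (Bd b) N.mu (fun _ => 1) N.al (fun i _ => H.mu_nonneg i) (A := Lo * rr b)
    (A' := Lo * (rr b * (S.z0 (rr b) * rr b) ^ 2)) (c := Lo * (rr b * (S.z0 (rr b) * rr b)))
    (by simpa using H.mb b) (H.a2 b) (by positivity) (le_of_eq (by ring))
  simpa using h

/-- B1 SOLE (LL 08 l.1393-1395, l.1404, l.1422-1423) -/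
theorem l8lc_av_le (h : L8lcOk S) (H : N.Ok S Lo C1 R0 R1 Bd rr) :
    N.av ≤ Lo ^ 2 * (l8lcT S (S.s / 2) + l8lcT S C1 + Fintype.card β * l8lcG S) := by
  have hLo : 0 ≤ Lo := by linarith [H.hLo]
  have hx := S.hx.le
  have hY := S.Y_pos.le
  have hs := l8lc_split H.le H.low H.high (fun l => N.mu l * N.vv l * N.al l)
    (fun l => mul_nonneg (mul_nonneg (H.mu_nonneg l) (H.vv_nonneg l)) (H.al_nonneg l))
  have b0 : ∑ l ∈ R0, N.mu l * N.vv l * N.al l ≤ Lo ^ 2 * l8lcT S (S.s / 2) := by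
    have h1 := l8lc_sum_mul_le R0 N.mu (fun l => N.vv l * N.al l) (fun l _ => H.mu_nonneg l) (c := Lo * S.x * (Lo * S.Y))
      (fun l hl => mul_le_mul (H.v0 l hl) (H.r0 l hl) (H.al_nonneg l) (by positivity)) (by positivity) H.m0
    have h2 := l8lc_low_sole (S := S)
    calc ∑ l ∈ R0, N.mu l * N.vv l * N.al l = ∑ l ∈ R0, N.mu l * (N.vv l * N.al l) :=
          Finset.sum_congr rfl fun l _ => by ring
      _ ≤ S.x * (Lo * S.x * (Lo * S.Y)) := h1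
      _ = Lo ^ 2 * (S.x ^ 2 * S.Y) := by ring
      _ ≤ Lo ^ 2 * l8lcT S (S.s / 2) := mul_le_mul_of_nonneg_left h2 (by positivity)
  have b1 : ∑ l ∈ R1, N.mu l * N.vv l * N.al l ≤ Lo ^ 2 * l8lcT S C1 := by
    have h1 := l8lc_sum_mul_le R1 (fun l => N.mu l * N.al l) N.vv (fun l _ => mul_nonneg (H.mu_nonneg l) (H.al_nonneg l))
      (c := Lo * S.Y) H.v1 (by positivity) le_rfl
    calc ∑ l ∈ R1, N.mu l * N.vv l * N.al l = ∑ l ∈ R1, N.mu l * N.al l * N.vv l :=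
          Finset.sum_congr rfl fun l _ => by ring
      _ ≤ (∑ l ∈ R1, N.mu l * N.al l) * (Lo * S.Y) := h1
      _ = Lo * (S.Y * ∑ l ∈ R1, N.mu l * N.al l) := by ring
      _ ≤ Lo * (Lo * l8lcT S C1) := mul_le_mul_of_nonneg_left H.d9 hLo
      _ = Lo ^ 2 * l8lcT S C1 := by ring
  have b2 : ∀ b, ∑ l ∈ Bd b, N.mu l * N.vv l * N.al l ≤ Lo ^ 2 * l8lcG S := by
    intro b
    have hr : 0 < rr b := lt_of_lt_of_le S.Y_pos (H.rY b)
    have h1 := l8lc_sum_mul_le (Bd b) (fun l => N.mu l * N.al l) N.vv (fun l _ => mul_nonneg (H.mu_nonneg l) (H.al_nonneg l))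
      (c := Lo * rr b) (H.vb b) (by positivity) (l8lc_band_al H b)
    calc ∑ l ∈ Bd b, N.mu l * N.vv l * N.al l = ∑ l ∈ Bd b, N.mu l * N.al l * N.vv l :=
          Finset.sum_congr rfl fun l _ => by ring
      _ ≤ Lo * (rr b * (S.z0 (rr b) * rr b)) * (Lo * rr b) := h1
      _ = Lo ^ 2 * (rr b * rr b * (S.z0 (rr b) * rr b)) := by ring
      _ = Lo ^ 2 * l8lcG S := by rw [l8lc_sole hr]
  have b3 : ∑ b, ∑ l ∈ Bd b, N.mu l * N.vv l * N.al l ≤ Fintype.card β * (Lo ^ 2 * l8lcG S) := by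
    calc ∑ b, ∑ l ∈ Bd b, N.mu l * N.vv l * N.al l ≤ ∑ _b : β, Lo ^ 2 * l8lcG S := Finset.sum_le_sum fun b _ => b2 b
      _ = Fintype.card β * (Lo ^ 2 * l8lcG S) := by simp
  unfold L8lcN.av
  calc _ ≤ _ := hs
    _ ≤ Lo ^ 2 * l8lcT S (S.s / 2) + Lo ^ 2 * l8lcT S C1 + Fintype.card β * (Lo ^ 2 * l8lcG S) := add_le_add (add_le_add b0 b1) b3
    _ = _ := by ring

/-- B2 TIED (LL 08 l.1395, l.1404-1405, l.1423-1430) -/
theorem l8lc_a1_le (h : L8lcOk S) (H : N.Ok S Lo C1 R0 R1 Bd rr) :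
    N.a1 ≤ Lo ^ 2 * (l8lcT S S.s + l8lcT S C1 + Fintype.card β * l8lcG S) := by
  have hLo : 0 ≤ Lo := by linarith [H.hLo]
  have hx := S.hx.le
  have hY := S.Y_pos.le
  have hs := l8lc_split H.le H.low H.high (fun l => N.mu l * N.eb l * N.al l)
    (fun l => mul_nonneg (mul_nonneg (H.mu_nonneg l) (H.eb_nonneg l)) (H.al_nonneg l))
  have b0 : ∑ l ∈ R0, N.mu l * N.eb l * N.al l ≤ Lo ^ 2 * l8lcT S S.s := by
    have h1 := l8lc_sum_mul_le R0 N.mu (fun l => N.eb l * N.al l) (fun l _ => H.mu_nonneg l) (c := Lo * S.Y * (Lo * S.Y))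
      (fun l hl => mul_le_mul (H.e0 l hl) (H.r0 l hl) (H.al_nonneg l) (by positivity)) (by positivity) H.m0
    calc ∑ l ∈ R0, N.mu l * N.eb l * N.al l = ∑ l ∈ R0, N.mu l * (N.eb l * N.al l) :=
          Finset.sum_congr rfl fun l _ => by ring
      _ ≤ S.x * (Lo * S.Y * (Lo * S.Y)) := h1
      _ = Lo ^ 2 * (S.x * S.Y ^ 2) := by ring
      _ = Lo ^ 2 * l8lcT S S.s := by rw [l8lc_low_tied]
  have b1 : ∑ l ∈ R1, N.mu l * N.eb l * N.al l ≤ Lo ^ 2 * l8lcT S C1 := by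
    have h1 := l8lc_sum_mul_le R1 (fun l => N.mu l * N.al l) N.eb (fun l _ => mul_nonneg (H.mu_nonneg l) (H.al_nonneg l))
      (c := Lo * S.Y) H.e1 (by positivity) le_rfl
    calc ∑ l ∈ R1, N.mu l * N.eb l * N.al l = ∑ l ∈ R1, N.mu l * N.al l * N.eb l :=
          Finset.sum_congr rfl fun l _ => by ring
      _ ≤ (∑ l ∈ R1, N.mu l * N.al l) * (Lo * S.Y) := h1
      _ = Lo * (S.Y * ∑ l ∈ R1, N.mu l * N.al l) := by ring
      _ ≤ Lo * (Lo * l8lcT S C1) := mul_le_mul_of_nonneg_left H.d9 hLo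
      _ = Lo ^ 2 * l8lcT S C1 := by ring
  have b2 : ∀ b, ∑ l ∈ Bd b, N.mu l * N.eb l * N.al l ≤ Lo ^ 2 * l8lcG S := by
    intro b
    have hr : 0 < rr b := lt_of_lt_of_le S.Y_pos (H.rY b)
    have hz := S.z0_pos hr
    have h1 := l8lc_cs (Bd b) N.mu N.eb N.al (fun i _ => H.mu_nonneg i) (A := Lo * (rr b * (S.Y ^ 2 / rr b) ^ 2))
      (A' := Lo * (rr b * (S.z0 (rr b) * rr b) ^ 2)) (c := Lo * (rr b * (S.z0 (rr b) * rr b) * (S.Y ^ 2 / rr b)))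
      (H.e2 b) (H.a2 b) (by positivity) (le_of_eq (by ring))
    have h2 := l8lc_tied (S := S) (H.rY b) (H.r1 b) 0
    rw [pow_zero, mul_one] at h2
    have hG := l8lc_G_pos (S := S)
    calc ∑ l ∈ Bd b, N.mu l * N.eb l * N.al l = ∑ l ∈ Bd b, N.mu l * (N.eb l * N.al l) :=
          Finset.sum_congr rfl fun l _ => by ring
      _ ≤ Lo * (rr b * (S.z0 (rr b) * rr b) * (S.Y ^ 2 / rr b)) := h1
      _ ≤ Lo * l8lcG S := mul_le_mul_of_nonneg_left h2 hLo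
      _ ≤ Lo ^ 2 * l8lcG S := mul_le_mul_of_nonneg_right (by nlinarith [H.hLo]) hG.le
  have b3 : ∑ b, ∑ l ∈ Bd b, N.mu l * N.eb l * N.al l ≤ Fintype.card β * (Lo ^ 2 * l8lcG S) := by
    calc ∑ b, ∑ l ∈ Bd b, N.mu l * N.eb l * N.al l ≤ ∑ _b : β, Lo ^ 2 * l8lcG S := Finset.sum_le_sum fun b _ => b2 b
      _ = Fintype.card β * (Lo ^ 2 * l8lcG S) := by simp
  unfold L8lcN.a1
  calc _ ≤ _ := hs
    _ ≤ Lo ^ 2 * l8lcT S S.s + Lo ^ 2 * l8lcT S C1 + Fintype.card β * (Lo ^ 2 * l8lcG S) := add_le_add (add_le_add b0 b1) b3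
    _ = _ := by ring

/-- B3 the plain alias integral, times `Y` -/
theorem l8lc_a0_le (h : L8lcOk S) (H : N.Ok S Lo C1 R0 R1 Bd rr) :
    S.Y * N.a0 ≤ Lo * (l8lcT S S.s + l8lcT S C1 + Fintype.card β * l8lcG S) := by
  have hLo : 0 ≤ Lo := by linarith [H.hLo]
  have hx := S.hx.le
  have hY := S.Y_pos.le
  have hs := l8lc_split H.le H.low H.high (fun l => N.mu l * N.al l) (fun l => mul_nonneg (H.mu_nonneg l) (H.al_nonneg l))
  have b0 : S.Y * ∑ l ∈ R0, N.mu l * N.al l ≤ Lo * l8lcT S S.s := by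
    have h1 := l8lc_sum_mul_le R0 N.mu N.al (fun l _ => H.mu_nonneg l) (c := Lo * S.Y) H.r0 (by positivity) H.m0
    calc S.Y * ∑ l ∈ R0, N.mu l * N.al l ≤ S.Y * (S.x * (Lo * S.Y)) := mul_le_mul_of_nonneg_left h1 hY
      _ = Lo * (S.x * S.Y ^ 2) := by ring
      _ = Lo * l8lcT S S.s := by rw [l8lc_low_tied]
  have b2 : ∀ b, S.Y * ∑ l ∈ Bd b, N.mu l * N.al l ≤ Lo * l8lcG S := by
    intro b
    have hr : 0 < rr b := lt_of_lt_of_le S.Y_pos (H.rY b)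
    have hG := l8lc_G_pos (S := S)
    have e : rr b * (S.z0 (rr b) * rr b) = l8lcG S / rr b := by rw [← l8lc_z0_sq hr]; ring
    have h3 : S.Y / rr b ≤ 1 := (div_le_one hr).2 (H.rY b)
    calc S.Y * ∑ l ∈ Bd b, N.mu l * N.al l ≤ S.Y * (Lo * (rr b * (S.z0 (rr b) * rr b))) :=
          mul_le_mul_of_nonneg_left (l8lc_band_al H b) hY
      _ = Lo * l8lcG S * (S.Y / rr b) := by rw [e]; ring
      _ ≤ Lo * l8lcG S * 1 := mul_le_mul_of_nonneg_left h3 (by positivity)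
      _ = Lo * l8lcG S := mul_one _
  have b3 : S.Y * ∑ b, ∑ l ∈ Bd b, N.mu l * N.al l ≤ Fintype.card β * (Lo * l8lcG S) := by
    rw [Finset.mul_sum]
    calc ∑ b, S.Y * ∑ l ∈ Bd b, N.mu l * N.al l ≤ ∑ _b : β, Lo * l8lcG S := Finset.sum_le_sum fun b _ => b2 b
      _ = Fintype.card β * (Lo * l8lcG S) := by simp
  unfold L8lcN.a0
  calc S.Y * ∑ l ∈ range N.ti, N.mu l * N.al l
      ≤ S.Y * (∑ l ∈ R0, N.mu l * N.al l + ∑ l ∈ R1, N.mu l * N.al l + ∑ b, ∑ l ∈ Bd b, N.mu l * N.al l) :=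
        mul_le_mul_of_nonneg_left hs hY
    _ = S.Y * ∑ l ∈ R0, N.mu l * N.al l + S.Y * ∑ l ∈ R1, N.mu l * N.al l + S.Y * ∑ b, ∑ l ∈ Bd b, N.mu l * N.al l := by ring
    _ ≤ Lo * l8lcT S S.s + Lo * l8lcT S C1 + Fintype.card β * (Lo * l8lcG S) := add_le_add (add_le_add b0 H.d9) b3
    _ = _ := by ring

/-- B4 the integrated envelope `∫_{v < V_i} e dv ≲ Y²` (LL 08 l.1396, l.1431-1433) -/
theorem l8lc_E1_le (h : L8lcOk S) (H : N.Ok S Lo C1 R0 R1 Bd rr) :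
    N.E1 ≤ Lo ^ 2 * (2 + Fintype.card β) * S.Y ^ 2 := by
  have hLo : 0 ≤ Lo := by linarith [H.hLo]
  have hLo2 : Lo ≤ Lo ^ 2 := by nlinarith [H.hLo]
  have hx := S.hx.le
  have hY := S.Y_pos.le
  have hs := l8lc_split H.le H.low H.high (fun l => N.mu l * N.eb l) (fun l => mul_nonneg (H.mu_nonneg l) (H.eb_nonneg l))
  have b0 : ∑ l ∈ R0, N.mu l * N.eb l ≤ Lo ^ 2 * S.Y ^ 2 := by
    have h1 := l8lc_sum_mul_le R0 N.mu N.eb (fun l _ => H.mu_nonneg l) (c := Lo * S.Y) H.e0 (by positivity) H.m0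
    have hxY := l8lc_x_le_Y h
    calc ∑ l ∈ R0, N.mu l * N.eb l ≤ S.x * (Lo * S.Y) := h1
      _ ≤ S.Y * (Lo * S.Y) := mul_le_mul_of_nonneg_right hxY (by positivity)
      _ = Lo * S.Y ^ 2 := by ring
      _ ≤ Lo ^ 2 * S.Y ^ 2 := mul_le_mul_of_nonneg_right hLo2 (by positivity)
  have b1 : ∑ l ∈ R1, N.mu l * N.eb l ≤ Lo ^ 2 * S.Y ^ 2 := by
    have h1 := l8lc_sum_mul_le R1 N.mu N.eb (fun l _ => H.mu_nonneg l) (c := Lo * S.Y) H.e1 (by positivity) H.m1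
    calc ∑ l ∈ R1, N.mu l * N.eb l ≤ Lo * S.Y * (Lo * S.Y) := h1
      _ = Lo ^ 2 * S.Y ^ 2 := by ring
  have b2 : ∀ b, ∑ l ∈ Bd b, N.mu l * N.eb l ≤ Lo ^ 2 * S.Y ^ 2 := by
    intro b
    have hr : 0 < rr b := lt_of_lt_of_le S.Y_pos (H.rY b)
    have h1 := l8lc_cs (Bd b) N.mu (fun _ => 1) N.eb (fun i _ => H.mu_nonneg i) (A := Lo * rr b)
      (A' := Lo * (rr b * (S.Y ^ 2 / rr b) ^ 2)) (c := Lo * (rr b * (S.Y ^ 2 / rr b)))
      (by simpa using H.mb b) (H.e2 b) (by positivity) (le_of_eq (by ring))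
    have e : rr b * (S.Y ^ 2 / rr b) = S.Y ^ 2 := by field_simp
    rw [e] at h1
    calc ∑ l ∈ Bd b, N.mu l * N.eb l = ∑ l ∈ Bd b, N.mu l * (1 * N.eb l) := by simp
      _ ≤ Lo * S.Y ^ 2 := h1
      _ ≤ Lo ^ 2 * S.Y ^ 2 := mul_le_mul_of_nonneg_right hLo2 (by positivity)
  have b3 : ∑ b, ∑ l ∈ Bd b, N.mu l * N.eb l ≤ Fintype.card β * (Lo ^ 2 * S.Y ^ 2) := by
    calc ∑ b, ∑ l ∈ Bd b, N.mu l * N.eb l ≤ ∑ _b : β, Lo ^ 2 * S.Y ^ 2 := Finset.sum_le_sum fun b _ => b2 b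
      _ = Fintype.card β * (Lo ^ 2 * S.Y ^ 2) := by simp
  unfold L8lcN.E1
  calc _ ≤ _ := hs
    _ ≤ Lo ^ 2 * S.Y ^ 2 + Lo ^ 2 * S.Y ^ 2 + Fintype.card β * (Lo ^ 2 * S.Y ^ 2) := add_le_add (add_le_add b0 b1) b3
    _ = _ := by ring

/-- B5 centred, SOLE: `∑ dv v² E W ≲ G²` per dyad -/
theorem l8lc_wv_le (H : N.Ok S Lo C1 R0 R1 Bd rr) : N.wv ≤ Fintype.card β * (Lo ^ 3 * l8lcG S ^ 2) := by
  have hLo : 0 ≤ Lo := by linarith [H.hLo]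
  have hs := l8lc_split_high H.high (fun l => N.mu l * N.vv l ^ 2 * N.ew l)
    (fun l => mul_nonneg (mul_nonneg (H.mu_nonneg l) (sq_nonneg _)) (H.ew_nonneg l))
  have b2 : ∀ b, ∑ l ∈ Bd b, N.mu l * N.vv l ^ 2 * N.ew l ≤ Lo ^ 3 * l8lcG S ^ 2 := by
    intro b
    have hr : 0 < rr b := lt_of_lt_of_le S.Y_pos (H.rY b)
    have h1 := l8lc_sum_mul_le (Bd b) (fun l => N.mu l * N.ew l) (fun l => N.vv l ^ 2)
      (fun l _ => mul_nonneg (H.mu_nonneg l) (H.ew_nonneg l)) (c := (Lo * rr b) ^ 2)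
      (fun l hl => pow_le_pow_left₀ (H.vv_nonneg l) (H.vb b l hl) 2) (by positivity) (H.w0 b)
    calc ∑ l ∈ Bd b, N.mu l * N.vv l ^ 2 * N.ew l = ∑ l ∈ Bd b, N.mu l * N.ew l * N.vv l ^ 2 :=
          Finset.sum_congr rfl fun l _ => by ring
      _ ≤ Lo * (rr b * (S.z0 (rr b) * rr b)) ^ 2 * (Lo * rr b) ^ 2 := h1
      _ = Lo ^ 3 * (rr b * rr b * (S.z0 (rr b) * rr b)) ^ 2 := by ring
      _ = Lo ^ 3 * l8lcG S ^ 2 := by rw [l8lc_sole hr]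
  unfold L8lcN.wv
  calc _ ≤ _ := hs
    _ ≤ ∑ _b : β, Lo ^ 3 * l8lcG S ^ 2 := Finset.sum_le_sum fun b _ => b2 b
    _ = _ := by simp

/-- B6 centred, TIED: `∑ dv e² E W ≲ G²` per dyad -/
theorem l8lc_w1_le (H : N.Ok S Lo C1 R0 R1 Bd rr) : N.w1 ≤ Fintype.card β * (Lo * l8lcG S ^ 2) := by
  have hLo : 0 ≤ Lo := by linarith [H.hLo]
  have hs := l8lc_split_high H.high (fun l => N.mu l * N.eb l ^ 2 * N.ew l)
    (fun l => mul_nonneg (mul_nonneg (H.mu_nonneg l) (sq_nonneg _)) (H.ew_nonneg l))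
  have b2 : ∀ b, ∑ l ∈ Bd b, N.mu l * N.eb l ^ 2 * N.ew l ≤ Lo * l8lcG S ^ 2 := by
    intro b
    have hr : 0 < rr b := lt_of_lt_of_le S.Y_pos (H.rY b)
    have hz := S.z0_pos hr
    have hY := S.Y_pos
    have h2 := l8lc_tied (S := S) (H.rY b) (H.r1 b) 0
    rw [pow_zero, mul_one] at h2
    exact (H.w1 b).trans (mul_le_mul_of_nonneg_left (pow_le_pow_left₀ (by positivity) h2 2) hLo)
  unfold L8lcN.w1
  calc _ ≤ _ := hs
    _ ≤ ∑ _b : β, Lo * l8lcG S ^ 2 := Finset.sum_le_sum fun b _ => b2 b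
    _ = _ := by simp

/-- B7 centred, DISTINCT: `Y² ∑ dv E W ≲ G²` per dyad -/
theorem l8lc_w0_le (H : N.Ok S Lo C1 R0 R1 Bd rr) : S.Y ^ 2 * N.w0 ≤ Fintype.card β * (Lo * l8lcG S ^ 2) := by
  have hLo : 0 ≤ Lo := by linarith [H.hLo]
  have hY := S.Y_pos
  have hs := l8lc_split_high H.high (fun l => N.mu l * N.ew l) (fun l => mul_nonneg (H.mu_nonneg l) (H.ew_nonneg l))
  have b2 : ∀ b, S.Y ^ 2 * ∑ l ∈ Bd b, N.mu l * N.ew l ≤ Lo * l8lcG S ^ 2 := by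
    intro b
    have hr : 0 < rr b := lt_of_lt_of_le S.Y_pos (H.rY b)
    have hG := l8lc_G_pos (S := S)
    have e : rr b * (S.z0 (rr b) * rr b) = l8lcG S / rr b := by rw [← l8lc_z0_sq hr]; ring
    have h3 : S.Y / rr b ≤ 1 := (div_le_one hr).2 (H.rY b)
    have h4 : (S.Y / rr b) ^ 2 ≤ 1 := pow_le_one₀ (by positivity) h3
    calc S.Y ^ 2 * ∑ l ∈ Bd b, N.mu l * N.ew l ≤ S.Y ^ 2 * (Lo * (rr b * (S.z0 (rr b) * rr b)) ^ 2) :=
          mul_le_mul_of_nonneg_left (H.w0 b) (by positivity)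
      _ = Lo * l8lcG S ^ 2 * (S.Y / rr b) ^ 2 := by rw [e]; ring
      _ ≤ Lo * l8lcG S ^ 2 * 1 := mul_le_mul_of_nonneg_left h4 (by positivity)
      _ = Lo * l8lcG S ^ 2 := mul_one _
  unfold L8lcN.w0
  calc S.Y ^ 2 * ∑ l ∈ Ico N.tY N.ti, N.mu l * N.ew l ≤ S.Y ^ 2 * ∑ b, ∑ l ∈ Bd b, N.mu l * N.ew l :=
        mul_le_mul_of_nonneg_left hs (by positivity)
    _ = ∑ b, S.Y ^ 2 * ∑ l ∈ Bd b, N.mu l * N.ew l := by rw [Finset.mul_sum]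
    _ ≤ ∑ _b : β, Lo * l8lcG S ^ 2 := Finset.sum_le_sum fun b _ => b2 b
    _ = _ := by simp

/-- the main term of the table -/
noncomputable def l8lcM (S : L13Scales) (Lo Cs : ℝ) (n : ℕ) : ℝ := Lo ^ 3 * (2 + n) ^ 2 * l8lcT S Cs

/-- B8: all the alias costs are `≤ M`.   (`T(s/2), T(s), T(C1), G ≤ T(Cs)`: `l8lc_T_mono`, `l8lc_G_le`; `a0 E1 = (Y a0)(E1/Y²) Y`, `Y ≤ 1`.) -/
theorem l8lc_alias_le (h : L8lcOk S) (H : N.Ok S Lo C1 R0 R1 Bd rr) {Cs : ℝ} (h1 : S.s ≤ Cs) (h2 : C1 ≤ Cs) (h3 : (1 + S.eta) / 2 ≤ Cs) :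
    N.a1 ≤ l8lcM S Lo Cs (Fintype.card β) ∧ N.av ≤ l8lcM S Lo Cs (Fintype.card β) ∧ N.a0 * N.E1 ≤ l8lcM S Lo Cs (Fintype.card β) := by
  have hLo1 := H.hLo
  have hLo : 0 ≤ Lo := by linarith
  set n : ℝ := (Fintype.card β : ℝ) with hn
  have hn0 : 0 ≤ n := Nat.cast_nonneg _
  set Ts := l8lcT S Cs with hTs
  have hTs0 : 0 < Ts := l8lc_T_pos Cs
  have t1 : l8lcT S S.s ≤ Ts := l8lc_T_mono h h1
  have t2 : l8lcT S C1 ≤ Ts := l8lc_T_mono h h2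
  have t3 : l8lcG S ≤ Ts := l8lc_G_le.trans (l8lc_T_mono h h3)
  have t4 : l8lcT S (S.s / 2) ≤ Ts := l8lc_T_mono h (by linarith [h.s_nonneg])
  have t5 : n * l8lcG S ≤ n * Ts := mul_le_mul_of_nonneg_left t3 hn0
  have hM : l8lcM S Lo Cs (Fintype.card β) = Lo ^ 3 * (2 + n) ^ 2 * Ts := rfl
  have k1 : Lo ^ 2 * ((2 + n) * Ts) ≤ Lo ^ 3 * (2 + n) ^ 2 * Ts := by
    have a1 : Lo ^ 2 ≤ Lo ^ 3 := by nlinarith [sq_nonneg Lo]
    have a2 : (2 + n) ≤ (2 + n) ^ 2 := by nlinarith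
    calc Lo ^ 2 * ((2 + n) * Ts) ≤ Lo ^ 3 * ((2 + n) ^ 2 * Ts) :=
          mul_le_mul a1 (mul_le_mul_of_nonneg_right a2 hTs0.le) (by positivity) (by positivity)
      _ = _ := by ring
  refine ⟨?_, ?_, ?_⟩
  · rw [hM]
    refine (l8lc_a1_le h H).trans (le_trans ?_ k1)
    exact mul_le_mul_of_nonneg_left (by nlinarith) (by positivity)
  · rw [hM]
    refine (l8lc_av_le h H).trans (le_trans ?_ k1)
    exact mul_le_mul_of_nonneg_left (by nlinarith) (by positivity)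
  · rw [hM]
    have ha0 : 0 ≤ N.a0 := Finset.sum_nonneg fun l _ => mul_nonneg (H.mu_nonneg l) (H.al_nonneg l)
    have hY := S.Y_pos
    have e1 := l8lc_E1_le h H
    have e0 := l8lc_a0_le h H
    have e2 : S.Y * N.a0 ≤ Lo * ((2 + n) * Ts) := e0.trans (mul_le_mul_of_nonneg_left (by nlinarith) hLo)
    calc N.a0 * N.E1 ≤ N.a0 * (Lo ^ 2 * (2 + n) * S.Y ^ 2) := mul_le_mul_of_nonneg_left e1 ha0
      _ = Lo ^ 2 * (2 + n) * (S.Y * (S.Y * N.a0)) := by ring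
      _ ≤ Lo ^ 2 * (2 + n) * (1 * (Lo * ((2 + n) * Ts))) := by
          apply mul_le_mul_of_nonneg_left _ (by positivity)
          exact mul_le_mul h.Y_le e2 (by positivity) zero_le_one
      _ = _ := by ring

/-- B9: all the centred costs are `≤ M` -/
theorem l8lc_cen_le (h : L8lcOk S) (H : N.Ok S Lo C1 R0 R1 Bd rr) {Cs : ℝ} (h3 : (1 + S.eta) / 2 ≤ Cs) :
    √N.w1 ≤ l8lcM S Lo Cs (Fintype.card β) ∧ √N.wv ≤ l8lcM S Lo Cs (Fintype.card β) ∧ √N.w0 * N.E1 ≤ l8lcM S Lo Cs (Fintype.card β) := by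
  have hLo1 := H.hLo
  have hLo : 0 ≤ Lo := by linarith
  set n : ℝ := (Fintype.card β : ℝ) with hn
  have hn0 : 0 ≤ n := Nat.cast_nonneg _
  set Ts := l8lcT S Cs with hTs
  have hTs0 : 0 < Ts := l8lc_T_pos Cs
  have hG := l8lc_G_pos (S := S)
  have t3 : l8lcG S ≤ Ts := l8lc_G_le.trans (l8lc_T_mono h h3)
  have hM : l8lcM S Lo Cs (Fintype.card β) = Lo ^ 3 * (2 + n) ^ 2 * Ts := rfl
  have hn2 : n ≤ (2 + n) ^ 2 := by nlinarith
  have hLo2 : Lo ≤ Lo ^ 2 := by nlinarith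
  have hLo3 : Lo ^ 2 ≤ Lo ^ 3 := by nlinarith [sq_nonneg Lo]
  have hLo4 : Lo ^ 3 ≤ Lo ^ 4 := by nlinarith [pow_nonneg hLo 3]
  have hn1 : (2 + n) ≤ (2 + n) ^ 2 := by nlinarith
  -- the two elementary majorants
  have m1 : (2 + n) * Lo * l8lcG S ≤ Lo ^ 3 * (2 + n) ^ 2 * Ts := by
    calc (2 + n) * Lo * l8lcG S = Lo * ((2 + n) * l8lcG S) := by ring
      _ ≤ Lo ^ 3 * ((2 + n) ^ 2 * Ts) :=
          mul_le_mul (hLo2.trans hLo3) (mul_le_mul hn1 t3 hG.le (by positivity)) (by positivity) (by positivity)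
      _ = _ := by ring
  have m2 : (2 + n) * Lo ^ 2 * l8lcG S ≤ Lo ^ 3 * (2 + n) ^ 2 * Ts := by
    calc (2 + n) * Lo ^ 2 * l8lcG S = Lo ^ 2 * ((2 + n) * l8lcG S) := by ring
      _ ≤ Lo ^ 3 * ((2 + n) ^ 2 * Ts) :=
          mul_le_mul hLo3 (mul_le_mul hn1 t3 hG.le (by positivity)) (by positivity) (by positivity)
      _ = _ := by ring
  have q1 : n * (Lo * l8lcG S ^ 2) ≤ ((2 + n) * Lo * l8lcG S) ^ 2 := by
    calc n * (Lo * l8lcG S ^ 2) = (n * Lo) * l8lcG S ^ 2 := by ring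
      _ ≤ ((2 + n) ^ 2 * Lo ^ 2) * l8lcG S ^ 2 :=
          mul_le_mul_of_nonneg_right (mul_le_mul hn2 hLo2 hLo (by positivity)) (by positivity)
      _ = _ := by ring
  refine ⟨?_, ?_, ?_⟩
  · rw [hM]
    refine le_trans (Real.sqrt_le_iff.2 ⟨by positivity, (l8lc_w1_le H).trans q1⟩) m1
  · rw [hM]
    have q2 : n * (Lo ^ 3 * l8lcG S ^ 2) ≤ ((2 + n) * Lo ^ 2 * l8lcG S) ^ 2 := by
      calc n * (Lo ^ 3 * l8lcG S ^ 2) = (n * Lo ^ 3) * l8lcG S ^ 2 := by ring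
        _ ≤ ((2 + n) ^ 2 * Lo ^ 4) * l8lcG S ^ 2 :=
            mul_le_mul_of_nonneg_right (mul_le_mul hn2 hLo4 (by positivity) (by positivity)) (by positivity)
        _ = _ := by ring
    refine le_trans (Real.sqrt_le_iff.2 ⟨by positivity, (l8lc_wv_le H).trans q2⟩) m2
  · rw [hM]
    have hY := S.Y_pos
    have hw0 : 0 ≤ N.w0 := Finset.sum_nonneg fun l _ => mul_nonneg (H.mu_nonneg l) (H.ew_nonneg l)
    have e1 := l8lc_E1_le h H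
    have e3 : S.Y * √N.w0 ≤ (2 + n) * Lo * l8lcG S := by
      have : S.Y * √N.w0 = √(S.Y ^ 2 * N.w0) := by
        rw [Real.sqrt_mul (by positivity), Real.sqrt_sq hY.le]
      rw [this]
      exact Real.sqrt_le_iff.2 ⟨by positivity, (l8lc_w0_le H).trans q1⟩
    calc √N.w0 * N.E1 ≤ √N.w0 * (Lo ^ 2 * (2 + n) * S.Y ^ 2) := mul_le_mul_of_nonneg_left e1 (Real.sqrt_nonneg _)
      _ = Lo ^ 2 * (2 + n) * (S.Y * (S.Y * √N.w0)) := by ring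
      _ ≤ Lo ^ 2 * (2 + n) * (1 * ((2 + n) * Lo * l8lcG S)) := by
          apply mul_le_mul_of_nonneg_left _ (by positivity)
          exact mul_le_mul h.Y_le e3 (by positivity) zero_le_one
      _ = Lo ^ 3 * (2 + n) ^ 2 * l8lcG S := by ring
      _ ≤ _ := mul_le_mul_of_nonneg_left t3 (by positivity)

/-- **THE TABLE**: the gain of the abstract lemma is `≲ x³ λ^(-C) Z²` up to the tails -/
theorem l8lc_num_gain (h : L8lcOk S) (H : N.Ok S Lo C1 R0 R1 Bd rr) {Cs : ℝ} (h1 : S.s ≤ Cs) (h2 : C1 ≤ Cs) (h3 : (1 + S.eta) / 2 ≤ Cs)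
    {cP a eta : ℝ} (hcP : 0 ≤ cP) (ha : 0 ≤ a) (heta : 0 ≤ eta) {d : ℕ} (hd : 1 ≤ d) :
    max (N.a1 + N.c1 cP d a eta) (max (N.av + N.cv cP) ((N.a0 + N.c0 cP) * N.E1))
      ≤ (2 + d + 2 * (d : ℝ) ^ 2 * √cP) * l8lcM S Lo Cs (Fintype.card β)
        + (2 * (d : ℝ) ^ 2 * 4 ^ d * √(cP * a * N.ms) + 3 * 4 ^ d * N.ms) * √eta := by
  obtain ⟨A1, A2, A3⟩ := l8lc_alias_le h H h1 h2 h3
  obtain ⟨B1, B2, B3⟩ := l8lc_cen_le h H (Cs := Cs) h3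
  set M := l8lcM S Lo Cs (Fintype.card β) with hM
  have hms : 0 ≤ N.ms := Finset.sum_nonneg fun l _ => H.mu_nonneg l
  have hw1 : 0 ≤ N.w1 := Finset.sum_nonneg fun l _ => mul_nonneg (mul_nonneg (H.mu_nonneg l) (sq_nonneg _)) (H.ew_nonneg l)
  have hM0 : 0 ≤ M := le_trans (Real.sqrt_nonneg _) B1
  have hd1 : (1 : ℝ) ≤ d := by exact_mod_cast hd
  have hsc := Real.sqrt_nonneg cP
  have hse := Real.sqrt_nonneg eta
  have htail : 0 ≤ (2 * (d : ℝ) ^ 2 * 4 ^ d * √(cP * a * N.ms) + 3 * 4 ^ d * N.ms) * √eta := by positivity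
  have hd2 : (1 : ℝ) ≤ (d : ℝ) ^ 2 := by nlinarith
  have hscM : 0 ≤ √cP * M := mul_nonneg hsc hM0
  have hdM : M ≤ d * M := by nlinarith
  have hd2M : √cP * M ≤ (d : ℝ) ^ 2 * (√cP * M) := by nlinarith
  refine max_le ?_ (max_le ?_ ?_)
  · -- tied
    have s1 : √(cP * (N.w1 + 4 ^ (2 * d) * a * eta * N.ms)) ≤ √cP * M + 4 ^ d * √(cP * a * N.ms) * √eta := by
      have e : cP * (N.w1 + 4 ^ (2 * d) * a * eta * N.ms) = cP * N.w1 + (4 ^ d) ^ 2 * ((cP * a * N.ms) * eta) := by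
        rw [pow_mul']; ring
      rw [e]
      refine (l8lc_sqrt_add_le (by positivity) (by positivity)).trans ?_
      rw [Real.sqrt_mul hcP, Real.sqrt_mul (by positivity), Real.sqrt_sq (by positivity), Real.sqrt_mul (by positivity)]
      have := mul_le_mul_of_nonneg_left B1 hsc
      linarith
    have s2 : 2 * (d : ℝ) ^ 2 * √(cP * (N.w1 + 4 ^ (2 * d) * a * eta * N.ms))
        ≤ 2 * (d : ℝ) ^ 2 * (√cP * M + 4 ^ d * √(cP * a * N.ms) * √eta) := mul_le_mul_of_nonneg_left s1 (by positivity)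
    have s3 : (d : ℝ) * N.a1 ≤ d * M := mul_le_mul_of_nonneg_left A1 (by positivity)
    unfold L8lcN.c1
    nlinarith
  · have s1 : √(cP * N.wv) ≤ √cP * M := by
      rw [Real.sqrt_mul hcP]
      exact mul_le_mul_of_nonneg_left B2 hsc
    unfold L8lcN.cv
    nlinarith
  · have s1 : √(cP * N.w0) * N.E1 ≤ √cP * M := by
      rw [Real.sqrt_mul hcP, mul_assoc]
      exact mul_le_mul_of_nonneg_left B3 hsc
    unfold L8lcN.c0
    nlinarith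

end table

/-! ## 3. The instance -/

/-- the data of the instance -/
structure L8lcD where
  /-- the levels `< tY` are treated by raw bounds (`v ≲ Y`) -/
  tY : ℕ
  /-- the levels `< ti` are low -/
  ti : ℕ
  /-- level of the retained pair -/
  t0 : ℕ
  /-- projection cuts of the retained pair (`n + 1` = terminal leaf) -/
  p1 : ℕ
  p2 : ℕ
  /-- projection cuts of the factor `s` when its pair separates at the level `l` -/
  k1 : ℕ → ℕ → ℕ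
  k2 : ℕ → ℕ → ℕ
  /-- truncation envelope (`x^(-ε) e`) -/
  eb : ℕ → ℝ
  /-- tail probability -/
  eta : ℝ
  /-- maximal degree -/
  dmax : ℕ
  /-- the constant of (A2) -/
  cP : ℝ

namespace L8P
variable {Ω : Type} [mΩ : MeasurableSpace Ω] {m : ℕ} (P : L8P Ω m) (D : L8lcD)

/-- the second norm of the replacement of a stochastic factor by the ancestor value -/
noncomputable def l8lcAl (l : ℕ) : ℝ :=
  if l < D.tY then √(P.D2 l) else √(4 * ∫ ω, P.xCx l ω ∂P.μ + ∫ ω, P.trC2 l ω ∂P.μ)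

/-- the level data of the table -/
noncomputable def l8lcN : L8lcN where
  tY := D.tY
  ti := D.ti
  mu := P.dv
  vv := fun l => P.v l / P.a
  eb := D.eb
  al := P.l8lcAl D
  ew := fun l => ∫ ω, P.W l ω ∂P.μ

/-- the centred ancestor value -/
noncomputable def l8lcXi (l : ℕ) (ω : Ω) : ℝ := if l < D.tY then 0 else P.nX l ω - P.S l

/-- **the inputs of the abstract low sources lemma** -/
noncomputable def l8lcIn : L8LIn Ω where
  t0 := D.t0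
  ti := D.ti
  P0 := fun p => P.QX D.p1 D.p2 p - P.S D.t0
  Xi := P.l8lcXi D
  fac := fun s l p => P.QX (D.k1 s l) (D.k2 s l) p - P.S l
  mu := P.dv
  vv := fun l => P.v l / P.a
  eb := D.eb
  al := P.l8lcAl D
  Dab := √(∫ p, (P.QX D.p1 D.p2 p - P.S D.t0) ^ 2 ∂P.fork D.t0)
  eta := D.eta
  dmax := D.dmax
  a0 := (P.l8lcN D).a0
  a1 := (P.l8lcN D).a1
  av := (P.l8lcN D).av
  c0 := (P.l8lcN D).c0 D.cP
  c1 := (P.l8lcN D).c1 D.cP D.dmax P.a D.eta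
  cv := (P.l8lcN D).cv D.cP
  E1 := (P.l8lcN D).E1

end L8P

/-- **the hypotheses of the instance**: order of the levels, (A2), and the consequences `tail*`, `mean` of the fixed moments (D2) (see `l8lc_ok_of_mom`) -/
structure L8lcD.Ok {Ω : Type} [MeasurableSpace Ω] {m : ℕ} (D : L8lcD) (P : L8P Ω m) : Prop where
  le1 : D.tY ≤ D.ti
  le2 : D.ti ≤ D.t0
  le3 : D.ti ≤ P.n + 1
  hp1 : D.t0 ≤ D.p1
  hp2 : D.t0 ≤ D.p2
  hk1 : ∀ s l, l ≤ D.k1 s l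
  hk2 : ∀ s l, l ≤ D.k2 s l
  eb_nonneg : ∀ l, 0 ≤ D.eb l
  eb_le : ∀ l, D.eb l ≤ 1
  eta_nonneg : 0 ≤ D.eta
  cP_nonneg : 0 ≤ D.cP
  pin : P.Pin 1 D.cP
  tailX : ∀ l, D.tY ≤ l → l < D.ti → P.μ.real {ω | D.eb l < |P.nX l ω - P.S l|} ≤ D.eta
  tailL : ∀ l, D.tY ≤ l → l < D.ti → P.μ.real {ω | D.eb l < |P.l8cT l ω|} ≤ D.eta
  tailF : ∀ s l, l < D.ti → (P.fork l).real {p | D.eb l < |P.QX (D.k1 s l) (D.k2 s l) p - P.S l|} ≤ D.eta
  mean : ∀ p l, 1 ≤ p → p ≤ D.dmax → D.tY ≤ l → l < D.ti → |∫ ω, (P.nX l ω - P.S l) ^ p ∂P.μ| ≤ D.eb l ^ p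

theorem l8lc_inst_eqns_cite : True := by
  have := @l8lcM.eq_1
  have := @L8P.l8lcAl.eq_1
  have := @L8P.l8lcN.eq_1
  have := @L8P.l8lcXi.eq_1
  have := @L8P.l8lcIn.eq_1
  trivial

namespace L8P
variable {Ω : Type} [mΩ : MeasurableSpace Ω] {m : ℕ} (P : L8P Ω m) {D : L8lcD}

/-- C1: a projected pair is a bounded measurable function (Cauchy-Schwarz, `l8s_nX_le_one`) -/
theorem l8lc_QX_bd (h : P.Ok) (k₁ k₂ : ℕ) : Measurable (P.QX k₁ k₂) ∧ ∀ p, |P.QX k₁ k₂ p| ≤ 1 := by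
  refine ⟨?_, P.l8c_ver_abs_le_aux h k₁ k₂⟩
  unfold L8P.QX
  exact Finset.measurable_sum _ fun i _ =>
    ((P.l8s_X_bd h k₁ i).1.comp measurable_fst).mul ((P.l8s_X_bd h k₂ i).1.comp measurable_snd)

/-- C2: the mean of a projected pair (`l8s_fork_prod`, `l8s_X_mart`) -/
theorem l8lc_QX_mean (h : P.Ok) {k k₁ k₂ : ℕ} (h1 : k ≤ k₁) (h2 : k ≤ k₂) : ∫ p, P.QX k₁ k₂ p ∂(P.fork k) = P.S k := by
  have := h.prob
  unfold L8P.QX L8P.S L8P.nX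
  rw [integral_finsetSum _ fun i _ => P.l8s_fork_int2_aux h k (P.l8s_X_bd h k₁ i) (P.l8s_X_bd h k₂ i),
    integral_finsetSum _ fun i _ => ((P.l8s_X_bd h k i).pow 2).integrable _]
  refine Finset.sum_congr rfl fun i _ => ?_
  rw [P.l8s_fork_prod h k (P.l8s_X_bd h k₁ i) (P.l8s_X_bd h k₂ i)]
  exact integral_congr_ae (ae_of_all _ fun ω => by
    simp only [P.l8s_X_mart h h1 i ω, P.l8s_X_mart h h2 i ω]
    ring)

/-- C3: projection contracts the variance (`l8c_fork_contract` with `f = g = y`, `c = S k`; `l8s_fork_var_Q`) -/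
theorem l8lc_QX_var (h : P.Ok) {k k₁ k₂ : ℕ} (h1 : k ≤ k₁) (h2 : k ≤ k₂) :
    ∫ p, (P.QX k₁ k₂ p - P.S k) ^ 2 ∂(P.fork k) ≤ P.D2 k := by
  have key := P.l8c_fork_contract h h1 h2 Finset.univ P.y P.y (fun i _ => P.l8s_y_bd h i) (fun i _ => P.l8s_y_bd h i)
    (c := fun _ => P.S k) measurable_const (l8Bd_const _)
  rw [← P.l8s_fork_var_Q h k]
  exact key

theorem l8lc_D2_nonneg (h : P.Ok) (k : ℕ) : 0 ≤ P.D2 k := by
  rw [← P.l8s_fork_var_Q h k]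
  exact integral_nonneg fun p => sq_nonneg _

theorem l8lc_Xi_meas (h : P.Ok) (D : L8lcD) (l : ℕ) : Measurable (P.l8lcXi D l) := by
  unfold L8P.l8lcXi
  split_ifs
  · exact measurable_const
  · exact (P.l8s_nX_bd_aux h l).1.sub_const _

theorem l8lc_Xi_bd (h : P.Ok) (D : L8lcD) (l : ℕ) (ω : Ω) : |P.l8lcXi D l ω| ≤ 1 := by
  unfold L8P.l8lcXi
  split_ifs
  · simp
  · rw [abs_le]
    constructor <;>
      linarith [P.l8c_nX_nonneg l ω, P.l8s_nX_le_one h l ω, P.l8s_S_nonneg l, P.l8s_S_le_one h l]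

/-- C4: the ancestor value is a function of the common prefix (`l8s_fork_prefix`, `l8s_nX_meas_aux`, `P.ℱ.mono`) -/
theorem l8lc_share (h : P.Ok) (D : L8lcD) {l t : ℕ} (hlt : l ≤ t) : ∀ᵐ p ∂P.fork t, P.l8lcXi D l p.1 = P.l8lcXi D l p.2 := by
  refine P.l8s_fork_prefix h t ?_
  unfold L8P.l8lcXi
  split_ifs
  · exact measurable_const
  · exact ((P.l8s_nX_meas_aux h l).mono (P.ℱ.mono hlt) le_rfl).sub_const _

theorem l8lc_al_nonneg (D : L8lcD) (l : ℕ) : 0 ≤ P.l8lcAl D l := by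
  unfold L8P.l8lcAl
  split_ifs <;> exact Real.sqrt_nonneg _

/-- C5: the alias cost (`l < tY`: C3;  `tY ≤ l`: `l8c_alias_proj`, `l8c_xCx_nonneg`, `l8c_trC2_nonneg`) -/
theorem l8lc_ali (h : P.Ok) (hD : D.Ok P) (s l : ℕ) :
    ∫ p, (P.QX (D.k1 s l) (D.k2 s l) p - P.S l - P.l8lcXi D l p.1) ^ 2 ∂P.fork l ≤ P.l8lcAl D l ^ 2 := by
  unfold L8P.l8lcAl L8P.l8lcXi
  have hx := P.l8c_xCx_nonneg h l
  have ht := P.l8c_trC2_nonneg l
  split_ifs with hl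
  · rw [Real.sq_sqrt (P.l8lc_D2_nonneg h l)]
    simp only [sub_zero]
    exact P.l8lc_QX_var h (hD.hk1 s l) (hD.hk2 s l)
  · rw [Real.sq_sqrt (by linarith)]
    have e : ∀ p : Ω × Ω, P.QX (D.k1 s l) (D.k2 s l) p - P.S l - (P.nX l p.1 - P.S l) = P.QX (D.k1 s l) (D.k2 s l) p - P.nX l p.1 :=
      fun p => by ring
    simp only [e]
    linarith [P.l8c_alias_proj h (hD.hk1 s l) (hD.hk2 s l)]

/-- C6: the `2 L` alias is dominated by `al` above `tY` (`l8s_alias_L`) -/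
theorem l8lc_alias_L (h : P.Ok) {l : ℕ} (hl : D.tY ≤ l) : ∫ ω, (P.l8cT l ω - (P.nX l ω - P.S l)) ^ 2 ∂P.μ ≤ P.l8lcAl D l ^ 2 := by
  unfold L8P.l8lcAl
  have hx := P.l8c_xCx_nonneg h l
  have ht := P.l8c_trC2_nonneg l
  rw [if_neg (not_lt.2 hl), Real.sq_sqrt (by linarith)]
  have e : ∀ ω, P.l8cT l ω - (P.nX l ω - P.S l) = 2 * P.L l ω - P.nX l ω := fun ω => by
    unfold L8P.l8cT
    ring
  simp only [e]
  rw [P.l8s_alias_L h l]
  linarith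

/-- C7: WEIGHTED linear centred bound = (A2) for `P_k = X` (copy of the proof of `l8c_linear`, from `l8c_pin_shift`) -/
theorem l8lc_lin (h : P.Ok) {c0 : ℝ} (hc0 : 0 ≤ c0) (hp : P.Pin 1 c0) {K : Finset ℕ} (hK : K ⊆ range (P.n + 1)) (κ : ℕ → ℝ) :
    ∫ ω, (∑ k ∈ K, P.dv k * κ k * P.l8cT k ω) ^ 2 ∂P.μ ≤ 4 * c0 * ∑ k ∈ K, P.dv k * κ k ^ 2 * ∫ ω, P.W k ω ∂P.μ := by
  classical
  have := h.prob
  have h1 := P.l8c_pin_shift hp (fun k => if k ∈ K then κ k else 0) (fun _ => Polynomial.X)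
  have e1 : ∀ ω, ∑ k ∈ range (P.n + 1), P.dv k * (if k ∈ K then κ k else 0) *
        ((Polynomial.X : Polynomial ℝ).eval (P.l8cT k ω) - ∫ ω', (Polynomial.X : Polynomial ℝ).eval (P.l8cT k ω') ∂P.μ)
      = ∑ k ∈ K, P.dv k * κ k * P.l8cT k ω := by
    intro ω
    rw [← Finset.sum_subset hK (fun k _ hk => by simp [hk])]
    exact Finset.sum_congr rfl fun k hk => by simp [hk, P.l8c_T_mean h k]
  have e2 : ∀ ω, ∑ k ∈ range (P.n + 1), P.dv k * (if k ∈ K then κ k else 0) ^ 2 *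
        (2 * (Polynomial.X : Polynomial ℝ).derivative.eval (P.l8cT k ω)) ^ 2 * P.W k ω
      = ∑ k ∈ K, P.dv k * κ k ^ 2 * 4 * P.W k ω := by
    intro ω
    rw [← Finset.sum_subset hK (fun k _ hk => by simp [hk])]
    exact Finset.sum_congr rfl fun k hk => by simp [hk]; norm_num
  simp only [e1, e2, mul_one, pow_one] at h1
  refine h1.trans (le_of_eq ?_)
  rw [integral_finsetSum _ fun k _ => (P.l8c_W_int h k).const_mul _, Finset.mul_sum, Finset.mul_sum]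
  refine Finset.sum_congr rfl fun k _ => ?_
  rw [integral_const_mul]
  ring

/-- the centred sum of the instance lives on the levels `tY ≤ l < ti` -/
theorem l8lc_cs_eq (h : P.Ok) (hD : D.Ok P) {T : L8L Ω} (hμ : T.μ = P.μ) {p : ℕ} (hp : 1 ≤ p) (κ : ℕ → ℝ) (ω : Ω) :
    (P.l8lcIn D).cs T p κ ω
      = ∑ l ∈ Ico D.tY D.ti, κ l * ((P.nX l ω - P.S l) ^ p - ∫ ω', (P.nX l ω' - P.S l) ^ p ∂P.μ) := by
  have hp0 : p ≠ 0 := by omega
  show ∑ l ∈ range D.ti, κ l * (P.l8lcXi D l ω ^ p - ∫ ω', P.l8lcXi D l ω' ^ p ∂T.μ) = _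
  rw [hμ, Finset.range_eq_Ico, ← Finset.sum_Ico_consecutive _ (Nat.zero_le _) hD.le1]
  have z : ∑ l ∈ Ico 0 D.tY, κ l * (P.l8lcXi D l ω ^ p - ∫ ω', P.l8lcXi D l ω' ^ p ∂P.μ) = 0 := by
    refine Finset.sum_eq_zero fun l hl => ?_
    have hl' : l < D.tY := (Finset.mem_Ico.1 hl).2
    simp [L8P.l8lcXi, hl', hp0]
  rw [z, zero_add]
  refine Finset.sum_congr rfl fun l hl => ?_
  have hl' : ¬ l < D.tY := not_lt.2 (Finset.mem_Ico.1 hl).1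
  simp only [L8P.l8lcXi, hl', if_false]

/-- Minkowski for second moments (`l8c_mink`, `r = 1`) -/
theorem l8lc_h_mink {α : Type} [MeasurableSpace α] (ν : Measure α) [IsFiniteMeasure ν] {ι : Type} (s : Finset ι) (F : ι → α → ℝ)
    (B : ι → ℝ) (hF : ∀ i ∈ s, L8Bd (F i)) (hB0 : ∀ i ∈ s, 0 ≤ B i) (hB : ∀ i ∈ s, ∫ x, F i x ^ 2 ∂ν ≤ B i ^ 2) :
    ∫ x, (∑ i ∈ s, F i x) ^ 2 ∂ν ≤ (∑ i ∈ s, B i) ^ 2 := by
  simpa only [mul_one] using l8c_mink ν s F B 1 le_rfl (fun i hi => (hF i hi).1) (fun i hi => (hF i hi).2) hB0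
    (by simpa only [mul_one] using hB)

theorem l8lc_h_mink2 {α : Type} [MeasurableSpace α] (ν : Measure α) [IsFiniteMeasure ν] {F G : α → ℝ} {A B : ℝ}
    (hF : L8Bd F) (hG : L8Bd G) (hA : 0 ≤ A) (hB : 0 ≤ B) (h1 : ∫ x, F x ^ 2 ∂ν ≤ A ^ 2) (h2 : ∫ x, G x ^ 2 ∂ν ≤ B ^ 2) :
    ∫ x, (F x + G x) ^ 2 ∂ν ≤ (A + B) ^ 2 := by
  simpa only [mul_one] using l8c_mink2 ν 1 le_rfl hF.1 hG.1 hF.2 hG.2 hA hB (by simpa only [mul_one] using h1)
    (by simpa only [mul_one] using h2)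

/-- weights dominated by `dv l * g l` are `dv l * κ' l` with `κ' l ^ 2 ≤ g l ^ 2` -/
theorem l8lc_h_wt (h : P.Ok) (g : ℕ → ℝ) (κ : ℕ → ℝ) (hκ : ∀ l, |κ l| ≤ P.dv l * g l) (l : ℕ) :
    κ l = P.dv l * (κ l / P.dv l) ∧ |κ l / P.dv l| ≤ |g l| := by
  have hdv := P.l8c_dv_nonneg h l
  by_cases h0 : P.dv l = 0
  · have h1 := hκ l
    rw [h0, zero_mul] at h1
    have h2 : κ l = 0 := abs_nonpos_iff.1 h1
    rw [h2, h0]
    simp
  · have hpos : 0 < P.dv l := lt_of_le_of_ne hdv (Ne.symm h0)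
    refine ⟨by field_simp, ?_⟩
    rw [abs_div, abs_of_pos hpos, div_le_iff₀ hpos]
    calc |κ l| ≤ P.dv l * g l := hκ l
      _ ≤ P.dv l * |g l| := mul_le_mul_of_nonneg_left (le_abs_self _) hdv
      _ = |g l| * P.dv l := mul_comm _ _

theorem l8lc_h_xi_bd (h : P.Ok) (l : ℕ) : L8Bd (fun ω => P.nX l ω - P.S l) :=
  (P.l8s_nX_bd_aux h l).sub (l8Bd_const _)

theorem l8lc_h_xi_le (h : P.Ok) (l : ℕ) (ω : Ω) : |P.nX l ω - P.S l| ≤ 1 := by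
  rw [abs_le]
  constructor <;>
    linarith [P.l8c_nX_nonneg l ω, P.l8s_nX_le_one h l ω, P.l8s_S_nonneg l, P.l8s_S_le_one h l]

/-- C8: **linear centred sums in `Xi`-form**, weights `|κ l| ≤ dv l * g l`:  `Xi = (2L - S) - (2L - |X|²)`; first part: C7 with `κ/dv`; second part: Minkowski (`l8c_mink`, `r = 1`) + C6 -/
theorem l8lc_cen_lin (h : P.Ok) (hD : D.Ok P) (g : ℕ → ℝ) (hg : ∀ l, 0 ≤ g l) (κ : ℕ → ℝ) (hκ : ∀ l, |κ l| ≤ P.dv l * g l) :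
    ∫ ω, (∑ l ∈ Ico D.tY D.ti, κ l * (P.nX l ω - P.S l)) ^ 2 ∂P.μ
      ≤ (2 * √(D.cP * ∑ l ∈ Ico D.tY D.ti, P.dv l * g l ^ 2 * ∫ ω, P.W l ω ∂P.μ)
          + ∑ l ∈ Ico D.tY D.ti, P.dv l * g l * P.l8lcAl D l) ^ 2 := by
  have := h.prob
  have hK : Ico D.tY D.ti ⊆ range (P.n + 1) :=
    fun l hl => Finset.mem_range.2 (lt_of_lt_of_le (Finset.mem_Ico.1 hl).2 hD.le3)
  have hdv := P.l8c_dv_nonneg h
  have hW0 : ∀ l, 0 ≤ ∫ ω, P.W l ω ∂P.μ := fun l => integral_nonneg fun ω => P.l8s_W_nonneg h l ω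
  have hs0 : 0 ≤ ∑ l ∈ Ico D.tY D.ti, P.dv l * g l ^ 2 * ∫ ω, P.W l ω ∂P.μ :=
    Finset.sum_nonneg fun l _ => mul_nonneg (mul_nonneg (hdv l) (sq_nonneg _)) (hW0 l)
  have hA : ∫ ω, (∑ l ∈ Ico D.tY D.ti, κ l * P.l8cT l ω) ^ 2 ∂P.μ
      ≤ (2 * √(D.cP * ∑ l ∈ Ico D.tY D.ti, P.dv l * g l ^ 2 * ∫ ω, P.W l ω ∂P.μ)) ^ 2 := by
    have h1 := P.l8lc_lin h hD.cP_nonneg hD.pin hK (fun l => κ l / P.dv l)
    have e : ∀ ω, ∑ l ∈ Ico D.tY D.ti, P.dv l * (κ l / P.dv l) * P.l8cT l ω = ∑ l ∈ Ico D.tY D.ti, κ l * P.l8cT l ω :=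
      fun ω => Finset.sum_congr rfl fun l _ => by rw [← (P.l8lc_h_wt h g κ hκ l).1]
    simp only [e] at h1
    refine h1.trans ?_
    rw [mul_pow, Real.sq_sqrt (mul_nonneg hD.cP_nonneg hs0)]
    have h2 : ∑ l ∈ Ico D.tY D.ti, P.dv l * (κ l / P.dv l) ^ 2 * ∫ ω, P.W l ω ∂P.μ
        ≤ ∑ l ∈ Ico D.tY D.ti, P.dv l * g l ^ 2 * ∫ ω, P.W l ω ∂P.μ := by
      refine Finset.sum_le_sum fun l _ => ?_
      refine mul_le_mul_of_nonneg_right (mul_le_mul_of_nonneg_left ?_ (hdv l)) (hW0 l)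
      exact sq_le_sq.2 (P.l8lc_h_wt h g κ hκ l).2
    have h3 := mul_le_mul_of_nonneg_left h2 hD.cP_nonneg
    linarith
  have hB : ∫ ω, (∑ l ∈ Ico D.tY D.ti, κ l * ((P.nX l ω - P.S l) - P.l8cT l ω)) ^ 2 ∂P.μ
      ≤ (∑ l ∈ Ico D.tY D.ti, P.dv l * g l * P.l8lcAl D l) ^ 2 := by
    refine l8lc_h_mink P.μ _ _ _ (fun l _ => ((P.l8lc_h_xi_bd h l).sub (P.l8c_T_bd h l)).const_mul _)
      (fun l _ => mul_nonneg (mul_nonneg (hdv l) (hg l)) (P.l8lc_al_nonneg D l)) (fun l hl => ?_)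
    simp only [mul_pow]
    rw [integral_const_mul]
    have h1 := P.l8lc_alias_L (D := D) h (Finset.mem_Ico.1 hl).1
    have e : ∀ ω, (P.nX l ω - P.S l - P.l8cT l ω) ^ 2 = (P.l8cT l ω - (P.nX l ω - P.S l)) ^ 2 := fun ω => by ring
    simp only [e]
    have h2 : κ l ^ 2 ≤ P.dv l ^ 2 * g l ^ 2 := by
      rw [← mul_pow, ← sq_abs]
      exact pow_le_pow_left₀ (abs_nonneg _) (hκ l) 2
    exact mul_le_mul h2 h1 (integral_nonneg fun ω => sq_nonneg _) (by positivity)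
  have e : ∀ ω, ∑ l ∈ Ico D.tY D.ti, κ l * (P.nX l ω - P.S l)
      = ∑ l ∈ Ico D.tY D.ti, κ l * P.l8cT l ω + ∑ l ∈ Ico D.tY D.ti, κ l * ((P.nX l ω - P.S l) - P.l8cT l ω) := by
    intro ω
    rw [← Finset.sum_add_distrib]
    exact Finset.sum_congr rfl fun l _ => by ring
  simp only [e]
  exact l8lc_h_mink2 P.μ (L8Bd.sum _ fun l _ => (P.l8c_T_bd h l).const_mul _)
    (L8Bd.sum _ fun l _ => ((P.l8lc_h_xi_bd h l).sub (P.l8c_T_bd h l)).const_mul _)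
    (mul_nonneg (by norm_num) (Real.sqrt_nonneg _))
    (Finset.sum_nonneg fun l _ => mul_nonneg (mul_nonneg (hdv l) (hg l)) (P.l8lc_al_nonneg D l)) hA hB

/-- `|a^p - b^p| ≤ p M^(p-1) |a - b|` -/
theorem l8lc_h_pow_sub {a b M : ℝ} (ha : |a| ≤ M) (hb : |b| ≤ M) (p : ℕ) : |a ^ p - b ^ p| ≤ p * M ^ (p - 1) * |a - b| := by
  have hM : 0 ≤ M := (abs_nonneg a).trans ha
  rw [← geom_sum₂_mul, abs_mul]
  refine mul_le_mul_of_nonneg_right ?_ (abs_nonneg _)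
  calc |∑ i ∈ range p, a ^ i * b ^ (p - 1 - i)| ≤ ∑ i ∈ range p, |a ^ i * b ^ (p - 1 - i)| := abs_sum_le_sum_abs _ _
    _ ≤ ∑ i ∈ range p, M ^ (p - 1) := by
        refine Finset.sum_le_sum fun i hi => ?_
        have hi' : i ≤ p - 1 := by
          have := Finset.mem_range.1 hi
          omega
        rw [abs_mul, abs_pow, abs_pow]
        calc |a| ^ i * |b| ^ (p - 1 - i) ≤ M ^ i * M ^ (p - 1 - i) :=
              mul_le_mul (pow_le_pow_left₀ (abs_nonneg _) ha _) (pow_le_pow_left₀ (abs_nonneg _) hb _) (by positivity) (by positivity)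
          _ = M ^ (p - 1) := by rw [← pow_add, Nat.add_sub_cancel' hi']
    _ = p * M ^ (p - 1) := by simp

/-- C9: second norm of the `2L` alias of a power: on `{|ξ| ≤ eb, |θ| ≤ eb}`: `|ξ^p - θ^p| ≤ p eb^(p-1) |ξ - θ|`; off: `≤ 2·4^p`, probability `≤ 2 eta` -/
theorem l8lc_pow_alias (h : P.Ok) (hD : D.Ok P) {l : ℕ} (h1 : D.tY ≤ l) (h2 : l < D.ti) {p : ℕ} (hp : 1 ≤ p) :
    ∫ ω, ((P.nX l ω - P.S l) ^ p - P.l8cT l ω ^ p) ^ 2 ∂P.μ ≤ (p * D.eb l ^ (p - 1) * P.l8lcAl D l + 3 * 4 ^ p * √D.eta) ^ 2 := by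
  classical
  have := h.prob
  have hξb := P.l8lc_h_xi_bd h l
  have hθb := P.l8c_T_bd h l
  have hAm : MeasurableSet {ω | D.eb l < |P.nX l ω - P.S l|} := measurableSet_lt measurable_const hξb.1.abs
  have hBm : MeasurableSet {ω | D.eb l < |P.l8cT l ω|} := P.l8c_bad_meas h l _
  have heb := hD.eb_nonneg l
  have h4 : (1:ℝ) ≤ 4 ^ p := one_le_pow₀ (by norm_num)
  have pt : ∀ ω, ((P.nX l ω - P.S l) ^ p - P.l8cT l ω ^ p) ^ 2
      ≤ (p * D.eb l ^ (p - 1)) ^ 2 * (P.l8cT l ω - (P.nX l ω - P.S l)) ^ 2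
        + (2 * 4 ^ p) ^ 2 * (Set.indicator {ω | D.eb l < |P.nX l ω - P.S l|} 1 ω + Set.indicator {ω | D.eb l < |P.l8cT l ω|} 1 ω) := by
    intro ω
    have b0 : |(P.nX l ω - P.S l) ^ p - P.l8cT l ω ^ p| ≤ 2 * 4 ^ p := by
      have e1 : |(P.nX l ω - P.S l) ^ p| ≤ 1 := by
        rw [abs_pow]
        exact pow_le_one₀ (abs_nonneg _) (P.l8lc_h_xi_le h l ω)
      have e2 : |P.l8cT l ω ^ p| ≤ 4 ^ p := by
        rw [abs_pow]
        exact pow_le_pow_left₀ (abs_nonneg _) (P.l8c_T_abs_le h l ω) p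
      calc |(P.nX l ω - P.S l) ^ p - P.l8cT l ω ^ p| ≤ |(P.nX l ω - P.S l) ^ p| + |P.l8cT l ω ^ p| := abs_sub _ _
        _ ≤ 2 * 4 ^ p := by linarith
    have b1 : ((P.nX l ω - P.S l) ^ p - P.l8cT l ω ^ p) ^ 2 ≤ (2 * 4 ^ p) ^ 2 := by
      rw [← sq_abs]
      exact pow_le_pow_left₀ (abs_nonneg _) b0 2
    have t0 : 0 ≤ (p * D.eb l ^ (p - 1)) ^ 2 * (P.l8cT l ω - (P.nX l ω - P.S l)) ^ 2 := by positivity
    have i1 : (0:ℝ) ≤ Set.indicator {ω | D.eb l < |P.nX l ω - P.S l|} 1 ω := Set.indicator_nonneg (fun _ _ => zero_le_one) _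
    have i2 : (0:ℝ) ≤ Set.indicator {ω | D.eb l < |P.l8cT l ω|} 1 ω := Set.indicator_nonneg (fun _ _ => zero_le_one) _
    have c0 : (0:ℝ) ≤ (2 * 4 ^ p) ^ 2 := by positivity
    by_cases hA : D.eb l < |P.nX l ω - P.S l|
    · have : Set.indicator {ω | D.eb l < |P.nX l ω - P.S l|} (1 : Ω → ℝ) ω = 1 := Set.indicator_of_mem (by exact hA) _
      rw [this]
      nlinarith [mul_nonneg c0 i2]
    · by_cases hB : D.eb l < |P.l8cT l ω|
      · have : Set.indicator {ω | D.eb l < |P.l8cT l ω|} (1 : Ω → ℝ) ω = 1 := Set.indicator_of_mem (by exact hB) _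
        rw [this]
        nlinarith [mul_nonneg c0 i1]
      · have g := l8lc_h_pow_sub (not_lt.1 hA) (not_lt.1 hB) p
        have g2 : ((P.nX l ω - P.S l) ^ p - P.l8cT l ω ^ p) ^ 2 ≤ (p * D.eb l ^ (p - 1) * |P.nX l ω - P.S l - P.l8cT l ω|) ^ 2 := by
          rw [← sq_abs]
          exact pow_le_pow_left₀ (abs_nonneg _) g 2
        rw [mul_pow, sq_abs] at g2
        have e3 : (P.nX l ω - P.S l - P.l8cT l ω) ^ 2 = (P.l8cT l ω - (P.nX l ω - P.S l)) ^ 2 := by ring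
        rw [e3] at g2
        nlinarith [mul_nonneg c0 (add_nonneg i1 i2)]
  have iA : Integrable (Set.indicator {ω | D.eb l < |P.nX l ω - P.S l|} (1 : Ω → ℝ)) P.μ :=
    (integrable_const (1:ℝ)).indicator hAm
  have iB : Integrable (Set.indicator {ω | D.eb l < |P.l8cT l ω|} (1 : Ω → ℝ)) P.μ :=
    (integrable_const (1:ℝ)).indicator hBm
  have iD : Integrable (fun ω => (P.l8cT l ω - (P.nX l ω - P.S l)) ^ 2) P.μ := ((hθb.sub hξb).pow 2).integrable _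
  have iL : Integrable (fun ω => ((P.nX l ω - P.S l) ^ p - P.l8cT l ω ^ p) ^ 2) P.μ :=
    (((hξb.pow p).sub (hθb.pow p)).pow 2).integrable _
  have iAB : Integrable (fun ω => Set.indicator {ω | D.eb l < |P.nX l ω - P.S l|} (1 : Ω → ℝ) ω
      + Set.indicator {ω | D.eb l < |P.l8cT l ω|} (1 : Ω → ℝ) ω) P.μ := iA.add iB
  have iR : Integrable (fun ω => (p * D.eb l ^ (p - 1)) ^ 2 * (P.l8cT l ω - (P.nX l ω - P.S l)) ^ 2
        + (2 * 4 ^ p) ^ 2 * (Set.indicator {ω | D.eb l < |P.nX l ω - P.S l|} 1 ω + Set.indicator {ω | D.eb l < |P.l8cT l ω|} 1 ω)) P.μ :=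
    (iD.const_mul _).add (iAB.const_mul _)
  have k1 := integral_mono iL iR pt
  have k2 : ∫ ω, ((p * D.eb l ^ (p - 1)) ^ 2 * (P.l8cT l ω - (P.nX l ω - P.S l)) ^ 2
        + (2 * 4 ^ p) ^ 2 * (Set.indicator {ω | D.eb l < |P.nX l ω - P.S l|} 1 ω + Set.indicator {ω | D.eb l < |P.l8cT l ω|} 1 ω)) ∂P.μ
      = (p * D.eb l ^ (p - 1)) ^ 2 * ∫ ω, (P.l8cT l ω - (P.nX l ω - P.S l)) ^ 2 ∂P.μ
        + (2 * 4 ^ p) ^ 2 * (P.μ.real {ω | D.eb l < |P.nX l ω - P.S l|} + P.μ.real {ω | D.eb l < |P.l8cT l ω|}) := by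
    rw [integral_add (iD.const_mul _) (iAB.const_mul _), integral_const_mul, integral_const_mul,
      integral_add iA iB, integral_indicator_one hAm, integral_indicator_one hBm]
  have k3 := P.l8lc_alias_L (D := D) h h1
  have k4 := hD.tailX l h1 h2
  have k5 := hD.tailL l h1 h2
  rw [k2] at k1
  have hal := P.l8lc_al_nonneg D l
  have hs := Real.sq_sqrt hD.eta_nonneg
  have hs0 := Real.sqrt_nonneg D.eta
  have c1 : (0:ℝ) ≤ p * D.eb l ^ (p - 1) := by positivity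
  have k6 : (p * D.eb l ^ (p - 1)) ^ 2 * ∫ ω, (P.l8cT l ω - (P.nX l ω - P.S l)) ^ 2 ∂P.μ
      ≤ (p * D.eb l ^ (p - 1)) ^ 2 * P.l8lcAl D l ^ 2 := mul_le_mul_of_nonneg_left k3 (by positivity)
  have k7 : (2 * (4:ℝ) ^ p) ^ 2 * (P.μ.real {ω | D.eb l < |P.nX l ω - P.S l|} + P.μ.real {ω | D.eb l < |P.l8cT l ω|})
      ≤ (2 * (4:ℝ) ^ p) ^ 2 * (2 * √D.eta ^ 2) := mul_le_mul_of_nonneg_left (by rw [hs]; linarith) (by positivity)
  have k8 : 0 ≤ (p * D.eb l ^ (p - 1) * P.l8lcAl D l) * ((4:ℝ) ^ p * √D.eta) := by positivity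
  have k9 : 0 ≤ ((4:ℝ) ^ p * √D.eta) ^ 2 := sq_nonneg _
  calc ∫ ω, ((P.nX l ω - P.S l) ^ p - P.l8cT l ω ^ p) ^ 2 ∂P.μ
      ≤ (p * D.eb l ^ (p - 1)) ^ 2 * P.l8lcAl D l ^ 2 + (2 * (4:ℝ) ^ p) ^ 2 * (2 * √D.eta ^ 2) := by linarith
    _ = (p * D.eb l ^ (p - 1) * P.l8lcAl D l) ^ 2 + 8 * ((4:ℝ) ^ p * √D.eta) ^ 2 := by ring
    _ ≤ (p * D.eb l ^ (p - 1) * P.l8lcAl D l) ^ 2 + 6 * ((p * D.eb l ^ (p - 1) * P.l8lcAl D l) * ((4:ℝ) ^ p * √D.eta))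
        + 9 * ((4:ℝ) ^ p * √D.eta) ^ 2 := by linarith
    _ = (p * D.eb l ^ (p - 1) * P.l8lcAl D l + 3 * 4 ^ p * √D.eta) ^ 2 := by ring

/-- C10: (D10) for the monomials `(κ l/dv l) X^p`, class `L8cPoly (p + q) 1 (eb l)`: `l8c_center` with `T = 1`, `eb^(2(j-1)) ≤ eb²`, `tailL` -/
theorem l8lc_cen_path (h : P.Ok) (hD : D.Ok P) {p q : ℕ} (hp : 1 ≤ p) (hpq : 2 ≤ p + q) (κ : ℕ → ℝ) (hκ : ∀ l, |κ l| ≤ P.dv l * D.eb l ^ q) :
    ∫ ω, (∑ l ∈ Ico D.tY D.ti, κ l * (P.l8cT l ω ^ p - ∫ ω', P.l8cT l ω' ^ p ∂P.μ)) ^ 2 ∂P.μ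
      ≤ 4 * D.cP * ((p + q : ℕ) : ℝ) ^ 4 * ((P.l8lcN D).w1 + 4 ^ (2 * (p + q)) * P.a * D.eta * (P.l8lcN D).ms) := by
  classical
  have := h.prob
  have hK : Ico D.tY D.ti ⊆ range (P.n + 1) :=
    fun l hl => Finset.mem_range.2 (lt_of_lt_of_le (Finset.mem_Ico.1 hl).2 hD.le3)
  have hdv := P.l8c_dv_nonneg h
  have hW0 : ∀ l, 0 ≤ ∫ ω, P.W l ω ∂P.μ := fun l => integral_nonneg fun ω => P.l8s_W_nonneg h l ω
  have hwt := P.l8lc_h_wt h (fun l => D.eb l ^ q) κ hκ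
  have hpoly : ∀ l ∈ Ico D.tY D.ti, L8cPoly (p + q) 1 (D.eb l) (Polynomial.C (κ l / P.dv l) * Polynomial.X ^ p) := by
    intro l _
    refine ⟨(Polynomial.natDegree_C_mul_X_pow_le _ _).trans (Nat.le_add_right _ _), fun i _ => ?_⟩
    rw [Polynomial.coeff_C_mul_X_pow]
    split_ifs with hip
    · subst hip
      have h1 := (hwt l).2
      simp only [abs_of_nonneg (pow_nonneg (hD.eb_nonneg l) q)] at h1
      simpa [Nat.add_sub_cancel_left] using h1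
    · simp only [abs_zero, one_mul]
      exact pow_nonneg (hD.eb_nonneg l) _
  have key := P.l8c_center h hD.cP_nonneg hD.pin hK (j := p + q) (c := 1) (e := D.eb) (fun l _ => hD.eb_nonneg l)
    hpoly (T := 1) le_rfl
  have e : ∀ ω, P.l8cI (Ico D.tY D.ti) (fun l => Polynomial.C (κ l / P.dv l) * Polynomial.X ^ p) ω
      = ∑ l ∈ Ico D.tY D.ti, κ l * (P.l8cT l ω ^ p - ∫ ω', P.l8cT l ω' ^ p ∂P.μ) := by
    intro ω
    unfold L8P.l8cI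
    refine Finset.sum_congr rfl fun l _ => ?_
    simp only [Polynomial.eval_mul, Polynomial.eval_C, Polynomial.eval_pow, Polynomial.eval_X]
    rw [integral_const_mul, ← mul_sub, ← mul_assoc, ← (hwt l).1]
  simp only [e] at key
  refine key.trans ?_
  have hj : 2 ≤ 2 * (p + q - 1) := by omega
  have s1 : ∑ l ∈ Ico D.tY D.ti, P.dv l * D.eb l ^ (2 * (p + q - 1)) * ∫ ω, P.W l ω ∂P.μ ≤ (P.l8lcN D).w1 := by
    show _ ≤ ∑ l ∈ Ico D.tY D.ti, P.dv l * D.eb l ^ 2 * ∫ ω, P.W l ω ∂P.μ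
    refine Finset.sum_le_sum fun l _ => ?_
    refine mul_le_mul_of_nonneg_right (mul_le_mul_of_nonneg_left ?_ (hdv l)) (hW0 l)
    exact pow_le_pow_of_le_one (hD.eb_nonneg l) (hD.eb_le l) hj
  have s2 : ∑ l ∈ Ico D.tY D.ti, P.dv l * P.μ.real {ω | 1 * D.eb l < |P.l8cT l ω|} ≤ D.eta * (P.l8lcN D).ms := by
    show _ ≤ D.eta * ∑ l ∈ Ico D.tY D.ti, P.dv l
    rw [Finset.mul_sum]
    refine Finset.sum_le_sum fun l hl => ?_
    rw [one_mul, mul_comm D.eta]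
    exact mul_le_mul_of_nonneg_left (hD.tailL l (Finset.mem_Ico.1 hl).1 (Finset.mem_Ico.1 hl).2) (hdv l)
  have hms : 0 ≤ (P.l8lcN D).ms := Finset.sum_nonneg fun l _ => hdv l
  have s3 : (4:ℝ) ^ (2 * (p + q - 1)) * 4 ≤ 4 ^ (2 * (p + q)) := by
    rw [← pow_succ]
    exact pow_le_pow_right₀ (by norm_num) (by omega)
  have s4 : (4:ℝ) ^ (2 * (p + q - 1)) * (4 * P.a) * ∑ l ∈ Ico D.tY D.ti, P.dv l * P.μ.real {ω | 1 * D.eb l < |P.l8cT l ω|}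
      ≤ 4 ^ (2 * (p + q)) * P.a * D.eta * (P.l8lcN D).ms := by
    calc (4:ℝ) ^ (2 * (p + q - 1)) * (4 * P.a) * ∑ l ∈ Ico D.tY D.ti, P.dv l * P.μ.real {ω | 1 * D.eb l < |P.l8cT l ω|}
        ≤ (4:ℝ) ^ (2 * (p + q - 1)) * (4 * P.a) * (D.eta * (P.l8lcN D).ms) :=
          mul_le_mul_of_nonneg_left s2 (mul_nonneg (by positivity) (mul_nonneg (by norm_num) h.a_pos.le))
      _ = ((4:ℝ) ^ (2 * (p + q - 1)) * 4) * (P.a * D.eta * (P.l8lcN D).ms) := by ring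
      _ ≤ 4 ^ (2 * (p + q)) * (P.a * D.eta * (P.l8lcN D).ms) :=
          mul_le_mul_of_nonneg_right s3 (mul_nonneg (mul_nonneg h.a_pos.le hD.eta_nonneg) hms)
      _ = 4 ^ (2 * (p + q)) * P.a * D.eta * (P.l8lcN D).ms := by ring
  have e2 : 4 * D.cP * (1 * ((p + q : ℕ) : ℝ) ^ 2) ^ 2 = 4 * D.cP * ((p + q : ℕ) : ℝ) ^ 4 := by ring
  rw [e2]
  refine mul_le_mul_of_nonneg_left ?_ (mul_nonneg (mul_nonneg (by norm_num) hD.cP_nonneg) (by positivity))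
  rw [one_pow, one_mul]
  exact add_le_add s1 s4

/-- `‖f - E f‖₂ ≤ ‖f‖₂` -/
theorem l8lc_h_var_le {α : Type} [MeasurableSpace α] (ν : Measure α) [IsProbabilityMeasure ν] {f : α → ℝ} (hf : L8Bd f) :
    ∫ x, (f x - ∫ y, f y ∂ν) ^ 2 ∂ν ≤ ∫ x, f x ^ 2 ∂ν := by
  have i1 : Integrable f ν := hf.integrable ν
  have i2 : Integrable (fun x => f x ^ 2) ν := (hf.pow 2).integrable ν
  have e : ∀ x, (f x - ∫ y, f y ∂ν) ^ 2 = f x ^ 2 - (2 * ∫ y, f y ∂ν) * f x + (∫ y, f y ∂ν) ^ 2 := fun x => by ring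
  simp only [e]
  have i3 : Integrable (fun x => f x ^ 2 - (2 * ∫ y, f y ∂ν) * f x) ν := i2.sub (i1.const_mul _)
  rw [integral_add i3 (integrable_const _), integral_sub i2 (i1.const_mul _), integral_const_mul]
  simp only [integral_const, probReal_univ, smul_eq_mul, one_mul]
  nlinarith [sq_nonneg (∫ y, f y ∂ν)]

/-- C11: **centred sums of powers in `Xi`-form**: C10 + Minkowski + (`‖f - E f‖₂ ≤ ‖f‖₂`) + C9 + `eb^(p+q-1) ≤ eb`, `eb^q ≤ 1`, monotonicity in `p + q ≤ dmax` -/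
theorem l8lc_cen_pow (h : P.Ok) (hD : D.Ok P) {p q : ℕ} (hp : 1 ≤ p) (hpq : 2 ≤ p + q) (hd : p + q ≤ D.dmax) (κ : ℕ → ℝ)
    (hκ : ∀ l, |κ l| ≤ P.dv l * D.eb l ^ q) :
    ∫ ω, (∑ l ∈ Ico D.tY D.ti, κ l * ((P.nX l ω - P.S l) ^ p - ∫ ω', (P.nX l ω' - P.S l) ^ p ∂P.μ)) ^ 2 ∂P.μ
      ≤ (P.l8lcN D).c1 D.cP D.dmax P.a D.eta ^ 2 := by
  have := h.prob
  have hdv := P.l8c_dv_nonneg h
  have hal := P.l8lc_al_nonneg D
  have heb := hD.eb_nonneg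
  have hW0 : ∀ l, 0 ≤ ∫ ω, P.W l ω ∂P.μ := fun l => integral_nonneg fun ω => P.l8s_W_nonneg h l ω
  have hms : 0 ≤ (P.l8lcN D).ms := Finset.sum_nonneg fun l _ => hdv l
  have hw1 : 0 ≤ (P.l8lcN D).w1 := Finset.sum_nonneg fun l _ => mul_nonneg (mul_nonneg (hdv l) (sq_nonneg _)) (hW0 l)
  have hs0 := Real.sqrt_nonneg D.eta
  have hξb := P.l8lc_h_xi_bd h
  have hθb := P.l8c_T_bd h
  have hfb : ∀ l, L8Bd (fun ω => (P.nX l ω - P.S l) ^ p - P.l8cT l ω ^ p) := fun l => ((hξb l).pow p).sub ((hθb l).pow p)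
  -- the path part
  have hX : ∀ j : ℕ, 0 ≤ (P.l8lcN D).w1 + 4 ^ (2 * j) * P.a * D.eta * (P.l8lcN D).ms := fun j =>
    add_nonneg hw1 (mul_nonneg (mul_nonneg (mul_nonneg (by positivity) h.a_pos.le) hD.eta_nonneg) hms)
  have hA : ∫ ω, (∑ l ∈ Ico D.tY D.ti, κ l * (P.l8cT l ω ^ p - ∫ ω', P.l8cT l ω' ^ p ∂P.μ)) ^ 2 ∂P.μ
      ≤ (2 * ((p + q : ℕ) : ℝ) ^ 2 * √(D.cP * ((P.l8lcN D).w1 + 4 ^ (2 * (p + q)) * P.a * D.eta * (P.l8lcN D).ms))) ^ 2 := by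
    refine (P.l8lc_cen_path h hD hp hpq κ hκ).trans (le_of_eq ?_)
    rw [mul_pow, Real.sq_sqrt (mul_nonneg hD.cP_nonneg (hX _))]
    ring
  -- the alias part
  have hB : ∫ ω, (∑ l ∈ Ico D.tY D.ti, κ l * (((P.nX l ω - P.S l) ^ p - P.l8cT l ω ^ p)
        - ∫ ω', ((P.nX l ω' - P.S l) ^ p - P.l8cT l ω' ^ p) ∂P.μ)) ^ 2 ∂P.μ
      ≤ (∑ l ∈ Ico D.tY D.ti, P.dv l * D.eb l ^ q * (p * D.eb l ^ (p - 1) * P.l8lcAl D l + 3 * 4 ^ p * √D.eta)) ^ 2 := by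
    refine l8lc_h_mink P.μ _ _ _ (fun l _ => ((hfb l).sub (l8Bd_const _)).const_mul _)
      (fun l _ => mul_nonneg (mul_nonneg (hdv l) (pow_nonneg (heb l) q))
        (add_nonneg (mul_nonneg (mul_nonneg (Nat.cast_nonneg _) (pow_nonneg (heb l) _)) (hal l)) (by positivity))) (fun l hl => ?_)
    rw [mul_pow (P.dv l * D.eb l ^ q)]
    simp only [mul_pow (κ l)]
    rw [integral_const_mul]
    have g1 := (l8lc_h_var_le P.μ (hfb l)).trans (P.l8lc_pow_alias h hD (Finset.mem_Ico.1 hl).1 (Finset.mem_Ico.1 hl).2 hp)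
    have g2 : κ l ^ 2 ≤ (P.dv l * D.eb l ^ q) ^ 2 := by
      rw [← sq_abs]
      exact pow_le_pow_left₀ (abs_nonneg _) (hκ l) 2
    exact mul_le_mul g2 g1 (integral_nonneg fun ω => sq_nonneg _) (sq_nonneg _)
  have e : ∀ ω, ∑ l ∈ Ico D.tY D.ti, κ l * ((P.nX l ω - P.S l) ^ p - ∫ ω', (P.nX l ω' - P.S l) ^ p ∂P.μ)
      = ∑ l ∈ Ico D.tY D.ti, κ l * (P.l8cT l ω ^ p - ∫ ω', P.l8cT l ω' ^ p ∂P.μ)
        + ∑ l ∈ Ico D.tY D.ti, κ l * (((P.nX l ω - P.S l) ^ p - P.l8cT l ω ^ p)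
          - ∫ ω', ((P.nX l ω' - P.S l) ^ p - P.l8cT l ω' ^ p) ∂P.μ) := by
    intro ω
    rw [← Finset.sum_add_distrib]
    refine Finset.sum_congr rfl fun l _ => ?_
    rw [integral_sub (((hξb l).pow p).integrable _) (((hθb l).pow p).integrable _)]
    ring
  simp only [e]
  have hBn : 0 ≤ ∑ l ∈ Ico D.tY D.ti, P.dv l * D.eb l ^ q * (p * D.eb l ^ (p - 1) * P.l8lcAl D l + 3 * 4 ^ p * √D.eta) :=
    Finset.sum_nonneg fun l _ => mul_nonneg (mul_nonneg (hdv l) (pow_nonneg (heb l) q))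
        (add_nonneg (mul_nonneg (mul_nonneg (Nat.cast_nonneg _) (pow_nonneg (heb l) _)) (hal l)) (by positivity))
  have hAn : 0 ≤ 2 * ((p + q : ℕ) : ℝ) ^ 2 * √(D.cP * ((P.l8lcN D).w1 + 4 ^ (2 * (p + q)) * P.a * D.eta * (P.l8lcN D).ms)) :=
    mul_nonneg (by positivity) (Real.sqrt_nonneg _)
  refine (l8lc_h_mink2 P.μ (L8Bd.sum _ fun l _ => (((hθb l).pow p).sub (l8Bd_const _)).const_mul _)
    (L8Bd.sum _ fun l _ => ((hfb l).sub (l8Bd_const _)).const_mul _) hAn hBn hA hB).trans ?_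
  refine pow_le_pow_left₀ (add_nonneg hAn hBn) ?_ 2
  -- monotonicity in `p + q ≤ dmax`
  have hdR : ((p + q : ℕ) : ℝ) ≤ (D.dmax : ℝ) := by exact_mod_cast hd
  have hpR : (p : ℝ) ≤ (D.dmax : ℝ) := by
    have : p ≤ D.dmax := by omega
    exact_mod_cast this
  have m1 : 2 * ((p + q : ℕ) : ℝ) ^ 2 * √(D.cP * ((P.l8lcN D).w1 + 4 ^ (2 * (p + q)) * P.a * D.eta * (P.l8lcN D).ms))
      ≤ 2 * (D.dmax : ℝ) ^ 2 * √(D.cP * ((P.l8lcN D).w1 + 4 ^ (2 * D.dmax) * P.a * D.eta * (P.l8lcN D).ms)) := by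
    refine mul_le_mul (mul_le_mul_of_nonneg_left (pow_le_pow_left₀ (Nat.cast_nonneg _) hdR 2) (by norm_num)) ?_
      (Real.sqrt_nonneg _) (by positivity)
    refine Real.sqrt_le_sqrt (mul_le_mul_of_nonneg_left (add_le_add le_rfl ?_) hD.cP_nonneg)
    have : (4:ℝ) ^ (2 * (p + q)) ≤ 4 ^ (2 * D.dmax) := pow_le_pow_right₀ (by norm_num) (by omega)
    have t0 : 0 ≤ P.a * D.eta * (P.l8lcN D).ms := mul_nonneg (mul_nonneg h.a_pos.le hD.eta_nonneg) hms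
    calc (4:ℝ) ^ (2 * (p + q)) * P.a * D.eta * (P.l8lcN D).ms = 4 ^ (2 * (p + q)) * (P.a * D.eta * (P.l8lcN D).ms) := by ring
      _ ≤ 4 ^ (2 * D.dmax) * (P.a * D.eta * (P.l8lcN D).ms) := mul_le_mul_of_nonneg_right this t0
      _ = 4 ^ (2 * D.dmax) * P.a * D.eta * (P.l8lcN D).ms := by ring
  have m2 : ∑ l ∈ Ico D.tY D.ti, P.dv l * D.eb l ^ q * (p * D.eb l ^ (p - 1) * P.l8lcAl D l + 3 * 4 ^ p * √D.eta)
      ≤ D.dmax * (P.l8lcN D).a1 + 3 * 4 ^ D.dmax * √D.eta * (P.l8lcN D).ms := by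
    have t1 : ∀ l ∈ Ico D.tY D.ti, P.dv l * D.eb l ^ q * (p * D.eb l ^ (p - 1) * P.l8lcAl D l + 3 * 4 ^ p * √D.eta)
        ≤ D.dmax * (P.dv l * D.eb l * P.l8lcAl D l) + 3 * 4 ^ D.dmax * √D.eta * P.dv l := by
      intro l _
      have u1 : D.eb l ^ q * D.eb l ^ (p - 1) ≤ D.eb l := by
        rw [← pow_add]
        calc D.eb l ^ (q + (p - 1)) ≤ D.eb l ^ 1 := pow_le_pow_of_le_one (heb l) (hD.eb_le l) (by omega)
          _ = D.eb l := pow_one _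
      have u2 : D.eb l ^ q ≤ 1 := pow_le_one₀ (heb l) (hD.eb_le l)
      have u3 : (4:ℝ) ^ p ≤ 4 ^ D.dmax := pow_le_pow_right₀ (by norm_num) (by omega)
      have v1 : (p : ℝ) * (D.eb l ^ q * D.eb l ^ (p - 1)) ≤ D.dmax * D.eb l :=
        mul_le_mul hpR u1 (mul_nonneg (pow_nonneg (heb l) _) (pow_nonneg (heb l) _)) (Nat.cast_nonneg _)
      have v2 : D.eb l ^ q * (4:ℝ) ^ p ≤ 1 * 4 ^ D.dmax := mul_le_mul u2 u3 (by positivity) zero_le_one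
      have w1 := mul_le_mul_of_nonneg_right v1 (mul_nonneg (hdv l) (hal l))
      have w2 := mul_le_mul_of_nonneg_right v2 (mul_nonneg (mul_nonneg (by norm_num : (0:ℝ) ≤ 3) hs0) (hdv l))
      calc P.dv l * D.eb l ^ q * (p * D.eb l ^ (p - 1) * P.l8lcAl D l + 3 * 4 ^ p * √D.eta)
          = (p : ℝ) * (D.eb l ^ q * D.eb l ^ (p - 1)) * (P.dv l * P.l8lcAl D l) + D.eb l ^ q * (4:ℝ) ^ p * (3 * √D.eta * P.dv l) := by ring
        _ ≤ D.dmax * D.eb l * (P.dv l * P.l8lcAl D l) + 1 * 4 ^ D.dmax * (3 * √D.eta * P.dv l) := add_le_add w1 w2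
        _ = D.dmax * (P.dv l * D.eb l * P.l8lcAl D l) + 3 * 4 ^ D.dmax * √D.eta * P.dv l := by ring
    refine (Finset.sum_le_sum t1).trans ?_
    rw [Finset.sum_add_distrib, ← Finset.mul_sum, ← Finset.mul_sum]
    refine add_le_add (mul_le_mul_of_nonneg_left ?_ (Nat.cast_nonneg _)) le_rfl
    exact Finset.sum_le_sum_of_subset_of_nonneg (fun _ hl => Finset.mem_range.2 (Finset.mem_Ico.1 hl).2)
      fun l _ _ => mul_nonneg (mul_nonneg (hdv l) (heb l)) (hal l)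
  unfold L8lcN.c1
  linarith

theorem l8lc_xi_mean (h : P.Ok) (l : ℕ) : ∫ ω, (P.nX l ω - P.S l) ∂P.μ = 0 := by
  have := h.prob
  rw [integral_sub ((P.l8s_nX_bd_aux h l).integrable P.μ) (integrable_const _)]
  simp [L8P.S]

theorem l8lc_N_nonneg (h : P.Ok) (hD : D.Ok P) :
    (∀ l, 0 ≤ (P.l8lcN D).mu l) ∧ (∀ l, 0 ≤ (P.l8lcN D).vv l) ∧ (∀ l, 0 ≤ (P.l8lcN D).eb l) ∧ (∀ l, 0 ≤ (P.l8lcN D).al l)
      ∧ ∀ l, 0 ≤ (P.l8lcN D).ew l :=
  ⟨fun l => P.l8c_dv_nonneg h l, fun l => div_nonneg (h.v_nonneg l) h.a_pos.le, hD.eb_nonneg, P.l8lc_al_nonneg D,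
    fun l => integral_nonneg fun ω => P.l8s_W_nonneg h l ω⟩

/-- a sum over `Ico tY ti` of nonnegative terms is at most the sum over `range ti` -/
theorem _root_.Claimed.Agent.R286.l8lc_Ico_le_range (a b : ℕ) (f : ℕ → ℝ) (hf : ∀ l, 0 ≤ f l) :
    ∑ l ∈ Ico a b, f l ≤ ∑ l ∈ range b, f l :=
  Finset.sum_le_sum_of_subset_of_nonneg (fun _ hl => Finset.mem_range.2 (Finset.mem_Ico.1 hl).2) fun l _ _ => hf l

/-- **INSTANCE THEOREM**: the inputs of the abstract low sources lemma hold for the abstract single path; `T` = any family of tree laws whose one and two label marginals are those of `P` -/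
theorem l8lc_in_ok (h : P.Ok) (hD : D.Ok P) {T : L8L Ω} (hμ : T.μ = P.μ) (hf : ∀ l, T.fork l = P.fork l) : (P.l8lcIn D).Ok T := by
  have hprob := h.prob
  obtain ⟨n1, n2, n3, n4, n5⟩ := P.l8lc_N_nonneg h hD
  have hS0 : ∀ l, 0 ≤ P.S l := P.l8s_S_nonneg
  have hS1 : ∀ l, P.S l ≤ 1 := P.l8s_S_le_one h
  have hbd : ∀ k₁ k₂ l p, |P.QX k₁ k₂ p - P.S l| ≤ 2 := by
    intro k₁ k₂ l p
    have h1 := abs_le.1 ((P.l8lc_QX_bd h k₁ k₂).2 p)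
    rw [abs_le]
    constructor <;> linarith [h1.1, h1.2, hS0 l, hS1 l]
  have ha0 : 0 ≤ (P.l8lcN D).a0 := Finset.sum_nonneg fun l _ => mul_nonneg (n1 l) (n4 l)
  have ha1 : 0 ≤ (P.l8lcN D).a1 := Finset.sum_nonneg fun l _ => mul_nonneg (mul_nonneg (n1 l) (n3 l)) (n4 l)
  have hav : 0 ≤ (P.l8lcN D).av := Finset.sum_nonneg fun l _ => mul_nonneg (mul_nonneg (n1 l) (n2 l)) (n4 l)
  have hms : 0 ≤ (P.l8lcN D).ms := Finset.sum_nonneg fun l _ => n1 l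
  have hlin : ∀ (g : ℕ → ℝ), (∀ l, 0 ≤ g l) → ∀ κ : ℕ → ℝ, (∀ l, |κ l| ≤ P.dv l * g l) →
      ∫ ω, (P.l8lcIn D).cs T 1 κ ω ^ 2 ∂T.μ
        ≤ (2 * √(D.cP * ∑ l ∈ Ico D.tY D.ti, P.dv l * g l ^ 2 * ∫ ω, P.W l ω ∂P.μ)
          + ∑ l ∈ Ico D.tY D.ti, P.dv l * g l * P.l8lcAl D l) ^ 2 := by
    intro g hg κ hκ
    have e : ∀ ω, (P.l8lcIn D).cs T 1 κ ω = ∑ l ∈ Ico D.tY D.ti, κ l * (P.nX l ω - P.S l) := by
      intro ω
      rw [P.l8lc_cs_eq h hD hμ le_rfl κ ω]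
      refine Finset.sum_congr rfl fun l _ => ?_
      simp only [pow_one]
      rw [P.l8lc_xi_mean h l, sub_zero]
    simp only [e, hμ]
    exact P.l8lc_cen_lin h hD g hg κ hκ
  exact
  { le := hD.le2
    P0_meas := (P.l8lc_QX_bd h _ _).1.sub_const _
    P0_bd := fun p => hbd _ _ _ p
    P0_mean := by
      have := P.l8s_fork_prob h D.t0
      show ∫ p, (P.QX D.p1 D.p2 p - P.S D.t0) ∂T.fork D.t0 = 0
      rw [hf, integral_sub (P.l8s_fork_integrable_aux h _ (P.l8lc_QX_bd h _ _).1 (P.l8lc_QX_bd h _ _).2) (integrable_const _),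
        P.l8lc_QX_mean h hD.hp1 hD.hp2]
      simp
    P0_sq := by
      show ∫ p, (P.QX D.p1 D.p2 p - P.S D.t0) ^ 2 ∂T.fork D.t0 ≤ √(∫ p, (P.QX D.p1 D.p2 p - P.S D.t0) ^ 2 ∂P.fork D.t0) ^ 2
      rw [hf, Real.sq_sqrt (integral_nonneg fun p => sq_nonneg _)]
    Dab_nonneg := Real.sqrt_nonneg _
    Xi_meas := P.l8lc_Xi_meas h D
    Xi_bd := P.l8lc_Xi_bd h D
    share := fun l t hlt => by rw [hf]; exact P.l8lc_share h D hlt
    fac_meas := fun s l => (P.l8lc_QX_bd h _ _).1.sub_const _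
    fac_bd := fun s l p => hbd _ _ _ p
    al_nonneg := P.l8lc_al_nonneg D
    ali := fun s l _ => by rw [hf]; exact P.l8lc_ali h hD s l
    eta_nonneg := hD.eta_nonneg
    tailX := by
      intro l hl
      show T.μ.real {ω | D.eb l < |P.l8lcXi D l ω|} ≤ D.eta
      rw [hμ]
      by_cases hY : l < D.tY
      · have : {ω | D.eb l < |P.l8lcXi D l ω|} = ∅ := by
          ext ω
          simp only [L8P.l8lcXi, hY, if_true, abs_zero, Set.mem_ofPred_eq, Set.mem_empty_iff_false, iff_false, not_lt]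
          exact hD.eb_nonneg l
        rw [this]
        simpa using hD.eta_nonneg
      · have e : {ω | D.eb l < |P.l8lcXi D l ω|} = {ω | D.eb l < |P.nX l ω - P.S l|} := by
          ext ω
          simp only [L8P.l8lcXi, hY, if_false]
        rw [e]
        exact hD.tailX l (not_lt.1 hY) hl
    tailF := fun s l hl => by rw [hf]; exact hD.tailF s l hl
    eb_nonneg := hD.eb_nonneg
    eb_le := hD.eb_le
    mean := by
      intro p l hp1 hp2 hl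
      show |∫ ω, P.l8lcXi D l ω ^ p ∂T.μ| ≤ D.eb l ^ p
      rw [hμ]
      by_cases hY : l < D.tY
      · have : ∀ ω, P.l8lcXi D l ω ^ p = 0 := fun ω => by
          simp only [L8P.l8lcXi, hY, if_true]
          exact zero_pow (by omega)
        simp only [this, integral_zero, abs_zero]
        exact pow_nonneg (hD.eb_nonneg l) p
      · have : ∀ ω, P.l8lcXi D l ω ^ p = (P.nX l ω - P.S l) ^ p := fun ω => by
          simp only [L8P.l8lcXi, hY, if_false]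
        simp only [this]
        exact hD.mean p l hp1 hp2 (not_lt.1 hY) hl
    mu_nonneg := n1
    vv_nonneg := n2
    vv_le := fun l => (div_le_one h.a_pos).2 (P.l8sb_v_le_a h l)
    ha0 := le_rfl
    ha1 := le_rfl
    hav := le_rfl
    hE1 := le_rfl
    c0_nonneg := add_nonneg (mul_nonneg (by norm_num) (Real.sqrt_nonneg _)) ha0
    c1_nonneg := add_nonneg (add_nonneg (mul_nonneg (by positivity) (Real.sqrt_nonneg _)) (mul_nonneg (Nat.cast_nonneg _) ha1))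
      (mul_nonneg (mul_nonneg (by positivity) (Real.sqrt_nonneg _)) hms)
    cv_nonneg := add_nonneg (mul_nonneg (by norm_num) (Real.sqrt_nonneg _)) hav
    cen0 := by
      intro κ hκ
      refine (hlin (fun _ => 1) (fun _ => zero_le_one) κ (fun l => by rw [mul_one]; exact hκ l)).trans ?_
      refine pow_le_pow_left₀ (add_nonneg (mul_nonneg (by norm_num) (Real.sqrt_nonneg _))
        (Finset.sum_nonneg fun l _ => mul_nonneg (mul_nonneg (n1 l) zero_le_one) (n4 l))) ?_ 2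
      show _ ≤ 2 * √(D.cP * (P.l8lcN D).w0) + (P.l8lcN D).a0
      refine add_le_add (le_of_eq ?_) ?_
      · simp only [one_pow, mul_one]
        rfl
      · simp only [mul_one]
        exact l8lc_Ico_le_range _ _ _ fun l => mul_nonneg (n1 l) (n4 l)
    cenv := by
      intro κ hκ
      refine (hlin (fun l => P.v l / P.a) n2 κ hκ).trans ?_
      refine pow_le_pow_left₀ (add_nonneg (mul_nonneg (by norm_num) (Real.sqrt_nonneg _))
        (Finset.sum_nonneg fun l _ => mul_nonneg (mul_nonneg (n1 l) (n2 l)) (n4 l))) ?_ 2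
      show _ ≤ 2 * √(D.cP * (P.l8lcN D).wv) + (P.l8lcN D).av
      exact add_le_add le_rfl (l8lc_Ico_le_range _ _ _ fun l => mul_nonneg (mul_nonneg (n1 l) (n2 l)) (n4 l))
    cen1 := by
      intro p q κ hp hpq hd hκ
      have e : ∀ ω, (P.l8lcIn D).cs T p κ ω
          = ∑ l ∈ Ico D.tY D.ti, κ l * ((P.nX l ω - P.S l) ^ p - ∫ ω', (P.nX l ω' - P.S l) ^ p ∂P.μ) :=
        fun ω => P.l8lc_cs_eq h hD hμ hp κ ω
      simp only [e, hμ]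
      exact P.l8lc_cen_pow h hD hp hpq hd κ hκ }

theorem l8lc_Dab_le (h : P.Ok) (hD : D.Ok P) : (P.l8lcIn D).Dab ≤ √(P.D2 D.t0) :=
  Real.sqrt_le_sqrt (P.l8lc_QX_var h hD.hp1 hD.hp2)

end L8P

/-! ## 4. (D16), first conclusion, on the abstract single path -/

/-- C12: a mean from an even moment (for the field `mean` of `L8lcD.Ok`; the fields `tail*` are `l8c_markov`): Cauchy-Schwarz `(∫ f^p)² ≤ ∫ f^(2p)` -/
theorem l8lc_mean_of_mom {α : Type} [MeasurableSpace α] (ν : Measure α) [IsProbabilityMeasure ν] {f : α → ℝ} (hf : Measurable f)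
    (hfb : ∃ c, ∀ x, |f x| ≤ c) (p : ℕ) {B : ℝ} (hB0 : 0 ≤ B) (hB : ∫ x, f x ^ (2 * p) ∂ν ≤ B ^ (2 * p)) :
    |∫ x, f x ^ p ∂ν| ≤ B ^ p := by
  obtain ⟨c, hc⟩ := hfb
  have hfp : Measurable fun x => f x ^ p := hf.pow_const p
  have hb : ∀ x, |f x ^ p| ≤ |c| ^ p := fun x => by
    rw [abs_pow]
    exact pow_le_pow_left₀ (abs_nonneg _) ((hc x).trans (le_abs_self c)) p
  have h1 := l8c_test_cs_aux ν hfp (measurable_const (a := (1:ℝ))) hb (cg := 1) (fun _ => by simp)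
  simp only [mul_one, one_pow, integral_const, probReal_univ, smul_eq_mul, Real.sqrt_one] at h1
  have e : ∀ x, (f x ^ p) ^ 2 = f x ^ (2 * p) := fun x => by rw [← pow_mul, mul_comm]
  simp only [e] at h1
  have h2 : √(∫ x, f x ^ (2 * p) ∂ν) ≤ B ^ p := by
    refine (Real.sqrt_le_sqrt hB).trans (le_of_eq ?_)
    rw [mul_comm, pow_mul, Real.sqrt_sq (pow_nonneg hB0 p)]
  calc |∫ x, f x ^ p ∂ν| ≤ ∫ x, |f x ^ p| ∂ν := abs_integral_le_integral_abs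
    _ ≤ B ^ p := h1.trans h2

/-- TEX[LL:lem:statistics-low-sources] **(D16), first conclusion**, chart form, on the abstract single path: `|sum| ≤ K A0^nv (D_ab (C Lo³ (2 + N)² x³ λ^(-Cs) Z² + C' √η) + η)`.
`N` = number of dyads, `Lo` = common loss, `η` = tail probability (`x^K`). -/
theorem l8lc_D16 (habs : L8_LS_ABS) (n nv r : ℕ) : ∃ K : ℝ, 0 ≤ K ∧ ∀ (Ω : Type) [MeasurableSpace Ω] (m : ℕ) (P : L8P Ω m) (D : L8lcD)
    (T : L8L Ω) (Ch : L8LCh nv) (A0 : ℝ) (w : (Fin nv → ℕ) → ℝ) (Sto Det : Finset ℕ) (c d : ℕ → ℕ)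
    (S : L13Scales) (β : Type) [Fintype β] (Lo C1 Cs : ℝ) (R0 R1 : Finset ℕ) (Bd : β → Finset ℕ) (rr : β → ℝ),
    P.Ok → D.Ok P → L8LHyp T (P.l8lcIn D) Ch n r A0 w Sto Det c d → L8lcOk S → (P.l8lcN D).Ok S Lo C1 R0 R1 Bd rr →
    S.s ≤ Cs → C1 ≤ Cs → (1 + S.eta) / 2 ≤ Cs → 1 ≤ D.dmax →
    |l8lSum T (P.l8lcIn D) Ch w Sto c d| ≤ K * A0 ^ nv * (√(P.D2 D.t0) *
        ((2 + D.dmax + 2 * (D.dmax : ℝ) ^ 2 * √D.cP) * l8lcM S Lo Cs (Fintype.card β)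
          + (2 * (D.dmax : ℝ) ^ 2 * 4 ^ D.dmax * √(D.cP * P.a * (P.l8lcN D).ms) + 3 * 4 ^ D.dmax * (P.l8lcN D).ms) * √D.eta) + D.eta) := by
  obtain ⟨K, hK, H⟩ := habs n nv r
  refine ⟨K, hK, ?_⟩
  intro Ω _ m P D T Ch A0 w Sto Det c d S β _ Lo C1 Cs R0 R1 Bd rr hP hD Hy hS hN h1 h2 h3 hd
  have hb := H Ω T (P.l8lcIn D) Ch A0 w Sto Det c d Hy
  refine hb.trans ?_
  have hA : 0 ≤ K * A0 ^ nv := mul_nonneg hK (pow_nonneg (le_trans zero_le_one Hy.hA0) _)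
  refine mul_le_mul_of_nonneg_left ?_ hA
  have hg : (P.l8lcIn D).gain ≤ (2 + D.dmax + 2 * (D.dmax : ℝ) ^ 2 * √D.cP) * l8lcM S Lo Cs (Fintype.card β)
      + (2 * (D.dmax : ℝ) ^ 2 * 4 ^ D.dmax * √(D.cP * P.a * (P.l8lcN D).ms) + 3 * 4 ^ D.dmax * (P.l8lcN D).ms) * √D.eta :=
    l8lc_num_gain hS hN h1 h2 h3 hD.cP_nonneg hP.a_pos.le hD.eta_nonneg hd
  have hg0 : 0 ≤ (P.l8lcIn D).gain := by
    have hI := Hy.hI
    have ha1 : 0 ≤ (P.l8lcIn D).a1 := le_trans (Finset.sum_nonneg fun l _ =>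
      mul_nonneg (mul_nonneg (hI.mu_nonneg l) (hI.eb_nonneg l)) (hI.al_nonneg l)) hI.ha1
    exact le_trans (by linarith [hI.c1_nonneg]) (le_max_left _ _)
  have hD1 := P.l8lc_Dab_le hP hD
  have : (P.l8lcIn D).eta = D.eta := rfl
  rw [this]
  exact add_le_add (mul_le_mul hD1 hg hg0 (Real.sqrt_nonneg _)) le_rfl

end Claimed.Agent.R286
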