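import Claimed.Agent.R286.L08.Glue
import Claimed.Agent.R286.L08.LsLink
import Claimed.Agent.R286.L08.LsCost
import Claimed.Agent.R286.L02.Inst
import Claimed.Agent.R286.L08.LsInst
import Claimed.Agent.R286.L08.LsChS
import Claimed.Agent.R286.L08.LsTop
import Claimed.Agent.R286.L08.HiFin

/-!
# Row 286 (S0533), folder L08, file LsFit : (D16), first conclusion, ON THE CONCRETE INSTANCE `I : L8In`      (owner helper62; head of the unit helper234; prefix `l8lf_` / `L8lf`)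

TEX[LL:lem:statistics-low-sources].   PRODUCER of `L8LFit` (`L08/LsLink.lean`, 234) and of the user form `L8_LS1 (I.X false) ..` (`L08/HiCtx.lean`) from the exports of `Exit/DLow` (`I.Full`, `L08/Glue.lean`, 75).

    I.Full e A Yc 1 v0 v1 cE pm jm  --(sec. 3: l8lf_B_of_full)-->  L8lfB (I.sp false) S R  --(sec. 1)-->  (P.l8lcN D).Ok  +  D.Ok P  --(LsCost)-->  (P.l8lcIn D).Ok T,  gain ≤ ..
    pair dictionary (sec. 2): X.Sf = P.S, X.Dd = √D2, ov = Q, dv = l8lMu      --(sec. 3: l8lf_fit)-->  L8LFit      --(l8l_link, L8_LS_CH, L8LRep)-->  L8_LS1      (l8lf_ls1)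

* sec. 1  ABSTRACT single path `P : L8P`: `L8lfR` = parameters, `L8lfB P S R` = band form of (D2) refined, (D7) lines 1-2, (D9), envelope budget;  levels: `tY` = first level of mass `≥ Y`,
          `R0 = {v < x}`, `R1 = {x ≤ v < Y}`, dyads `Y 2^b ≤ v ≤ 2 Y 2^b`, `b < nb`;  loss `Lo = 4 A'² A (J + 1)`, `J` = number of dyads of `[x, Y]`.
* sec. 2  SK DICTIONARY for one pair (234, `l8lg_sp_ok, _n, _v, _a, _dv, _S, _D2, _Q, _mu, _Sf, _Dd`).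
* sec. 3  FIT `l8lg_fit : L8LFit (I.X false) (l8liSk ..) Prod.snd ..` (234).
* sec. 4  **`l8lg_ls1`, `l8lg_inst`** : `L8lfB (I.sp false) S R → L8_LS1 (I.X false) R.ti (min 1 (A' |e|)) (v / a) k n (K * l8lgG S R) (K * R.eta)` (234; PROVED from `l8l_link, l8l_abs, l8l_ch, l8li_rep`).
* sec. 5  `l8lg_E1`, `l8lg_E1_filter` : the integrated envelope `∑_{l < ti} dv e ≤ Lo² (2 + nb) Y²` (consumer: `l8hf_Ri`, `l8hf_IJ`).
  `I.Full .. → L8lfB (I.sp false) S R` and the asymptotic exit: `Exit/D16.lean` (helper59).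
PROTOCOL: every `sorry` is ONE LEAF (free unless a PROVER is named): claim it in claim286 by its Lean name, replace ONLY your sorry, helpers just above it, land directly.   A false or awkward statement: one line to helper62.
-/

set_option autoImplicit false

namespace Claimed.Agent.R286

open MeasureTheory Finset

/-! ## 1. From the band form to the table -/

/-- parameters of the fit -/
structure L8lfR where
  /-- envelope -/
  e : ℕ → ℝ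
  /-- reference overlap -/
  q : ℕ → ℝ
  /-- loss of the source -/
  A : ℝ
  /-- loss of the truncation envelope `eb = min 1 (A' e)` -/
  A' : ℝ
  /-- top of the refined region (`≤ 1`) -/
  vt : ℝ
  /-- tail probability -/
  eta : ℝ
  /-- constant of (A2) -/
  cP : ℝ
  /-- order of the moments -/
  pm : ℕ
  /-- maximal degree -/
  dmax : ℕ
  /-- the levels `< ti` are low -/
  ti : ℕ

/-- number of dyads `[lo 2^b, 2 lo 2^b]` which cover `[lo, hi]` -/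
noncomputable def l8lfNb (lo hi : ℝ) : ℕ := Nat.log 2 ⌊hi / lo⌋₊ + 1

/-- the common loss of the table -/
noncomputable def l8lfLo (S : L13Scales) (R : L8lfR) : ℝ := 4 * R.A' ^ 2 * R.A * (l8lfNb S.x S.Y + 1)

/-- the exponent of the first moment consequence of (D9) -/
noncomputable def l8lfC1 (S : L13Scales) : ℝ := 3 * S.s / 4 + (1 + S.eta) / 4

/-- the exponent `C` of `x³ λ^(-C) Z²` -/
noncomputable def l8lfCs (S : L13Scales) : ℝ := S.s + (1 + S.eta)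

/-- the constant of the gain -/
noncomputable def l8lfC (d : ℕ) (cP : ℝ) : ℝ := 2 + d + 2 * (d : ℝ) ^ 2 * √cP + 2 * (d : ℝ) ^ 2 * 4 ^ d * √(cP * 4) + 3 * 4 ^ d

section abs
variable {Ω : Type} [MeasurableSpace Ω] {m : ℕ}

namespace L8P
variable (P : L8P Ω m)

/-- the cuts with mass in `[lo, hi]` -/
noncomputable def l8lfI (lo hi : ℝ) : Finset ℕ := (range (P.n + 1)).filter fun k => lo ≤ P.v k ∧ P.v k ≤ hi

/-- the first level of mass `≥ Y` among the levels `< ti` -/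
noncomputable def l8lfTY (Y : ℝ) (ti : ℕ) : ℕ := Nat.findGreatest (fun k => ∀ l < k, P.v l < Y) ti

/-- the data of the instance: terminal pairs -/
noncomputable def l8lfD (S : L13Scales) (R : L8lfR) (t0 : ℕ) : L8lcD where
  tY := P.l8lfTY S.Y R.ti
  ti := R.ti
  t0 := t0
  p1 := max t0 (P.n + 1)
  p2 := max t0 (P.n + 1)
  k1 := fun _ l => max l (P.n + 1)
  k2 := fun _ l => max l (P.n + 1)
  eb := fun l => min 1 (R.A' * |R.e l|)
  eta := R.eta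
  dmax := R.dmax
  cP := R.cP

/-- levels of mass `< x` -/
noncomputable def l8lfR0 (S : L13Scales) (R : L8lfR) : Finset ℕ := (range (P.l8lfTY S.Y R.ti)).filter fun l => P.v l < S.x
/-- levels of mass in `[x, Y)` -/
noncomputable def l8lfR1 (S : L13Scales) (R : L8lfR) : Finset ℕ := (range (P.l8lfTY S.Y R.ti)).filter fun l => S.x ≤ P.v l
/-- the dyads above `Y` -/
noncomputable def l8lfBd (S : L13Scales) (R : L8lfR) (b : Fin (l8lfNb S.Y R.vt)) : Finset ℕ := P.l8lfI (S.Y * 2 ^ (b : ℕ)) (2 * (S.Y * 2 ^ (b : ℕ)))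

end L8P

/-- sizes of the dyads above `Y` -/
noncomputable def l8lfRr (S : L13Scales) (R : L8lfR) (b : Fin (l8lfNb S.Y R.vt)) : ℝ := S.Y * 2 ^ (b : ℕ)

/-- **band form** of what (D16) uses of (D1)-(D9) on a single path (= fields of `I.Full`, `Z_h = 1`), and the conditions on the parameters -/
structure L8lfB (P : L8P Ω m) (S : L13Scales) (R : L8lfR) : Prop where
  hS : L8lcOk S
  hA : 1 ≤ R.A
  hA' : 2 * R.A ≤ R.A'
  a_ge : 1 ≤ P.a
  a_le : P.a ≤ 4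
  vt_le : R.vt ≤ 1
  Y_le : S.Y ≤ R.vt
  ti_le : R.ti ≤ P.n + 1
  low_v : ∀ l < R.ti, P.v l ≤ R.vt
  low_e : ∀ l < R.ti, R.A' * R.e l ≤ 1
  tail : (2 * R.A / R.A') ^ (2 * R.pm) ≤ R.eta
  d_pos : 1 ≤ R.dmax
  d_le : R.dmax ≤ R.pm
  cP_nonneg : 0 ≤ R.cP
  pin : P.Pin 1 R.cP
  e_pos : ∀ k ≤ P.n, 0 < R.e k
  e_low : ∀ k ≤ P.n, P.v k ≤ S.Y → R.e k = S.Y
  bud : ∀ r, S.Y ≤ r → r ≤ R.vt → ∑ k ∈ P.l8lfI r (2 * r), P.dv k * R.e k ^ 2 ≤ R.A * r * (S.Y ^ 2 / r) ^ 2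
  f_le : ∀ k ≤ P.n, P.v k ≤ R.vt → |P.S k - R.q k| ≤ R.A * R.e k
  ref_X : ∀ r, 1 ≤ r → r ≤ R.pm → ∀ k ≤ P.n, P.v k ≤ R.vt → ∫ ω, (P.nX k ω - R.q k) ^ (2 * r) ∂P.μ ≤ (R.A * R.e k) ^ (2 * r)
  ref_L : ∀ r, 1 ≤ r → r ≤ R.pm → ∀ k ≤ P.n, P.v k ≤ R.vt → ∫ ω, (2 * P.L k ω - R.q k) ^ (2 * r) ∂P.μ ≤ (R.A * R.e k) ^ (2 * r)
  ref_Q : ∀ r, 1 ≤ r → r ≤ R.pm → ∀ k ≤ P.n, P.v k ≤ R.vt → ∀ k₁ k₂, k ≤ k₁ → k ≤ k₂ →
    ∫ p, (P.QX k₁ k₂ p - R.q k) ^ (2 * r) ∂P.fork k ≤ (R.A * R.e k) ^ (2 * r)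
  d7_W0 : ∀ r, S.Y ≤ r → r ≤ R.vt → ∑ k ∈ P.l8lfI r (2 * r), P.dv k * ∫ ω, P.W k ω ∂P.μ ≤ R.A * r * (S.z0 r ^ 2 * r ^ 3)
  d7_W1 : ∀ r, S.Y ≤ r → r ≤ R.vt → ∑ k ∈ P.l8lfI r (2 * r), P.dv k * ((∫ ω, P.W k ω ∂P.μ) * R.e k ^ 2) ≤ R.A * r * (S.z0 r ^ 2 * r ^ 3 * (S.Y ^ 2 / r) ^ 2)
  d7_C : ∀ r, S.Y ≤ r → r ≤ R.vt → ∑ k ∈ P.l8lfI r (2 * r), P.dv k * ∫ ω, (P.xCx k ω + P.trC2 k ω) ∂P.μ ≤ R.A * r * (S.z0 r ^ 2 * r ^ 2)
  d9 : ∀ w, 0 < w → w ≤ 2 * S.Y → ∑ k ∈ P.l8lfI (max w S.x) (2 * w), P.dv k * P.D2 k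
    ≤ R.A * S.Y * (S.x ^ 3 * √S.Y / (√S.lam1 * max w S.U ^ (3 / 2 : ℝ)))

theorem l8lf_eqns_cite : True := by
  have := @l8lfNb.eq_1
  have := @l8lfLo.eq_1
  have := @l8lfC1.eq_1
  have := @l8lfCs.eq_1
  have := @l8lfC.eq_1
  have := @L8P.l8lfI.eq_1
  have := @L8P.l8lfTY.eq_1
  have := @L8P.l8lfD.eq_1
  have := @L8P.l8lfR0.eq_1
  have := @L8P.l8lfR1.eq_1
  have := @L8P.l8lfBd.eq_1
  have := @l8lfRr.eq_1
  trivial

/-! ### dyads -/

/-- A1 -/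
theorem l8lf_dy_le {lo hi : ℝ} (h0 : 0 < lo) (h : lo ≤ hi) {b : ℕ} (hb : b < l8lfNb lo hi) : lo * 2 ^ b ≤ hi := by
  unfold l8lfNb at hb
  have h1 : (1 : ℝ) ≤ hi / lo := (one_le_div h0).2 h
  have h2 : 1 ≤ ⌊hi / lo⌋₊ := Nat.le_floor (by exact_mod_cast h1)
  have h3 : 2 ^ b ≤ ⌊hi / lo⌋₊ := Nat.pow_le_of_le_log (by omega) (by omega)
  have h4 : ((2 ^ b : ℕ) : ℝ) ≤ hi / lo := le_trans (by exact_mod_cast h3) (Nat.floor_le (by positivity))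
  push_cast at h4
  rw [le_div_iff₀ h0] at h4
  linarith

/-- A2 -/
theorem l8lf_dy_cover {lo hi u : ℝ} (h0 : 0 < lo) (h1 : lo ≤ u) (h2 : u ≤ hi) :
    ∃ b, b < l8lfNb lo hi ∧ lo * 2 ^ b ≤ u ∧ u ≤ 2 * (lo * 2 ^ b) := by
  have hu : (1 : ℝ) ≤ u / lo := (one_le_div h0).2 h1
  have hf : 1 ≤ ⌊u / lo⌋₊ := Nat.le_floor (by exact_mod_cast hu)
  refine ⟨Nat.log 2 ⌊u / lo⌋₊, ?_, ?_, ?_⟩
  · unfold l8lfNb
    have : Nat.log 2 ⌊u / lo⌋₊ ≤ Nat.log 2 ⌊hi / lo⌋₊ :=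
      Nat.log_mono_right (Nat.floor_le_floor (div_le_div_of_nonneg_right h2 h0.le))
    omega
  · have h3 : 2 ^ Nat.log 2 ⌊u / lo⌋₊ ≤ ⌊u / lo⌋₊ := Nat.pow_log_le_self 2 (by omega)
    have h4 : ((2 ^ Nat.log 2 ⌊u / lo⌋₊ : ℕ) : ℝ) ≤ u / lo := le_trans (by exact_mod_cast h3) (Nat.floor_le (by positivity))
    push_cast at h4
    rw [le_div_iff₀ h0] at h4
    linarith
  · have h3 : ⌊u / lo⌋₊ < 2 ^ (Nat.log 2 ⌊u / lo⌋₊ + 1) := Nat.lt_pow_succ_log_self (by norm_num) _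
    have h4 : ⌊u / lo⌋₊ + 1 ≤ 2 ^ (Nat.log 2 ⌊u / lo⌋₊ + 1) := h3
    have h5 : u / lo < ((⌊u / lo⌋₊ + 1 : ℕ) : ℝ) := by push_cast; exact Nat.lt_floor_add_one _
    have h6 : u / lo < ((2 ^ (Nat.log 2 ⌊u / lo⌋₊ + 1) : ℕ) : ℝ) := lt_of_lt_of_le h5 (by exact_mod_cast h4)
    push_cast at h6
    rw [div_lt_iff₀ h0, pow_succ] at h6
    linarith

/-! ### levels -/

namespace L8P
variable (P : L8P Ω m)

theorem l8lf_TY_le (Y : ℝ) (ti : ℕ) : P.l8lfTY Y ti ≤ ti := Nat.findGreatest_le _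

theorem l8lf_TY_lt {Y : ℝ} {ti l : ℕ} (h : l < P.l8lfTY Y ti) : P.v l < Y :=
  (Nat.findGreatest_spec (P := fun k => ∀ l < k, P.v l < Y) (m := 0) (Nat.zero_le _) (by simp)) l h

theorem l8lf_TY_ge (hP : P.Ok) {Y : ℝ} {ti l : ℕ} (h1 : P.l8lfTY Y ti ≤ l) (h2 : l < ti) : Y ≤ P.v l := by
  by_contra hc
  have hc' : P.v l < Y := not_le.1 hc
  have : l + 1 ≤ P.l8lfTY Y ti :=
    Nat.le_findGreatest (P := fun k => ∀ l < k, P.v l < Y) h2 fun l' hl' => lt_of_le_of_lt (hP.v_mono (Nat.lt_succ_iff.1 hl')) hc'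
  omega

theorem l8lf_sum_dv_range (M : ℕ) : ∑ l ∈ range (M + 1), P.dv l = P.v M := by
  induction M with
  | zero => simp [L8P.dv]
  | succ M ih =>
    rw [Finset.sum_range_succ, ih]
    simp [L8P.dv]

/-- A3: telescoping: the cells of the levels of mass `≤ c` have total length `≤ c` -/
theorem l8lf_sum_dv_le (hP : P.Ok) (K : Finset ℕ) {c : ℝ} (hc : 0 ≤ c) (h : ∀ l ∈ K, P.v l ≤ c) : ∑ l ∈ K, P.dv l ≤ c := by
  rcases K.eq_empty_or_nonempty with rfl | hK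
  · simpa using hc
  · have hM := K.max'_mem hK
    have hsub : K ⊆ range (K.max' hK + 1) := fun l hl => Finset.mem_range.2 (Nat.lt_succ_of_le (K.le_max' l hl))
    calc ∑ l ∈ K, P.dv l ≤ ∑ l ∈ range (K.max' hK + 1), P.dv l :=
          Finset.sum_le_sum_of_subset_of_nonneg hsub fun l _ _ => P.l8c_dv_nonneg hP l
      _ = P.v (K.max' hK) := P.l8lf_sum_dv_range _
      _ ≤ c := h _ hM

/-- a pair of terminal leaves -/
theorem l8lf_QX_term (hP : P.Ok) {k₁ k₂ : ℕ} (h1 : P.n < k₁) (h2 : P.n < k₂) (p : Ω × Ω) : P.QX k₁ k₂ p = P.Q p := by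
  simp only [QX, Q, P.l8s_X_term hP h1, P.l8s_X_term hP h2]

end L8P

/-! ### moments and tails -/

/-- A4: recentring a moment bound (`l8c_mink` with the two functions `f - q` and the constant `q - s`) -/
theorem l8lf_recentre {α : Type} [MeasurableSpace α] (ν : Measure α) [IsProbabilityMeasure ν] {f : α → ℝ} (hf : Measurable f)
    (hfb : ∃ c, ∀ x, |f x| ≤ c) (r : ℕ) (hr : 1 ≤ r) {q s B : ℝ} (hB : 0 ≤ B) (hqs : |s - q| ≤ B)
    (h : ∫ x, (f x - q) ^ (2 * r) ∂ν ≤ B ^ (2 * r)) : ∫ x, (f x - s) ^ (2 * r) ∂ν ≤ (2 * B) ^ (2 * r) := by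
  obtain ⟨c, hc⟩ := hfb
  have key := l8c_mink ν (Finset.univ : Finset Bool) (fun i x => if i then f x - q else q - s) (fun _ => B) r hr
    (by
      intro i _
      cases i
      · exact measurable_const
      · exact hf.sub_const q)
    (by
      intro i _
      cases i
      · exact ⟨|q - s|, fun _ => le_rfl⟩
      · exact ⟨c + |q|, fun x => (abs_sub _ _).trans (add_le_add (hc x) le_rfl)⟩)
    (fun _ _ => hB)
    (by
      intro i _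
      cases i
      · simp only [Bool.false_eq_true, if_false, integral_const, probReal_univ, smul_eq_mul, one_mul]
        rw [← (even_two_mul r).pow_abs, abs_sub_comm]
        exact pow_le_pow_left₀ (abs_nonneg _) hqs _
      · simpa using h)
  have e1 : ∀ x, ∑ i : Bool, (if i then f x - q else q - s) = f x - s := fun x => by
    rw [Fintype.sum_bool]; simp
  have e2 : ∑ _i : Bool, B = 2 * B := by
    rw [Fintype.sum_bool]; ring
  simp only [e1, e2] at key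
  exact key

/-- A5: the tail beyond the truncation envelope (`l8c_markov` with `s = A' e`, `B = 2 A e`) -/
theorem l8lf_tail {α : Type} [MeasurableSpace α] (ν : Measure α) [IsProbabilityMeasure ν] {f : α → ℝ} (hf : Measurable f)
    (hfb : ∃ c, ∀ x, |f x| ≤ c) (pm : ℕ) {A A' e eta : ℝ} (he : 0 < e) (hA' : 0 < A')
    (h : ∫ x, f x ^ (2 * pm) ∂ν ≤ (2 * (A * e)) ^ (2 * pm)) (ht : (2 * A / A') ^ (2 * pm) ≤ eta) :
    ν.real {x | A' * e < |f x|} ≤ eta := by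
  have h1 := l8c_markov ν hf hfb pm (mul_pos hA' he) h
  have e1 : 2 * (A * e) / (A' * e) = 2 * A / A' := by
    field_simp
  rw [e1] at h1
  exact h1.trans ht

section tab
variable {P : L8P Ω m} {S : L13Scales} {R : L8lfR}

theorem l8lf_A'_pos (H : L8lfB P S R) : 0 < R.A' := by linarith [H.hA, H.hA']

theorem l8lf_le_n (H : L8lfB P S R) {l : ℕ} (hl : l < R.ti) : l ≤ P.n := by have := H.ti_le; omega

/-- the truncation envelope on a low level -/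
theorem l8lf_eb_low (H : L8lfB P S R) {l : ℕ} (hl : l < R.ti) : min 1 (R.A' * |R.e l|) = R.A' * R.e l := by
  rw [abs_of_pos (H.e_pos l (l8lf_le_n H hl))]
  exact min_eq_right (H.low_e l hl)

/-- the truncation envelope on any level of the grid -/
theorem l8lf_eb_le (H : L8lfB P S R) {l : ℕ} (hl : l ≤ P.n) : min 1 (R.A' * |R.e l|) ≤ R.A' * R.e l := by
  rw [abs_of_pos (H.e_pos l hl)]
  exact min_le_right _ _

theorem l8lf_eb_nonneg (H : L8lfB P S R) (l : ℕ) : 0 ≤ min 1 (R.A' * |R.e l|) :=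
  le_min zero_le_one (mul_nonneg (l8lf_A'_pos H).le (abs_nonneg _))

theorem l8lf_Ae_nonneg (H : L8lfB P S R) {k : ℕ} (hk : k ≤ P.n) : 0 ≤ R.A * R.e k :=
  mul_nonneg (le_trans zero_le_one H.hA) (H.e_pos k hk).le

/-- M1 (A4 + `ref_X` + `f_le`; `l8s_nX_bd_aux`) -/
theorem l8lf_mom_X (hP : P.Ok) (H : L8lfB P S R) {r : ℕ} (h1 : 1 ≤ r) (h2 : r ≤ R.pm) {k : ℕ} (hk : k ≤ P.n) (hv : P.v k ≤ R.vt) :
    ∫ ω, (P.nX k ω - P.S k) ^ (2 * r) ∂P.μ ≤ (2 * (R.A * R.e k)) ^ (2 * r) := by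
  have := hP.prob
  exact l8lf_recentre P.μ (P.l8s_nX_bd_aux hP k).1 (P.l8s_nX_bd_aux hP k).2 r h1 (l8lf_Ae_nonneg H hk) (H.f_le k hk hv)
    (H.ref_X r h1 h2 k hk hv)

/-- M2 (A4 + `ref_L` + `f_le`; `l8s_L_bd`) -/
theorem l8lf_mom_L (hP : P.Ok) (H : L8lfB P S R) {r : ℕ} (h1 : 1 ≤ r) (h2 : r ≤ R.pm) {k : ℕ} (hk : k ≤ P.n) (hv : P.v k ≤ R.vt) :
    ∫ ω, P.l8cT k ω ^ (2 * r) ∂P.μ ≤ (2 * (R.A * R.e k)) ^ (2 * r) := by
  have := hP.prob
  have hb := (P.l8s_L_bd hP k).const_mul 2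
  exact l8lf_recentre P.μ (f := fun ω => 2 * P.L k ω) hb.1 hb.2 r h1 (l8lf_Ae_nonneg H hk) (H.f_le k hk hv)
    (H.ref_L r h1 h2 k hk hv)

/-- M3 (A4 + `ref_Q` + `f_le`; `l8lc_QX_bd`, `l8s_fork_prob`) -/
theorem l8lf_mom_Q (hP : P.Ok) (H : L8lfB P S R) {r : ℕ} (h1 : 1 ≤ r) (h2 : r ≤ R.pm) {k : ℕ} (hk : k ≤ P.n) (hv : P.v k ≤ R.vt)
    {k₁ k₂ : ℕ} (hk1 : k ≤ k₁) (hk2 : k ≤ k₂) :
    ∫ p, (P.QX k₁ k₂ p - P.S k) ^ (2 * r) ∂P.fork k ≤ (2 * (R.A * R.e k)) ^ (2 * r) := by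
  have := P.l8s_fork_prob hP k
  exact l8lf_recentre (P.fork k) (P.l8lc_QX_bd hP k₁ k₂).1 ⟨1, (P.l8lc_QX_bd hP k₁ k₂).2⟩ r h1 (l8lf_Ae_nonneg H hk) (H.f_le k hk hv)
    (H.ref_Q r h1 h2 k hk hv k₁ k₂ hk1 hk2)

/-- M4: `D_k ≤ 2 A e_k` (M3 with `r = 1` at terminal leaves, `l8lf_QX_term`, `l8s_fork_var_Q`) -/
theorem l8lf_D2_le (hP : P.Ok) (H : L8lfB P S R) {k : ℕ} (hk : k ≤ P.n) (hv : P.v k ≤ R.vt) : √(P.D2 k) ≤ 2 * (R.A * R.e k) := by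
  have h1 := l8lf_mom_Q hP H (r := 1) le_rfl (H.d_pos.trans H.d_le) hk hv (k₁ := max k (P.n + 1)) (k₂ := max k (P.n + 1))
    (le_max_left _ _) (le_max_left _ _)
  have hn : P.n < max k (P.n + 1) := lt_of_lt_of_le (Nat.lt_succ_self _) (le_max_right _ _)
  simp only [P.l8lf_QX_term hP hn hn, mul_one] at h1
  rw [P.l8s_fork_var_Q hP k] at h1
  exact Real.sqrt_le_iff.2 ⟨by have := l8lf_Ae_nonneg H hk; linarith, h1⟩

/-- **the hypotheses of the instance** -/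
theorem l8lf_D_ok (hP : P.Ok) (H : L8lfB P S R) {t0 : ℕ} (h0 : R.ti ≤ t0) : (P.l8lfD S R t0).Ok P where
  le1 := P.l8lf_TY_le _ _
  le2 := h0
  le3 := H.ti_le
  hp1 := le_max_left _ _
  hp2 := le_max_left _ _
  hk1 := fun _ _ => le_max_left _ _
  hk2 := fun _ _ => le_max_left _ _
  eb_nonneg := l8lf_eb_nonneg H
  eb_le := fun _ => min_le_left _ _
  eta_nonneg := le_trans ((even_two_mul R.pm).pow_nonneg _) H.tail
  cP_nonneg := H.cP_nonneg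
  pin := H.pin
  tailX := fun l _ h2 => by
    have := hP.prob
    have hl := l8lf_le_n H h2
    show P.μ.real {ω | min 1 (R.A' * |R.e l|) < |P.nX l ω - P.S l|} ≤ R.eta
    rw [l8lf_eb_low H h2]
    exact l8lf_tail P.μ ((P.l8s_nX_bd_aux hP l).1.sub_const _) ⟨1, P.l8lc_h_xi_le hP l⟩ R.pm (H.e_pos l hl) (l8lf_A'_pos H)
      (l8lf_mom_X hP H (H.d_pos.trans H.d_le) le_rfl hl (H.low_v l h2)) H.tail
  tailL := fun l _ h2 => by
    have := hP.prob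
    have hl := l8lf_le_n H h2
    show P.μ.real {ω | min 1 (R.A' * |R.e l|) < |P.l8cT l ω|} ≤ R.eta
    rw [l8lf_eb_low H h2]
    exact l8lf_tail P.μ (P.l8c_T_bd hP l).1 ⟨4, P.l8c_T_abs_le hP l⟩ R.pm (H.e_pos l hl) (l8lf_A'_pos H)
      (l8lf_mom_L hP H (H.d_pos.trans H.d_le) le_rfl hl (H.low_v l h2)) H.tail
  tailF := fun s l h2 => by
    have := P.l8s_fork_prob hP l
    have hl := l8lf_le_n H h2
    show (P.fork l).real {p | min 1 (R.A' * |R.e l|) < |P.QX (max l (P.n + 1)) (max l (P.n + 1)) p - P.S l|} ≤ R.eta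
    rw [l8lf_eb_low H h2]
    obtain ⟨hm, hb⟩ := P.l8lc_QX_bd hP (max l (P.n + 1)) (max l (P.n + 1))
    refine l8lf_tail (P.fork l) (hm.sub_const _) ⟨2, fun p => ?_⟩ R.pm (H.e_pos l hl) (l8lf_A'_pos H)
      (l8lf_mom_Q hP H (H.d_pos.trans H.d_le) le_rfl hl (H.low_v l h2) (le_max_left _ _) (le_max_left _ _)) H.tail
    have h1 := abs_le.1 (hb p)
    have h3 := P.l8s_S_nonneg l
    have h4 := P.l8s_S_le_one hP l
    rw [abs_le]; constructor <;> linarith [h1.1, h1.2]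
  mean := fun p l hp1 hp2 _ h2 => by
    have := hP.prob
    have hl := l8lf_le_n H h2
    show |∫ ω, (P.nX l ω - P.S l) ^ p ∂P.μ| ≤ (min 1 (R.A' * |R.e l|)) ^ p
    rw [l8lf_eb_low H h2]
    have he := (H.e_pos l hl).le
    have hA := H.hA
    have h5 := l8lc_mean_of_mom P.μ ((P.l8s_nX_bd_aux hP l).1.sub_const (P.S l)) ⟨1, P.l8lc_h_xi_le hP l⟩ p (B := 2 * (R.A * R.e l))
      (by positivity) (l8lf_mom_X hP H hp1 (hp2.trans H.d_le) hl (H.low_v l h2))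
    refine h5.trans (pow_le_pow_left₀ (by positivity) ?_ p)
    calc 2 * (R.A * R.e l) = 2 * R.A * R.e l := by ring
      _ ≤ R.A' * R.e l := mul_le_mul_of_nonneg_right H.hA' he

/-! ### the table -/

theorem l8lf_Lo_ge (H : L8lfB P S R) : 4 * R.A' ^ 2 * R.A ≤ l8lfLo S R := by
  unfold l8lfLo
  have h1 := H.hA
  have h2 := l8lf_A'_pos H
  have : (0 : ℝ) ≤ l8lfNb S.x S.Y := Nat.cast_nonneg _
  nlinarith [mul_nonneg (mul_nonneg (sq_nonneg R.A') (le_trans zero_le_one h1)) this]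

/-- pure form of N1 -/
theorem l8lf_d9_num_aux {X L ζ s eta w : ℝ} (hζ : 0 ≤ ζ) (hw : 0 < w) :
    (Real.exp X * Real.exp L ^ (-s / 2) * Real.exp ζ) ^ 2 * (w * ((Real.exp X * Real.exp L ^ (-s / 2) * Real.exp ζ) *
      (Real.exp X ^ 3 * √(Real.exp X * Real.exp L ^ (-s / 2) * Real.exp ζ) /
        (√(Real.exp L ^ (1 + eta)) * max w (Real.exp X * Real.exp L ^ (-s / 2)) ^ (3 / 2 : ℝ)))))
      ≤ (Real.exp X ^ 3 * Real.exp L ^ (-(3 * s / 4 + (1 + eta) / 4)) * Real.exp ζ ^ 2) ^ 2 := by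
  set U : ℝ := Real.exp X * Real.exp L ^ (-s / 2) with hU
  have hU0 : 0 < U := by positivity
  set M : ℝ := max w U with hM
  have hM0 : 0 < M := lt_of_lt_of_le hw (le_max_left _ _)
  have hwM : w ≤ M := le_max_left _ _
  have hUM : U ≤ M := le_max_right _ _
  have hM32 : M ^ (3 / 2 : ℝ) = M * √M := by
    rw [Real.sqrt_eq_rpow, ← Real.rpow_one_add' hM0.le (by norm_num)]; norm_num
  have h1 : w / M ^ (3 / 2 : ℝ) ≤ 1 / √U := by
    rw [hM32, div_le_div_iff₀ (by positivity) (by positivity), one_mul]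
    exact mul_le_mul hwM (Real.sqrt_le_sqrt hUM) (by positivity) hM0.le
  set Y : ℝ := U * Real.exp ζ with hY
  have hY0 : 0 < Y := by positivity
  have hl0 : 0 < √(Real.exp L ^ (1 + eta)) := by positivity
  calc Y ^ 2 * (w * (Y * (Real.exp X ^ 3 * √Y / (√(Real.exp L ^ (1 + eta)) * M ^ (3 / 2 : ℝ)))))
      = (Y ^ 3 * Real.exp X ^ 3 * √Y / √(Real.exp L ^ (1 + eta))) * (w / M ^ (3 / 2 : ℝ)) := by
        have : 0 < M ^ (3 / 2 : ℝ) := by positivity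
        field_simp
    _ ≤ (Y ^ 3 * Real.exp X ^ 3 * √Y / √(Real.exp L ^ (1 + eta))) * (1 / √U) := by gcongr
    _ ≤ _ := by
        rw [hY, hU]
        simp only [Real.sqrt_eq_rpow, ← Real.exp_mul, ← Real.exp_nat_mul, ← Real.exp_add, ← Real.exp_neg, div_eq_mul_inv, one_mul]
        rw [Real.exp_le_exp]
        push_cast
        linarith

/-- N1 (numbers): `Y² · w Y ε_w ≤ (x³ λ^(-C1) Z²)²`, `C1 = 3s/4 + (1+η)/4`:   `w ≤ max w U`, `U ≤ max w U`, so `w Y ε_w ≤ Y^(3/2) x³ / (√λ₁ U^(1/2))`;   `Y = U Z`, `U = x λ^(-s/2)`, `Z^(7/2) ≤ Z⁴`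
(exponential coordinates: `L13Scales.exp_coords`) -/
theorem l8lf_d9_num (hS : L8lcOk S) {w : ℝ} (hw : 0 < w) :
    S.Y ^ 2 * (w * (S.Y * (S.x ^ 3 * √S.Y / (√S.lam1 * max w S.U ^ (3 / 2 : ℝ))))) ≤ l8lcT S (l8lfC1 S) ^ 2 := by
  obtain ⟨X, L, ζ, hX, hL, hζ⟩ := S.exp_coords
  have hζ0 : 0 ≤ ζ := by
    have h1 := S.hZ
    rw [hζ] at h1
    exact Real.one_le_exp_iff.mp h1
  have key := l8lf_d9_num_aux (X := X) (L := L) (s := S.s) (eta := S.eta) hζ0 hw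
  unfold l8lcT l8lfC1 L13Scales.Y L13Scales.U L13Scales.lam1
  rw [hX, hL, hζ]
  exact key

/-- N2: one dyad of `[x, Y]`: Cauchy-Schwarz in mass (`l8lc_cs` of LsCost or `Finset.sum_mul_sq_le_sq_mul_sq`), A3 (`∑ dv ≤ 2 w`), field `d9` (`max w x = w`), N1 -/
theorem l8lf_d9_dy (hP : P.Ok) (H : L8lfB P S R) {w : ℝ} (h1 : S.x ≤ w) (h2 : w ≤ S.Y) :
    S.Y * ∑ k ∈ P.l8lfI w (2 * w), P.dv k * √(P.D2 k) ≤ 2 * R.A * l8lcT S (l8lfC1 S) := by
  have hx := S.hx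
  have hY := S.Y_pos
  have hw : 0 < w := lt_of_lt_of_le hx h1
  have hA := H.hA
  have hT := l8lc_T_pos (S := S) (l8lfC1 S)
  have hD2 : ∀ k, 0 ≤ P.D2 k := fun k => by
    rw [← P.l8s_fork_var_Q hP k]; exact integral_nonneg fun _ => sq_nonneg _
  have hd9 := H.d9 w hw (by linarith)
  rw [max_eq_left h1] at hd9
  have hsum : ∑ k ∈ P.l8lfI w (2 * w), P.dv k * (1 : ℝ) ^ 2 ≤ 2 * w := by
    simp only [one_pow, mul_one]
    exact P.l8lf_sum_dv_le hP _ (by linarith) fun l hl => (Finset.mem_filter.1 hl).2.2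
  have hsq : ∑ k ∈ P.l8lfI w (2 * w), P.dv k * √(P.D2 k) ^ 2
      ≤ R.A * S.Y * (S.x ^ 3 * √S.Y / (√S.lam1 * max w S.U ^ (3 / 2 : ℝ))) := by
    refine le_trans (le_of_eq ?_) hd9
    exact Finset.sum_congr rfl fun k _ => by rw [Real.sq_sqrt (hD2 k)]
  have hnum := l8lf_d9_num H.hS hw
  have hcs := l8lc_cs (P.l8lfI w (2 * w)) P.dv (fun _ => (1 : ℝ)) (fun k => √(P.D2 k)) (fun k _ => P.l8c_dv_nonneg hP k) hsum hsq
    (c := 2 * R.A * l8lcT S (l8lfC1 S) / S.Y) (by positivity) (by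
      rw [div_pow, le_div_iff₀ (by positivity)]
      calc 2 * w * (R.A * S.Y * (S.x ^ 3 * √S.Y / (√S.lam1 * max w S.U ^ (3 / 2 : ℝ)))) * S.Y ^ 2
          = 2 * R.A * (S.Y ^ 2 * (w * (S.Y * (S.x ^ 3 * √S.Y / (√S.lam1 * max w S.U ^ (3 / 2 : ℝ)))))) := by ring
        _ ≤ 2 * R.A * l8lcT S (l8lfC1 S) ^ 2 := by gcongr
        _ ≤ (2 * R.A) * (2 * R.A) * l8lcT S (l8lfC1 S) ^ 2 := by
            have : 2 * R.A ≤ (2 * R.A) * (2 * R.A) := by nlinarith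
            gcongr
        _ = (2 * R.A * l8lcT S (l8lfC1 S)) ^ 2 := by ring)
  simp only [one_mul] at hcs
  rw [le_div_iff₀ hY] at hcs
  linarith

/-- T1: first moment consequence of (D9): `R1 ⊆ ⋃_{j < J} I(x 2^j, 2 x 2^j)` (A2 with `lo = x`, `hi = Y`; A1), `al = √D2` below `tY`, N2 on each dyad, `l8lc_biUnion_le` -/
theorem l8lf_t_d9 (hP : P.Ok) (H : L8lfB P S R) (t0 : ℕ) :
    S.Y * ∑ l ∈ P.l8lfR1 S R, P.dv l * P.l8lcAl (P.l8lfD S R t0) l ≤ l8lfLo S R * l8lcT S (l8lfC1 S) := by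
  have hx := S.hx
  have hY := S.Y_pos
  have hxY := l8lc_x_le_Y H.hS
  have hA := H.hA
  have hA' := H.hA'
  have hT := l8lc_T_pos (S := S) (l8lfC1 S)
  set J := l8lfNb S.x S.Y with hJ
  set Bd : Fin J → Finset ℕ := fun j => P.l8lfI (S.x * 2 ^ (j : ℕ)) (2 * (S.x * 2 ^ (j : ℕ))) with hBd
  have hf : ∀ l, 0 ≤ P.dv l * √(P.D2 l) := fun l => mul_nonneg (P.l8c_dv_nonneg hP l) (Real.sqrt_nonneg _)
  have hsub : P.l8lfR1 S R ⊆ univ.biUnion Bd := by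
    intro l hl
    obtain ⟨h1, h2⟩ := Finset.mem_filter.1 hl
    have h3 := Finset.mem_range.1 h1
    have hlt := P.l8lf_TY_lt h3
    obtain ⟨b, hb, h4, h5⟩ := l8lf_dy_cover hx h2 hlt.le
    refine Finset.mem_biUnion.2 ⟨⟨b, hb⟩, Finset.mem_univ _, ?_⟩
    have hti := P.l8lf_TY_le S.Y R.ti
    have := H.ti_le
    exact Finset.mem_filter.2 ⟨Finset.mem_range.2 (by omega), h4, h5⟩
  have hal : ∀ l ∈ P.l8lfR1 S R, P.dv l * P.l8lcAl (P.l8lfD S R t0) l = P.dv l * √(P.D2 l) := by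
    intro l hl
    have h3 := Finset.mem_range.1 (Finset.mem_filter.1 hl).1
    unfold L8P.l8lcAl
    rw [if_pos (by exact h3)]
  rw [Finset.sum_congr rfl hal]
  have h1 : ∑ l ∈ P.l8lfR1 S R, P.dv l * √(P.D2 l) ≤ ∑ j, ∑ l ∈ Bd j, P.dv l * √(P.D2 l) :=
    (Finset.sum_le_sum_of_subset_of_nonneg hsub fun l _ _ => hf l).trans (l8lc_biUnion_le Bd _ hf)
  have h2 : ∀ j : Fin J, S.Y * ∑ l ∈ Bd j, P.dv l * √(P.D2 l) ≤ 2 * R.A * l8lcT S (l8lfC1 S) := by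
    intro j
    refine l8lf_d9_dy hP H ?_ (l8lf_dy_le hx hxY j.2)
    have : (1 : ℝ) ≤ 2 ^ (j : ℕ) := one_le_pow₀ (by norm_num)
    nlinarith
  calc S.Y * ∑ l ∈ P.l8lfR1 S R, P.dv l * √(P.D2 l) ≤ S.Y * ∑ j, ∑ l ∈ Bd j, P.dv l * √(P.D2 l) := by gcongr
    _ = ∑ j, S.Y * ∑ l ∈ Bd j, P.dv l * √(P.D2 l) := Finset.mul_sum _ _ _
    _ ≤ ∑ _j : Fin J, 2 * R.A * l8lcT S (l8lfC1 S) := Finset.sum_le_sum fun j _ => h2 j
    _ = J * (2 * R.A) * l8lcT S (l8lfC1 S) := by simp; ring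
    _ ≤ l8lfLo S R * l8lcT S (l8lfC1 S) := by
        refine mul_le_mul_of_nonneg_right ?_ hT.le
        unfold l8lfLo
        rw [← hJ]
        have hJ0 : (0 : ℝ) ≤ J := Nat.cast_nonneg _
        have h4 : 1 ≤ R.A' ^ 2 := one_le_pow₀ (by linarith)
        have h5 : 2 * R.A ≤ 4 * R.A' ^ 2 * R.A := by nlinarith
        calc (J : ℝ) * (2 * R.A) ≤ (J + 1) * (4 * R.A' ^ 2 * R.A) := by
              apply mul_le_mul (by linarith) h5 (by linarith) (by linarith)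
          _ = 4 * R.A' ^ 2 * R.A * (J + 1) := by ring

/-- the size of a dyad above `Y` -/
theorem l8lf_t_rr (H : L8lfB P S R) (b : Fin (l8lfNb S.Y R.vt)) :
    0 < l8lfRr S R b ∧ S.Y ≤ l8lfRr S R b ∧ l8lfRr S R b ≤ R.vt ∧ P.l8lfBd S R b = P.l8lfI (l8lfRr S R b) (2 * l8lfRr S R b) := by
  have hY := S.Y_pos
  have h1 : (1 : ℝ) ≤ 2 ^ (b : ℕ) := one_le_pow₀ (by norm_num)
  refine ⟨mul_pos hY (by positivity), ?_, l8lf_dy_le hY H.Y_le b.2, rfl⟩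
  unfold l8lfRr
  nlinarith

/-- replacing the truncation envelope by `A' e` on a band -/
theorem l8lf_t_eb (hP : P.Ok) (H : L8lfB P S R) (lo hi : ℝ) (g : ℕ → ℝ) (hg : ∀ l, 0 ≤ g l) :
    ∑ l ∈ P.l8lfI lo hi, P.dv l * (min 1 (R.A' * |R.e l|)) ^ 2 * g l ≤ R.A' ^ 2 * ∑ l ∈ P.l8lfI lo hi, P.dv l * (g l * R.e l ^ 2) := by
  rw [Finset.mul_sum]
  refine Finset.sum_le_sum fun l hl => ?_
  have hl' : l ≤ P.n := Nat.lt_succ_iff.1 (Finset.mem_range.1 (Finset.mem_filter.1 hl).1)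
  have h1 : (min 1 (R.A' * |R.e l|)) ^ 2 ≤ (R.A' * R.e l) ^ 2 := pow_le_pow_left₀ (l8lf_eb_nonneg H l) (l8lf_eb_le H hl') 2
  have h2 := P.l8c_dv_nonneg hP l
  calc P.dv l * (min 1 (R.A' * |R.e l|)) ^ 2 * g l ≤ P.dv l * (R.A' * R.e l) ^ 2 * g l := by
        have := hg l
        gcongr
    _ = R.A' ^ 2 * (P.dv l * (g l * R.e l ^ 2)) := by ring

/-- `A'² A ≤ Lo`, `4 A ≤ Lo`, `A ≤ Lo` -/
theorem l8lf_t_Lo (H : L8lfB P S R) : R.A' ^ 2 * R.A ≤ l8lfLo S R ∧ 4 * R.A ≤ l8lfLo S R ∧ R.A ≤ l8lfLo S R := by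
  have h1 := l8lf_Lo_ge H
  have hA := H.hA
  have hA' := H.hA'
  have h2 : 1 ≤ R.A' ^ 2 := one_le_pow₀ (by linarith)
  have h3 : 0 ≤ R.A' ^ 2 * R.A := by positivity
  have h4 : R.A ≤ R.A' ^ 2 * R.A := by nlinarith
  exact ⟨by linarith, by linarith, by linarith⟩

/-- T2: envelope budget (`eb ≤ A' e`, field `bud`) -/
theorem l8lf_t_e2 (hP : P.Ok) (H : L8lfB P S R) (b : Fin (l8lfNb S.Y R.vt)) :
    ∑ l ∈ P.l8lfBd S R b, P.dv l * (min 1 (R.A' * |R.e l|)) ^ 2 ≤ l8lfLo S R * (l8lfRr S R b * (S.Y ^ 2 / l8lfRr S R b) ^ 2) := by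
  obtain ⟨hr0, hrY, hrv, hBd⟩ := l8lf_t_rr (P := P) H b
  rw [hBd]
  have h1 := l8lf_t_eb hP H (l8lfRr S R b) (2 * l8lfRr S R b) (fun _ => 1) (fun _ => zero_le_one)
  simp only [mul_one, one_mul] at h1
  have h2 := H.bud _ hrY hrv
  have h3 := (l8lf_t_Lo H).1
  have h4 : 0 ≤ l8lfRr S R b * (S.Y ^ 2 / l8lfRr S R b) ^ 2 := by positivity
  calc ∑ l ∈ P.l8lfI (l8lfRr S R b) (2 * l8lfRr S R b), P.dv l * (min 1 (R.A' * |R.e l|)) ^ 2
      ≤ R.A' ^ 2 * ∑ l ∈ P.l8lfI (l8lfRr S R b) (2 * l8lfRr S R b), P.dv l * R.e l ^ 2 := h1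
    _ ≤ R.A' ^ 2 * (R.A * l8lfRr S R b * (S.Y ^ 2 / l8lfRr S R b) ^ 2) := by gcongr
    _ = R.A' ^ 2 * R.A * (l8lfRr S R b * (S.Y ^ 2 / l8lfRr S R b) ^ 2) := by ring
    _ ≤ l8lfLo S R * (l8lfRr S R b * (S.Y ^ 2 / l8lfRr S R b) ^ 2) := mul_le_mul_of_nonneg_right h3 h4

/-- T3: (D7) line 2 (`tY ≤ l` on a dyad above `Y`: `l8lf_TY_lt`; `al² = 4 E xCx + E trC2 ≤ 4 E (xCx + trC2)`, field `d7_C`) -/
theorem l8lf_t_a2 (hP : P.Ok) (H : L8lfB P S R) (t0 : ℕ) (b : Fin (l8lfNb S.Y R.vt)) :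
    ∑ l ∈ P.l8lfBd S R b, P.dv l * P.l8lcAl (P.l8lfD S R t0) l ^ 2 ≤ l8lfLo S R * (l8lfRr S R b * (S.z0 (l8lfRr S R b) * l8lfRr S R b) ^ 2) := by
  have := hP.prob
  obtain ⟨hr0, hrY, hrv, hBd⟩ := l8lf_t_rr (P := P) H b
  rw [hBd]
  have h2 := H.d7_C _ hrY hrv
  have h3 := (l8lf_t_Lo H).2.1
  have hz := S.z0_pos hr0
  have hbx : ∀ l, L8Bd (P.xCx l) := fun l =>
    L8Bd.sum _ fun i _ => L8Bd.sum _ fun j _ => ((P.l8s_X_bd hP l i).mul (P.l8s_W_bd_C hP l i j)).mul (P.l8s_X_bd hP l j)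
  have hbt : ∀ l, L8Bd (P.trC2 l) := fun l => L8Bd.sum _ fun i _ => L8Bd.sum _ fun j _ => (P.l8s_W_bd_C hP l i j).pow 2
  have h1 : ∀ l ∈ P.l8lfI (l8lfRr S R b) (2 * l8lfRr S R b),
      P.dv l * P.l8lcAl (P.l8lfD S R t0) l ^ 2 ≤ 4 * (P.dv l * ∫ ω, (P.xCx l ω + P.trC2 l ω) ∂P.μ) := by
    intro l hl
    have hv : l8lfRr S R b ≤ P.v l := (Finset.mem_filter.1 hl).2.1
    have hnl : ¬ l < (P.l8lfD S R t0).tY := by
      intro hc
      have := P.l8lf_TY_lt (Y := S.Y) (ti := R.ti) hc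
      linarith
    have hx := P.l8c_xCx_nonneg hP l
    have ht := P.l8c_trC2_nonneg l
    unfold L8P.l8lcAl
    rw [if_neg hnl, Real.sq_sqrt (by positivity), integral_add ((hbx l).integrable _) ((hbt l).integrable _)]
    have hd := P.l8c_dv_nonneg hP l
    nlinarith
  calc ∑ l ∈ P.l8lfI (l8lfRr S R b) (2 * l8lfRr S R b), P.dv l * P.l8lcAl (P.l8lfD S R t0) l ^ 2
      ≤ ∑ l ∈ P.l8lfI (l8lfRr S R b) (2 * l8lfRr S R b), 4 * (P.dv l * ∫ ω, (P.xCx l ω + P.trC2 l ω) ∂P.μ) := Finset.sum_le_sum h1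
    _ = 4 * ∑ l ∈ P.l8lfI (l8lfRr S R b) (2 * l8lfRr S R b), P.dv l * ∫ ω, (P.xCx l ω + P.trC2 l ω) ∂P.μ := (Finset.mul_sum _ _ _).symm
    _ ≤ 4 * (R.A * l8lfRr S R b * (S.z0 (l8lfRr S R b) ^ 2 * l8lfRr S R b ^ 2)) := by gcongr
    _ = 4 * R.A * (l8lfRr S R b * (S.z0 (l8lfRr S R b) * l8lfRr S R b) ^ 2) := by ring
    _ ≤ l8lfLo S R * (l8lfRr S R b * (S.z0 (l8lfRr S R b) * l8lfRr S R b) ^ 2) := mul_le_mul_of_nonneg_right h3 (by positivity)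

/-- T4: (D7) line 1, `j = 0` -/
theorem l8lf_t_w0 (hP : P.Ok) (H : L8lfB P S R) (b : Fin (l8lfNb S.Y R.vt)) :
    ∑ l ∈ P.l8lfBd S R b, P.dv l * ∫ ω, P.W l ω ∂P.μ ≤ l8lfLo S R * (l8lfRr S R b * (S.z0 (l8lfRr S R b) * l8lfRr S R b)) ^ 2 := by
  obtain ⟨hr0, hrY, hrv, hBd⟩ := l8lf_t_rr (P := P) H b
  rw [hBd]
  have h2 := H.d7_W0 _ hrY hrv
  have h3 := (l8lf_t_Lo H).2.2
  calc ∑ l ∈ P.l8lfI (l8lfRr S R b) (2 * l8lfRr S R b), P.dv l * ∫ ω, P.W l ω ∂P.μ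
      ≤ R.A * l8lfRr S R b * (S.z0 (l8lfRr S R b) ^ 2 * l8lfRr S R b ^ 3) := h2
    _ = R.A * (l8lfRr S R b * (S.z0 (l8lfRr S R b) * l8lfRr S R b)) ^ 2 := by ring
    _ ≤ l8lfLo S R * (l8lfRr S R b * (S.z0 (l8lfRr S R b) * l8lfRr S R b)) ^ 2 := mul_le_mul_of_nonneg_right h3 (by positivity)

/-- T5: (D7) line 1, `j = 1` (`eb ≤ A' e`) -/
theorem l8lf_t_w1 (hP : P.Ok) (H : L8lfB P S R) (b : Fin (l8lfNb S.Y R.vt)) :
    ∑ l ∈ P.l8lfBd S R b, P.dv l * (min 1 (R.A' * |R.e l|)) ^ 2 * ∫ ω, P.W l ω ∂P.μ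
      ≤ l8lfLo S R * (l8lfRr S R b * (S.z0 (l8lfRr S R b) * l8lfRr S R b) * (S.Y ^ 2 / l8lfRr S R b)) ^ 2 := by
  obtain ⟨hr0, hrY, hrv, hBd⟩ := l8lf_t_rr (P := P) H b
  rw [hBd]
  have h1 := l8lf_t_eb hP H (l8lfRr S R b) (2 * l8lfRr S R b) (fun l => ∫ ω, P.W l ω ∂P.μ)
    (fun l => integral_nonneg fun ω => P.l8s_W_nonneg hP l ω)
  have h2 := H.d7_W1 _ hrY hrv
  have h3 := (l8lf_t_Lo H).1
  calc ∑ l ∈ P.l8lfI (l8lfRr S R b) (2 * l8lfRr S R b), P.dv l * (min 1 (R.A' * |R.e l|)) ^ 2 * ∫ ω, P.W l ω ∂P.μ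
      ≤ R.A' ^ 2 * ∑ l ∈ P.l8lfI (l8lfRr S R b) (2 * l8lfRr S R b), P.dv l * ((∫ ω, P.W l ω ∂P.μ) * R.e l ^ 2) := h1
    _ ≤ R.A' ^ 2 * (R.A * l8lfRr S R b * (S.z0 (l8lfRr S R b) ^ 2 * l8lfRr S R b ^ 3 * (S.Y ^ 2 / l8lfRr S R b) ^ 2)) := by gcongr
    _ = R.A' ^ 2 * R.A * (l8lfRr S R b * (S.z0 (l8lfRr S R b) * l8lfRr S R b) * (S.Y ^ 2 / l8lfRr S R b)) ^ 2 := by ring
    _ ≤ l8lfLo S R * (l8lfRr S R b * (S.z0 (l8lfRr S R b) * l8lfRr S R b) * (S.Y ^ 2 / l8lfRr S R b)) ^ 2 :=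
        mul_le_mul_of_nonneg_right h3 (by positivity)

/-- T6: below `Y` everything is `≤ Lo Y`: `eb l ≤ A' Y`, `al l = D_l ≤ 2 A Y` -/
theorem l8lf_t_low (hP : P.Ok) (H : L8lfB P S R) (t0 : ℕ) {l : ℕ} (hl : l < P.l8lfTY S.Y R.ti) :
    min 1 (R.A' * |R.e l|) ≤ l8lfLo S R * S.Y ∧ P.l8lcAl (P.l8lfD S R t0) l ≤ l8lfLo S R * S.Y := by
  have hv : P.v l < S.Y := P.l8lf_TY_lt hl
  have hti : l < R.ti := lt_of_lt_of_le hl (P.l8lf_TY_le _ _)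
  have hn := l8lf_le_n H hti
  have he : R.e l = S.Y := H.e_low l hn hv.le
  have hLo := l8lf_Lo_ge H
  have hA := H.hA
  have hA' := H.hA'
  have hY := S.Y_pos
  have hA2 : 2 ≤ R.A' := by linarith
  have hAA : R.A' ≤ R.A' ^ 2 := by nlinarith
  have hAAA : R.A' ^ 2 ≤ R.A' ^ 2 * R.A := by nlinarith [sq_nonneg R.A']
  constructor
  · refine (l8lf_eb_le H hn).trans ?_
    rw [he]
    exact mul_le_mul_of_nonneg_right (by linarith) hY.le
  · have e : P.l8lcAl (P.l8lfD S R t0) l = √(P.D2 l) := by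
      unfold L8P.l8lcAl
      exact if_pos hl
    rw [e]
    refine (l8lf_D2_le hP H hn (H.low_v l hti)).trans ?_
    rw [he, ← mul_assoc]
    exact mul_le_mul_of_nonneg_right (by linarith) hY.le

/-- T7: `v / a ≤ c` if `v ≤ c` (`a ≥ 1`) and `c ≤ Lo c` -/
theorem l8lf_t_vv (hP : P.Ok) (H : L8lfB P S R) {l : ℕ} {c c' : ℝ} (hc : P.v l ≤ c * c') (h2 : c ≤ 2) (hc' : 0 ≤ c') : P.v l / P.a ≤ l8lfLo S R * c' := by
  have hLo := l8lf_Lo_ge H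
  have hA := H.hA
  have hA' := H.hA'
  have hLo4 : 4 ≤ l8lfLo S R := by nlinarith [sq_nonneg (R.A' - 1)]
  have h1 : P.v l / P.a ≤ P.v l := div_le_self (hP.v_nonneg l) H.a_ge
  have h3 : c * c' ≤ 2 * c' := mul_le_mul_of_nonneg_right h2 hc'
  have h4 : 2 * c' ≤ l8lfLo S R * c' := mul_le_mul_of_nonneg_right (by linarith) hc'
  linarith

/-- T8: the dyads cover the levels above `Y` -/
theorem l8lf_t_high (hP : P.Ok) (H : L8lfB P S R) : Ico (P.l8lfTY S.Y R.ti) R.ti ⊆ univ.biUnion (P.l8lfBd S R) := by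
  intro l hl
  obtain ⟨h1, h2⟩ := Finset.mem_Ico.1 hl
  obtain ⟨b, hb, h3, h4⟩ := l8lf_dy_cover S.Y_pos (P.l8lf_TY_ge hP h1 h2) (H.low_v l h2)
  refine Finset.mem_biUnion.2 ⟨⟨b, hb⟩, Finset.mem_univ _, ?_⟩
  exact Finset.mem_filter.2 ⟨Finset.mem_range.2 (Nat.lt_succ_of_le (l8lf_le_n H h2)), h3, h4⟩

/-- **the band inputs of the table** -/
theorem l8lf_N_ok (hP : P.Ok) (H : L8lfB P S R) (t0 : ℕ) :
    (P.l8lcN (P.l8lfD S R t0)).Ok S (l8lfLo S R) (l8lfC1 S) (P.l8lfR0 S R) (P.l8lfR1 S R) (P.l8lfBd S R) (l8lfRr S R) := by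
  have hLo4 := l8lf_Lo_ge H
  have hA := H.hA
  have hA' := H.hA'
  have hLo : 4 ≤ l8lfLo S R := by nlinarith [sq_nonneg (R.A' - 1)]
  have hY := S.Y_pos
  have hx := S.hx
  have hr0 : ∀ b, 0 < l8lfRr S R b := fun b => mul_pos hY (by positivity)
  have hmem : ∀ b, ∀ l ∈ P.l8lfBd S R b, P.v l ≤ 2 * l8lfRr S R b := fun b l hl => (Finset.mem_filter.1 hl).2.2
  refine ⟨by linarith, P.l8lf_TY_le _ _, P.l8c_dv_nonneg hP, fun l => div_nonneg (hP.v_nonneg l) hP.a_pos.le, l8lf_eb_nonneg H,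
    P.l8lc_al_nonneg _, fun l => integral_nonneg fun ω => P.l8s_W_nonneg hP l ω, ?_, l8lf_t_high hP H, ?_, ?_, ?_, ?_, ?_, ?_, ?_,
    l8lf_t_d9 hP H t0, ?_, ?_, ?_, ?_, l8lf_t_e2 hP H, l8lf_t_a2 hP H t0, l8lf_t_w0 hP H, l8lf_t_w1 hP H⟩
  · intro l hl
    by_cases h : P.v l < S.x
    · exact Finset.mem_union_left _ (Finset.mem_filter.2 ⟨hl, h⟩)
    · exact Finset.mem_union_right _ (Finset.mem_filter.2 ⟨hl, not_lt.1 h⟩)
  · exact P.l8lf_sum_dv_le hP _ hx.le fun l hl => (Finset.mem_filter.1 hl).2.le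
  · intro l hl
    exact l8lf_t_vv hP H (c := 1) (by rw [one_mul]; exact (Finset.mem_filter.1 hl).2.le) (by norm_num) hx.le
  · intro l hl
    exact (l8lf_t_low hP H t0 (Finset.mem_range.1 (Finset.mem_filter.1 hl).1)).1
  · intro l hl
    exact (l8lf_t_low hP H t0 (Finset.mem_range.1 (Finset.mem_filter.1 hl).1)).2
  · have h1 := P.l8lf_sum_dv_le hP (P.l8lfR1 S R) hY.le fun l hl => (P.l8lf_TY_lt (Finset.mem_range.1 (Finset.mem_filter.1 hl).1)).le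
    refine h1.trans ?_
    nlinarith
  · intro l hl
    exact l8lf_t_vv hP H (c := 1) (by rw [one_mul]; exact (P.l8lf_TY_lt (Finset.mem_range.1 (Finset.mem_filter.1 hl).1)).le) (by norm_num) hY.le
  · intro l hl
    exact (l8lf_t_low hP H t0 (Finset.mem_range.1 (Finset.mem_filter.1 hl).1)).1
  · intro b
    have : (1 : ℝ) ≤ 2 ^ (b : ℕ) := one_le_pow₀ (by norm_num)
    unfold l8lfRr
    nlinarith
  · intro b
    exact (l8lf_dy_le hY H.Y_le b.2).trans H.vt_le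
  · intro b
    have h1 := P.l8lf_sum_dv_le hP (P.l8lfBd S R b) (c := 2 * l8lfRr S R b) (by linarith [hr0 b]) (hmem b)
    refine h1.trans ?_
    nlinarith [hr0 b]
  · intro b l hl
    exact l8lf_t_vv hP H (c := 2) (hmem b l hl) le_rfl (hr0 b).le

/-- **the gain** -/
theorem l8lf_gain (hP : P.Ok) (H : L8lfB P S R) (t0 : ℕ) :
    (P.l8lcIn (P.l8lfD S R t0)).gain ≤ l8lfC R.dmax R.cP * (l8lcM S (l8lfLo S R) (l8lfCs S) (l8lfNb S.Y R.vt) + √R.eta) := by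
  have hN := l8lf_N_ok hP H t0
  have hs := H.hS.s_nonneg
  have he := H.hS.eta_nonneg
  have heta : 0 ≤ R.eta := le_trans ((even_two_mul R.pm).pow_nonneg _) H.tail
  have key := l8lc_num_gain H.hS hN (Cs := l8lfCs S) (by unfold l8lfCs; linarith) (by unfold l8lfC1 l8lfCs; linarith)
    (by unfold l8lfCs; linarith) H.cP_nonneg hP.a_pos.le heta H.d_pos
  rw [Fintype.card_fin] at key
  have hms0 : 0 ≤ (P.l8lcN (P.l8lfD S R t0)).ms := Finset.sum_nonneg fun l _ => P.l8c_dv_nonneg hP l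
  have hms : (P.l8lcN (P.l8lfD S R t0)).ms ≤ 1 := by
    refine le_trans ?_ H.vt_le
    exact P.l8lf_sum_dv_le hP _ (le_trans S.Y_pos.le H.Y_le) fun l hl => H.low_v l (Finset.mem_Ico.1 hl).2
  set M := l8lcM S (l8lfLo S R) (l8lfCs S) (l8lfNb S.Y R.vt) with hM
  have hLo : 0 ≤ l8lfLo S R := le_trans (by have := H.hA; have := l8lf_A'_pos H; positivity) (l8lf_Lo_ge H)
  have hM0 : 0 ≤ M := by
    rw [hM]; unfold l8lcM
    have := l8lc_T_pos (S := S) (l8lfCs S)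
    positivity
  have hse := Real.sqrt_nonneg R.eta
  have hcP := H.cP_nonneg
  have h1 : √(R.cP * P.a * (P.l8lcN (P.l8lfD S R t0)).ms) ≤ √(R.cP * 4) := by
    refine Real.sqrt_le_sqrt ?_
    calc R.cP * P.a * (P.l8lcN (P.l8lfD S R t0)).ms ≤ R.cP * 4 * 1 := by
          have := H.a_le
          have := hP.a_pos
          gcongr
      _ = R.cP * 4 := mul_one _
  show max _ _ ≤ _
  refine key.trans ?_
  unfold l8lfC
  have hd0 : (0 : ℝ) ≤ R.dmax := Nat.cast_nonneg _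
  have h2 : (2 * (R.dmax : ℝ) ^ 2 * 4 ^ R.dmax * √(R.cP * P.a * (P.l8lcN (P.l8lfD S R t0)).ms) + 3 * 4 ^ R.dmax * (P.l8lcN (P.l8lfD S R t0)).ms) * √R.eta
      ≤ (2 * (R.dmax : ℝ) ^ 2 * 4 ^ R.dmax * √(R.cP * 4) + 3 * 4 ^ R.dmax * 1) * √R.eta := by gcongr
  have h3 : 0 ≤ (2 + (R.dmax : ℝ) + 2 * (R.dmax : ℝ) ^ 2 * √R.cP) * √R.eta := by positivity
  have h4 : 0 ≤ (2 * (R.dmax : ℝ) ^ 2 * 4 ^ R.dmax * √(R.cP * 4) + 3 * 4 ^ R.dmax) * M := by positivity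
  nlinarith

end tab

end abs

/-! ## 2. SK: the pair dictionary at one instance `I : L8In`      (helper234, prefix `l8lg_`; sec. 2-5 need `l8hs_dic`, `l8hf_basic` of `L08/HiFin.lean`) -/

theorem l8lg_sp (I : L8In) : I.sp false = skSP I.m I.a (llMv none I.LP) := rfl

theorem l8lg_sp_ok (I : L8In) (hm : 1 ≤ I.m) (ha : 0 < I.a) (hadm : LlStpAdm I.a I.LP) : (I.sp false).Ok :=
  l8i_ok I.m hm I.a ha _ (ll2_mv_adm hadm none)

theorem l8lg_n (I : L8In) : (I.sp false).n = I.n := by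
  show (llMat I.LP).length = I.LP.length
  simp [llMat]

theorem l8lg_v (I : L8In) (k : ℕ) : (I.sp false).v k = I.v k := rfl

theorem l8lg_a (I : L8In) : (I.sp false).a = I.a := rfl

theorem l8lg_dv (I : L8In) (k : ℕ) : (I.sp false).dv k = I.dv k := rfl

theorem l8lg_S (I : L8In) (ha : 0 < I.a) (hadm : LlStpAdm I.a I.LP) {k : ℕ} (hk : k ≤ I.n) : (I.sp false).S k = I.S k :=
  l8i_S I.m I.a ha _ (ll2_mv_adm hadm none) k (by rw [ll2_mv_len]; exact hk)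

theorem l8lg_D2 (I : L8In) (ha : 0 < I.a) (hadm : LlStpAdm I.a I.LP) {k : ℕ} (hk : k ≤ I.n) : (I.sp false).D2 k = I.D2 k := by
  have h1 := l8i_S I.m I.a ha _ (ll2_mv_adm hadm none) k (by rw [ll2_mv_len]; exact hk)
  have h2 := l8i_B I.m I.a ha _ (ll2_mv_adm hadm none) k (by rw [ll2_mv_len]; exact hk)
  show (skSP I.m I.a (llMv none I.LP)).B k - (skSP I.m I.a (llMv none I.LP)).S k ^ 2 = _
  rw [h1, h2]
  rfl

/-- the overlap of the two branches is the overlap of the terminal spins -/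
theorem l8lg_Q (I : L8In) (hm : 1 ≤ I.m) (p : SkOm I.m × SkOm I.m) : (I.sp false).Q p = (I.X false).ov p.1.2 p.2.2 := by
  show ∑ i, skY p.1.2 i * skY p.2.2 i = skOv p.1.2 p.2.2
  have hm' : (0 : ℝ) < I.m := by exact_mod_cast hm
  unfold skY skOv
  rw [Finset.sum_div]
  refine Finset.sum_congr rfl fun i _ => ?_
  rw [div_mul_div_comm, Real.mul_self_sqrt hm'.le]

/-- the weight of a level in the mass integrals = the cell of the allocation rule, ALL levels -/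
theorem l8lg_mu (I : L8In) (hm : 1 ≤ I.m) (ha : 0 < I.a) (hadm : LlStpAdm I.a I.LP) : (I.sp false).dv = l8lMu (llMs I.a I.LP) I.n := by
  funext l
  have hP := l8lg_sp_ok I hm ha hadm
  by_cases hl : l ≤ I.n
  · unfold l8lMu
    rw [if_pos hl]
    show skMs I.a (llMat I.LP) l - (if l = 0 then 0 else skMs I.a (llMat I.LP) (l - 1)) = llMs I.a I.LP l - trPm (llMs I.a I.LP) l
    have e : ∀ j, skMs I.a (llMat I.LP) j = llMs I.a I.LP j := by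
      intro j
      unfold skMs llMs llMat
      simp [List.getD_eq_getElem?_getD, Function.comp_def]
    unfold trPm
    simp only [e]
  · unfold l8lMu
    rw [if_neg hl]
    have h1 : (I.sp false).v l = (I.sp false).a := hP.v_term l (by rw [l8lg_n]; omega)
    have h2 : (I.sp false).v (l - 1) = (I.sp false).a := hP.v_term (l - 1) (by rw [l8lg_n]; omega)
    unfold L8P.dv
    rw [if_neg (by omega), h1, h2, sub_self]

/-- `S` of the jet context = `S` of the single path -/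
theorem l8lg_Sf (I : L8In) (hm : 1 ≤ I.m) (ha : 0 < I.a) (hadm : LlStpAdm I.a I.LP) {k : ℕ} (hk : k ≤ I.n) :
    (I.X false).Sf k = (I.sp false).S k := by
  rw [l8lg_S I ha hadm hk]
  exact (l8hs_dic I hm ha hadm k hk).1

/-- `D` of the jet context = `D` of the single path -/
theorem l8lg_Dd (I : L8In) (hm : 1 ≤ I.m) (ha : 0 < I.a) (hadm : LlStpAdm I.a I.LP) {k : ℕ} (hk : k ≤ I.n) :
    (I.X false).Dd k = √((I.sp false).D2 k) := by
  rw [l8lg_D2 I ha hadm hk]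
  show √((I.X false).D2 k) = _
  rw [(l8hs_dic I hm ha hadm k hk).2.1]

/-! ## 3. the fit -/

/-- the bound of the gain -/
noncomputable def l8lgG (S : L13Scales) (R : L8lfR) : ℝ :=
  l8lfC R.dmax R.cP * (l8lcM S (l8lfLo S R) (l8lfCs S) (l8lfNb S.Y R.vt) + √R.eta)

/-- **FIT**: the analytic inputs of the abstract lemma belong to the jet context of the instance -/
theorem l8lg_fit (I : L8In) (hm : 1 ≤ I.m) (ha : 0 < I.a) (hadm : LlStpAdm I.a I.LP) {S : L13Scales} {R : L8lfR}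
    (H : L8lfB (I.sp false) S R) (k n : ℕ) (hn : n ≤ R.dmax) {t0 : ℕ} (h1 : R.ti ≤ t0) (h2 : t0 ≤ I.n) :
    L8LFit (I.X false) (l8liSk I.m I.a I.LP none (2 + k)) Prod.snd ((I.sp false).l8lcIn ((I.sp false).l8lfD S R t0)) t0 R.ti n
      (fun l => min 1 (R.A' * |R.e l|)) (fun l => I.v l / I.a) (l8lMu (llMs I.a I.LP) I.n) (l8lgG S R) R.eta := by
  have hP := l8lg_sp_ok I hm ha hadm
  have hterm : ∀ l : ℕ, (I.sp false).n < max l ((I.sp false).n + 1) := fun l => lt_of_lt_of_le (Nat.lt_succ_self _) (le_max_right _ _)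
  refine ⟨(I.sp false).l8lc_in_ok hP (l8lf_D_ok hP H h1) rfl (fun _ => rfl), rfl, rfl, rfl, rfl, l8lg_mu I hm ha hadm, hn, ?_,
    l8lf_gain hP H t0, le_rfl, ?_, ?_⟩
  · show √(∫ p, ((I.sp false).QX (max t0 ((I.sp false).n + 1)) (max t0 ((I.sp false).n + 1)) p - (I.sp false).S t0) ^ 2 ∂(I.sp false).fork t0)
      = (I.X false).Dd t0
    simp only [(I.sp false).l8lf_QX_term hP (hterm t0) (hterm t0)]
    rw [(I.sp false).l8s_fork_var_Q hP t0, l8lg_Dd I hm ha hadm h2]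
  · intro p
    show (I.sp false).QX (max t0 ((I.sp false).n + 1)) (max t0 ((I.sp false).n + 1)) p - (I.sp false).S t0 = _
    rw [(I.sp false).l8lf_QX_term hP (hterm t0) (hterm t0), l8lg_Q I hm, l8lg_Sf I hm ha hadm h2]
  · intro s l p hl
    show (I.sp false).QX (max l ((I.sp false).n + 1)) (max l ((I.sp false).n + 1)) p - (I.sp false).S l = _
    rw [(I.sp false).l8lf_QX_term hP (hterm l) (hterm l), l8lg_Q I hm, l8lg_Sf I hm ha hadm (by omega)]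

/-! ## 4. (D16), first conclusion, at one instance -/

/-- **(D16), first conclusion, at one instance**, from the band form `L8lfB` of the low-region statistics.      `K` depends on the numbers `k` of new labels and `n` of low factors only. -/
theorem l8lg_ls1 (k n : ℕ) : ∃ K : ℝ, 0 ≤ K ∧ ∀ (I : L8In) (S : L13Scales) (R : L8lfR), 1 ≤ I.m → 0 < I.a → I.a ≤ 4 → LlStpAdm I.a I.LP →
    L8lfB (I.sp false) S R → n ≤ R.dmax →
    L8_LS1 (I.X false) R.ti (fun l => min 1 (R.A' * |R.e l|)) (fun l => I.v l / I.a) k n (K * l8lgG S R) (K * R.eta) := by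
  obtain ⟨nch, Cch, hCch, HC⟩ := l8l_ch k 4
  obtain ⟨K, hK, HL⟩ := l8l_link l8l_abs n k (2 + k) nch
  refine ⟨K * nch * Cch * 4 ^ (2 + k), by positivity, ?_⟩
  intro I S R hm ha ha4 hadm H hn
  have hms := ll2_isMs ha hadm
  exact HL _ (I.X false) _ (l8liSk I.m I.a I.LP none (2 + k)) Prod.snd R.ti Cch 4
    (fun t0 => (I.sp false).l8lcIn ((I.sp false).l8lfD S R t0)) _ _ (l8lMu (llMs I.a I.LP) I.n) (l8lgG S R) R.eta
    (l8li_rep I.m I.a ha I.LP hadm none (2 + k) (by omega)) (by norm_num) hCch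
    (fun t0 h1 h2 => l8lg_fit I hm ha hadm H k n hn h1 h2)
    (fun t0 h1 h2 => HC I.n (llMs I.a I.LP) t0 R.ti 4 hms (by rw [show I.n = I.LP.length from rfl, l8ha_ms_top]; exact ha4) le_rfl (by norm_num) h1 h2)

/-- the same on a smoothed size path, in the form cited by `Exit/D16.lean` (helper59: `L8LsInst`) -/
theorem l8lg_inst (n k : ℕ) : ∃ K : ℝ, 0 ≤ K ∧ ∀ (I : L8In) (S : L13Scales) (R : L8lfR), I.Ok → l8Siz I.p → LlStpAdm I.a I.LP →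
    L8lfB (I.sp false) S R → n ≤ R.dmax →
    L8_LS1 (I.X false) R.ti (fun l => min 1 (R.A' * |R.e l|)) (fun l => I.v l / I.a) k n
      (K * (l8lfC R.dmax R.cP * (l8lcM S (l8lfLo S R) (l8lfCs S) (l8lfNb S.Y R.vt) + √R.eta))) (K * R.eta) := by
  obtain ⟨K, hK, H⟩ := l8lg_ls1 k n
  refine ⟨K, hK, fun I S R hI hs hadm hB hn => ?_⟩
  obtain ⟨ha, -, -, hm, -⟩ := l8hf_basic I hI hs hadm
  exact H I S R hm (by rw [ha]; norm_num) (by rw [ha]) hadm hB hn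

/-! ## 5. the integrated envelope -/

/-- **the integrated envelope** `∫_{v < V_i} e dv ≲ Y²` at one instance (LL 08 l.1396, l.1431-1433).      Consumer: the integral terms `Ri`, `IJ` of the longitudinal equation of (D15) (`l8hf_Ri`, `l8hf_IJ`: hypothesis `hE1`). -/
theorem l8lg_E1 (I : L8In) (hm : 1 ≤ I.m) (ha : 0 < I.a) (hadm : LlStpAdm I.a I.LP) {S : L13Scales} {R : L8lfR} (H : L8lfB (I.sp false) S R) :
    ∑ l ∈ range R.ti, I.dv l * R.e l ≤ l8lfLo S R ^ 2 * (2 + l8lfNb S.Y R.vt) * S.Y ^ 2 := by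
  have hP := l8lg_sp_ok I hm ha hadm
  have h1 := l8lc_E1_le H.hS (l8lf_N_ok hP H R.ti)
  rw [Fintype.card_fin] at h1
  refine le_trans ?_ h1
  show _ ≤ ∑ l ∈ range R.ti, (I.sp false).dv l * min 1 (R.A' * |R.e l|)
  refine Finset.sum_le_sum fun l hl => ?_
  have hl' := Finset.mem_range.1 hl
  rw [l8lf_eb_low H hl', l8lg_dv]
  have he := (H.e_pos l (l8lf_le_n H hl')).le
  have hA' : 1 ≤ R.A' := by linarith [H.hA, H.hA']
  have hdv : 0 ≤ I.dv l := (I.sp false).l8c_dv_nonneg hP l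
  exact mul_le_mul_of_nonneg_left (by nlinarith) hdv

/-- the same over the levels of mass `< V`, if these are low (form of the hypothesis `hE1` of `l8hf_Ri`, `l8hf_IJ`) -/
theorem l8lg_E1_filter (I : L8In) (hm : 1 ≤ I.m) (ha : 0 < I.a) (hadm : LlStpAdm I.a I.LP) {S : L13Scales} {R : L8lfR}
    (H : L8lfB (I.sp false) S R) (V : ℝ) (hV : ∀ l ≤ I.n, I.v l < V → l < R.ti) :
    ∑ l ∈ (range (I.n + 1)).filter (fun l => I.v l < V), I.dv l * R.e l ≤ l8lfLo S R ^ 2 * (2 + l8lfNb S.Y R.vt) * S.Y ^ 2 := by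
  have hP := l8lg_sp_ok I hm ha hadm
  refine le_trans ?_ (l8lg_E1 I hm ha hadm H)
  refine Finset.sum_le_sum_of_subset_of_nonneg ?_ ?_
  · intro l hl
    obtain ⟨h1, h2⟩ := Finset.mem_filter.1 hl
    exact Finset.mem_range.2 (hV l (Nat.lt_succ_iff.1 (Finset.mem_range.1 h1)) h2)
  · intro l hl _
    have hl' := Finset.mem_range.1 hl
    exact mul_nonneg ((I.sp false).l8c_dv_nonneg hP l) (H.e_pos l (l8lf_le_n H hl')).le

theorem l8lg_eqns_cite : True := by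
  have := @l8lgG.eq_1
  trivial

end Claimed.Agent.R286
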