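import Claimed.Agent.R286.L08.LsAbs

/-!
# Row 286 (S0533), folder L08, file LsKit : KIT of the abstract low-source lemma      (architect helper234; prefix `l8l_`)

Leaves K1-K9 (marginals, sharing, Cauchy-Schwarz with the retained test, truncation, Fubini on the box) and the ONE-STEP lemma `l8l_os`
(= "centred integration in a fixed marginal": LL 08 l.1437-1480).      Mathlib only.      Replace the `sorry`s in place, keep the statements;
a false statement = one line to helper234.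
-/

set_option autoImplicit false

namespace Claimed.Agent.R286

open MeasureTheory Finset

variable {Ω : Type} [MeasurableSpace Ω] {T : L8L Ω} {I : L8LIn Ω}

/-- K1: a function of two labels -/
theorem l8l_int2 (hT : T.Ok) {τ : ℕ → ℕ → ℕ} (hτ : T.V τ) {x y : ℕ} (hx : x < T.r) (hy : y < T.r) (hxy : x ≠ y)
    {G : Ω × Ω → ℝ} (hG : Measurable G) : ∫ ω, G (ω x, ω y) ∂T.law τ = ∫ p, G p ∂T.fork (τ x y) := by
  rw [← hT.marg2 τ hτ x y hx hy hxy,
    integral_map ((measurable_pi_apply x).prodMk (measurable_pi_apply y)).aemeasurable hG.aestronglyMeasurable]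

/-- a second label -/
theorem l8l_other (hT : T.Ok) (x : ℕ) : ∃ y, y < T.r ∧ x ≠ y := by
  have h2 := hT.two
  by_cases hx : x = 0
  · exact ⟨1, by omega, by omega⟩
  · exact ⟨0, by omega, hx⟩

/-- K2: a function of one label -/
theorem l8l_int1 (hT : T.Ok) {τ : ℕ → ℕ → ℕ} (hτ : T.V τ) {x : ℕ} (hx : x < T.r)
    {g : Ω → ℝ} (hg : Measurable g) : ∫ ω, g (ω x) ∂T.law τ = ∫ ω, g ω ∂T.μ := by
  obtain ⟨y, hy, hxy⟩ := l8l_other hT x
  have h := l8l_int2 hT hτ hx hy hxy (G := fun p => g p.1) (hg.comp measurable_fst)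
  rw [h, ← hT.fst (τ x y), integral_map measurable_fst.aemeasurable hg.aestronglyMeasurable]

/-- K3: an event of two labels -/
theorem l8l_prob2 (hT : T.Ok) {τ : ℕ → ℕ → ℕ} (hτ : T.V τ) {x y : ℕ} (hx : x < T.r) (hy : y < T.r) (hxy : x ≠ y)
    {s : Set (Ω × Ω)} (hs : MeasurableSet s) : (T.law τ).real {ω | (ω x, ω y) ∈ s} = (T.fork (τ x y)).real s := by
  rw [← hT.marg2 τ hτ x y hx hy hxy, measureReal_def, measureReal_def,
    Measure.map_apply ((measurable_pi_apply x).prodMk (measurable_pi_apply y)) hs]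
  rfl

/-- K4: an event of one label -/
theorem l8l_prob1 (hT : T.Ok) {τ : ℕ → ℕ → ℕ} (hτ : T.V τ) {x : ℕ} (hx : x < T.r)
    {s : Set Ω} (hs : MeasurableSet s) : (T.law τ).real {ω | ω x ∈ s} = T.μ.real s := by
  obtain ⟨y, hy, hxy⟩ := l8l_other hT x
  have h := l8l_prob2 hT hτ hx hy hxy (s := Prod.fst ⁻¹' s) (measurable_fst hs)
  have e : {ω : ℕ → Ω | (ω x, ω y) ∈ Prod.fst ⁻¹' s} = {ω | ω x ∈ s} := rfl
  rw [e] at h
  rw [h, ← hT.fst (τ x y), measureReal_def, measureReal_def, Measure.map_apply measurable_fst hs]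

/-- K5: the ancestor value at a level `l` is shared by two labels which share `l` revelations -/
theorem l8l_share (hT : T.Ok) (hI : I.Ok T) {τ : ℕ → ℕ → ℕ} (hτ : T.V τ) {x y : ℕ} (hx : x < T.r) (hy : y < T.r)
    {l : ℕ} (h : x = y ∨ l ≤ τ x y) : ∀ᵐ ω ∂T.law τ, I.Xi l (ω x) = I.Xi l (ω y) := by
  by_cases hxy : x = y
  · subst hxy
    exact Filter.Eventually.of_forall fun _ => rfl
  · have hl : l ≤ τ x y := h.resolve_left hxy
    have h1 := hI.share l (τ x y) hl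
    rw [← hT.marg2 τ hτ x y hx hy hxy] at h1
    exact ae_of_ae_map ((measurable_pi_apply x).prodMk (measurable_pi_apply y)).aemeasurable h1

/-- K6: the retained test is centred in every tree -/
theorem l8l_P0_mean (hT : T.Ok) (hI : I.Ok T) {τ : ℕ → ℕ → ℕ} (hτ : T.V τ) (h01 : τ 0 1 = I.t0) :
    ∫ ω, I.P0 (ω 0, ω 1) ∂T.law τ = 0 := by
  have h2 := hT.two
  rw [l8l_int2 hT hτ (by omega) (by omega) (by omega) hI.P0_meas, h01, hI.P0_mean]

/-- Cauchy-Schwarz for bounded measurable functions on a probability space -/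
theorem l8l_cs_aux {α : Type} [MeasurableSpace α] (μ : Measure α) [IsProbabilityMeasure μ] {f g : α → ℝ}
    (hf : Measurable f) (hg : Measurable g) {a b : ℝ} (hfa : ∀ ω, |f ω| ≤ a) (hgb : ∀ ω, |g ω| ≤ b) :
    |∫ ω, f ω * g ω ∂μ| ≤ Real.sqrt (∫ ω, f ω ^ 2 ∂μ) * Real.sqrt (∫ ω, g ω ^ 2 ∂μ) := by
  have hbi : ∀ {h : α → ℝ} {c : ℝ}, Measurable h → (∀ ω, |h ω| ≤ c) → Integrable h μ := fun {h c} hm hb =>
    Integrable.of_bound hm.aestronglyMeasurable c (Filter.Eventually.of_forall fun ω => by simpa using hb ω)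
  have hf2 : Integrable (fun ω => f ω ^ 2) μ := hbi (c := a ^ 2) (hf.pow_const 2) fun ω => by
    rw [abs_pow]; exact pow_le_pow_left₀ (abs_nonneg _) (hfa ω) 2
  have hg2 : Integrable (fun ω => g ω ^ 2) μ := hbi (c := b ^ 2) (hg.pow_const 2) fun ω => by
    rw [abs_pow]; exact pow_le_pow_left₀ (abs_nonneg _) (hgb ω) 2
  have hfg : Integrable (fun ω => f ω * g ω) μ := hbi (c := a * b) (hf.mul hg) fun ω => by
    rw [abs_mul]; exact mul_le_mul (hfa ω) (hgb ω) (abs_nonneg _) ((abs_nonneg _).trans (hfa ω))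
  set A := ∫ ω, f ω ^ 2 ∂μ with hA
  set C := ∫ ω, g ω ^ 2 ∂μ with hC
  set B := ∫ ω, f ω * g ω ∂μ with hB
  have hA0 : 0 ≤ A := integral_nonneg fun ω => sq_nonneg _
  have hC0 : 0 ≤ C := integral_nonneg fun ω => sq_nonneg _
  have hq : ∀ t : ℝ, 0 ≤ A * (t * t) + 2 * B * t + C := by
    intro t
    have h0 : 0 ≤ ∫ ω, (t * f ω + g ω) ^ 2 ∂μ := integral_nonneg fun ω => sq_nonneg _
    have e : (fun ω => (t * f ω + g ω) ^ 2) = fun ω => (t * t) * f ω ^ 2 + (2 * t) * (f ω * g ω) + g ω ^ 2 := by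
      funext ω; ring
    have h1 : Integrable (fun ω => (t * t) * f ω ^ 2) μ := hf2.const_mul _
    have h2 : Integrable (fun ω => (2 * t) * (f ω * g ω)) μ := hfg.const_mul _
    have h12 : Integrable (fun ω => (t * t) * f ω ^ 2 + (2 * t) * (f ω * g ω)) μ := h1.add h2
    rw [e, integral_add h12 hg2, integral_add h1 h2, integral_const_mul, integral_const_mul] at h0
    nlinarith [h0]
  have hd := discrim_le_zero hq
  unfold discrim at hd
  have hB2 : B ^ 2 ≤ A * C := by nlinarith [hd]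
  rw [← Real.sqrt_mul hA0, ← Real.sqrt_sq_eq_abs]
  exact Real.sqrt_le_sqrt hB2

/-- K7: Cauchy-Schwarz with the retained test; `B` = bounded factor, `Y` = the factor kept in second norm -/
theorem l8l_cs (hT : T.Ok) (hI : I.Ok T) {τ : ℕ → ℕ → ℕ} (hτ : T.V τ) (h01 : τ 0 1 = I.t0)
    {B Y : (ℕ → Ω) → ℝ} (hB : Measurable B) (hY : Measurable Y) {M b : ℝ} (hM : ∀ ω, |B ω| ≤ M) (hb : ∀ ω, |Y ω| ≤ b) :
    |∫ ω, I.P0 (ω 0, ω 1) * B ω * Y ω ∂T.law τ| ≤ M * I.Dab * Real.sqrt (∫ ω, Y ω ^ 2 ∂T.law τ) := by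
  have hprob := hT.prob τ hτ
  have h2 := hT.two
  obtain ⟨ω₀⟩ := nonempty_of_isProbabilityMeasure (T.law τ)
  have hM0 : 0 ≤ M := (abs_nonneg _).trans (hM ω₀)
  have hPm : Measurable fun ω : ℕ → Ω => I.P0 (ω 0, ω 1) :=
    hI.P0_meas.comp ((measurable_pi_apply 0).prodMk (measurable_pi_apply 1))
  have hfb : ∀ ω : ℕ → Ω, |I.P0 (ω 0, ω 1) * B ω| ≤ 2 * M := fun ω => by
    rw [abs_mul]; exact mul_le_mul (hI.P0_bd _) (hM ω) (abs_nonneg _) (by norm_num)
  have h := l8l_cs_aux (T.law τ) (hPm.mul hB) hY hfb hb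
  refine h.trans (mul_le_mul_of_nonneg_right ?_ (Real.sqrt_nonneg _))
  have hP2 : ∫ ω, I.P0 (ω 0, ω 1) ^ 2 ∂T.law τ ≤ I.Dab ^ 2 := by
    rw [l8l_int2 hT hτ (by omega) (by omega) (by omega) (G := fun p => I.P0 p ^ 2) (hI.P0_meas.pow_const 2), h01]
    exact hI.P0_sq
  have hint : Integrable (fun ω : ℕ → Ω => I.P0 (ω 0, ω 1) ^ 2) (T.law τ) :=
    Integrable.of_bound (hPm.pow_const 2).aestronglyMeasurable (2 ^ 2) (Filter.Eventually.of_forall fun ω => by
      rw [Real.norm_eq_abs, abs_pow]; exact pow_le_pow_left₀ (abs_nonneg _) (hI.P0_bd _) 2)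
  have h3 : ∫ ω, (I.P0 (ω 0, ω 1) * B ω) ^ 2 ∂T.law τ ≤ (M * I.Dab) ^ 2 := by
    calc ∫ ω, (I.P0 (ω 0, ω 1) * B ω) ^ 2 ∂T.law τ ≤ ∫ ω, M ^ 2 * I.P0 (ω 0, ω 1) ^ 2 ∂T.law τ := by
          refine integral_mono_of_nonneg (Filter.Eventually.of_forall fun ω => sq_nonneg _) (hint.const_mul _)
            (Filter.Eventually.of_forall fun ω => ?_)
          show (I.P0 (ω 0, ω 1) * B ω) ^ 2 ≤ M ^ 2 * I.P0 (ω 0, ω 1) ^ 2
          have : B ω ^ 2 ≤ M ^ 2 := by
            rw [← sq_abs]; exact pow_le_pow_left₀ (abs_nonneg _) (hM ω) 2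
          rw [mul_pow, mul_comm]
          exact mul_le_mul_of_nonneg_right this (sq_nonneg _)
      _ = M ^ 2 * ∫ ω, I.P0 (ω 0, ω 1) ^ 2 ∂T.law τ := integral_const_mul _ _
      _ ≤ M ^ 2 * I.Dab ^ 2 := mul_le_mul_of_nonneg_left hP2 (sq_nonneg _)
      _ = (M * I.Dab) ^ 2 := by ring
  calc Real.sqrt (∫ ω, (I.P0 (ω 0, ω 1) * B ω) ^ 2 ∂T.law τ) ≤ Real.sqrt ((M * I.Dab) ^ 2) := Real.sqrt_le_sqrt h3
    _ = M * I.Dab := Real.sqrt_sq (mul_nonneg hM0 hI.Dab_nonneg)

/-- truncation at the level `M` -/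
noncomputable def l8lTr (M z : ℝ) : ℝ := if |z| ≤ M then z else 0

theorem l8l_tr_abs_le {M : ℝ} (hM : 0 ≤ M) (z : ℝ) : |l8lTr M z| ≤ M := by
  unfold l8lTr
  split_ifs with h
  · exact h
  · simpa using hM

theorem l8l_tr_meas (M : ℝ) : Measurable (l8lTr M) := by
  unfold l8lTr
  exact Measurable.ite (measurableSet_le measurable_id.abs measurable_const) measurable_id measurable_const

/-- K8: truncation of a finite product of bounded factors (`|Z s| ≤ 4`); the tails are paid in absolute value -/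
theorem l8l_trunc (hT : T.Ok) (hI : I.Ok T) {τ : ℕ → ℕ → ℕ} (hτ : T.V τ) {ι : Type} (F : Finset ι)
    (Z : ι → (ℕ → Ω) → ℝ) (M : ι → ℝ) (hZ : ∀ s ∈ F, Measurable (Z s)) (hZb : ∀ s ∈ F, ∀ ω, |Z s ω| ≤ 4)
    {Y : (ℕ → Ω) → ℝ} (hY : Measurable Y) {b η : ℝ} (hb : ∀ ω, |Y ω| ≤ b)
    (htail : ∀ s ∈ F, (T.law τ).real {ω | M s < |Z s ω|} ≤ η) :
    |(∫ ω, I.P0 (ω 0, ω 1) * (∏ s ∈ F, Z s ω) * Y ω ∂T.law τ)
        - ∫ ω, I.P0 (ω 0, ω 1) * (∏ s ∈ F, l8lTr (M s) (Z s ω)) * Y ω ∂T.law τ|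
      ≤ 2 * b * 4 ^ F.card * F.card * η := by
  classical
  have hprob := hT.prob τ hτ
  obtain ⟨ω₀⟩ := nonempty_of_isProbabilityMeasure (T.law τ)
  have hb0 : 0 ≤ b := (abs_nonneg _).trans (hb ω₀)
  have hPm : Measurable fun ω : ℕ → Ω => I.P0 (ω 0, ω 1) :=
    hI.P0_meas.comp ((measurable_pi_apply 0).prodMk (measurable_pi_apply 1))
  have hZm : Measurable fun ω : ℕ → Ω => ∏ s ∈ F, Z s ω := Finset.measurable_prod F hZ
  have hTm : Measurable fun ω : ℕ → Ω => ∏ s ∈ F, l8lTr (M s) (Z s ω) :=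
    Finset.measurable_prod F fun s hs => (l8l_tr_meas (M s)).comp (hZ s hs)
  have hZp : ∀ ω, |∏ s ∈ F, Z s ω| ≤ 4 ^ F.card := fun ω => by
    rw [Finset.abs_prod]
    calc ∏ s ∈ F, |Z s ω| ≤ ∏ _s ∈ F, (4 : ℝ) := Finset.prod_le_prod (fun s _ => abs_nonneg _) fun s hs => hZb s hs ω
      _ = 4 ^ F.card := by simp
  have htr : ∀ (m z : ℝ), |l8lTr m z| ≤ |z| := fun m z => by
    unfold l8lTr; split_ifs <;> simp
  have hTp : ∀ ω, |∏ s ∈ F, l8lTr (M s) (Z s ω)| ≤ 4 ^ F.card := fun ω => by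
    rw [Finset.abs_prod]
    calc ∏ s ∈ F, |l8lTr (M s) (Z s ω)| ≤ ∏ _s ∈ F, (4 : ℝ) :=
          Finset.prod_le_prod (fun s _ => abs_nonneg _) fun s hs => (htr _ _).trans (hZb s hs ω)
      _ = 4 ^ F.card := by simp
  have hbi : ∀ {h : (ℕ → Ω) → ℝ}, Measurable h → (∀ ω, |h ω| ≤ 4 ^ F.card) →
      Integrable (fun ω => I.P0 (ω 0, ω 1) * h ω * Y ω) (T.law τ) := fun {h} hm hbd =>
    Integrable.of_bound ((hPm.mul hm).mul hY).aestronglyMeasurable (2 * 4 ^ F.card * b)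
      (Filter.Eventually.of_forall fun ω => by
        rw [Real.norm_eq_abs, abs_mul, abs_mul]
        exact mul_le_mul (mul_le_mul (hI.P0_bd _) (hbd ω) (abs_nonneg _) (by norm_num)) (hb ω) (abs_nonneg _) (by positivity))
  rw [← integral_sub (hbi hZm hZp) (hbi hTm hTp)]
  set U : Set (ℕ → Ω) := ⋃ s ∈ F, {ω | M s < |Z s ω|} with hU
  have hUm : MeasurableSet U := Finset.measurableSet_biUnion F fun s hs =>
    measurableSet_lt measurable_const (hZ s hs).abs
  have hpt : ∀ ω, ‖I.P0 (ω 0, ω 1) * (∏ s ∈ F, Z s ω) * Y ω - I.P0 (ω 0, ω 1) * (∏ s ∈ F, l8lTr (M s) (Z s ω)) * Y ω‖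
      ≤ U.indicator (fun _ => 2 * 4 ^ F.card * b) ω := by
    intro ω
    by_cases hω : ω ∈ U
    · rw [Set.indicator_of_mem hω]
      obtain ⟨s, hs, hsω⟩ : ∃ s ∈ F, M s < |Z s ω| := by simpa [hU] using hω
      have h0 : ∏ s ∈ F, l8lTr (M s) (Z s ω) = 0 :=
        Finset.prod_eq_zero hs (by unfold l8lTr; rw [if_neg (not_le.2 hsω)])
      rw [h0, mul_zero, zero_mul, sub_zero, Real.norm_eq_abs, abs_mul, abs_mul]
      exact mul_le_mul (mul_le_mul (hI.P0_bd _) (hZp ω) (abs_nonneg _) (by norm_num)) (hb ω) (abs_nonneg _) (by positivity)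
    · rw [Set.indicator_of_notMem hω]
      have hall : ∀ s ∈ F, |Z s ω| ≤ M s := by
        intro s hs
        by_contra hc
        exact hω (by simp only [hU, Set.mem_iUnion]; exact ⟨s, hs, not_le.1 hc⟩)
      have h0 : ∏ s ∈ F, l8lTr (M s) (Z s ω) = ∏ s ∈ F, Z s ω :=
        Finset.prod_congr rfl fun s hs => by unfold l8lTr; rw [if_pos (hall s hs)]
      rw [h0, sub_self, norm_zero]
  have hUle : (T.law τ).real U ≤ F.card * η := by
    calc (T.law τ).real U ≤ ∑ s ∈ F, (T.law τ).real {ω | M s < |Z s ω|} := measureReal_biUnion_finset_le F _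
      _ ≤ ∑ _s ∈ F, η := Finset.sum_le_sum htail
      _ = F.card * η := by simp
  calc |∫ ω, (I.P0 (ω 0, ω 1) * (∏ s ∈ F, Z s ω) * Y ω - I.P0 (ω 0, ω 1) * (∏ s ∈ F, l8lTr (M s) (Z s ω)) * Y ω) ∂T.law τ|
      ≤ ∫ ω, U.indicator (fun _ => 2 * 4 ^ F.card * b) ω ∂T.law τ := by
        rw [← Real.norm_eq_abs]
        exact norm_integral_le_of_norm_le ((integrable_const _).indicator hUm) (Filter.Eventually.of_forall hpt)
    _ = (T.law τ).real U * (2 * 4 ^ F.card * b) := by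
        rw [integral_indicator_const _ hUm, smul_eq_mul]
    _ ≤ (F.card * η) * (2 * 4 ^ F.card * b) := mul_le_mul_of_nonneg_right hUle (by positivity)
    _ = 2 * b * 4 ^ F.card * F.card * η := by ring

/-- K9: Fubini on the box: one coordinate is summed last -/
theorem l8l_box_update {nv : ℕ} (Ch : L8LCh nv) (j : Fin nv) (F : (Fin nv → ℕ) → ℝ) :
    ∑ co ∈ Ch.box, F co = ∑ co ∈ Ch.box.filter (fun co => co j = 0), ∑ l ∈ range Ch.L, F (Function.update co j l) := by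
  rw [← Finset.sum_product']
  refine Finset.sum_nbij' (fun co => (Function.update co j 0, co j)) (fun p => Function.update p.1 j p.2) ?_ ?_ ?_ ?_ ?_
  · intro co hco
    have hco' : ∀ a, co a ∈ range Ch.L := Fintype.mem_piFinset.1 hco
    have hL : 0 < Ch.L := lt_of_le_of_lt (Nat.zero_le _) (mem_range.1 (hco' j))
    refine mem_product.2 ⟨mem_filter.2 ⟨Fintype.mem_piFinset.2 fun a => ?_, by simp⟩, hco' j⟩
    show Function.update co j 0 a ∈ range Ch.L
    by_cases ha : a = j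
    · subst ha; simpa using hL
    · rw [Function.update_of_ne ha]; exact hco' a
  · intro p hp
    obtain ⟨hp1, hp2⟩ := mem_product.1 hp
    have hco' : ∀ a, p.1 a ∈ range Ch.L := Fintype.mem_piFinset.1 (mem_filter.1 hp1).1
    refine Fintype.mem_piFinset.2 fun a => ?_
    by_cases ha : a = j
    · subst ha; simpa using hp2
    · rw [Function.update_of_ne ha]; exact hco' a
  · intro co _
    simp
  · intro p hp
    obtain ⟨hp1, _⟩ := mem_product.1 hp
    have h0 : p.1 j = 0 := (mem_filter.1 hp1).2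
    ext1
    · simp only [Function.update_idem]
      rw [← h0]; exact Function.update_eq_self j p.1
    · simp
  · intro co _
    simp

/-- K10: the reference weight after the move of one coordinate -/
theorem l8l_wt_update {nv : ℕ} (Ch : L8LCh nv) (j : Fin nv) (co : Fin nv → ℕ) (l : ℕ) :
    Ch.wt (Function.update co j l) = Ch.mm j l * ∏ j' ∈ univ.erase j, Ch.mm j' (co j') := by
  unfold L8LCh.wt
  rw [← Finset.mul_prod_erase univ _ (mem_univ j), Function.update_self]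
  congr 1
  refine Finset.prod_congr rfl fun j' hj' => ?_
  rw [Function.update_of_ne (ne_of_mem_erase hj')]

/-- K11: a product function on the box -/
theorem l8l_box_prod {nv : ℕ} (Ch : L8LCh nv) (f : Fin nv → ℕ → ℝ) :
    ∑ co ∈ Ch.box, ∏ j, f j (co j) = ∏ j, ∑ l ∈ range Ch.L, f j l :=
  (Finset.prod_univ_sum (fun _ => range Ch.L) f).symm

/-- K12: a product function of the other coordinates on a slice of the box (`1 ≤ L`) -/
theorem l8l_slice_prod {nv : ℕ} (Ch : L8LCh nv) (hL : 0 < Ch.L) (j : Fin nv) (f : Fin nv → ℕ → ℝ) :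
    ∑ co ∈ Ch.box.filter (fun co => co j = 0), ∏ j' ∈ univ.erase j, f j' (co j')
      = ∏ j' ∈ univ.erase j, ∑ l ∈ range Ch.L, f j' l := by
  have h := l8l_box_prod Ch (fun j' l => if j' = j then (if l = 0 then 1 else 0) else f j' l)
  rw [← Finset.mul_prod_erase univ _ (mem_univ j)] at h
  have e1 : ∑ l ∈ range Ch.L, (if j = j then (if l = 0 then (1 : ℝ) else 0) else f j l) = 1 := by
    simp only [if_true]
    rw [Finset.sum_ite_eq' (range Ch.L) 0 (fun _ => (1 : ℝ))]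
    simp [hL]
  have e2 : ∏ j' ∈ univ.erase j, ∑ l ∈ range Ch.L, (if j' = j then (if l = 0 then (1 : ℝ) else 0) else f j' l)
      = ∏ j' ∈ univ.erase j, ∑ l ∈ range Ch.L, f j' l := by
    refine Finset.prod_congr rfl fun j' hj' => ?_
    simp only [if_neg (ne_of_mem_erase hj')]
  rw [e1, e2, one_mul] at h
  rw [← h, Finset.sum_filter]
  refine Finset.sum_congr rfl fun co _ => ?_
  rw [← Finset.mul_prod_erase univ _ (mem_univ j)]
  have e3 : ∏ j' ∈ univ.erase j, (if j' = j then (if co j' = 0 then (1 : ℝ) else 0) else f j' (co j'))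
      = ∏ j' ∈ univ.erase j, f j' (co j') := by
    refine Finset.prod_congr rfl fun j' hj' => ?_
    simp only [if_neg (ne_of_mem_erase hj')]
  rw [e3]
  by_cases h0 : co j = 0 <;> simp [h0]

/-- the mean of a power of the ancestor value is at most one -/
theorem l8l_am_abs_le (hT : T.Ok) (hI : I.Ok T) (p l : ℕ) : |I.am T p l| ≤ 1 := by
  have := hT.probM
  unfold L8LIn.am
  have h1 : ∀ ω, ‖I.Xi l ω ^ p‖ ≤ 1 := fun ω => by
    rw [Real.norm_eq_abs, abs_pow]
    exact pow_le_one₀ (abs_nonneg _) (hI.Xi_bd l ω)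
  have := norm_integral_le_of_norm_le_const (μ := T.μ) (Filter.Eventually.of_forall h1)
  simpa using this

/-- one slice of the ONE STEP lemma -/
theorem l8l_os_slice (hT : T.Ok) (hI : I.Ok T) {nv : ℕ} (Ch : L8LCh nv) (w : (Fin nv → ℕ) → ℝ)
    (j : Fin nv) (R : Finset ℕ) (c p : ℕ) (hc : c ∈ R) (hcr : c < T.r) (h0 : 0 ∈ R) (h1 : 1 ∈ R)
    (hR : ∀ x ∈ R, ∀ y ∈ R, x ≠ y → Ch.vtx x y ≠ j)
    (B : (ℕ → Ω) → ℝ) (M : ℝ) (hBm : Measurable B) (hBd : DependsOn B (R : Set ℕ)) (hBb : ∀ ω, |B ω| ≤ M)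
    (hw : ∀ co, w co ≠ 0 → T.V (Ch.tab co) ∧ co (Ch.vtx 0 1) = I.t0) (co : Fin nv → ℕ) :
    |∑ l ∈ range Ch.L, Ch.mm j l * w (Function.update co j l) *
        ∫ ω, I.P0 (ω 0, ω 1) * B ω * (I.Xi l (ω c) ^ p - I.am T p l) ∂T.law (Ch.tab (Function.update co j l))|
      ≤ M * I.Dab *
          Real.sqrt (∫ ω, (∑ l ∈ range Ch.L, Ch.mm j l * w (Function.update co j l) * (I.Xi l ω ^ p - I.am T p l)) ^ 2 ∂T.μ) := by
  have hprobM := hT.probM
  obtain ⟨ω₀⟩ := nonempty_of_isProbabilityMeasure T.μ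
  have hM0 : 0 ≤ M := (abs_nonneg _).trans (hBb fun _ => ω₀)
  by_cases hall : ∀ l ∈ range Ch.L, w (Function.update co j l) = 0
  · rw [Finset.sum_eq_zero fun l hl => by rw [hall l hl]; ring, abs_zero]
    exact mul_nonneg (mul_nonneg hM0 hI.Dab_nonneg) (Real.sqrt_nonneg _)
  · push Not at hall
    obtain ⟨l₀, _, hl₀⟩ := hall
    obtain ⟨hV₀, h01⟩ := hw _ hl₀
    set τ₀ := Ch.tab (Function.update co j l₀) with hτ₀
    have hprob := hT.prob τ₀ hV₀
    -- the test functions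
    have hYm : ∀ l, Measurable fun ω : Ω => I.Xi l ω ^ p - I.am T p l := fun l => ((hI.Xi_meas l).pow_const p).sub_const _
    have hFm : ∀ l, Measurable fun ω : ℕ → Ω => I.P0 (ω 0, ω 1) * B ω * (I.Xi l (ω c) ^ p - I.am T p l) := fun l =>
      ((hI.P0_meas.comp ((measurable_pi_apply 0).prodMk (measurable_pi_apply 1))).mul hBm).mul
        ((hYm l).comp (measurable_pi_apply c))
    have hFd : ∀ l, DependsOn (fun ω : ℕ → Ω => I.P0 (ω 0, ω 1) * B ω * (I.Xi l (ω c) ^ p - I.am T p l)) (R : Set ℕ) := by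
      intro l ω ω' hωω
      have e0 := hωω 0 (by exact_mod_cast h0)
      have e1 := hωω 1 (by exact_mod_cast h1)
      have ec := hωω c (by exact_mod_cast hc)
      have eB := hBd hωω
      simp only [e0, e1, ec, eB]
    have hYb : ∀ l (ω : Ω), |I.Xi l ω ^ p - I.am T p l| ≤ 2 := by
      intro l ω
      have a1 : |I.Xi l ω ^ p| ≤ 1 := by
        rw [abs_pow]; exact pow_le_one₀ (abs_nonneg _) (hI.Xi_bd l ω)
      have a2 := l8l_am_abs_le hT hI p l
      calc |I.Xi l ω ^ p - I.am T p l| ≤ |I.Xi l ω ^ p| + |I.am T p l| := abs_sub _ _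
        _ ≤ 2 := by linarith
    -- all the integrals are integrals under `law τ₀`
    have hrc : ∀ l, Ch.mm j l * w (Function.update co j l) *
        ∫ ω, I.P0 (ω 0, ω 1) * B ω * (I.Xi l (ω c) ^ p - I.am T p l) ∂T.law (Ch.tab (Function.update co j l))
        = ∫ ω, I.P0 (ω 0, ω 1) * B ω * (Ch.mm j l * w (Function.update co j l) * (I.Xi l (ω c) ^ p - I.am T p l)) ∂T.law τ₀ := by
      intro l
      by_cases hwl : w (Function.update co j l) = 0
      · simp [hwl]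
      · obtain ⟨hVl, _⟩ := hw _ hwl
        rw [hT.rc _ τ₀ hVl hV₀ R _ (hFm l) (hFd l) ⟨2 * M * 2, fun ω => by
          rw [abs_mul, abs_mul]
          have b1 := hI.P0_bd (ω 0, ω 1)
          have b2 := hBb ω
          have b3 := hYb l (ω c)
          gcongr⟩ (fun x hx y hy hxy => by
          have hne := hR x hx y hy hxy
          simp only [hτ₀, L8LCh.tab, Function.update_of_ne hne]), ← integral_const_mul]
        refine integral_congr_ae (Filter.Eventually.of_forall fun ω => ?_)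
        simp only
        ring
    rw [Finset.sum_congr rfl fun l _ => hrc l]
    have hint : ∀ l ∈ range Ch.L, Integrable (fun ω : ℕ → Ω =>
        I.P0 (ω 0, ω 1) * B ω * (Ch.mm j l * w (Function.update co j l) * (I.Xi l (ω c) ^ p - I.am T p l))) (T.law τ₀) := by
      intro l _
      have hm : Measurable fun ω : ℕ → Ω =>
          I.P0 (ω 0, ω 1) * B ω * (Ch.mm j l * w (Function.update co j l) * (I.Xi l (ω c) ^ p - I.am T p l)) :=
        ((hI.P0_meas.comp ((measurable_pi_apply 0).prodMk (measurable_pi_apply 1))).mul hBm).mul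
          (((hYm l).comp (measurable_pi_apply c)).const_mul _)
      refine Integrable.of_bound hm.aestronglyMeasurable (2 * M * (|Ch.mm j l * w (Function.update co j l)| * 2))
        (Filter.Eventually.of_forall fun ω => ?_)
      rw [Real.norm_eq_abs, abs_mul, abs_mul, abs_mul]
      have b1 := hI.P0_bd (ω 0, ω 1)
      have b2 := hBb ω
      have b3 := hYb l (ω c)
      gcongr
    rw [← integral_finsetSum _ hint]
    have e2 : ∀ ω : ℕ → Ω, ∑ l ∈ range Ch.L,
        I.P0 (ω 0, ω 1) * B ω * (Ch.mm j l * w (Function.update co j l) * (I.Xi l (ω c) ^ p - I.am T p l))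
        = I.P0 (ω 0, ω 1) * B ω *
          (fun ω' : Ω => ∑ l ∈ range Ch.L, Ch.mm j l * w (Function.update co j l) * (I.Xi l ω' ^ p - I.am T p l)) (ω c) := by
      intro ω
      rw [Finset.mul_sum]
    simp only [e2]
    have hgm : Measurable fun ω' : Ω => ∑ l ∈ range Ch.L, Ch.mm j l * w (Function.update co j l) * (I.Xi l ω' ^ p - I.am T p l) :=
      Finset.measurable_sum _ fun l _ => (hYm l).const_mul _
    have hgb : ∀ ω' : Ω, |∑ l ∈ range Ch.L, Ch.mm j l * w (Function.update co j l) * (I.Xi l ω' ^ p - I.am T p l)|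
        ≤ ∑ l ∈ range Ch.L, |Ch.mm j l * w (Function.update co j l)| * 2 := by
      intro ω'
      refine (Finset.abs_sum_le_sum_abs _ _).trans (Finset.sum_le_sum fun l _ => ?_)
      rw [abs_mul]
      exact mul_le_mul_of_nonneg_left (hYb l ω') (abs_nonneg _)
    have hcs := l8l_cs hT hI hV₀ (by simpa [hτ₀, L8LCh.tab] using h01) hBm (hgm.comp (measurable_pi_apply c)) hBb
      (fun ω => hgb (ω c))
    refine hcs.trans (le_of_eq ?_)
    congr 2
    exact l8l_int1 hT hV₀ hcr (hgm.pow_const 2)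

/-- **ONE STEP** (centred integration in a fixed marginal).  The vertex `j` moves; `R` = retained labels (`0, 1, c ∈ R`), no two of them separate at `j`;
`B co` = bounded product of the other retained factors: a function of the labels in `R`, independent of the coordinate `j`.
PROOF: K9, K10; on a slice pick `l₀` with `w ≠ 0`; by `rc` all the integrals of the slice are integrals under `law (tab (update co j l₀))`;
linearity; K7; K2. -/
theorem l8l_os (hT : T.Ok) (hI : I.Ok T) {nv : ℕ} (Ch : L8LCh nv) (hmm : ∀ j l, 0 ≤ Ch.mm j l) (w : (Fin nv → ℕ) → ℝ)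
    (j : Fin nv) (R : Finset ℕ) (c p : ℕ) (hc : c ∈ R) (hcr : c < T.r) (h0 : 0 ∈ R) (h1 : 1 ∈ R)
    (hR : ∀ x ∈ R, ∀ y ∈ R, x ≠ y → Ch.vtx x y ≠ j)
    (B : (Fin nv → ℕ) → (ℕ → Ω) → ℝ) (M : (Fin nv → ℕ) → ℝ)
    (hBm : ∀ co, Measurable (B co)) (hBd : ∀ co, DependsOn (B co) (R : Set ℕ)) (hBb : ∀ co ω, |B co ω| ≤ M co)
    (hBu : ∀ co l, B (Function.update co j l) = B co) (hMu : ∀ co l, M (Function.update co j l) = M co)
    (hw : ∀ co, w co ≠ 0 → T.V (Ch.tab co) ∧ co (Ch.vtx 0 1) = I.t0) :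
    |∑ co ∈ Ch.box, Ch.wt co * w co *
        ∫ ω, I.P0 (ω 0, ω 1) * B co ω * (I.Xi (co j) (ω c) ^ p - I.am T p (co j)) ∂T.law (Ch.tab co)|
      ≤ I.Dab * ∑ co ∈ Ch.box.filter (fun co => co j = 0), (∏ j' ∈ univ.erase j, Ch.mm j' (co j')) * M co *
          Real.sqrt (∫ ω, (∑ l ∈ range Ch.L, Ch.mm j l * w (Function.update co j l) * (I.Xi l ω ^ p - I.am T p l)) ^ 2 ∂T.μ) := by
  rw [l8l_box_update Ch j, Finset.mul_sum]
  refine (Finset.abs_sum_le_sum_abs _ _).trans (Finset.sum_le_sum fun co _ => ?_)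
  have hPi : 0 ≤ ∏ j' ∈ univ.erase j, Ch.mm j' (co j') := Finset.prod_nonneg fun j' _ => hmm j' _
  have e : ∑ l ∈ range Ch.L, Ch.wt (Function.update co j l) * w (Function.update co j l) *
        ∫ ω, I.P0 (ω 0, ω 1) * B (Function.update co j l) ω *
          (I.Xi (Function.update co j l j) (ω c) ^ p - I.am T p (Function.update co j l j)) ∂T.law (Ch.tab (Function.update co j l))
      = (∏ j' ∈ univ.erase j, Ch.mm j' (co j')) * ∑ l ∈ range Ch.L, Ch.mm j l * w (Function.update co j l) *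
        ∫ ω, I.P0 (ω 0, ω 1) * B co ω * (I.Xi l (ω c) ^ p - I.am T p l) ∂T.law (Ch.tab (Function.update co j l)) := by
    rw [Finset.mul_sum]
    refine Finset.sum_congr rfl fun l _ => ?_
    rw [l8l_wt_update, hBu, Function.update_self]
    ring
  rw [e, abs_mul, abs_of_nonneg hPi]
  have hs := l8l_os_slice hT hI Ch w j R c p hc hcr h0 h1 hR (B co) (M co) (hBm co) (hBd co) (hBb co) hw co
  calc (∏ j' ∈ univ.erase j, Ch.mm j' (co j')) * |∑ l ∈ range Ch.L, Ch.mm j l * w (Function.update co j l) *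
        ∫ ω, I.P0 (ω 0, ω 1) * B co ω * (I.Xi l (ω c) ^ p - I.am T p l) ∂T.law (Ch.tab (Function.update co j l))|
      ≤ (∏ j' ∈ univ.erase j, Ch.mm j' (co j')) * (M co * I.Dab *
          Real.sqrt (∫ ω, (∑ l ∈ range Ch.L, Ch.mm j l * w (Function.update co j l) * (I.Xi l ω ^ p - I.am T p l)) ^ 2 ∂T.μ)) :=
        mul_le_mul_of_nonneg_left hs hPi
    _ = _ := by ring

end Claimed.Agent.R286
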