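import Claimed.Agent.R286.L08.LsKit
import Claimed.Agent.R286.L08.LsComb

/-!
# Row 286 (S0533), folder L08, file LsNum : SHARED NUMERICS of the two steps of the abstract low-source lemma      (owner helper80; prefix `l8l_`)

* `l8lVs` = the sum over the level of ONE vertex of (reference measure) x (vertex majorant `l8lG`) x (envelope ^ `e j`);
* N4 `l8l_rest_A0`, `l8l_rest_E1` : the product of the one-vertex sums over the vertices `≠ j0`;
* N5 `l8l_regimes` : THE THREE REGIMES (sole factor | exponent `≥ 1` at the paying vertex | another vertex carries a low factor);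
* N6 `l8l_box_cost`, `l8l_slice_rest` : Fubini for product majorants on the box / on a slice;
* N7 `l8l_homog` : homogeneity in the centred bounds `cen0 / cenv / cen1`;
* N8 `l8l_wsum` : total mass.
Finite sums only (N7: one integral).   ALL PROVED (helper214, 04:05Z), statements unchanged; extra: `l8l_vs_le_A0`, `l8l_E1_nonneg`, `l8l_rest_any`.
-/

set_option autoImplicit false

namespace Claimed.Agent.R286

open MeasureTheory Finset

variable {Ω : Type} [MeasurableSpace Ω] {T : L8L Ω} {I : L8LIn Ω}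

/-- the one-vertex sum with the exponent `e j` of the envelope -/
noncomputable def l8lVs (I : L8LIn Ω) {nv : ℕ} (Ch : L8LCh nv) (Sto Det : Finset ℕ) (c d : ℕ → ℕ) (e : Fin nv → ℕ) (j : Fin nv) : ℝ :=
  ∑ l ∈ range Ch.L, Ch.mm j l * (l8lG I Ch Sto Det c d j l * I.eb l ^ e j)

section
variable {nv : ℕ} {Ch : L8LCh nv} {n r : ℕ} {A0 : ℝ} {w : (Fin nv → ℕ) → ℝ} {Sto Det : Finset ℕ} {c d : ℕ → ℕ}

theorem l8l_vs_nonneg (H : L8LHyp T I Ch n r A0 w Sto Det c d) (e : Fin nv → ℕ) (j : Fin nv) :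
    0 ≤ l8lVs I Ch Sto Det c d e j := by
  unfold l8lVs
  exact Finset.sum_nonneg fun l _ => mul_nonneg (H.hCh.nonneg j l)
    (mul_nonneg (l8l_G_nonneg H.hI Ch Sto Det c d j l) (pow_nonneg (H.hI.eb_nonneg l) _))

theorem l8l_vs_le_A0 (H : L8LHyp T I Ch n r A0 w Sto Det c d) (e : Fin nv → ℕ) (j : Fin nv) :
    l8lVs I Ch Sto Det c d e j ≤ A0 := l8l_vsum_A0 H.hI H.hCh Sto Det c d j (e j)

theorem l8l_E1_nonneg (hI : I.Ok T) : 0 ≤ I.E1 :=
  le_trans (Finset.sum_nonneg fun l _ => mul_nonneg (hI.mu_nonneg l) (hI.eb_nonneg l)) hI.hE1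

/-- a product of one-vertex sums over any set of vertices -/
theorem l8l_rest_any (H : L8LHyp T I Ch n r A0 w Sto Det c d) (e : Fin nv → ℕ) (S : Finset (Fin nv)) :
    ∏ j ∈ S, l8lVs I Ch Sto Det c d e j ≤ A0 ^ nv := by
  have hA := H.hA0
  calc ∏ j ∈ S, l8lVs I Ch Sto Det c d e j ≤ ∏ _j ∈ S, A0 :=
        Finset.prod_le_prod (fun j _ => l8l_vs_nonneg H e j) fun j _ => l8l_vs_le_A0 H e j
    _ = A0 ^ S.card := Finset.prod_const _
    _ ≤ A0 ^ nv := pow_le_pow_right₀ hA (by simpa using Finset.card_le_univ S)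

/-- N4a: the vertices `≠ j0` cost at most `A0 ^ nv` -/
theorem l8l_rest_A0 (H : L8LHyp T I Ch n r A0 w Sto Det c d) (e : Fin nv → ℕ) (j0 : Fin nv) :
    ∏ j ∈ univ.erase j0, l8lVs I Ch Sto Det c d e j ≤ A0 ^ nv := l8l_rest_any H e _

/-- N4b: if one of them carries a low factor with a positive exponent of the envelope: `E1 * A0 ^ nv` -/
theorem l8l_rest_E1 (H : L8LHyp T I Ch n r A0 w Sto Det c d) (e : Fin nv → ℕ) {j0 j1 : Fin nv} (h : j1 ≠ j0)
    (h0 : l8lDeg Ch (Sto ∪ Det) c d j1 ≠ 0) (he : 1 ≤ l8lDeg Ch Det c d j1 + e j1) :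
    ∏ j ∈ univ.erase j0, l8lVs I Ch Sto Det c d e j ≤ I.E1 * A0 ^ nv := by
  have hmem : j1 ∈ univ.erase j0 := mem_erase.2 ⟨h, mem_univ _⟩
  rw [← Finset.mul_prod_erase _ _ hmem]
  have h1 : l8lVs I Ch Sto Det c d e j1 ≤ I.E1 := l8l_vsum_E1 H.hI H.hCh Sto Det c d j1 (e j1) h0 he
  exact mul_le_mul h1 (l8l_rest_any H e _) (Finset.prod_nonneg fun j _ => l8l_vs_nonneg H e j) (l8l_E1_nonneg H.hI)

theorem l8l_deg_le_card (Ch : L8LCh nv) (F : Finset ℕ) (c d : ℕ → ℕ) (j : Fin nv) : l8lDeg Ch F c d j ≤ F.card :=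
  Finset.card_filter_le _ _

theorem l8l_deg_pos (Ch : L8LCh nv) {F : Finset ℕ} {s : ℕ} (h : s ∈ F) (c d : ℕ → ℕ) :
    1 ≤ l8lDeg Ch F c d (Ch.vtx (c s) (d s)) :=
  Finset.card_pos.2 ⟨s, mem_filter.2 ⟨h, rfl⟩⟩

/-- N5: **the three regimes**.  `X0` = what the vertex `j0` pays; `e0` = exponent of the envelope at `j0` (besides the deterministic factors). -/
theorem l8l_regimes (H : L8LHyp T I Ch n r A0 w Sto Det c d) (e : Fin nv → ℕ) (j0 : Fin nv) (e0 : ℕ) {X0 B0 B1 Bv : ℝ}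
    (hX0 : 0 ≤ X0) (h0 : l8lDeg Ch (Sto ∪ Det) c d j0 ≤ 1 + l8lDeg Ch Det c d j0 + e0)
    (he : ∀ j, j ≠ j0 → l8lDeg Ch (Sto ∪ Det) c d j ≠ 0 → 1 ≤ l8lDeg Ch Det c d j + e j)
    (hX : X0 ≤ if (Sto ∪ Det).card = 1 then Bv else if 1 ≤ l8lDeg Ch Det c d j0 + e0 then B1 else B0) :
    X0 * ∏ j ∈ univ.erase j0, l8lVs I Ch Sto Det c d e j ≤ A0 ^ nv * max B1 (max Bv (B0 * I.E1)) := by
  have hA : 0 ≤ A0 ^ nv := pow_nonneg (le_trans zero_le_one H.hA0) _
  have hP0 : 0 ≤ ∏ j ∈ univ.erase j0, l8lVs I Ch Sto Det c d e j := Finset.prod_nonneg fun j _ => l8l_vs_nonneg H e j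
  have hP1 := l8l_rest_A0 H e j0
  have easy : ∀ Bq : ℝ, X0 ≤ Bq → Bq ≤ max B1 (max Bv (B0 * I.E1)) →
      X0 * ∏ j ∈ univ.erase j0, l8lVs I Ch Sto Det c d e j ≤ A0 ^ nv * max B1 (max Bv (B0 * I.E1)) := by
    intro Bq h1 h2
    calc X0 * ∏ j ∈ univ.erase j0, l8lVs I Ch Sto Det c d e j ≤ X0 * A0 ^ nv := mul_le_mul_of_nonneg_left hP1 hX0
      _ ≤ max B1 (max Bv (B0 * I.E1)) * A0 ^ nv := mul_le_mul_of_nonneg_right (h1.trans h2) hA
      _ = _ := mul_comm _ _
  by_cases hc1 : (Sto ∪ Det).card = 1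
  · rw [if_pos hc1] at hX
    exact easy Bv hX ((le_max_left _ _).trans (le_max_right _ _))
  · rw [if_neg hc1] at hX
    by_cases hd : 1 ≤ l8lDeg Ch Det c d j0 + e0
    · rw [if_pos hd] at hX
      exact easy B1 hX (le_max_left _ _)
    · rw [if_neg hd] at hX
      have hdeg : l8lDeg Ch (Sto ∪ Det) c d j0 ≤ 1 := by omega
      -- another factor sits at another vertex
      have hcard : 2 ≤ (Sto ∪ Det).card := by
        have : 0 < (Sto ∪ Det).card := Finset.card_pos.2 (H.ne.mono Finset.subset_union_left)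
        omega
      have hex : ∃ s ∈ Sto ∪ Det, Ch.vtx (c s) (d s) ≠ j0 := by
        by_contra hcon
        push Not at hcon
        have : (Sto ∪ Det).filter (fun s => Ch.vtx (c s) (d s) = j0) = Sto ∪ Det := Finset.filter_true_of_mem hcon
        unfold l8lDeg at hdeg
        rw [this] at hdeg
        omega
      obtain ⟨s, hs, hsj⟩ := hex
      have hpos := l8l_deg_pos Ch hs c d
      have hE := l8l_rest_E1 H e hsj (by omega) (he _ hsj (by omega))
      have hB0 : 0 ≤ B0 := hX0.trans hX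
      calc X0 * ∏ j ∈ univ.erase j0, l8lVs I Ch Sto Det c d e j ≤ B0 * (I.E1 * A0 ^ nv) := mul_le_mul hX hE hP0 hB0
        _ = A0 ^ nv * (B0 * I.E1) := by ring
        _ ≤ _ := mul_le_mul_of_nonneg_left ((le_max_right _ _).trans (le_max_right _ _)) hA

/-- N6a: Fubini on the box for a product majorant with a cost `β` at the vertex `j0` -/
theorem l8l_box_cost (I : L8LIn Ω) (Ch : L8LCh nv) (Sto Det : Finset ℕ) (c d : ℕ → ℕ) (e : Fin nv → ℕ) (j0 : Fin nv) (β : ℕ → ℝ) :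
    ∑ co ∈ Ch.box, Ch.wt co * ((∏ j, l8lG I Ch Sto Det c d j (co j)) * (∏ j, I.eb (co j) ^ e j) * β (co j0))
      = (∑ l ∈ range Ch.L, Ch.mm j0 l * (l8lG I Ch Sto Det c d j0 l * I.eb l ^ e j0 * β l))
          * ∏ j ∈ univ.erase j0, l8lVs I Ch Sto Det c d e j := by
  have h := l8l_box_prod Ch (fun j l => Ch.mm j l * (l8lG I Ch Sto Det c d j l * I.eb l ^ e j) * (if j = j0 then β l else 1))
  rw [← Finset.mul_prod_erase univ _ (mem_univ j0)] at h
  have e1 : ∑ l ∈ range Ch.L, Ch.mm j0 l * (l8lG I Ch Sto Det c d j0 l * I.eb l ^ e j0) * (if j0 = j0 then β l else 1)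
      = ∑ l ∈ range Ch.L, Ch.mm j0 l * (l8lG I Ch Sto Det c d j0 l * I.eb l ^ e j0 * β l) := by
    refine Finset.sum_congr rfl fun l _ => ?_
    rw [if_pos rfl]; ring
  have e2 : ∏ j ∈ univ.erase j0, ∑ l ∈ range Ch.L, Ch.mm j l * (l8lG I Ch Sto Det c d j l * I.eb l ^ e j) * (if j = j0 then β l else 1)
      = ∏ j ∈ univ.erase j0, l8lVs I Ch Sto Det c d e j := by
    refine Finset.prod_congr rfl fun j hj => ?_
    unfold l8lVs
    refine Finset.sum_congr rfl fun l _ => ?_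
    rw [if_neg (ne_of_mem_erase hj), mul_one]
  rw [e1, e2] at h
  rw [← h]
  refine Finset.sum_congr rfl fun co _ => ?_
  unfold L8LCh.wt
  rw [Finset.prod_mul_distrib, Finset.prod_mul_distrib, Finset.prod_mul_distrib, Finset.prod_ite_eq' univ j0 (fun j => β (co j))]
  simp only [mem_univ, if_true]
  ring

theorem l8l_wt_nonneg (H : L8LHyp T I Ch n r A0 w Sto Det c d) (co : Fin nv → ℕ) : 0 ≤ Ch.wt co :=
  Finset.prod_nonneg fun j _ => H.hCh.nonneg j _

/-- N6b: Fubini on a slice -/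
theorem l8l_slice_rest (H : L8LHyp T I Ch n r A0 w Sto Det c d) (e : Fin nv → ℕ) (j0 : Fin nv) :
    ∑ co ∈ Ch.box.filter (fun co => co j0 = 0), (∏ j ∈ univ.erase j0, Ch.mm j (co j)) *
        ∏ j ∈ univ.erase j0, (l8lG I Ch Sto Det c d j (co j) * I.eb (co j) ^ e j)
      ≤ ∏ j ∈ univ.erase j0, l8lVs I Ch Sto Det c d e j := by
  rcases Nat.eq_zero_or_pos Ch.L with hL | hL
  · have hbox : Ch.box = ∅ := by
      unfold L8LCh.box
      rw [hL]
      refine Finset.eq_empty_of_forall_notMem fun co hco => ?_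
      have := Fintype.mem_piFinset.1 hco j0
      simp at this
    rw [hbox, Finset.filter_empty, Finset.sum_empty]
    exact Finset.prod_nonneg fun j _ => l8l_vs_nonneg H e j
  · have h := l8l_slice_prod Ch hL j0 (fun j l => Ch.mm j l * (l8lG I Ch Sto Det c d j l * I.eb l ^ e j))
    refine le_of_eq ?_
    unfold l8lVs
    rw [← h]
    refine Finset.sum_congr rfl fun co _ => ?_
    exact (Finset.prod_mul_distrib).symm

/-- N8: total mass of the weight -/
theorem l8l_wsum (H : L8LHyp T I Ch n r A0 w Sto Det c d) : ∑ co ∈ Ch.box, Ch.wt co * |w co| ≤ A0 ^ nv := by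
  have h1 : ∑ co ∈ Ch.box, Ch.wt co * |w co| ≤ ∑ co ∈ Ch.box, ∏ j, Ch.mm j (co j) * (l8lG I Ch Sto Det c d j (co j) * I.eb (co j) ^ 0) := by
    refine Finset.sum_le_sum fun co _ => ?_
    have := mul_le_mul_of_nonneg_left (l8l_maj_vertex H co) (l8l_wt_nonneg H co)
    refine this.trans (le_of_eq ?_)
    unfold L8LCh.wt
    rw [← Finset.prod_mul_distrib]
    refine Finset.prod_congr rfl fun j _ => ?_
    rw [pow_zero, mul_one]
  refine h1.trans ?_
  rw [l8l_box_prod Ch (fun j l => Ch.mm j l * (l8lG I Ch Sto Det c d j l * I.eb l ^ 0))]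
  have := l8l_rest_any H (fun _ => 0) univ
  exact this

/-- degrees add on disjoint sets of factors -/
theorem l8l_deg_union (Ch : L8LCh nv) {F G : Finset ℕ} (h : Disjoint F G) (c d : ℕ → ℕ) (j : Fin nv) :
    l8lDeg Ch (F ∪ G) c d j = l8lDeg Ch F c d j + l8lDeg Ch G c d j := by
  unfold l8lDeg
  rw [Finset.filter_union, Finset.card_union_of_disjoint (Finset.disjoint_filter_filter h)]

theorem l8l_deg_insert (Ch : L8LCh nv) {F : Finset ℕ} {s : ℕ} (h : s ∉ F) (c d : ℕ → ℕ) (j : Fin nv) :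
    l8lDeg Ch (insert s F) c d j = l8lDeg Ch F c d j + if Ch.vtx (c s) (d s) = j then 1 else 0 := by
  unfold l8lDeg
  rw [Finset.filter_insert]
  by_cases hj : Ch.vtx (c s) (d s) = j
  · rw [if_pos hj, if_pos hj, Finset.card_insert_of_notMem (fun hm => h (mem_filter.1 hm).1)]
  · rw [if_neg hj, if_neg hj, add_zero]

end

/-- N7: homogeneity: a centred bound for the coefficients `|κ| ≤ g` gives the bound `ρ * X0` for `|κ| ≤ ρ * g`; the sum runs over `range L`, the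
coefficients vanish on the levels `≥ ti`. -/
theorem l8l_homog (hT : T.Ok) (hI : I.Ok T) (p : ℕ) (g : ℕ → ℝ) (hg : ∀ l, 0 ≤ g l) {X0 : ℝ} (hX0 : 0 ≤ X0)
    (hcen : ∀ κ : ℕ → ℝ, (∀ l, |κ l| ≤ g l) → ∫ ω, I.cs T p κ ω ^ 2 ∂T.μ ≤ X0 ^ 2)
    (L : ℕ) (κ : ℕ → ℝ) {ρ : ℝ} (hρ : 0 ≤ ρ) (hκ : ∀ l, l < I.ti → |κ l| ≤ ρ * g l) (hκ0 : ∀ l, I.ti ≤ l → κ l = 0) :
    Real.sqrt (∫ ω, (∑ l ∈ range L, κ l * (I.Xi l ω ^ p - I.am T p l)) ^ 2 ∂T.μ) ≤ ρ * X0 := by
  rcases hρ.eq_or_lt with rfl | hρ0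
  · have hz : ∀ l, κ l = 0 := by
      intro l
      rcases lt_or_ge l I.ti with h | h
      · have := hκ l h
        rw [zero_mul] at this
        exact abs_eq_zero.1 (le_antisymm this (abs_nonneg _))
      · exact hκ0 l h
    simp [hz]
  · set κ' : ℕ → ℝ := fun l => if l < I.ti ∧ l < L then κ l / ρ else 0 with hκ'
    have hb : ∀ l, |κ' l| ≤ g l := by
      intro l
      simp only [hκ']
      split_ifs with h
      · rw [abs_div, abs_of_pos hρ0, div_le_iff₀ hρ0]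
        linarith [hκ l h.1]
      · simpa using hg l
    have hsum : ∀ ω, ∑ l ∈ range L, κ l * (I.Xi l ω ^ p - I.am T p l) = ρ * I.cs T p κ' ω := by
      intro ω
      unfold L8LIn.cs
      rw [Finset.mul_sum]
      have a1 : ∑ l ∈ range L, κ l * (I.Xi l ω ^ p - I.am T p l)
          = ∑ l ∈ range (max L I.ti), (if l < I.ti ∧ l < L then κ l * (I.Xi l ω ^ p - I.am T p l) else 0) := by
        rw [← Finset.sum_subset (Finset.range_subset_range.2 (le_max_left L I.ti))]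
        · refine Finset.sum_congr rfl fun l hl => ?_
          by_cases h : l < I.ti
          · rw [if_pos ⟨h, mem_range.1 hl⟩]
          · rw [if_neg (fun hh => h hh.1), hκ0 l (not_lt.1 h), zero_mul]
        · intro l _ hl
          rw [if_neg (fun hh => hl (mem_range.2 hh.2))]
      have a2 : ∑ l ∈ range I.ti, ρ * (κ' l * (I.Xi l ω ^ p - I.am T p l))
          = ∑ l ∈ range (max L I.ti), (if l < I.ti ∧ l < L then κ l * (I.Xi l ω ^ p - I.am T p l) else 0) := by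
        rw [← Finset.sum_subset (Finset.range_subset_range.2 (le_max_right L I.ti))]
        · refine Finset.sum_congr rfl fun l _ => ?_
          simp only [hκ']
          split_ifs with h
          · field_simp
          · ring
        · intro l _ hl
          rw [if_neg (fun hh => hl (mem_range.2 hh.1))]
      rw [a1, a2]
    simp only [hsum, mul_pow]
    rw [integral_const_mul]
    have h1 := hcen κ' hb
    have h2 : ρ ^ 2 * ∫ ω, I.cs T p κ' ω ^ 2 ∂T.μ ≤ (ρ * X0) ^ 2 := by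
      rw [mul_pow]
      exact mul_le_mul_of_nonneg_left h1 (by positivity)
    calc Real.sqrt (ρ ^ 2 * ∫ ω, I.cs T p κ' ω ^ 2 ∂T.μ) ≤ Real.sqrt ((ρ * X0) ^ 2) := Real.sqrt_le_sqrt h2
      _ = ρ * X0 := Real.sqrt_sq (by positivity)

end Claimed.Agent.R286
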