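import Claimed.Agent.R286.L08.SPC
import Claimed.Agent.R286.L08.SPD
import Claimed.Agent.R286.LL06.MartGrid

/-!
# Row 286 (S0533), folder L08, unit SA, file SAg : THE ALL-MOMENT UPGRADE (D11.g)      (architect + owner helper171, head of SA helper163; prefix `l8z_g_`, defs `L8P.z*`)

TEX[LL:prop:statistics-size-accuracy] 08-statistics.tex l.1243-1303 ("The all-moment upgrade"), NON-ASYMPTOTIC, over the abstract single path `L8P` of helper75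
(arbitrary finite hierarchy, explicit constants in, explicit constants out; the exponents are chosen in the wrapper of 163).

`τ k` = scalar time `t = K(v)` revealed before the cut `k`; the revelation `k` carries `τ (k+1) - τ k`; the cut `k` has the weight `τ (k+1) - τ k` in `∫ .. dt`
(chain of `Defs/Clk`: the revelation at the position `p_k` has the mass `p_k.u` and the increment of the clocks from `p_(k-1)` to `p_k`; so `dt ≤ dv/ω` reads `dens` EXACTLY).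

STEPS (each `sorry` = ONE LEAF; ask 171)
* G1  `l8z_g_intW`   `‖∑ dt W‖_r ≤ zIW`  (paper: `x^6/(λ V0'^4)`): doubling layers `l0, 2 l0, .., 2^J l0` + terminal block.   Also = the argument of LL (G4), (D6), 07 l.277.
      G1a `l8z_g_blocks` (block decomposition, L6.2), G1b `l8z_g_overlap` (global-grid, bounded overlap), G1c `l8z_g_later_b` (projected block on the averaged branch: POINTWISE),
      G1d `l8z_g_later_a` (projected block on the retained branch: threshold `θ` + Markov at the order `R` + dual Doob), G1f `l8z_g_cover` (overlap of the time blocks), `l8z_g_mink`.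
* G2  `l8z_g_buf`    normalised `t`-average of `L` over a buffer: (A1) line 3 with `dt/dv ≤ 1/ω`  (paper: `x^3/(√(ωλ) V0'^2 ρ)`).
* G3  `l8z_g_norm`, `l8z_g_incr`   brackets (L6.3): `‖|X_k|² - q_k‖`, `‖|X_k - X_k'|²‖`.
* G4  `l8z_g_pair`   overlap split at an interior cut: projection of both endpoints + polarisation.      G5 `l8z_g_small` smaller split: central cut.      G6 `l8z_g_frozen`.
* EXIT `l8z_g_interior` (G1-G4 assembled at one cut).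
All `L^p` norms are even integer moments `∫ (·)^(2 r) ≤ (bound)^(2 r)`.
ALL 12 LEAVES PROVED (0 sorry): helper135, 15 Oct 03:50-05:00Z.  Degenerate cases repaired: `l8z_g_cover` needs `0 ≤ mesh`, `l8z_g_overlap` needs `n0 ≤ n1`.
-/

set_option autoImplicit false

namespace Claimed.Agent.R286

open MeasureTheory ProbabilityTheory Finset
open scoped ENNReal

variable {Ω : Type} [mΩ : MeasurableSpace Ω] {m : ℕ}

namespace L8P

variable (P : L8P Ω m)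

/-- `|X_l - X_k|²` -/
noncomputable def zInc (k l : ℕ) (ω : Ω) : ℝ := ∑ i, P.XX k l i ω ^ 2

/-- `E_b[(Δ^a · Δ^b)² | a]`: fork at the cut `k`, block `[b,e)` of the retained branch, block `[b',e')` of the averaged branch -/
noncomputable def zF (k b e b' e' : ℕ) (ω : Ω) : ℝ := ∫ ω', (∑ i, P.XX b e i ω * P.XX b' e' i ω') ^ 2 ∂(P.κ k ω)

/-- **time coordinate** on the cuts `ka ≤ k ≤ kb`, INCREMENT form of LL (P2)-(P4): mass `≥ V`, `dh ≥ e0 dt`, `dv ≥ om dt`, mesh. -/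
structure ZT (τ : ℕ → ℝ) (ka kb : ℕ) (V e0 om mesh : ℝ) : Prop where
  mono : Monotone τ
  kb_le : kb ≤ P.n
  V_pos : 0 < V
  e0_pos : 0 < e0
  om_pos : 0 < om
  mass : V ≤ P.v ka
  field : ∀ k, ka ≤ k → k < kb → e0 * (τ (k + 1) - τ k) ≤ P.dh k
  dens : ∀ k, ka ≤ k → k < kb → om * (τ (k + 1) - τ k) ≤ P.dv k
  fine : ∀ k, ka ≤ k → k < kb → τ (k + 1) - τ k ≤ mesh

end L8P

/-- first cut at time distance `≥ d` after the cut `k` -/
noncomputable def l8zNext (τ : ℕ → ℝ) (k : ℕ) (d : ℝ) : ℕ := sInf {l : ℕ | k ≤ l ∧ τ k + d ≤ τ l}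

/-- the bound of G1 -/
noncomputable def l8zIW (a : ℝ) (m J r R : ℕ) (c1 cR V e0 l0 mesh T ϑ : ℝ) : ℝ :=
  a * ((J : ℝ) + 2) ^ 3 * (512 * (r : ℝ) ^ 2 * (1 + mesh / l0 + T / (2 ^ J * l0)) * (c1 + ϑ) / (V ^ 2 * m * e0)
    + 16 * T * (cR / ϑ ^ R) ^ ((1 : ℝ) / r) + 512 * r * (l0 + mesh))

/-! ## general helpers (helper135) -/

theorem l8z_g_tele (τ : ℕ → ℝ) {k l : ℕ} (hkl : k ≤ l) : ∑ j ∈ Ico k l, (τ (j + 1) - τ j) = τ l - τ k := by
  induction l, hkl using Nat.le_induction with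
  | base => simp
  | succ l hl ih => rw [Finset.sum_Ico_succ_top hl, ih]; ring

/-- Minkowski, strictly positive bounds (weighted Jensen) -/
theorem l8z_g_mink_pos {α ι : Type} [MeasurableSpace α] (ν : Measure α) [IsFiniteMeasure ν] (r : ℕ) (s : Finset ι) (hs : s.Nonempty)
    (f : ι → α → ℝ) (b : ι → ℝ) (hf : ∀ j ∈ s, L8Bd (f j)) (hf0 : ∀ j ∈ s, ∀ x, 0 ≤ f j x) (hb0 : ∀ j ∈ s, 0 < b j)
    (hb : ∀ j ∈ s, ∫ x, f j x ^ r ∂ν ≤ b j ^ r) :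
    ∫ x, (∑ j ∈ s, f j x) ^ r ∂ν ≤ (∑ j ∈ s, b j) ^ r := by
  set T := ∑ j ∈ s, b j with hTdef
  have hT : 0 < T := Finset.sum_pos hb0 hs
  have hpt : ∀ x, (∑ j ∈ s, f j x) ^ r ≤ T ^ r * ∑ j ∈ s, (b j / T) * (f j x / b j) ^ r := by
    intro x
    have h1 := Real.pow_arith_mean_le_arith_mean_pow s (fun j => b j / T) (fun j => f j x / b j)
      (fun j hj => (div_pos (hb0 j hj) hT).le) (by rw [← Finset.sum_div, div_self hT.ne'])
      (fun j hj => div_nonneg (hf0 j hj x) (hb0 j hj).le) r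
    have e : ∑ j ∈ s, b j / T * (f j x / b j) = (∑ j ∈ s, f j x) / T := by
      rw [Finset.sum_div]
      refine Finset.sum_congr rfl fun j hj => ?_
      have := (hb0 j hj).ne'
      field_simp
    rw [e, div_pow, div_le_iff₀ (by positivity)] at h1
    linarith
  have hl : L8Bd (fun x => (∑ j ∈ s, f j x) ^ r) := (L8Bd.sum _ hf).pow _
  have hr' : L8Bd (fun x => T ^ r * ∑ j ∈ s, (b j / T) * (f j x / b j) ^ r) :=
    (L8Bd.sum _ fun j hj => (((hf j hj).div_const _).pow _).const_mul _).const_mul _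
  calc ∫ x, (∑ j ∈ s, f j x) ^ r ∂ν ≤ ∫ x, T ^ r * ∑ j ∈ s, (b j / T) * (f j x / b j) ^ r ∂ν :=
        integral_mono (hl.integrable _) (hr'.integrable _) hpt
    _ = T ^ r * ∑ j ∈ s, (b j / T) * ((∫ x, f j x ^ r ∂ν) / b j ^ r) := by
        rw [integral_const_mul, integral_finsetSum _ fun j hj => ((((hf j hj).div_const _).pow _).const_mul _).integrable _]
        congr 1
        refine Finset.sum_congr rfl fun j _ => ?_
        rw [integral_const_mul]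
        simp only [div_pow]
        rw [integral_div]
    _ ≤ T ^ r * ∑ j ∈ s, (b j / T) * 1 := by
        gcongr with j hj
        · exact (div_pos (hb0 j hj) hT).le
        · rw [div_le_one (pow_pos (hb0 j hj) _)]
          exact hb j hj
    _ = T ^ r := by
        simp only [mul_one]
        rw [← Finset.sum_div, div_self hT.ne', mul_one]

/-- Minkowski for integer moments of nonnegative bounded functions, any finite measure -/
theorem l8z_g_mink_gen {α ι : Type} [MeasurableSpace α] (ν : Measure α) [IsFiniteMeasure ν] (r : ℕ) (hr : 1 ≤ r) (s : Finset ι)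
    (f : ι → α → ℝ) (B : ι → ℝ) (hf : ∀ j ∈ s, L8Bd (f j)) (hf0 : ∀ j ∈ s, ∀ x, 0 ≤ f j x) (hB0 : ∀ j ∈ s, 0 ≤ B j)
    (hB : ∀ j ∈ s, ∫ x, f j x ^ r ∂ν ≤ B j ^ r) :
    ∫ x, (∑ j ∈ s, f j x) ^ r ∂ν ≤ (∑ j ∈ s, B j) ^ r := by
  rcases s.eq_empty_or_nonempty with rfl | hs
  · simp [show r ≠ 0 by omega]
  have key : ∀ ε : ℝ, 0 < ε → ∫ x, (∑ j ∈ s, f j x) ^ r ∂ν ≤ (∑ j ∈ s, (B j + ε)) ^ r := by
    intro ε hε
    refine l8z_g_mink_pos ν r s hs f (fun j => B j + ε) hf hf0 (fun j hj => by have := hB0 j hj; positivity) fun j hj => ?_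
    exact (hB j hj).trans (pow_le_pow_left₀ (hB0 j hj) (by linarith) _)
  have hc : Filter.Tendsto (fun ε : ℝ => (∑ j ∈ s, (B j + ε)) ^ r) (nhdsWithin 0 (Set.Ioi 0)) (nhds ((∑ j ∈ s, (B j + 0)) ^ r)) := by
    apply Filter.Tendsto.mono_left _ nhdsWithin_le_nhds
    apply Continuous.tendsto
    fun_prop
  simp only [add_zero] at hc
  refine ge_of_tendsto hc ?_
  filter_upwards [self_mem_nhdsWithin] with ε hε
  exact key ε hε

/-- Minkowski for EVEN integer moments of signed bounded functions -/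
theorem l8z_g_mink_even {α ι : Type} [MeasurableSpace α] (ν : Measure α) [IsFiniteMeasure ν] (r : ℕ) (hr : 1 ≤ r) (s : Finset ι)
    (f : ι → α → ℝ) (B : ι → ℝ) (hf : ∀ j ∈ s, L8Bd (f j)) (hB0 : ∀ j ∈ s, 0 ≤ B j)
    (hB : ∀ j ∈ s, ∫ x, f j x ^ (2 * r) ∂ν ≤ B j ^ (2 * r)) :
    ∫ x, (∑ j ∈ s, f j x) ^ (2 * r) ∂ν ≤ (∑ j ∈ s, B j) ^ (2 * r) := by
  have h1 := l8z_g_mink_gen ν (2 * r) (by omega) s (fun j x => |f j x|) B (fun j hj => (hf j hj).abs) (fun j _ x => abs_nonneg _) hB0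
    (fun j hj => by
      have e : ∀ x, |f j x| ^ (2 * r) = f j x ^ (2 * r) := fun x => by rw [pow_mul, sq_abs, ← pow_mul]
      simp only [e]
      exact hB j hj)
  refine le_trans (integral_mono (((L8Bd.sum _ hf).pow _).integrable _) (((L8Bd.sum _ fun j hj => (hf j hj).abs).pow _).integrable _) fun x => ?_) h1
  show (∑ j ∈ s, f j x) ^ (2 * r) ≤ (∑ j ∈ s, |f j x|) ^ (2 * r)
  rw [pow_mul, pow_mul, ← sq_abs (∑ j ∈ s, f j x)]
  have := Finset.abs_sum_le_sum_abs (fun j => f j x) s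
  gcongr

theorem l8zNext_spec {τ : ℕ → ℝ} {k l : ℕ} {d : ℝ} (hkl : k ≤ l) (hl : τ k + d ≤ τ l) :
    k ≤ l8zNext τ k d ∧ τ k + d ≤ τ (l8zNext τ k d) ∧ l8zNext τ k d ≤ l := by
  have hne : {l : ℕ | k ≤ l ∧ τ k + d ≤ τ l}.Nonempty := ⟨l, hkl, hl⟩
  have := Nat.sInf_mem hne
  exact ⟨this.1, this.2, Nat.sInf_le ⟨hkl, hl⟩⟩

theorem l8zNext_lt {τ : ℕ → ℝ} {k j : ℕ} {d : ℝ} (hkj : k ≤ j) (hj : j < l8zNext τ k d) : τ j < τ k + d := by
  by_contra hc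
  exact Nat.notMem_of_lt_sInf hj ⟨hkj, not_lt.mp hc⟩

/-! ## the norm kit `L8zN` (helper135) -/

/-- `‖f‖_(2r) ≤ A` for a bounded measurable `f` -/
def L8zN {α : Type} [MeasurableSpace α] (ν : Measure α) (r : ℕ) (f : α → ℝ) (A : ℝ) : Prop :=
  L8Bd f ∧ 0 ≤ A ∧ ∫ x, f x ^ (2 * r) ∂ν ≤ A ^ (2 * r)

theorem l8zN_eqns_cite : True := by
  have := @L8zN.eq_1
  trivial

section kit

variable {α : Type} [MeasurableSpace α] {ν : Measure α} {r : ℕ} {f g : α → ℝ} {A B : ℝ}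

theorem L8zN.add [IsFiniteMeasure ν] (hr : 1 ≤ r) (hf : L8zN ν r f A) (hg : L8zN ν r g B) : L8zN ν r (fun x => f x + g x) (A + B) := by
  refine ⟨hf.1.add hg.1, add_nonneg hf.2.1 hg.2.1, ?_⟩
  have := l8z_g_mink_even ν r hr (Finset.univ : Finset (Fin 2)) ![f, g] ![A, B]
    (by intro j _; fin_cases j; exacts [hf.1, hg.1]) (by intro j _; fin_cases j; exacts [hf.2.1, hg.2.1])
    (by intro j _; fin_cases j; exacts [hf.2.2, hg.2.2])
  simpa [Fin.sum_univ_two] using this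

theorem L8zN.le (hf : L8zN ν r f A) (hAB : A ≤ B) : L8zN ν r f B :=
  ⟨hf.1, hf.2.1.trans hAB, hf.2.2.trans (pow_le_pow_left₀ hf.2.1 hAB _)⟩

theorem L8zN.mono [IsFiniteMeasure ν] (hg : L8zN ν r g A) (hf : L8Bd f) (hfg : ∀ x, |f x| ≤ |g x|) : L8zN ν r f A := by
  refine ⟨hf, hg.2.1, le_trans (integral_mono ((hf.pow _).integrable _) ((hg.1.pow _).integrable _) fun x => ?_) hg.2.2⟩
  show f x ^ (2 * r) ≤ g x ^ (2 * r)
  rw [pow_mul, pow_mul, ← sq_abs (f x), ← sq_abs (g x)]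
  have := hfg x
  gcongr

theorem L8zN.congr_ae (hg : L8zN ν r g A) (hf : L8Bd f) (hfg : f =ᵐ[ν] g) : L8zN ν r f A := by
  refine ⟨hf, hg.2.1, le_trans (le_of_eq (integral_congr_ae ?_)) hg.2.2⟩
  filter_upwards [hfg] with x hx
  rw [hx]

theorem L8zN.const_mul (hf : L8zN ν r f A) (c : ℝ) : L8zN ν r (fun x => c * f x) (|c| * A) := by
  refine ⟨hf.1.const_mul c, mul_nonneg (abs_nonneg _) hf.2.1, ?_⟩
  simp only [mul_pow]
  rw [integral_const_mul, pow_mul |c|, sq_abs, ← pow_mul]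
  exact mul_le_mul_of_nonneg_left hf.2.2 (by rw [pow_mul]; positivity)

theorem L8zN.neg (hf : L8zN ν r f A) : L8zN ν r (fun x => - f x) A := by
  have := hf.const_mul (-1)
  simpa using this

theorem L8zN.sub [IsFiniteMeasure ν] (hr : 1 ≤ r) (hf : L8zN ν r f A) (hg : L8zN ν r g B) : L8zN ν r (fun x => f x - g x) (A + B) := by
  simpa only [sub_eq_add_neg] using hf.add hr hg.neg

theorem l8zN_const [IsProbabilityMeasure ν] (r : ℕ) (c : ℝ) : L8zN ν r (fun _ : α => c) |c| := by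
  refine ⟨l8Bd_const c, abs_nonneg _, ?_⟩
  simp only [integral_const, probReal_univ, one_smul]
  rw [pow_mul, pow_mul, sq_abs]

/-- from a bound of the integral -/
theorem l8zN_of_le (hf : L8Bd f) (hA : 0 ≤ A) (h : ∫ x, f x ^ (2 * r) ∂ν ≤ A ^ (2 * r)) : L8zN ν r f A := ⟨hf, hA, h⟩

/-- `f² ≤ g`, `‖g‖_(2r) ≤ s²`  ⟹  `‖f‖_(2r) ≤ s` -/
theorem L8zN.sqrt [IsProbabilityMeasure ν] {s : ℝ} (hs : 0 ≤ s) (hg : L8zN ν r g (s ^ 2)) (hf : L8Bd f) (hfg : ∀ x, f x ^ 2 ≤ g x) :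
    L8zN ν r f s := by
  refine ⟨hf, hs, ?_⟩
  have h1 : ∫ x, f x ^ (2 * r) ∂ν ≤ ∫ x, g x ^ r ∂ν := by
    refine integral_mono ((hf.pow _).integrable _) ((hg.1.pow _).integrable _) fun x => ?_
    show f x ^ (2 * r) ≤ g x ^ r
    rw [pow_mul]
    exact pow_le_pow_left₀ (sq_nonneg _) (hfg x) _
  have h0 : 0 ≤ ∫ x, g x ^ r ∂ν := integral_nonneg fun x => pow_nonneg ((sq_nonneg _).trans (hfg x)) _
  -- Cauchy-Schwarz: `(∫ g^r)² ≤ ∫ g^(2r)`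
  have h2 : (∫ x, g x ^ r ∂ν) ^ 2 ≤ ∫ x, g x ^ (2 * r) ∂ν := by
    set I := ∫ x, g x ^ r ∂ν with hI
    have h3 : 0 ≤ ∫ x, (g x ^ r - I) ^ 2 ∂ν := integral_nonneg fun x => sq_nonneg _
    have e : ∫ x, (g x ^ r - I) ^ 2 ∂ν = (∫ x, g x ^ (2 * r) ∂ν) - I ^ 2 := by
      have e1 : ∀ x, (g x ^ r - I) ^ 2 = g x ^ (2 * r) - 2 * I * g x ^ r + I ^ 2 := fun x => by
        rw [mul_comm 2 r, pow_mul]; ring
      simp only [e1]
      rw [integral_add (((hg.1.pow _).sub ((hg.1.pow _).const_mul _)).integrable _) (integrable_const _),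
        integral_sub ((hg.1.pow _).integrable _) (((hg.1.pow _).const_mul _).integrable _), integral_const_mul, ← hI]
      simp only [integral_const, probReal_univ, one_smul]
      ring
    linarith
  have h4 : (∫ x, g x ^ r ∂ν) ^ 2 ≤ (s ^ (2 * r)) ^ 2 := by
    refine h2.trans (hg.2.2.trans (le_of_eq ?_))
    rw [← pow_mul, ← pow_mul]; ring_nf
  exact h1.trans (abs_le_of_sq_le_sq' h4 (by positivity)).2

end kit

/-! ## the norm kit `L8zP` for nonnegative functions, any integer order (helper135) -/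

/-- `‖f‖_r ≤ A` for a bounded measurable `f ≥ 0` -/
def L8zP {α : Type} [MeasurableSpace α] (ν : Measure α) (r : ℕ) (f : α → ℝ) (A : ℝ) : Prop :=
  L8Bd f ∧ (∀ x, 0 ≤ f x) ∧ 0 ≤ A ∧ ∫ x, f x ^ r ∂ν ≤ A ^ r

theorem l8zP_eqns_cite : True := by
  have := @L8zP.eq_1
  trivial

section kitP

variable {α : Type} [MeasurableSpace α] {ν : Measure α} {r : ℕ} {f g : α → ℝ} {A B : ℝ}

theorem l8zP_sum [IsFiniteMeasure ν] (hr : 1 ≤ r) {ι : Type} (s : Finset ι) {F : ι → α → ℝ} {C : ι → ℝ} (hF : ∀ j ∈ s, L8zP ν r (F j) (C j)) :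
    L8zP ν r (fun x => ∑ j ∈ s, F j x) (∑ j ∈ s, C j) :=
  ⟨L8Bd.sum _ fun j hj => (hF j hj).1, fun x => Finset.sum_nonneg fun j hj => (hF j hj).2.1 x, Finset.sum_nonneg fun j hj => (hF j hj).2.2.1,
    l8z_g_mink_gen ν r hr s F C (fun j hj => (hF j hj).1) (fun j hj => (hF j hj).2.1) (fun j hj => (hF j hj).2.2.1) fun j hj => (hF j hj).2.2.2⟩

theorem L8zP.add [IsFiniteMeasure ν] (hr : 1 ≤ r) (hf : L8zP ν r f A) (hg : L8zP ν r g B) : L8zP ν r (fun x => f x + g x) (A + B) := by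
  have := l8zP_sum (ν := ν) hr (Finset.univ : Finset (Fin 2)) (F := ![f, g]) (C := ![A, B]) (by intro j _; fin_cases j; exacts [hf, hg])
  simpa [Fin.sum_univ_two] using this

theorem L8zP.le (hf : L8zP ν r f A) (hAB : A ≤ B) : L8zP ν r f B :=
  ⟨hf.1, hf.2.1, hf.2.2.1.trans hAB, hf.2.2.2.trans (pow_le_pow_left₀ hf.2.2.1 hAB _)⟩

theorem L8zP.mono [IsFiniteMeasure ν] (hg : L8zP ν r g A) (hf : L8Bd f) (hf0 : ∀ x, 0 ≤ f x) (hfg : ∀ x, f x ≤ g x) : L8zP ν r f A :=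
  ⟨hf, hf0, hg.2.2.1, le_trans (integral_mono ((hf.pow _).integrable _) ((hg.1.pow _).integrable _)
    fun x => pow_le_pow_left₀ (hf0 x) (hfg x) _) hg.2.2.2⟩

theorem L8zP.const_mul (hf : L8zP ν r f A) {c : ℝ} (hc : 0 ≤ c) : L8zP ν r (fun x => c * f x) (c * A) := by
  refine ⟨hf.1.const_mul c, fun x => mul_nonneg hc (hf.2.1 x), mul_nonneg hc hf.2.2.1, ?_⟩
  simp only [mul_pow]
  rw [integral_const_mul]
  exact mul_le_mul_of_nonneg_left hf.2.2.2 (by positivity)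

/-- a pointwise bound -/
theorem l8zP_of_bound [IsProbabilityMeasure ν] (r : ℕ) (hf : L8Bd f) (hf0 : ∀ x, 0 ≤ f x) (hfA : ∀ x, f x ≤ A) : L8zP ν r f A := by
  obtain ⟨x⟩ := nonempty_of_isProbabilityMeasure ν
  have hA : 0 ≤ A := (hf0 x).trans (hfA x)
  refine ⟨hf, hf0, hA, ?_⟩
  have := integral_mono ((hf.pow r).integrable ν) (integrable_const (A ^ r)) fun x => pow_le_pow_left₀ (hf0 x) (hfA x) r
  simpa using this

end kitP

/-- threshold splitting with the unit anchor `U` -/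
theorem l8z_g_thresh {θ : ℝ} (hθ : 0 < θ) (R : ℕ) (D A U : Fin m → ℝ) (hA : ∀ i, A i = Real.sqrt (∑ j, A j ^ 2) * U i)
    (hD4 : ∑ i, D i ^ 2 ≤ 4) (hA4 : ∑ i, A i ^ 2 ≤ 4) :
    (∑ i, D i * A i) ^ 2 ≤ θ * ∑ i, A i ^ 2 + 16 * min 1 (((∑ i, D i * U i) ^ 2 / θ) ^ R) := by
  have hZ : 0 ≤ ∑ j, A j ^ 2 := Finset.sum_nonneg fun j _ => sq_nonneg _
  have hD0 : 0 ≤ ∑ j, D j ^ 2 := Finset.sum_nonneg fun j _ => sq_nonneg _
  have e : (∑ i, D i * A i) ^ 2 = (∑ j, A j ^ 2) * (∑ i, D i * U i) ^ 2 := by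
    have e1 : ∑ i, D i * A i = Real.sqrt (∑ j, A j ^ 2) * ∑ i, D i * U i := by
      rw [Finset.mul_sum]
      refine Finset.sum_congr rfl fun i _ => ?_
      conv_lhs => rw [hA i]
      ring
    rw [e1, mul_pow, Real.sq_sqrt hZ]
  have hg0 : 0 ≤ min 1 (((∑ i, D i * U i) ^ 2 / θ) ^ R) := le_min zero_le_one (by positivity)
  rcases le_or_gt ((∑ i, D i * U i) ^ 2) θ with hx | hx
  · rw [e]
    nlinarith [mul_le_mul_of_nonneg_left hx hZ]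
  · have h1 : 1 ≤ ((∑ i, D i * U i) ^ 2 / θ) ^ R := one_le_pow₀ (by rw [le_div_iff₀ hθ]; linarith)
    rw [min_eq_left h1]
    have h2 := Finset.sum_mul_sq_le_sq_mul_sq Finset.univ D A
    have h3 : (∑ i, D i ^ 2) * ∑ i, A i ^ 2 ≤ 4 * 4 := mul_le_mul hD4 hA4 hZ (by norm_num)
    nlinarith [mul_nonneg hθ.le hZ]

/-! ## the doubling blocks of G1 (helper135) -/

/-- the doubling distances `0, l0, 2 l0, 4 l0, ..` -/
noncomputable def l8zD (l0 : ℝ) (c : ℕ) : ℝ := if c = 0 then 0 else 2 ^ (c - 1) * l0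

/-- the block cuts of the cut `k`: `k`, `next l0`, .., `next 2^J l0`, `n + 1` -/
noncomputable def l8zT (τ : ℕ → ℝ) (l0 : ℝ) (J n k c : ℕ) : ℕ := if c ≤ J + 1 then l8zNext τ k (l8zD l0 c) else n + 1

/-- the overlap of the blocks number `c` -/
noncomputable def l8zM (l0 mesh T : ℝ) (J c : ℕ) : ℝ := if c ≤ J then l8zD l0 (c + 1) - l8zD l0 c + mesh else T

theorem l8zD_eqns_cite : True := by
  have := @l8zD.eq_1
  have := @l8zT.eq_1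
  have := @l8zM.eq_1
  trivial

theorem l8zD_zero (l0 : ℝ) : l8zD l0 0 = 0 := by simp [l8zD]

theorem l8zD_succ (l0 : ℝ) (c : ℕ) : l8zD l0 (c + 1) = 2 ^ c * l0 := by simp [l8zD]

theorem l8zD_mono {l0 : ℝ} (hl0 : 0 ≤ l0) : Monotone (l8zD l0) := by
  refine monotone_nat_of_le_succ fun c => ?_
  rcases c with _ | c
  · rw [l8zD_zero, l8zD_succ]; positivity
  · rw [l8zD_succ, l8zD_succ, pow_succ]
    have : 0 ≤ 2 ^ c * l0 := by positivity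
    linarith

theorem l8zD_le {l0 : ℝ} (hl0 : 0 ≤ l0) {c J : ℕ} (hc : c ≤ J + 1) : l8zD l0 c ≤ 2 ^ J * l0 := by
  rw [← l8zD_succ]
  exact l8zD_mono hl0 hc

theorem l8zD_ge {l0 : ℝ} (hl0 : 0 ≤ l0) {c : ℕ} (hc : 1 ≤ c) : l0 ≤ l8zD l0 c := by
  have := l8zD_mono hl0 hc
  rwa [l8zD_succ, pow_zero, one_mul] at this

theorem l8zD_diff (l0 : ℝ) (c : ℕ) : l8zD l0 (c + 1) - l8zD l0 c ≤ l8zD l0 (max c 1) := by
  rcases c with _ | c
  · simp [l8zD]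
  · rw [max_eq_left (by omega), l8zD_succ, l8zD_succ, pow_succ]
    linarith

theorem l8zM_nonneg {l0 mesh T : ℝ} (hl0 : 0 ≤ l0) (hmesh : 0 ≤ mesh) (hT : 0 ≤ T) (J c : ℕ) : 0 ≤ l8zM l0 mesh T J c := by
  unfold l8zM
  split_ifs
  · have := l8zD_mono hl0 (Nat.le_succ c)
    linarith
  · exact hT

theorem l8zM_le {l0 mesh T : ℝ} (hl0 : 0 < l0) (hmesh : 0 ≤ mesh) (hT : 0 ≤ T) {J c1 c2 : ℕ} (h12 : c1 ≤ c2) (h2 : 1 ≤ c2) (h2J : c2 ≤ J + 1) :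
    l8zM l0 mesh T J c1 ≤ (1 + mesh / l0 + T / (2 ^ J * l0)) * l8zD l0 c2 := by
  have hD := l8zD_ge hl0.le h2
  have hD0 : 0 < l8zD l0 c2 := lt_of_lt_of_le hl0 hD
  unfold l8zM
  split_ifs with hc
  · have a1 := (l8zD_diff l0 c1).trans (l8zD_mono hl0.le (max_le h12 h2))
    have a2 : mesh ≤ mesh / l0 * l8zD l0 c2 := by
      rw [div_mul_eq_mul_div, le_div_iff₀ hl0]
      exact mul_le_mul_of_nonneg_left hD hmesh
    have a3 : 0 ≤ T / (2 ^ J * l0) * l8zD l0 c2 := by positivity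
    nlinarith
  · have e : c2 = J + 1 := by omega
    rw [e, l8zD_succ]
    have hp : 0 < 2 ^ J * l0 := by positivity
    have a1 : T / (2 ^ J * l0) * (2 ^ J * l0) = T := div_mul_cancel₀ _ hp.ne'
    have a2 : 0 ≤ (1 + mesh / l0) * (2 ^ J * l0) := by positivity
    nlinarith

theorem l8zNext_mono {τ : ℕ → ℝ} {k l : ℕ} {d1 d2 : ℝ} (hd : d1 ≤ d2) (hkl : k ≤ l) (hl : τ k + d2 ≤ τ l) :
    l8zNext τ k d1 ≤ l8zNext τ k d2 := by
  obtain ⟨a1, a2, _⟩ := l8zNext_spec hkl hl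
  exact (l8zNext_spec a1 (by linarith)).2.2

theorem l8z_g_sum3 (s t u : Finset ℕ) (F : ℕ → ℕ → ℕ → ℝ) :
    ∑ c ∈ s, ∑ c' ∈ t, ∑ k ∈ u, F k c c' = ∑ k ∈ u, ∑ c ∈ s, ∑ c' ∈ t, F k c c' :=
  calc ∑ c ∈ s, ∑ c' ∈ t, ∑ k ∈ u, F k c c' = ∑ c ∈ s, ∑ k ∈ u, ∑ c' ∈ t, F k c c' := Finset.sum_congr rfl fun _ _ => Finset.sum_comm
    _ = ∑ k ∈ u, ∑ c ∈ s, ∑ c' ∈ t, F k c c' := Finset.sum_comm

section blocks

variable {τ : ℕ → ℝ} {l0 : ℝ} {J n k kb : ℕ}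

theorem l8zT_spec (hl0 : 0 ≤ l0) (hk : k ≤ kb) (hroom : τ k + 2 ^ J * l0 ≤ τ kb) {c : ℕ} (hc : c ≤ J + 1) :
    k ≤ l8zT τ l0 J n k c ∧ τ k + l8zD l0 c ≤ τ (l8zT τ l0 J n k c) ∧ l8zT τ l0 J n k c ≤ kb := by
  unfold l8zT
  rw [if_pos hc]
  exact l8zNext_spec hk (by have := l8zD_le hl0 hc; linarith)

theorem l8zT_zero : l8zT τ l0 J n k 0 = k := by
  unfold l8zT
  rw [if_pos (Nat.zero_le _), l8zD_zero]
  have := l8zNext_spec (τ := τ) (d := 0) (le_refl k) (by simp)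
  omega

theorem l8zT_top : l8zT τ l0 J n k (J + 2) = n + 1 := by
  unfold l8zT
  rw [if_neg (by omega)]

theorem l8zT_mono (hl0 : 0 ≤ l0) (hk : k ≤ kb) (hroom : τ k + 2 ^ J * l0 ≤ τ kb) (hn : kb ≤ n) : Monotone (l8zT τ l0 J n k) := by
  refine monotone_nat_of_le_succ fun c => ?_
  rcases Nat.lt_or_ge c (J + 1) with hc | hc
  · unfold l8zT
    rw [if_pos hc.le, if_pos (show c + 1 ≤ J + 1 from hc)]
    exact l8zNext_mono (l8zD_mono hl0 (Nat.le_succ c)) hk (by have := l8zD_le hl0 (c := c + 1) hc; linarith)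
  · rcases hc.eq_or_lt with rfl | hc
    · have := (l8zT_spec (n := n) hl0 hk hroom (le_refl (J + 1))).2.2
      rw [l8zT_top]
      omega
    · unfold l8zT
      rw [if_neg (by omega), if_neg (by omega)]

theorem l8zT_le (hl0 : 0 ≤ l0) (hk : k ≤ kb) (hroom : τ k + 2 ^ J * l0 ≤ τ kb) (hn : kb ≤ n) (c : ℕ) : l8zT τ l0 J n k c ≤ n + 1 := by
  rcases Nat.lt_or_ge c (J + 2) with hc | hc
  · rw [← l8zT_top (τ := τ) (l0 := l0) (J := J) (k := k)]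
    exact l8zT_mono hl0 hk hroom hn hc.le
  · unfold l8zT
    rw [if_neg (by omega)]

end blocks

theorem L8Bd.comp_fst {f : Ω → ℝ} (hf : L8Bd f) : @L8Bd (Ω × Ω) _ (fun p => f p.1) :=
  ⟨hf.1.comp measurable_fst, hf.2.choose, fun p => hf.2.choose_spec p.1⟩

theorem L8Bd.comp_snd {f : Ω → ℝ} (hf : L8Bd f) : @L8Bd (Ω × Ω) _ (fun p => f p.2) :=
  ⟨hf.1.comp measurable_snd, hf.2.choose, fun p => hf.2.choose_spec p.2⟩

/-- `|u·v| ≤ (|u|² + |v|²)/2` -/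
theorem l8z_g_inner_le (u v : Fin m → ℝ) : |∑ i, u i * v i| ≤ |1 / 2 * ∑ i, u i ^ 2 + 1 / 2 * ∑ i, v i ^ 2| := by
  refine le_trans ?_ (le_abs_self _)
  rw [Finset.mul_sum, Finset.mul_sum, ← Finset.sum_add_distrib]
  refine (Finset.abs_sum_le_sum_abs _ _).trans (Finset.sum_le_sum fun i _ => ?_)
  rw [abs_le]
  constructor <;> nlinarith [sq_nonneg (u i + v i), sq_nonneg (u i - v i)]

namespace L8P

variable (P : L8P Ω m)

/-! ## G1 : the integrated pinned moment in a time window -/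

theorem l8z_g_hlen {τ : ℕ → ℝ} {ka kb : ℕ} {V e0 om mesh : ℝ} (hT : P.ZT τ ka kb V e0 om mesh) {k l : ℕ} (hk : ka ≤ k) (hkl : k ≤ l) (hl : l ≤ kb) :
    e0 * (τ l - τ k) ≤ P.hlen k l := by
  rw [← l8z_g_tele τ hkl, Finset.mul_sum]
  unfold hlen
  refine Finset.sum_le_sum fun j hj => ?_
  rw [Finset.mem_Ico] at hj
  exact hT.field j (hk.trans hj.1) (lt_of_lt_of_le hj.2 hl)

theorem l8z_g_m_pos (h : P.Ok) : 0 < m := by
  rcases Nat.eq_zero_or_pos m with h0 | h0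
  · exfalso
    subst h0
    have := h.prob
    obtain ⟨ω⟩ : Nonempty Ω := by
      by_contra hc
      rw [not_nonempty_iff] at hc
      have : P.μ Set.univ = 0 := by rw [Set.univ_eq_empty_iff.mpr hc]; simp
      simp at this
    have := h.y_sq ω
    simp at this
  · exact h0

/-- Minkowski for even/odd integer moments of nonnegative bounded functions -/
theorem l8z_g_mink (h : P.Ok) (r : ℕ) (hr : 1 ≤ r) {ι : Type} (s : Finset ι) (f : ι → Ω → ℝ) (B : ι → ℝ) (hf : ∀ j ∈ s, L8Bd (f j))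
    (hf0 : ∀ j ∈ s, ∀ ω, 0 ≤ f j ω) (hB0 : ∀ j ∈ s, 0 ≤ B j) (hB : ∀ j ∈ s, ∫ ω, f j ω ^ r ∂P.μ ≤ B j ^ r) :
    ∫ ω, (∑ j ∈ s, f j ω) ^ r ∂P.μ ≤ (∑ j ∈ s, B j) ^ r := by
  have := h.prob
  exact l8z_g_mink_gen P.μ r hr s f B hf hf0 hB0 hB

theorem l8z_g_zFint_bd (h : P.Ok) (b e b' e' : ℕ) (ω : Ω) : L8Bd (fun ω' => (∑ i, P.XX b e i ω * P.XX b' e' i ω') ^ 2) :=
  (L8Bd.sum _ fun i _ => (P.l8sb_XX_bd h b' e' i).const_mul _).pow 2

/-- G1a.  TEX[LL:global:residual-blocks] (global-block-decomposition) on `L8P`: `l8s_H_le_blocks`, `v ≤ a`, telescoping of the residual, Cauchy-Schwarz over the blocks. -/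
theorem l8z_g_blocks (h : P.Ok) (b : ℕ) (t : ℕ → ℕ) (ht : Monotone t) (hb : t b = P.n + 1) (ω : Ω) :
    P.W (t 0) ω ≤ P.a * b * ∑ c ∈ range b, ∑ c' ∈ range b, P.zF (t 0) (t c) (t (c + 1)) (t c') (t (c' + 1)) ω := by
  have h1 := P.l8s_H_le_blocks h b t ht hb (fun i => P.R (t 0) i ω) ω
  have hR : ∀ i, P.R (t 0) i ω = ∑ c ∈ range b, P.XX (t c) (t (c + 1)) i ω := by
    intro i
    have e : ∑ c ∈ range b, P.XX (t c) (t (c + 1)) i ω = P.X (t b) i ω - P.X (t 0) i ω :=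
      Finset.sum_range_sub (fun c => P.X (t c) i ω) b
    rw [e, hb, P.l8s_X_term h (Nat.lt_succ_self _)]
    rfl
  have ha := h.a_pos.le
  have bd := fun c c' => P.l8z_g_zFint_bd h (t c) (t (c + 1)) (t c') (t (c' + 1)) ω
  have bdR : ∀ c', L8Bd (fun ω' => (∑ i, P.R (t 0) i ω * P.XX (t c') (t (c' + 1)) i ω') ^ 2) := fun c' =>
    (L8Bd.sum _ fun i _ => (P.l8sb_XX_bd h _ _ i).const_mul _).pow 2
  have h2 : P.E (t 0) (fun ω' => ∑ c' ∈ range b, P.v (t (c' + 1) - 1) * (∑ i, P.R (t 0) i ω * P.XX (t c') (t (c' + 1)) i ω') ^ 2) ω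
      ≤ P.E (t 0) (fun ω' => ∑ c' ∈ range b, P.a * (b * ∑ c ∈ range b,
          (∑ i, P.XX (t c) (t (c + 1)) i ω * P.XX (t c') (t (c' + 1)) i ω') ^ 2)) ω := by
    refine P.l8s_E_mono h _ (L8Bd.sum _ fun c' _ => (bdR c').const_mul _)
      (L8Bd.sum _ fun c' _ => ((L8Bd.sum _ fun c _ => bd c c').const_mul _).const_mul _) (fun ω' => ?_) ω
    refine Finset.sum_le_sum fun c' _ => ?_
    refine mul_le_mul (P.l8sb_v_le_a h _) ?_ (sq_nonneg _) ha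
    have e : ∑ i, P.R (t 0) i ω * P.XX (t c') (t (c' + 1)) i ω'
        = ∑ c ∈ range b, ∑ i, P.XX (t c) (t (c + 1)) i ω * P.XX (t c') (t (c' + 1)) i ω' := by
      rw [Finset.sum_comm]
      refine Finset.sum_congr rfl fun i _ => ?_
      rw [hR i, Finset.sum_mul]
    rw [e]
    have := sq_sum_le_card_mul_sum_sq (s := range b)
      (f := fun c => ∑ i, P.XX (t c) (t (c + 1)) i ω * P.XX (t c') (t (c' + 1)) i ω')
    rwa [Finset.card_range] at this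
  have h3 : P.E (t 0) (fun ω' => ∑ c' ∈ range b, P.a * (b * ∑ c ∈ range b,
          (∑ i, P.XX (t c) (t (c + 1)) i ω * P.XX (t c') (t (c' + 1)) i ω') ^ 2)) ω
      = P.a * b * ∑ c ∈ range b, ∑ c' ∈ range b, P.zF (t 0) (t c) (t (c + 1)) (t c') (t (c' + 1)) ω := by
    rw [P.l8s_E_sum h _ _ fun c' _ => ((L8Bd.sum _ fun c _ => bd c c').const_mul _).const_mul _, Finset.sum_comm, Finset.mul_sum]
    refine Finset.sum_congr rfl fun c' _ => ?_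
    rw [P.l8s_E_const_mul, P.l8s_E_const_mul, P.l8s_E_sum h _ _ fun c _ => bd c c', mul_assoc]
    rfl
  unfold L8P.W
  exact (h1.trans h2).trans h3.le

theorem l8z_g_zInc_bd (h : P.Ok) (k l : ℕ) : L8Bd (P.zInc k l) :=
  L8Bd.sum _ fun i _ => (P.l8sb_XX_bd h k l i).pow 2

theorem l8z_g_zInc_nonneg (k l : ℕ) (ω : Ω) : 0 ≤ P.zInc k l ω := Finset.sum_nonneg fun _ _ => sq_nonneg _

theorem l8z_g_zInc_eq (k l : ℕ) (ω : Ω) :
    P.zInc k l ω = ‖(WithLp.toLp 2 (fun i => P.X l i ω) : EuclideanSpace ℝ (Fin m)) - WithLp.toLp 2 (fun i => P.X k i ω)‖ ^ 2 := by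
  rw [EuclideanSpace.norm_sq_eq]
  simp [zInc, XX]

/-- G1b.  TEX[LL:global:residual-blocks] (global-grid), BOUNDED OVERLAP form (= `l6m_overlap` of LL06/MartGrid through `l8s_X_martingale`):
every elementary step `j → j+1` is covered with total weight `≤ M`. -/
theorem l8z_g_overlap (h : P.Ok) (q : ℕ) (hq : 1 ≤ q) (s : Finset ℕ) (w : ℕ → ℝ) (b e : ℕ → ℕ) (n0 n1 : ℕ) (h01 : n0 ≤ n1) (M : ℝ)
    (hw : ∀ k ∈ s, 0 ≤ w k) (hb : ∀ k ∈ s, n0 ≤ b k ∧ b k ≤ e k ∧ e k ≤ n1)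
    (hM : ∀ j, n0 ≤ j → j < n1 → ∑ k ∈ s.filter (fun k => b k ≤ j ∧ j < e k), w k ≤ M) :
    ∫ ω, (∑ k ∈ s, w k * P.zInc (b k) (e k) ω) ^ q ∂P.μ ≤ (32 * q * M) ^ q * ∫ ω, P.zInc n0 n1 ω ^ q ∂P.μ := by
  have := h.prob
  have hmart := l6m_vec_mart (ℱ := P.ℱ) (μ := P.μ) (x := fun k i => P.X k i) fun i => P.l8s_X_martingale h i
  have hint : Integrable (fun ω => P.zInc n0 n1 ω ^ q) P.μ := ((P.l8z_g_zInc_bd h n0 n1).pow q).integrable P.μ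
  simp only [l8z_g_zInc_eq] at hint ⊢
  exact l6m_gen_real hmart hq h01 hint s w hw b e (fun k hk => (hb k hk).1) (fun k hk => (hb k hk).2.1) (fun k hk => (hb k hk).2.2) hM

/-- G1c.  The later block is on the AVERAGED branch: (A3) at `r = 1` with the fixed anchor `Δ^a(ω)`, pointwise in `ω`. -/
theorem l8z_g_later_b (h : P.Ok) {c1 vmin hmin : ℝ} (hp : P.Proj 1 c1 vmin hmin) {k b e b' e' : ℕ} (hkb : k < b') (hbe : b' ≤ e')
    (hb' : b' ≤ P.n + 1) (hv : vmin ≤ P.v k) (hh : hmin ≤ P.hlen k b') (ω : Ω) :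
    P.zF k b e b' e' ω ≤ c1 * P.zInc b e ω / (P.v k ^ 2 * m * P.hlen k b') := by
  have := P.l8s_proj_incr h hp hkb hbe hb' hv hh ω (fun i => P.XX b e i ω)
  simpa [zF, zInc] using this

/-! ## transfers to the fork (helper135) -/

theorem l8z_g_int_fst (h : P.Ok) (k : ℕ) {f : Ω → ℝ} (hf : L8Bd f) : ∫ p, f p.1 ∂(P.fork k) = ∫ ω, f ω ∂P.μ := by
  conv_rhs => rw [← P.l8s_fork_fst h k]
  rw [integral_map measurable_fst.aemeasurable hf.1.aestronglyMeasurable]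

theorem l8z_g_int_snd (h : P.Ok) (k : ℕ) {f : Ω → ℝ} (hf : L8Bd f) : ∫ p, f p.2 ∂(P.fork k) = ∫ ω, f ω ∂P.μ := by
  conv_rhs => rw [← P.l8s_fork_snd h k]
  rw [integral_map measurable_snd.aemeasurable hf.1.aestronglyMeasurable]

theorem l8z_g_int_swap (h : P.Ok) (k : ℕ) {F : Ω × Ω → ℝ} (hF : L8Bd F) : ∫ p, F p.swap ∂(P.fork k) = ∫ p, F p ∂(P.fork k) := by
  conv_rhs => rw [← P.l8s_fork_swap h k]
  rw [integral_map measurable_swap.aemeasurable hF.1.aestronglyMeasurable]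

theorem l8z_g_N_fst (h : P.Ok) (k : ℕ) {r : ℕ} {f : Ω → ℝ} {A : ℝ} (hf : L8zN P.μ r f A) : L8zN (P.fork k) r (fun p => f p.1) A :=
  ⟨hf.1.comp_fst, hf.2.1, by rw [P.l8z_g_int_fst h k (f := fun ω => f ω ^ (2 * r)) (hf.1.pow _)]; exact hf.2.2⟩

theorem l8z_g_N_snd (h : P.Ok) (k : ℕ) {r : ℕ} {f : Ω → ℝ} {A : ℝ} (hf : L8zN P.μ r f A) : L8zN (P.fork k) r (fun p => f p.2) A :=
  ⟨hf.1.comp_snd, hf.2.1, by rw [P.l8z_g_int_snd h k (f := fun ω => f ω ^ (2 * r)) (hf.1.pow _)]; exact hf.2.2⟩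

theorem l8z_g_N_swap (h : P.Ok) (k : ℕ) {r : ℕ} {F : Ω × Ω → ℝ} {A : ℝ} (hF : L8zN (P.fork k) r F A) : L8zN (P.fork k) r (fun p => F p.swap) A :=
  ⟨⟨hF.1.1.comp measurable_swap, hF.1.2.choose, fun p => hF.1.2.choose_spec p.swap⟩, hF.2.1, by
    rw [P.l8z_g_int_swap h k (F := fun p => F p ^ (2 * r)) (hF.1.pow _)]; exact hF.2.2⟩

theorem l8z_g_Q_bd (h : P.Ok) : @L8Bd (Ω × Ω) _ P.Q := ⟨(P.l8s_fork_Q_bd_aux h).1, 1, (P.l8s_fork_Q_bd_aux h).2⟩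

/-- the unit anchor `Δ/|Δ|` -/
noncomputable def zU (b e : ℕ) (i : Fin m) (ω : Ω) : ℝ := P.XX b e i ω / Real.sqrt (P.zInc b e ω)

theorem l8z_g_zInc_le (h : P.Ok) (k l : ℕ) (ω : Ω) : P.zInc k l ω ≤ 4 := by
  have h1 := P.l8s_nX_le_one h k ω
  have h2 := P.l8s_nX_le_one h l ω
  unfold nX at h1 h2
  have h3 : P.zInc k l ω ≤ ∑ i, (2 * P.X l i ω ^ 2 + 2 * P.X k i ω ^ 2) := by
    unfold zInc XX
    refine Finset.sum_le_sum fun i _ => ?_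
    nlinarith [sq_nonneg (P.X l i ω + P.X k i ω)]
  rw [Finset.sum_add_distrib, ← Finset.mul_sum, ← Finset.mul_sum] at h3
  linarith

theorem l8z_g_zU_bd (h : P.Ok) (b e : ℕ) (i : Fin m) : L8Bd (P.zU b e i) := by
  refine ⟨(P.l8sb_XX_bd h b e i).1.div (P.l8z_g_zInc_bd h b e).1.sqrt, 1, fun ω => ?_⟩
  unfold zU
  rw [abs_div, abs_of_nonneg (Real.sqrt_nonneg _)]
  refine div_le_one_of_le₀ ?_ (Real.sqrt_nonneg _)
  refine Real.abs_le_sqrt ?_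
  unfold zInc
  exact Finset.single_le_sum (f := fun i => P.XX b e i ω ^ 2) (fun j _ => sq_nonneg _) (Finset.mem_univ i)

theorem l8z_g_zU_sq (b e : ℕ) (ω : Ω) : ∑ i, P.zU b e i ω ^ 2 ≤ 1 := by
  unfold zU
  simp only [div_pow]
  rw [← Finset.sum_div, Real.sq_sqrt (P.l8z_g_zInc_nonneg b e ω)]
  exact div_self_le_one _

theorem l8z_g_zU_mul (b e : ℕ) (i : Fin m) (ω : Ω) : P.XX b e i ω = Real.sqrt (P.zInc b e ω) * P.zU b e i ω := by
  unfold zU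
  rcases eq_or_lt_of_le (P.l8z_g_zInc_nonneg b e ω) with h0 | h0
  · have h1 : P.XX b e i ω = 0 := by
      have := (Finset.sum_eq_zero_iff_of_nonneg (fun j _ => sq_nonneg (P.XX b e j ω))).1 h0.symm i (Finset.mem_univ i)
      exact (pow_eq_zero_iff two_ne_zero).1 this
    rw [h1]; simp
  · have := (Real.sqrt_pos.2 h0).ne'
    field_simp

/-- dual Doob over a finite set of cuts -/
theorem l8z_g_dual_doob (h : P.Ok) (q : ℕ) (hq : 1 ≤ q) (s : Finset ℕ) (w : ℕ → ℝ) (hw : ∀ k ∈ s, 0 ≤ w k) (V : ℕ → Ω → ℝ)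
    (hV : ∀ k, L8Bd (V k)) (hV0 : ∀ k ω, 0 ≤ V k ω) :
    ∫ ω, (∑ k ∈ s, w k * P.E k (V k) ω) ^ q ∂P.μ ≤ (q : ℝ) ^ q * ∫ ω, (∑ k ∈ s, w k * V k ω) ^ q ∂P.μ := by
  classical
  have hsub : s ⊆ range (s.sup id + 1) := fun k hk => by
    rw [Finset.mem_range]
    exact Nat.lt_succ_of_le (Finset.le_sup (f := id) hk)
  have e : ∀ f : ℕ → ℝ, ∑ k ∈ range (s.sup id + 1), (if k ∈ s then w k else 0) * f k = ∑ k ∈ s, w k * f k := by
    intro f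
    simp only [ite_mul, zero_mul]
    rw [Finset.sum_ite_mem, Finset.inter_eq_right.2 hsub]
  have h1 := P.l8s_dual_doob h q hq (s.sup id + 1) (fun k => if k ∈ s then w k else 0)
    (fun k => by by_cases hk : k ∈ s <;> simp [hk, hw]) V hV hV0
  simp only [e] at h1
  exact h1

/-- (A3) for a finite block of the second branch, anchor of length `≤ 1` carried by the first branch -/
theorem l8z_g_proj_blk (h : P.Ok) {R : ℕ} {cR vmin hmin : ℝ} (hcR : 0 ≤ cR) (hp : P.Proj R cR vmin hmin) {k b e : ℕ} (hkb : k < b) (hbe : b ≤ e)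
    (hb : b ≤ P.n + 1) (hv : vmin ≤ P.v k) (hh : hmin ≤ P.hlen k b) (U : Fin m → Ω → ℝ) (hU : ∀ i, L8Bd (U i)) (hU1 : ∀ ω, ∑ i, U i ω ^ 2 ≤ 1) :
    ∫ p, (∑ i, U i p.1 * P.XX b e i p.2) ^ (2 * R) ∂(P.fork k) ≤ cR / (P.v k ^ 2 * m * P.hlen k b) ^ R := by
  have := h.prob
  have hF : @L8Bd (Ω × Ω) _ (fun p => (∑ i, U i p.1 * P.XX b e i p.2) ^ (2 * R)) :=
    (L8Bd.sum _ fun i _ => (hU i).comp_fst.mul (P.l8sb_XX_bd h b e i).comp_snd).pow _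
  obtain ⟨hFm, cF, hFc⟩ := hF
  rw [P.l8s_fork_integral h k hFm hFc]
  have hl0 : 0 ≤ P.hlen k b := Finset.sum_nonneg fun j _ => h.dh_nonneg j
  have hD : 0 ≤ (P.v k ^ 2 * m * P.hlen k b) ^ R := by positivity
  have h1 := integral_mono ((P.l8s_fork_inner_bd_aux h k hFm hFc).integrable P.μ) (integrable_const (cR / (P.v k ^ 2 * m * P.hlen k b) ^ R))
    fun ω => by
      refine (P.l8s_proj_incr h hp hkb hbe hb hv hh ω (fun i => U i ω)).trans ?_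
      refine div_le_div_of_nonneg_right ?_ hD
      exact mul_le_of_le_one_right hcR (pow_le_one₀ (Finset.sum_nonneg fun i _ => sq_nonneg _) (hU1 ω))
  simpa using h1

theorem l8z_g_zF_bd (h : P.Ok) (k b e b' e' : ℕ) : L8Bd (P.zF k b e b' e') := by
  have hF : @L8Bd (Ω × Ω) _ (fun p => (∑ i, P.XX b e i p.1 * P.XX b' e' i p.2) ^ 2) :=
    (L8Bd.sum _ fun i _ => (P.l8sb_XX_bd h b e i).comp_fst.mul (P.l8sb_XX_bd h b' e' i).comp_snd).pow _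
  obtain ⟨hFm, cF, hFc⟩ := hF
  exact P.l8s_fork_inner_bd_aux h k hFm hFc

theorem l8z_g_zF_nonneg (k b e b' e' : ℕ) (ω : Ω) : 0 ≤ P.zF k b e b' e' ω := integral_nonneg fun _ => sq_nonneg _

/-- G1d.  The later block is on the RETAINED branch.  `(Δ·A)² ≤ θ |A|² + 16 · 1{(Δ·Â)² > θ}`; first term: dual Doob `l8s_dual_doob`; second term: Markov at the order `R`
with (A3) on the fork (`l8s_fork_proj`, `l8s_fork_swap`, conditional Jensen for a finite block), unit anchor `Â`.      TEX[LL:par:global-block-estimates] l.415-450 of 06. -/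
theorem l8z_g_later_a (h : P.Ok) (r R : ℕ) (hr : 1 ≤ r) (hR : 1 ≤ R) {cR vmin hmin Nn θ A : ℝ} (hcR : 0 ≤ cR) (hp : P.Proj R cR vmin hmin)
    (hN : 0 < Nn) (hθ : 0 < θ) (hA0 : 0 ≤ A) (s : Finset ℕ) (w : ℕ → ℝ) (b e b' e' : ℕ → ℕ) (hw : ∀ k ∈ s, 0 ≤ w k)
    (hb : ∀ k ∈ s, k < b k ∧ b k ≤ e k ∧ e k ≤ P.n + 1) (hb' : ∀ k ∈ s, k ≤ b' k ∧ b' k ≤ e' k ∧ e' k ≤ P.n + 1)
    (hv : ∀ k ∈ s, vmin ≤ P.v k) (hh : ∀ k ∈ s, hmin ≤ P.hlen k (b k)) (hNn : ∀ k ∈ s, Nn ≤ P.v k ^ 2 * m * P.hlen k (b k))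
    (hA : ∫ ω, (∑ k ∈ s, w k * P.zInc (b' k) (e' k) ω) ^ r ∂P.μ ≤ A ^ r) :
    ∫ ω, (∑ k ∈ s, w k * P.zF k (b k) (e k) (b' k) (e' k) ω) ^ r ∂P.μ
      ≤ (θ * r * A + 16 * (∑ k ∈ s, w k) * (cR / (θ * Nn) ^ R) ^ ((1 : ℝ) / r)) ^ r := by
  have := h.prob
  set ρ : ℝ := (cR / (θ * Nn) ^ R) ^ ((1 : ℝ) / r) with hρ
  have hx0 : 0 ≤ cR / (θ * Nn) ^ R := by positivity
  have hρ0 : 0 ≤ ρ := Real.rpow_nonneg hx0 _
  have hρr : ρ ^ r = cR / (θ * Nn) ^ R := by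
    rw [hρ, one_div]
    exact Real.rpow_inv_natCast_pow hx0 (by omega)
  -- the truncated Markov weight
  have hin : ∀ k, @L8Bd (Ω × Ω) _ (fun p => ∑ i, P.XX (b k) (e k) i p.1 * P.zU (b' k) (e' k) i p.2) := fun k =>
    L8Bd.sum _ fun i _ => (P.l8sb_XX_bd h _ _ i).comp_fst.mul (P.l8z_g_zU_bd h _ _ i).comp_snd
  have hgin : ∀ k, @L8Bd (Ω × Ω) _ (fun p => ((∑ i, P.XX (b k) (e k) i p.1 * P.zU (b' k) (e' k) i p.2) ^ 2 / θ) ^ R) := fun k =>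
    (((hin k).pow 2).div_const θ).pow R
  set g : ℕ → Ω × Ω → ℝ := fun k p => min 1 (((∑ i, P.XX (b k) (e k) i p.1 * P.zU (b' k) (e' k) i p.2) ^ 2 / θ) ^ R) with hg
  have hgm : ∀ k, Measurable (g k) := fun k => measurable_const.min (hgin k).1
  have hg0 : ∀ k p, 0 ≤ g k p := fun k p => le_min zero_le_one (by positivity)
  have hg1 : ∀ k p, g k p ≤ 1 := fun k p => min_le_left _ _
  have hgabs : ∀ k p, |g k p| ≤ 1 := fun k p => by rw [abs_of_nonneg (hg0 k p)]; exact hg1 k p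
  have hgbd : ∀ k, @L8Bd (Ω × Ω) _ (g k) := fun k => ⟨hgm k, 1, hgabs k⟩
  set G : ℕ → Ω → ℝ := fun k ω => ∫ ω', g k (ω, ω') ∂(P.κ k ω) with hG
  have hGbd : ∀ k, L8Bd (G k) := fun k => P.l8s_fork_inner_bd_aux h k (hgm k) (hgabs k)
  have hG0 : ∀ k ω, 0 ≤ G k ω := fun k ω => integral_nonneg fun ω' => hg0 k _
  have hgs : ∀ k ω, L8Bd (fun ω' => g k (ω, ω')) := fun k ω => ⟨(hgm k).comp measurable_prodMk_left, 1, fun ω' => hgabs k _⟩
  have hG1 : ∀ k ω, G k ω ≤ 1 := fun k ω => by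
    have := h.markov k
    have h1 := integral_mono ((hgs k ω).integrable (P.κ k ω)) (integrable_const 1) fun ω' => hg1 k (ω, ω')
    simpa using h1
  have hGP : ∀ k ∈ s, L8zP P.μ r (G k) ρ := by
    intro k hk
    have := P.l8s_fork_prob h k
    refine ⟨hGbd k, hG0 k, hρ0, ?_⟩
    rw [hρr]
    have s1 : ∫ ω, G k ω ^ r ∂P.μ ≤ ∫ ω, G k ω ∂P.μ :=
      integral_mono (((hGbd k).pow r).integrable _) ((hGbd k).integrable _) fun ω => pow_le_of_le_one (hG0 k ω) (hG1 k ω) (by omega)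
    have s2 : ∫ ω, G k ω ∂P.μ = ∫ p, g k p ∂(P.fork k) := (P.l8s_fork_integral h k (hgm k) (hgabs k)).symm
    have s3 : ∫ p, g k p ∂(P.fork k) ≤ ∫ p, ((∑ i, P.XX (b k) (e k) i p.1 * P.zU (b' k) (e' k) i p.2) ^ 2 / θ) ^ R ∂(P.fork k) :=
      integral_mono ((hgbd k).integrable _) ((hgin k).integrable _) fun p => min_le_right _ _
    have s4 : ∫ p, ((∑ i, P.XX (b k) (e k) i p.1 * P.zU (b' k) (e' k) i p.2) ^ 2 / θ) ^ R ∂(P.fork k)
        = (∫ p, (∑ i, P.zU (b' k) (e' k) i p.1 * P.XX (b k) (e k) i p.2) ^ (2 * R) ∂(P.fork k)) / θ ^ R := by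
      rw [← P.l8z_g_int_swap h k (F := fun p => (∑ i, P.zU (b' k) (e' k) i p.1 * P.XX (b k) (e k) i p.2) ^ (2 * R))
        ((L8Bd.sum _ fun i _ => (P.l8z_g_zU_bd h _ _ i).comp_fst.mul (P.l8sb_XX_bd h _ _ i).comp_snd).pow _), ← integral_div]
      congr 1
      funext p
      rw [div_pow, ← pow_mul]
      congr 2
      exact Finset.sum_congr rfl fun i _ => mul_comm _ _
    have s5 := P.l8z_g_proj_blk h hcR hp (hb k hk).1 (hb k hk).2.1 ((hb k hk).2.1.trans (hb k hk).2.2) (hv k hk) (hh k hk)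
      (P.zU (b' k) (e' k)) (P.l8z_g_zU_bd h _ _) (P.l8z_g_zU_sq _ _)
    calc ∫ ω, G k ω ^ r ∂P.μ ≤ (∫ p, (∑ i, P.zU (b' k) (e' k) i p.1 * P.XX (b k) (e k) i p.2) ^ (2 * R) ∂(P.fork k)) / θ ^ R := by
          rw [← s4]; exact s1.trans (s2.le.trans s3)
      _ ≤ cR / (P.v k ^ 2 * m * P.hlen k (b k)) ^ R / θ ^ R := by gcongr
      _ ≤ cR / Nn ^ R / θ ^ R := by
          have := hNn k hk
          gcongr
      _ = cR / (θ * Nn) ^ R := by rw [mul_pow, div_div, mul_comm]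
  -- first term: dual Doob
  have hZb := fun k => P.l8z_g_zInc_bd h (b' k) (e' k)
  have hF1 : L8zP P.μ r (fun ω => ∑ k ∈ s, w k * P.E k (P.zInc (b' k) (e' k)) ω) (r * A) := by
    refine ⟨L8Bd.sum _ fun k _ => (P.l8s_E_bd h k (hZb k)).const_mul _,
      fun ω => Finset.sum_nonneg fun k hk => mul_nonneg (hw k hk) (P.l8s_E_nonneg k (P.l8z_g_zInc_nonneg _ _) ω), by positivity, ?_⟩
    refine (P.l8z_g_dual_doob h r hr s w hw (fun k => P.zInc (b' k) (e' k)) hZb fun k => P.l8z_g_zInc_nonneg _ _).trans ?_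
    rw [mul_pow]
    gcongr
  -- pointwise splitting
  have hpt : ∀ k ω, P.zF k (b k) (e k) (b' k) (e' k) ω ≤ θ * P.E k (P.zInc (b' k) (e' k)) ω + 16 * G k ω := by
    intro k ω
    have := h.markov k
    have h1 := integral_mono ((P.l8z_g_zFint_bd h (b k) (e k) (b' k) (e' k) ω).integrable (P.κ k ω))
      ((((hZb k).const_mul θ).add ((hgs k ω).const_mul 16)).integrable (P.κ k ω)) fun ω' =>
        l8z_g_thresh hθ R (fun i => P.XX (b k) (e k) i ω) (fun i => P.XX (b' k) (e' k) i ω') (fun i => P.zU (b' k) (e' k) i ω')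
          (fun i => P.l8z_g_zU_mul _ _ i ω') (P.l8z_g_zInc_le h _ _ ω) (P.l8z_g_zInc_le h _ _ ω')
    rw [integral_add (((hZb k).const_mul θ).integrable _) (((hgs k ω).const_mul 16).integrable _), integral_const_mul, integral_const_mul] at h1
    exact h1
  have hF2 : L8zP P.μ r (fun ω => ∑ k ∈ s, (16 * w k) * G k ω) (∑ k ∈ s, (16 * w k) * ρ) :=
    l8zP_sum hr s fun k hk => (hGP k hk).const_mul (mul_nonneg (by norm_num) (hw k hk))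
  have hall := ((hF1.const_mul hθ.le).add hr hF2).mono (L8Bd.sum _ fun k _ => (P.l8z_g_zF_bd h k (b k) (e k) (b' k) (e' k)).const_mul (w k))
    (fun ω => Finset.sum_nonneg fun k hk => mul_nonneg (hw k hk) (P.l8z_g_zF_nonneg _ _ _ _ _ ω)) (fun ω => by
      rw [Finset.mul_sum, ← Finset.sum_add_distrib]
      refine Finset.sum_le_sum fun k hk => ?_
      have := mul_le_mul_of_nonneg_left (hpt k ω) (hw k hk)
      linarith)
  refine hall.2.2.2.trans (le_of_eq ?_)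
  congr 1
  rw [← Finset.sum_mul, ← Finset.mul_sum]
  ring

/-- G1f.  Overlap of the time blocks `[next k d1, next k d2)`: the cuts `k` whose block covers the step `j` have `τ k ∈ (τ j - d2, τ j - d1]`. -/
theorem l8z_g_cover {τ : ℕ → ℝ} (hτ : Monotone τ) {mesh d1 d2 : ℝ} (hmesh : 0 ≤ mesh) (hd : d1 ≤ d2) (k0 k1 kb : ℕ) (hk : k1 ≤ kb)
    (hfine : ∀ k, k0 ≤ k → k < kb → τ (k + 1) - τ k ≤ mesh) (hroom : τ k1 + d2 ≤ τ kb) (j : ℕ) :
    ∑ k ∈ (Ico k0 k1).filter (fun k => l8zNext τ k d1 ≤ j ∧ j < l8zNext τ k d2), (τ (k + 1) - τ k) ≤ d2 - d1 + mesh := by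
  set S := (Ico k0 k1).filter (fun k => l8zNext τ k d1 ≤ j ∧ j < l8zNext τ k d2) with hS
  rcases S.eq_empty_or_nonempty with h0 | hne
  · rw [h0]; simp; linarith
  have hmem : ∀ k ∈ S, k0 ≤ k ∧ k < k1 ∧ τ k + d1 ≤ τ j ∧ τ j < τ k + d2 := by
    intro k hkS
    rw [hS, Finset.mem_filter, Finset.mem_Ico] at hkS
    obtain ⟨⟨h1, h2⟩, h3, h4⟩ := hkS
    have hk1 : τ k ≤ τ k1 := hτ h2.le
    obtain ⟨a1, a2, _⟩ := l8zNext_spec (τ := τ) (k := k) (l := kb) (d := d1) (h2.le.trans hk) (by linarith)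
    exact ⟨h1, h2, a2.trans (hτ h3), l8zNext_lt (a1.trans h3) h4⟩
  set a := S.min' hne
  set b := S.max' hne
  have ha := hmem a (S.min'_mem hne)
  have hb := hmem b (S.max'_mem hne)
  have hab : a ≤ b := S.min'_le _ (S.max'_mem hne)
  have hsub : S ⊆ Ico a (b + 1) := fun k hkS => by
    rw [Finset.mem_Ico]
    exact ⟨S.min'_le _ hkS, Nat.lt_succ_of_le (S.le_max' _ hkS)⟩
  calc ∑ k ∈ S, (τ (k + 1) - τ k) ≤ ∑ k ∈ Ico a (b + 1), (τ (k + 1) - τ k) :=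
        Finset.sum_le_sum_of_subset_of_nonneg hsub fun k _ _ => sub_nonneg.mpr (hτ (Nat.le_succ k))
    _ = τ (b + 1) - τ a := l8z_g_tele τ (by omega)
    _ ≤ d2 - d1 + mesh := by
        have := hfine b hb.1 (lt_of_lt_of_le hb.2.1 hk)
        linarith [ha.2.2.2, hb.2.2.1]

/-- `zF ≤ 4 zInc` (no projection) -/
theorem l8z_g_zF_le (h : P.Ok) (k b e b' e' : ℕ) (ω : Ω) : P.zF k b e b' e' ω ≤ 4 * P.zInc b e ω := by
  have := h.markov k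
  have h1 := integral_mono ((P.l8z_g_zFint_bd h b e b' e' ω).integrable (P.κ k ω)) (integrable_const (4 * P.zInc b e ω)) fun ω' => by
    refine (Finset.sum_mul_sq_le_sq_mul_sq _ _ _).trans ?_
    have a1 := P.l8z_g_zInc_le h b' e' ω'
    have a2 := P.l8z_g_zInc_nonneg b e ω
    unfold zInc at a1 a2 ⊢
    nlinarith
  simpa [zF] using h1

/-- the norm of the blocks number `c` -/
theorem l8z_g_blockN (h : P.Ok) {τ : ℕ → ℝ} {ka kb : ℕ} {V e0 om mesh : ℝ} (hT : P.ZT τ ka kb V e0 om mesh) (r J : ℕ) (hr : 1 ≤ r)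
    {l0 : ℝ} (hl0 : 0 < l0) (hmesh : 0 ≤ mesh) {k0 k1 : ℕ} (hk0 : ka ≤ k0) (hk01 : k0 ≤ k1) (hk1 : k1 ≤ kb) (hroom : τ k1 + 2 ^ J * l0 ≤ τ kb)
    {c : ℕ} (hc : c ≤ J + 1) :
    L8zP P.μ r (fun ω => ∑ k ∈ Ico k0 k1, (τ (k + 1) - τ k) * P.zInc (l8zT τ l0 J P.n k c) (l8zT τ l0 J P.n k (c + 1)) ω)
      (128 * r * l8zM l0 mesh (τ k1 - τ k0) J c) := by
  have := h.prob
  have hτ := hT.mono
  have hdt : ∀ k, 0 ≤ τ (k + 1) - τ k := fun k => sub_nonneg.mpr (hτ (Nat.le_succ k))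
  have hT0 : 0 ≤ τ k1 - τ k0 := sub_nonneg.mpr (hτ hk01)
  have hM0 := l8zM_nonneg hl0.le hmesh hT0 J c
  have hkk : ∀ k ∈ Ico k0 k1, k ≤ kb ∧ τ k + 2 ^ J * l0 ≤ τ kb := fun k hk => by
    have h2 := (Finset.mem_Ico.1 hk).2
    have := hτ h2.le
    exact ⟨h2.le.trans hk1, by linarith⟩
  refine ⟨L8Bd.sum _ fun k _ => (P.l8z_g_zInc_bd h _ _).const_mul _,
    fun ω => Finset.sum_nonneg fun k _ => mul_nonneg (hdt k) (P.l8z_g_zInc_nonneg _ _ ω), by positivity, ?_⟩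
  have h1 := P.l8z_g_overlap h r hr (Ico k0 k1) (fun k => τ (k + 1) - τ k) (fun k => l8zT τ l0 J P.n k c) (fun k => l8zT τ l0 J P.n k (c + 1))
    k0 (P.n + 1) (by have := hT.kb_le; omega) (l8zM l0 mesh (τ k1 - τ k0) J c) (fun k _ => hdt k)
    (fun k hk => ⟨(Finset.mem_Ico.1 hk).1.trans (l8zT_spec hl0.le (hkk k hk).1 (hkk k hk).2 hc).1,
      l8zT_mono hl0.le (hkk k hk).1 (hkk k hk).2 hT.kb_le (Nat.le_succ c), l8zT_le hl0.le (hkk k hk).1 (hkk k hk).2 hT.kb_le _⟩)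
    (fun j _ _ => by
      unfold l8zM
      split_ifs with hcJ
      · have := l8z_g_cover hτ hmesh (l8zD_mono hl0.le (Nat.le_succ c)) k0 k1 kb hk1
          (fun k hk hk' => hT.fine k (hk0.trans hk) hk') (by have := l8zD_le hl0.le (c := c + 1) (J := J) (by omega); linarith) j
        simpa only [l8zT, if_pos hc, if_pos (show c + 1 ≤ J + 1 by omega)] using this
      · rw [← l8z_g_tele τ hk01]
        exact Finset.sum_le_sum_of_subset_of_nonneg (Finset.filter_subset _ _) fun k _ _ => hdt k)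
  refine h1.trans ?_
  have h2 : ∫ ω, P.zInc k0 (P.n + 1) ω ^ r ∂P.μ ≤ 4 ^ r := by
    have := integral_mono (((P.l8z_g_zInc_bd h k0 (P.n + 1)).pow r).integrable P.μ) (integrable_const ((4:ℝ) ^ r)) fun ω =>
      pow_le_pow_left₀ (P.l8z_g_zInc_nonneg _ _ ω) (P.l8z_g_zInc_le h _ _ ω) r
    simpa using this
  calc (32 * (r:ℝ) * l8zM l0 mesh (τ k1 - τ k0) J c) ^ r * ∫ ω, P.zInc k0 (P.n + 1) ω ^ r ∂P.μ
      ≤ (32 * (r:ℝ) * l8zM l0 mesh (τ k1 - τ k0) J c) ^ r * 4 ^ r := mul_le_mul_of_nonneg_left h2 (by positivity)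
    _ = (128 * r * l8zM l0 mesh (τ k1 - τ k0) J c) ^ r := by rw [← mul_pow]; congr 1; ring

/-- one pair of blocks -/
theorem l8z_g_pairN (h : P.Ok) {τ : ℕ → ℝ} {ka kb : ℕ} {V e0 om mesh : ℝ} (hT : P.ZT τ ka kb V e0 om mesh) (r R J : ℕ) (hr : 1 ≤ r) (hR : 1 ≤ R)
    {c1 cR hmin l0 ϑ : ℝ} (hc1 : 0 ≤ c1) (hcR : 0 ≤ cR) (hl0 : 0 < l0) (hϑ : 0 < ϑ) (hp1 : P.Proj 1 c1 V hmin) (hpR : P.Proj R cR V hmin)
    (hmn : hmin ≤ e0 * l0) (hmesh : 0 ≤ mesh) {k0 k1 : ℕ} (hk0 : ka ≤ k0) (hk01 : k0 ≤ k1) (hk1 : k1 ≤ kb) (hroom : τ k1 + 2 ^ J * l0 ≤ τ kb)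
    {c c' : ℕ} (hc : c ≤ J + 1) (hc' : c' ≤ J + 1) :
    L8zP P.μ r (fun ω => ∑ k ∈ Ico k0 k1, (τ (k + 1) - τ k) *
        P.zF k (l8zT τ l0 J P.n k c) (l8zT τ l0 J P.n k (c + 1)) (l8zT τ l0 J P.n k c') (l8zT τ l0 J P.n k (c' + 1)) ω)
      (512 * (r : ℝ) ^ 2 * (1 + mesh / l0 + (τ k1 - τ k0) / (2 ^ J * l0)) * (c1 + ϑ) / (V ^ 2 * m * e0)
        + 16 * (τ k1 - τ k0) * (cR / ϑ ^ R) ^ ((1 : ℝ) / r) + 512 * r * (l0 + mesh)) := by
  have := h.prob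
  have hτ := hT.mono
  have hdt : ∀ k, 0 ≤ τ (k + 1) - τ k := fun k => sub_nonneg.mpr (hτ (Nat.le_succ k))
  have hT0 : 0 ≤ τ k1 - τ k0 := sub_nonneg.mpr (hτ hk01)
  have hm : (0 : ℝ) < m := by exact_mod_cast P.l8z_g_m_pos h
  have hV := hT.V_pos
  have he0 := hT.e0_pos
  have hr1 : (1 : ℝ) ≤ r := by exact_mod_cast hr
  have hrr : (r : ℝ) ≤ (r : ℝ) ^ 2 := by nlinarith
  set Tt := τ k1 - τ k0 with hTt
  set W : ℝ := V ^ 2 * m * e0 with hW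
  have hW0 : 0 < W := by positivity
  set K : ℝ := 1 + mesh / l0 + Tt / (2 ^ J * l0) with hK
  have hK0 : 0 ≤ K := by positivity
  set ρ : ℝ := (cR / ϑ ^ R) ^ ((1 : ℝ) / r) with hρ
  have hρ0 : 0 ≤ ρ := Real.rpow_nonneg (by positivity) _
  have hB1 : 0 ≤ 512 * (r : ℝ) ^ 2 * K * (c1 + ϑ) / W := by positivity
  have hB2 : 0 ≤ 16 * Tt * ρ := by positivity
  have hB3 : 0 ≤ 512 * (r : ℝ) * (l0 + mesh) := by positivity
  have hkk : ∀ k ∈ Ico k0 k1, k ≤ kb ∧ τ k + 2 ^ J * l0 ≤ τ kb := fun k hk => by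
    have h2 := (Finset.mem_Ico.1 hk).2
    have := hτ h2.le
    exact ⟨h2.le.trans hk1, by linarith⟩
  have hmono := fun k (hk : k ∈ Ico k0 k1) => l8zT_mono (n := P.n) hl0.le (hkk k hk).1 (hkk k hk).2 hT.kb_le
  have hle := fun k (hk : k ∈ Ico k0 k1) => l8zT_le (n := P.n) hl0.le (hkk k hk).1 (hkk k hk).2 hT.kb_le
  have hvk : ∀ k ∈ Ico k0 k1, V ≤ P.v k := fun k hk => hT.mass.trans (h.v_mono (hk0.trans (Finset.mem_Ico.1 hk).1))
  have fact : ∀ k ∈ Ico k0 k1, ∀ c, 1 ≤ c → c ≤ J + 1 → k < l8zT τ l0 J P.n k c ∧ hmin ≤ P.hlen k (l8zT τ l0 J P.n k c)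
      ∧ W * l8zD l0 c ≤ P.v k ^ 2 * m * P.hlen k (l8zT τ l0 J P.n k c) := by
    intro k hk c h1 h2
    obtain ⟨a1, a2, a3⟩ := l8zT_spec (n := P.n) hl0.le (hkk k hk).1 (hkk k hk).2 h2
    have hD := l8zD_ge hl0.le h1
    have hlt : k < l8zT τ l0 J P.n k c := by
      by_contra hcon
      have := hτ (not_lt.mp hcon)
      linarith
    have hl := P.l8z_g_hlen hT (hk0.trans (Finset.mem_Ico.1 hk).1) a1 a3
    have hl2 : e0 * l8zD l0 c ≤ P.hlen k (l8zT τ l0 J P.n k c) := le_trans (mul_le_mul_of_nonneg_left (by linarith) he0.le) hl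
    refine ⟨hlt, hmn.trans ((mul_le_mul_of_nonneg_left hD he0.le).trans hl2), ?_⟩
    have hv := hvk k hk
    calc W * l8zD l0 c = V ^ 2 * m * (e0 * l8zD l0 c) := by rw [hW]; ring
      _ ≤ P.v k ^ 2 * m * P.hlen k (l8zT τ l0 J P.n k c) := by
          have : 0 ≤ e0 * l8zD l0 c := mul_nonneg he0.le (hl0.le.trans hD)
          gcongr
  have hbd : L8Bd (fun ω => ∑ k ∈ Ico k0 k1, (τ (k + 1) - τ k) *
      P.zF k (l8zT τ l0 J P.n k c) (l8zT τ l0 J P.n k (c + 1)) (l8zT τ l0 J P.n k c') (l8zT τ l0 J P.n k (c' + 1)) ω) :=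
    L8Bd.sum _ fun k _ => (P.l8z_g_zF_bd h _ _ _ _ _).const_mul _
  have hnn : ∀ ω, 0 ≤ ∑ k ∈ Ico k0 k1, (τ (k + 1) - τ k) *
      P.zF k (l8zT τ l0 J P.n k c) (l8zT τ l0 J P.n k (c + 1)) (l8zT τ l0 J P.n k c') (l8zT τ l0 J P.n k (c' + 1)) ω :=
    fun ω => Finset.sum_nonneg fun k _ => mul_nonneg (hdt k) (P.l8z_g_zF_nonneg _ _ _ _ _ ω)
  rcases Nat.lt_or_ge c' c with hcc | hcc
  · -- the later block is on the retained branch
    have hc1' : 1 ≤ c := by omega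
    have hD := l8zD_ge hl0.le hc1'
    have hD0 : 0 < l8zD l0 c := lt_of_lt_of_le hl0 hD
    have hZ := P.l8z_g_blockN h hT r J hr hl0 hmesh hk0 hk01 hk1 hroom hc'
    have hMK := l8zM_le (J := J) hl0 hmesh hT0 hcc.le hc1' hc
    have hla := P.l8z_g_later_a h r R hr hR hcR hpR (Nn := W * l8zD l0 c) (θ := ϑ / (W * l8zD l0 c)) (by positivity) (by positivity) hZ.2.2.1
      (Ico k0 k1) (fun k => τ (k + 1) - τ k) (fun k => l8zT τ l0 J P.n k c) (fun k => l8zT τ l0 J P.n k (c + 1))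
      (fun k => l8zT τ l0 J P.n k c') (fun k => l8zT τ l0 J P.n k (c' + 1)) (fun k _ => hdt k)
      (fun k hk => ⟨(fact k hk c hc1' hc).1, hmono k hk (Nat.le_succ c), hle k hk _⟩)
      (fun k hk => ⟨(l8zT_spec hl0.le (hkk k hk).1 (hkk k hk).2 hc').1, hmono k hk (Nat.le_succ c'), hle k hk _⟩)
      hvk (fun k hk => (fact k hk c hc1' hc).2.1) (fun k hk => (fact k hk c hc1' hc).2.2) hZ.2.2.2
    rw [div_mul_cancel₀ _ (by positivity : W * l8zD l0 c ≠ 0), l8z_g_tele τ hk01] at hla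
    have hb0 : 0 ≤ ϑ / (W * l8zD l0 c) * r * (128 * r * l8zM l0 mesh Tt J c') := by
      have := hZ.2.2.1
      positivity
    refine L8zP.le ⟨hbd, hnn, add_nonneg hb0 hB2, hla⟩ ?_
    have e1 : ϑ / (W * l8zD l0 c) * r * (128 * r * l8zM l0 mesh Tt J c') ≤ 512 * (r : ℝ) ^ 2 * K * (c1 + ϑ) / W := by
      calc ϑ / (W * l8zD l0 c) * r * (128 * r * l8zM l0 mesh Tt J c')
          ≤ ϑ / (W * l8zD l0 c) * r * (128 * r * (K * l8zD l0 c)) := by gcongr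
        _ = 128 * (r : ℝ) ^ 2 * K * ϑ / W := by field_simp
        _ ≤ 512 * (r : ℝ) ^ 2 * K * (c1 + ϑ) / W := by
            gcongr
            · norm_num
            · linarith
    linarith
  · rcases Nat.eq_zero_or_pos c' with h0 | h0
    · -- the pair (0,0)
      have hc0 : c = 0 := by omega
      subst h0
      subst hc0
      have hZ := P.l8z_g_blockN h hT r J hr hl0 hmesh hk0 hk01 hk1 hroom hc
      refine ((hZ.const_mul (by norm_num : (0:ℝ) ≤ 4)).mono hbd hnn fun ω => ?_).le ?_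
      · rw [Finset.mul_sum]
        refine Finset.sum_le_sum fun k _ => ?_
        have := mul_le_mul_of_nonneg_left (P.l8z_g_zF_le h k (l8zT τ l0 J P.n k 0) (l8zT τ l0 J P.n k (0 + 1)) (l8zT τ l0 J P.n k 0)
          (l8zT τ l0 J P.n k (0 + 1)) ω) (hdt k)
        linarith
      · have e : l8zM l0 mesh Tt J 0 = l0 + mesh := by
          unfold l8zM
          rw [if_pos (Nat.zero_le _), l8zD_succ, l8zD_zero]
          ring
        rw [e]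
        have : 4 * (128 * (r : ℝ) * (l0 + mesh)) = 512 * r * (l0 + mesh) := by ring
        linarith
    · -- the later block is on the averaged branch
      have hD := l8zD_ge hl0.le h0
      have hD0 : 0 < l8zD l0 c' := lt_of_lt_of_le hl0 hD
      have hZ := P.l8z_g_blockN h hT r J hr hl0 hmesh hk0 hk01 hk1 hroom hc
      have hMK := l8zM_le (J := J) hl0 hmesh hT0 hcc h0 hc'
      refine ((hZ.const_mul (by positivity : 0 ≤ c1 / (W * l8zD l0 c'))).mono hbd hnn fun ω => ?_).le ?_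
      · rw [Finset.mul_sum]
        refine Finset.sum_le_sum fun k hk => ?_
        obtain ⟨f1, f2, f3⟩ := fact k hk c' h0 hc'
        have hlb := P.l8z_g_later_b h hp1 (b := l8zT τ l0 J P.n k c) (e := l8zT τ l0 J P.n k (c + 1)) f1 (hmono k hk (Nat.le_succ c')) (hle k hk _)
          (hvk k hk) f2 ω
        have hz := P.l8z_g_zInc_nonneg (l8zT τ l0 J P.n k c) (l8zT τ l0 J P.n k (c + 1)) ω
        have h2 : c1 * P.zInc (l8zT τ l0 J P.n k c) (l8zT τ l0 J P.n k (c + 1)) ω / (P.v k ^ 2 * m * P.hlen k (l8zT τ l0 J P.n k c'))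
            ≤ c1 * P.zInc (l8zT τ l0 J P.n k c) (l8zT τ l0 J P.n k (c + 1)) ω / (W * l8zD l0 c') := by
          gcongr
        calc (τ (k + 1) - τ k) * P.zF k (l8zT τ l0 J P.n k c) (l8zT τ l0 J P.n k (c + 1)) (l8zT τ l0 J P.n k c') (l8zT τ l0 J P.n k (c' + 1)) ω
            ≤ (τ (k + 1) - τ k) * (c1 * P.zInc (l8zT τ l0 J P.n k c) (l8zT τ l0 J P.n k (c + 1)) ω / (W * l8zD l0 c')) :=
              mul_le_mul_of_nonneg_left (hlb.trans h2) (hdt k)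
          _ = c1 / (W * l8zD l0 c') * ((τ (k + 1) - τ k) * P.zInc (l8zT τ l0 J P.n k c) (l8zT τ l0 J P.n k (c + 1)) ω) := by ring
      · have e1 : c1 / (W * l8zD l0 c') * (128 * r * l8zM l0 mesh Tt J c) ≤ 512 * (r : ℝ) ^ 2 * K * (c1 + ϑ) / W := by
          calc c1 / (W * l8zD l0 c') * (128 * r * l8zM l0 mesh Tt J c)
              ≤ c1 / (W * l8zD l0 c') * (128 * r * (K * l8zD l0 c')) := by gcongr
            _ = 128 * (r : ℝ) * K * c1 / W := by field_simp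
            _ ≤ 512 * (r : ℝ) ^ 2 * K * (c1 + ϑ) / W := by
                gcongr
                · norm_num
                · linarith
        linarith

/-- **G1.**  TEX[LL:prop:statistics-size-accuracy] l.1245-1262: `‖∫ W dt‖_(p/2) ≲ x^6/(λ V0'^4)` on a bounded `t`-window.
Blocks of the cut `k`: `[k, next l0)`, `[next 2^(i-1) l0, next 2^i l0)` (`1 ≤ i ≤ J`), terminal `[next 2^J l0, n+1)`.  Pairs `(c,c')`: `c ≤ c'`, `1 ≤ c'`: G1c + G1b/G1f;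
`c > c'`: G1d with `θ = ϑ/(V² m e0 2^(c-1) l0)`; `(0,0)`: `zF ≤ 4 zInc` + G1b.      `ϑ`, `R`, `l0`, `J` are free (paper: `ϑ = x^(-ε)`, `R ≫ K/ε`, `l0` inverse polynomial). -/
theorem l8z_g_intW (h : P.Ok) {τ : ℕ → ℝ} {ka kb : ℕ} {V e0 om mesh : ℝ} (hT : P.ZT τ ka kb V e0 om mesh) (r R J : ℕ) (hr : 1 ≤ r) (hR : 1 ≤ R)
    {c1 cR hmin l0 ϑ : ℝ} (hc1 : 0 ≤ c1) (hcR : 0 ≤ cR) (hl0 : 0 < l0) (hϑ : 0 < ϑ) (hp1 : P.Proj 1 c1 V hmin) (hpR : P.Proj R cR V hmin)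
    (hmn : hmin ≤ e0 * l0) {k0 k1 : ℕ} (hk0 : ka ≤ k0) (hk01 : k0 ≤ k1) (hk1 : k1 ≤ kb) (hroom : τ k1 + 2 ^ J * l0 ≤ τ kb) :
    ∫ ω, (∑ k ∈ Ico k0 k1, (τ (k + 1) - τ k) * P.W k ω) ^ r ∂P.μ ≤ l8zIW P.a m J r R c1 cR V e0 l0 mesh (τ k1 - τ k0) ϑ ^ r := by
  have := h.prob
  have hτ := hT.mono
  have hdt : ∀ k, 0 ≤ τ (k + 1) - τ k := fun k => sub_nonneg.mpr (hτ (Nat.le_succ k))
  have hmesh : 0 ≤ mesh := by
    have hlt : k1 < kb := by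
      by_contra hcon
      have := hτ (not_lt.mp hcon)
      have : 0 < 2 ^ J * l0 := by positivity
      linarith
    exact (hdt k1).trans (hT.fine k1 (hk0.trans hk01) hlt)
  have hkk : ∀ k ∈ Ico k0 k1, k ≤ kb ∧ τ k + 2 ^ J * l0 ≤ τ kb := fun k hk => by
    have h2 := (Finset.mem_Ico.1 hk).2
    have := hτ h2.le
    exact ⟨h2.le.trans hk1, by linarith⟩
  have ha := h.a_pos.le
  have hpair := fun c (hc : c ∈ range (J + 2)) c' (hc' : c' ∈ range (J + 2)) =>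
    P.l8z_g_pairN h hT r R J hr hR hc1 hcR hl0 hϑ hp1 hpR hmn hmesh hk0 hk01 hk1 hroom
      (c := c) (c' := c') (by have := Finset.mem_range.1 hc; omega) (by have := Finset.mem_range.1 hc'; omega)
  have hsum := (l8zP_sum hr (range (J + 2)) fun c hc => l8zP_sum hr (range (J + 2)) fun c' hc' => hpair c hc c' hc').const_mul
    (mul_nonneg ha (Nat.cast_nonneg (J + 2)))
  have hall := hsum.mono (L8Bd.sum _ fun k _ => (P.l8s_W_bd h k).const_mul _)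
    (fun ω => Finset.sum_nonneg fun k _ => mul_nonneg (hdt k) (P.l8s_W_nonneg h k ω)) (fun ω => by
      have e : ∑ c ∈ range (J + 2), ∑ c' ∈ range (J + 2), ∑ k ∈ Ico k0 k1, (τ (k + 1) - τ k) *
            P.zF k (l8zT τ l0 J P.n k c) (l8zT τ l0 J P.n k (c + 1)) (l8zT τ l0 J P.n k c') (l8zT τ l0 J P.n k (c' + 1)) ω
          = ∑ k ∈ Ico k0 k1, (τ (k + 1) - τ k) * ∑ c ∈ range (J + 2), ∑ c' ∈ range (J + 2),
            P.zF k (l8zT τ l0 J P.n k c) (l8zT τ l0 J P.n k (c + 1)) (l8zT τ l0 J P.n k c') (l8zT τ l0 J P.n k (c' + 1)) ω := by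
        simp only [Finset.mul_sum]
        exact l8z_g_sum3 _ _ _ fun k c c' => (τ (k + 1) - τ k) *
          P.zF k (l8zT τ l0 J P.n k c) (l8zT τ l0 J P.n k (c + 1)) (l8zT τ l0 J P.n k c') (l8zT τ l0 J P.n k (c' + 1)) ω
      rw [e, Finset.mul_sum]
      refine Finset.sum_le_sum fun k hk => ?_
      have hb := P.l8z_g_blocks h (J + 2) (l8zT τ l0 J P.n k) (l8zT_mono hl0.le (hkk k hk).1 (hkk k hk).2 hT.kb_le) l8zT_top ω
      rw [l8zT_zero] at hb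
      have := mul_le_mul_of_nonneg_left hb (hdt k)
      linarith)
  refine hall.2.2.2.trans (le_of_eq ?_)
  congr 1
  unfold l8zIW
  simp only [Finset.sum_const, Finset.card_range, nsmul_eq_mul]
  push_cast
  ring

/-! ## G2 : buffers -/

/-- **G2.**  TEX[LL:prop:statistics-size-accuracy] l.1275-1281.   (A1) line 3 = `Pin` with `w k = dt_k/(dv_k |buffer|) ≤ 1/(om |buffer|)`, `p k = X`. -/
theorem l8z_g_buf (h : P.Ok) {τ : ℕ → ℝ} {ka kb : ℕ} {V e0 om mesh : ℝ} (hT : P.ZT τ ka kb V e0 om mesh) (r : ℕ) (hr : 1 ≤ r) {cpin IW : ℝ}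
    (hpin : P.Pin r cpin) (hc : 0 ≤ cpin) {k0 k1 : ℕ} (hk0 : ka ≤ k0) (hk1 : k1 ≤ kb) (hlen : 0 < τ k1 - τ k0) (hIW0 : 0 ≤ IW)
    (hIW : ∫ ω, (∑ k ∈ Ico k0 k1, (τ (k + 1) - τ k) * P.W k ω) ^ r ∂P.μ ≤ IW ^ r) :
    ∫ ω, ((∑ l ∈ Ico k0 k1, (τ (l + 1) - τ l) / (τ k1 - τ k0) * P.L l ω)
        - ∫ ω', (∑ l ∈ Ico k0 k1, (τ (l + 1) - τ l) / (τ k1 - τ k0) * P.L l ω') ∂P.μ) ^ (2 * r) ∂P.μ
      ≤ cpin * (IW / (om * (τ k1 - τ k0) ^ 2)) ^ r := by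
  have := h.prob
  set len := τ k1 - τ k0 with hlendef
  have hom := hT.om_pos
  set w : ℕ → ℝ := fun k => if k ∈ Ico k0 k1 then (τ (k + 1) - τ k) / (P.dv k * len) else 0 with hw
  have hsub : Ico k0 k1 ⊆ range (P.n + 1) := fun k hk => by
    have := (Finset.mem_Ico.1 hk).2
    have := hT.kb_le
    rw [Finset.mem_range]; omega
  have hdt0 : ∀ k, 0 ≤ τ (k + 1) - τ k := fun k => sub_nonneg.mpr (hT.mono (Nat.le_succ k))
  have hdens : ∀ k ∈ Ico k0 k1, om * (τ (k + 1) - τ k) ≤ P.dv k := fun k hk =>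
    hT.dens k (hk0.trans (Finset.mem_Ico.1 hk).1) (lt_of_lt_of_le (Finset.mem_Ico.1 hk).2 hk1)
  have hw1 : ∀ k ∈ Ico k0 k1, P.dv k * w k = (τ (k + 1) - τ k) / len := by
    intro k hk
    simp only [hw, hk, if_true]
    rcases eq_or_ne (P.dv k) 0 with h0 | h0
    · have h1 := hdens k hk
      rw [h0] at h1
      have h2 : τ (k + 1) - τ k = 0 := le_antisymm (by nlinarith [hdt0 k]) (hdt0 k)
      simp [h0, h2]
    · field_simp
  have hw2 : ∀ k ∈ Ico k0 k1, P.dv k * w k ^ 2 ≤ (τ (k + 1) - τ k) / (om * len ^ 2) := by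
    intro k hk
    have h1 := hdens k hk
    have e : P.dv k * w k ^ 2 = (P.dv k * w k) * w k := by ring
    rw [e, hw1 k hk]
    simp only [hw, hk, if_true]
    rcases eq_or_lt_of_le (hdt0 k) with h0 | h0
    · rw [← h0]; simp
    · have hdv : 0 < P.dv k := lt_of_lt_of_le (by positivity) h1
      rw [div_mul_div_comm, div_le_div_iff₀ (by positivity) (by positivity)]
      have : (τ (k + 1) - τ k) * (τ (k + 1) - τ k) * (om * len ^ 2) = (τ (k + 1) - τ k) * len ^ 2 * (om * (τ (k + 1) - τ k)) := by ring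
      rw [this]
      have : (τ (k + 1) - τ k) * (len * (P.dv k * len)) = (τ (k + 1) - τ k) * len ^ 2 * P.dv k := by ring
      rw [this]
      exact mul_le_mul_of_nonneg_left h1 (by positivity)
  have hp := hpin w (fun _ => Polynomial.X)
  simp only [Polynomial.eval_X, Polynomial.derivative_X, Polynomial.eval_one, one_pow, mul_one] at hp
  have hz : ∀ k ∈ range (P.n + 1), k ∉ Ico k0 k1 → w k = 0 := fun k _ hk => by simp only [hw, hk, if_false]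
  have eL : ∀ ω, ∑ k ∈ range (P.n + 1), P.dv k * w k * (P.L k ω - ∫ ω', P.L k ω' ∂P.μ)
      = (∑ l ∈ Ico k0 k1, (τ (l + 1) - τ l) / len * P.L l ω) - ∫ ω', (∑ l ∈ Ico k0 k1, (τ (l + 1) - τ l) / len * P.L l ω') ∂P.μ := by
    intro ω
    rw [← Finset.sum_subset hsub (fun k hk hk' => by rw [hz k hk hk']; ring),
      integral_finsetSum _ fun l _ => ((P.l8s_L_bd h l).const_mul _).integrable _, ← Finset.sum_sub_distrib]
    refine Finset.sum_congr rfl fun k hk => ?_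
    rw [hw1 k hk, integral_const_mul]; ring
  simp only [eL] at hp
  refine hp.trans (mul_le_mul_of_nonneg_left ?_ hc)
  have hW0 := fun k ω => P.l8s_W_nonneg h k ω
  have hpt : ∀ ω, (∑ k ∈ range (P.n + 1), P.dv k * w k ^ 2 * P.W k ω) ^ r
      ≤ (1 / (om * len ^ 2)) ^ r * (∑ k ∈ Ico k0 k1, (τ (k + 1) - τ k) * P.W k ω) ^ r := by
    intro ω
    rw [← mul_pow]
    have hnn : ∀ k ∈ Ico k0 k1, 0 ≤ P.dv k * w k ^ 2 * P.W k ω := fun k hk =>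
      mul_nonneg (mul_nonneg (le_trans (by have := hdt0 k; positivity) (hdens k hk)) (sq_nonneg _)) (hW0 k ω)
    rw [← Finset.sum_subset hsub (fun k hk hk' => by rw [hz k hk hk']; ring)]
    refine pow_le_pow_left₀ (Finset.sum_nonneg hnn) ?_ r
    rw [Finset.mul_sum]
    refine Finset.sum_le_sum fun k hk => ?_
    calc P.dv k * w k ^ 2 * P.W k ω ≤ (τ (k + 1) - τ k) / (om * len ^ 2) * P.W k ω := mul_le_mul_of_nonneg_right (hw2 k hk) (hW0 k ω)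
      _ = 1 / (om * len ^ 2) * ((τ (k + 1) - τ k) * P.W k ω) := by ring
  have b1 : L8Bd (fun ω => (∑ k ∈ range (P.n + 1), P.dv k * w k ^ 2 * P.W k ω) ^ r) :=
    (L8Bd.sum _ fun k _ => (P.l8s_W_bd h k).const_mul _).pow _
  have b2 : L8Bd (fun ω => (∑ k ∈ Ico k0 k1, (τ (k + 1) - τ k) * P.W k ω) ^ r) :=
    (L8Bd.sum _ fun k _ => (P.l8s_W_bd h k).const_mul _).pow _
  calc ∫ ω, (∑ k ∈ range (P.n + 1), P.dv k * w k ^ 2 * P.W k ω) ^ r ∂P.μ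
      ≤ ∫ ω, (1 / (om * len ^ 2)) ^ r * (∑ k ∈ Ico k0 k1, (τ (k + 1) - τ k) * P.W k ω) ^ r ∂P.μ :=
        integral_mono (b1.integrable _) ((b2.const_mul _).integrable _) hpt
    _ = (1 / (om * len ^ 2)) ^ r * ∫ ω, (∑ k ∈ Ico k0 k1, (τ (k + 1) - τ k) * P.W k ω) ^ r ∂P.μ := integral_const_mul _ _
    _ ≤ (1 / (om * len ^ 2)) ^ r * IW ^ r := mul_le_mul_of_nonneg_left hIW (by positivity)
    _ = (IW / (om * len ^ 2)) ^ r := by rw [← mul_pow]; congr 1; ring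

/-! ## G3 : brackets -/

/-- **G3.**  TEX[LL:prop:statistics-size-accuracy] l.1264-1290.   Past buffer `[a0,a1)`, `a1 ≤ k + 1`; future buffer `[b0,b1)`, `k ≤ b0`; `l8s_buffer` with `Sbar = q k`. -/
theorem l8z_g_norm (h : P.Ok) {τ : ℕ → ℝ} (hτ : Monotone τ) (r : ℕ) (hr : 1 ≤ r) (q : ℕ → ℝ) {η0 Lq sp ε : ℝ} {a0 a1 k b0 b1 : ℕ}
    (ha : a0 < a1) (hak : a1 ≤ k + 1) (hkb : k ≤ b0) (hb : b0 < b1) (hla : 0 < τ a1 - τ a0) (hlb : 0 < τ b1 - τ b0)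
    (hη0 : 0 ≤ η0) (hLq : 0 ≤ Lq) (hε : 0 ≤ ε) (hsp : τ b1 - τ a0 ≤ sp)
    (hS : ∀ l, a0 ≤ l → l ≤ b1 → |P.S l - q l| ≤ η0) (hq : ∀ l l', a0 ≤ l → l ≤ l' → l' ≤ b1 → |q l' - q l| ≤ Lq * (τ l' - τ l))
    (hAm : ∫ ω, ((∑ l ∈ Ico a0 a1, (τ (l + 1) - τ l) / (τ a1 - τ a0) * P.L l ω)
        - ∫ ω', (∑ l ∈ Ico a0 a1, (τ (l + 1) - τ l) / (τ a1 - τ a0) * P.L l ω') ∂P.μ) ^ (2 * r) ∂P.μ ≤ ε ^ (2 * r))
    (hAp : ∫ ω, ((∑ l ∈ Ico b0 b1, (τ (l + 1) - τ l) / (τ b1 - τ b0) * P.L l ω)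
        - ∫ ω', (∑ l ∈ Ico b0 b1, (τ (l + 1) - τ l) / (τ b1 - τ b0) * P.L l ω') ∂P.μ) ^ (2 * r) ∂P.μ ≤ ε ^ (2 * r)) :
    ∫ ω, (P.nX k ω - q k) ^ (2 * r) ∂P.μ ≤ (16 * (η0 + Lq * sp + ε)) ^ (2 * r) ∧
    ∫ ω, (∑ l ∈ Ico a0 a1, (τ (l + 1) - τ l) / (τ a1 - τ a0) * P.zInc l k ω) ^ (2 * r) ∂P.μ ≤ (16 * (η0 + Lq * sp + ε)) ^ (2 * r) := by
  have hsp0 : 0 ≤ sp := by
    have := hτ (show a0 ≤ b1 by omega)
    linarith
  have key : ∀ l, a0 ≤ l → l ≤ b1 → |P.S l - q k| ≤ η0 + Lq * sp := by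
    intro l h1 h2
    have e1 := hS l h1 h2
    have e2 : |q l - q k| ≤ Lq * sp := by
      rcases le_total l k with hlk | hlk
      · have := hq l k h1 hlk (by omega)
        rw [abs_sub_comm]
        refine this.trans (mul_le_mul_of_nonneg_left ?_ hLq)
        have t1 := hτ (show k ≤ b1 by omega)
        have t2 := hτ h1
        linarith
      · have := hq k l (by omega) hlk h2
        refine this.trans (mul_le_mul_of_nonneg_left ?_ hLq)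
        have t1 := hτ h2
        have t2 := hτ (show a0 ≤ k by omega)
        linarith
    calc |P.S l - q k| = |(P.S l - q l) + (q l - q k)| := by ring_nf
      _ ≤ |P.S l - q l| + |q l - q k| := abs_add_le _ _
      _ ≤ η0 + Lq * sp := add_le_add e1 e2
  exact P.l8s_buffer h r hr k (Ico a0 a1) (Ico b0 b1) (fun l => (τ (l + 1) - τ l) / (τ a1 - τ a0)) (fun l => (τ (l + 1) - τ l) / (τ b1 - τ b0))
    (q k) (η0 + Lq * sp) ε (fun l hl => by have := (Finset.mem_Ico.1 hl).2; omega) (fun l hl => by have := (Finset.mem_Ico.1 hl).1; omega)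
    (fun l => div_nonneg (sub_nonneg.mpr (hτ (Nat.le_succ l))) hla.le) (fun l => div_nonneg (sub_nonneg.mpr (hτ (Nat.le_succ l))) hlb.le)
    (by rw [← Finset.sum_div, l8z_g_tele τ ha.le, div_self hla.ne']) (by rw [← Finset.sum_div, l8z_g_tele τ hb.le, div_self hlb.ne'])
    (by positivity) hε
    (fun l hl _ => key l (Finset.mem_Ico.1 hl).1 (by have := (Finset.mem_Ico.1 hl).2; omega))
    (fun l hl _ => key l (by have := (Finset.mem_Ico.1 hl).1; omega) (Finset.mem_Ico.1 hl).2.le) hAm hAp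

/-- **G3b.**  TEX[LL:global:buffer-brackets], second half: two cuts with a common earlier probability weight `ρ` on `s`. -/
theorem l8z_g_incr (h : P.Ok) (r : ℕ) (hr : 1 ≤ r) (s : Finset ℕ) (ρ : ℕ → ℝ) (hρ0 : ∀ l ∈ s, 0 ≤ ρ l) (hρ1 : ∑ l ∈ s, ρ l = 1) {k k' : ℕ} {δ : ℝ} (hδ : 0 ≤ δ)
    (h1 : ∫ ω, (∑ l ∈ s, ρ l * P.zInc l k ω) ^ (2 * r) ∂P.μ ≤ δ ^ (2 * r))
    (h2 : ∫ ω, (∑ l ∈ s, ρ l * P.zInc l k' ω) ^ (2 * r) ∂P.μ ≤ δ ^ (2 * r)) :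
    ∫ ω, P.zInc k k' ω ^ (2 * r) ∂P.μ ≤ (4 * δ) ^ (2 * r) := by
  have := h.prob
  have b1 : ∀ k, L8Bd (fun ω => ∑ l ∈ s, ρ l * P.zInc l k ω) := fun k => L8Bd.sum _ fun l _ => (P.l8z_g_zInc_bd h l k).const_mul _
  have n1 : L8zN P.μ r (fun ω => ∑ l ∈ s, ρ l * P.zInc l k ω) δ := ⟨b1 k, hδ, h1⟩
  have n2 : L8zN P.μ r (fun ω => ∑ l ∈ s, ρ l * P.zInc l k' ω) δ := ⟨b1 k', hδ, h2⟩
  have n3 := ((n1.const_mul 2).add hr (n2.const_mul 2)).mono (P.l8z_g_zInc_bd h k k') (fun ω => ?_)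
  · refine n3.2.2.trans (le_of_eq ?_)
    congr 1
    simp; ring
  · rw [abs_of_nonneg (P.l8z_g_zInc_nonneg k k' ω)]
    refine le_trans ?_ (le_abs_self _)
    have e : P.zInc k k' ω = ∑ l ∈ s, ρ l * P.zInc k k' ω := by rw [← Finset.sum_mul, hρ1, one_mul]
    rw [e, Finset.mul_sum, Finset.mul_sum, ← Finset.sum_add_distrib]
    refine Finset.sum_le_sum fun l hl => ?_
    have : P.zInc k k' ω ≤ 2 * P.zInc l k ω + 2 * P.zInc l k' ω := by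
      unfold zInc
      rw [Finset.mul_sum, Finset.mul_sum, ← Finset.sum_add_distrib]
      refine Finset.sum_le_sum fun i _ => ?_
      unfold XX
      nlinarith [sq_nonneg ((P.X k' i ω - P.X l i ω) + (P.X k i ω - P.X l i ω))]
    nlinarith [hρ0 l hl]

/-! ## G4-G6 : the pair -/

/-- (A3) on the fork with an anchor of length `≤ 1` carried by the first branch -/
theorem l8z_g_proj_term (h : P.Ok) {r : ℕ} {c vmin hmin : ℝ} (hp : P.Proj r c vmin hmin) {k k1 kc : ℕ} (hk : k ≤ k1) (hk1 : k1 < kc)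
    (hkc : kc ≤ P.n + 1) (hv : vmin ≤ P.v k1) (hh : hmin ≤ P.hlen k1 kc) {e : ℝ} (he : 0 ≤ e)
    (hpe : c / (P.v k1 ^ 2 * m * P.hlen k1 kc) ^ r ≤ e ^ (2 * r)) (U : Fin m → Ω → ℝ) (hU : ∀ i, L8Bd (U i)) (hU1 : ∀ ω, ∑ i, U i ω ^ 2 ≤ 1) :
    L8zN (P.fork k) r (fun p => ∑ i, U i p.1 * P.R kc i p.2) e := by
  have := P.l8s_fork_prob h k
  refine ⟨L8Bd.sum _ fun i _ => (hU i).comp_fst.mul (P.l8sb_R_bd h kc i).comp_snd, he, ?_⟩
  have h1 := P.l8s_fork_proj h hp hk hk1 hkc hv hh (fun i p => U i p.1)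
    (fun i => (hU i).1.comp (@measurable_fst Ω Ω mΩ (P.ℱ k1))) (fun i => ⟨(hU i).2.choose, fun p => (hU i).2.choose_spec p.1⟩)
  refine h1.trans ?_
  have b : @L8Bd (Ω × Ω) _ (fun p => (∑ i, U i p.1 ^ 2) ^ r) := (L8Bd.sum _ fun i _ => (hU i).comp_fst.pow 2).pow r
  have i0 : 0 ≤ ∫ p, (∑ i, U i p.1 ^ 2) ^ r ∂(P.fork k) := integral_nonneg fun p => pow_nonneg (Finset.sum_nonneg fun i _ => sq_nonneg _) _
  have i1 : ∫ p, (∑ i, U i p.1 ^ 2) ^ r ∂(P.fork k) ≤ 1 := by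
    have := integral_mono (b.integrable (P.fork k)) (integrable_const 1) fun p =>
      pow_le_one₀ (Finset.sum_nonneg fun i _ => sq_nonneg _) (hU1 p.1)
    simpa using this
  have he2 : 0 ≤ e ^ (2 * r) := by positivity
  rcases le_total 0 (c / (P.v k1 ^ 2 * m * P.hlen k1 kc) ^ r) with h0 | h0
  · exact (mul_le_of_le_one_right h0 i1).trans hpe
  · exact (mul_nonpos_of_nonpos_of_nonneg h0 i0).trans he2

/-- `Q = y¹·R² + R¹·X² + X¹·X²` at the cut `kc` -/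
theorem l8z_g_Q_split (kc : ℕ) (p : Ω × Ω) :
    P.Q p = (∑ i, P.y i p.1 * P.R kc i p.2) + (∑ i, P.X kc i p.2 * P.R kc i p.1) + P.QX kc kc p := by
  unfold Q QX R
  rw [← Finset.sum_add_distrib, ← Finset.sum_add_distrib]
  exact Finset.sum_congr rfl fun i _ => by ring

/-- the two projection errors -/
theorem l8z_g_Q_proj (h : P.Ok) {r : ℕ} (hr : 1 ≤ r) {c vmin hmin : ℝ} (hp : P.Proj r c vmin hmin) {k k1 kc : ℕ} (hk : k ≤ k1) (hk1 : k1 < kc)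
    (hkc : kc ≤ P.n + 1) (hv : vmin ≤ P.v k1) (hh : hmin ≤ P.hlen k1 kc) {e : ℝ} (he : 0 ≤ e)
    (hpe : c / (P.v k1 ^ 2 * m * P.hlen k1 kc) ^ r ≤ e ^ (2 * r)) :
    L8zN (P.fork k) r (fun p => P.Q p - P.QX kc kc p) (2 * e) := by
  have := P.l8s_fork_prob h k
  have hA := P.l8z_g_proj_term h hp hk hk1 hkc hv hh he hpe P.y (P.l8s_y_bd h) (fun ω => (h.y_sq ω).le)
  have hB := P.l8z_g_N_swap h k (P.l8z_g_proj_term h hp hk hk1 hkc hv hh he hpe (P.X kc) (P.l8s_X_bd h kc) (P.l8s_nX_le_one h kc))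
  have hAB := hA.add hr hB
  have e1 : (fun p => P.Q p - P.QX kc kc p) = fun p : Ω × Ω => (∑ i, P.y i p.1 * P.R kc i p.2) + ∑ i, P.X kc i p.swap.1 * P.R kc i p.swap.2 := by
    funext p
    rw [P.l8z_g_Q_split kc p]
    simp
  rw [e1, two_mul]
  exact hAB

theorem l8z_g_QX_bd (h : P.Ok) (k l : ℕ) : @L8Bd (Ω × Ω) _ (P.QX k l) :=
  L8Bd.sum _ fun i _ => (P.l8s_X_bd h k i).comp_fst.mul (P.l8s_X_bd h l i).comp_snd

/-- **G4.**  TEX[LL:prop:statistics-size-accuracy] l.1292-1297.   Fork at `k`, both endpoints projected to the cut `kp > k`: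
`Q = X¹_kp·X²_kp + y¹·R²_kp + R¹_kp·X²_kp`; (A3) with unit anchors on the gap `[k,kp)` (`l8s_fork_proj`, `l8s_fork_swap`);
`X¹_kp·X²_kp = |X_k|² + X_k·Δ¹ + X_k·Δ² + Δ¹·Δ²`, `‖|Δ|‖_(2r) ≤ √‖|Δ|²‖_(2r)`. -/
theorem l8z_g_pair (h : P.Ok) (r : ℕ) (hr : 1 ≤ r) {c vmin hmin : ℝ} (hp : P.Proj r c vmin hmin) {k kp : ℕ} (hk : k < kp) (hkp : kp ≤ P.n + 1)
    (hv : vmin ≤ P.v k) (hh : hmin ≤ P.hlen k kp) {qk δ1 sq e : ℝ} (hδ1 : 0 ≤ δ1) (hsq : 0 ≤ sq) (he : 0 ≤ e)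
    (h1 : ∫ ω, (P.nX k ω - qk) ^ (2 * r) ∂P.μ ≤ δ1 ^ (2 * r)) (h2 : ∫ ω, P.zInc k kp ω ^ (2 * r) ∂P.μ ≤ (sq ^ 2) ^ (2 * r))
    (hpe : c / (P.v k ^ 2 * m * P.hlen k kp) ^ r ≤ e ^ (2 * r)) :
    ∫ p, (P.Q p - qk) ^ (2 * r) ∂(P.fork k) ≤ (δ1 + 2 * sq + sq ^ 2 + 2 * e) ^ (2 * r) := by
  have := h.prob
  have := P.l8s_fork_prob h k
  have hP := P.l8z_g_Q_proj h hr hp le_rfl hk hkp hv hh he hpe
  have hX := fun i => P.l8s_X_bd h k i
  have hD := fun i => P.l8sb_XX_bd h k kp i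
  have nZ : L8zN P.μ r (P.zInc k kp) (sq ^ 2) := ⟨P.l8z_g_zInc_bd h k kp, by positivity, h2⟩
  -- T1
  have t1 : L8zN (P.fork k) r (fun p => (∑ i, P.X k i p.1 * P.X k i p.2) - qk) δ1 := by
    refine (P.l8z_g_N_fst h k (l8zN_of_le (ν := P.μ) ((P.l8s_W_bd_nX h k).sub (l8Bd_const qk)) hδ1 h1)).congr_ae
      ((L8Bd.sum _ fun i _ => (hX i).comp_fst.mul (hX i).comp_snd).sub (l8Bd_const qk)) ?_
    have hall : ∀ᵐ p ∂(P.fork k), ∀ i, P.X k i p.1 = P.X k i p.2 := by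
      rw [ae_all_iff]
      exact fun i => P.l8s_fork_prefix h k (P.l8s_X_sm h k i).measurable
    filter_upwards [hall] with p hp'
    simp only [nX, ← hp', pow_two]
  -- T2, T3
  have t2 : L8zN (P.fork k) r (fun p => ∑ i, P.X k i p.1 * P.XX k kp i p.2) sq := by
    refine (P.l8z_g_N_snd h k nZ).sqrt hsq (L8Bd.sum _ fun i _ => (hX i).comp_fst.mul (hD i).comp_snd) fun p => ?_
    refine (Finset.sum_mul_sq_le_sq_mul_sq _ _ _).trans ?_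
    have a1 := P.l8s_nX_le_one h k p.1
    have a2 := P.l8z_g_zInc_nonneg k kp p.2
    unfold nX at a1
    unfold zInc at a2 ⊢
    nlinarith
  have t3 : L8zN (P.fork k) r (fun p => ∑ i, P.XX k kp i p.1 * P.X k i p.2) sq := by
    refine (P.l8z_g_N_fst h k nZ).sqrt hsq (L8Bd.sum _ fun i _ => (hD i).comp_fst.mul (hX i).comp_snd) fun p => ?_
    refine (Finset.sum_mul_sq_le_sq_mul_sq _ _ _).trans ?_
    have a1 := P.l8s_nX_le_one h k p.2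
    have a2 := P.l8z_g_zInc_nonneg k kp p.1
    unfold nX at a1
    unfold zInc at a2 ⊢
    nlinarith
  have t4 : L8zN (P.fork k) r (fun p => ∑ i, P.XX k kp i p.1 * P.XX k kp i p.2) (sq ^ 2) := by
    have a1 := ((P.l8z_g_N_fst h k nZ).const_mul (1 / 2)).add hr ((P.l8z_g_N_snd h k nZ).const_mul (1 / 2))
    refine (a1.mono (L8Bd.sum _ fun i _ => (hD i).comp_fst.mul (hD i).comp_snd) fun p => ?_).le (le_of_eq ?_)
    · exact l8z_g_inner_le _ _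
    · rw [abs_of_nonneg (by norm_num : (0:ℝ) ≤ 1 / 2)]; ring
  have n3 := (((t1.add hr t2).add hr t3).add hr t4).add hr hP
  refine le_trans (le_of_eq ?_) (n3.2.2.trans (le_of_eq ?_))
  · congr 1
    funext p
    congr 1
    have e : P.QX kp kp p = (∑ i, P.X k i p.1 * P.X k i p.2) + (∑ i, P.X k i p.1 * P.XX k kp i p.2)
        + (∑ i, P.XX k kp i p.1 * P.X k i p.2) + ∑ i, P.XX k kp i p.1 * P.XX k kp i p.2 := by
      unfold QX XX
      rw [← Finset.sum_add_distrib, ← Finset.sum_add_distrib, ← Finset.sum_add_distrib]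
      exact Finset.sum_congr rfl fun i _ => by ring
    show P.Q p - qk = _
    simp only
    rw [e]; ring
  · congr 1
    ring

/-- **G5.**  TEX[LL:prop:statistics-size-accuracy] l.1297-1301.   Smaller split `k ≤ k1 < kc`: central cut `kc`, projection gap `[k1,kc)`;
`|X¹_kc·X²_kc| ≤ (|X¹_kc|² + |X²_kc|²)/2`. -/
theorem l8z_g_small (h : P.Ok) (r : ℕ) (hr : 1 ≤ r) {c vmin hmin : ℝ} (hp : P.Proj r c vmin hmin) {k k1 kc : ℕ} (hk : k ≤ k1) (hk1 : k1 < kc) (hkc : kc ≤ P.n + 1)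
    (hv : vmin ≤ P.v k1) (hh : hmin ≤ P.hlen k1 kc) {qk qc δ1 e : ℝ} (hδ1 : 0 ≤ δ1) (he : 0 ≤ e)
    (h1 : ∫ ω, (P.nX kc ω - qc) ^ (2 * r) ∂P.μ ≤ δ1 ^ (2 * r))
    (hpe : c / (P.v k1 ^ 2 * m * P.hlen k1 kc) ^ r ≤ e ^ (2 * r)) :
    ∫ p, (P.Q p - qk) ^ (2 * r) ∂(P.fork k) ≤ (|qk| + |qc| + δ1 + 2 * e) ^ (2 * r) := by
  have := h.prob
  have := P.l8s_fork_prob h k
  have hP := P.l8z_g_Q_proj h hr hp hk hk1 hkc hv hh he hpe
  have n1 : L8zN P.μ r (P.nX kc) (δ1 + |qc|) := by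
    have := (l8zN_of_le (ν := P.μ) ((P.l8s_W_bd_nX h kc).sub (l8Bd_const qc)) hδ1 h1).add hr (l8zN_const (ν := P.μ) r qc)
    simpa using this
  have n2 : L8zN (P.fork k) r (P.QX kc kc) (δ1 + |qc|) := by
    have a1 := ((P.l8z_g_N_fst h k n1).const_mul (1 / 2)).add hr ((P.l8z_g_N_snd h k n1).const_mul (1 / 2))
    refine (a1.mono (P.l8z_g_QX_bd h kc kc) fun p => ?_).le (le_of_eq ?_)
    · exact l8z_g_inner_le _ _
    · rw [abs_of_nonneg (by norm_num : (0:ℝ) ≤ 1 / 2)]; ring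
  have n3 := (hP.add hr n2).sub hr (l8zN_const (ν := P.fork k) r qk)
  refine le_trans (le_of_eq ?_) (n3.2.2.trans (le_of_eq ?_))
  · congr 1
    funext p
    ring_nf
  · congr 1
    ring

/-- **G6.**  TEX[LL:prop:statistics-size-accuracy] l.1034-1036 (frozen region): `Q ≤ 1`, `ν Q = S`. -/
theorem l8z_g_frozen (h : P.Ok) (r : ℕ) (hr : 1 ≤ r) (k : ℕ) {qk f : ℝ} (hf : 0 ≤ f) (hS : 1 - P.S k ≤ f ^ (2 * r)) :
    ∫ p, (P.Q p - qk) ^ (2 * r) ∂(P.fork k) ≤ (2 * f + |1 - qk|) ^ (2 * r) := by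
  have := P.l8s_fork_prob h k
  have hQ := P.l8z_g_Q_bd h
  have hQ1 := (P.l8s_fork_Q_bd_aux h).2
  have h1 : L8zN (P.fork k) r (fun p => P.Q p - 1) (2 * f) := by
    refine ⟨hQ.sub (l8Bd_const 1), by positivity, ?_⟩
    have hpt : ∀ p, (P.Q p - 1) ^ (2 * r) ≤ 2 ^ (2 * r) * (1 - P.Q p) := by
      intro p
      have hq := abs_le.mp (hQ1 p)
      obtain ⟨n, hn⟩ : ∃ n, 2 * r = n + 1 := ⟨2 * r - 1, by omega⟩
      have e : (P.Q p - 1) ^ (2 * r) = (1 - P.Q p) ^ (2 * r) := by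
        rw [pow_mul, pow_mul]; congr 1; ring
      rw [e, hn, pow_succ, pow_succ]
      have h0 : 0 ≤ 1 - P.Q p := by linarith
      have h2 : (1 - P.Q p) ^ n ≤ 2 ^ n := pow_le_pow_left₀ h0 (by linarith) n
      have h3 : (0:ℝ) ≤ 2 ^ n := by positivity
      nlinarith [mul_le_mul_of_nonneg_right h2 h0, mul_nonneg h3 h0]
    calc ∫ p, (P.Q p - 1) ^ (2 * r) ∂(P.fork k) ≤ ∫ p, 2 ^ (2 * r) * (1 - P.Q p) ∂(P.fork k) :=
          integral_mono (((hQ.sub (l8Bd_const 1)).pow _).integrable _) ((((l8Bd_const 1).sub hQ).const_mul _).integrable _) hpt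
      _ = 2 ^ (2 * r) * (1 - P.S k) := by
          rw [integral_const_mul, integral_sub (integrable_const _) (hQ.integrable _), P.l8s_fork_Q h k]
          simp
      _ ≤ (2 * f) ^ (2 * r) := by
          rw [mul_pow]
          gcongr
  have h2 := h1.add hr (l8zN_const (ν := P.fork k) r (1 - qk))
  refine le_trans (le_of_eq ?_) h2.2.2
  congr 1
  funext p
  ring_nf

end L8P

/-! ## glue (PROVED) -/

/-- monotonicity of the bound of G1 in the length of the window -/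
theorem l8zIW_mono {a : ℝ} {m J r R : ℕ} {c1 cR V e0 l0 mesh T T' ϑ : ℝ} (ha : 0 ≤ a) (hc1 : 0 ≤ c1) (hcR : 0 ≤ cR) (hV : 0 < V)
    (he0 : 0 < e0) (hl0 : 0 < l0) (hϑ : 0 < ϑ) (hTT : T ≤ T') :
    l8zIW a m J r R c1 cR V e0 l0 mesh T ϑ ≤ l8zIW a m J r R c1 cR V e0 l0 mesh T' ϑ := by
  unfold l8zIW
  have h1 : 0 ≤ (cR / ϑ ^ R) ^ ((1 : ℝ) / r) := by positivity
  gcongr

theorem l8zIW_nonneg {a : ℝ} {m J r R : ℕ} {c1 cR V e0 l0 mesh T ϑ : ℝ} (ha : 0 ≤ a) (hc1 : 0 ≤ c1) (hcR : 0 ≤ cR) (hV : 0 < V)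
    (he0 : 0 < e0) (hl0 : 0 < l0) (hϑ : 0 < ϑ) (hmesh : 0 ≤ mesh) (hT : 0 ≤ T) :
    0 ≤ l8zIW a m J r R c1 cR V e0 l0 mesh T ϑ := by
  unfold l8zIW
  positivity

namespace L8P

variable (P : L8P Ω m)

/-- G1 + G2 on one buffer `[k0,k1)` of length `≥ ρ` inside a span `≤ sp` -/
theorem l8z_g_buf' (h : P.Ok) {τ : ℕ → ℝ} {ka kb : ℕ} {V e0 om mesh : ℝ} (hT : P.ZT τ ka kb V e0 om mesh) (r R J : ℕ) (hr : 1 ≤ r) (hR : 1 ≤ R)
    {c1 cR cpin hmin l0 ϑ : ℝ} (hc1 : 0 ≤ c1) (hcR : 0 ≤ cR) (hcp : 0 ≤ cpin) (hl0 : 0 < l0) (hϑ : 0 < ϑ) (hp1 : P.Proj 1 c1 V hmin)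
    (hpR : P.Proj R cR V hmin) (hpin : P.Pin r cpin) (hmn : hmin ≤ e0 * l0) {sp ρ ε : ℝ} (hρ : 0 < ρ) (hmesh : 0 ≤ mesh)
    {k0 k1 : ℕ} (hk0 : ka ≤ k0) (hk1 : k1 ≤ kb) (hl : ρ ≤ τ k1 - τ k0) (hsp : τ k1 - τ k0 ≤ sp) (hroom : τ k1 + 2 ^ J * l0 ≤ τ kb)
    (hεb : cpin * (l8zIW P.a m J r R c1 cR V e0 l0 mesh sp ϑ / (om * ρ ^ 2)) ^ r ≤ ε ^ (2 * r)) :
    ∫ ω, ((∑ l ∈ Ico k0 k1, (τ (l + 1) - τ l) / (τ k1 - τ k0) * P.L l ω)
        - ∫ ω', (∑ l ∈ Ico k0 k1, (τ (l + 1) - τ l) / (τ k1 - τ k0) * P.L l ω') ∂P.μ) ^ (2 * r) ∂P.μ ≤ ε ^ (2 * r) := by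
  have hlen : 0 < τ k1 - τ k0 := lt_of_lt_of_le hρ hl
  have hk01 : k0 ≤ k1 := by
    by_contra hc
    have := hT.mono (not_le.mp hc).le
    linarith
  have ha : 0 ≤ P.a := h.a_pos.le
  have hsp0 : 0 ≤ sp := hlen.le.trans hsp
  have hIW0 : 0 ≤ l8zIW P.a m J r R c1 cR V e0 l0 mesh sp ϑ :=
    l8zIW_nonneg ha hc1 hcR hT.V_pos hT.e0_pos hl0 hϑ hmesh hsp0
  have h1 := P.l8z_g_intW h hT r R J hr hR hc1 hcR hl0 hϑ hp1 hpR hmn hk0 hk01 hk1 hroom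
  have h2 : ∫ ω, (∑ k ∈ Ico k0 k1, (τ (k + 1) - τ k) * P.W k ω) ^ r ∂P.μ ≤ l8zIW P.a m J r R c1 cR V e0 l0 mesh sp ϑ ^ r :=
    h1.trans (pow_le_pow_left₀ (l8zIW_nonneg ha hc1 hcR hT.V_pos hT.e0_pos hl0 hϑ hmesh hlen.le)
      (l8zIW_mono ha hc1 hcR hT.V_pos hT.e0_pos hl0 hϑ hsp) r)
  refine (P.l8z_g_buf h hT r hr hpin hcp hk0 hk1 hlen hIW0 h2).trans (le_trans ?_ hεb)
  have hom := hT.om_pos
  gcongr

/-- **G1-G3 assembled at one cut.**  TEX[LL:prop:statistics-size-accuracy] l.1243-1290 -/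
theorem l8z_g_cut (h : P.Ok) {τ : ℕ → ℝ} {ka kb : ℕ} {V e0 om mesh : ℝ} (hT : P.ZT τ ka kb V e0 om mesh) (r R J : ℕ) (hr : 1 ≤ r) (hR : 1 ≤ R)
    {c1 cR cpin hmin l0 ϑ : ℝ} (hc1 : 0 ≤ c1) (hcR : 0 ≤ cR) (hcp : 0 ≤ cpin) (hl0 : 0 < l0) (hϑ : 0 < ϑ) (hp1 : P.Proj 1 c1 V hmin)
    (hpR : P.Proj R cR V hmin) (hpin : P.Pin r cpin) (hmn : hmin ≤ e0 * l0) (q : ℕ → ℝ) {η0 Lq sp ρ ε : ℝ} (hη0 : 0 ≤ η0) (hLq : 0 ≤ Lq)
    (hε : 0 ≤ ε) (hρ : 0 < ρ) (hmesh : 0 ≤ mesh) {a0 a1 k b0 b1 : ℕ} (hka : ka ≤ a0) (hak : a1 ≤ k + 1) (hkb : k ≤ b0) (hb1 : b1 ≤ kb)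
    (hla : ρ ≤ τ a1 - τ a0) (hlb : ρ ≤ τ b1 - τ b0) (hsp : τ b1 - τ a0 ≤ sp) (hroom : τ b1 + 2 ^ J * l0 ≤ τ kb)
    (hS : ∀ l, a0 ≤ l → l ≤ b1 → |P.S l - q l| ≤ η0) (hq : ∀ l l', a0 ≤ l → l ≤ l' → l' ≤ b1 → |q l' - q l| ≤ Lq * (τ l' - τ l))
    (hεb : cpin * (l8zIW P.a m J r R c1 cR V e0 l0 mesh sp ϑ / (om * ρ ^ 2)) ^ r ≤ ε ^ (2 * r)) :
    ∫ ω, (P.nX k ω - q k) ^ (2 * r) ∂P.μ ≤ (16 * (η0 + Lq * sp + ε)) ^ (2 * r) ∧
    ∫ ω, (∑ l ∈ Ico a0 a1, (τ (l + 1) - τ l) / (τ a1 - τ a0) * P.zInc l k ω) ^ (2 * r) ∂P.μ ≤ (16 * (η0 + Lq * sp + ε)) ^ (2 * r) := by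
  have hτ := hT.mono
  have ha : a0 < a1 := by
    by_contra hc
    have := hτ (not_lt.mp hc)
    linarith
  have hb : b0 < b1 := by
    by_contra hc
    have := hτ (not_lt.mp hc)
    linarith
  have ha1b1 : a1 ≤ b1 := by omega
  have h0 : a0 ≤ b0 := by omega
  have e1 : τ a1 ≤ τ b1 := hτ ha1b1
  have e2 : τ a0 ≤ τ b0 := hτ h0
  refine P.l8z_g_norm h hτ r hr q ha hak hkb hb (lt_of_lt_of_le hρ hla) (lt_of_lt_of_le hρ hlb) hη0 hLq hε hsp hS hq ?_ ?_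
  · exact P.l8z_g_buf' h hT r R J hr hR hc1 hcR hcp hl0 hϑ hp1 hpR hpin hmn hρ hmesh hka (ha1b1.trans hb1) hla (by linarith) (by linarith) hεb
  · exact P.l8z_g_buf' h hT r R J hr hR hc1 hcR hcp hl0 hϑ hp1 hpR hpin hmn hρ hmesh (hka.trans h0) hb1 hlb (by linarith) hroom hεb

/-- **EXIT of D11.g at an interior cut.**  TEX[LL:prop:statistics-size-accuracy] l.1243-1297.
Past buffer `[a0,k)`, projection cut `kp`, future buffer `[kp,b1)`, all of time length `≥ ρ ≥ l0`, total span `≤ sp`. -/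
theorem l8z_g_interior (h : P.Ok) {τ : ℕ → ℝ} {ka kb : ℕ} {V e0 om mesh : ℝ} (hT : P.ZT τ ka kb V e0 om mesh) (r R J : ℕ) (hr : 1 ≤ r) (hR : 1 ≤ R)
    {c1 cR cr cpin hmin l0 ϑ : ℝ} (hc1 : 0 ≤ c1) (hcR : 0 ≤ cR) (hcr : 0 ≤ cr) (hcp : 0 ≤ cpin) (hl0 : 0 < l0) (hϑ : 0 < ϑ) (hp1 : P.Proj 1 c1 V hmin)
    (hpR : P.Proj R cR V hmin) (hpr : P.Proj r cr V hmin) (hpin : P.Pin r cpin) (hmn : hmin ≤ e0 * l0) (q : ℕ → ℝ) {η0 Lq sp ρ ε sq e : ℝ}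
    (hη0 : 0 ≤ η0) (hLq : 0 ≤ Lq) (hε : 0 ≤ ε) (hρ : l0 ≤ ρ) (hmesh : 0 ≤ mesh) (hsq0 : 0 ≤ sq) (he : 0 ≤ e) {a0 k kp b1 : ℕ} (hka : ka ≤ a0) (hb1 : b1 ≤ kb)
    (hla : ρ ≤ τ k - τ a0) (hlk : ρ ≤ τ kp - τ k) (hlb : ρ ≤ τ b1 - τ kp) (hsp : τ b1 - τ a0 ≤ sp) (hroom : τ b1 + 2 ^ J * l0 ≤ τ kb)
    (hS : ∀ l, a0 ≤ l → l ≤ b1 → |P.S l - q l| ≤ η0) (hq : ∀ l l', a0 ≤ l → l ≤ l' → l' ≤ b1 → |q l' - q l| ≤ Lq * (τ l' - τ l))
    (hεb : cpin * (l8zIW P.a m J r R c1 cR V e0 l0 mesh sp ϑ / (om * ρ ^ 2)) ^ r ≤ ε ^ (2 * r))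
    (hsq : 64 * (η0 + Lq * sp + ε) ≤ sq ^ 2) (hpe : cr / (V ^ 2 * m * (e0 * ρ)) ^ r ≤ e ^ (2 * r)) :
    ∫ p, (P.Q p - q k) ^ (2 * r) ∂(P.fork k) ≤ (16 * (η0 + Lq * sp + ε) + 2 * sq + sq ^ 2 + 2 * e) ^ (2 * r) := by
  have hρ0 : 0 < ρ := lt_of_lt_of_le hl0 hρ
  have hτ := hT.mono
  have hak : a0 < k := by
    by_contra hc
    have := hτ (not_lt.mp hc)
    linarith
  have hkk : k < kp := by
    by_contra hc
    have := hτ (not_lt.mp hc)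
    linarith
  have hkb : kp < b1 := by
    by_contra hc
    have := hτ (not_lt.mp hc)
    linarith
  have hlen : 0 < τ k - τ a0 := lt_of_lt_of_le hρ0 hla
  obtain ⟨c1k, c2k⟩ := P.l8z_g_cut h hT r R J hr hR hc1 hcR hcp hl0 hϑ hp1 hpR hpin hmn q hη0 hLq hε hρ0 hmesh (a0 := a0) (a1 := k) (k := k)
    (b0 := kp) (b1 := b1) hka (Nat.le_succ k) hkk.le hb1 hla hlb hsp hroom hS hq hεb
  obtain ⟨_, c2p⟩ := P.l8z_g_cut h hT r R J hr hR hc1 hcR hcp hl0 hϑ hp1 hpR hpin hmn q hη0 hLq hε hρ0 hmesh (a0 := a0) (a1 := k) (k := kp)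
    (b0 := kp) (b1 := b1) hka (by omega) le_rfl hb1 hla hlb hsp hroom hS hq hεb
  have hsp0 : 0 ≤ sp := by
    have := hτ (hak.le.trans (hkk.le.trans hkb.le))
    linarith
  have hδ : 0 ≤ 16 * (η0 + Lq * sp + ε) := by positivity
  have hinc := P.l8z_g_incr h r hr (Ico a0 k) (fun l => (τ (l + 1) - τ l) / (τ k - τ a0))
    (fun l _ => div_nonneg (sub_nonneg.mpr (hτ (Nat.le_succ l))) hlen.le)
    (by rw [← Finset.sum_div, l8z_g_tele τ hak.le, div_self hlen.ne']) hδ c2k c2p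
  have hinc' : ∫ ω, P.zInc k kp ω ^ (2 * r) ∂P.μ ≤ (sq ^ 2) ^ (2 * r) :=
    hinc.trans (pow_le_pow_left₀ (by positivity) (by linarith) _)
  have hvk : V ≤ P.v k := hT.mass.trans (h.v_mono (hka.trans hak.le))
  have hhl : e0 * ρ ≤ P.hlen k kp :=
    (mul_le_mul_of_nonneg_left hlk hT.e0_pos.le).trans (P.l8z_g_hlen hT (hka.trans hak.le) hkk.le (hkb.le.trans hb1))
  have hhm : hmin ≤ P.hlen k kp := hmn.trans ((mul_le_mul_of_nonneg_left hρ hT.e0_pos.le).trans hhl)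
  have hm : (0 : ℝ) < m := by exact_mod_cast P.l8z_g_m_pos h
  have hV := hT.V_pos
  have he0 := hT.e0_pos
  have hpe' : cr / (P.v k ^ 2 * m * P.hlen k kp) ^ r ≤ e ^ (2 * r) := by
    refine le_trans ?_ hpe
    gcongr
  exact P.l8z_g_pair h r hr hpr hkk (by have := hT.kb_le; omega) hvk hhm hδ hsq0 he c1k hinc' hpe'

end L8P

theorem l8z_g_eqns_cite : True := by
  have := @L8P.zInc.eq_1
  have := @L8P.zF.eq_1
  have := @L8P.zU.eq_1
  have := @l8zNext.eq_1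
  have := @l8zIW.eq_1
  trivial

end Claimed.Agent.R286
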