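import Mathlib

/-!
# Row 286 (S0533), folder L08, file SP : THE ABSTRACT SINGLE PATH      (owner helper75; prefix `L8P` / `l8s_`)

The probabilistic language of LL Section 8 (units PM, IV, PC, SA of the board `origin/helper75:notes/R286/LL08_BOARD_75.md`) and of
LL Lemmas 6.2, 6.3, on the FINE level (ledger LD3b): a finite grid of cuts `k = 0, .., n` (`k` revelations made), cut `n + 1` = the
terminal spin is known.  NO model here: the model enters through the instantiation (unit SPI) of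

* the STRUCTURE  `L8P Ω m` + `L8P.Ok`   : a probability space, a filtration, and for every cut `k` an explicit regular conditional
  law `κ k ω` of the whole path given the prefix of `ω` at the cut `k` (proper, tower property: true POINTWISE for the planted
  chain: prefix of `ω` glued to the planted continuation).  So every conditional expectation is the explicit function `P.E k f`;
* the three ANALYTIC INPUTS `L8P.Sus` (A1, line 2), `L8P.Pin` (A1 line 3, A2), `L8P.Proj` (A3 = PE (13), pointwise in the prefix).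

Everything else (`X, C, H, L, W, S, B, D`, fork laws) is DEFINED from these data.
`v k` = mass of the revelation number `k` (the one between the cuts `k` and `k + 1`); `v k = a` for `k ≥ n` (terminal draw).
`dv k = v k - v (k - 1)` = the weight of the cut `k` in every mass integral `∫ .. dv`.
-/

set_option autoImplicit false

namespace Claimed.Agent.R286

open MeasureTheory ProbabilityTheory Finset
open scoped ENNReal

/-- the data of an abstract single path with `m` sites -/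
structure L8P (Ω : Type) [mΩ : MeasurableSpace Ω] (m : ℕ) where
  /-- the law of the path (all revealed fields and the terminal spin) -/
  μ : Measure Ω
  /-- `ℱ k` = the prefix at the cut `k` -/
  ℱ : Filtration ℕ mΩ
  /-- `κ k ω` = conditional law of the whole path given the prefix of `ω` at the cut `k` -/
  κ : ℕ → Kernel Ω Ω
  /-- number of revelations -/
  n : ℕ
  /-- terminal mass -/
  a : ℝ
  /-- mass of the revelation number `k` -/
  v : ℕ → ℝ
  /-- field clock increment of the revelation number `k` -/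
  dh : ℕ → ℝ
  /-- the normalised terminal spin `y = σ / √m` -/
  y : Fin m → Ω → ℝ

namespace L8P

variable {Ω : Type} [mΩ : MeasurableSpace Ω] {m : ℕ} (P : L8P Ω m)

/-- conditional expectation given the prefix at the cut `k`, as an explicit function -/
noncomputable def E (k : ℕ) (f : Ω → ℝ) (ω : Ω) : ℝ := ∫ ω', f ω' ∂(P.κ k ω)

/-- posterior mean `X_k = E_k y` -/
noncomputable def X (k : ℕ) (i : Fin m) (ω : Ω) : ℝ := P.E k (P.y i) ω

/-- martingale increment of the revelation number `l` (`l = n`: the terminal draw, `y - X_n`) -/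
noncomputable def dX (l : ℕ) (i : Fin m) (ω : Ω) : ℝ := P.X (l + 1) i ω - P.X l i ω

/-- increment between two cuts -/
noncomputable def XX (k l : ℕ) (i : Fin m) (ω : Ω) : ℝ := P.X l i ω - P.X k i ω

/-- residual `y - X_k` -/
noncomputable def R (k : ℕ) (i : Fin m) (ω : Ω) : ℝ := P.y i ω - P.X k i ω

/-- `|X_k|²` -/
noncomputable def nX (k : ℕ) (ω : Ω) : ℝ := ∑ i, P.X k i ω ^ 2

/-- conditional covariance `C_k` -/
noncomputable def C (k : ℕ) (i j : Fin m) (ω : Ω) : ℝ := P.E k (fun ω' => P.y i ω' * P.y j ω') ω - P.X k i ω * P.X k j ω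

/-- source Hessian `H_k` = conditional mean of the mass-weighted future increment covariances (step Hessian rule) -/
noncomputable def H (k : ℕ) (i j : Fin m) (ω : Ω) : ℝ :=
  P.E k (fun ω' => ∑ l ∈ Ico k (P.n + 1), P.v l * (P.dX l i ω' * P.dX l j ω')) ω

/-- `L_k = y·X_k - |X_k|²/2` -/
noncomputable def L (k : ℕ) (ω : Ω) : ℝ := ∑ i, P.y i ω * P.X k i ω - P.nX k ω / 2

/-- `W_k = (y - X_k)ᵀ H_k (y - X_k)` -/
noncomputable def W (k : ℕ) (ω : Ω) : ℝ := ∑ i, ∑ j, P.R k i ω * P.H k i j ω * P.R k j ω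

/-- `tr H_k²` -/
noncomputable def trH2 (k : ℕ) (ω : Ω) : ℝ := ∑ i, ∑ j, P.H k i j ω ^ 2

/-- `tr C_k²` -/
noncomputable def trC2 (k : ℕ) (ω : Ω) : ℝ := ∑ i, ∑ j, P.C k i j ω ^ 2

/-- `tr C_k H_k` -/
noncomputable def trCH (k : ℕ) (ω : Ω) : ℝ := ∑ i, ∑ j, P.C k i j ω * P.H k i j ω

/-- `X_kᵀ C_k X_k` -/
noncomputable def xCx (k : ℕ) (ω : Ω) : ℝ := ∑ i, ∑ j, P.X k i ω * P.C k i j ω * P.X k j ω

/-- `S_k = E |X_k|²` -/
noncomputable def S (k : ℕ) : ℝ := ∫ ω, P.nX k ω ∂P.μ

/-- `B_k = E ‖E_k y yᵀ‖²_HS` -/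
noncomputable def B (k : ℕ) : ℝ := ∫ ω, ∑ i, ∑ j, P.E k (fun ω' => P.y i ω' * P.y j ω') ω ^ 2 ∂P.μ

/-- `D_k² = B_k - S_k²` -/
noncomputable def D2 (k : ℕ) : ℝ := P.B k - P.S k ^ 2

/-- weight of the cut `k` in mass integrals -/
def dv (k : ℕ) : ℝ := P.v k - (if k = 0 then 0 else P.v (k - 1))

/-- field length between two cuts -/
def hlen (k l : ℕ) : ℝ := ∑ j ∈ Ico k l, P.dh j

/-- the fork law at the cut `k`: two continuations, conditionally independent given the common prefix -/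
noncomputable def fork (k : ℕ) : Measure (Ω × Ω) := P.μ ⊗ₘ P.κ k

/-- overlap of the two branches -/
noncomputable def Q (ω : Ω × Ω) : ℝ := ∑ i, P.y i ω.1 * P.y i ω.2

/-- inner product of the posterior means of the two branches at the cuts `k₁`, `k₂` (projected pair) -/
noncomputable def QX (k₁ k₂ : ℕ) (ω : Ω × Ω) : ℝ := ∑ i, P.X k₁ i ω.1 * P.X k₂ i ω.2

/-- **structural validity** -/
structure Ok : Prop where
  prob : IsProbabilityMeasure P.μ
  markov : ∀ k, IsMarkovKernel (P.κ k)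
  /-- at the cut `0` nothing is revealed -/
  root : ∀ ω, P.κ 0 ω = P.μ
  /-- after the terminal draw everything is revealed -/
  term : ∀ k, P.n < k → ∀ ω, P.κ k ω = Measure.dirac ω
  /-- `κ k` depends on the prefix only -/
  adapted : ∀ k s, MeasurableSet s → Measurable[P.ℱ k] fun ω => P.κ k ω s
  /-- `κ k ω` keeps the prefix of `ω` -/
  proper : ∀ k ω A, MeasurableSet[P.ℱ k] A → P.κ k ω A = A.indicator 1 ω
  /-- tower property -/
  tower : ∀ k l, k ≤ l → ∀ ω s, MeasurableSet s → ∫⁻ ω', P.κ l ω' s ∂(P.κ k ω) = P.κ k ω s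
  a_pos : 0 < P.a
  v_nonneg : ∀ k, 0 ≤ P.v k
  v_mono : Monotone P.v
  v_term : ∀ k, P.n ≤ k → P.v k = P.a
  dh_nonneg : ∀ k, 0 ≤ P.dh k
  y_meas : ∀ i, Measurable (P.y i)
  y_sq : ∀ ω, ∑ i, P.y i ω ^ 2 = 1

/-- **(SP2)** susceptibility, LL (A1) line 2 on the grid: `S_(k+1) - S_k ≥ c m Δh_k E tr H_k²`
(exact for the planted chain with `c = 1/4` as soon as `a² m Δh_k ≤ 1/8`) -/
def Sus (c : ℝ) : Prop :=
  ∀ k < P.n, c * m * P.dh k * ∫ ω, P.trH2 k ω ∂P.μ ≤ P.S (k + 1) - P.S k

/-- **(SP3)** pinned moments of order `2 r`, LL (A1) line 3 and (A2): deterministic weights `w`, polynomials `p k` -/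
def Pin (r : ℕ) (c : ℝ) : Prop :=
  ∀ (w : ℕ → ℝ) (p : ℕ → Polynomial ℝ),
    ∫ ω, (∑ k ∈ range (P.n + 1), P.dv k * w k *
        ((p k).eval (P.L k ω) - ∫ ω', (p k).eval (P.L k ω') ∂P.μ)) ^ (2 * r) ∂P.μ
      ≤ c * ∫ ω, (∑ k ∈ range (P.n + 1), P.dv k * w k ^ 2 * ((p k).derivative.eval (P.L k ω)) ^ 2 * P.W k ω) ^ r ∂P.μ

/-- **(SP4)** projection bound of order `2 r`, LL (A3) = PE (13): POINTWISE in the prefix at the cut `k₁`, fixed anchor `u`;
only for masses `≥ vmin` and field lengths `≥ hmin` -/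
def Proj (r : ℕ) (c vmin hmin : ℝ) : Prop :=
  ∀ k₁ k₂, k₁ < k₂ → k₂ ≤ P.n + 1 → vmin ≤ P.v k₁ → hmin ≤ P.hlen k₁ k₂ → ∀ (ω : Ω) (u : Fin m → ℝ),
    ∫ ω', (∑ i, u i * P.R k₂ i ω') ^ (2 * r) ∂(P.κ k₁ ω)
      ≤ c * (∑ i, u i ^ 2) ^ r / (P.v k₁ ^ 2 * m * P.hlen k₁ k₂) ^ r

end L8P

end Claimed.Agent.R286
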