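import Claimed.Agent.R286.L08.SPKitA

/-!
# Row 286 (S0533), folder L08, file SPKitB : POSTERIOR MEANS, BRACKET IDENTITIES   (owner helper22; prefix `l8k_`)

Consequences of `L8P.Ok` only.  Pointwise in `ω`.

* `X k` : bounded, adapted, martingale (`l8k_X_tower`), `X k = y` after the terminal draw, `|X k|² ≤ 1`;
* bracket identities of LL Lemma 6.3: `l8k_brk_past`, `l8k_brk_fut`, `l8k_E_nX`, `l8k_two_EL`;
* `S` monotone in `[0,1]`; increments: telescoping, conditional orthogonality.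
-/

set_option autoImplicit false

namespace Claimed.Agent.R286

open MeasureTheory ProbabilityTheory Finset
open scoped ENNReal

variable {Ω : Type} [mΩ : MeasurableSpace Ω] {m : ℕ} {P : L8P Ω m}

/-! ### the spin and the posterior means -/

theorem l8k_y_sq_le (h : P.Ok) (i : Fin m) (ω : Ω) : P.y i ω ^ 2 ≤ 1 := by
  rw [← h.y_sq ω]
  exact Finset.single_le_sum (f := fun i => P.y i ω ^ 2) (fun j _ => sq_nonneg _) (Finset.mem_univ i)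

theorem l8k_y_abs_le (h : P.Ok) (i : Fin m) (ω : Ω) : |P.y i ω| ≤ 1 := by
  have := l8k_y_sq_le h i ω
  exact abs_le_one_iff_mul_self_le_one.2 (by nlinarith)

theorem l8k_y_bd (h : P.Ok) (i : Fin m) : L8Bd (P.y i) := ⟨h.y_meas i, 1, l8k_y_abs_le h i⟩

theorem l8k_X_bd (h : P.Ok) (k : ℕ) (i : Fin m) : L8Bd (P.X k i) := l8k_E_bd h (l8k_y_bd h i) k

theorem l8k_X_meas (h : P.Ok) (k : ℕ) (i : Fin m) : Measurable[P.ℱ k] (P.X k i) := l8k_E_meas h (l8k_y_bd h i) k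

theorem l8k_X_meas_le (h : P.Ok) {k l : ℕ} (hkl : k ≤ l) (i : Fin m) : Measurable[P.ℱ l] (P.X k i) :=
  (l8k_X_meas h k i).mono (P.ℱ.mono hkl) le_rfl

theorem l8k_X_abs_le (h : P.Ok) (k : ℕ) (i : Fin m) (ω : Ω) : |P.X k i ω| ≤ 1 :=
  l8k_E_abs_le h (l8k_y_abs_le h i) k ω

theorem l8k_X_term (h : P.Ok) {k : ℕ} (hk : P.n < k) (i : Fin m) (ω : Ω) : P.X k i ω = P.y i ω :=
  l8k_E_term h (h.y_meas i) hk ω

theorem l8k_X_tower (h : P.Ok) {k l : ℕ} (hkl : k ≤ l) (i : Fin m) (ω : Ω) : P.E k (P.X l i) ω = P.X k i ω :=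
  l8k_E_tower h (l8k_y_bd h i) hkl ω

theorem l8k_X_zero (h : P.Ok) (i : Fin m) (ω : Ω) : P.X 0 i ω = ∫ x, P.y i x ∂P.μ := l8k_E_zero h _ ω

theorem l8k_dX_bd (h : P.Ok) (l : ℕ) (i : Fin m) : L8Bd (P.dX l i) := l8k_bd_sub (l8k_X_bd h _ i) (l8k_X_bd h _ i)

theorem l8k_XX_bd (h : P.Ok) (k l : ℕ) (i : Fin m) : L8Bd (P.XX k l i) := l8k_bd_sub (l8k_X_bd h _ i) (l8k_X_bd h _ i)

theorem l8k_R_bd (h : P.Ok) (k : ℕ) (i : Fin m) : L8Bd (P.R k i) := l8k_bd_sub (l8k_y_bd h i) (l8k_X_bd h _ i)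

theorem l8k_nX_bd (h : P.Ok) (k : ℕ) : L8Bd (P.nX k) := l8k_bd_sum _ fun i _ => l8k_bd_pow (l8k_X_bd h k i) 2

theorem l8k_nX_meas (h : P.Ok) (k : ℕ) : Measurable[P.ℱ k] (P.nX k) :=
  Finset.measurable_fun_sum _ fun i _ => (l8k_X_meas h k i).pow_const 2

theorem l8k_nX_nonneg (k : ℕ) (ω : Ω) : 0 ≤ P.nX k ω := Finset.sum_nonneg fun _ _ => sq_nonneg _

theorem l8k_L_bd (h : P.Ok) (k : ℕ) : L8Bd (P.L k) :=
  l8k_bd_sub (l8k_bd_sum _ fun i _ => l8k_bd_mul (l8k_y_bd h i) (l8k_X_bd h k i)) (l8k_bd_div_const 2 (l8k_nX_bd h k))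

/-- linear tests of the spin -/
theorem l8k_dot_bd (h : P.Ok) (u : Fin m → ℝ) {f : Fin m → Ω → ℝ} (hf : ∀ i, L8Bd (f i)) :
    L8Bd (fun x => ∑ i, u i * f i x) := l8k_bd_sum _ fun i _ => l8k_bd_const_mul _ (hf i)

theorem l8k_E_dot (h : P.Ok) (u : Fin m → ℝ) {f : Fin m → Ω → ℝ} (hf : ∀ i, L8Bd (f i)) (k : ℕ) (ω : Ω) :
    P.E k (fun x => ∑ i, u i * f i x) ω = ∑ i, u i * P.E k (f i) ω := by
  rw [l8k_E_sum h _ fun i _ => l8k_bd_const_mul _ (hf i)]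
  exact Finset.sum_congr rfl fun i _ => l8k_E_const_mul _ _ _ _

theorem l8k_E_dot_y (h : P.Ok) (u : Fin m → ℝ) (k : ℕ) (ω : Ω) :
    P.E k (fun x => ∑ i, u i * P.y i x) ω = ∑ i, u i * P.X k i ω := l8k_E_dot h u (l8k_y_bd h) k ω

/-- Cauchy-Schwarz against the unit vector `y` -/
theorem l8k_dot_y_sq_le (h : P.Ok) (u : Fin m → ℝ) (ω : Ω) : (∑ i, u i * P.y i ω) ^ 2 ≤ ∑ i, u i ^ 2 := by
  have := Finset.sum_mul_sq_le_sq_mul_sq Finset.univ u (fun i => P.y i ω)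
  rwa [h.y_sq ω, mul_one] at this

theorem l8k_dot_X_sq_le (h : P.Ok) (u : Fin m → ℝ) (k : ℕ) (ω : Ω) : (∑ i, u i * P.X k i ω) ^ 2 ≤ ∑ i, u i ^ 2 := by
  rw [← l8k_E_dot_y h u k ω]
  refine (l8k_E_sq_le h (l8k_dot_bd h u (l8k_y_bd h)) k ω).trans ?_
  have := l8k_E_mono h (l8k_bd_pow (l8k_dot_bd h u (l8k_y_bd h)) 2) (l8k_bd_const (∑ i, u i ^ 2))
    (fun x => l8k_dot_y_sq_le h u x) k ω
  rwa [l8k_E_const h] at this

theorem l8k_nX_le_one (h : P.Ok) (k : ℕ) (ω : Ω) : P.nX k ω ≤ 1 := by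
  have h1 := l8k_dot_X_sq_le h (fun i => P.X k i ω) k ω
  have e : ∑ i, P.X k i ω * P.X k i ω = P.nX k ω := Finset.sum_congr rfl fun i _ => (sq _).symm
  rw [e] at h1
  change P.nX k ω ^ 2 ≤ P.nX k ω at h1
  nlinarith [l8k_nX_nonneg (P := P) k ω]

theorem l8k_nX_term (h : P.Ok) {k : ℕ} (hk : P.n < k) (ω : Ω) : P.nX k ω = 1 := by
  rw [← h.y_sq ω]
  exact Finset.sum_congr rfl fun i _ => by rw [l8k_X_term h hk]

/-! ### bracket identities (LL Lemma 6.3) -/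

/-- `E_l (y · X_k) = X_l · X_k` for `k ≤ l` -/
theorem l8k_E_y_X (h : P.Ok) {k l : ℕ} (hkl : k ≤ l) (ω : Ω) :
    P.E l (fun x => ∑ i, P.y i x * P.X k i x) ω = ∑ i, P.X l i ω * P.X k i ω := by
  rw [l8k_E_sum h _ fun i _ => l8k_bd_mul (l8k_y_bd h i) (l8k_X_bd h k i)]
  exact Finset.sum_congr rfl fun i _ => l8k_E_pull' h (l8k_X_meas_le h hkl i) _ ω

/-- **past bracket**: `2 E_l L_k = |X_l|² - |X_l - X_k|²` for `k ≤ l` -/
theorem l8k_brk_past (h : P.Ok) {k l : ℕ} (hkl : k ≤ l) (ω : Ω) :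
    2 * P.E l (P.L k) ω = P.nX l ω - ∑ i, P.XX k l i ω ^ 2 := by
  have e1 : P.E l (P.L k) ω = ∑ i, P.X l i ω * P.X k i ω - P.nX k ω / 2 := by
    have : P.E l (P.L k) ω = P.E l (fun x => ∑ i, P.y i x * P.X k i x) ω - P.E l (fun x => P.nX k x / 2) ω :=
      l8k_E_sub h (l8k_bd_sum _ fun i _ => l8k_bd_mul (l8k_y_bd h i) (l8k_X_bd h k i))
        (l8k_bd_div_const 2 (l8k_nX_bd h k)) l ω
    rw [this, l8k_E_y_X h hkl, l8k_E_div_const,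
      l8k_E_self h ((l8k_nX_meas h k).mono (P.ℱ.mono hkl) le_rfl)]
  rw [e1]
  unfold L8P.nX L8P.XX
  rw [mul_sub, Finset.mul_sum, ← Finset.sum_sub_distrib, mul_div_cancel₀ _ (two_ne_zero), ← Finset.sum_sub_distrib]
  exact Finset.sum_congr rfl fun i _ => by ring

/-- `2 E_k L_k = |X_k|²` -/
theorem l8k_brk_self (h : P.Ok) (k : ℕ) (ω : Ω) : 2 * P.E k (P.L k) ω = P.nX k ω := by
  rw [l8k_brk_past h le_rfl]
  simp [L8P.XX]

/-- **future bracket**: `2 E_l L_k = E_l |X_k|²` for `l ≤ k` -/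
theorem l8k_brk_fut (h : P.Ok) {k l : ℕ} (hlk : l ≤ k) (ω : Ω) :
    2 * P.E l (P.L k) ω = P.E l (P.nX k) ω := by
  rw [← l8k_E_tower h (l8k_L_bd h k) hlk, ← l8k_E_const_mul]
  exact l8k_E_congr (fun x => l8k_brk_self h k x) l ω

/-- conditional Pythagoras: `E_l |X_k|² = |X_l|² + E_l |X_k - X_l|²` for `l ≤ k` -/
theorem l8k_E_nX (h : P.Ok) {k l : ℕ} (hlk : l ≤ k) (ω : Ω) :
    P.E l (P.nX k) ω = P.nX l ω + P.E l (fun x => ∑ i, P.XX l k i x ^ 2) ω := by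
  have e : ∀ x, ∑ i, P.XX l k i x ^ 2 = P.nX k x - 2 * (∑ i, P.X k i x * P.X l i x) + P.nX l x := by
    intro x
    unfold L8P.nX L8P.XX
    rw [Finset.mul_sum, ← Finset.sum_sub_distrib, ← Finset.sum_add_distrib]
    exact Finset.sum_congr rfl fun i _ => by ring
  have hb : L8Bd (fun x => ∑ i, P.X k i x * P.X l i x) :=
    l8k_bd_sum _ fun i _ => l8k_bd_mul (l8k_X_bd h k i) (l8k_X_bd h l i)
  rw [l8k_E_congr e, l8k_E_add h (l8k_bd_sub (l8k_nX_bd h k) (l8k_bd_const_mul 2 hb)) (l8k_nX_bd h l),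
    l8k_E_sub h (l8k_nX_bd h k) (l8k_bd_const_mul 2 hb), l8k_E_const_mul, l8k_E_self h (l8k_nX_meas h l),
    l8k_E_sum h _ fun i _ => l8k_bd_mul (l8k_X_bd h k i) (l8k_X_bd h l i)]
  have : ∑ i, P.E l (fun x => P.X k i x * P.X l i x) ω = P.nX l ω := by
    refine Finset.sum_congr rfl fun i _ => ?_
    rw [l8k_E_pull' h (l8k_X_meas h l i), l8k_X_tower h hlk, sq]
  rw [this]
  ring

theorem l8k_nX_le_E (h : P.Ok) {k l : ℕ} (hlk : l ≤ k) (ω : Ω) : P.nX l ω ≤ P.E l (P.nX k) ω := by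
  rw [l8k_E_nX h hlk]
  exact le_add_of_nonneg_right (l8k_E_nonneg (fun x => Finset.sum_nonneg fun _ _ => sq_nonneg _) l ω)

/-- `|X_l|² ≤ 2 E_l L_k` for `l ≤ k` -/
theorem l8k_nX_le_brk (h : P.Ok) {k l : ℕ} (hlk : l ≤ k) (ω : Ω) : P.nX l ω ≤ 2 * P.E l (P.L k) ω := by
  rw [l8k_brk_fut h hlk]
  exact l8k_nX_le_E h hlk ω

/-- `2 E L_k = S_k` -/
theorem l8k_two_EL (h : P.Ok) (k : ℕ) : 2 * ∫ ω, P.L k ω ∂P.μ = P.S k := by
  rw [← l8k_integral_E h (l8k_L_bd h k) k, ← integral_const_mul]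
  exact integral_congr_ae (Filter.Eventually.of_forall fun ω => l8k_brk_self h k ω)

/-! ### the deterministic statistic `S` -/

theorem l8k_S_diff (h : P.Ok) {k l : ℕ} (hkl : k ≤ l) :
    P.S l - P.S k = ∫ ω, ∑ i, P.XX k l i ω ^ 2 ∂P.μ := by
  have hb : L8Bd (fun x => ∑ i, P.XX k l i x ^ 2) := l8k_bd_sum _ fun i _ => l8k_bd_pow (l8k_XX_bd h k l i) 2
  have e1 : P.S l = ∫ ω, P.E k (P.nX l) ω ∂P.μ := (l8k_integral_E h (l8k_nX_bd h l) k).symm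
  have e2 : ∫ ω, P.E k (P.nX l) ω ∂P.μ = ∫ ω, (P.nX k ω + P.E k (fun x => ∑ i, P.XX k l i x ^ 2) ω) ∂P.μ :=
    integral_congr_ae (Filter.Eventually.of_forall fun ω => l8k_E_nX h hkl ω)
  rw [e1, e2, integral_add (l8k_int h (l8k_nX_bd h k)) (l8k_int h (l8k_E_bd h hb k)), l8k_integral_E h hb k]
  unfold L8P.S
  ring

theorem l8k_S_mono (h : P.Ok) : Monotone P.S := by
  intro k l hkl
  have := l8k_S_diff h hkl
  have h0 : 0 ≤ ∫ ω, ∑ i, P.XX k l i ω ^ 2 ∂P.μ := integral_nonneg fun ω => Finset.sum_nonneg fun _ _ => sq_nonneg _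
  linarith

theorem l8k_S_nonneg (k : ℕ) : 0 ≤ P.S k := integral_nonneg fun ω => l8k_nX_nonneg k ω

theorem l8k_S_le_one (h : P.Ok) (k : ℕ) : P.S k ≤ 1 := by
  have := h.prob
  have := integral_mono (l8k_int h (l8k_nX_bd h k)) (l8k_int h (l8k_bd_const 1)) fun ω => l8k_nX_le_one h k ω
  simpa [L8P.S] using this

theorem l8k_S_term (h : P.Ok) {k : ℕ} (hk : P.n < k) : P.S k = 1 := by
  have := h.prob
  unfold L8P.S
  rw [integral_congr_ae (Filter.Eventually.of_forall fun ω => l8k_nX_term h hk ω)]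
  simp

/-! ### increments -/

theorem l8k_XX_self (k : ℕ) (i : Fin m) (ω : Ω) : P.XX k k i ω = 0 := by simp [L8P.XX]

theorem l8k_XX_add (k l l' : ℕ) (i : Fin m) (ω : Ω) : P.XX k l i ω + P.XX l l' i ω = P.XX k l' i ω := by
  unfold L8P.XX; ring

theorem l8k_XX_succ (l : ℕ) (i : Fin m) (ω : Ω) : P.XX l (l + 1) i ω = P.dX l i ω := rfl

theorem l8k_XX_sum {k l : ℕ} (hkl : k ≤ l) (i : Fin m) (ω : Ω) : P.XX k l i ω = ∑ j ∈ Ico k l, P.dX j i ω := by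
  induction l, hkl using Nat.le_induction with
  | base => simp [L8P.XX]
  | succ l hkl ih =>
    rw [Finset.sum_Ico_succ_top hkl, ← ih, ← l8k_XX_succ, l8k_XX_add]

theorem l8k_R_eq_XX (h : P.Ok) (k : ℕ) (i : Fin m) (ω : Ω) : P.R k i ω = P.XX k (P.n + 1) i ω := by
  unfold L8P.R L8P.XX
  rw [l8k_X_term h (Nat.lt_succ_self _)]

theorem l8k_R_sum (h : P.Ok) {k : ℕ} (hk : k ≤ P.n + 1) (i : Fin m) (ω : Ω) :
    P.R k i ω = ∑ j ∈ Ico k (P.n + 1), P.dX j i ω := by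
  rw [l8k_R_eq_XX h, l8k_XX_sum hk]

theorem l8k_XX_meas (h : P.Ok) {k l l' : ℕ} (hk : k ≤ l') (hl : l ≤ l') (i : Fin m) : Measurable[P.ℱ l'] (P.XX k l i) :=
  (l8k_X_meas_le h hl i).sub (l8k_X_meas_le h hk i)

/-- increments after the cut `k` are centred given the prefix at `k` -/
theorem l8k_E_XX (h : P.Ok) {k c c' : ℕ} (hc : k ≤ c) (hc' : k ≤ c') (i : Fin m) (ω : Ω) : P.E k (P.XX c c' i) ω = 0 := by
  have : P.E k (P.XX c c' i) ω = P.E k (P.X c' i) ω - P.E k (P.X c i) ω :=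
    l8k_E_sub h (l8k_X_bd h c' i) (l8k_X_bd h c i) k ω
  rw [this, l8k_X_tower h hc, l8k_X_tower h hc', sub_self]

/-- a bounded factor known at the cut `c` is orthogonal to the increments after `c` -/
theorem l8k_E_cross (h : P.Ok) {k c c' : ℕ} (hkc : k ≤ c) (hcc' : c ≤ c') {g : Ω → ℝ} (hg : Measurable[P.ℱ c] g)
    (hgb : L8Bd g) (i : Fin m) (ω : Ω) : P.E k (fun x => g x * P.XX c c' i x) ω = 0 := by
  rw [← l8k_E_tower h (l8k_bd_mul hgb (l8k_XX_bd h c c' i)) hkc]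
  have : ∀ x, P.E c (fun x => g x * P.XX c c' i x) x = 0 := by
    intro x
    rw [l8k_E_pull h hg, l8k_E_XX h le_rfl hcc', mul_zero]
  rw [l8k_E_congr this, l8k_E_const h]

/-- conditional orthogonality of consecutive blocks, tested against two fixed vectors -/
theorem l8k_E_orth (h : P.Ok) {k c₁ c₂ c₃ : ℕ} (h1 : k ≤ c₁) (h2 : c₁ ≤ c₂) (h3 : c₂ ≤ c₃) (u w : Fin m → ℝ) (ω : Ω) :
    P.E k (fun x => (∑ i, u i * P.XX c₁ c₂ i x) * (∑ i, w i * P.XX c₂ c₃ i x)) ω = 0 := by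
  have hg : Measurable[P.ℱ c₂] (fun x => ∑ i, u i * P.XX c₁ c₂ i x) :=
    Finset.measurable_fun_sum _ fun i _ => (l8k_XX_meas h h2 le_rfl i).const_mul _
  have hgb : L8Bd (fun x => ∑ i, u i * P.XX c₁ c₂ i x) := l8k_dot_bd h u (l8k_XX_bd h c₁ c₂)
  have e : ∀ x, (∑ i, u i * P.XX c₁ c₂ i x) * (∑ i, w i * P.XX c₂ c₃ i x)
      = ∑ j, w j * ((∑ i, u i * P.XX c₁ c₂ i x) * P.XX c₂ c₃ j x) := by
    intro x
    rw [Finset.mul_sum]
    exact Finset.sum_congr rfl fun j _ => by ring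
  rw [l8k_E_congr e, l8k_E_dot h w (f := fun j x => (∑ i, u i * P.XX c₁ c₂ i x) * P.XX c₂ c₃ j x)
    (fun j => l8k_bd_mul hgb (l8k_XX_bd h c₂ c₃ j))]
  exact Finset.sum_eq_zero fun j _ => by rw [l8k_E_cross h (h1.trans h2) h3 hg hgb, mul_zero]

/-- conditional Pythagoras for a block, tested against a fixed vector -/
theorem l8k_E_sq_add (h : P.Ok) {k c₁ c₂ c₃ : ℕ} (h1 : k ≤ c₁) (h2 : c₁ ≤ c₂) (h3 : c₂ ≤ c₃) (u : Fin m → ℝ) (ω : Ω) :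
    P.E k (fun x => (∑ i, u i * P.XX c₁ c₃ i x) ^ 2) ω
      = P.E k (fun x => (∑ i, u i * P.XX c₁ c₂ i x) ^ 2) ω + P.E k (fun x => (∑ i, u i * P.XX c₂ c₃ i x) ^ 2) ω := by
  have hA : L8Bd (fun x => ∑ i, u i * P.XX c₁ c₂ i x) := l8k_dot_bd h u (l8k_XX_bd h c₁ c₂)
  have hB : L8Bd (fun x => ∑ i, u i * P.XX c₂ c₃ i x) := l8k_dot_bd h u (l8k_XX_bd h c₂ c₃)
  have e : ∀ x, (∑ i, u i * P.XX c₁ c₃ i x) ^ 2 = ((∑ i, u i * P.XX c₁ c₂ i x) ^ 2 + (∑ i, u i * P.XX c₂ c₃ i x) ^ 2)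
      + 2 * ((∑ i, u i * P.XX c₁ c₂ i x) * (∑ i, u i * P.XX c₂ c₃ i x)) := by
    intro x
    have : ∑ i, u i * P.XX c₁ c₃ i x = (∑ i, u i * P.XX c₁ c₂ i x) + ∑ i, u i * P.XX c₂ c₃ i x := by
      rw [← Finset.sum_add_distrib]
      exact Finset.sum_congr rfl fun i _ => by rw [← l8k_XX_add c₁ c₂ c₃]; ring
    rw [this]; ring
  rw [l8k_E_congr e, l8k_E_add h (l8k_bd_add (l8k_bd_pow hA 2) (l8k_bd_pow hB 2)) (l8k_bd_const_mul 2 (l8k_bd_mul hA hB)),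
    l8k_E_add h (l8k_bd_pow hA 2) (l8k_bd_pow hB 2), l8k_E_const_mul, l8k_E_orth h h1 h2 h3]
  ring

/-- a block = the sum of its elementary increments, in conditional second moment -/
theorem l8k_E_sq_sum (h : P.Ok) {k c c' : ℕ} (h1 : k ≤ c) (h2 : c ≤ c') (u : Fin m → ℝ) (ω : Ω) :
    P.E k (fun x => (∑ i, u i * P.XX c c' i x) ^ 2) ω
      = ∑ l ∈ Ico c c', P.E k (fun x => (∑ i, u i * P.dX l i x) ^ 2) ω := by
  induction c', h2 using Nat.le_induction with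
  | base => simp [L8P.XX, l8k_E_const h]
  | succ c' h2 ih =>
    rw [Finset.sum_Ico_succ_top h2, ← ih, l8k_E_sq_add h h1 h2 (Nat.le_succ c')]
    rfl

end Claimed.Agent.R286
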