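import Claimed.Agent.R286.Defs.Gh

/-!
# Row 286, LL sec. 8, unit SPI (instantiation of the abstract single path), file SpiMk      (owner helper257; prefix `spi`)

NUMBER-LEVEL Markov structure of `Defs/Gh` (no measurability, no integrability: only the normalisation of the transitions).

* `SpiNrm B ls`    : every transition of the hierarchy integrates to one (provider: the regularity layer of PE Sec. 2);
* `spiSpl k ξ η`   : the first `k` drivers of `ξ`, then `η`;
* `spi_markov`     : `ghPath` = path up to the cut `k`, then the path of the remaining levels from the revealed field (ARBITRARY tests);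
* `spi_path_spin`  : `ghPath` of a spin test is `ghE`;
* `spiRep k`       : representative maps of the fork at the cut `k` (two labels which share the revelations `0, .., k-1`);
* `spi_pair`       : two labels without shared revelation, product test: the expectation factorises;
* `spi_fork`       : fork at the cut `k`, product test = path to the cut, then the product of the two conditional expectations.
-/

set_option autoImplicit false

namespace Claimed.Agent.R286

open MeasureTheory ProbabilityTheory

variable {S ι : Type} [Fintype S] [Fintype ι]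

set_option linter.unusedSectionVars false

/-- every transition of the hierarchy integrates to one -/
def SpiNrm (B : GhB S) : List (GhLv S ι) → Prop
  | [] => True
  | l :: ls => (∀ z, ∫ ξ, ghD B l ls z ξ ∂ghStd ι = 1) ∧ SpiNrm B ls

/-- the first `k` entries of `ξ`, then `η` -/
def spiSpl {α : Type} (k : ℕ) (ξ η : ℕ → α) : ℕ → α := fun t => if t < k then ξ t else η (t - k)

theorem spiSpl_zero {α : Type} (ξ η : ℕ → α) : spiSpl 0 ξ η = η := by
  funext t; simp [spiSpl]

theorem spiSpl_cons {α : Type} (k : ℕ) (x : α) (ξ η : ℕ → α) :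
    spiSpl (k + 1) (ghCons x ξ) η = ghCons x (spiSpl k ξ η) := by
  funext t
  cases t with
  | zero => simp [spiSpl, ghCons]
  | succ t => simp [spiSpl, ghCons]

theorem spiSpl_self {α : Type} (k : ℕ) (x : α) : spiSpl k (fun _ => x) (fun _ => x) = fun _ => x := by
  funext t; simp [spiSpl]

theorem spi_pre_nil (ξ : ℕ → ι → ℝ) (k : ℕ) : ghPre ([] : List (GhLv S ι)) ξ k = 0 := by
  simp [ghPre, ghSum]

theorem spi_pre_zero (ls : List (GhLv S ι)) (ξ : ℕ → ι → ℝ) : ghPre ls ξ 0 = 0 := by
  simp [ghPre, ghSum]

theorem spi_pre_cons (l : GhLv S ι) (ls : List (GhLv S ι)) (x : ι → ℝ) (ξ : ℕ → ι → ℝ) (k : ℕ) :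
    ghPre (l :: ls) (ghCons x ξ) (k + 1) = l.inc x + ghPre ls ξ k := by
  simp only [ghPre, List.take_succ_cons, ghSum]
  rfl

theorem spi_gw_sum {B : GhB S} (hB : B.Ok) (z : S → ℝ) : ∑ s, ghGw B z s = 1 := by
  have hpos : 0 < ∑ t, B.w t * Real.exp (B.a * z t) := by
    have hne : ∃ t, 0 < B.w t := by
      by_contra h
      push Not at h
      have h0 : ∑ s, B.w s ≤ 0 := Finset.sum_nonpos fun s _ => h s
      rw [hB.sum] at h0
      linarith
    obtain ⟨t, ht⟩ := hne
    refine Finset.sum_pos' (fun s _ => mul_nonneg (hB.nonneg s) (Real.exp_pos _).le) ⟨t, Finset.mem_univ _, ?_⟩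
    exact mul_pos ht (Real.exp_pos _)
  simp only [ghGw]
  rw [← Finset.sum_div]
  exact div_self hpos.ne'

/-- constants -/
theorem spi_path_const {B : GhB S} (hB : B.Ok) (ls : List (GhLv S ι)) (hn : SpiNrm B ls) (z : S → ℝ) (c : ℝ) :
    ghPath B ls z (fun _ _ => c) = c := by
  induction ls generalizing z with
  | nil =>
    simp only [ghPath]
    rw [← Finset.sum_mul, spi_gw_sum hB, one_mul]
  | cons l ls ih =>
    simp only [ghPath]
    have h1 : ∀ ξ : ι → ℝ, ghD B l ls z ξ * ghPath B ls (z + l.inc ξ) (fun _ _ => c) = ghD B l ls z ξ * c := by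
      intro ξ; rw [ih hn.2]
    simp only [h1]
    rw [integral_mul_const, hn.1 z, one_mul]

/-- a spin test -/
theorem spi_path_spin (B : GhB S) (ls : List (GhLv S ι)) (z : S → ℝ) (Φ : S → ℝ) :
    ghPath B ls z (fun _ s => Φ s) = ghE B ls Φ z := by
  induction ls generalizing z with
  | nil => simp only [ghPath, ghE]
  | cons l ls ih =>
    simp only [ghPath, ghE]
    refine integral_congr_ae (Filter.Eventually.of_forall fun ξ => ?_)
    simp only [ih]

/-- **Markov property at the cut `k`**, arbitrary tests -/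
theorem spi_markov {B : GhB S} (hB : B.Ok) (ls : List (GhLv S ι)) (hn : SpiNrm B ls) (k : ℕ) (z : S → ℝ)
    (P : (ℕ → ι → ℝ) → S → ℝ) :
    ghPath B ls z P = ghPath B ls z fun ξ _ =>
      ghPath B (ls.drop k) (z + ghPre ls ξ k) fun η s => P (spiSpl k ξ η) s := by
  induction ls generalizing k z P with
  | nil =>
    simp only [List.drop_nil, spi_pre_nil, add_zero, ghPath]
    have h0 : spiSpl k (fun _ _ => (0 : ℝ) : ℕ → ι → ℝ) (fun _ _ => 0) = fun _ _ => 0 := spiSpl_self k _
    rw [h0, ← Finset.sum_mul, spi_gw_sum hB, one_mul]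
  | cons l ls ih =>
    cases k with
    | zero =>
      simp only [List.drop_zero, spi_pre_zero, add_zero, spiSpl_zero]
      rw [spi_path_const hB (l :: ls) hn]
    | succ k =>
      simp only [ghPath, List.drop_succ_cons]
      refine integral_congr_ae (Filter.Eventually.of_forall fun ξ => ?_)
      simp only
      rw [ih hn.2 k (z + l.inc ξ)]
      simp only [spiSpl_cons, spi_pre_cons, add_assoc]

/-! ### two labels -/

instance spi_std_prob : IsProbabilityMeasure (ghStd ι) := by
  unfold ghStd; infer_instance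

/-- representative maps of the fork at the cut `k`: the two labels share the revelations `0, .., k-1` -/
def spiRep (k : ℕ) (t : ℕ) (a : Fin 2) : Fin 2 := if t < k then 0 else a

theorem spiRep_zero : spiRep 0 = fun _ a => a := by
  funext t a; simp [spiRep]

theorem spiRep_succ (k : ℕ) : (fun t => spiRep (k + 1) (t + 1)) = spiRep k := by
  funext t a; simp [spiRep]

theorem spi_cons_eval {q : ℕ} (W : Fin q → ι → ℝ) (η : ℕ → Fin q → ι → ℝ) (a : Fin q) :
    (fun t => ghCons W η t a) = ghCons (W a) fun t => η t a := by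
  funext t
  cases t with
  | zero => rfl
  | succ t => rfl

/-- two labels without shared revelation, product test -/
theorem spi_pair (B : GhB S) (ls : List (GhLv S ι)) (G : Fin 2 → S → ℝ) (f g : (ℕ → ι → ℝ) → S → ℝ) :
    ghNu B ls (fun _ a => a) G (fun η σ => f (fun t => η t 0) (σ 0) * g (fun t => η t 1) (σ 1)) =
      ghPath B ls (G 0) f * ghPath B ls (G 1) g := by
  induction ls generalizing G f g with
  | nil =>
    simp only [ghNu, ghPath]
    set h : Fin 2 → S → ℝ := fun a s =>
      ghGw B (G a) s * (if a = 0 then f (fun _ _ => 0) s else g (fun _ _ => 0) s) with hh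
    have h1 : (∑ s, ghGw B (G 0) s * f (fun _ _ => 0) s) * (∑ s, ghGw B (G 1) s * g (fun _ _ => 0) s) =
        ∏ a : Fin 2, ∑ s, h a s := by
      rw [Fin.prod_univ_two]; simp [hh]
    rw [h1, Finset.prod_univ_sum, Fintype.piFinset_univ]
    refine Finset.sum_congr rfl fun σ _ => ?_
    rw [Fin.prod_univ_two, Fin.prod_univ_two]
    simp only [hh]
    simp
    ring
  | cons l ls ih =>
    simp only [ghNu, ghPath]
    set F : Fin 2 → (ι → ℝ) → ℝ := fun a ξ =>
      ghD B l ls (G a) ξ * ghPath B ls (G a + l.inc ξ)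
        (fun η s => (if a = 0 then f else g) (ghCons ξ η) s) with hF
    have h1 : (∫ ξ, ghD B l ls (G 0) ξ * ghPath B ls (G 0 + l.inc ξ) (fun η s => f (ghCons ξ η) s) ∂ghStd ι) *
        (∫ ξ, ghD B l ls (G 1) ξ * ghPath B ls (G 1 + l.inc ξ) (fun η s => g (ghCons ξ η) s) ∂ghStd ι) =
        ∏ a : Fin 2, ∫ ξ, F a ξ ∂ghStd ι := by
      rw [Fin.prod_univ_two]; simp [hF]
    rw [h1, ← integral_fintype_prod_eq_prod]
    refine integral_congr_ae (Filter.Eventually.of_forall fun W => ?_)
    simp only [spi_cons_eval]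
    have e := ih (fun a => G a + l.inc (W a)) (fun η s => f (ghCons (W 0) η) s) (fun η s => g (ghCons (W 1) η) s)
    beta_reduce at e
    rw [e, Fin.prod_univ_two]
    simp only [ghDT, Fin.prod_univ_two, hF]
    simp
    ring

/-- **fork at the cut `k`**, product test -/
theorem spi_fork {B : GhB S} (hB : B.Ok) (ls : List (GhLv S ι)) (hn : SpiNrm B ls) (k : ℕ) (hk : k ≤ ls.length)
    (z : S → ℝ) (f g : (ℕ → ι → ℝ) → S → ℝ) :
    ghNu B ls (spiRep k) (fun _ => z) (fun η σ => f (fun t => η t 0) (σ 0) * g (fun t => η t 1) (σ 1)) =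
      ghPath B ls z fun ξ _ =>
        ghPath B (ls.drop k) (z + ghPre ls ξ k) (fun η s => f (spiSpl k ξ η) s) *
          ghPath B (ls.drop k) (z + ghPre ls ξ k) (fun η s => g (spiSpl k ξ η) s) := by
  induction k generalizing ls z f g with
  | zero =>
    simp only [List.drop_zero, spi_pre_zero, add_zero, spiSpl_zero]
    rw [spi_path_const hB ls hn, spiRep_zero, spi_pair]
  | succ k ih =>
    cases ls with
    | nil => simp at hk
    | cons l ls =>
      have hk' : k ≤ ls.length := by simpa using hk
      simp only [ghNu, ghPath, List.drop_succ_cons, spiRep_succ]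
      set F : Fin 2 → (ι → ℝ) → ℝ := fun a ξ =>
        if a = 0 then ghD B l ls z ξ * ghPath B ls (z + l.inc ξ) (fun ξ' _ =>
          ghPath B (ls.drop k) (z + l.inc ξ + ghPre ls ξ' k) (fun η s => f (ghCons ξ (spiSpl k ξ' η)) s) *
          ghPath B (ls.drop k) (z + l.inc ξ + ghPre ls ξ' k) (fun η s => g (ghCons ξ (spiSpl k ξ' η)) s))
        else 1 with hF
      have h1 : ∫ W : Fin 2 → ι → ℝ, ∏ a, F a (W a) ∂(Measure.pi fun _ : Fin 2 => ghStd ι) =
          ∏ a : Fin 2, ∫ ξ, F a ξ ∂ghStd ι := integral_fintype_prod_eq_prod F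
      rw [Fin.prod_univ_two] at h1
      have h2 : ∫ ξ, F 1 ξ ∂ghStd ι = 1 := by simp [hF]
      rw [h2, mul_one] at h1
      have h3 : ∫ ξ, F 0 ξ ∂ghStd ι = ∫ ξ, ghD B l ls z ξ * ghPath B ls (z + l.inc ξ) (fun η _ =>
          ghPath B (ls.drop k) (z + ghPre (l :: ls) (ghCons ξ η) (k + 1))
            (fun η' s => f (spiSpl (k + 1) (ghCons ξ η) η') s) *
          ghPath B (ls.drop k) (z + ghPre (l :: ls) (ghCons ξ η) (k + 1))
            (fun η' s => g (spiSpl (k + 1) (ghCons ξ η) η') s)) ∂ghStd ι := by
        refine integral_congr_ae (Filter.Eventually.of_forall fun ξ => ?_)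
        simp only [hF, if_true, spiSpl_cons, spi_pre_cons, add_assoc]
      rw [← h3, ← h1]
      refine integral_congr_ae (Filter.Eventually.of_forall fun W => ?_)
      have h4 : ∀ a : Fin 2, spiRep (k + 1) 0 a = 0 := fun a => by simp [spiRep]
      simp only [h4, spi_cons_eval]
      have e := ih ls hn.2 hk' (z + l.inc (W 0)) (fun η s => f (ghCons (W 0) η) s) (fun η s => g (ghCons (W 0) η) s)
      beta_reduce at e
      rw [e, Fin.prod_univ_two]
      simp only [ghDT, Fin.prod_univ_two, hF, h4]
      simp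

theorem spi_mk_eqns_cite : True := by
  have := @SpiNrm.eq_1
  have := @SpiNrm.eq_2
  have := @SpiNrm.eq_def
  have := @spiSpl.eq_1
  have := @spiRep.eq_1
  trivial

end Claimed.Agent.R286
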